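import Crest.Agent.R269.Adj_851

/-!
# R269 (S0411), leaf GEO-ADJ, part 3 (helper851): locality, chart formula, chart fields

* `fs φ s = φ • s` is a field (`isFld_fs`)
* `exF A i W` : the field given in the chart `i` by `W` (compact support), extended by
  `J W Jᴴ` and `0`; `isFld_exF`, `exF_psd`, `trF_exF`, `dtF_exF`
* `rho_near` (locality), `rho_of_supp`, **`rho_chart`** :
  `ρ_s = Re (∑_{ab} ∂_a ∂̄_b (det g s_{ab})) / det g` in every chart
* `chF K i χ B` : the field `χ B / det g` of the chart `i`; (8.4)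
-/

set_option autoImplicit false
set_option linter.unusedSectionVars false

open Set Filter Topology Complex MeasureTheory
open scoped ContDiff Matrix ComplexConjugate ComplexOrder

namespace Crest.Agent.R269.AdjLoc_851

open Crest.Agent.R275 Crest.Agent.R275.Geo Crest.Agent.R275.Core144 Crest.Agent.R275.EDR890
open Crest.Agent.R275.Pai323 Crest.Agent.R275.C1d194
open Crest.Agent.R275.SerG398 (lint dens OffZ)
open Crest.Agent.R275.OmT75 (dj dl dl_chain dl_mul db_chain dj_sum dj_congr J_smooth)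
open Crest.Agent.R273.Defs_333 Crest.Agent.R273.Hess_333 Crest.Agent.R273.HessB_333
open Crest.Agent.R273.HM_333 Crest.Agent.R273.Kah_333 Crest.Agent.R273.Vol_333
open Crest.Agent.R273.Vm_333
open Crest.Agent.R273.StV_37 Crest.Agent.R273.Piola_5 Crest.Agent.R273.Green_5
open Crest.Agent.R273.VolInv_5 Crest.Agent.R273.GreenM_5
open Crest.Agent.R269.Fld_851 Crest.Agent.R269.Adj_851

noncomputable section

variable {n : ℕ} {M : Type} [TopologicalSpace M] {A : Atl n M}

/-! ### multiples -/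

/-- `φ s` -/
def fs (φ : M → ℝ) (s : A.ι → M → Matrix (Fin n) (Fin n) ℂ) (i : A.ι) (x : M) :
    Matrix (Fin n) (Fin n) ℂ := (φ x : ℂ) • s i x

theorem isFld_fs {φ : M → ℝ} (hφ : A.Sm φ) {s : A.ι → M → Matrix (Fin n) (Fin n) ℂ}
    (hs : IsFld A s) : IsFld A (fs φ s) where
  sm i a b := by
    have h1 : A.SmAt i (fun x => (φ x : ℂ) * s i x a b) := smAt_mul (smAt_ofReal (hφ i)) (hs.sm i a b)
    exact h1
  herm i x := by
    change ((φ x : ℂ) • s i x)ᴴ = (φ x : ℂ) • s i x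
    rw [Matrix.conjTranspose_smul, (hs.herm i x).eq]
    congr 1
    exact Complex.conj_ofReal _
  tc i j x hx := by
    change (φ x : ℂ) • s j x = Jm A i j x * ((φ x : ℂ) • s i x) * (Jm A i j x)ᴴ
    rw [hs.tc i j x hx, Matrix.mul_smul, Matrix.smul_mul]
  off i x hx := by
    change (φ x : ℂ) • s i x = 0
    rw [hs.off i x hx, smul_zero]

theorem trF_fs (φ : M → ℝ) (s β : A.ι → M → Matrix (Fin n) (Fin n) ℂ) (x : M) :
    trF (fs φ s) β x = φ x * trF s β x := by
  have h1 : prF (fs φ s) β (ci A x) x = φ x * prF s β (ci A x) x := by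
    unfold prF
    rw [Finset.mul_sum]
    refine Finset.sum_congr rfl fun a _ => ?_
    rw [Finset.mul_sum]
    refine Finset.sum_congr rfl fun b _ => ?_
    change ((φ x : ℂ) * s (ci A x) x a b) * _ = _
    ring
  unfold trF
  rw [h1, Complex.re_ofReal_mul]

theorem Lop_fs (φ : M → ℝ) (s : A.ι → M → Matrix (Fin n) (Fin n) ℂ) (u : M → ℝ) (x : M) :
    Lop (fs φ s) u x = φ x * Lop s u x := trF_fs φ s _ x

/-! ### extension of a matrix function given in one chart -/

open Classical in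
/-- the field given by `W` in the chart `i` -/
def exF (A : Atl n M) (i : A.ι) (W : M → Matrix (Fin n) (Fin n) ℂ) (j : A.ι) (x : M) :
    Matrix (Fin n) (Fin n) ℂ :=
  if x ∈ (A.e i).source ∩ (A.e j).source then Jm A i j x * W x * (Jm A i j x)ᴴ else 0

theorem exF_of_mem {i j : A.ι} (W : M → Matrix (Fin n) (Fin n) ℂ) {x : M}
    (hx : x ∈ (A.e i).source ∩ (A.e j).source) :
    exF A i W j x = Jm A i j x * W x * (Jm A i j x)ᴴ := if_pos hx

theorem exF_not {i j : A.ι} (W : M → Matrix (Fin n) (Fin n) ℂ) {x : M}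
    (hx : x ∉ (A.e i).source ∩ (A.e j).source) : exF A i W j x = 0 := if_neg hx

theorem exF_self {i : A.ι} (W : M → Matrix (Fin n) (Fin n) ℂ) {x : M}
    (hx : x ∈ (A.e i).source) : exF A i W i x = W x := by
  rw [exF_of_mem W ⟨hx, hx⟩, Core144.J_self i hx]
  simp

theorem exF_off {i j : A.ι} {W : M → Matrix (Fin n) (Fin n) ℂ} {C : Set M} (h0 : Off A i W C)
    {x : M} (hx : x ∉ C) : exF A i W j x = 0 := by
  by_cases h : x ∈ (A.e i).source ∩ (A.e j).source
  · rw [exF_of_mem W h, h0 x h.1 hx, Matrix.mul_zero, Matrix.zero_mul]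
  · exact exF_not W h

theorem exF_tc {i : A.ι} (W : M → Matrix (Fin n) (Fin n) ℂ) : Tc A (exF A i W) := by
  intro j k x hx
  by_cases hi : x ∈ (A.e i).source
  · rw [exF_of_mem W ⟨hi, hx.1⟩, exF_of_mem W ⟨hi, hx.2⟩,
      ← Core144.J_mul i j k ⟨⟨hi, hx.1⟩, hx.2⟩, Matrix.conjTranspose_mul]
    simp only [Matrix.mul_assoc]
  · rw [exF_not W fun h => hi h.1, exF_not W fun h => hi h.1, Matrix.mul_zero, Matrix.zero_mul]

theorem exF_psd {i j : A.ι} {W : M → Matrix (Fin n) (Fin n) ℂ} {x : M}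
    (hW : x ∈ (A.e i).source → (W x).PosSemidef) : (exF A i W j x).PosSemidef := by
  by_cases h : x ∈ (A.e i).source ∩ (A.e j).source
  · rw [exF_of_mem W h]
    exact (hW h.1).mul_mul_conjTranspose_same _
  · rw [exF_not W h]
    exact Matrix.PosSemidef.zero

theorem J_on_ov (i j : A.ι) (b a : Fin n) :
    ContDiffOn ℝ ∞ (fun z => A.J i j ((A.e j).symm z) b a) (A.ov j i) := by
  have h1 : MapsTo (fun z => A.e i ((A.e j).symm z)) (A.ov j i) (A.ov i j) := by
    intro z hz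
    refine ⟨(A.e i).map_source hz.2, ?_⟩
    rw [(A.e i).left_inv hz.2]
    exact (A.e j).map_target hz.1
  have h2 : ContDiffOn ℝ ∞
      (fun z => A.J i j ((A.e i).symm (A.e i ((A.e j).symm z))) b a) (A.ov j i) :=
    ContDiffOn.comp (g := fun w => A.J i j ((A.e i).symm w) b a) (J_smooth i j b a)
      (trans_contDiffOn j i) h1
  refine h2.congr fun z hz => ?_
  rw [(A.e i).left_inv hz.2]

theorem contDiffOn_conj {U : Set (Cn n)} {f : Cn n → ℂ} (hf : ContDiffOn ℝ ∞ f U) :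
    ContDiffOn ℝ ∞ (fun z => conj (f z)) U :=
  (conjCLE : ℂ ≃L[ℝ] ℂ).contDiff.comp_contDiffOn hf

section t2

variable [T2Space M]

theorem isFld_exF {i : A.ι} {W : M → Matrix (Fin n) (Fin n) ℂ} {C : Set M}
    (hW : ∀ a b, A.SmAt i (fun x => W x a b)) (hH : ∀ x ∈ (A.e i).source, (W x).IsHermitian)
    (hC : IsCompact C) (hCi : C ⊆ (A.e i).source) (h0 : Off A i W C) : IsFld A (exF A i W) where
  sm j a b := by
    refine smAt_of_ov (j := i) (F := fun x => exF A i W j x a b) hC.isClosed hCi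
      (fun x hx => by rw [exF_off h0 hx]; rfl) ?_
    have h1 : ContDiffOn ℝ ∞ (fun z => ∑ d, (∑ c, A.J i j ((A.e j).symm z) a c *
        W ((A.e j).symm z) c d) * conj (A.J i j ((A.e j).symm z) b d)) (A.ov j i) :=
      ContDiffOn.sum fun d _ => ContDiffOn.mul (ContDiffOn.sum fun c _ =>
        ContDiffOn.mul (J_on_ov i j a c) (smAt_on_ov (hW c d) j)) (contDiffOn_conj (J_on_ov i j b d))
    refine h1.congr fun z hz => ?_
    have hx : (A.e j).symm z ∈ (A.e i).source ∩ (A.e j).source :=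
      ⟨hz.2, (A.e j).map_target hz.1⟩
    rw [exF_of_mem W hx]
    simp only [Matrix.mul_apply, Matrix.conjTranspose_apply, Jm_apply]
    rfl
  herm j x := by
    by_cases h : x ∈ (A.e i).source ∩ (A.e j).source
    · rw [exF_of_mem W h]
      unfold Matrix.IsHermitian
      rw [Matrix.conjTranspose_mul, Matrix.conjTranspose_mul, Matrix.conjTranspose_conjTranspose,
        (hH x h.1).eq, Matrix.mul_assoc]
    · rw [exF_not W h]
      exact Matrix.isHermitian_zero
  tc := exF_tc W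
  off j x hx := exF_not W fun h => hx h.2

end t2

theorem trF_exF {i : A.ι} (W : M → Matrix (Fin n) (Fin n) ℂ)
    {β : A.ι → M → Matrix (Fin n) (Fin n) ℂ} (hβ : Tn A β) {x : M} (hx : x ∈ (A.e i).source) :
    trF (exF A i W) β x = (∑ a, ∑ b, W x a b * β i x a b).re := by
  rw [trF_eq (exF_tc W) hβ hx]
  unfold prF
  rw [exF_self W hx]

theorem trF_zero {s β : A.ι → M → Matrix (Fin n) (Fin n) ℂ} {x : M} (h : ∀ j, s j x = 0) :
    trF s β x = 0 := by
  unfold trF prF
  rw [h]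
  simp

theorem trF_exF_not {i : A.ι} (W : M → Matrix (Fin n) (Fin n) ℂ)
    (β : A.ι → M → Matrix (Fin n) (Fin n) ℂ) {x : M} (hx : x ∉ (A.e i).source) :
    trF (exF A i W) β x = 0 := trF_zero fun _ => exF_not W fun h => hx h.1

theorem dtF_exF (K : Kah A) {i : A.ι} (W : M → Matrix (Fin n) (Fin n) ℂ) {x : M}
    (hx : x ∈ (A.e i).source) : dtF K (exF A i W) x = ((W x).det * (K.g i x).det).re := by
  rw [dtF_eq K (exF_tc W) hx, exF_self W hx]

theorem dtF_exF_not [NeZero n] (K : Kah A) {i : A.ι} (W : M → Matrix (Fin n) (Fin n) ℂ) {x : M}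
    (hx : x ∉ (A.e i).source) : dtF K (exF A i W) x = 0 := by
  unfold dtF
  rw [exF_not W fun h => hx h.1]
  have : Nonempty (Fin n) := ⟨0⟩
  rw [Matrix.det_zero, zero_mul, Complex.zero_re]

/-! ### locality of `ρ` -/

section meas

variable [T2Space M] [CompactSpace M] [MeasurableSpace M] [BorelSpace M] [Finite A.ι]

theorem dd_congr {i : A.ι} {W W' : M → Matrix (Fin n) (Fin n) ℂ} {x : M}
    (hx : x ∈ (A.e i).source) (h : W =ᶠ[𝓝 x] W') : dd A i W x = dd A i W' x := by
  unfold dd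
  refine Finset.sum_congr rfl fun a _ => Finset.sum_congr rfl fun b _ => ?_
  refine db_congr' hx ?_ b
  have h1 : ∀ᶠ y in 𝓝 x, W =ᶠ[𝓝 y] W' := h.eventually_nhds
  filter_upwards [h1, (A.e i).open_source.mem_nhds hx] with y hy hyi
  refine dl_congr hyi ?_ a
  filter_upwards [hy] with w hw
  rw [hw]

theorem dd_zero {i : A.ι} {W : M → Matrix (Fin n) (Fin n) ℂ} {x : M}
    (hx : x ∈ (A.e i).source) (h : ∀ᶠ y in 𝓝 x, W y = 0) : dd A i W x = 0 := by
  have h1 : W =ᶠ[𝓝 x] fun _ => 0 := h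
  rw [dd_congr hx h1]
  unfold dd
  refine Finset.sum_eq_zero fun a _ => Finset.sum_eq_zero fun b _ => ?_
  have h2 : (dl A i a fun y : M => (0 : Matrix (Fin n) (Fin n) ℂ) a b) = fun _ => (0 : ℂ) :=
    funext fun y => dl_zero' a y
  rw [h2, db_zero']

theorem rho_zero_near (K : Kah A) (P : Part A) {s : A.ι → M → Matrix (Fin n) (Fin n) ℂ} {x : M}
    (h : ∀ i, ∀ᶠ y in 𝓝 x, s i y = 0) : rho K P s x = 0 := by
  have := Fintype.ofFinite A.ι
  unfold rho rhoC
  rw [finsum_eq_sum_of_fintype, Finset.sum_eq_zero, Complex.zero_re]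
  intro i _
  by_cases hx : x ∈ (A.e i).source
  · rw [fr_of_mem K hx, dd_zero hx, zero_div]
    filter_upwards [h i] with y hy
    unfold Wi
    rw [hy, smul_zero]
  · exact fr_off K hx

theorem rho_near (K : Kah A) (P : Part A) {s t : A.ι → M → Matrix (Fin n) (Fin n) ℂ}
    (hs : IsFld A s) (ht : IsFld A t) {x : M} (h : ∀ i, ∀ᶠ y in 𝓝 x, s i y = t i y) :
    rho K P s x = rho K P t x := by
  have h1 : IsFld A ((-1 : ℝ) • t) := (Fld A).smul_mem _ ht
  have h2 : rho K P (s + (-1 : ℝ) • t) x = 0 := rho_zero_near K P fun i => by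
    filter_upwards [h i] with y hy
    change s i y + (-1 : ℝ) • t i y = 0
    rw [hy, neg_one_smul, add_neg_cancel]
  rw [rho_add K P hs h1, rho_smul K P _ ht] at h2
  linarith

/-- `ρ_s` for a field with compact support in a chart -/
theorem rho_of_supp (K : Kah A) (P : Part A) {s : A.ι → M → Matrix (Fin n) (Fin n) ℂ}
    (hs : IsFld A s) {i : A.ι} {C : Set M} (hC : IsCompact C) (hCi : C ⊆ (A.e i).source)
    (h0 : ∀ j, ∀ x ∉ C, s j x = 0) (x : M) :
    rho K P s x = (fr K i (dd A i (fun y => (K.g i y).det • s i y)) x).re := by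
  set W : M → Matrix (Fin n) (Fin n) ℂ := fun y => (K.g i y).det • s i y with hW
  have hWs : ∀ a b, A.SmAt i (fun x => W x a b) := fun a b =>
    smAt_mul (f := fun y => (K.g i y).det) (g := fun y => s i y a b) (smAt_det (K.sm i)) (hs.sm i a b)
  have hW0 : ∀ a b, Off A i (fun x => W x a b) C := by
    intro a b y _ hyC
    change (K.g i y).det * s i y a b = 0
    rw [h0 i y hyC]
    exact mul_zero _
  have hF := sm_fr K (smAt_dd hWs) hC hCi (off_dd hC.isClosed hW0)
  have hFr : A.Sm fun x => (fr K i (dd A i W) x).re := sm_re hF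
  refine rho_unique K P hs (sm_continuous hFr) (fun u hu => ?_) x
  have h1 : ∫ x, ((Lop s u x : ℝ) : ℂ) ∂(vm (volK K)) =
      ∫ x, fr K i (dd A i W) x * u x ∂(vm (volK K)) := by
    rw [integral_fr K (smAt_dd hWs) hC hCi (off_dd hC.isClosed hW0) (sm_ofReal hu),
      ← parts_W hWs (smAt_ofReal (hu i)) hC hCi hW0,
      int_chart (volK K) (i := i) (integrable_sm (volK K) (sm_ofReal (sm_Lop hs hu)))
        fun x hx => by
          rw [Lop, trF_zero fun j => h0 j x fun h => hx (hCi h), Complex.ofReal_zero]]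
    refine lint_congr fun x hx => ?_
    rw [volK_w K i hx, Lop_ofReal hs hu hx, Finset.mul_sum]
    refine Finset.sum_congr rfl fun a _ => ?_
    rw [Finset.mul_sum]
    refine Finset.sum_congr rfl fun b _ => ?_
    change _ = ((K.g i x).det * s i x a b) * _
    ring
  have h2 : ∫ x, ((Lop s u x : ℝ) : ℂ) ∂(vm (volK K)) =
      ((∫ x, Lop s u x ∂(vm (volK K)) : ℝ) : ℂ) := integral_complex_ofReal
  rw [h2] at h1
  have h3 := congrArg Complex.re h1
  rw [Complex.ofReal_re] at h3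
  rw [h3]
  have h4 : ∫ x, (fr K i (dd A i W) x * u x).re ∂(vm (volK K)) =
      (∫ x, fr K i (dd A i W) x * u x ∂(vm (volK K))).re :=
    integral_re (integrable_sm (volK K) (sm_mul hF (sm_ofReal hu)))
  rw [← h4]
  congr 1
  funext x
  rw [Complex.re_mul_ofReal, mul_comm]

/-- a smooth function which is `1` near `x₀` with compact support in a chart -/
theorem exists_bump_near {i : A.ι} {x₀ : M} (hi : x₀ ∈ (A.e i).source) {U : Set M}
    (hU : U ∈ 𝓝 x₀) :
    ∃ (φ : M → ℝ) (C : Set M), A.Sm φ ∧ (∀ x, 0 ≤ φ x) ∧ (∀ x, φ x ≤ 1) ∧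
      (∀ᶠ x in 𝓝 x₀, φ x = 1) ∧ IsCompact C ∧
      C ⊆ (A.e i).source ∧ C ⊆ U ∧ ∀ x ∉ C, φ x = 0 := by
  classical
  have hz := (A.e i).map_source hi
  have hc : Tendsto (A.e i).symm (𝓝 (A.e i x₀)) (𝓝 x₀) := by
    have := (A.e i).continuousAt_symm hz
    rw [ContinuousAt, (A.e i).left_inv hi] at this
    exact this
  obtain ⟨r, hr, hb⟩ := Metric.nhds_basis_closedBall.mem_iff.1
    (inter_mem ((A.e i).open_target.mem_nhds hz) (hc hU))
  let f : ContDiffBump (A.e i x₀) := ⟨r / 2, r, by positivity, by linarith⟩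
  set C : Set M := (A.e i).symm '' Metric.closedBall (A.e i x₀) r with hC
  have hCc : IsCompact C := (isCompact_closedBall _ _).image_of_continuousOn
    ((A.e i).continuousOn_symm.mono fun z hz => (hb hz).1)
  have hCU : C ⊆ U := by
    rintro _ ⟨z, hz, rfl⟩
    exact (hb hz).2
  have hCi : C ⊆ (A.e i).source := by
    rintro _ ⟨z, hz, rfl⟩
    exact (A.e i).map_target (hb hz).1
  have hoff : Off A i (fun x => f (A.e i x)) C := by
    intro x hx hxC
    by_contra h
    have h1 : A.e i x ∈ Function.support f := h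
    rw [f.support_eq] at h1
    exact hxC ⟨A.e i x, Metric.ball_subset_closedBall h1, (A.e i).left_inv hx⟩
  have hsm : A.SmAt i (fun x => f (A.e i x)) := by
    have h1 : ContDiffOn ℝ ∞ (fun z => f z) (A.e i).target := f.contDiff.contDiffOn
    refine h1.congr fun z hz => ?_
    change f (A.e i ((A.e i).symm z)) = f z
    rw [(A.e i).right_inv hz]
  refine ⟨cut A i (fun x => f (A.e i x)), C, sm_cut hsm hCc hCi hoff, fun x => ?_, fun x => ?_, ?_,
    hCc, hCi, hCU, fun x hx => cut_zero_off hoff hx⟩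
  · by_cases h : x ∈ (A.e i).source
    · rw [cut_of_mem h]; exact f.nonneg
    · rw [cut_off h]
  · by_cases h : x ∈ (A.e i).source
    · rw [cut_of_mem h]; exact f.le_one
    · rw [cut_off h]; exact zero_le_one
  · have h1 : ∀ᶠ x in 𝓝 x₀, A.e i x ∈ Metric.closedBall (A.e i x₀) (r / 2) :=
      ((A.e i).continuousAt hi).eventually (Metric.closedBall_mem_nhds _ (by positivity))
    filter_upwards [h1, (A.e i).open_source.mem_nhds hi] with x hx hxi
    rw [cut_of_mem hxi]
    exact f.one_of_mem_closedBall hx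

/-- **the chart formula for `ρ_s`** -/
theorem rho_chart (K : Kah A) (P : Part A) {s : A.ι → M → Matrix (Fin n) (Fin n) ℂ}
    (hs : IsFld A s) {i : A.ι} {x : M} (hx : x ∈ (A.e i).source) :
    rho K P s x = (dd A i (fun y => (K.g i y).det • s i y) x / (K.g i x).det).re := by
  obtain ⟨φ, C, hφ, -, -, hφ1, hC, hCi, -, hφC⟩ := exists_bump_near hx univ_mem
  have hfs := isFld_fs hφ hs
  have h0 : ∀ j, ∀ x ∉ C, fs φ s j x = 0 := by
    intro j y hy
    change ((φ y : ℝ) : ℂ) • s j y = 0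
    rw [hφC y hy, Complex.ofReal_zero, zero_smul]
  have h1 : rho K P s x = rho K P (fs φ s) x := rho_near K P hs hfs fun j => by
    filter_upwards [hφ1] with y hy
    change s j y = ((φ y : ℝ) : ℂ) • s j y
    rw [hy, Complex.ofReal_one, one_smul]
  rw [h1, rho_of_supp K P hfs hC hCi h0, fr_of_mem K hx]
  congr 2
  refine dd_congr hx ?_
  filter_upwards [hφ1] with y hy
  change (K.g i y).det • ((φ y : ℝ) : ℂ) • s i y = (K.g i y).det • s i y
  rw [hy, Complex.ofReal_one, one_smul]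

/-! ### the fields `χ B / det g` -/

/-- the function `χ B / det g` in the chart `i` -/
def chW (K : Kah A) (i : A.ι) (χ : Cn n → ℝ) (B : Matrix (Fin n) (Fin n) ℂ) (x : M) :
    Matrix (Fin n) (Fin n) ℂ := ((χ (A.e i x) : ℂ) / (K.g i x).det) • B

/-- the field `χ B / det g` of the chart `i` -/
def chF (K : Kah A) (i : A.ι) (χ : Cn n → ℝ) (B : Matrix (Fin n) (Fin n) ℂ) :
    A.ι → M → Matrix (Fin n) (Fin n) ℂ := exF A i (chW K i χ B)

/-- the support of `χ` in `M` -/
def cs (i : A.ι) (χ : Cn n → ℝ) : Set M := (A.e i).symm '' tsupport χ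

theorem isCompact_cs {i : A.ι} {χ : Cn n → ℝ} (hc : HasCompactSupport χ)
    (ht : tsupport χ ⊆ (A.e i).target) : IsCompact (cs i χ : Set M) :=
  IsCompact.image_of_continuousOn hc ((A.e i).continuousOn_symm.mono ht)

theorem cs_sub {i : A.ι} {χ : Cn n → ℝ} (ht : tsupport χ ⊆ (A.e i).target) :
    cs i χ ⊆ (A.e i).source := by
  rintro _ ⟨z, hz, rfl⟩
  exact (A.e i).map_target (ht hz)

theorem chi_off {i : A.ι} {χ : Cn n → ℝ} {x : M} (hx : x ∈ (A.e i).source)
    (hxC : x ∉ (cs i χ : Set M)) : χ (A.e i x) = 0 := by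
  by_contra h
  exact hxC ⟨A.e i x, subset_tsupport _ h, (A.e i).left_inv hx⟩

theorem off_chi {i : A.ι} {χ : Cn n → ℝ} : Off A i (fun x => χ (A.e i x)) (cs i χ) :=
  fun _ hx hxC => chi_off hx hxC

theorem off_chW (K : Kah A) {i : A.ι} {χ : Cn n → ℝ} (B : Matrix (Fin n) (Fin n) ℂ) :
    Off A i (chW K i χ B) (cs i χ) := by
  intro x hx hxC
  unfold chW
  rw [chi_off hx hxC, Complex.ofReal_zero, zero_div, zero_smul]

theorem smAt_chi {i : A.ι} {χ : Cn n → ℝ} (hχ : ContDiff ℝ ∞ χ) :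
    A.SmAt i (fun x => χ (A.e i x)) := by
  have h1 : ContDiffOn ℝ ∞ (fun z => χ z) (A.e i).target := hχ.contDiffOn
  refine h1.congr fun z hz => ?_
  change χ (A.e i ((A.e i).symm z)) = χ z
  rw [(A.e i).right_inv hz]

theorem smAt_chW (K : Kah A) {i : A.ι} {χ : Cn n → ℝ} (hχ : ContDiff ℝ ∞ χ)
    (B : Matrix (Fin n) (Fin n) ℂ) (a b : Fin n) : A.SmAt i (fun x => chW K i χ B x a b) := by
  have h1 : A.SmAt i (fun x => ((χ (A.e i x) : ℂ) / (K.g i x).det) * B a b) :=
    smAt_mul (smAt_div K (smAt_ofReal (smAt_chi hχ))) contDiffOn_const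
  exact h1

theorem det_conj (K : Kah A) {i : A.ι} {x : M} (hx : x ∈ (A.e i).source) :
    conj (K.g i x).det = (K.g i x).det := by
  rw [← det_map_conj]
  have h1 : (K.g i x).map conj = (K.g i x)ᵀ := by
    have := (K.pos i x hx).1
    ext a b
    have h2 : (K.g i x)ᴴ b a = (K.g i x) b a := by rw [this.eq]
    exact h2
  rw [h1, Matrix.det_transpose]

theorem det_re (K : Kah A) {i : A.ι} {x : M} (hx : x ∈ (A.e i).source) :
    (((K.g i x).det.re : ℝ) : ℂ) = (K.g i x).det :=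
  Complex.conj_eq_iff_re.1 (det_conj K hx)

theorem det_re_pos (K : Kah A) {i : A.ι} {x : M} (hx : x ∈ (A.e i).source) :
    0 < (K.g i x).det.re := by
  have h1 := (K.pos i x hx).det_pos
  rw [← det_re K hx] at h1
  exact_mod_cast h1

theorem chW_re (K : Kah A) {i : A.ι} (χ : Cn n → ℝ) (B : Matrix (Fin n) (Fin n) ℂ) {x : M}
    (hx : x ∈ (A.e i).source) :
    chW K i χ B x = ((χ (A.e i x) / (K.g i x).det.re : ℝ) : ℂ) • B := by
  unfold chW
  rw [Complex.ofReal_div, det_re K hx]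

theorem chW_herm (K : Kah A) {i : A.ι} (χ : Cn n → ℝ) {B : Matrix (Fin n) (Fin n) ℂ}
    (hB : B.IsHermitian) {x : M} (hx : x ∈ (A.e i).source) : (chW K i χ B x).IsHermitian := by
  rw [chW_re K χ B hx]
  unfold Matrix.IsHermitian
  rw [Matrix.conjTranspose_smul, hB.eq]
  congr 1
  exact Complex.conj_ofReal _

theorem isFld_chF (K : Kah A) {i : A.ι} {χ : Cn n → ℝ} (hχ : ContDiff ℝ ∞ χ)
    (hc : HasCompactSupport χ) (ht : tsupport χ ⊆ (A.e i).target)
    {B : Matrix (Fin n) (Fin n) ℂ} (hB : B.IsHermitian) : IsFld A (chF K i χ B) :=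
  isFld_exF (smAt_chW K hχ B) (fun _ hx => chW_herm K χ hB hx) (isCompact_cs hc ht) (cs_sub ht)
    (off_chW K B)

theorem chF_off (K : Kah A) {i j : A.ι} {χ : Cn n → ℝ} (B : Matrix (Fin n) (Fin n) ℂ) {x : M}
    (hx : x ∉ (cs i χ : Set M)) : chF K i χ B j x = 0 := exF_off (off_chW K B) hx

theorem chF_self (K : Kah A) {i : A.ι} (χ : Cn n → ℝ) (B : Matrix (Fin n) (Fin n) ℂ) {x : M}
    (hx : x ∈ (A.e i).source) :
    chF K i χ B i x = ((χ (A.e i x) / (K.g i x).det.re : ℝ) : ℂ) • B := by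
  unfold chF
  rw [exF_self _ hx, chW_re K χ B hx]

/-- `χ B / det g` is positive semidefinite for `B ≥ 0`, `χ ≥ 0` -/
theorem chF_psd (K : Kah A) {i j : A.ι} {χ : Cn n → ℝ} {B : Matrix (Fin n) (Fin n) ℂ}
    (hB : B.PosSemidef) (h0 : ∀ z, 0 ≤ χ z) (x : M) : (chF K i χ B j x).PosSemidef := by
  refine exF_psd fun hx => ?_
  rw [chW_re K χ B hx]
  refine hB.smul ?_
  have : 0 ≤ χ (A.e i x) / (K.g i x).det.re := div_nonneg (h0 _) (det_re_pos K hx).le
  exact_mod_cast this

theorem trF_chF (K : Kah A) {i : A.ι} (χ : Cn n → ℝ) (B : Matrix (Fin n) (Fin n) ℂ)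
    {β : A.ι → M → Matrix (Fin n) (Fin n) ℂ} (hβ : Tn A β) {x : M} (hx : x ∈ (A.e i).source) :
    trF (chF K i χ B) β x =
      χ (A.e i x) * (∑ a, ∑ b, B a b * β i x a b).re / (K.g i x).det.re := by
  unfold chF
  rw [trF_exF _ hβ hx]
  have h1 : ∑ a, ∑ b, chW K i χ B x a b * β i x a b =
      ((χ (A.e i x) / (K.g i x).det.re : ℝ) : ℂ) * ∑ a, ∑ b, B a b * β i x a b := by
    rw [Finset.mul_sum]
    refine Finset.sum_congr rfl fun a _ => ?_
    rw [Finset.mul_sum]
    refine Finset.sum_congr rfl fun b _ => ?_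
    rw [chW_re K χ B hx, Matrix.smul_apply, smul_eq_mul]
    ring
  rw [h1, Complex.re_ofReal_mul]
  ring

theorem trF_chF_not (K : Kah A) {i : A.ι} (χ : Cn n → ℝ) (B : Matrix (Fin n) (Fin n) ℂ)
    (β : A.ι → M → Matrix (Fin n) (Fin n) ℂ) {x : M} (hx : x ∉ (A.e i).source) :
    trF (chF K i χ B) β x = 0 := trF_exF_not _ β hx

/-- `det_g (χ B / det g) = (χ / det g) ^ n det B det g` -/
theorem dtF_chF (K : Kah A) {i : A.ι} (χ : Cn n → ℝ) (B : Matrix (Fin n) (Fin n) ℂ) {x : M}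
    (hx : x ∈ (A.e i).source) :
    dtF K (chF K i χ B) x =
      (χ (A.e i x) / (K.g i x).det.re) ^ n * (B.det.re * (K.g i x).det.re) := by
  unfold chF
  rw [dtF_exF K _ hx, chW_re K χ B hx, Matrix.det_smul, Fintype.card_fin, ← det_re K hx,
    Complex.ofReal_re, ← Complex.ofReal_pow, mul_assoc, Complex.re_ofReal_mul,
    Complex.re_mul_ofReal]

theorem rtF_chF [NeZero n] (K : Kah A) {i : A.ι} {χ : Cn n → ℝ} (h0 : ∀ z, 0 ≤ χ z)
    {B : Matrix (Fin n) (Fin n) ℂ} (hB : B.PosSemidef) {x : M} (hx : x ∈ (A.e i).source) :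
    rtF K (chF K i χ B) x =
      χ (A.e i x) * (B.det.re * (K.g i x).det.re) ^ ((1 : ℝ) / n) / (K.g i x).det.re := by
  have hd := det_re_pos K hx
  have hn : (n : ℝ) ≠ 0 := Nat.cast_ne_zero.2 (NeZero.ne n)
  have hB0 : 0 ≤ B.det.re := by
    have := hB.det_nonneg
    exact (Complex.nonneg_iff.1 this).1
  unfold rtF
  rw [dtF_chF K χ B hx, Real.mul_rpow (pow_nonneg (div_nonneg (h0 _) hd.le) _)
    (mul_nonneg hB0 hd.le)]
  have h1 : ((χ (A.e i x) / (K.g i x).det.re) ^ n) ^ ((1 : ℝ) / n) =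
      χ (A.e i x) / (K.g i x).det.re := by
    rw [one_div, Real.pow_rpow_inv_natCast (div_nonneg (h0 _) hd.le) (NeZero.ne n)]
  rw [h1]
  ring

theorem rtF_chF_not [NeZero n] (K : Kah A) {i : A.ι} (χ : Cn n → ℝ)
    (B : Matrix (Fin n) (Fin n) ℂ) {x : M} (hx : x ∉ (A.e i).source) :
    rtF K (chF K i χ B) x = 0 := by
  unfold rtF chF
  rw [dtF_exF_not K _ hx]
  exact Real.zero_rpow (by simp [NeZero.ne n])

theorem wd_cm (c : ℂ) {f : Cn n → ℂ} {z : Cn n} (hf : DifferentiableAt ℝ f z) (s : WI n) :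
    wd s (fun w => c * f w) z = c * wd s f z := by
  rw [wd_mul (differentiableAt_const c) hf s]
  have : wd s (fun _ : Cn n => c) z = 0 := by
    obtain ⟨b, a⟩ := s
    cases b <;> simp [wd, wdL]
  rw [this, zero_mul, zero_add]

/-- `∑ ∂̄_b ∂_a (χ B_{ab}) = ∑ B_{ab} ∂_a ∂̄_b χ` -/
theorem dd_chi {i : A.ι} {χ : Cn n → ℝ} (hχ : ContDiff ℝ ∞ χ) (B : Matrix (Fin n) (Fin n) ℂ)
    {x : M} (hx : x ∈ (A.e i).source) :
    dd A i (fun y => (χ (A.e i y) : ℂ) • B) x = ∑ a, ∑ b, B a b * hess χ (A.e i x) a b := by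
  unfold dd
  refine Finset.sum_congr rfl fun a _ => Finset.sum_congr rfl fun b _ => ?_
  have hz := (A.e i).map_source hx
  have hr : (fun z => (((χ (A.e i ((A.e i).symm z)) : ℂ) • B) a b)) =ᶠ[𝓝 (A.e i x)]
      fun z => B a b * cu χ z := by
    filter_upwards [(A.e i).open_target.mem_nhds hz] with z hz'
    rw [(A.e i).right_inv hz', Matrix.smul_apply, smul_eq_mul, mul_comm]
    rfl
  have h1 := db_read (A := A) (dl A i a (fun y => ((χ (A.e i y) : ℂ) • B) a b)) i b hz
  rw [(A.e i).left_inv hx] at h1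
  rw [h1]
  have h2 : (fun w => dl A i a (fun y => ((χ (A.e i y) : ℂ) • B) a b) ((A.e i).symm w))
      =ᶠ[𝓝 (A.e i x)] wd (false, a) (fun z => B a b * cu χ z) := by
    filter_upwards [(A.e i).open_target.mem_nhds hz, hr.eventually_nhds] with w hw hw'
    rw [dl_read _ i a hw]
    exact wd_congr hw' _
  have hcu : ∀ w, ContDiffAt ℝ ∞ (cu χ) w := fun w => contDiffAt_cu hχ.contDiffAt
  have h3 : wd (false, a) (fun z => B a b * cu χ z) = fun w => B a b * wd (false, a) (cu χ) w := by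
    funext w
    exact wd_cm (B a b) ((hcu w).differentiableAt (by simp)) _
  rw [wd_congr h2, h3, wd_cm (B a b) ((contDiffAt_wd (hcu _) _).differentiableAt (by simp)),
    wd_comm (hcu _)]
  rfl

/-- **`ρ` of a chart field** -/
theorem rho_chF (K : Kah A) (P : Part A) {i : A.ι} {χ : Cn n → ℝ} (hχ : ContDiff ℝ ∞ χ)
    (hc : HasCompactSupport χ) (ht : tsupport χ ⊆ (A.e i).target)
    {B : Matrix (Fin n) (Fin n) ℂ} (hB : B.IsHermitian) {x : M} (hx : x ∈ (A.e i).source) :
    rho K P (chF K i χ B) x =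
      (∑ a, ∑ b, B a b * hess χ (A.e i x) a b).re / (K.g i x).det.re := by
  rw [rho_chart K P (isFld_chF K hχ hc ht hB) hx]
  have h1 : (fun y => (K.g i y).det • chF K i χ B i y) =ᶠ[𝓝 x] fun y => (χ (A.e i y) : ℂ) • B := by
    filter_upwards [(A.e i).open_source.mem_nhds hx] with y hy
    have hd := K_det_ne K hy
    unfold chF
    rw [exF_self _ hy]
    unfold chW
    rw [smul_smul, mul_div_cancel₀ _ hd]
  rw [dd_congr hx h1, dd_chi hχ B hx, ← det_re K hx, Complex.div_ofReal_re, Complex.ofReal_re]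

theorem rho_chF_not (K : Kah A) (P : Part A) {i : A.ι} {χ : Cn n → ℝ}
    (hc : HasCompactSupport χ) (ht : tsupport χ ⊆ (A.e i).target)
    (B : Matrix (Fin n) (Fin n) ℂ) {x : M} (hx : x ∉ (A.e i).source) :
    rho K P (chF K i χ B) x = 0 := by
  have hC : IsClosed (cs i χ : Set M) := (isCompact_cs hc ht).isClosed
  refine rho_zero_near K P fun j => ?_
  filter_upwards [hC.isOpen_compl.mem_nhds fun h => hx (cs_sub ht h)] with y hy
  exact chF_off K B hy

end meas

end

end Crest.Agent.R269.AdjLoc_851
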