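import Crest.Agent.R269.Fld_851

/-!
# R269 (S0411), leaf GEO-ADJ, part 2 (helper851): the adjoint function `ρ_s`

`(M, A)` compact, `K : Kah A`, `P : Part A`, `s : Fld A`.
* `parts_ddb`     : integration by parts twice in a chart
* `Lop s u`       : `tr (s ∂∂̄u)`
* `rho K P s`     : smooth, `integral_Lop : ∫ Lop s u dV = ∫ u * rho K P s dV`
* `ext_of_integral` : uniqueness; hence `rho_add`, `rho_smul`, independence of `P`,
  `rho_gI : rho K P g⁻¹ = 0`, `integral_rho : ∫ rho = 0`
-/

set_option autoImplicit false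
set_option linter.unusedSectionVars false

open Set Filter Topology Complex MeasureTheory
open scoped ContDiff Matrix ComplexConjugate ComplexOrder

namespace Crest.Agent.R269.Adj_851

open Crest.Agent.R275 Crest.Agent.R275.Geo Crest.Agent.R275.Core144 Crest.Agent.R275.EDR890
open Crest.Agent.R275.Pai323 Crest.Agent.R275.C1d194
open Crest.Agent.R275.SerG398 (lint dens OffZ)
open Crest.Agent.R275.OmT75 (dj dl dl_chain dl_mul db_chain dj_sum dj_congr)
open Crest.Agent.R273.Defs_333 Crest.Agent.R273.Hess_333 Crest.Agent.R273.HessB_333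
open Crest.Agent.R273.HM_333 Crest.Agent.R273.Kah_333 Crest.Agent.R273.Vol_333
open Crest.Agent.R273.Vm_333
open Crest.Agent.R273.StV_37 Crest.Agent.R273.Piola_5 Crest.Agent.R273.Green_5
open Crest.Agent.R273.VolInv_5 Crest.Agent.R273.GreenM_5
open Crest.Agent.R269.Fld_851

noncomputable section

variable {n : ℕ} {M : Type} [TopologicalSpace M] {A : Atl n M}

/-! ### functions cut off outside a chart -/

open Classical in
/-- `f` inside the chart `i`, `0` outside -/
def cut (A : Atl n M) (i : A.ι) {W : Type*} [Zero W] (f : M → W) : M → W :=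
  fun x => if x ∈ (A.e i).source then f x else 0

theorem cut_of_mem {i : A.ι} {W : Type*} [Zero W] {f : M → W} {x : M} (hx : x ∈ (A.e i).source) :
    cut A i f x = f x := if_pos hx

theorem cut_off {i : A.ι} {W : Type*} [Zero W] {f : M → W} {x : M} (hx : x ∉ (A.e i).source) :
    cut A i f x = 0 := if_neg hx

theorem smAt_cut {i : A.ι} {W : Type*} [NormedAddCommGroup W] [NormedSpace ℝ W] {f : M → W}
    (hf : A.SmAt i f) : A.SmAt i (cut A i f) := by
  have h1 : ContDiffOn ℝ ∞ (fun z => f ((A.e i).symm z)) (A.e i).target := hf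
  exact h1.congr fun z hz => cut_of_mem ((A.e i).map_target hz)

/-- `f` vanishes on the chart `i` outside `K` -/
def Off (A : Atl n M) (i : A.ι) {W : Type*} [Zero W] (f : M → W) (K : Set M) : Prop :=
  ∀ x ∈ (A.e i).source, x ∉ K → f x = 0

theorem cut_zero_off {i : A.ι} {W : Type*} [Zero W] {f : M → W} {K : Set M} (h0 : Off A i f K)
    {x : M} (hx : x ∉ K) : cut A i f x = 0 := by
  by_cases hi : x ∈ (A.e i).source
  · rw [cut_of_mem hi]; exact h0 x hi hx
  · exact cut_off hi

section t2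

variable [T2Space M]

theorem cc_cut {i : A.ι} {f : M → ℂ} {K : Set M} (hf : A.SmAt i f) (hK : IsCompact K)
    (hKi : K ⊆ (A.e i).source) (h0 : Off A i f K) : CC A i (cut A i f) :=
  CC.of_zero_off (smAt_cut hf) hK hKi fun _ hx => cut_zero_off h0 hx

theorem sm_cut {i : A.ι} {W : Type*} [NormedAddCommGroup W] [NormedSpace ℝ W] {f : M → W}
    {K : Set M} (hf : A.SmAt i f) (hK : IsCompact K)
    (hKi : K ⊆ (A.e i).source) (h0 : Off A i f K) : A.Sm (cut A i f) :=
  sm_of_smAt (smAt_cut hf) hK.isClosed hKi fun _ hx => cut_zero_off h0 hx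

end t2

theorem lint_cut (i : A.ι) (f : M → ℂ) : lint A i (cut A i f) = lint A i f :=
  lint_congr fun _ hx => cut_of_mem hx

theorem rd_cut (i : A.ι) (f : M → ℂ) : rd A i (cut A i f) = rd A i f := by
  funext x
  by_cases hx : x ∈ Ui A i
  · rw [rd_of_mem hx, rd_of_mem hx, cut_of_mem ((A.e i).map_target hx)]
  · rw [rd_off hx, rd_off hx]

/-! ### derivatives -/

theorem congr_read {i : A.ι} {W : Type*} {f g : M → W} {x : M} (hx : x ∈ (A.e i).source)
    (h : f =ᶠ[𝓝 x] g) :
    (fun z => f ((A.e i).symm z)) =ᶠ[𝓝 (A.e i x)] fun z => g ((A.e i).symm z) := by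
  have hc : Tendsto (A.e i).symm (𝓝 (A.e i x)) (𝓝 x) := by
    have := (A.e i).continuousAt_symm ((A.e i).map_source hx)
    rw [ContinuousAt, (A.e i).left_inv hx] at this
    exact this
  exact hc.eventually h

theorem dl_congr {i : A.ι} {f g : M → ℂ} {x : M} (hx : x ∈ (A.e i).source)
    (h : f =ᶠ[𝓝 x] g) (a : Fin n) : dl A i a f x = dl A i a g x :=
  dj_congr (congr_read hx h)

theorem db_congr' {i : A.ι} {f g : M → ℂ} {x : M} (hx : x ∈ (A.e i).source)
    (h : f =ᶠ[𝓝 x] g) (a : Fin n) : A.db i a f x = A.db i a g x :=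
  OmT75.dbj_congr (congr_read hx h)

theorem cut_ev {i : A.ι} {f : M → ℂ} {x : M} (hx : x ∈ (A.e i).source) :
    cut A i f =ᶠ[𝓝 x] f := by
  filter_upwards [(A.e i).open_source.mem_nhds hx] with y hy
  exact cut_of_mem hy

theorem db_zero' {i : A.ι} (a : Fin n) (x : M) : A.db i a (fun _ : M => (0 : ℂ)) x = 0 := by
  unfold Atl.db dbj
  simp

theorem dl_zero' {i : A.ι} (a : Fin n) (x : M) : dl A i a (fun _ : M => (0 : ℂ)) x = 0 := by
  unfold OmT75.dl dj
  simp

theorem smAt_mul {i : A.ι} {f g : M → ℂ} (hf : A.SmAt i f) (hg : A.SmAt i g) :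
    A.SmAt i (fun x => f x * g x) := ContDiffOn.mul hf hg

theorem off_db {i : A.ι} {f : M → ℂ} {K : Set M} (hK : IsClosed K) (h0 : Off A i f K)
    (a : Fin n) : Off A i (A.db i a f) K := by
  intro x hx hxK
  have h1 : f =ᶠ[𝓝 x] fun _ => (0 : ℂ) := by
    filter_upwards [hK.isOpen_compl.mem_nhds hxK, (A.e i).open_source.mem_nhds hx] with y hy hy'
    exact h0 y hy' hy
  rw [db_congr' hx h1, db_zero']

theorem off_dl {i : A.ι} {f : M → ℂ} {K : Set M} (hK : IsClosed K) (h0 : Off A i f K)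
    (a : Fin n) : Off A i (dl A i a f) K := by
  intro x hx hxK
  have h1 : f =ᶠ[𝓝 x] fun _ => (0 : ℂ) := by
    filter_upwards [hK.isOpen_compl.mem_nhds hxK, (A.e i).open_source.mem_nhds hx] with y hy hy'
    exact h0 y hy' hy
  rw [dl_congr hx h1, dl_zero']

section t2

variable [T2Space M]

/-- Stokes in a chart for `∂̄_a` -/
theorem lint_db0 {i : A.ι} {f : M → ℂ} {K : Set M} (hf : A.SmAt i f) (hK : IsCompact K)
    (hKi : K ⊆ (A.e i).source) (h0 : Off A i f K) (a : Fin n) : lint A i (A.db i a f) = 0 := by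
  rw [← lint_db (cc_cut hf hK hKi h0) a]
  exact lint_congr fun x hx => db_congr' hx (cut_ev hx).symm a

/-- Stokes in a chart for `∂_a` -/
theorem lint_dl0 {i : A.ι} {f : M → ℂ} {K : Set M} (hf : A.SmAt i f) (hK : IsCompact K)
    (hKi : K ⊆ (A.e i).source) (h0 : Off A i f K) (a : Fin n) : lint A i (dl A i a f) = 0 := by
  have h1 : lint A i (A.db i a (fun x => conj (f x))) = 0 :=
    lint_db0 (smAt_conj hf) hK hKi (fun x hx hxK => by
      change conj (f x) = 0
      rw [h0 x hx hxK, map_zero]) a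
  have h2 : lint A i (dl A i a f) = conj (lint A i (A.db i a (fun x => conj (f x)))) := by
    rw [← lint_conj]
    refine lint_congr fun x _ => ?_
    rw [← Crest.Agent.R273.StV_37.dl_conj]
    simp only [Complex.conj_conj]
  rw [h2, h1, map_zero]

theorem integrable_off {i : A.ι} {f : M → ℂ} {K : Set M} (hf : A.SmAt i f) (hK : IsCompact K)
    (hKi : K ⊆ (A.e i).source) (h0 : Off A i f K) : Integrable (rd A i f) := by
  rw [← rd_cut]
  exact (cc_cut hf hK hKi h0).integrable

theorem Off.mulR {i : A.ι} {f g : M → ℂ} {K : Set M} (h0 : Off A i f K) :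
    Off A i (fun x => f x * g x) K := fun x hx hxK => by
  change f x * g x = 0
  rw [h0 x hx hxK, zero_mul]

/-- integration by parts for `∂_a` -/
theorem parts_dl {i : A.ι} {f g : M → ℂ} {K : Set M} (hf : A.SmAt i f) (hg : A.SmAt i g)
    (hK : IsCompact K) (hKi : K ⊆ (A.e i).source) (h0 : Off A i f K) (a : Fin n) :
    lint A i (fun x => f x * dl A i a g x) = - lint A i (fun x => dl A i a f x * g x) := by
  have h1 := lint_dl0 (smAt_mul hf hg) hK hKi (Off.mulR h0) a
  have h2 : lint A i (dl A i a (fun x => f x * g x)) =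
      lint A i (fun x => dl A i a f x * g x + f x * dl A i a g x) := by
    refine lint_congr fun x hx => ?_
    rw [dl_mul (Atl.SmAt.diffAt hf hx) (Atl.SmAt.diffAt hg hx) hx]
  have h3 := lint_add (integrable_off (smAt_mul (smAt_dl hf a) hg) hK hKi
      (Off.mulR (off_dl hK.isClosed h0 a)))
    (integrable_off (smAt_mul hf (smAt_dl hg a)) hK hKi (Off.mulR h0))
  change lint A i (dl A i a (fun x => f x * g x)) = 0 at h1
  rw [h2, h3] at h1
  exact eq_neg_of_add_eq_zero_right h1

/-- integration by parts for `∂̄_a` -/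
theorem parts_db {i : A.ι} {f g : M → ℂ} {K : Set M} (hf : A.SmAt i f) (hg : A.SmAt i g)
    (hK : IsCompact K) (hKi : K ⊆ (A.e i).source) (h0 : Off A i f K) (a : Fin n) :
    lint A i (fun x => f x * A.db i a g x) = - lint A i (fun x => A.db i a f x * g x) := by
  have h1 := lint_db0 (smAt_mul hf hg) hK hKi (Off.mulR h0) a
  have h2 : lint A i (A.db i a (fun x => f x * g x)) =
      lint A i (fun x => A.db i a f x * g x + f x * A.db i a g x) := by
    refine lint_congr fun x hx => ?_
    rw [db_mul (Atl.SmAt.diffAt hf hx) (Atl.SmAt.diffAt hg hx) hx]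
  have h3 := lint_add (integrable_off (smAt_mul (Atl.SmAt.db hf a) hg) hK hKi
      (Off.mulR (off_db hK.isClosed h0 a)))
    (integrable_off (smAt_mul hf (Atl.SmAt.db hg a)) hK hKi (Off.mulR h0))
  change lint A i (A.db i a (fun x => f x * g x)) = 0 at h1
  rw [h2, h3] at h1
  exact eq_neg_of_add_eq_zero_right h1

/-- **integration by parts for `∂_a ∂̄_b`** -/
theorem parts_ddb {i : A.ι} {f g : M → ℂ} {K : Set M} (hf : A.SmAt i f) (hg : A.SmAt i g)
    (hK : IsCompact K) (hKi : K ⊆ (A.e i).source) (h0 : Off A i f K) (a b : Fin n) :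
    lint A i (fun x => f x * dl A i a (A.db i b g) x) =
      lint A i (fun x => A.db i b (dl A i a f) x * g x) := by
  rw [parts_dl hf (Atl.SmAt.db hg b) hK hKi h0 a,
    parts_db (smAt_dl hf a) hg hK hKi (off_dl hK.isClosed h0 a) b, neg_neg]

/-! ### the adjoint in a chart -/

/-- `∑_{ab} ∂̄_b ∂_a W_{ab}` -/
def dd (A : Atl n M) (i : A.ι) (W : M → Matrix (Fin n) (Fin n) ℂ) (x : M) : ℂ :=
  ∑ a, ∑ b, A.db i b (dl A i a (fun y => W y a b)) x

theorem smAt_dd {i : A.ι} {W : M → Matrix (Fin n) (Fin n) ℂ}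
    (hW : ∀ a b, A.SmAt i (fun x => W x a b)) : A.SmAt i (dd A i W) := by
  have h1 : ContDiffOn ℝ ∞ (fun z => ∑ a, ∑ b,
      A.db i b (dl A i a (fun y => W y a b)) ((A.e i).symm z)) (A.e i).target :=
    ContDiffOn.sum fun a _ => ContDiffOn.sum fun b _ => Atl.SmAt.db (smAt_dl (hW a b) a) b
  exact h1

theorem off_dd {i : A.ι} {W : M → Matrix (Fin n) (Fin n) ℂ} {K : Set M} (hK : IsClosed K)
    (h0 : ∀ a b, Off A i (fun x => W x a b) K) : Off A i (dd A i W) K := by
  intro x hx hxK
  exact Finset.sum_eq_zero fun a _ => Finset.sum_eq_zero fun b _ =>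
    off_db hK (off_dl hK (h0 a b) a) b x hx hxK

/-- **integration by parts for a matrix valued function in a chart** -/
theorem parts_W {i : A.ι} {W : M → Matrix (Fin n) (Fin n) ℂ} {g : M → ℂ} {K : Set M}
    (hW : ∀ a b, A.SmAt i (fun x => W x a b)) (hg : A.SmAt i g)
    (hK : IsCompact K) (hKi : K ⊆ (A.e i).source) (h0 : ∀ a b, Off A i (fun x => W x a b) K) :
    lint A i (fun x => ∑ a, ∑ b, W x a b * hm A g i x a b) =
      lint A i (fun x => dd A i W x * g x) := by
  have h1 : lint A i (fun x => ∑ a, ∑ b, W x a b * hm A g i x a b) =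
      ∑ a, ∑ b, lint A i (fun x => W x a b * hm A g i x a b) := by
    have hi : ∀ a b, Integrable (rd A i (fun x => W x a b * hm A g i x a b)) := fun a b =>
      integrable_off (smAt_mul (hW a b) (smAt_hm hg a b)) hK hKi (Off.mulR (h0 a b))
    have hi' : ∀ a, Integrable (rd A i (fun x => ∑ b, W x a b * hm A g i x a b)) := by
      intro a
      have e : rd A i (fun x => ∑ b, W x a b * hm A g i x a b) =
          fun y => ∑ b, rd A i (fun x => W x a b * hm A g i x a b) y :=
        funext fun y => rd_sum Finset.univ i _ y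
      rw [e]
      exact integrable_finsetSum _ fun b _ => hi a b
    rw [lint_sum _ fun a _ => hi' a]
    exact Finset.sum_congr rfl fun a _ => lint_sum _ fun b _ => hi a b
  have h2 : lint A i (fun x => dd A i W x * g x) =
      ∑ a, ∑ b, lint A i (fun x => A.db i b (dl A i a (fun y => W y a b)) x * g x) := by
    have hi : ∀ a b, Integrable (rd A i
        (fun x => A.db i b (dl A i a (fun y => W y a b)) x * g x)) := fun a b =>
      integrable_off (smAt_mul (Atl.SmAt.db (smAt_dl (hW a b) a) b) hg) hK hKi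
        (Off.mulR (off_db hK.isClosed (off_dl hK.isClosed (h0 a b) a) b))
    have hi' : ∀ a, Integrable (rd A i (fun x => ∑ b,
        A.db i b (dl A i a (fun y => W y a b)) x * g x)) := by
      intro a
      have e : rd A i (fun x => ∑ b, A.db i b (dl A i a (fun y => W y a b)) x * g x) =
          fun y => ∑ b, rd A i (fun x => A.db i b (dl A i a (fun y => W y a b)) x * g x) y :=
        funext fun y => rd_sum Finset.univ i _ y
      rw [e]
      exact integrable_finsetSum _ fun b _ => hi a b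
    have e1 : (fun x => dd A i W x * g x) =
        fun x => ∑ a, ∑ b, A.db i b (dl A i a (fun y => W y a b)) x * g x := by
      funext x
      unfold dd
      rw [Finset.sum_mul]
      exact Finset.sum_congr rfl fun a _ => Finset.sum_mul _ _ _
    rw [e1, lint_sum _ fun a _ => hi' a]
    exact Finset.sum_congr rfl fun a _ => lint_sum _ fun b _ => hi a b
  rw [h1, h2]
  refine Finset.sum_congr rfl fun a _ => Finset.sum_congr rfl fun b _ => ?_
  exact parts_ddb (hW a b) hg hK hKi (h0 a b) a b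

/-! ### integrals over a chart -/

section meas

variable [CompactSpace M] [MeasurableSpace M] [BorelSpace M] [Finite A.ι]

theorem int_chart (h : HM (KB A)⁻¹) {i : A.ι} {F : M → ℂ} (hF : Integrable F (vm h))
    (h0 : ∀ x ∉ (A.e i).source, F x = 0) :
    ∫ x, F x ∂(vm h) = lint A i (fun x => (h.w i x : ℂ) * F x) := by
  have h3 : ∫ x, F x ∂(vm h) = ∫ x in (A.e i).source, F x ∂(vm h) := by
    symm
    exact setIntegral_eq_integral_of_forall_compl_eq_zero fun x hx => h0 x hx
  rw [h3, setIntegral_vm h i hF.aestronglyMeasurable]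
  unfold SerG398.lint
  symm
  rw [← setIntegral_eq_integral_of_forall_compl_eq_zero (s := Ui A i) (fun y hy => rd_off hy)]
  refine setIntegral_congr_fun (Crest.Agent.R273.Vm_333.isOpen_Ui i).measurableSet fun y hy => ?_
  rw [rd_of_mem hy]
  change (h.w i (sg A i y) : ℂ) * F (sg A i y) = (h.w i (sg A i y)) • F (sg A i y)
  rw [Complex.real_smul]

/-- the function `f / det g` on the chart `i`, `0` outside -/
def fr (K : Kah A) (i : A.ι) (f : M → ℂ) : M → ℂ := cut A i (fun x => f x / (K.g i x).det)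

theorem fr_of_mem (K : Kah A) {i : A.ι} {f : M → ℂ} {x : M} (hx : x ∈ (A.e i).source) :
    fr K i f x = f x / (K.g i x).det := cut_of_mem hx

theorem fr_off (K : Kah A) {i : A.ι} {f : M → ℂ} {x : M} (hx : x ∉ (A.e i).source) :
    fr K i f x = 0 := cut_off hx

theorem smAt_div (K : Kah A) {i : A.ι} {f : M → ℂ} (hf : A.SmAt i f) :
    A.SmAt i (fun x => f x / (K.g i x).det) := by
  have h1 : ContDiffOn ℝ ∞ (fun z => f ((A.e i).symm z) * ((K.g i ((A.e i).symm z)).det)⁻¹)
      (A.e i).target :=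
    ContDiffOn.mul hf ((smAt_det (K.sm i)).inv fun z hz => K_det_ne K ((A.e i).map_target hz))
  refine h1.congr fun z hz => ?_
  exact div_eq_mul_inv _ _

theorem sm_fr (K : Kah A) {i : A.ι} {f : M → ℂ} {C : Set M} (hf : A.SmAt i f) (hC : IsCompact C)
    (hCi : C ⊆ (A.e i).source) (h0 : Off A i f C) : A.Sm (fr K i f) :=
  sm_cut (smAt_div K hf) hC hCi fun x hx hxC => by
    change f x / _ = 0
    rw [h0 x hx hxC, zero_div]

theorem sm_mul {f g : M → ℂ} (hf : A.Sm f) (hg : A.Sm g) : A.Sm (fun x => f x * g x) :=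
  fun i => ContDiffOn.mul (hf i) (hg i)

theorem integral_fr (K : Kah A) {i : A.ι} {f u : M → ℂ} {C : Set M} (hf : A.SmAt i f)
    (hC : IsCompact C) (hCi : C ⊆ (A.e i).source) (h0 : Off A i f C) (hu : A.Sm u) :
    ∫ x, fr K i f x * u x ∂(vm (volK K)) = lint A i (fun x => f x * u x) := by
  rw [int_chart (volK K) (i := i) (integrable_sm (volK K) (sm_mul (sm_fr K hf hC hCi h0) hu))
    fun x hx => by rw [fr_off K hx, zero_mul]]
  refine lint_congr fun x hx => ?_
  have := K_det_ne K hx
  rw [volK_w K i hx, fr_of_mem K hx]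
  field_simp

/-! ### the function `ρ_s` -/

/-- `tr (s ∂∂̄u)` -/
def Lop (s : A.ι → M → Matrix (Fin n) (Fin n) ℂ) (u : M → ℝ) : M → ℝ := trF s (hsf A u)

theorem sm_Lop {s : A.ι → M → Matrix (Fin n) (Fin n) ℂ} (hs : IsFld A s) {u : M → ℝ}
    (hu : A.Sm u) : A.Sm (Lop s u) := sm_trF hs.tc (hsf_tn hu) hs.sm (hsf_cf hu).sm

theorem Lop_ofReal {s : A.ι → M → Matrix (Fin n) (Fin n) ℂ} (hs : IsFld A s) {u : M → ℝ}
    (hu : A.Sm u) {i : A.ι} {x : M} (hx : x ∈ (A.e i).source) :
    ((Lop s u x : ℝ) : ℂ) = ∑ a, ∑ b, s i x a b * hm A (fun y => (u y : ℂ)) i x a b := by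
  have h1 := trF_ofReal hs.tc (hsf_tn hu) hx (hs.herm i x) (hsf_herm hu hx)
  unfold Lop
  rw [h1]
  unfold prF
  rw [hm_ofReal u i hx]

/-- `ψ_i det(g) s` in the chart `i` -/
def Wi (K : Kah A) (P : Part A) (s : A.ι → M → Matrix (Fin n) (Fin n) ℂ) (i : A.ι) (x : M) :
    Matrix (Fin n) (Fin n) ℂ := ((P.ψ i x : ℂ) * (K.g i x).det) • s i x

theorem smAt_Wi (K : Kah A) (P : Part A) {s : A.ι → M → Matrix (Fin n) (Fin n) ℂ}
    (hs : IsFld A s) (i : A.ι) (a b : Fin n) : A.SmAt i (fun x => Wi K P s i x a b) := by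
  have h1 : A.SmAt i (fun x => ((P.ψ i x : ℂ) * (K.g i x).det) * s i x a b) :=
    smAt_mul (smAt_mul (smAt_psi P i i) (smAt_det (K.sm i))) (hs.sm i a b)
  exact h1

theorem off_Wi (K : Kah A) (P : Part A) (s : A.ι → M → Matrix (Fin n) (Fin n) ℂ)
    (i : A.ι) (a b : Fin n) : Off A i (fun x => Wi K P s i x a b) (tsupport (P.χ i)) := by
  intro x _ hxK
  have h1 : P.ψ i x = 0 := image_eq_zero_of_notMem_tsupport fun h => hxK (tsupport_psi P i h)
  change ((P.ψ i x : ℂ) * (K.g i x).det) * s i x a b = 0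
  rw [h1, Complex.ofReal_zero, zero_mul, zero_mul]

/-- `ρ_s`, complex valued version -/
def rhoC (K : Kah A) (P : Part A) (s : A.ι → M → Matrix (Fin n) (Fin n) ℂ) (x : M) : ℂ :=
  ∑ᶠ i, fr K i (dd A i (Wi K P s i)) x

theorem sm_fr_Wi (K : Kah A) (P : Part A) {s : A.ι → M → Matrix (Fin n) (Fin n) ℂ}
    (hs : IsFld A s) (i : A.ι) : A.Sm (fr K i (dd A i (Wi K P s i))) :=
  sm_fr K (smAt_dd (smAt_Wi K P hs i)) (P.χ_cpt i) (P.χ_sub i)
    (off_dd (isClosed_tsupport _) (off_Wi K P s i))

theorem sm_rhoC (K : Kah A) (P : Part A) {s : A.ι → M → Matrix (Fin n) (Fin n) ℂ}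
    (hs : IsFld A s) : A.Sm (rhoC K P s) := by
  have := Fintype.ofFinite A.ι
  intro j
  have h1 : ContDiffOn ℝ ∞ (fun z => ∑ i, fr K i (dd A i (Wi K P s i)) ((A.e j).symm z))
      (A.e j).target := ContDiffOn.sum fun i _ => sm_fr_Wi K P hs i j
  refine h1.congr fun z _ => ?_
  exact finsum_eq_sum_of_fintype _

/-- **the function `ρ_s`** -/
def rho (K : Kah A) (P : Part A) (s : A.ι → M → Matrix (Fin n) (Fin n) ℂ) (x : M) : ℝ :=
  (rhoC K P s x).re

theorem sm_rho (K : Kah A) (P : Part A) {s : A.ι → M → Matrix (Fin n) (Fin n) ℂ}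
    (hs : IsFld A s) : A.Sm (rho K P s) := sm_re (sm_rhoC K P hs)

theorem sm_ofReal {u : M → ℝ} (hu : A.Sm u) : A.Sm (fun x => (u x : ℂ)) := fun i =>
  smAt_ofReal (hu i)

/-- complex form of the adjoint identity -/
theorem integral_LopC (K : Kah A) (P : Part A) {s : A.ι → M → Matrix (Fin n) (Fin n) ℂ}
    (hs : IsFld A s) {u : M → ℝ} (hu : A.Sm u) :
    ∫ x, ((Lop s u x : ℝ) : ℂ) ∂(vm (volK K)) = ∫ x, rhoC K P s x * u x ∂(vm (volK K)) := by
  classical
  have := Fintype.ofFinite A.ι
  rw [integral_vm_part (volK K) P (integrable_sm (volK K) (sm_ofReal (sm_Lop hs hu)))]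
  have h1 : ∀ i, lint A i (fun x => (P.ψ i x : ℂ) * (((volK K).w i x : ℂ) *
      ((Lop s u x : ℝ) : ℂ))) = ∫ x, fr K i (dd A i (Wi K P s i)) x * u x ∂(vm (volK K)) := by
    intro i
    rw [integral_fr K (smAt_dd (smAt_Wi K P hs i)) (P.χ_cpt i) (P.χ_sub i)
      (off_dd (isClosed_tsupport _) (off_Wi K P s i)) (sm_ofReal hu),
      ← parts_W (smAt_Wi K P hs i) (smAt_ofReal (hu i)) (P.χ_cpt i) (P.χ_sub i) (off_Wi K P s i)]
    refine lint_congr fun x hx => ?_
    rw [volK_w K i hx, Lop_ofReal hs hu hx, Finset.mul_sum, Finset.mul_sum]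
    refine Finset.sum_congr rfl fun a _ => ?_
    rw [Finset.mul_sum, Finset.mul_sum]
    refine Finset.sum_congr rfl fun b _ => ?_
    change _ = ((P.ψ i x : ℂ) * (K.g i x).det) * s i x a b * _
    ring
  rw [Finset.sum_congr rfl fun i _ => h1 i, ← integral_finsetSum _ fun i _ =>
    integrable_sm (volK K) (sm_mul (sm_fr_Wi K P hs i) (sm_ofReal hu))]
  congr 1
  funext x
  unfold rhoC
  rw [finsum_eq_sum_of_fintype, Finset.sum_mul]

/-- **(8.1)**: `∫ tr (s ∂∂̄u) dV = ∫ u ρ_s dV` -/
theorem integral_Lop (K : Kah A) (P : Part A) {s : A.ι → M → Matrix (Fin n) (Fin n) ℂ}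
    (hs : IsFld A s) {u : M → ℝ} (hu : A.Sm u) :
    ∫ x, Lop s u x ∂(vm (volK K)) = ∫ x, u x * rho K P s x ∂(vm (volK K)) := by
  have h1 := integral_LopC K P hs hu
  have h0 : ∫ x, ((Lop s u x : ℝ) : ℂ) ∂(vm (volK K)) =
      ((∫ x, Lop s u x ∂(vm (volK K)) : ℝ) : ℂ) := integral_complex_ofReal
  rw [h0] at h1
  have h2 := congrArg Complex.re h1
  rw [Complex.ofReal_re] at h2
  rw [h2]
  have h3 : ∫ x, (rhoC K P s x * u x).re ∂(vm (volK K)) =
      (∫ x, rhoC K P s x * u x ∂(vm (volK K))).re :=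
    integral_re (integrable_sm (volK K) (sm_mul (sm_rhoC K P hs) (sm_ofReal hu)))
  rw [← h3]
  congr 1
  funext x
  rw [Complex.re_mul_ofReal, mul_comm]
  rfl

/-! ### uniqueness -/

theorem exists_bump {x₀ : M} {U : Set M} (hU : U ∈ 𝓝 x₀) :
    ∃ φ : M → ℝ, A.Sm φ ∧ (∀ x, 0 ≤ φ x) ∧ φ x₀ = 1 ∧ ∀ x ∉ U, φ x = 0 := by
  classical
  obtain ⟨i, hi⟩ := A.cover x₀
  have hz := (A.e i).map_source hi
  have hc : Tendsto (A.e i).symm (𝓝 (A.e i x₀)) (𝓝 x₀) := by
    have := (A.e i).continuousAt_symm hz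
    rw [ContinuousAt, (A.e i).left_inv hi] at this
    exact this
  obtain ⟨r, hr, hb⟩ := Metric.nhds_basis_closedBall.mem_iff.1
    (inter_mem ((A.e i).open_target.mem_nhds hz) (hc hU))
  let f : ContDiffBump (A.e i x₀) := ⟨r / 2, r, by positivity, by linarith⟩
  set C : Set M := (A.e i).symm '' Metric.closedBall (A.e i x₀) r with hC
  have hCc : IsCompact C := (isCompact_closedBall _ _).image_of_continuousOn
    ((A.e i).continuousOn_symm.mono fun z hz => (hb hz).1)
  have hCU : C ⊆ U := by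
    rintro _ ⟨z, hz, rfl⟩
    exact (hb hz).2
  have hCi : C ⊆ (A.e i).source := by
    rintro _ ⟨z, hz, rfl⟩
    exact (A.e i).map_target (hb hz).1
  have hoff : Off A i (fun x => f (A.e i x)) C := by
    intro x hx hxC
    by_contra h
    have h1 : A.e i x ∈ Function.support f := h
    rw [f.support_eq] at h1
    exact hxC ⟨A.e i x, Metric.ball_subset_closedBall h1, (A.e i).left_inv hx⟩
  have hsm : A.SmAt i (fun x => f (A.e i x)) := by
    have h1 : ContDiffOn ℝ ∞ (fun z => f z) (A.e i).target := f.contDiff.contDiffOn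
    refine h1.congr fun z hz => ?_
    change f (A.e i ((A.e i).symm z)) = f z
    rw [(A.e i).right_inv hz]
  refine ⟨cut A i (fun x => f (A.e i x)), sm_cut hsm hCc hCi hoff, fun x => ?_, ?_, fun x hx => ?_⟩
  · by_cases h : x ∈ (A.e i).source
    · rw [cut_of_mem h]; exact f.nonneg
    · rw [cut_off h]
  · rw [cut_of_mem hi]
    exact f.one_of_mem_closedBall (Metric.mem_closedBall_self f.rIn_pos.le)
  · exact cut_zero_off hoff fun h => hx (hCU h)

theorem ext_of_integral (h : HM (KB A)⁻¹) {F : M → ℝ} (hF : Continuous F)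
    (H : ∀ u : M → ℝ, A.Sm u → ∫ x, u x * F x ∂(vm h) = 0) : ∀ x, F x = 0 := by
  -- it suffices to exclude positive values
  have key : ∀ G : M → ℝ, Continuous G → (∀ u : M → ℝ, A.Sm u → ∫ x, u x * G x ∂(vm h) = 0) →
      ∀ x, ¬ 0 < G x := by
    intro G hG HG x₀ hx₀
    have hU : {x | 0 < G x} ∈ 𝓝 x₀ := (isOpen_lt continuous_const hG).mem_nhds hx₀
    obtain ⟨φ, hφ, hφ0, hφ1, hφU⟩ := exists_bump (A := A) hU
    have hφc : Continuous φ := sm_continuous hφ
    have h1 := HG φ hφ
    have hnn : ∀ x, 0 ≤ φ x * G x := by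
      intro x
      by_cases hx : 0 < G x
      · exact mul_nonneg (hφ0 x) hx.le
      · rw [hφU x hx, zero_mul]
    have := isOpenPos_vm h
    have := isFinite_vm h
    have hc : Continuous fun x => φ x * G x := hφc.mul hG
    have h2 : 0 < ∫ x, φ x * G x ∂(vm h) :=
      hc.integral_pos_of_hasCompactSupport_nonneg_nonzero (HasCompactSupport.of_compactSpace _)
        hnn (x := x₀) (by rw [hφ1, one_mul]; exact hx₀.ne')
    exact h2.ne' h1
  intro x
  have h1 := key F hF H x
  have h2 := key (fun x => - F x) hF.neg (fun u hu => by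
    have e : (fun x => u x * - F x) = fun x => - (u x * F x) := funext fun x => by ring
    rw [e, integral_neg, H u hu, neg_zero]) x
  have h3 : ¬ 0 < - F x := h2
  linarith [not_lt.1 h1, not_lt.1 h3]

theorem continuous_rho (K : Kah A) (P : Part A) {s : A.ι → M → Matrix (Fin n) (Fin n) ℂ}
    (hs : IsFld A s) : Continuous (rho K P s) := sm_continuous (sm_rho K P hs)

theorem integrable_cont (h : HM (KB A)⁻¹) {F : M → ℝ} (hF : Continuous F) :
    Integrable F (vm h) := by
  have := isFinite_vm h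
  exact hF.integrable_of_hasCompactSupport (HasCompactSupport.of_compactSpace F)

/-- `ρ_s` is the only continuous function with the property (8.1) -/
theorem rho_unique (K : Kah A) (P : Part A) {s : A.ι → M → Matrix (Fin n) (Fin n) ℂ}
    (hs : IsFld A s) {F : M → ℝ} (hF : Continuous F)
    (H : ∀ u : M → ℝ, A.Sm u → ∫ x, Lop s u x ∂(vm (volK K)) = ∫ x, u x * F x ∂(vm (volK K)))
    (x : M) : rho K P s x = F x := by
  have hc : Continuous fun x => rho K P s x - F x := (continuous_rho K P hs).sub hF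
  have h1 : rho K P s x - F x = 0 := ext_of_integral (volK K) hc (fun u hu => by
    have e : (fun x => u x * (rho K P s x - F x)) = fun x => u x * rho K P s x - u x * F x :=
      funext fun x => by ring
    have i1 : Integrable (fun x => u x * rho K P s x) (vm (volK K)) :=
      integrable_cont _ ((sm_continuous hu).mul (continuous_rho K P hs))
    have i2 : Integrable (fun x => u x * F x) (vm (volK K)) :=
      integrable_cont _ ((sm_continuous hu).mul hF)
    rw [e, integral_sub i1 i2, ← H u hu, integral_Lop K P hs hu, sub_self]) x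
  linarith

theorem rho_indep (K : Kah A) (P P' : Part A) {s : A.ι → M → Matrix (Fin n) (Fin n) ℂ}
    (hs : IsFld A s) (x : M) : rho K P s x = rho K P' s x :=
  rho_unique K P hs (continuous_rho K P' hs) (fun _ hu => integral_Lop K P' hs hu) x

theorem Lop_add_left (s t : A.ι → M → Matrix (Fin n) (Fin n) ℂ) (u : M → ℝ) (x : M) :
    Lop (s + t) u x = Lop s u x + Lop t u x := trF_add_left s t _ x

theorem Lop_smul_left (c : ℝ) (s : A.ι → M → Matrix (Fin n) (Fin n) ℂ) (u : M → ℝ) (x : M) :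
    Lop (c • s) u x = c * Lop s u x := trF_smul_left c s _ x

theorem hsf_add {u v : M → ℝ} (hu : A.Sm u) (hv : A.Sm v) {i : A.ι} {x : M}
    (hx : x ∈ (A.e i).source) : hsf A (u + v) i x = hsf A u i x + hsf A v i x :=
  hess_add (sm_contDiffAt hu i ((A.e i).map_source hx))
    (sm_contDiffAt hv i ((A.e i).map_source hx))

theorem hsf_smul (c : ℝ) {u : M → ℝ} (hu : A.Sm u) {i : A.ι} {x : M}
    (hx : x ∈ (A.e i).source) : hsf A (c • u) i x = (c : ℂ) • hsf A u i x :=
  hess_const_mul c (sm_contDiffAt hu i ((A.e i).map_source hx))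

theorem Lop_add_right (s : A.ι → M → Matrix (Fin n) (Fin n) ℂ) {u v : M → ℝ} (hu : A.Sm u)
    (hv : A.Sm v) (x : M) : Lop s (u + v) x = Lop s u x + Lop s v x := by
  have h1 : prF s (hsf A (u + v)) (ci A x) x =
      prF s (hsf A u) (ci A x) x + prF s (hsf A v) (ci A x) x := by
    rw [← prF_add_right]
    unfold prF
    rw [hsf_add hu hv (mem_ci x)]
    rfl
  unfold Lop trF
  rw [h1, Complex.add_re]

theorem Lop_smul_right (c : ℝ) (s : A.ι → M → Matrix (Fin n) (Fin n) ℂ) {u : M → ℝ} (hu : A.Sm u)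
    (x : M) : Lop s (c • u) x = c * Lop s u x := by
  have h1 : prF s (hsf A (c • u)) (ci A x) x = c * prF s (hsf A u) (ci A x) x := by
    unfold prF
    rw [hsf_smul c hu (mem_ci x), Finset.mul_sum]
    refine Finset.sum_congr rfl fun a _ => ?_
    rw [Finset.mul_sum]
    refine Finset.sum_congr rfl fun b _ => ?_
    rw [Matrix.smul_apply, smul_eq_mul]
    ring
  unfold Lop trF
  rw [h1, Complex.re_ofReal_mul]

theorem Lop_const (s : A.ι → M → Matrix (Fin n) (Fin n) ℂ) (c : ℝ) (x : M) :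
    Lop s (fun _ => c) x = 0 := by
  have h0 : A.Sm (fun _ : M => c) := fun i => contDiffOn_const
  have h1 : hsf A (fun _ : M => c) (ci A x) x = 0 := by
    rw [← hm_ofReal _ _ (mem_ci x)]
    ext a b
    rw [hm_apply, Matrix.zero_apply]
    have e : dl A (ci A x) a (A.db (ci A x) b fun _ : M => ((c : ℝ) : ℂ)) x =
        dl A (ci A x) a (fun _ : M => (0 : ℂ)) x := by
      congr 1
      funext y
      unfold Atl.db dbj
      simp
    rw [e, dl_zero']
  unfold Lop trF prF
  rw [h1]
  simp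

theorem rho_add (K : Kah A) (P : Part A) {s t : A.ι → M → Matrix (Fin n) (Fin n) ℂ}
    (hs : IsFld A s) (ht : IsFld A t) (x : M) :
    rho K P (s + t) x = rho K P s x + rho K P t x := by
  have hst : IsFld A (s + t) := (Fld A).add_mem hs ht
  refine rho_unique K P hst ((continuous_rho K P hs).add (continuous_rho K P ht))
    (fun u hu => ?_) x
  have e1 : (fun x => Lop (s + t) u x) = fun x => Lop s u x + Lop t u x :=
    funext fun x => Lop_add_left s t u x
  have e2 : (fun x => u x * (rho K P s x + rho K P t x)) =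
      fun x => u x * rho K P s x + u x * rho K P t x := funext fun x => by ring
  change ∫ x, (fun x => Lop (s + t) u x) x ∂_ = ∫ x, (fun x => u x * (rho K P s x + rho K P t x)) x ∂_
  have i1 : Integrable (fun x => Lop s u x) (vm (volK K)) :=
    integrable_cont _ (sm_continuous (sm_Lop hs hu))
  have i2 : Integrable (fun x => Lop t u x) (vm (volK K)) :=
    integrable_cont _ (sm_continuous (sm_Lop ht hu))
  have i3 : Integrable (fun x => u x * rho K P s x) (vm (volK K)) :=
    integrable_cont _ ((sm_continuous hu).mul (continuous_rho K P hs))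
  have i4 : Integrable (fun x => u x * rho K P t x) (vm (volK K)) :=
    integrable_cont _ ((sm_continuous hu).mul (continuous_rho K P ht))
  rw [e1, e2, integral_add i1 i2, integral_add i3 i4,
    integral_Lop K P hs hu, integral_Lop K P ht hu]

theorem rho_smul (K : Kah A) (P : Part A) (c : ℝ) {s : A.ι → M → Matrix (Fin n) (Fin n) ℂ}
    (hs : IsFld A s) (x : M) : rho K P (c • s) x = c * rho K P s x := by
  have hst : IsFld A (c • s) := (Fld A).smul_mem c hs
  refine rho_unique K P hst ((continuous_const (y := c)).mul (continuous_rho K P hs))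
    (fun u hu => ?_) x
  have e1 : (fun x => Lop (c • s) u x) = fun x => c * Lop s u x :=
    funext fun x => Lop_smul_left c s u x
  have e2 : (fun x => u x * (c * rho K P s x)) =
      fun x => c * (u x * rho K P s x) := funext fun x => by ring
  change ∫ x, (fun x => Lop (c • s) u x) x ∂_ = ∫ x, (fun x => u x * (c * rho K P s x)) x ∂_
  rw [e1, e2, integral_const_mul, integral_const_mul, integral_Lop K P hs hu]

/-- **`ρ_{g⁻¹} = 0`** (`g` Kaehler) -/
theorem rho_gI (K : Kah A) (P : Part A) (x : M) : rho K P (gI K) x = 0 := by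
  refine rho_unique K P (gI_isFld K) (F := fun _ => 0) continuous_const (fun u hu => ?_) x
  have e1 : (fun x => Lop (gI K) u x) = fun x => lapK K u x := funext fun x => trF_gI_hsf K u x
  change ∫ x, (fun x => Lop (gI K) u x) x ∂_ = _
  rw [e1, integral_lapK K P hu]
  simp

theorem integral_rho (K : Kah A) (P : Part A) {s : A.ι → M → Matrix (Fin n) (Fin n) ℂ}
    (hs : IsFld A s) : ∫ x, rho K P s x ∂(vm (volK K)) = 0 := by
  have h1 := integral_Lop K P hs (u := fun _ => 1) (fun i => contDiffOn_const)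
  simp only [one_mul, Lop_const] at h1
  rw [← h1, integral_zero]

end meas

end t2

end

end Crest.Agent.R269.Adj_851
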