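import Mathlib

/-!
# R269 (S0411), leaf ALPHA, file 1 (helper927): Gram determinants and the complementary identity

`WS A` = `det (A Aᴴ)` as a real number (`A` = matrix whose rows are the vectors).
Main result `WS_mul_of_orthogonal`: if `A * Gᵀ = 0`, `A` has `m` rows, `G` has `c` rows, `m + c = ` number of columns,
then for EVERY `c`-row matrix `C`:
`normSq (det (A; C)) * WS G * WS A = WS A * WS A * normSq (det (C * Gᵀ))`.
-/

set_option autoImplicit false

open Matrix ComplexConjugate
open scoped ComplexOrder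

namespace Crest.Agent.R269.Alp_927

variable {m c κ : Type*} [Fintype m] [DecidableEq m] [Fintype c] [DecidableEq c]
  [Fintype κ] [DecidableEq κ]

/-- Gram determinant of the rows of `A`. -/
noncomputable def WS (A : Matrix m κ ℂ) : ℝ := (A * Aᴴ).det.re

omit [DecidableEq κ] in
theorem det_gram_nonneg (A : Matrix m κ ℂ) : 0 ≤ (A * Aᴴ).det :=
  (Matrix.posSemidef_self_mul_conjTranspose A).det_nonneg

omit [DecidableEq κ] in
theorem WS_nonneg (A : Matrix m κ ℂ) : 0 ≤ WS A := (Complex.le_def.1 (det_gram_nonneg A)).1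

omit [DecidableEq κ] in
theorem WS_cast (A : Matrix m κ ℂ) : ((WS A : ℝ) : ℂ) = (A * Aᴴ).det := by
  apply Complex.ext
  · simp [WS]
  · simpa using (Complex.le_def.1 (det_gram_nonneg A)).2

omit [DecidableEq κ] in
theorem WS_cast_conj (A : Matrix m κ ℂ) : (A.map conj * Aᵀ).det = ((WS A : ℝ) : ℂ) := by
  rw [WS_cast, ← Matrix.det_transpose (A * Aᴴ), Matrix.transpose_mul]
  rfl

/-- the square matrix with rows `A`, `C` (the identification `e` of the columns only changes a sign) -/
def stk (e : m ⊕ c ≃ κ) (A : Matrix m κ ℂ) (C : Matrix c κ ℂ) : Matrix (m ⊕ c) (m ⊕ c) ℂ :=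
  (Matrix.fromRows A C).submatrix id e

omit [DecidableEq m] [DecidableEq c] [DecidableEq κ] in
theorem stk_mul (e : m ⊕ c ≃ κ) (A A' : Matrix m κ ℂ) (C C' : Matrix c κ ℂ) :
    stk e A C * (stk e A' C')ᴴ = Matrix.fromBlocks (A * A'ᴴ) (A * C'ᴴ) (C * A'ᴴ) (C * C'ᴴ) := by
  have h2 : (stk e A' C')ᴴ = (Matrix.fromCols A'ᴴ C'ᴴ).submatrix e id := by
    ext i j
    rcases j with j | j <;> rfl
  rw [h2, stk, Matrix.submatrix_mul_equiv (Matrix.fromRows A C) (Matrix.fromCols A'ᴴ C'ᴴ) id e id,
    Matrix.submatrix_id_id, Matrix.fromRows_mul_fromCols]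

omit [DecidableEq m] [DecidableEq c] [DecidableEq κ] [Fintype m] [Fintype c] in
theorem conj_mul_eq_zero {A : Matrix m κ ℂ} {G : Matrix c κ ℂ} (hAG : A * Gᵀ = 0) :
    G.map conj * Aᴴ = 0 := by
  have := congrArg Matrix.conjTranspose hAG
  rw [Matrix.conjTranspose_mul, Matrix.conjTranspose_zero] at this
  rw [← this]
  rfl

omit [DecidableEq κ] in
theorem normSq_det_stk_conj (e : m ⊕ c ≃ κ) {A : Matrix m κ ℂ} {G : Matrix c κ ℂ}
    (hAG : A * Gᵀ = 0) :
    Complex.normSq (stk e A (G.map conj)).det = WS A * WS G := by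
  have h0 : (G.map conj)ᴴ = Gᵀ := by ext i j; simp
  have h4 := congrArg Matrix.det (stk_mul e A A (G.map conj) (G.map conj))
  rw [h0, hAG, Matrix.det_mul, Matrix.det_conjTranspose, Matrix.det_fromBlocks_zero₁₂, ← WS_cast,
    WS_cast_conj] at h4
  have h5 := Complex.mul_conj (stk e A (G.map conj)).det
  rw [← Complex.ofReal_inj, ← h5, Complex.ofReal_mul]
  exact h4

omit [DecidableEq κ] in
/-- the complementary identity -/
theorem WS_mul_of_orthogonal (e : m ⊕ c ≃ κ) {A : Matrix m κ ℂ} {G : Matrix c κ ℂ}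
    (hAG : A * Gᵀ = 0) (C : Matrix c κ ℂ) :
    Complex.normSq (stk e A C).det * (WS A * WS G) =
      WS A * WS A * Complex.normSq (C * Gᵀ).det := by
  have h0 : (G.map conj)ᴴ = Gᵀ := by ext i j; simp
  have h4 := congrArg Matrix.det (stk_mul e A A C (G.map conj))
  rw [h0, hAG, Matrix.det_mul, Matrix.det_conjTranspose, Matrix.det_fromBlocks_zero₁₂, ← WS_cast] at h4
  have h5 := congrArg Complex.normSq h4
  have h6 : Complex.normSq (star (stk e A (G.map conj)).det)
      = Complex.normSq (stk e A (G.map conj)).det := Complex.normSq_conj _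
  rw [Complex.normSq_mul, Complex.normSq_mul, Complex.normSq_ofReal, h6, normSq_det_stk_conj e hAG] at h5
  exact h5

omit [DecidableEq κ] in
theorem normSq_stk_mul_WS (e : m ⊕ c ≃ κ) {A : Matrix m κ ℂ} {G : Matrix c κ ℂ}
    (hAG : A * Gᵀ = 0) (hA : WS A ≠ 0) (C : Matrix c κ ℂ) :
    Complex.normSq (stk e A C).det * WS G = WS A * Complex.normSq (C * Gᵀ).det := by
  have := WS_mul_of_orthogonal e hAG C
  have h2 : WS A * (Complex.normSq (stk e A C).det * WS G)
      = WS A * (WS A * Complex.normSq (C * Gᵀ).det) := by linarith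
  exact mul_left_cancel₀ hA h2

omit [DecidableEq κ] in
/-- same row space -/
theorem WS_mul_left (T : Matrix m m ℂ) (A : Matrix m κ ℂ) :
    WS (T * A) = Complex.normSq T.det * WS A := by
  rw [← Complex.ofReal_inj, WS_cast, Matrix.conjTranspose_mul, Matrix.mul_assoc, ← Matrix.mul_assoc A,
    Matrix.det_mul, Matrix.det_mul, Matrix.det_conjTranspose, Complex.ofReal_mul, WS_cast,
    ← Complex.mul_conj]
  rw [starRingEnd_apply]
  ring

omit [DecidableEq κ] in
theorem WS_pos_of_linearIndependent {A : Matrix m κ ℂ} (h : LinearIndependent ℂ (fun i => A i)) :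
    0 < WS A := by
  have h1 : Function.Injective A.vecMul := Matrix.vecMul_injective_iff.2 h
  have h2 := (Matrix.PosDef.mul_conjTranspose_self A h1).det_pos
  exact (Complex.lt_def.1 h2).1

omit [DecidableEq κ] in
theorem linearIndependent_of_WS {A : Matrix m κ ℂ} (h : WS A ≠ 0) :
    LinearIndependent ℂ (fun i => A i) := by
  have h1 : IsUnit (A * Aᴴ).det := by
    rw [← WS_cast]
    exact isUnit_iff_ne_zero.2 (Complex.ofReal_ne_zero.2 h)
  have h2 : IsUnit (A * Aᴴ) := (Matrix.isUnit_iff_isUnit_det _).2 h1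
  have h3 : Function.Injective (A * Aᴴ).vecMul := Matrix.vecMul_injective_iff_isUnit.2 h2
  have h4 : Function.Injective A.vecMul := by
    intro x y hxy
    apply h3
    have h5 : Matrix.vecMul x A = Matrix.vecMul y A := hxy
    show Matrix.vecMul x (A * Aᴴ) = Matrix.vecMul y (A * Aᴴ)
    rw [← Matrix.vecMul_vecMul, ← Matrix.vecMul_vecMul, h5]
  exact Matrix.vecMul_injective_iff.1 h4

omit [DecidableEq κ] in
theorem WS_pos_iff (A : Matrix m κ ℂ) : 0 < WS A ↔ LinearIndependent ℂ (fun i => A i) :=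
  ⟨fun h => linearIndependent_of_WS h.ne', WS_pos_of_linearIndependent⟩

end Crest.Agent.R269.Alp_927
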