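import Crest.Agent.R269.LevC_653

/-!
# R269 (S0411), leaf ALPHA, file 2 (helper927): Levi form calculus needed for `alpha`

* `lev_comp_hol` : `lev (u ∘ F) z x = lev u (F z) (fderiv ℂ F z x)` for `F` analytic, `u` of class C².
* `lev_log_normSq` : `lev (log |h|²) = 0` for `h` analytic, nonvanishing.
-/

set_option autoImplicit false

open Complex Filter Topology Crest.Agent.R269.LevC_653

namespace Crest.Agent.R269.Alp_927

variable {E : Type*} [NormedAddCommGroup E] [NormedSpace ℂ E]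
variable {E' : Type*} [NormedAddCommGroup E'] [NormedSpace ℂ E']

theorem fderiv_real_of_complex {F : E' → E} {z : E'} (hF : DifferentiableAt ℂ F z) :
    fderiv ℝ F z = (fderiv ℂ F z).restrictScalars ℝ :=
  (hF.hasFDerivAt.restrictScalars ℝ).fderiv

variable [CompleteSpace E]

theorem fderiv2_real_of_complex {F : E' → E} {z : E'} (hF : AnalyticAt ℂ F z) (x y : E') :
    fderiv ℝ (fderiv ℝ F) z x y = fderiv ℂ (fderiv ℂ F) z x y := by
  have h1 : fderiv ℝ F =ᶠ[𝓝 z] fun w => (fderiv ℂ F w).restrictScalars ℝ := by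
    filter_upwards [hF.eventually_analyticAt] with w hw
      using fderiv_real_of_complex hw.differentiableAt
  have h2 : HasFDerivAt (fderiv ℂ F) (fderiv ℂ (fderiv ℂ F) z) z :=
    hF.fderiv.differentiableAt.hasFDerivAt
  have h3 : HasFDerivAt (fun w => (fderiv ℂ F w).restrictScalars ℝ)
      ((ContinuousLinearMap.restrictScalarsL ℂ E' E ℝ ℝ).comp
        ((fderiv ℂ (fderiv ℂ F) z).restrictScalars ℝ)) z :=
    (ContinuousLinearMap.restrictScalarsL ℂ E' E ℝ ℝ).hasFDerivAt.comp z (h2.restrictScalars ℝ)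
  rw [h1.fderiv_eq, h3.fderiv]
  rfl

/-- chain rule for the Levi form. -/
theorem lev_comp_hol {u : E → ℝ} {F : E' → E} {z : E'} (hF : AnalyticAt ℂ F z)
    (hu : ContDiffAt ℝ 2 u (F z)) (x : E') :
    lev (fun w => u (F w)) z x = lev u (F z) (fderiv ℂ F z x) := by
  have hFR : ContDiffAt ℝ 2 F z := hF.contDiffAt.restrict_scalars ℝ
  have hFc : ContinuousAt F z := hF.continuousAt
  have h1 : fderiv ℝ (fun w => u (F w)) =ᶠ[𝓝 z]
      fun w => (fderiv ℝ u (F w)).comp (fderiv ℝ F w) := by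
    filter_upwards [hF.eventually_analyticAt, hFc.eventually (ev1 hu)] with w hw hw2
    exact fderiv_comp w hw2 (hw.differentiableAt.restrictScalars ℝ)
  have h2 : HasFDerivAt (fun w => fderiv ℝ u (F w))
      ((fderiv ℝ (fderiv ℝ u) (F z)).comp (fderiv ℝ F z)) z :=
    (diff2 hu).hasFDerivAt.comp z (hF.differentiableAt.restrictScalars ℝ).hasFDerivAt
  have h3 : HasFDerivAt (fderiv ℝ F) (fderiv ℝ (fderiv ℝ F) z) z :=
    ((hFR.fderiv_right (m := 1) (by norm_num)).differentiableAt (by norm_num)).hasFDerivAt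
  have h4 := h2.clm_comp h3
  have key : ∀ y, fderiv ℝ (fderiv ℝ (fun w => u (F w))) z y y
      = fderiv ℝ (fderiv ℝ u) (F z) (fderiv ℂ F z y) (fderiv ℂ F z y)
        + fderiv ℝ u (F z) (fderiv ℂ (fderiv ℂ F) z y y) := by
    intro y
    rw [h1.fderiv_eq, h4.fderiv]
    have e1 : fderiv ℝ F z = (fderiv ℂ F z).restrictScalars ℝ :=
      fderiv_real_of_complex hF.differentiableAt
    have e2 := fderiv2_real_of_complex hF y y
    simp [e1, e2, add_comm]
  have e0 : fderiv ℂ (fderiv ℂ F) z (I • x) (I • x) = - fderiv ℂ (fderiv ℂ F) z x x := by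
    rw [map_smul, map_smul, smul_apply, smul_smul, I_mul_I, neg_one_smul]
  have e1 : fderiv ℂ F z (I • x) = I • fderiv ℂ F z x := map_smul _ _ _
  unfold lev
  rw [key, key, e0, e1, map_neg]
  ring

/-- `log |h|²` is pluriharmonic. -/
theorem lev_log_normSq {h : E' → ℂ} {z : E'} (hh : AnalyticAt ℂ h z) (h0 : h z ≠ 0) (x : E') :
    lev (fun w => Real.log (Complex.normSq (h w))) z x = 0 := by
  have h1 : (fun w => Real.log (Complex.normSq (h w))) =ᶠ[𝓝 z]
      fun w => 2 * reCLM (Complex.log (h w / h z)) + Real.log (Complex.normSq (h z)) := by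
    filter_upwards [hh.continuousAt.eventually_ne h0] with w hw
    have e1 : (Complex.log (h w / h z)).re = Real.log (‖h w‖ / ‖h z‖) := by
      rw [Complex.log_re, norm_div]
    have n1 : ‖h w‖ ≠ 0 := norm_ne_zero_iff.2 hw
    have n2 : ‖h z‖ ≠ 0 := norm_ne_zero_iff.2 h0
    rw [reCLM_apply, e1, Real.log_div n1 n2, Complex.normSq_eq_norm_sq, Complex.normSq_eq_norm_sq,
      Real.log_pow, Real.log_pow]
    push_cast
    ring
  have h2 : AnalyticAt ℂ (fun w => Complex.log (h w / h z)) z := by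
    have h3 : AnalyticAt ℂ (fun w => h w / h z) z := hh.div analyticAt_const h0
    apply h3.clog
    rw [div_self h0]
    exact Complex.one_mem_slitPlane
  have c1 : ContDiffAt ℝ 2 (fun w => reCLM (Complex.log (h w / h z))) z := hol_contDiffAt reCLM h2
  have c2 : ContDiffAt ℝ 2 (fun w => 2 * reCLM (Complex.log (h w / h z))) z := contDiffAt_const.mul c1
  rw [lev_congr h1, lev_add c2 contDiffAt_const, lev_const_mul 2 c1, lev_hol reCLM h2, lev_const]
  ring

theorem contDiffAt_log_normSq {h : E' → ℂ} {z : E'} {n : WithTop ℕ∞} (hh : AnalyticAt ℂ h z)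
    (h0 : h z ≠ 0) : ContDiffAt ℝ n (fun w => Real.log (Complex.normSq (h w))) z := by
  have h1 : ContDiffAt ℝ n (fun w => ‖h w‖ ^ 2) z := nsq_contDiffAt hh
  have h2 : (fun w => Complex.normSq (h w)) = fun w => ‖h w‖ ^ 2 := by
    funext w; rw [Complex.normSq_eq_norm_sq]
  rw [← h2] at h1
  exact h1.log (by simpa using h0)

end Crest.Agent.R269.Alp_927
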