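import Mathlib
import Crest.Prelude.Def_ProjPluricanonical

/-!
# R269 (S0411), leaf GEO: definitions and the statement of the local chart theorem (helper328)

`Cone I`      : the nonzero points of the affine cone.
`Tan I p`     : the tangent space of the cone, `{v | dF_p v = 0 for all F ∈ I}`.
`ConeChart`   : a holomorphic graph chart `σ : ball 0 R ⊂ ℂⁿ → Cone I` of `X = Cone I / ℂ*` around `p₀`
                (normalised by `σ z i = 1`, coordinates = ratio coordinates `q_{J k} / q_i - p₀_{J k}/p₀_i`).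
`PP p`        : the projector `p p* / |p|²` (as a plain function `Fin (N+1) → Fin (N+1) → ℂ`).
`XX I`        : `X` as a subset of `VV N`.
-/

set_option autoImplicit false

open MvPolynomial Crest.AlgGeometry.ProjEmb
open scoped ContDiff Topology ComplexConjugate

namespace Crest.Agent.R269.Geo_328

noncomputable section

/-- ambient space `ℂ^(N+1)` -/
abbrev EE (N : ℕ) : Type := Fin (N + 1) → ℂ

/-- chart space `ℂⁿ` (sup norm: balls are polydiscs) -/
abbrev CC (n : ℕ) : Type := Fin n → ℂ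

/-- `(N+1) × (N+1)` matrices as a normed space (sup norm) -/
abbrev VV (N : ℕ) : Type := Fin (N + 1) → Fin (N + 1) → ℂ

variable {N : ℕ}

/-- the nonzero points of the affine cone -/
def Cone (I : Ideal (HomCoordRing N)) : Set (EE N) := {p | p ∈ affineCone I ∧ p ≠ 0}

/-- gradient of a polynomial -/
def gradP (F : HomCoordRing N) (p : EE N) : EE N := fun j => MvPolynomial.eval p (MvPolynomial.pderiv j F)

/-- differential of a polynomial as a linear form -/
def dP (F : HomCoordRing N) (p v : EE N) : ℂ := ∑ j, gradP F p j * v j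

/-- tangent space of the cone -/
def Tan (I : Ideal (HomCoordRing N)) (p : EE N) : Submodule ℂ (EE N) where
  carrier := {v | ∀ F ∈ I, dP F p v = 0}
  add_mem' := by
    intro a b ha hb F hF
    have h1 := ha F hF
    have h2 := hb F hF
    simp only [dP, Pi.add_apply, mul_add, Finset.sum_add_distrib] at *
    rw [h1, h2, add_zero]
  zero_mem' := by intro F _; simp [dP]
  smul_mem' := by
    intro c a ha F hF
    have h1 := ha F hF
    simp only [dP, Pi.smul_apply, smul_eq_mul] at *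
    have : ∑ j, gradP F p j * (c * a j) = c * ∑ j, gradP F p j * a j := by
      rw [Finset.mul_sum]; exact Finset.sum_congr rfl (fun j _ => by ring)
    rw [this, h1, mul_zero]

theorem mem_Tan {I : Ideal (HomCoordRing N)} {p v : EE N} :
    v ∈ Tan I p ↔ ∀ F ∈ I, dP F p v = 0 := Iff.rfl

/-- `|p|²` -/
def nsq (p : EE N) : ℝ := ∑ i, ‖p i‖ ^ 2

/-- the projector `p p* / |p|²` -/
def PP (p : EE N) : VV N := fun i j => p i * conj (p j) / (nsq p : ℂ)

/-- `X` realised as a set of projectors -/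
def XX (I : Ideal (HomCoordRing N)) : Set (VV N) := PP '' Cone I

/-- ratio coordinates centred at `p₀` -/
def ratio {n : ℕ} (i : Fin (N + 1)) (J : Fin n → Fin (N + 1)) (p₀ q : EE N) : CC n :=
  fun k => q (J k) / q i - p₀ (J k) / p₀ i

/-- holomorphic graph chart of the cone around `p₀` -/
structure ConeChart (I : Ideal (HomCoordRing N)) (n : ℕ) (p₀ : EE N) where
  i : Fin (N + 1)
  J : Fin n → Fin (N + 1)
  J_inj : Function.Injective J
  J_ne : ∀ k, J k ≠ i
  p₀_ne : p₀ i ≠ 0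
  R : ℝ
  R_pos : 0 < R
  σ : CC n → EE N
  W : Set (EE N)
  W_open : IsOpen W
  W_smul : ∀ c : ℂ, c ≠ 0 → ∀ q ∈ W, c • q ∈ W
  W_ne : ∀ q ∈ W, q i ≠ 0
  mem_W : p₀ ∈ W
  an : AnalyticOnNhd ℂ σ (Metric.ball 0 R)
  σ_cone : ∀ z ∈ Metric.ball (0 : CC n) R, σ z ∈ Cone I
  σ_W : ∀ z ∈ Metric.ball (0 : CC n) R, σ z ∈ W
  σ_zero : σ 0 = (p₀ i)⁻¹ • p₀
  σ_i : ∀ z ∈ Metric.ball (0 : CC n) R, σ z i = 1
  σ_J : ∀ z ∈ Metric.ball (0 : CC n) R, ∀ k, σ z (J k) = p₀ (J k) / p₀ i + z k
  /-- every cone point of `W` lies on the graph -/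
  surj : ∀ q ∈ Cone I, q ∈ W → ratio i J p₀ q ∈ Metric.ball (0 : CC n) R ∧
    q = q i • σ (ratio i J p₀ q)
  /-- the tangent space of the cone along the chart -/
  tan : ∀ z ∈ Metric.ball (0 : CC n) R, ∀ v : EE N, v ∈ Tan I (σ z) ↔
    ∃ (c : ℂ) (x : CC n), v = c • σ z + fderiv ℂ σ z x

/-- LOCAL CHART THEOREM (proof: `GeoC_328`) -/
def ChartStmt : Prop := ∀ (N n : ℕ) (I : Ideal (HomCoordRing N)), I.IsPrime →
  IsSmoothProjective I n → ∀ p₀ ∈ Cone I, Nonempty (ConeChart I n p₀)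

/-- TANGENT SPACE FACTS (proof: `GeoT_328`) -/
def TanStmt : Prop := ∀ (N n : ℕ) (I : Ideal (HomCoordRing N)), I.IsPrime →
  IsSmoothProjective I n → ∀ p ∈ Cone I,
    Module.finrank ℂ (Tan I p) = n + 1 ∧ p ∈ Tan I p ∧ ∀ c : ℂ, c ≠ 0 → Tan I (c • p) = Tan I p

/-- A smooth (in the real sense) family of orthogonal projectors onto the tangent spaces, defined and
smooth near the cone: `Pi p` = matrix of the orthogonal projection of `ℂ^(N+1)` onto `Tan I p`
(proof: `GeoPi_328`). -/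
def ProjStmt : Prop := ∀ (N n : ℕ) (I : Ideal (HomCoordRing N)), I.IsPrime →
  IsSmoothProjective I n → ∃ (O : Set (EE N)) (Pi : EE N → VV N), IsOpen O ∧ Cone I ⊆ O ∧
    ContDiffOn ℝ ∞ Pi O ∧ (∀ c : ℂ, c ≠ 0 → ∀ q ∈ O, c • q ∈ O ∧ Pi (c • q) = Pi q) ∧
    ∀ p ∈ Cone I, (∀ v : EE N, (fun i => ∑ j, Pi p i j * v j) ∈ Tan I p) ∧
      (∀ v ∈ Tan I p, (fun i => ∑ j, Pi p i j * v j) = v) ∧ ∀ i j, conj (Pi p i j) = Pi p j i

end

end Crest.Agent.R269.Geo_328
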