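import Crest.Agent.R269.Alp1_927
import Crest.Agent.R269.Alp2_927
import Crest.Agent.R269.GeoDefs_328

/-!
# R269 (S0411), leaf ALPHA, file 3 (helper927): `log |p ∧ b₁ ∧ … ∧ b_n|²` along holomorphic families
-/

set_option autoImplicit false

open Complex Filter Topology Matrix MvPolynomial Crest.AlgGeometry.ProjEmb
open Crest.Agent.R269.LevC_653 Crest.Agent.R269.Geo_328
open scoped ContDiff ComplexConjugate

namespace Crest.Agent.R269.Alp_927

section gen

variable {E : Type*} [NormedAddCommGroup E] [NormedSpace ℂ E]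
variable {m c κ : Type*} [Fintype m] [DecidableEq m] [Fintype c] [DecidableEq c] [Fintype κ]

theorem analyticAt_det {A : E → Matrix m m ℂ} {z : E} (hA : ∀ i j, AnalyticAt ℂ (fun w => A w i j) z) :
    AnalyticAt ℂ (fun w => (A w).det) z := by
  simp only [Matrix.det_apply]
  refine Finset.analyticAt_fun_sum _ (fun σ _ => ?_)
  have h1 : AnalyticAt ℂ (fun w => ∏ i, A w (σ i) i) z :=
    Finset.analyticAt_fun_prod _ (fun i _ => hA _ _)
  have h2 : (fun w => Equiv.Perm.sign σ • ∏ i, A w (σ i) i)
      = fun w => ((Equiv.Perm.sign σ : ℤ) : ℂ) * ∏ i, A w (σ i) i := by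
    funext w
    rw [Units.smul_def, zsmul_eq_mul]
  rw [h2]
  exact analyticAt_const.mul h1

theorem contDiffAt_det {V : Type*} [NormedAddCommGroup V] [NormedSpace ℝ V] {n : WithTop ℕ∞}
    {A : V → Matrix m m ℂ} {z : V} (hA : ∀ i j, ContDiffAt ℝ n (fun w => A w i j) z) :
    ContDiffAt ℝ n (fun w => (A w).det) z := by
  simp only [Matrix.det_apply]
  refine ContDiffAt.sum (fun σ _ => ?_)
  have h1 : ContDiffAt ℝ n (fun w => ∏ i, A w (σ i) i) z :=
    contDiffAt_prod (fun i _ => hA _ _)
  have h2 : (fun w => Equiv.Perm.sign σ • ∏ i, A w (σ i) i)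
      = fun w => ((Equiv.Perm.sign σ : ℤ) : ℂ) * ∏ i, A w (σ i) i := by
    funext w
    rw [Units.smul_def, zsmul_eq_mul]
  rw [h2]
  exact contDiffAt_const.mul h1

theorem contDiffAt_WS {V : Type*} [NormedAddCommGroup V] [NormedSpace ℝ V] {n : WithTop ℕ∞}
    {A : V → Matrix m κ ℂ} {z : V} (hA : ∀ i j, ContDiffAt ℝ n (fun w => A w i j) z) :
    ContDiffAt ℝ n (fun w => WS (A w)) z := by
  have h1 : ContDiffAt ℝ n (fun w => (A w * (A w)ᴴ).det) z := by
    apply contDiffAt_det
    intro i j
    simp only [Matrix.mul_apply, Matrix.conjTranspose_apply]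
    refine ContDiffAt.sum (fun k _ => (hA i k).mul ?_)
    exact Complex.conjCLE.contDiff.contDiffAt.comp z (hA j k)
  exact reCLM.contDiff.contDiffAt.comp z h1

theorem continuousAt_WS {V : Type*} [TopologicalSpace V]
    {A : V → Matrix m κ ℂ} {z : V} (hA : ∀ i j, ContinuousAt (fun w => A w i j) z) :
    ContinuousAt (fun w => WS (A w)) z := by
  have hA' : ContinuousAt A z := tendsto_pi_nhds.2 (fun i => tendsto_pi_nhds.2 (fun j => hA i j))
  have h1 : ContinuousAt (fun w => (A w * (A w)ᴴ).det) z :=
    (Continuous.continuousAt (by fun_prop : Continuous fun M : Matrix m κ ℂ => (M * Mᴴ).det)).comp hA'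
  exact Complex.continuous_re.continuousAt.comp h1

/-- the Levi form of `log WS` of a holomorphic family of independent vectors orthogonal to another one -/
theorem lev_log_WS_eq {A : E → Matrix m κ ℂ} {G : E → Matrix c κ ℂ} {z : E} (e : m ⊕ c ≃ κ)
    (hA : ∀ i j, AnalyticAt ℂ (fun w => A w i j) z) (hG : ∀ i j, AnalyticAt ℂ (fun w => G w i j) z)
    (hAG : ∀ᶠ w in 𝓝 z, A w * (G w)ᵀ = 0) (hA0 : WS (A z) ≠ 0) (hG0 : WS (G z) ≠ 0) (x : E) :
    lev (fun w => Real.log (WS (A w))) z x = lev (fun w => Real.log (WS (G w))) z x := by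
  classical
  set C : Matrix c κ ℂ := (G z).map conj with hC
  set a : E → ℂ := fun w => (stk e (A w) C).det with ha
  set g : E → ℂ := fun w => (C * (G w)ᵀ).det with hg
  have haA : AnalyticAt ℂ a z := by
    apply analyticAt_det
    intro i j
    rcases i with i | i
    · exact hA i (e j)
    · exact analyticAt_const
  have hgA : AnalyticAt ℂ g z := by
    apply analyticAt_det
    intro i j
    simp only [Matrix.mul_apply, Matrix.transpose_apply]
    exact Finset.analyticAt_fun_sum _ (fun k _ => analyticAt_const.mul (hG j k))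
  have hAG0 := hAG.self_of_nhds
  have ha0 : a z ≠ 0 := by
    have := normSq_det_stk_conj e hAG0
    intro h0
    rw [← hC] at this
    change Complex.normSq (a z) = _ at this
    rw [h0, map_zero] at this
    exact mul_ne_zero hA0 hG0 this.symm
  have hg0 : g z ≠ 0 := by
    have : g z = ((WS (G z) : ℝ) : ℂ) := WS_cast_conj (G z)
    rw [this]
    exact Complex.ofReal_ne_zero.2 hG0
  have cA : ContinuousAt (fun w => WS (A w)) z := continuousAt_WS (fun i j => (hA i j).continuousAt)
  have cG : ContinuousAt (fun w => WS (G w)) z := continuousAt_WS (fun i j => (hG i j).continuousAt)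
  have hev : (fun w => Real.log (WS (A w))) =ᶠ[𝓝 z] fun w =>
      (Real.log (Complex.normSq (a w)) + Real.log (WS (G w))) + (-1) * Real.log (Complex.normSq (g w)) := by
    filter_upwards [hAG, cA.eventually_ne hA0, cG.eventually_ne hG0,
      haA.continuousAt.eventually_ne ha0, hgA.continuousAt.eventually_ne hg0] with w h1 h2 h3 h4 h5
    have h6 := normSq_stk_mul_WS e h1 h2 C
    change Complex.normSq (a w) * WS (G w) = WS (A w) * Complex.normSq (g w) at h6
    have h7 : Real.log (Complex.normSq (a w)) + Real.log (WS (G w))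
        = Real.log (WS (A w)) + Real.log (Complex.normSq (g w)) := by
      rw [← Real.log_mul (by simpa using h4) h3, h6, Real.log_mul h2 (by simpa using h5)]
    linarith
  have c1 := contDiffAt_log_normSq (n := 2) haA ha0
  have c3 := contDiffAt_log_normSq (n := 2) hgA hg0
  have c2 : ContDiffAt ℝ 2 (fun w => Real.log (WS (G w))) z :=
    (contDiffAt_WS (fun i j => (hG i j).contDiffAt.restrict_scalars ℝ)).log hG0
  rw [lev_congr hev, lev_add (c1.add c2) (contDiffAt_const.mul c3), lev_add c1 c2,
    lev_const_mul _ c3, lev_log_normSq haA ha0, lev_log_normSq hgA hg0]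
  ring

/-- two holomorphic families with the same row space have `log WS` with the same Levi form -/
theorem lev_log_WS_eq_of_mul {G G' : E → Matrix c κ ℂ} {z : E}
    (hG : ∀ i j, AnalyticAt ℂ (fun w => G w i j) z) (hG' : ∀ i j, AnalyticAt ℂ (fun w => G' w i j) z)
    (hT : ∀ᶠ w in 𝓝 z, ∃ T : Matrix c c ℂ, G' w = T * G w) (hG0 : WS (G z) ≠ 0)
    (hG0' : WS (G' z) ≠ 0) (x : E) :
    lev (fun w => Real.log (WS (G' w))) z x = lev (fun w => Real.log (WS (G w))) z x := by
  classical
  set C : Matrix c κ ℂ := (G z).map conj with hC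
  set g : E → ℂ := fun w => (C * (G w)ᵀ).det with hg
  set g' : E → ℂ := fun w => (C * (G' w)ᵀ).det with hg'
  have hgA : AnalyticAt ℂ g z := by
    apply analyticAt_det
    intro i j
    simp only [Matrix.mul_apply, Matrix.transpose_apply]
    exact Finset.analyticAt_fun_sum _ (fun k _ => analyticAt_const.mul (hG j k))
  have hgA' : AnalyticAt ℂ g' z := by
    apply analyticAt_det
    intro i j
    simp only [Matrix.mul_apply, Matrix.transpose_apply]
    exact Finset.analyticAt_fun_sum _ (fun k _ => analyticAt_const.mul (hG' j k))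
  have hg0 : g z ≠ 0 := by
    have : g z = ((WS (G z) : ℝ) : ℂ) := WS_cast_conj (G z)
    rw [this]
    exact Complex.ofReal_ne_zero.2 hG0
  have key : ∀ w (T : Matrix c c ℂ), G' w = T * G w → g' w = T.det * g w ∧
      WS (G' w) = Complex.normSq T.det * WS (G w) := by
    intro w T h
    refine ⟨?_, by rw [h, WS_mul_left]⟩
    simp only [hg, hg']
    rw [h, Matrix.transpose_mul, ← Matrix.mul_assoc, Matrix.det_mul, Matrix.det_transpose, mul_comm]
  have hg0' : g' z ≠ 0 := by
    obtain ⟨T, hT0⟩ := hT.self_of_nhds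
    obtain ⟨h1, h2⟩ := key z T hT0
    rw [h1]
    refine mul_ne_zero ?_ hg0
    intro h3
    rw [h3, map_zero, zero_mul] at h2
    exact hG0' h2
  have cG : ContinuousAt (fun w => WS (G w)) z := continuousAt_WS (fun i j => (hG i j).continuousAt)
  have cG' : ContinuousAt (fun w => WS (G' w)) z :=
    continuousAt_WS (fun i j => (hG' i j).continuousAt)
  have hev : (fun w => Real.log (WS (G' w))) =ᶠ[𝓝 z] fun w =>
      (Real.log (Complex.normSq (g' w)) + Real.log (WS (G w))) + (-1) * Real.log (Complex.normSq (g w)) := by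
    filter_upwards [hT, cG'.eventually_ne hG0', cG.eventually_ne hG0,
      hgA'.continuousAt.eventually_ne hg0', hgA.continuousAt.eventually_ne hg0] with w h1 h2 h3 h4 h5
    obtain ⟨T, hT1⟩ := h1
    obtain ⟨k1, k2⟩ := key w T hT1
    have hTd : T.det ≠ 0 := by
      intro h0
      rw [h0, zero_mul] at k1
      exact h4 k1
    rw [k1, k2, map_mul, Real.log_mul (by simpa using hTd) h3,
      Real.log_mul (by simpa using hTd) (by simpa using h5)]
    ring
  have c1 := contDiffAt_log_normSq (n := 2) hgA' hg0'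
  have c3 := contDiffAt_log_normSq (n := 2) hgA hg0
  have c2 : ContDiffAt ℝ 2 (fun w => Real.log (WS (G w))) z :=
    (contDiffAt_WS (fun i j => (hG i j).contDiffAt.restrict_scalars ℝ)).log hG0
  rw [lev_congr hev, lev_add (c1.add c2) (contDiffAt_const.mul c3), lev_add c1 c2,
    lev_const_mul _ c3, lev_log_normSq hgA' hg0', lev_log_normSq hgA hg0]
  ring

end gen

end Crest.Agent.R269.Alp_927
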