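import Crest.Agent.R269.GeoDefs_328

/-! # R269, leaf GEO: tangent spaces of the cone (helper328) -/

set_option autoImplicit false

open MvPolynomial Crest.AlgGeometry.ProjEmb
open scoped ContDiff Topology ComplexConjugate

namespace Crest.Agent.R269.Geo_328

noncomputable section

variable {N n : ℕ} {I : Ideal (HomCoordRing N)}

theorem dP_eq (F : HomCoordRing N) (p v : EE N) :
    dP F p v = ∑ j, MvPolynomial.eval p (MvPolynomial.pderiv j F) * v j := rfl

theorem dP_sum {ι : Type*} (s : Finset ι) (F : ι → HomCoordRing N) (p v : EE N) :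
    dP (∑ a ∈ s, F a) p v = ∑ a ∈ s, dP (F a) p v := by
  simp only [dP_eq, map_sum, Finset.sum_mul]
  rw [Finset.sum_comm]

theorem dP_decomp (F : HomCoordRing N) (p v : EE N) :
    dP F p v = ∑ d ∈ Finset.range (F.totalDegree + 1), dP (homogeneousComponent d F) p v := by
  conv_lhs => rw [← sum_homogeneousComponent F]
  rw [dP_sum]

theorem eval_smul_hom {F : HomCoordRing N} {k : ℕ} (h : F.IsHomogeneous k) (c : ℂ) (p : EE N) :
    MvPolynomial.eval (c • p) F = c ^ k * MvPolynomial.eval p F := by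
  rw [MvPolynomial.eval_eq', MvPolynomial.eval_eq', Finset.mul_sum]
  refine Finset.sum_congr rfl fun d hd => ?_
  have h1 : ∑ i, d i = k := by
    have := h (MvPolynomial.mem_support_iff.1 hd)
    rw [← this, Finsupp.weight_apply, Finsupp.sum_fintype _ _ (by simp)]
    simp
  have h2 : ∏ i, (c • p) i ^ d i = c ^ k * ∏ i, p i ^ d i := by
    simp only [Pi.smul_apply, smul_eq_mul, mul_pow]
    rw [Finset.prod_mul_distrib, Finset.prod_pow_eq_pow_sum, h1]
  rw [h2]; ring

/-- Euler: `p` is tangent to the cone at `p` -/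
theorem self_mem_Tan (hX : IsSmoothProjective I n) {p : EE N} (hp : p ∈ affineCone I) :
    p ∈ Tan I p := by
  intro F hF
  rw [dP_decomp]
  refine Finset.sum_eq_zero fun d _ => ?_
  have h1 := (homogeneousComponent_isHomogeneous d F).sum_X_mul_pderiv
  have h2 := congrArg (MvPolynomial.eval p) h1
  have h3 : MvPolynomial.eval p (homogeneousComponent d F) = 0 := hp _ (hX.homogeneous F hF d)
  simp only [map_sum, map_mul, eval_X, nsmul_eq_mul, h3, mul_zero] at h2
  rw [dP_eq, ← h2]
  exact Finset.sum_congr rfl fun j _ => mul_comm _ _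

theorem smul_mem_affineCone (hX : IsSmoothProjective I n) {p : EE N} (hp : p ∈ affineCone I)
    (c : ℂ) : c • p ∈ affineCone I := by
  intro F hF
  rw [← sum_homogeneousComponent F, map_sum]
  refine Finset.sum_eq_zero fun d _ => ?_
  rw [eval_smul_hom (homogeneousComponent_isHomogeneous d F)]
  rw [hp _ (hX.homogeneous F hF d), mul_zero]

theorem smul_mem_Cone (hX : IsSmoothProjective I n) {p : EE N} (hp : p ∈ Cone I)
    {c : ℂ} (hc : c ≠ 0) : c • p ∈ Cone I :=
  ⟨smul_mem_affineCone hX hp.1 c, smul_ne_zero hc hp.2⟩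

theorem Tan_smul_le (hX : IsSmoothProjective I n) (p : EE N) (c : ℂ) :
    Tan I p ≤ Tan I (c • p) := by
  intro v hv F hF
  rw [dP_decomp]
  refine Finset.sum_eq_zero fun d _ => ?_
  have h1 : dP (homogeneousComponent d F) p v = 0 := hv _ (hX.homogeneous F hF d)
  rw [dP_eq] at h1 ⊢
  have h2 : ∀ j, MvPolynomial.eval (c • p) (pderiv j (homogeneousComponent d F)) =
      c ^ (d - 1) * MvPolynomial.eval p (pderiv j (homogeneousComponent d F)) := fun j =>
    eval_smul_hom (homogeneousComponent_isHomogeneous d F).pderiv c p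
  simp only [h2, mul_assoc]
  rw [← Finset.mul_sum, h1, mul_zero]

theorem Tan_smul (hX : IsSmoothProjective I n) (p : EE N) {c : ℂ} (hc : c ≠ 0) :
    Tan I (c • p) = Tan I p := by
  refine le_antisymm ?_ (Tan_smul_le hX p c)
  have := Tan_smul_le hX (c • p) c⁻¹
  rwa [smul_smul, inv_mul_cancel₀ hc, one_smul] at this

/-- the span of the gradients -/
def gradSpan (I : Ideal (HomCoordRing N)) (p : EE N) : Submodule ℂ (EE N) :=
  Submodule.span ℂ {v : Fin (N + 1) → ℂ |
    ∃ F ∈ I, v = fun j => MvPolynomial.eval p (MvPolynomial.pderiv j F)}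

theorem gradP_mem_gradSpan {F : HomCoordRing N} (hF : F ∈ I) (p : EE N) :
    gradP F p ∈ gradSpan I p := Submodule.subset_span ⟨F, hF, rfl⟩

theorem Tan_eq_coann (p : EE N) : Tan I p =
    ((gradSpan I p).map (dotProductEquiv ℂ (Fin (N + 1))).toLinearMap).dualCoannihilator := by
  ext v
  rw [Submodule.mem_dualCoannihilator]
  constructor
  · rintro hv φ ⟨g, hg, rfl⟩
    change g ⬝ᵥ v = 0
    refine Submodule.span_induction (p := fun g _ => g ⬝ᵥ v = 0) ?_ ?_ ?_ ?_ hg
    · rintro _ ⟨F, hF, rfl⟩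
      exact hv F hF
    · simp
    · intro x y _ _ hx hy
      rw [add_dotProduct, hx, hy, add_zero]
    · intro a x _ hx
      rw [smul_dotProduct, hx, smul_zero]
  · intro h F hF
    exact h _ ⟨gradP F p, gradP_mem_gradSpan hF p, rfl⟩

theorem finrank_Tan (hX : IsSmoothProjective I n) {p : EE N} (hp : p ∈ Cone I) :
    Module.finrank ℂ (Tan I p) = n + 1 := by
  have h1 := Subspace.finrank_add_finrank_dualCoannihilator_eq (K := ℂ) (V := EE N)
    ((gradSpan I p).map (dotProductEquiv ℂ (Fin (N + 1))).toLinearMap)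
  rw [← Tan_eq_coann] at h1
  have h2 : Module.finrank ℂ
      ((gradSpan I p).map (dotProductEquiv ℂ (Fin (N + 1))).toLinearMap) = N - n := by
    rw [← hX.jacobian p hp.1 hp.2]
    exact LinearEquiv.finrank_map_eq (dotProductEquiv ℂ (Fin (N + 1))) (gradSpan I p)
  rw [h2] at h1
  have h3 : Module.finrank ℂ (EE N) = N + 1 := by simp
  rw [h3] at h1
  have := hX.dim_le
  omega

theorem tanStmt : TanStmt := fun _ _ _ _ hX _ hp =>
  ⟨finrank_Tan hX hp, self_mem_Tan hX hp.1, fun _ hc => Tan_smul hX _ hc⟩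

/-- a polynomial vanishing at all nonzero points of the cone lies in the ideal -/
theorem mem_of_vanish_Cone [hI : I.IsPrime] (hX : IsSmoothProjective I n) {H : HomCoordRing N}
    (h : ∀ q ∈ Cone I, MvPolynomial.eval q H = 0) : H ∈ I := by
  obtain ⟨i, hi⟩ := hX.exists_coord_not_mem
  have h1 : (X i : HomCoordRing N) * H ∈ vanishingIdeal ℂ (zeroLocus ℂ I) := by
    intro q hq
    have e : ∀ F : HomCoordRing N, aeval q F = MvPolynomial.eval q F := fun F => rfl
    have hq' : q ∈ affineCone I := fun F hF => by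
      have := hq F hF
      rwa [e] at this
    rw [e, map_mul, eval_X]
    by_cases h0 : q = 0
    · simp [h0]
    · rw [h q ⟨hq', h0⟩, mul_zero]
  rw [IsPrime.vanishingIdeal_zeroLocus] at h1
  exact (hI.mem_or_mem h1).resolve_left hi

theorem Cone_nonempty [hI : I.IsPrime] (hX : IsSmoothProjective I n) : (Cone I).Nonempty := by
  by_contra hne
  rw [Set.not_nonempty_iff_eq_empty] at hne
  have : (1 : HomCoordRing N) ∈ I := mem_of_vanish_Cone hX (fun q hq => by
    rw [hne] at hq; exact absurd hq (Set.notMem_empty q))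
  exact hI.ne_top ((Ideal.eq_top_iff_one I).2 this)

end

end Crest.Agent.R269.Geo_328
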