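import Mathlib
import Crest.Prelude.Def_ProjPluricanonical

/-!
# L5b: polynomial vector fields tangent to the cone, made of minors of the Jacobian (helper60, row 269)

Rows: gradients of generators `G : ι → MvPolynomial σ ℂ`.
* `theta G S J k`: the `k`-th component of the vector field `θ_{S,J}`;
* `theta_mem`: `∑ k, pderiv k P * theta G S J k ∈ I` for `P ∈ I` (Nullstellensatz);
* `cramer`: `m • v = ∑ k, v k • θ_{S, k::T}` for `v` in the kernel of the Jacobian;
* `exists_minor_ne_zero`: the `c × c` minors have no common zero on the cone minus `0`.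
-/

set_option autoImplicit false

open MvPolynomial Module

namespace Crest.Agent.R269.Tan_60

open Crest.AlgGeometry.ProjEmb

section Algebra

variable {σ ι : Type*} {c : ℕ}

/-- The matrix with first row `x ∘ J` and other rows `g (S a) ∘ J`. -/
def bmat {B : Type*} (g : Fin c → σ → B) (x : σ → B) (J : Fin (c + 1) → σ) :
    Matrix (Fin (c + 1)) (Fin (c + 1)) B :=
  Matrix.of (Fin.cons (fun j => x (J j)) (fun a j => g a (J j)))

/-- The `c × c` minor. -/
def cmat {B : Type*} (g : Fin c → σ → B) (T : Fin c → σ) : Matrix (Fin c) (Fin c) B :=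
  Matrix.of (fun a j => g a (T j))

theorem bmat_zero {B : Type*} (g : Fin c → σ → B) (x : σ → B) (J : Fin (c + 1) → σ)
    (j : Fin (c + 1)) : bmat g x J 0 j = x (J j) := rfl

theorem bmat_succ {B : Type*} (g : Fin c → σ → B) (x : σ → B) (J : Fin (c + 1) → σ)
    (a : Fin c) (j : Fin (c + 1)) : bmat g x J a.succ j = g a (J j) := rfl

theorem det_bmat {B : Type*} [CommRing B] (g : Fin c → σ → B) (x : σ → B) (J : Fin (c + 1) → σ) :
    (bmat g x J).det = ∑ j : Fin (c + 1), (-1) ^ (j : ℕ) * x (J j) *
      (cmat g (fun i => J (j.succAbove i))).det := by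
  rw [Matrix.det_succ_row_zero]
  refine Finset.sum_congr rfl fun j _ => ?_
  rw [bmat_zero]
  rfl

/-- linearity in the first row -/
theorem sum_mul_det_bmat [Fintype σ] [DecidableEq σ] {B : Type*} [CommRing B]
    (g : Fin c → σ → B) (x : σ → B) (J : Fin (c + 1) → σ) :
    ∑ k, x k * (bmat g (Pi.single k 1) J).det = (bmat g x J).det := by
  simp only [det_bmat]
  simp only [Finset.mul_sum]
  rw [Finset.sum_comm]
  refine Finset.sum_congr rfl fun j _ => ?_
  rw [Finset.sum_eq_single (J j)]
  · simp only [Pi.single_eq_same]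
    ring
  · intro k _ hk
    rw [Pi.single_eq_of_ne (Ne.symm hk)]
    ring
  · intro h
    exact absurd (Finset.mem_univ _) h

/-- **Cramer**: if `v` is orthogonal to all the rows then
`det(g|T) * v l = ∑ k, v k * det (e_l ; g)|_{k :: T}`. -/
theorem cramer [Fintype σ] [DecidableEq σ] {B : Type*} [CommRing B]
    (g : Fin c → σ → B) (v : σ → B) (hv : ∀ a, ∑ k, g a k * v k = 0) (T : Fin c → σ) (l : σ) :
    (cmat g T).det * v l = ∑ k, v k * (bmat g (Pi.single l 1) (Fin.cons k T)).det := by
  have h1 : ∀ k, (bmat g (Pi.single l 1) (Fin.cons k T)).det =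
      ∑ i : Fin (c + 1), (-1) ^ (i : ℕ) * (bmat g (Pi.single l 1) (Fin.cons k T)) i 0 *
        ((bmat g (Pi.single l 1) (Fin.cons l T)).submatrix i.succAbove Fin.succ).det := by
    intro k
    rw [Matrix.det_succ_column_zero]
    refine Finset.sum_congr rfl fun i _ => ?_
    have : (bmat g (Pi.single l 1) (Fin.cons k T)).submatrix i.succAbove Fin.succ =
        (bmat g (Pi.single l 1) (Fin.cons l T)).submatrix i.succAbove Fin.succ := by
      ext a j
      simp only [Matrix.submatrix_apply]
      generalize i.succAbove a = r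
      refine Fin.cases ?_ (fun b => ?_) r
      · simp [bmat_zero]
      · simp [bmat_succ]
    rw [this]
  simp only [h1, Finset.mul_sum]
  rw [Finset.sum_comm, Fin.sum_univ_succ]
  have h2 : ∑ k, v k * ((-1) ^ ((0 : Fin (c + 1)) : ℕ) *
      bmat g (Pi.single l 1) (Fin.cons k T) 0 0 *
        ((bmat g (Pi.single l 1) (Fin.cons l T)).submatrix (Fin.succAbove 0) Fin.succ).det) =
      (cmat g T).det * v l := by
    rw [Finset.sum_eq_single l]
    · have : (bmat g (Pi.single l 1) (Fin.cons l T)).submatrix (Fin.succAbove 0) Fin.succ =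
          cmat g T := by
        ext a j
        simp [bmat, cmat]
      rw [this, bmat_zero]
      simp
      ring
    · intro k _ hk
      rw [bmat_zero]
      simp [Pi.single_eq_of_ne hk]
    · intro h
      exact absurd (Finset.mem_univ _) h
  rw [h2]
  have h3 : ∑ i : Fin c, ∑ k, v k * ((-1) ^ (i.succ : ℕ) *
      bmat g (Pi.single l 1) (Fin.cons k T) i.succ 0 *
        ((bmat g (Pi.single l 1) (Fin.cons l T)).submatrix i.succ.succAbove Fin.succ).det) = 0 := by
    refine Finset.sum_eq_zero fun i _ => ?_
    have : ∀ k, v k * ((-1) ^ (i.succ : ℕ) *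
      bmat g (Pi.single l 1) (Fin.cons k T) i.succ 0 *
        ((bmat g (Pi.single l 1) (Fin.cons l T)).submatrix i.succ.succAbove Fin.succ).det) =
        (g i k * v k) * ((-1) ^ (i.succ : ℕ) *
        ((bmat g (Pi.single l 1) (Fin.cons l T)).submatrix i.succ.succAbove Fin.succ).det) := by
      intro k
      rw [bmat_succ]
      simp only [Fin.cons_zero]
      ring
    simp only [this]
    rw [← Finset.sum_mul, hv i, zero_mul]
  rw [h3, add_zero]

theorem map_det_bmat {B B' : Type*} [CommRing B] [CommRing B'] (φ : B →+* B')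
    (g : Fin c → σ → B) (x : σ → B) (J : Fin (c + 1) → σ) :
    φ (bmat g x J).det = (bmat (fun a k => φ (g a k)) (fun k => φ (x k)) J).det := by
  rw [RingHom.map_det]
  congr 1
  ext i j
  refine Fin.cases ?_ (fun a => ?_) i
  · rfl
  · rfl

theorem map_det_cmat {B B' : Type*} [CommRing B] [CommRing B'] (φ : B →+* B')
    (g : Fin c → σ → B) (T : Fin c → σ) :
    φ (cmat g T).det = (cmat (fun a k => φ (g a k)) T).det := by
  rw [RingHom.map_det]
  congr 1

end Algebra

section LinAlg

variable {K V : Type*} [Field K] [AddCommGroup V] [Module K V]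

theorem exists_linearIndependent_of_finrank {ι : Type*} [FiniteDimensional K V] (v : ι → V)
    {c : ℕ} (h : finrank K (Submodule.span K (Set.range v)) = c) :
    ∃ S : Fin c → ι, LinearIndependent K (v ∘ S) := by
  obtain ⟨κ, a, ha, hsp, hli⟩ := exists_linearIndependent' K v
  have : Finite κ := hli.finite
  have : Fintype κ := Fintype.ofFinite κ
  have hc : Fintype.card κ = c := by
    rw [← h, ← hsp, finrank_span_eq_card hli]
  let e : Fin c ≃ κ := (finCongr hc.symm).trans (Fintype.equivFin κ).symm
  exact ⟨a ∘ e, by simpa [Function.comp_assoc] using hli.comp e e.injective⟩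

theorem exists_minor_of_linearIndependent {σ : Type*} [Fintype σ] {c : ℕ} (g : Fin c → σ → K)
    (h : LinearIndependent K g) : ∃ T : Fin c → σ, (cmat g T).det ≠ 0 := by
  classical
  -- columns
  let w : σ → (Fin c → K) := fun j a => g a j
  have hrank : finrank K (Submodule.span K (Set.range w)) = c := by
    have h1 : (Matrix.of g).rank = c := by
      rw [Matrix.rank_eq_finrank_span_row]
      have : (Matrix.of g).row = g := rfl
      rw [this, finrank_span_eq_card h, Fintype.card_fin]
    rw [Matrix.rank_eq_finrank_span_cols] at h1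
    exact h1
  obtain ⟨T, hT⟩ := exists_linearIndependent_of_finrank w hrank
  refine ⟨T, ?_⟩
  have h2 : LinearIndependent K (cmat g T).col := hT
  have h3 := Matrix.linearIndependent_cols_iff_isUnit.mp h2
  exact ((Matrix.isUnit_iff_isUnit_det _).mp h3).ne_zero

theorem det_eq_zero_of_finrank_lt {σ : Type*} {c : ℕ} (g : Fin c → σ → K)
    (x : σ → K) (J : Fin (c + 1) → σ) (W : Submodule K (σ → K)) [FiniteDimensional K W]
    (hW : finrank K W ≤ c) (hg : ∀ a, g a ∈ W) (hx : x ∈ W) : (bmat g x J).det = 0 := by
  classical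
  by_contra hne
  have h1 : LinearIndependent K (bmat g x J).row :=
    Matrix.linearIndependent_rows_iff_isUnit.mpr
      ((Matrix.isUnit_iff_isUnit_det _).mpr (isUnit_iff_ne_zero.mpr hne))
  -- the rows are images of vectors of `W`
  let r : Fin (c + 1) → (σ → K) := Fin.cons x g
  have hr : ∀ i, r i ∈ W := by
    intro i
    refine Fin.cases hx (fun a => hg a) i
  let L : (σ → K) →ₗ[K] (Fin (c + 1) → K) := LinearMap.funLeft K K J
  have hL : (bmat g x J).row = L ∘ r := by
    funext i
    refine Fin.cases rfl (fun a => rfl) i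
  rw [hL] at h1
  have h2 : LinearIndependent K r := h1.of_comp L
  let r' : Fin (c + 1) → W := fun i => ⟨r i, hr i⟩
  have h3 : LinearIndependent K r' := by
    refine LinearIndependent.of_comp W.subtype ?_
    exact h2
  have := h3.fintype_card_le_finrank
  simp at this
  omega

end LinAlg

section Cone

variable {N n : ℕ}

abbrev R (N : ℕ) := HomCoordRing N

/-- gradient of a polynomial, as polynomials -/
noncomputable def grad (P : R N) : Fin (N + 1) → R N := fun j => pderiv j P

/-- gradient at a point -/
noncomputable def gradAt (p : Fin (N + 1) → ℂ) (P : R N) : Fin (N + 1) → ℂ :=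
  fun j => eval p (pderiv j P)

theorem eval_smul_of_isHomogeneous {σ : Type*} {F : MvPolynomial σ ℂ} {d : ℕ}
    (h : F.IsHomogeneous d) (p : σ → ℂ) (t : ℂ) : eval (t • p) F = t ^ d * eval p F := by
  rw [eval_eq, eval_eq, Finset.mul_sum]
  refine Finset.sum_congr rfl fun m hm => ?_
  have hd : ∑ i ∈ m.support, m i = d := by
    have h1 := h (mem_support_iff.mp hm)
    rw [Finsupp.weight_apply] at h1
    simpa [Finsupp.sum] using h1
  simp only [Pi.smul_apply, smul_eq_mul, mul_pow]
  rw [Finset.prod_mul_distrib, Finset.prod_pow_eq_pow_sum, hd]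
  ring

theorem smul_mem_affineCone {I : Ideal (R N)}
    (hI : ∀ F ∈ I, ∀ d : ℕ, homogeneousComponent d F ∈ I) {p : Fin (N + 1) → ℂ}
    (hp : p ∈ affineCone I) (t : ℂ) : t • p ∈ affineCone I := by
  intro F hF
  rw [← sum_homogeneousComponent F, map_sum]
  refine Finset.sum_eq_zero fun d _ => ?_
  rw [eval_smul_of_isHomogeneous (homogeneousComponent_isHomogeneous d F) p t,
    hp _ (hI F hF d), mul_zero]

/-- membership in a prime ideal by vanishing on the cone minus `0` -/
theorem mem_of_eval_eq_zero {I : Ideal (R N)} [I.IsPrime] (hX : IsSmoothProjective I n)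
    {Q : R N} (h : ∀ p ∈ affineCone I, p ≠ 0 → eval p Q = 0) : Q ∈ I := by
  have hnull : ∀ P : R N, (∀ p ∈ affineCone I, eval p P = 0) → P ∈ I := by
    intro P hP
    have h1 : P ∈ vanishingIdeal ℂ (zeroLocus ℂ I) := by
      rw [mem_vanishingIdeal_iff]
      intro x hx
      have : x ∈ affineCone I := by
        intro F hF
        have := hx F hF
        simpa [aeval_eq_eval] using this
      simpa [aeval_eq_eval] using hP x this
    rw [vanishingIdeal_zeroLocus_eq_radical] at h1
    exact (Ideal.IsPrime.isRadical inferInstance) h1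
  -- there is a nonzero point
  obtain ⟨i, hi⟩ := hX.exists_coord_not_mem
  have hex : ∃ q ∈ affineCone I, q ≠ 0 := by
    by_contra hcon
    push Not at hcon
    refine hi (hnull _ fun p hp => ?_)
    rw [hcon p hp]
    simp
  obtain ⟨q, hq, hq0⟩ := hex
  refine hnull Q fun p hp => ?_
  by_cases hp0 : p = 0
  · subst hp0
    -- continuity along the line through `q`
    have hcont : Continuous fun t : ℂ => eval (t • q) Q := by
      have h1 : Continuous fun x : Fin (N + 1) → ℂ => eval x Q := MvPolynomial.continuous_eval Q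
      exact h1.comp (continuous_id.smul continuous_const)
    have h2 : ∀ t : ℂ, t ≠ 0 → eval (t • q) Q = 0 := fun t ht =>
      h _ (smul_mem_affineCone hX.homogeneous hq t) (smul_ne_zero ht hq0)
    have h3 : (fun t : ℂ => eval (t • q) Q) = fun _ => 0 := by
      refine Continuous.ext_on (s := {t : ℂ | t ≠ 0}) ?_ hcont continuous_const ?_
      · exact dense_compl_singleton 0
      · intro t ht
        exact h2 t ht
    have := congrFun h3 0
    simpa using this
  · exact h p hp hp0

variable {ι : Type*}

/-- the gradient row vectors of the generators -/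
noncomputable def grow (G : ι → R N) {c : ℕ} (S : Fin c → ι) : Fin c → Fin (N + 1) → R N :=
  fun a => grad (G (S a))

/-- **the tangent vector fields** `θ_{S,J}` -/
noncomputable def theta (G : ι → R N) {c : ℕ} (S : Fin c → ι) (J : Fin (c + 1) → Fin (N + 1))
    (k : Fin (N + 1)) : R N :=
  (bmat (grow G S) (Pi.single k 1) J).det

/-- the minors -/
noncomputable def mnr (G : ι → R N) {c : ℕ} (S : Fin c → ι) (T : Fin c → Fin (N + 1)) : R N :=
  (cmat (grow G S) T).det

theorem sum_pderiv_mul_theta (G : ι → R N) {c : ℕ} (S : Fin c → ι)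
    (J : Fin (c + 1) → Fin (N + 1)) (P : R N) :
    ∑ k, pderiv k P * theta G S J k = (bmat (grow G S) (grad P) J).det :=
  sum_mul_det_bmat (grow G S) (grad P) J

theorem finrank_grad_le {I : Ideal (R N)} (hX : IsSmoothProjective I n)
    {p : Fin (N + 1) → ℂ} (hp : p ∈ affineCone I) (hp0 : p ≠ 0) :
    finrank ℂ (Submodule.span ℂ {v : Fin (N + 1) → ℂ | ∃ F ∈ I, v = gradAt p F}) = N - n :=
  hX.jacobian p hp hp0

/-- `θ_{S,J}` maps the ideal to itself. -/
theorem theta_mem {I : Ideal (R N)} [I.IsPrime] (hX : IsSmoothProjective I n)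
    {G : ι → R N} (hG : ∀ a, G a ∈ I) (S : Fin (N - n) → ι)
    (J : Fin (N - n + 1) → Fin (N + 1)) {P : R N} (hP : P ∈ I) :
    ∑ k, pderiv k P * theta G S J k ∈ I := by
  rw [sum_pderiv_mul_theta]
  refine mem_of_eval_eq_zero hX fun p hp hp0 => ?_
  rw [map_det_bmat (eval p : R N →+* ℂ)]
  refine det_eq_zero_of_finrank_lt _ _ J
    (Submodule.span ℂ {v : Fin (N + 1) → ℂ | ∃ F ∈ I, v = gradAt p F})
    (finrank_grad_le hX hp hp0).le (fun a => ?_) ?_
  · exact Submodule.subset_span ⟨G (S a), hG _, rfl⟩
  · exact Submodule.subset_span ⟨P, hP, rfl⟩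

theorem span_grad_eq {I : Ideal (R N)} {G : ι → R N} (hspan : Ideal.span (Set.range G) = I)
    {p : Fin (N + 1) → ℂ} (hp : p ∈ affineCone I) :
    Submodule.span ℂ {v : Fin (N + 1) → ℂ | ∃ F ∈ I, v = gradAt p F} =
      Submodule.span ℂ (Set.range fun a => gradAt p (G a)) := by
  apply le_antisymm
  · rw [Submodule.span_le]
    rintro v ⟨F, hF, rfl⟩
    rw [← hspan] at hF
    refine Submodule.span_induction (p := fun F _ => gradAt p F ∈
      Submodule.span ℂ (Set.range fun a => gradAt p (G a))) ?_ ?_ ?_ ?_ hF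
    · rintro x ⟨a, rfl⟩
      exact Submodule.subset_span ⟨a, rfl⟩
    · have : gradAt p 0 = 0 := by ext j; simp [gradAt]
      rw [this]
      exact Submodule.zero_mem _
    · intro x y _ _ hx hy
      have : gradAt p (x + y) = gradAt p x + gradAt p y := by ext j; simp [gradAt]
      rw [this]
      exact Submodule.add_mem _ hx hy
    · intro a x hxm hx
      have hxI : x ∈ I := by
        rw [← hspan]
        exact hxm
      have : gradAt p (a • x) = eval p a • gradAt p x := by
        ext j
        simp only [gradAt, smul_eq_mul, Pi.smul_apply, Derivation.leibniz, map_add, map_mul,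
          hp x hxI, zero_mul, add_zero]
      rw [this]
      exact Submodule.smul_mem _ _ hx
  · refine Submodule.span_mono ?_
    rintro v ⟨a, rfl⟩
    exact ⟨G a, by rw [← hspan]; exact Ideal.subset_span ⟨a, rfl⟩, rfl⟩

/-- the minors have no common zero on the cone minus the origin -/
theorem exists_minor_ne_zero {I : Ideal (R N)} (hX : IsSmoothProjective I n)
    {G : ι → R N} (hspan : Ideal.span (Set.range G) = I)
    {p : Fin (N + 1) → ℂ} (hp : p ∈ affineCone I) (hp0 : p ≠ 0) :
    ∃ (S : Fin (N - n) → ι) (T : Fin (N - n) → Fin (N + 1)), eval p (mnr G S T) ≠ 0 := by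
  have h1 := finrank_grad_le hX hp hp0
  rw [span_grad_eq hspan hp] at h1
  obtain ⟨S, hS⟩ := exists_linearIndependent_of_finrank _ h1
  obtain ⟨T, hT⟩ := exists_minor_of_linearIndependent _ hS
  refine ⟨S, T, ?_⟩
  rw [mnr, map_det_cmat (eval p : R N →+* ℂ)]
  exact hT

/-- finitely many generators -/
theorem exists_generators (I : Ideal (R N)) :
    ∃ (s : ℕ) (G : Fin s → R N), Ideal.span (Set.range G) = I := by
  obtain ⟨t, ht⟩ := (inferInstance : IsNoetherianRing (R N)).noetherian I
  refine ⟨t.card, fun i => (t.equivFin.symm i : R N), ?_⟩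
  rw [← ht]
  congr 1
  ext x
  constructor
  · rintro ⟨i, rfl⟩
    exact (t.equivFin.symm i).2
  · intro hx
    exact ⟨t.equivFin ⟨x, hx⟩, by simp⟩

/-- Cramer identity with values in a commutative algebra. -/
theorem mnr_mul_eq {A : Type*} [CommRing A] [Algebra ℂ A] (G : ι → R N) {c : ℕ} (S : Fin c → ι)
    (T : Fin c → Fin (N + 1)) (H V : Fin (N + 1) → A)
    (hV : ∀ a, ∑ k, aeval H (pderiv k (G (S a))) * V k = 0) (l : Fin (N + 1)) :
    aeval H (mnr G S T) * V l = ∑ k, V k * aeval H (theta G S (Fin.cons k T) l) := by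
  have h1 := cramer (B := A) (fun a k => aeval H (pderiv k (G (S a)))) V hV T l
  have h2 : aeval H (mnr G S T) = (cmat (fun a k => aeval H (pderiv k (G (S a)))) T).det := by
    rw [mnr]
    exact map_det_cmat (aeval H : R N →ₐ[ℂ] A).toRingHom _ _
  have h3 : ∀ J, aeval H (theta G S J l) =
      (bmat (fun a k => aeval H (pderiv k (G (S a)))) (Pi.single l 1) J).det := by
    intro J
    rw [theta]
    refine (map_det_bmat (aeval H : R N →ₐ[ℂ] A).toRingHom _ _ _).trans ?_
    congr 2
    funext k
    by_cases hk : k = l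
    · subst hk
      simp
    · simp [Pi.single_eq_of_ne hk]
  rw [h2, h1]
  simp only [h3]

end Cone

end Crest.Agent.R269.Tan_60
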