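import Crest.Agent.R269.Alp3_927
import Crest.Agent.R269.Lev_901
import Crest.Agent.R269.GeoT_328
import Crest.Agent.R269.Tan_60

/-!
# R269 (S0411), leaf ALPHA, file 4 (helper927): the curvature form `alpha` of the cone

`alphaG G n p v = lev (log WS (grad G)) p v - (n+1) lev (log |.|²) p v` for `G : Fin (N-n) → I` with independent
gradients at `p`.

* `exists_eqs` : such `G` exist at every cone point (chosen among finitely many: `exists_fin_eqs`).
* `alpha_frame` : `lev (log WS (F, b)) z x = lev (log WS (grad G)) (F z) (DF x)` for holomorphic `F`, `b` along the cone.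
* `alphaG_indep` : independence of `G` on `Tan I p`.
-/

set_option autoImplicit false

open Complex Filter Topology Matrix MvPolynomial Crest.AlgGeometry.ProjEmb
open Crest.Agent.R269.LevC_653 Crest.Agent.R269.Geo_328
open scoped ContDiff ComplexConjugate

namespace Crest.Agent.R269.Alp_927

noncomputable section

variable {N n : ℕ} {I : Ideal (HomCoordRing N)}

/-- matrix of the gradients -/
def gM {c : ℕ} (G : Fin c → HomCoordRing N) (p : EE N) : Matrix (Fin c) (Fin (N + 1)) ℂ :=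
  Matrix.of fun k => gradP (G k) p

/-- matrix with rows `p, b₁, …, b_n` -/
def rows (p : EE N) (b : Fin n → EE N) : Matrix (Fin (n + 1)) (Fin (N + 1)) ℂ :=
  Matrix.of (Fin.cons p b : Fin (n + 1) → EE N)

/-- `G` is a system of local equations at `p` -/
structure Eqs (I : Ideal (HomCoordRing N)) {c : ℕ} (G : Fin c → HomCoordRing N) (p : EE N) : Prop where
  mem : ∀ k, G k ∈ I
  ind : LinearIndependent ℂ (fun k => gradP (G k) p)

theorem Eqs.pos {c : ℕ} {G : Fin c → HomCoordRing N} {p : EE N} (h : Eqs I G p) :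
    0 < WS (gM G p) := WS_pos_of_linearIndependent h.ind

theorem eqs_of_ne {c : ℕ} {G : Fin c → HomCoordRing N} {p : EE N} (hm : ∀ k, G k ∈ I)
    (h : WS (gM G p) ≠ 0) : Eqs I G p := ⟨hm, linearIndependent_of_WS h⟩

theorem analyticAt_gradP (F : HomCoordRing N) (p : EE N) (j : Fin (N + 1)) :
    AnalyticAt ℂ (fun q : EE N => gradP F q j) p :=
  AnalyticOnNhd.eval_mvPolynomial (𝕜 := ℂ) (pderiv j F) p (Set.mem_univ _)

theorem analyticAt_gM {c : ℕ} (G : Fin c → HomCoordRing N) (p : EE N) (i : Fin c) (j : Fin (N + 1)) :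
    AnalyticAt ℂ (fun q : EE N => gM G q i j) p := analyticAt_gradP (G i) p j

theorem contDiffAt_WS_gM {c : ℕ} {k : WithTop ℕ∞} (G : Fin c → HomCoordRing N) (p : EE N) :
    ContDiffAt ℝ k (fun q => WS (gM G q)) p :=
  contDiffAt_WS (fun i j => (analyticAt_gM G p i j).contDiffAt.restrict_scalars ℝ)

/-- `log |dG₁ ∧ … ∧ dG_c|²` -/
def lG {c : ℕ} (G : Fin c → HomCoordRing N) (p : EE N) : ℝ := Real.log (WS (gM G p))

theorem contDiffAt_lG {c : ℕ} {k : WithTop ℕ∞} {G : Fin c → HomCoordRing N} {p : EE N}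
    (h : WS (gM G p) ≠ 0) : ContDiffAt ℝ k (lG G) p := (contDiffAt_WS_gM G p).log h

theorem eventually_WS_ne {c : ℕ} {G : Fin c → HomCoordRing N} {p : EE N} (h : WS (gM G p) ≠ 0) :
    ∀ᶠ q in 𝓝 p, WS (gM G q) ≠ 0 :=
  (contDiffAt_WS_gM (k := 0) G p).continuousAt.eventually_ne h

/-- finitely many systems of equations which suffice at every point of the cone -/
theorem exists_fin_eqs (hX : IsSmoothProjective I n) :
    ∃ (r : ℕ) (G : Fin r → Fin (N - n) → HomCoordRing N), (∀ s k, G s k ∈ I) ∧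
      ∀ p ∈ Cone I, ∃ s, Eqs I (G s) p := by
  obtain ⟨s, F, hF⟩ := Tan_60.exists_generators I
  let e := Fintype.equivFin (Fin (N - n) → Fin s)
  refine ⟨Fintype.card (Fin (N - n) → Fin s), fun a k => F (e.symm a k), fun a k => ?_, ?_⟩
  · rw [← hF]
    exact Ideal.subset_span ⟨_, rfl⟩
  · intro p hp
    have h1 : Module.finrank ℂ (Submodule.span ℂ {v : Fin (N + 1) → ℂ | ∃ F ∈ I, v = Tan_60.gradAt p F})
        = N - n := hX.jacobian p hp.1 hp.2
    rw [Tan_60.span_grad_eq hF hp.1] at h1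
    obtain ⟨S, hS⟩ := Tan_60.exists_linearIndependent_of_finrank _ h1
    refine ⟨e S, fun k => ?_, ?_⟩
    · rw [← hF]
      exact Ideal.subset_span ⟨_, rfl⟩
    · have hS' : LinearIndependent ℂ (fun k => gradP (F (S k)) p) := hS
      simpa using hS'

theorem exists_eqs (hX : IsSmoothProjective I n) {p : EE N} (hp : p ∈ Cone I) :
    ∃ G : Fin (N - n) → HomCoordRing N, Eqs I G p := by
  obtain ⟨r, G, _, h⟩ := exists_fin_eqs hX
  obtain ⟨s, hs⟩ := h p hp
  exact ⟨G s, hs⟩

/-- the identification of the rows of `(p, b; dG)` with the coordinates -/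
def eqv (hX : IsSmoothProjective I n) : Fin (n + 1) ⊕ Fin (N - n) ≃ Fin (N + 1) :=
  finSumFinEquiv.trans (finCongr (by have := hX.dim_le; omega))

theorem rows_mul_gM {p : EE N} {b : Fin n → EE N} {G : Fin (N - n) → HomCoordRing N}
    (hp : p ∈ Tan I p) (hb : ∀ k, b k ∈ Tan I p) (hG : ∀ k, G k ∈ I) :
    rows p b * (gM G p)ᵀ = 0 := by
  ext i k
  have key : ∀ v ∈ Tan I p, ∑ j, v j * gradP (G k) p j = 0 := by
    intro v hv
    have := hv (G k) (hG k)
    rw [dP] at this
    rw [← this]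
    exact Finset.sum_congr rfl fun j _ => mul_comm _ _
  rw [Matrix.mul_apply, Matrix.zero_apply]
  refine Fin.cases ?_ (fun l => ?_) i
  · exact key p hp
  · exact key (b l) (hb l)

section frame

variable {E : Type*} [NormedAddCommGroup E] [NormedSpace ℂ E]

theorem analyticAt_rows {F : E → EE N} {b : Fin n → E → EE N} {z : E} (hF : AnalyticAt ℂ F z)
    (hb : ∀ k, AnalyticAt ℂ (b k) z) (i : Fin (n + 1)) (j : Fin (N + 1)) :
    AnalyticAt ℂ (fun w => rows (F w) (fun k => b k w) i j) z := by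
  refine Fin.cases ?_ (fun l => ?_) i
  · exact (ContinuousLinearMap.proj (R := ℂ) (φ := fun _ : Fin (N + 1) => ℂ) j).analyticAt _ |>.comp hF
  · exact (ContinuousLinearMap.proj (R := ℂ) (φ := fun _ : Fin (N + 1) => ℂ) j).analyticAt _ |>.comp (hb l)

theorem analyticAt_gM_comp {c : ℕ} (G : Fin c → HomCoordRing N) {F : E → EE N} {z : E}
    (hF : AnalyticAt ℂ F z) (i : Fin c) (j : Fin (N + 1)) :
    AnalyticAt ℂ (fun w => gM G (F w) i j) z := (analyticAt_gM G (F z) i j).comp hF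

/-- `log |F ∧ b₁ ∧ … ∧ b_n|²` along a holomorphic family on the cone -/
theorem lev_rows (hX : IsSmoothProjective I n) {F : E → EE N} {b : Fin n → E → EE N} {z : E}
    (hF : AnalyticAt ℂ F z) (hb : ∀ k, AnalyticAt ℂ (b k) z)
    (hc : ∀ᶠ w in 𝓝 z, F w ∈ Cone I ∧ ∀ k, b k w ∈ Tan I (F w))
    (h0 : WS (rows (F z) (fun k => b k z)) ≠ 0) {G : Fin (N - n) → HomCoordRing N}
    (hG : Eqs I G (F z)) (x : E) :
    lev (fun w => Real.log (WS (rows (F w) (fun k => b k w)))) z x
      = lev (lG G) (F z) (fderiv ℂ F z x) := by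
  rw [lev_log_WS_eq (eqv hX) (analyticAt_rows hF hb) (analyticAt_gM_comp G hF) ?_ h0 hG.pos.ne' x]
  · exact Lev_901.lev_comp_hol (F := F) (u := lG G) (contDiffAt_lG hG.pos.ne') hF x
  · filter_upwards [hc] with w hw
    exact rows_mul_gM (self_mem_Tan hX hw.1.1) hw.2 hG.mem

end frame

/-! ### curves and frames in a chart -/

section chart

variable {p₀ : EE N}

theorem chart_hasFDerivAt (C : ConeChart I n p₀) {z : CC n} (hz : z ∈ Metric.ball (0 : CC n) C.R)
    (j : Fin (N + 1)) :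
    HasFDerivAt (fun w => C.σ w j)
      ((ContinuousLinearMap.proj (R := ℂ) (φ := fun _ : Fin (N + 1) => ℂ) j).comp (fderiv ℂ C.σ z)) z :=
  (ContinuousLinearMap.proj (R := ℂ) (φ := fun _ : Fin (N + 1) => ℂ) j).hasFDerivAt.comp z
    (C.an z hz).differentiableAt.hasFDerivAt

theorem chart_fderiv_i (C : ConeChart I n p₀) {z : CC n} (hz : z ∈ Metric.ball (0 : CC n) C.R)
    (x : CC n) : fderiv ℂ C.σ z x C.i = 0 := by
  have h1 : (fun w => C.σ w C.i) =ᶠ[𝓝 z] fun _ => 1 := by
    filter_upwards [Metric.isOpen_ball.mem_nhds hz] with w hw using C.σ_i w hw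
  have h2 := (chart_hasFDerivAt C hz C.i).fderiv
  rw [h1.fderiv_eq, fderiv_fun_const] at h2
  have h3 := congrArg (fun L : CC n →L[ℂ] ℂ => L x) h2
  simpa using h3.symm

theorem chart_fderiv_J (C : ConeChart I n p₀) {z : CC n} (hz : z ∈ Metric.ball (0 : CC n) C.R)
    (x : CC n) (l : Fin n) : fderiv ℂ C.σ z x (C.J l) = x l := by
  have h1 : (fun w => C.σ w (C.J l)) =ᶠ[𝓝 z] fun w => p₀ (C.J l) / p₀ C.i + w l := by
    filter_upwards [Metric.isOpen_ball.mem_nhds hz] with w hw using C.σ_J w hw l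
  have h2 := (chart_hasFDerivAt C hz (C.J l)).fderiv
  have h3 : HasFDerivAt (fun w : CC n => p₀ (C.J l) / p₀ C.i + w l)
      (ContinuousLinearMap.proj (R := ℂ) (φ := fun _ : Fin n => ℂ) l) z :=
    (ContinuousLinearMap.proj (R := ℂ) (φ := fun _ : Fin n => ℂ) l).hasFDerivAt.const_add _
  rw [h1.fderiv_eq, h3.fderiv] at h2
  have h4 := congrArg (fun L : CC n →L[ℂ] ℂ => L x) h2
  simpa using h4.symm

/-- coordinate frame of the chart -/
def cfr (C : ConeChart I n p₀) (k : Fin n) (z : CC n) : EE N := fderiv ℂ C.σ z (Pi.single k 1)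

theorem cfr_mem (C : ConeChart I n p₀) {z : CC n} (hz : z ∈ Metric.ball (0 : CC n) C.R) (k : Fin n) :
    cfr C k z ∈ Tan I (C.σ z) :=
  (C.tan z hz _).2 ⟨0, Pi.single k 1, by simp [cfr]⟩

theorem analyticAt_cfr (C : ConeChart I n p₀) {z : CC n} (hz : z ∈ Metric.ball (0 : CC n) C.R)
    (k : Fin n) : AnalyticAt ℂ (cfr C k) z :=
  ((ContinuousLinearMap.apply ℂ (EE N) (Pi.single k 1 : CC n)).analyticAt _).comp (C.an z hz).fderiv

theorem fderiv_eq_sum (L : CC n →L[ℂ] EE N) (x : CC n) : L x = ∑ k, x k • L (Pi.single k 1) := by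
  conv_lhs => rw [← Finset.univ_sum_single x]
  rw [map_sum]
  refine Finset.sum_congr rfl fun k _ => ?_
  rw [← map_smul]
  congr 1
  rw [← Pi.single_smul]
  simp

theorem linearIndependent_chart (C : ConeChart I n p₀) {z : CC n}
    (hz : z ∈ Metric.ball (0 : CC n) C.R) :
    LinearIndependent ℂ (Fin.cons (C.σ z) (fun k => cfr C k z) : Fin (n + 1) → EE N) := by
  rw [Fintype.linearIndependent_iff]
  intro g hg
  rw [Fin.sum_univ_succ] at hg
  simp only [Fin.cons_zero, Fin.cons_succ] at hg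
  have e : ∑ k : Fin n, g k.succ • cfr C k z = fderiv ℂ C.σ z (fun k => g k.succ) := by
    rw [fderiv_eq_sum]
    rfl
  rw [e] at hg
  have h0 : g 0 = 0 := by
    have := congrFun hg C.i
    rw [Pi.add_apply, chart_fderiv_i C hz, Pi.smul_apply, C.σ_i z hz] at this
    simpa using this
  intro k
  refine Fin.cases h0 (fun l => ?_) k
  have := congrFun hg (C.J l)
  rw [Pi.add_apply, chart_fderiv_J C hz, h0] at this
  simpa using this

/-- holomorphic curve in the cone with given tangent vector, with a frame -/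
theorem exists_curve (hX : IsSmoothProjective I n) (C : ConeChart I n p₀) {v : EE N}
    (hv : v ∈ Tan I p₀) :
    ∃ (γ : ℂ → EE N) (b : Fin n → ℂ → EE N), AnalyticAt ℂ γ 0 ∧ (∀ k, AnalyticAt ℂ (b k) 0) ∧
      γ 0 = p₀ ∧ fderiv ℂ γ 0 1 = v ∧
      (∀ᶠ w in 𝓝 (0 : ℂ), γ w ∈ Cone I ∧ ∀ k, b k w ∈ Tan I (γ w)) ∧
      LinearIndependent ℂ (Fin.cons (γ 0) (fun k => b k 0) : Fin (n + 1) → EE N) := by
  have h0 : (0 : CC n) ∈ Metric.ball (0 : CC n) C.R := Metric.mem_ball_self C.R_pos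
  have hp : p₀ = p₀ C.i • C.σ 0 := by
    rw [C.σ_zero, smul_smul, mul_inv_cancel₀ C.p₀_ne, one_smul]
  have hT : Tan I p₀ = Tan I (C.σ 0) := by
    conv_lhs => rw [hp]
    exact Tan_smul hX _ C.p₀_ne
  rw [hT] at hv
  obtain ⟨c, x, hcx⟩ := (C.tan 0 h0 v).1 hv
  let L : ℂ → CC n := fun w => (w * (p₀ C.i)⁻¹) • x
  have hLa : AnalyticAt ℂ L 0 := (analyticAt_id.mul analyticAt_const).smul analyticAt_const
  have hL0 : L 0 = 0 := by simp [L]
  have hLd : HasDerivAt L ((p₀ C.i)⁻¹ • x) 0 := by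
    have h1 : HasDerivAt (fun w : ℂ => w * (p₀ C.i)⁻¹) (p₀ C.i)⁻¹ 0 := by
      simpa using (hasDerivAt_id (0 : ℂ)).mul_const (p₀ C.i)⁻¹
    exact h1.smul_const x
  have hLe : ∀ᶠ w in 𝓝 (0 : ℂ), L w ∈ Metric.ball (0 : CC n) C.R := by
    have : ContinuousAt L 0 := hLa.continuousAt
    apply this.eventually_mem
    rw [hL0]
    exact Metric.isOpen_ball.mem_nhds h0
  have hσL : AnalyticAt ℂ C.σ (L 0) := by rw [hL0]; exact C.an 0 h0
  have hcne : ∀ᶠ w in 𝓝 (0 : ℂ), p₀ C.i + w * c ≠ 0 := by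
    have : ContinuousAt (fun w : ℂ => p₀ C.i + w * c) 0 := by fun_prop
    apply this.eventually_ne
    simpa using C.p₀_ne
  refine ⟨fun w => (p₀ C.i + w * c) • C.σ (L w), fun k w => cfr C k (L w), ?_, ?_, ?_, ?_, ?_, ?_⟩
  · exact (analyticAt_const.add (analyticAt_id.mul analyticAt_const)).smul (hσL.comp hLa)
  · intro k
    have : AnalyticAt ℂ (cfr C k) (L 0) := by rw [hL0]; exact analyticAt_cfr C h0 k
    exact this.comp hLa
  · simp only [hL0, zero_mul, add_zero]
    exact hp.symm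
  · have h1 : HasDerivAt (fun w : ℂ => p₀ C.i + w * c) c 0 := by
      simpa using ((hasDerivAt_id (0 : ℂ)).mul_const c).const_add (p₀ C.i)
    have h2 : HasDerivAt (fun w => C.σ (L w)) (fderiv ℂ C.σ 0 ((p₀ C.i)⁻¹ • x)) 0 := by
      have h3 : HasFDerivAt C.σ (fderiv ℂ C.σ 0) (L 0) := by
        rw [hL0]; exact (C.an 0 h0).differentiableAt.hasFDerivAt
      exact h3.comp_hasDerivAt 0 hLd
    have h4 := h1.smul h2
    have h5 : fderiv ℂ (fun w => (p₀ C.i + w * c) • C.σ (L w)) 0 1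
        = (p₀ C.i + 0 * c) • (fderiv ℂ C.σ 0) ((p₀ C.i)⁻¹ • x) + c • C.σ (L 0) := by
      rw [fderiv_apply_one_eq_deriv]
      exact h4.deriv
    rw [h5, hL0, map_smul, zero_mul, add_zero, smul_smul, mul_inv_cancel₀ C.p₀_ne, one_smul, hcx,
      add_comm]
  · filter_upwards [hLe, hcne] with w h1 h2
    refine ⟨smul_mem_Cone hX (C.σ_cone _ h1) h2, fun k => ?_⟩
    rw [Tan_smul hX _ h2]
    exact cfr_mem C h1 k
  · simp only [hL0, zero_mul, add_zero]
    have h1 := linearIndependent_chart C h0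
    rw [Fintype.linearIndependent_iff] at h1 ⊢
    intro g hg
    rw [Fin.sum_univ_succ] at hg
    simp only [Fin.cons_zero, Fin.cons_succ] at hg
    have h2 := h1 (Fin.cons (g 0 * p₀ C.i) (fun k => g k.succ)) (by
      rw [Fin.sum_univ_succ]
      simp only [Fin.cons_zero, Fin.cons_succ]
      rw [mul_smul]
      exact hg)
    intro k
    refine Fin.cases ?_ (fun l => ?_) k
    · have := h2 0
      simp only [Fin.cons_zero] at this
      exact (mul_eq_zero.1 this).resolve_right C.p₀_ne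
    · have := h2 l.succ
      simpa using this

end chart

end

end Crest.Agent.R269.Alp_927
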