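import Crest.Agent.R269.Alp4_927
import Crest.Agent.R269.Defs_58

/-!
# R269 (S0411), leaf ALPHA, file 5 (helper927): the `alpha` statements of `Defs_58`

* `lev_eq`, `wedgeSq_eq`, `omg_eq_lev` : dictionary `Defs_58` <-> `LevC_653`, `WS`;
* `alpha_eq` / `alphaIndepStmt` : independence of the equations (from `ChartStmt`);
* `alphaFamStmt` : `α = L log DD(F, b)` along holomorphic families;
* `alpha_smul_add` : `α (c p) (c (v + r p)) = α p v`;
* `alphaBddStmt` : `|α| ≤ C ω`.
-/

set_option autoImplicit false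

open Complex Filter Topology Matrix MvPolynomial Crest.AlgGeometry.ProjEmb
open Crest.Agent.R269.Geo_328 Crest.Agent.R269.Defs_58
open scoped ContDiff ComplexConjugate

namespace Crest.Agent.R269.Alp_927

noncomputable section

variable {N n : ℕ} {I : Ideal (HomCoordRing N)}

theorem lev_eq {ι : Type} [Fintype ι] (φ : (ι → ℂ) → ℝ) (p v : ι → ℂ) :
    Defs_58.lev φ p v = LevC_653.lev φ p v := by
  unfold Defs_58.lev LevC_653.lev
  rw [iteratedFDeriv_two_apply, iteratedFDeriv_two_apply]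
  simp

theorem wedgeSq_eq {m : ℕ} (w : Fin m → EE N) : wedgeSq w = WS (Matrix.of w) := rfl

theorem wedgeSq_grad {c : ℕ} (G : Fin c → HomCoordRing N) (q : EE N) :
    wedgeSq (fun k => gradP (G k) q) = WS (gM G q) := rfl

theorem lG_eq {c : ℕ} (G : Fin c → HomCoordRing N) :
    (fun q => Real.log (wedgeSq fun k => gradP (G k) q)) = lG G := rfl

theorem DD_eq (p : EE N) (b : Fin n → EE N) : DD p b = WS (rows p b) / nsq p ^ (n + 1) := rfl

theorem nsq_pos {p : EE N} (hp : p ≠ 0) : 0 < nsq p := by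
  obtain ⟨i, hi⟩ := Function.ne_iff.1 hp
  have h1 : 0 < ‖p i‖ ^ 2 := by
    have : p i ≠ 0 := hi
    positivity
  exact lt_of_lt_of_le h1 (Finset.single_le_sum (f := fun i => ‖p i‖ ^ 2)
    (fun j _ => by positivity) (Finset.mem_univ i))

theorem omg_eq_lev {p : EE N} (hp : p ≠ 0) (v : EE N) :
    omg p v = LevC_653.lev (fun q : EE N => Real.log (nsq q)) p v :=
  (Lev_901.lev_log_sum_nsq hp v).symm

theorem contDiffAt_nsq {k : WithTop ℕ∞} (p : EE N) : ContDiffAt ℝ k (fun q : EE N => nsq q) p :=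
  Lev_901.contDiffAt_nsq p

theorem eqs_iff {p : EE N} {G : Fin (N - n) → HomCoordRing N} :
    IndepAt I n p G ↔ Eqs I G p := ⟨fun h => ⟨h.1, h.2⟩, fun h => ⟨h.mem, h.ind⟩⟩

theorem alpha_choose (hX : IsSmoothProjective I n) {p : EE N} (hp : p ∈ Cone I) :
    ∃ G : Fin (N - n) → HomCoordRing N, Eqs I G p ∧
      ∀ v, alpha I n p v = LevC_653.lev (lG G) p v - (n + 1) * omg p v := by
  have h : ∃ G, IndepAt I n p G := by
    obtain ⟨G, hG⟩ := exists_eqs hX hp
    exact ⟨G, eqs_iff.2 hG⟩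
  refine ⟨h.choose, eqs_iff.1 h.choose_spec, fun v => ?_⟩
  unfold alpha
  rw [dif_pos h, lev_eq]
  rfl

/-- `α = L log DD(F, b)` along holomorphic families, any complex normed parameter space -/
theorem alpha_family (hX : IsSmoothProjective I n) {E : Type*} [NormedAddCommGroup E]
    [NormedSpace ℂ E] {F : E → EE N} {b : Fin n → E → EE N} {z : E}
    (hF : AnalyticAt ℂ F z) (hb : ∀ k, AnalyticAt ℂ (b k) z)
    (hc : ∀ᶠ w in 𝓝 z, F w ∈ Cone I ∧ ∀ k, b k w ∈ Tan I (F w))
    (h0 : 0 < DD (F z) (fun k => b k z)) (x : E) :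
    LevC_653.lev (fun w => Real.log (DD (F w) (fun k => b k w))) z x
      = alpha I n (F z) (fderiv ℂ F z x) := by
  have hp := hc.self_of_nhds.1
  have hn := nsq_pos hp.2
  have hW : WS (rows (F z) (fun k => b k z)) ≠ 0 := by
    intro h
    rw [DD_eq, h, zero_div] at h0
    exact lt_irrefl _ h0
  obtain ⟨G, hG, hα⟩ := alpha_choose hX hp
  have cW : ContDiffAt ℝ 2 (fun w => Real.log (WS (rows (F w) (fun k => b k w)))) z :=
    (contDiffAt_WS (fun i j => (analyticAt_rows hF hb i j).contDiffAt.restrict_scalars ℝ)).log hW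
  have cn : ContDiffAt ℝ 2 (fun w => Real.log (nsq (F w))) z :=
    (ContDiffAt.comp z (contDiffAt_nsq (F z)) (hF.contDiffAt.restrict_scalars ℝ)).log hn.ne'
  have hWe : ∀ᶠ w in 𝓝 z, WS (rows (F w) (fun k => b k w)) ≠ 0 :=
    (continuousAt_WS (fun i j => (analyticAt_rows hF hb i j).continuousAt)).eventually_ne hW
  have hev : (fun w => Real.log (DD (F w) (fun k => b k w))) =ᶠ[𝓝 z] fun w =>
      Real.log (WS (rows (F w) (fun k => b k w))) + (-((n : ℝ) + 1)) * Real.log (nsq (F w)) := by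
    filter_upwards [hc, hWe] with w h1 h2
    have h3 := nsq_pos h1.1.2
    rw [DD_eq, Real.log_div h2 (by positivity), Real.log_pow]
    push_cast
    ring
  rw [LevC_653.lev_congr hev, LevC_653.lev_add cW (contDiffAt_const.mul cn),
    LevC_653.lev_const_mul _ cn, lev_rows hX hF hb hc hW hG, hα, omg_eq_lev hp.2,
    Lev_901.lev_comp_hol (F := F) (u := fun q : EE N => Real.log (nsq q))
      ((contDiffAt_nsq (F z)).log hn.ne') hF x]
  ring

theorem alphaFamStmt : AlphaFamStmt := by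
  intro N n I _ hX d F b z₀ x hF hb hT h0
  rw [lev_eq]
  exact alpha_family hX hF.1 hb (hF.2.and hT) h0 x

/-- positivity of `DD` for independent vectors -/
theorem DD_pos {p : EE N} {b : Fin n → EE N} (hp : p ≠ 0)
    (h : LinearIndependent ℂ (Fin.cons p b : Fin (n + 1) → EE N)) : 0 < DD p b := by
  rw [DD_eq]
  have h1 : 0 < WS (rows p b) := WS_pos_of_linearIndependent h
  have h2 := nsq_pos hp
  positivity

theorem lG_indep (hch : ChartStmt) [hI : I.IsPrime] (hX : IsSmoothProjective I n) {p : EE N}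
    (hp : p ∈ Cone I) {v : EE N} (hv : v ∈ Tan I p) {G G' : Fin (N - n) → HomCoordRing N}
    (hG : Eqs I G p) (hG' : Eqs I G' p) :
    LevC_653.lev (lG G) p v = LevC_653.lev (lG G') p v := by
  obtain ⟨C⟩ := hch N n I hI hX p hp
  obtain ⟨γ, b, h1, h2, h3, h4, h5, h6⟩ := exists_curve hX C hv
  have hW : WS (rows (γ 0) (fun k => b k 0)) ≠ 0 := (WS_pos_of_linearIndependent h6).ne'
  have e1 := lev_rows hX h1 h2 h5 hW (G := G) (by rw [h3]; exact hG) 1
  have e2 := lev_rows hX h1 h2 h5 hW (G := G') (by rw [h3]; exact hG') 1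
  rw [h3, h4] at e1 e2
  rw [← e1, ← e2]

theorem alpha_eq (hch : ChartStmt) [hI : I.IsPrime] (hX : IsSmoothProjective I n) {p : EE N}
    (hp : p ∈ Cone I) {v : EE N} (hv : v ∈ Tan I p) {G : Fin (N - n) → HomCoordRing N}
    (hG : Eqs I G p) :
    alpha I n p v = LevC_653.lev (lG G) p v - (n + 1) * omg p v := by
  obtain ⟨G', hG', hα⟩ := alpha_choose hX hp
  rw [hα, lG_indep hch hX hp hv hG' hG]

theorem alphaIndepStmt (hch : ChartStmt) : AlphaIndepStmt := by
  intro N n I hI hX p hp v hv G hG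
  rw [lev_eq]
  exact alpha_eq hch hX hp hv (eqs_iff.1 hG)

theorem rows_smul_left (c : ℂ) (p : EE N) (b : Fin n → EE N) :
    rows (c • p) b = Matrix.diagonal (Fin.cons c (fun _ => 1) : Fin (n + 1) → ℂ) * rows p b := by
  ext i j
  rw [Matrix.diagonal_mul]
  refine Fin.cases ?_ (fun l => ?_) i
  · simp [rows]
  · simp [rows]

theorem WS_rows_smul_left (c : ℂ) (p : EE N) (b : Fin n → EE N) :
    WS (rows (c • p) b) = Complex.normSq c * WS (rows p b) := by
  rw [rows_smul_left, WS_mul_left, Matrix.det_diagonal, Fin.prod_univ_succ]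
  simp

theorem nsq_smul (c : ℂ) (p : EE N) : nsq (c • p) = Complex.normSq c * nsq p := by
  unfold nsq
  rw [Finset.mul_sum]
  refine Finset.sum_congr rfl fun i _ => ?_
  rw [Pi.smul_apply, smul_eq_mul, norm_mul, mul_pow, Complex.normSq_eq_norm_sq]

/-- `C*`-invariance and horizontality -/
theorem alpha_smul_add (hch : ChartStmt) [hI : I.IsPrime] (hX : IsSmoothProjective I n) {p : EE N}
    (hp : p ∈ Cone I) {v : EE N} (hv : v ∈ Tan I p) {c : ℂ} (hc : c ≠ 0) (r : ℂ) :
    alpha I n (c • p) (c • (v + r • p)) = alpha I n p v := by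
  obtain ⟨C⟩ := hch N n I hI hX p hp
  obtain ⟨γ, b, h1, h2, h3, h4, h5, h6⟩ := exists_curve hX C hv
  have hDD : 0 < DD (γ 0) (fun k => b k 0) := DD_pos (by rw [h3]; exact hp.2) h6
  let lam : ℂ → ℂ := fun w => c * (1 + r * w)
  have hlA : AnalyticAt ℂ lam 0 :=
    analyticAt_const.mul (analyticAt_const.add (analyticAt_const.mul analyticAt_id))
  have hl0 : lam 0 = c := by simp [lam]
  have hlne : ∀ᶠ w in 𝓝 (0 : ℂ), lam w ≠ 0 := by
    apply hlA.continuousAt.eventually_ne
    rw [hl0]; exact hc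
  have hF : AnalyticAt ℂ (fun w => lam w • γ w) 0 := hlA.smul h1
  have hcone : ∀ᶠ w in 𝓝 (0 : ℂ), lam w • γ w ∈ Cone I ∧ ∀ k, b k w ∈ Tan I (lam w • γ w) := by
    filter_upwards [h5, hlne] with w k1 k2
    refine ⟨smul_mem_Cone hX k1.1 k2, fun k => ?_⟩
    rw [Tan_smul hX _ k2]
    exact k1.2 k
  have hrel : ∀ w, lam w ≠ 0 → γ w ∈ Cone I → DD (lam w • γ w) (fun k => b k w)
      = (Complex.normSq (lam w) ^ n)⁻¹ * DD (γ w) (fun k => b k w) := by
    intro w k1 k2
    have k3 := nsq_pos k2.2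
    have k4 : 0 < Complex.normSq (lam w) := Complex.normSq_pos.2 k1
    rw [DD_eq, DD_eq, WS_rows_smul_left, nsq_smul]
    field_simp
    ring
  have hDD' : 0 < DD (lam 0 • γ 0) (fun k => b k 0) := by
    have k1 : lam 0 ≠ 0 := by rw [hl0]; exact hc
    rw [hrel 0 k1 h5.self_of_nhds.1]
    have k4 : 0 < Complex.normSq (lam 0) := Complex.normSq_pos.2 k1
    positivity
  have e1 := alpha_family hX hF h2 hcone hDD' 1
  have e2 := alpha_family hX h1 h2 h5 hDD 1
  have e3 : fderiv ℂ (fun w => lam w • γ w) 0 1 = c • (v + r • p) := by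
    have k1 : HasDerivAt lam (c * r) 0 := by
      have : HasDerivAt (fun w : ℂ => 1 + r * w) r 0 := by
        simpa using ((hasDerivAt_id (0 : ℂ)).const_mul r).const_add 1
      exact this.const_mul c
    have k2 : HasDerivAt γ (fderiv ℂ γ 0 1) 0 := by
      rw [fderiv_apply_one_eq_deriv]
      exact h1.differentiableAt.hasDerivAt
    have k3 := k1.smul k2
    have k4 : fderiv ℂ (fun w => lam w • γ w) 0 1 = lam 0 • fderiv ℂ γ 0 1 + (c * r) • γ 0 := by
      rw [fderiv_apply_one_eq_deriv]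
      exact k3.deriv
    rw [k4, hl0, h4, h3, smul_add, smul_smul]
  rw [e3] at e1
  simp only [hl0, h3] at e1
  rw [h4, h3] at e2
  rw [← e1, ← e2]
  have cD : ContDiffAt ℝ 2 (fun w => Real.log (DD (γ w) (fun k => b k w))) 0 := by
    have k1 : ContDiffAt ℝ 2 (fun w => WS (rows (γ w) (fun k => b k w))) 0 :=
      contDiffAt_WS (fun i j => (analyticAt_rows h1 h2 i j).contDiffAt.restrict_scalars ℝ)
    have k2 : ContDiffAt ℝ 2 (fun w => nsq (γ w) ^ (n + 1)) 0 :=
      (ContDiffAt.comp (0 : ℂ) (contDiffAt_nsq (γ 0)) (h1.contDiffAt.restrict_scalars ℝ)).pow _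
    have k3 := nsq_pos (h5.self_of_nhds.1).2
    exact (k1.div k2 (by positivity)).log hDD.ne'
  have cl := contDiffAt_log_normSq (n := 2) hlA (by rw [hl0]; exact hc)
  have cDc : ContinuousAt (fun w => DD (γ w) (fun k => b k w)) 0 := by
    have k1 : ContDiffAt ℝ 2 (fun w => WS (rows (γ w) (fun k => b k w))) 0 :=
      contDiffAt_WS (fun i j => (analyticAt_rows h1 h2 i j).contDiffAt.restrict_scalars ℝ)
    have k2 : ContDiffAt ℝ 2 (fun w => nsq (γ w) ^ (n + 1)) 0 :=
      (ContDiffAt.comp (0 : ℂ) (contDiffAt_nsq (γ 0)) (h1.contDiffAt.restrict_scalars ℝ)).pow _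
    have k3 := nsq_pos (h5.self_of_nhds.1).2
    exact (k1.div k2 (by positivity)).continuousAt
  have hev : (fun w => Real.log (DD (lam w • γ w) (fun k => b k w))) =ᶠ[𝓝 0] fun w =>
      (-(n : ℝ)) * Real.log (Complex.normSq (lam w)) + Real.log (DD (γ w) (fun k => b k w)) := by
    filter_upwards [h5, hlne, cDc.eventually_ne hDD.ne'] with w k1 k2 k3
    have k4 : 0 < Complex.normSq (lam w) := Complex.normSq_pos.2 k2
    rw [hrel w k2 k1.1, Real.log_mul (by positivity) k3, Real.log_inv, Real.log_pow]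
    ring
  rw [LevC_653.lev_congr hev, LevC_653.lev_add (contDiffAt_const.mul cl) cD,
    LevC_653.lev_const_mul _ cl, lev_log_normSq hlA (by rw [hl0]; exact hc)]
  ring

end

end Crest.Agent.R269.Alp_927
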