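import Crest.Agent.R269.Alp5_927

/-!
# R269 (S0411), leaf ALPHA, file 6 (helper927): bounds for `alpha`

* `omg_smul_add` : `ω (c p) (c (v + r p)) = ω p v`;
* `alphaBddStmt` : `|α| ≤ C ω`.
-/

set_option autoImplicit false

open Complex Filter Topology Matrix MvPolynomial Crest.AlgGeometry.ProjEmb
open Crest.Agent.R269.Geo_328 Crest.Agent.R269.Defs_58
open scoped ContDiff ComplexConjugate

namespace Crest.Agent.R269.Alp_927

noncomputable section

variable {N n : ℕ} {I : Ideal (HomCoordRing N)}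

/-- invariance of the Fubini–Study form -/
theorem omg_smul_add {p : EE N} (hp : p ≠ 0) (v : EE N) {c : ℂ} (hc : c ≠ 0) (r : ℂ) :
    omg (c • p) (c • (v + r • p)) = omg p v := by
  let lam : ℂ → ℂ := fun w => c * (1 + r * w)
  let γ : ℂ → EE N := fun w => p + w • v
  have hlA : AnalyticAt ℂ lam 0 :=
    analyticAt_const.mul (analyticAt_const.add (analyticAt_const.mul analyticAt_id))
  have hγA : AnalyticAt ℂ γ 0 := analyticAt_const.add (analyticAt_id.smul analyticAt_const)
  have hl0 : lam 0 = c := by simp [lam]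
  have hγ0 : γ 0 = p := by simp [γ]
  have hlne : ∀ᶠ w in 𝓝 (0 : ℂ), lam w ≠ 0 := by
    apply hlA.continuousAt.eventually_ne
    rw [hl0]; exact hc
  have hγne : ∀ᶠ w in 𝓝 (0 : ℂ), γ w ≠ 0 := by
    apply hγA.continuousAt.eventually_ne
    rw [hγ0]; exact hp
  have hγd : HasDerivAt γ v 0 := by
    have h1 : HasDerivAt (fun w : ℂ => w • v) ((1 : ℂ) • v) 0 := (hasDerivAt_id (0 : ℂ)).smul_const v
    have h2 := h1.const_add p
    rw [one_smul] at h2
    exact h2
  have k1 : HasDerivAt lam (c * r) 0 := by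
    have : HasDerivAt (fun w : ℂ => 1 + r * w) r 0 := by
      simpa using ((hasDerivAt_id (0 : ℂ)).const_mul r).const_add 1
    exact this.const_mul c
  have e3 : fderiv ℂ (fun w => lam w • γ w) 0 1 = c • (v + r • p) := by
    have k3 := k1.smul hγd
    have k4 : fderiv ℂ (fun w => lam w • γ w) 0 1 = lam 0 • v + (c * r) • γ 0 := by
      rw [fderiv_apply_one_eq_deriv]
      exact k3.deriv
    rw [k4, hl0, hγ0, smul_add, smul_smul]
  have e4 : fderiv ℂ γ 0 1 = v := by
    rw [fderiv_apply_one_eq_deriv]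
    exact hγd.deriv
  have hcp : c • p ≠ 0 := smul_ne_zero hc hp
  have n1 := nsq_pos hp
  have n2 := nsq_pos hcp
  have c1 : ContDiffAt ℝ 2 (fun q : EE N => Real.log (nsq q)) (γ 0) := by
    rw [hγ0]; exact (contDiffAt_nsq p).log n1.ne'
  have c2 : ContDiffAt ℝ 2 (fun q : EE N => Real.log (nsq q)) (lam 0 • γ 0) := by
    rw [hγ0, hl0]; exact (contDiffAt_nsq (c • p)).log n2.ne'
  have f1 := Lev_901.lev_comp_hol (F := γ) (x := (0 : ℂ)) (u := fun q : EE N => Real.log (nsq q))
    c1 hγA 1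
  have f2 := Lev_901.lev_comp_hol (F := fun w => lam w • γ w) (x := (0 : ℂ))
    (u := fun q : EE N => Real.log (nsq q)) c2 (hlA.smul hγA) 1
  rw [e4, hγ0] at f1
  rw [e3] at f2
  simp only [hl0, hγ0] at f2
  rw [omg_eq_lev hcp, omg_eq_lev hp, ← f1, ← f2]
  have cl := contDiffAt_log_normSq (n := 2) hlA (by rw [hl0]; exact hc)
  have cg : ContDiffAt ℝ 2 (fun w => Real.log (nsq (γ w))) 0 :=
    ContDiffAt.comp (0 : ℂ) c1 (hγA.contDiffAt.restrict_scalars ℝ)
  have hev : (fun w => Real.log (nsq (lam w • γ w))) =ᶠ[𝓝 0] fun w =>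
      Real.log (Complex.normSq (lam w)) + Real.log (nsq (γ w)) := by
    filter_upwards [hlne, hγne] with w k1 k2
    have k4 : 0 < Complex.normSq (lam w) := Complex.normSq_pos.2 k1
    rw [nsq_smul, Real.log_mul k4.ne' (nsq_pos k2).ne']
  rw [LevC_653.lev_congr hev, LevC_653.lev_add cl cg, lev_log_normSq hlA (by rw [hl0]; exact hc)]
  ring

theorem omg_zero (p : EE N) : omg p 0 = 0 := by
  unfold omg
  simp

theorem omg_smul (p : EE N) (c : ℂ) (v : EE N) : omg p (c • v) = ‖c‖ ^ 2 * omg p v := by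
  unfold omg
  have h1 : ∑ i, ‖(c • v) i‖ ^ 2 = ‖c‖ ^ 2 * ∑ i, ‖v i‖ ^ 2 := by
    rw [Finset.mul_sum]
    refine Finset.sum_congr rfl fun i _ => ?_
    rw [Pi.smul_apply, smul_eq_mul, norm_mul, mul_pow]
  have h2 : ∑ i, (c • v) i * conj (p i) = c * ∑ i, v i * conj (p i) := by
    rw [Finset.mul_sum]
    refine Finset.sum_congr rfl fun i _ => ?_
    rw [Pi.smul_apply, smul_eq_mul, mul_assoc]
  rw [h1, h2, norm_mul, mul_pow]
  ring

theorem alpha_smul (hX : IsSmoothProjective I n) {p : EE N} (hp : p ∈ Cone I) (c : ℂ) (v : EE N) :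
    alpha I n p (c • v) = ‖c‖ ^ 2 * alpha I n p v := by
  obtain ⟨G, hG, hα⟩ := alpha_choose hX hp
  rw [hα, hα, omg_smul, Lev_901.lev_smul c v]
  ring

/-- the unit horizontal vectors -/
def KK (I : Ideal (HomCoordRing N)) : Set (EE N × EE N) :=
  {x | x.1 ∈ affineCone I ∧ nsq x.1 = 1 ∧ x.2 ∈ Tan I x.1 ∧ ∑ i, x.2 i * conj (x.1 i) = 0 ∧
    nsq x.2 = 1}

theorem continuous_nsq : Continuous (fun p : EE N => nsq p) := by
  unfold nsq
  fun_prop

theorem norm_le_of_nsq {p : EE N} (h : nsq p = 1) : ‖p‖ ≤ 1 := by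
  rw [pi_norm_le_iff_of_nonneg zero_le_one]
  intro i
  have h1 : ‖p i‖ ^ 2 ≤ nsq p := Finset.single_le_sum (f := fun i => ‖p i‖ ^ 2)
    (fun j _ => by positivity) (Finset.mem_univ i)
  rw [h] at h1
  have := norm_nonneg (p i)
  nlinarith

theorem isCompact_KK : IsCompact (KK I) := by
  apply Metric.isCompact_of_isClosed_isBounded
  · have c1 : IsClosed {x : EE N × EE N | x.1 ∈ affineCone I} := by
      have : {x : EE N × EE N | x.1 ∈ affineCone I}
          = ⋂ F ∈ I, {x : EE N × EE N | MvPolynomial.eval x.1 F = 0} := by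
        ext x
        simp only [Set.mem_ofPred_eq, Set.mem_iInter]
        rfl
      rw [this]
      refine isClosed_biInter fun F _ => isClosed_eq ?_ continuous_const
      exact (MvPolynomial.continuous_eval F).comp continuous_fst
    have c2 : IsClosed {x : EE N × EE N | nsq x.1 = 1} :=
      isClosed_eq (continuous_nsq.comp continuous_fst) continuous_const
    have c3 : IsClosed {x : EE N × EE N | x.2 ∈ Tan I x.1} := by
      have : {x : EE N × EE N | x.2 ∈ Tan I x.1}
          = ⋂ F ∈ I, {x : EE N × EE N | dP F x.1 x.2 = 0} := by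
        ext x
        simp only [Set.mem_ofPred_eq, Set.mem_iInter]
        rfl
      rw [this]
      refine isClosed_biInter fun F _ => isClosed_eq ?_ continuous_const
      unfold dP gradP
      refine continuous_finsetSum _ fun j _ => ?_
      exact ((MvPolynomial.continuous_eval _).comp continuous_fst).mul
        ((continuous_apply j).comp continuous_snd)
    have c4 : IsClosed {x : EE N × EE N | ∑ i, x.2 i * conj (x.1 i) = 0} := by
      refine isClosed_eq ?_ continuous_const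
      refine continuous_finsetSum _ fun j _ => ?_
      exact ((continuous_apply j).comp continuous_snd).mul
        (Complex.continuous_conj.comp ((continuous_apply j).comp continuous_fst))
    have c5 : IsClosed {x : EE N × EE N | nsq x.2 = 1} :=
      isClosed_eq (continuous_nsq.comp continuous_snd) continuous_const
    have : KK I = {x : EE N × EE N | x.1 ∈ affineCone I} ∩ ({x | nsq x.1 = 1} ∩
        ({x | x.2 ∈ Tan I x.1} ∩ ({x | ∑ i, x.2 i * conj (x.1 i) = 0} ∩ {x | nsq x.2 = 1}))) := rfl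
    rw [this]
    exact c1.inter (c2.inter (c3.inter (c4.inter c5)))
  · refine (Metric.isBounded_closedBall (x := (0 : EE N × EE N)) (r := 1)).subset ?_
    intro x hx
    rw [mem_closedBall_zero_iff, Prod.norm_def]
    exact max_le (norm_le_of_nsq hx.2.1) (norm_le_of_nsq hx.2.2.2.2)

theorem continuous_omg_at {p v : EE N} (hp : p ≠ 0) :
    ContinuousAt (fun x : EE N × EE N => omg x.1 x.2) (p, v) := by
  unfold omg
  have h := nsq_pos hp
  have h1 : (∑ i, ‖p i‖ ^ 2) ^ 2 ≠ 0 := by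
    have : nsq p = ∑ i, ‖p i‖ ^ 2 := rfl
    rw [← this]
    positivity
  refine ContinuousAt.div ?_ ?_ h1
  · fun_prop
  · fun_prop

/-- generic: a continuous form on the tangent spaces is bounded by `C ω` -/
theorem bdd_of_form (hX : IsSmoothProjective I n) {β : EE N → EE N → ℝ}
    (hβc : ContinuousOn (fun x : EE N × EE N => β x.1 x.2) (KK I))
    (hβi : ∀ p ∈ Cone I, ∀ v ∈ Tan I p, ∀ c : ℂ, c ≠ 0 → ∀ r : ℂ,
      β (c • p) (c • (v + r • p)) = β p v)
    (hβs : ∀ p ∈ Cone I, ∀ v ∈ Tan I p, ∀ c : ℂ, β p (c • v) = ‖c‖ ^ 2 * β p v) :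
    ∃ C : ℝ, 0 ≤ C ∧ ∀ p ∈ Cone I, ∀ v ∈ Tan I p, |β p v| ≤ C * omg p v := by
  obtain ⟨C, hC⟩ := isCompact_KK.exists_bound_of_continuousOn hβc
  refine ⟨max C 0, le_max_right _ _, fun p hp v hv => ?_⟩
  have hm := nsq_pos hp.2
  set s : ℝ := Real.sqrt (nsq p) with hs
  have hs0 : 0 < s := Real.sqrt_pos.2 hm
  have hss : s ^ 2 = nsq p := Real.sq_sqrt hm.le
  set c : ℂ := ((s⁻¹ : ℝ) : ℂ) with hc
  have hc0 : c ≠ 0 := Complex.ofReal_ne_zero.2 (inv_ne_zero hs0.ne')
  set r : ℂ := -(∑ i, v i * conj (p i)) / (nsq p : ℂ) with hr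
  have hmc : (nsq p : ℂ) ≠ 0 := Complex.ofReal_ne_zero.2 hm.ne'
  have hnc : (nsq p : ℂ) = ∑ i, p i * conj (p i) := by
    unfold nsq
    push_cast
    refine Finset.sum_congr rfl fun i _ => ?_
    rw [Complex.mul_conj, Complex.normSq_eq_norm_sq]
    push_cast
    rfl
  have horth : ∑ i, (v + r • p) i * conj (p i) = 0 := by
    have : ∀ i, (v + r • p) i * conj (p i) = v i * conj (p i) + r * (p i * conj (p i)) := by
      intro i
      rw [Pi.add_apply, Pi.smul_apply, smul_eq_mul]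
      ring
    simp only [this]
    rw [Finset.sum_add_distrib, ← Finset.mul_sum, ← hnc, hr]
    field_simp
    ring
  set w : EE N := c • (v + r • p) with hw
  have hp' : c • p ∈ Cone I := smul_mem_Cone hX hp hc0
  have hvr : v + r • p ∈ Tan I p :=
    (Tan I p).add_mem hv ((Tan I p).smul_mem r (self_mem_Tan hX hp.1))
  have hwT : w ∈ Tan I (c • p) := by
    rw [Tan_smul hX p hc0]
    exact (Tan I p).smul_mem c hvr
  have hn1 : nsq (c • p) = 1 := by
    rw [nsq_smul, hc, Complex.normSq_ofReal, ← hss]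
    field_simp
  have hwo : ∑ i, w i * conj ((c • p) i) = 0 := by
    have : ∀ i, w i * conj ((c • p) i) = (c * conj c) * ((v + r • p) i * conj (p i)) := by
      intro i
      rw [hw, Pi.smul_apply, Pi.smul_apply, smul_eq_mul, smul_eq_mul, map_mul]
      ring
    simp only [this]
    rw [← Finset.mul_sum, horth, mul_zero]
  have hom : omg p v = nsq w := by
    rw [← omg_smul_add hp.2 v hc0 r]
    unfold omg
    have e1 : ∑ i, ‖(c • p) i‖ ^ 2 = 1 := hn1
    have e2 : ∑ i, ‖w i‖ ^ 2 = nsq w := rfl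
    rw [← hw, e1, e2, hwo]
    simp
  have hbp : β p v = β (c • p) w := (hβi p hp v hv c hc0 r).symm
  by_cases hw0 : w = 0
  · have h1 : β (c • p) w = 0 := by
      have := hβs (c • p) hp' 0 (Submodule.zero_mem _) 0
      rw [hw0]
      simpa using this
    rw [hbp, h1, hom, hw0]
    simp [nsq]
  · have hnw := nsq_pos hw0
    set t : ℝ := Real.sqrt (nsq w) with ht
    have ht0 : 0 < t := Real.sqrt_pos.2 hnw
    have htt : t ^ 2 = nsq w := Real.sq_sqrt hnw.le
    have htc : ((t : ℝ) : ℂ) ≠ 0 := Complex.ofReal_ne_zero.2 ht0.ne'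
    set w' : EE N := ((t⁻¹ : ℝ) : ℂ) • w with hw'
    have hww : w = ((t : ℝ) : ℂ) • w' := by
      rw [hw', smul_smul, ← Complex.ofReal_mul, mul_inv_cancel₀ ht0.ne', Complex.ofReal_one, one_smul]
    have hw'T : w' ∈ Tan I (c • p) := (Tan I (c • p)).smul_mem _ hwT
    have hK : ((c • p, w') : EE N × EE N) ∈ KK I := by
      refine ⟨hp'.1, hn1, hw'T, ?_, ?_⟩
      · have : ∀ i, w' i * conj ((c • p) i) = ((t⁻¹ : ℝ) : ℂ) * (w i * conj ((c • p) i)) := by
          intro i
          rw [hw', Pi.smul_apply, smul_eq_mul]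
          ring
        simp only [this]
        rw [← Finset.mul_sum, hwo, mul_zero]
      · show nsq w' = 1
        rw [hw', nsq_smul, Complex.normSq_ofReal, ← htt]
        field_simp
    have h1 := hC _ hK
    simp only [Real.norm_eq_abs] at h1
    rw [hbp, hww, hβs _ hp' _ hw'T, hom, abs_mul, Complex.norm_real, Real.norm_eq_abs, abs_of_pos ht0,
      abs_of_pos (by positivity : (0 : ℝ) < t ^ 2), htt, mul_comm]
    exact mul_le_mul_of_nonneg_right (h1.trans (le_max_left _ _)) hnw.le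

theorem cone_of_KK {x : EE N × EE N} (hx : x ∈ KK I) : x.1 ∈ Cone I := by
  refine ⟨hx.1, fun h => ?_⟩
  have := hx.2.1
  rw [h] at this
  simp [nsq] at this

theorem alpha_continuousOn (hch : ChartStmt) [hI : I.IsPrime] (hX : IsSmoothProjective I n) :
    ContinuousOn (fun x : EE N × EE N => alpha I n x.1 x.2) (KK I) := by
  intro x₀ hx
  have hp : x₀.1 ∈ Cone I := cone_of_KK hx
  obtain ⟨G, hG⟩ := exists_eqs hX hp
  have g1 : ContinuousAt (fun x : EE N × EE N => LevC_653.lev (lG G) x.1 x.2) x₀ :=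
    Lev_901.continuousAt_lev (contDiffAt_lG hG.pos.ne') x₀.2
  have g2 : ContinuousAt (fun x : EE N × EE N => omg x.1 x.2) x₀ :=
    continuous_omg_at (v := x₀.2) hp.2
  have h1 : ContinuousAt (fun x : EE N × EE N =>
      LevC_653.lev (lG G) x.1 x.2 - (n + 1) * omg x.1 x.2) x₀ :=
    g1.sub (continuousAt_const.mul g2)
  have h2 : ∀ᶠ x : EE N × EE N in 𝓝 x₀, WS (gM G x.1) ≠ 0 :=
    continuousAt_fst.eventually (eventually_WS_ne hG.pos.ne')
  have h3 : ∀ᶠ x : EE N × EE N in 𝓝[KK I] x₀, alpha I n x.1 x.2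
      = LevC_653.lev (lG G) x.1 x.2 - (n + 1) * omg x.1 x.2 := by
    filter_upwards [nhdsWithin_le_nhds h2, self_mem_nhdsWithin] with x k1 k2
    exact alpha_eq hch hX (cone_of_KK k2) k2.2.2.1 (eqs_of_ne hG.mem k1)
  exact (h1.continuousWithinAt (s := KK I)).congr_of_eventuallyEq h3
    (h3.self_of_nhdsWithin hx)

theorem alpha_bdd (hch : ChartStmt) [hI : I.IsPrime] (hX : IsSmoothProjective I n) :
    ∃ C : ℝ, 0 ≤ C ∧ ∀ p ∈ Cone I, ∀ v ∈ Tan I p, |alpha I n p v| ≤ C * omg p v :=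
  bdd_of_form hX (alpha_continuousOn hch hX)
    (fun _ hp _ hv _ hc r => alpha_smul_add hch hX hp hv hc r)
    (fun _ hp v _ c => alpha_smul hX hp c v)

theorem alphaBddStmt (hch : ChartStmt) : AlphaBddStmt := by
  intro N n I hI hX
  obtain ⟨C, _, h⟩ := alpha_bdd hch hX
  exact ⟨C, h⟩

end

end Crest.Agent.R269.Alp_927
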