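import Crest.Agent.R269.Alp6_927
import Crest.Agent.R269.LevCone_901

/-!
# R269 (S0411), leaf ALPHA, file 7 (helper927): smooth Hermitian matrices and smooth traces

* `FormField I n β` : `β p v` (`v ∈ Tan I p`) is a `C*`-invariant form, given by a matrix field which is smooth at
  the cone points;
* `formField_alpha`, `formField_omg`, `formField_lev`, `FormField.add`, `.smul`;
* `FormField.trace` : for a `PosField a` there is `t ∈ SmX` with `t p = ∑ i, β p (b i)` for every frame `b`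
  representing `a` at `p`.
-/

set_option autoImplicit false

open Complex Filter Topology Matrix MvPolynomial Crest.AlgGeometry.ProjEmb
open Crest.Agent.R269.Geo_328 Crest.Agent.R269.Defs_58
open scoped ContDiff ComplexConjugate

namespace Crest.Agent.R269.Alp_927

noncomputable section

variable {N n : ℕ} {I : Ideal (HomCoordRing N)}

theorem two_le_inf : (2 : WithTop ℕ∞) ≤ ∞ := by
  have h : ((2 : ℕ∞) : WithTop ℕ∞) ≤ ((⊤ : ℕ∞) : WithTop ℕ∞) := WithTop.coe_le_coe.2 le_top
  exact h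

/-- value of the form with matrix `M` -/
def frm (M : VV N) (v : EE N) : ℝ := (∑ j, ∑ k, v j * conj (v k) * M j k).re

/-- trace of the form with matrix `M` against the Hermitian tensor `A` -/
def trm (M A : VV N) : ℝ := (∑ j, ∑ k, A j k * M j k).re

theorem sum_frm {κ : Type*} [Fintype κ] (M : VV N) (b : κ → EE N) :
    ∑ i, frm M (b i) = trm M (fun j k => ∑ i, b i j * conj (b i k)) := by
  unfold frm trm
  rw [← Complex.re_sum, Finset.sum_comm]
  congr 1
  refine Finset.sum_congr rfl fun j _ => ?_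
  rw [Finset.sum_comm]
  refine Finset.sum_congr rfl fun k _ => ?_
  rw [Finset.sum_mul]

/-- a smooth `C*`-invariant family of Hermitian forms on the tangent spaces of the cone -/
structure FormField (I : Ideal (HomCoordRing N)) (β : EE N → EE N → ℝ) : Prop where
  mat : ∃ M : EE N → VV N, (∀ p ∈ Cone I, ContDiffAt ℝ ∞ M p) ∧
    ∀ p ∈ Cone I, ∀ v ∈ Tan I p, β p v = frm (M p) v
  inv : ∀ p ∈ Cone I, ∀ v ∈ Tan I p, ∀ c : ℂ, c ≠ 0 → β (c • p) (c • v) = β p v

theorem contDiffAt_trm {M a : EE N → VV N} {p : EE N} (hM : ContDiffAt ℝ ∞ M p)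
    (ha : ContDiffAt ℝ ∞ a p) : ContDiffAt ℝ ∞ (fun q => trm (M q) (a q)) p := by
  have h1 : ContDiffAt ℝ ∞ (fun q => ∑ j, ∑ k, a q j k * M q j k) p := by
    refine ContDiffAt.sum fun j _ => ContDiffAt.sum fun k _ => ?_
    exact (contDiffAt_pi.1 (contDiffAt_pi.1 ha j) k).mul (contDiffAt_pi.1 (contDiffAt_pi.1 hM j) k)
  exact Complex.reCLM.contDiff.contDiffAt.comp p h1

theorem FormField.trace (hX : IsSmoothProjective I n) {β : EE N → EE N → ℝ} (hβ : FormField I β)
    {a : EE N → VV N} (ha : PosField I n a) :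
    ∃ t, SmX I t ∧ ∀ p ∈ Cone I, ∀ b : Fin n → EE N, Rep I a p b → t p = ∑ i, β p (b i) := by
  obtain ⟨M, hM, hβM⟩ := hβ.mat
  have key : ∀ p ∈ Cone I, ∀ b : Fin n → EE N, Rep I a p b →
      trm (M p) (a p) = ∑ i, β p (b i) := by
    intro p hp b hb
    have h1 : ∑ i, β p (b i) = ∑ i, frm (M p) (b i) :=
      Finset.sum_congr rfl fun i _ => hβM p hp _ (hb.1 i)
    rw [h1, sum_frm]
    congr 1
    funext j k
    exact hb.2.2 j k
  refine ⟨fun p => trm (M p) (a p), ⟨fun p hp => ?_, fun p hp c hc => ?_⟩, key⟩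
  · exact contDiffAt_trm (hM p hp) (ha.smooth p hp)
  · obtain ⟨b, hb, _⟩ := ha.rep p hp
    have hb' : Rep I a (c • p) (fun i => c • b i) := by
      refine ⟨fun i => ?_, fun i => ?_, fun j k => ?_⟩
      · rw [Tan_smul hX p hc]
        exact (Tan I p).smul_mem c (hb.1 i)
      · have : ∀ k, (c • b i) k * conj ((c • p) k) = (c * conj c) * (b i k * conj (p k)) := by
          intro k
          rw [Pi.smul_apply, Pi.smul_apply, smul_eq_mul, smul_eq_mul, map_mul]
          ring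
        simp only [this]
        rw [← Finset.mul_sum, hb.2.1 i, mul_zero]
      · rw [ha.hom p hp c hc]
        have h1 : ((‖c‖ ^ 2 : ℝ) : ℂ) = c * conj c := by
          rw [Complex.mul_conj, Complex.normSq_eq_norm_sq]
        rw [h1, Pi.smul_apply, Pi.smul_apply, smul_eq_mul, hb.2.2 j k, Finset.mul_sum]
        refine Finset.sum_congr rfl fun i _ => ?_
        show _ = (c • b i) j * conj ((c • b i) k)
        rw [Pi.smul_apply, Pi.smul_apply, smul_eq_mul, smul_eq_mul, map_mul]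
        ring
    show trm (M (c • p)) (a (c • p)) = trm (M p) (a p)
    rw [key _ (smul_mem_Cone hX hp hc) _ hb', key p hp b hb]
    exact Finset.sum_congr rfl fun i _ => hβ.inv p hp _ (hb.1 i) c hc

theorem FormField.add {β β' : EE N → EE N → ℝ} (h : FormField I β) (h' : FormField I β') :
    FormField I (fun p v => β p v + β' p v) := by
  obtain ⟨M, hM, hβM⟩ := h.mat
  obtain ⟨M', hM', hβM'⟩ := h'.mat
  refine ⟨⟨fun p => M p + M' p, fun p hp => (hM p hp).add (hM' p hp), fun p hp v hv => ?_⟩,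
    fun p hp v hv c hc => by rw [h.inv p hp v hv c hc, h'.inv p hp v hv c hc]⟩
  rw [hβM p hp v hv, hβM' p hp v hv]
  unfold frm
  rw [← Complex.add_re, ← Finset.sum_add_distrib]
  congr 1
  refine Finset.sum_congr rfl fun j _ => ?_
  rw [← Finset.sum_add_distrib]
  refine Finset.sum_congr rfl fun k _ => ?_
  simp only [Pi.add_apply]
  ring

theorem FormField.const_mul {β : EE N → EE N → ℝ} (h : FormField I β) (r : ℝ) :
    FormField I (fun p v => r * β p v) := by
  obtain ⟨M, hM, hβM⟩ := h.mat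
  refine ⟨⟨fun p => (r : ℝ) • M p, fun p hp => (hM p hp).const_smul r, fun p hp v hv => ?_⟩,
    fun p hp v hv c hc => by rw [h.inv p hp v hv c hc]⟩
  rw [hβM p hp v hv]
  unfold frm
  rw [← Complex.re_ofReal_mul, Finset.mul_sum]
  congr 1
  refine Finset.sum_congr rfl fun j _ => ?_
  rw [Finset.mul_sum]
  refine Finset.sum_congr rfl fun k _ => ?_
  simp only [Pi.smul_apply, Complex.real_smul]
  ring

theorem FormField.congr {β β' : EE N → EE N → ℝ} (h : FormField I β)
    (hX : IsSmoothProjective I n)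
    (hc : ∀ p ∈ Cone I, ∀ v ∈ Tan I p, β' p v = β p v) : FormField I β' := by
  obtain ⟨M, hM, hβM⟩ := h.mat
  refine ⟨⟨M, hM, fun p hp v hv => by rw [hc p hp v hv, hβM p hp v hv]⟩,
    fun p hp v hv c hc' => ?_⟩
  rw [hc p hp v hv, hc _ (smul_mem_Cone hX hp hc') _ ?_, h.inv p hp v hv c hc']
  rw [Tan_smul hX p hc']
  exact (Tan I p).smul_mem c hv

/-! ### matrices -/

theorem contDiffAt_d2 {u : EE N → ℝ} {p : EE N} (hu : ContDiffAt ℝ ∞ u p) (v w : EE N) :
    ContDiffAt ℝ ∞ (fun q => Lev_901.d2 u q v w) p := by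
  have h1 : ContDiffAt ℝ ∞ (fderiv ℝ u) p := hu.fderiv_right (m := ∞) (by simp)
  have h2 : ContDiffAt ℝ ∞ (fderiv ℝ (fderiv ℝ u)) p := h1.fderiv_right (m := ∞) (by simp)
  exact (h2.clm_apply contDiffAt_const).clm_apply contDiffAt_const

theorem contDiffAt_levM {u : EE N → ℝ} {p : EE N} (hu : ContDiffAt ℝ ∞ u p) :
    ContDiffAt ℝ ∞ (fun q => (fun j k => Lev_901.levM u q j k : VV N)) p := by
  refine contDiffAt_pi.2 fun j => contDiffAt_pi.2 fun k => ?_
  unfold Lev_901.levM Lev_901.levB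
  simp only [Matrix.of_apply]
  have c1 : ∀ f : EE N → ℝ, ContDiffAt ℝ ∞ f p → ContDiffAt ℝ ∞ (fun q => ((f q : ℝ) : ℂ)) p :=
    fun f hf => Complex.ofRealCLM.contDiff.contDiffAt.comp p hf
  refine (c1 _ ?_).add (contDiffAt_const.mul (c1 _ ?_))
  · exact ((contDiffAt_d2 hu _ _).add (contDiffAt_d2 hu _ _)).div_const 4
  · exact ((contDiffAt_d2 hu _ _).sub (contDiffAt_d2 hu _ _)).div_const 4

theorem frm_levM (u : EE N → ℝ) (p v : EE N) :
    frm (fun j k => Lev_901.levM u p j k) v = LevC_653.lev u p v := (Lev_901.lev_eq_sum u p v).symm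

/-- the coefficients of `∂W` -/
def dW (W : EE N → ℝ) (q : EE N) (j : Fin (N + 1)) : ℂ :=
  ((fderiv ℝ W q (Pi.single j 1) : ℝ) : ℂ) / 2
    - Complex.I * ((fderiv ℝ W q (Complex.I • Pi.single j 1) : ℝ) : ℂ) / 2

theorem contDiffAt_dW {W : EE N → ℝ} {p : EE N} (hW : ContDiffAt ℝ ∞ W p) (j : Fin (N + 1)) :
    ContDiffAt ℝ ∞ (fun q => dW W q j) p := by
  have h1 : ContDiffAt ℝ ∞ (fderiv ℝ W) p := hW.fderiv_right (m := ∞) (by simp)
  have c1 : ∀ f : EE N → ℝ, ContDiffAt ℝ ∞ f p → ContDiffAt ℝ ∞ (fun q => ((f q : ℝ) : ℂ)) p :=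
    fun f hf => Complex.ofRealCLM.contDiff.contDiffAt.comp p hf
  unfold dW
  exact ((c1 _ (h1.clm_apply contDiffAt_const)).div_const 2).sub
    ((contDiffAt_const.mul (c1 _ (h1.clm_apply contDiffAt_const))).div_const 2)

theorem fderiv_re_sum (L : EE N →L[ℝ] ℝ) (v : EE N) :
    L v = (∑ j, v j * (((L (Pi.single j 1) : ℝ) : ℂ)
      - Complex.I * ((L (Complex.I • Pi.single j 1) : ℝ) : ℂ))).re := by
  have hv : v = ∑ j, ((v j).re • (Pi.single j (1 : ℂ) : EE N)
      + (v j).im • (Complex.I • Pi.single j (1 : ℂ) : EE N)) := by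
    funext i
    rw [Finset.sum_apply]
    simp only [Pi.add_apply, Pi.smul_apply, Pi.single_apply]
    rw [Finset.sum_eq_single i]
    · simp
    · intro j _ hj
      simp [Ne.symm hj]
    · simp
  conv_lhs => rw [hv]
  rw [map_sum, Complex.re_sum]
  refine Finset.sum_congr rfl fun j _ => ?_
  rw [map_add, map_smul, map_smul]
  simp

theorem gsq_eq_dW (W : EE N → ℝ) (q v : EE N) :
    LevC_653.gsq W q v = Complex.normSq (∑ j, v j * dW W q j) := by
  have h1 : ∀ w : EE N, fderiv ℝ W q w = 2 * (∑ j, w j * dW W q j).re := by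
    intro w
    have h0 : ∀ z : ℂ, 2 * z.re = (2 * z).re := fun z => by simp
    rw [fderiv_re_sum (fderiv ℝ W q) w, h0, Finset.mul_sum]
    congr 1
    refine Finset.sum_congr rfl fun j _ => ?_
    unfold dW
    ring
  have h2 : ∑ j, (Complex.I • v) j * dW W q j = Complex.I * ∑ j, v j * dW W q j := by
    rw [Finset.mul_sum]
    refine Finset.sum_congr rfl fun j _ => ?_
    rw [Pi.smul_apply, smul_eq_mul, mul_assoc]
  rw [LevC_653.gsq_eq, h1, h1, h2, Complex.I_mul_re, Complex.normSq_apply]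
  ring

theorem frm_dW (W : EE N → ℝ) (q v : EE N) :
    frm (fun j k => dW W q j * conj (dW W q k)) v = LevC_653.gsq W q v := by
  rw [gsq_eq_dW, ← Complex.ofReal_re (Complex.normSq _), ← Complex.mul_conj, map_sum, frm]
  congr 1
  rw [Finset.sum_mul]
  refine Finset.sum_congr rfl fun j _ => ?_
  rw [Finset.mul_sum]
  refine Finset.sum_congr rfl fun k _ => ?_
  rw [map_mul]
  ring

/-- the matrix of `W² L log W`, smooth also at the zeros of `W` -/
def QM (W : EE N → ℝ) (q : EE N) : VV N := fun j k =>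
  ((W q : ℝ) : ℂ) * Lev_901.levM W q j k - dW W q j * conj (dW W q k)

theorem contDiffAt_QM {W : EE N → ℝ} {p : EE N} (hW : ContDiffAt ℝ ∞ W p) :
    ContDiffAt ℝ ∞ (QM W) p := by
  have c1 : ContDiffAt ℝ ∞ (fun q => ((W q : ℝ) : ℂ)) p :=
    Complex.ofRealCLM.contDiff.contDiffAt.comp p hW
  have c2 := contDiffAt_levM hW
  unfold QM
  refine contDiffAt_pi.2 fun j => contDiffAt_pi.2 fun k => ?_
  have c3 : ContDiffAt ℝ ∞ (fun q => Lev_901.levM W q j k) p :=
    contDiffAt_pi.1 (contDiffAt_pi.1 c2 j) k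
  have c4 : ContDiffAt ℝ ∞ (fun q => conj (dW W q k)) p :=
    Complex.conjCLE.contDiff.contDiffAt.comp p (contDiffAt_dW hW k)
  exact (c1.mul c3).sub ((contDiffAt_dW hW j).mul c4)

theorem frm_sub (M M' : VV N) (v : EE N) :
    frm (fun j k => M j k - M' j k) v = frm M v - frm M' v := by
  unfold frm
  rw [← Complex.sub_re, ← Finset.sum_sub_distrib]
  congr 1
  refine Finset.sum_congr rfl fun j _ => ?_
  rw [← Finset.sum_sub_distrib]
  refine Finset.sum_congr rfl fun k _ => ?_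
  ring

theorem frm_smul (r : ℝ) (M : VV N) (v : EE N) :
    frm (fun j k => ((r : ℝ) : ℂ) * M j k) v = r * frm M v := by
  unfold frm
  rw [← Complex.re_ofReal_mul, Finset.mul_sum]
  congr 1
  refine Finset.sum_congr rfl fun j _ => ?_
  rw [Finset.mul_sum]
  refine Finset.sum_congr rfl fun k _ => ?_
  ring

theorem frm_sum {ι : Type*} (s : Finset ι) (M : ι → VV N) (v : EE N) :
    frm (fun j k => ∑ i ∈ s, M i j k) v = ∑ i ∈ s, frm (M i) v := by
  unfold frm
  rw [← Complex.re_sum]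
  congr 1
  symm
  rw [Finset.sum_comm]
  refine Finset.sum_congr rfl fun j _ => ?_
  rw [Finset.sum_comm]
  refine Finset.sum_congr rfl fun k _ => ?_
  rw [Finset.mul_sum]

theorem frm_QM (W : EE N → ℝ) (q v : EE N) :
    frm (QM W q) v = W q * LevC_653.lev W q v - LevC_653.gsq W q v := by
  have h1 := frm_sub (fun j k => ((W q : ℝ) : ℂ) * Lev_901.levM W q j k)
    (fun j k => dW W q j * conj (dW W q k)) v
  have h2 := frm_smul (W q) (fun j k => Lev_901.levM W q j k) v
  rw [h2, frm_levM, frm_dW] at h1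
  exact h1

theorem frm_QM_of_ne {W : EE N → ℝ} {q : EE N} (hW : ContDiffAt ℝ 2 W q) (h0 : W q ≠ 0) (v : EE N) :
    frm (QM W q) v = W q ^ 2 * LevC_653.lev (fun y => Real.log (W y)) q v := by
  rw [frm_QM, Lev_901.lev_log hW h0]
  field_simp

theorem frm_QM_of_eq {W : EE N → ℝ} {q : EE N} (hW : ∀ y, 0 ≤ W y) (h0 : W q = 0) (v : EE N) :
    frm (QM W q) v = 0 := by
  have h1 : IsLocalMin W q := Filter.Eventually.of_forall fun y => by rw [h0]; exact hW y
  have h2 := h1.fderiv_eq_zero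
  rw [frm_QM, LevC_653.gsq_eq, h0, h2]
  simp

/-! ### the form fields -/

theorem inv_of_smul_add {β : EE N → EE N → ℝ}
    (h : ∀ p ∈ Cone I, ∀ v ∈ Tan I p, ∀ c : ℂ, c ≠ 0 → ∀ r : ℂ,
      β (c • p) (c • (v + r • p)) = β p v) :
    ∀ p ∈ Cone I, ∀ v ∈ Tan I p, ∀ c : ℂ, c ≠ 0 → β (c • p) (c • v) = β p v := by
  intro p hp v hv c hc
  have := h p hp v hv c hc 0
  rwa [zero_smul, add_zero] at this

theorem formField_omg : FormField I omg := by
  refine ⟨⟨fun q j k => Lev_901.levM (fun q : EE N => Real.log (nsq q)) q j k, fun p hp => ?_,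
    fun p hp v _ => ?_⟩, inv_of_smul_add fun p hp v _ c hc r => omg_smul_add hp.2 v hc r⟩
  · exact contDiffAt_levM ((contDiffAt_nsq p).log (nsq_pos hp.2).ne')
  · rw [frm_levM, omg_eq_lev hp.2]

theorem formField_lev (hch : ChartStmt) [hI : I.IsPrime] (hX : IsSmoothProjective I n)
    {u : EE N → ℝ} (hu : SmX I u) : FormField I (fun p v => Defs_58.lev u p v) := by
  refine ⟨⟨fun q j k => Lev_901.levM u q j k, fun p hp => contDiffAt_levM (hu.1 p hp),
    fun p hp v _ => ?_⟩, fun p hp v hv c hc => ?_⟩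
  · rw [frm_levM, lev_eq]
  · obtain ⟨C⟩ := hch N n I hI hX p hp
    rw [lev_eq, lev_eq]
    exact LevCone_901.lev_smul_point hX hp C hu.2 hc
      ((hu.1 p hp).of_le two_le_inf) ((hu.1 _ (smul_mem_Cone hX hp hc)).of_le two_le_inf) hv

theorem formField_alpha (hch : ChartStmt) [hI : I.IsPrime] (hX : IsSmoothProjective I n) :
    FormField I (alpha I n) := by
  obtain ⟨r, G, hG, hGe⟩ := exists_fin_eqs hX
  set W : Fin r → EE N → ℝ := fun s q => WS (gM (G s) q) with hW
  have hWs : ∀ s p, ContDiffAt ℝ ∞ (W s) p := fun s p => contDiffAt_WS_gM (G s) p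
  have hWn : ∀ s q, 0 ≤ W s q := fun s q => WS_nonneg _
  set S : EE N → ℝ := fun q => ∑ s, W s q ^ 2 with hS
  have hSs : ∀ p, ContDiffAt ℝ ∞ S p := fun p => ContDiffAt.sum fun s _ => (hWs s p).pow 2
  have hS0 : ∀ p ∈ Cone I, 0 < S p := by
    intro p hp
    obtain ⟨s, hs⟩ := hGe p hp
    have h1 : 0 < W s p := hs.pos
    exact lt_of_lt_of_le (by positivity : 0 < W s p ^ 2)
      (Finset.single_le_sum (f := fun s => W s p ^ 2) (fun s _ => by positivity) (Finset.mem_univ s))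
  let M0 : EE N → VV N := fun q j k => (((S q)⁻¹ : ℝ) : ℂ) * ∑ s, QM (W s) q j k
  let M1 : EE N → VV N := fun q j k =>
    (((n : ℝ) + 1 : ℝ) : ℂ) * Lev_901.levM (fun q : EE N => Real.log (nsq q)) q j k
  have hM0 : ∀ p ∈ Cone I, ContDiffAt ℝ ∞ M0 p := by
    intro p hp
    have c0 : ContDiffAt ℝ ∞ (fun q => (S q)⁻¹) p := (hSs p).inv (hS0 p hp).ne'
    have c1 : ContDiffAt ℝ ∞ (fun q => (((S q)⁻¹ : ℝ) : ℂ)) p :=
      Complex.ofRealCLM.contDiff.contDiffAt.comp p c0
    refine contDiffAt_pi.2 fun j => contDiffAt_pi.2 fun k => ?_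
    refine c1.mul (ContDiffAt.sum fun s _ => ?_)
    exact contDiffAt_pi.1 (contDiffAt_pi.1 (contDiffAt_QM (hWs s p)) j) k
  have hM1 : ∀ p ∈ Cone I, ContDiffAt ℝ ∞ M1 p := by
    intro p hp
    have c1 := contDiffAt_levM ((contDiffAt_nsq (k := ∞) p).log (nsq_pos hp.2).ne')
    refine contDiffAt_pi.2 fun j => contDiffAt_pi.2 fun k => ?_
    exact contDiffAt_const.mul (contDiffAt_pi.1 (contDiffAt_pi.1 c1 j) k)
  refine ⟨⟨fun q j k => M0 q j k - M1 q j k, fun p hp => (hM0 p hp).sub (hM1 p hp),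
    fun p hp v hv => ?_⟩,
    inv_of_smul_add fun p hp v hv c hc r => alpha_smul_add hch hX hp hv hc r⟩
  have e1 : frm (M1 p) v = (n + 1) * omg p v := by
    rw [omg_eq_lev hp.2, ← frm_levM]
    exact frm_smul _ _ v
  have e2 : frm (M0 p) v = alpha I n p v + (n + 1) * omg p v := by
    have h1 : frm (M0 p) v = (S p)⁻¹ * ∑ s, frm (QM (W s) p) v := by
      rw [← frm_sum]
      exact frm_smul _ _ v
    have h2 : ∀ s, frm (QM (W s) p) v = W s p ^ 2 * (alpha I n p v + (n + 1) * omg p v) := by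
      intro s
      by_cases h0 : W s p = 0
      · rw [frm_QM_of_eq (hWn s) h0, h0]
        ring
      · rw [frm_QM_of_ne ((hWs s p).of_le two_le_inf) h0,
          alpha_eq hch hX hp hv (eqs_of_ne (hG s) h0)]
        have : LevC_653.lev (lG (G s)) p v = LevC_653.lev (fun y => Real.log (W s y)) p v := rfl
        rw [this]
        ring
    rw [h1, Finset.sum_congr rfl fun s _ => h2 s, ← Finset.sum_mul]
    have h3 := (hS0 p hp).ne'
    change (S p)⁻¹ * (S p * _) = _
    rw [← mul_assoc, inv_mul_cancel₀ h3, one_mul]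
  have e3 := frm_sub (M0 p) (M1 p) v
  rw [e1, e2] at e3
  rw [e3]
  ring

/-- smooth traces of `α + e ω + L u` -/
theorem exists_trace (hch : ChartStmt) [hI : I.IsPrime] (hX : IsSmoothProjective I n)
    {a : EE N → VV N} (ha : PosField I n a) (s e : ℝ) {u : EE N → ℝ} (hu : SmX I u) :
    ∃ t, SmX I t ∧ ∀ p ∈ Cone I, ∀ b : Fin n → EE N, Rep I a p b →
      t p = ∑ i, (s * alpha I n p (b i) + e * omg p (b i) + Defs_58.lev u p (b i)) :=
  ((((formField_alpha hch hX).const_mul s).add (formField_omg.const_mul e)).add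
    (formField_lev hch hX hu)).trace hX ha

end

end Crest.Agent.R269.Alp_927
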