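import Crest.Agent.R269.Alp5_927

/-!
# R269 (S0411), leaf ALPHA, file 8 (helper927): full frames (for VARFLOW)

`alpha_frame`, `alphaFrameStmt` : `α = L log (|e_0 ∧ … ∧ e_n|² / |F|^(2(n+1)))` along holomorphic
families `F` in the cone, `e_i ∈ Tan I F` independent.
-/

set_option autoImplicit false

open Complex Filter Topology Matrix MvPolynomial Crest.AlgGeometry.ProjEmb
open Crest.Agent.R269.Geo_328 Crest.Agent.R269.Defs_58
open scoped ContDiff ComplexConjugate

namespace Crest.Agent.R269.Alp_927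

noncomputable section

variable {N n : ℕ} {I : Ideal (HomCoordRing N)}

theorem of_mul_gM {m : ℕ} {p : EE N} {w : Fin m → EE N} {G : Fin (N - n) → HomCoordRing N}
    (hw : ∀ k, w k ∈ Tan I p) (hG : ∀ k, G k ∈ I) :
    (Matrix.of w) * (gM G p)ᵀ = 0 := by
  ext i k
  have := hw i (G k) (hG k)
  rw [dP] at this
  rw [Matrix.mul_apply, Matrix.zero_apply, ← this]
  exact Finset.sum_congr rfl fun j _ => mul_comm _ _

theorem wedgeSq_pos {m : ℕ} {w : Fin m → EE N} (h : LinearIndependent ℂ w) : 0 < wedgeSq w := by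
  rw [wedgeSq_eq]
  exact WS_pos_of_linearIndependent h

theorem wedgeSq_pos_iff {m : ℕ} (w : Fin m → EE N) : 0 < wedgeSq w ↔ LinearIndependent ℂ w := by
  rw [wedgeSq_eq]
  exact WS_pos_iff (Matrix.of w)

section

variable {E : Type*} [NormedAddCommGroup E] [NormedSpace ℂ E]

theorem analyticAt_of {m : ℕ} {e : Fin m → E → EE N} {z : E} (he : ∀ i, AnalyticAt ℂ (e i) z)
    (i : Fin m) (j : Fin (N + 1)) :
    AnalyticAt ℂ (fun w => (Matrix.of fun i => e i w : Matrix (Fin m) (Fin (N + 1)) ℂ) i j) z :=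
  (ContinuousLinearMap.proj (R := ℂ) (φ := fun _ : Fin (N + 1) => ℂ) j).analyticAt _ |>.comp (he i)

/-- `lev log |e_0 ∧ … ∧ e_n|²` is the pull back of `lev log |dG|²` -/
theorem lev_log_wedgeSq (hX : IsSmoothProjective I n) {F : E → EE N} {e : Fin (n + 1) → E → EE N}
    {z : E} (hF : AnalyticAt ℂ F z) (he : ∀ i, AnalyticAt ℂ (e i) z)
    (hc : ∀ᶠ w in 𝓝 z, ∀ i, e i w ∈ Tan I (F w))
    (h0 : LinearIndependent ℂ (fun i => e i z)) {G : Fin (N - n) → HomCoordRing N}
    (hG : Eqs I G (F z)) (x : E) :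
    LevC_653.lev (fun w => Real.log (wedgeSq (fun i => e i w))) z x
      = LevC_653.lev (lG G) (F z) (fderiv ℂ F z x) := by
  have h1 : WS (Matrix.of (fun i => e i z)) ≠ 0 := (wedgeSq_pos h0).ne'
  have h2 := lev_log_WS_eq (eqv hX) (A := fun w => Matrix.of (fun i => e i w))
    (analyticAt_of he) (analyticAt_gM_comp G hF) ?_ h1 hG.pos.ne' x
  · rw [show (fun w => Real.log (wedgeSq (fun i => e i w)))
      = fun w => Real.log (WS (Matrix.of (fun i => e i w))) from rfl, h2]
    exact Lev_901.lev_comp_hol (F := F) (u := lG G) (contDiffAt_lG hG.pos.ne') hF x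
  · filter_upwards [hc] with w hw
    exact of_mul_gM hw hG.mem

/-- `α = L log (|e_0 ∧ … ∧ e_n|² / |F|^(2(n+1)))` for full frames -/
theorem alpha_frame (hX : IsSmoothProjective I n) {F : E → EE N} {e : Fin (n + 1) → E → EE N}
    {z : E} (hF : AnalyticAt ℂ F z) (he : ∀ i, AnalyticAt ℂ (e i) z)
    (hc : ∀ᶠ w in 𝓝 z, F w ∈ Cone I ∧ ∀ i, e i w ∈ Tan I (F w))
    (h0 : LinearIndependent ℂ (fun i => e i z)) (x : E) :
    LevC_653.lev (fun w => Real.log (wedgeSq (fun i => e i w) / nsq (F w) ^ (n + 1))) z x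
      = alpha I n (F z) (fderiv ℂ F z x) := by
  have hp := hc.self_of_nhds.1
  have hn := nsq_pos hp.2
  have hW : WS (Matrix.of (fun i => e i z)) ≠ 0 := (wedgeSq_pos h0).ne'
  obtain ⟨G, hG, hα⟩ := alpha_choose hX hp
  have cW : ContDiffAt ℝ 2 (fun w => Real.log (wedgeSq (fun i => e i w))) z :=
    (contDiffAt_WS (fun i j => (analyticAt_of he i j).contDiffAt.restrict_scalars ℝ)).log hW
  have cn : ContDiffAt ℝ 2 (fun w => Real.log (nsq (F w))) z :=
    (ContDiffAt.comp z (contDiffAt_nsq (F z)) (hF.contDiffAt.restrict_scalars ℝ)).log hn.ne'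
  have hWe : ∀ᶠ w in 𝓝 z, wedgeSq (fun i => e i w) ≠ 0 :=
    (continuousAt_WS (fun i j => (analyticAt_of he i j).continuousAt)).eventually_ne hW
  have hev : (fun w => Real.log (wedgeSq (fun i => e i w) / nsq (F w) ^ (n + 1))) =ᶠ[𝓝 z] fun w =>
      Real.log (wedgeSq (fun i => e i w)) + (-((n : ℝ) + 1)) * Real.log (nsq (F w)) := by
    filter_upwards [hc, hWe] with w h1 h2
    have h3 := nsq_pos h1.1.2
    rw [Real.log_div h2 (by positivity), Real.log_pow]
    push_cast
    ring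
  rw [LevC_653.lev_congr hev, LevC_653.lev_add cW (contDiffAt_const.mul cn),
    LevC_653.lev_const_mul _ cn, lev_log_wedgeSq hX hF he (hc.mono fun w h => h.2) h0 hG, hα,
    omg_eq_lev hp.2,
    Lev_901.lev_comp_hol (F := F) (u := fun q : EE N => Real.log (nsq q))
      ((contDiffAt_nsq (F z)).log hn.ne') hF x]
  ring

end

theorem alphaFrameStmt : AlphaFrameStmt := by
  intro N n I _ hX d F e z₀ x hF he hT h0
  rw [lev_eq]
  exact alpha_frame hX hF.1 he (hF.2.and hT) h0 x

end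

end Crest.Agent.R269.Alp_927
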