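import Crest.Agent.R271.G3b_792
import Crest.Agent.R271.Rd8_692
import Crest.Agent.R271.Alg_956
import Crest.Agent.R271.Bd3_741

/-!
# Row 269 (S0411), Part 13, step 1: étale affine domains `M = Hom(B, ℂ)` over `ℂⁿ` (helper243)

`EC n` : a domain `B` of finite type over `ℂ` with étale coordinates `z : Fin n → B` (no other data).
`M = X.B →ₐ[ℂ] ℂ` is a Riemann domain (`RDom`), second countable, with compact sublevels of a
strictly psh exhaustion, evaluations are holomorphic with `D (ev b) y w = ∑ₖ wₖ y(∂ₖ b)`, and `lintM` is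
the integral against the measure of the engine `Ho51.engineP`.
-/

set_option autoImplicit false
set_option linter.unusedSectionVars false

noncomputable section

open Set Filter Topology Complex MeasureTheory Metric
open scoped ENNReal ComplexConjugate

namespace Crest.Agent.R269.Amp1_243

open Crest.Agent.R271 Crest.Agent.R271.Defs710 Crest.Agent.R271.Rd692 Crest.Agent.R271.Ho51
open Crest.Agent.R271.G792

/-- étale affine chart: a domain `B` of finite type over `ℂ`, étale over `ℂ[z₁..zₙ]` -/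
structure EC (n : ℕ) where
  /-- coordinate ring -/
  B : Type
  [cr : CommRing B]
  [dom : IsDomain B]
  [alg : Algebra ℂ B]
  ft : Algebra.FiniteType ℂ B
  /-- étale coordinates -/
  z : Fin n → B
  etale : RingHom.Etale ((MvPolynomial.aeval z : MvPolynomial (Fin n) ℂ →ₐ[ℂ] B) :
    MvPolynomial (Fin n) ℂ →+* B)

attribute [instance] EC.cr EC.dom EC.alg

variable {n : ℕ}

/-- the points of the chart -/
abbrev EC.P (X : EC n) : Type := X.B →ₐ[ℂ] ℂ

/-- charts exist -/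
lemma EC.hch (X : EC n) : ∀ y : Pt X.B, Nonempty (Chart X.z y) :=
  fun y => nonempty_chart X.z X.etale y

instance (X : EC n) : RDom n (X.B →ₐ[ℂ] ℂ) := rdom (z := X.z) X.hch

instance (X : EC n) : SecondCountableTopology (X.B →ₐ[ℂ] ℂ) := secondCountable_of_ft X.ft

example (X : EC n) : T2Space (X.B →ₐ[ℂ] ℂ) := inferInstance

variable {X : EC n}

lemma cp_eq (y : X.B →ₐ[ℂ] ℂ) : cp y = pr X.z y := rfl

lemma cp_apply (y : X.B →ₐ[ℂ] ℂ) (i : Fin n) : cp y i = y (X.z i) := rfl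

/-- the chart homeomorphism -/
abbrev eC {y₀ : X.B →ₐ[ℂ] ℂ} (C : Chart X.z y₀) :
    OpenPartialHomeomorph (X.B →ₐ[ℂ] ℂ) (Cn n) := chartHomeo X.hch C

lemma eC_isCh {y : X.B →ₐ[ℂ] ℂ} (C : Chart X.z y) : IsCh (eC C) := rfl

/-- germs in the engine's chart and in a `Chart`. -/
lemma ch_symm_eventuallyEq {y : X.B →ₐ[ℂ] ℂ} (C : Chart X.z y) :
    (fun w => (ch y).symm w) =ᶠ[𝓝 (cp y)] fun w => C.s (w - cp y) :=
  (isCh_ch y).germ (eC_isCh C) (mem_ch y) (self_mem_sheet C)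

/-- a function on `M` is `C^∞` if it is so in a `Chart` around each point -/
lemma sm_of_chart {G : Type*} [NormedAddCommGroup G] [NormedSpace ℝ G] {f : (X.B →ₐ[ℂ] ℂ) → G}
    (h : ∀ y : X.B →ₐ[ℂ] ℂ, ∃ C : Chart X.z y,
      ContDiffAt ℝ (⊤ : ℕ∞) (fun ζ => f (C.s ζ)) 0) : Sm f := by
  intro y
  obtain ⟨C, hC⟩ := h y
  have h1 : (f ∘ (ch y).symm) =ᶠ[𝓝 (cp y)] fun w => f (C.s (w - cp y)) := by
    filter_upwards [ch_symm_eventuallyEq C] with w hw
    simp only [Function.comp_apply]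
    rw [hw]
  refine ContDiffAt.congr_of_eventuallyEq ?_ h1
  have h2 : ContDiffAt ℝ (⊤ : ℕ∞) (fun ζ => f (C.s ζ)) (cp y - cp y) := by
    rw [sub_self]; exact hC
  exact ContDiffAt.comp (g := fun ζ => f (C.s ζ)) (f := fun w : Cn n => w - cp y) (cp y) h2
    (contDiffAt_id.sub contDiffAt_const)

lemma D_chart {G : Type*} [NormedAddCommGroup G] [NormedSpace ℝ G] (f : (X.B →ₐ[ℂ] ℂ) → G)
    {y : X.B →ₐ[ℂ] ℂ} (C : Chart X.z y) : D f y = fderiv ℝ (fun ζ => f (C.s ζ)) 0 := by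
  rw [D_eq (eC_isCh C) (self_mem_sheet C)]
  have h1 : (f ∘ (eC C).symm) = fun w => (fun ζ => f (C.s ζ)) (w - cp y) := by
    funext w; rfl
  rw [h1]
  have h2 := fderiv_comp_sub (𝕜 := ℝ) (f := fun ζ : Cn n => f (C.s ζ)) (x := cp y) (cp y)
  rw [h2, sub_self]

/-- derivative at all points of the sheet -/
lemma D_chart' {G : Type*} [NormedAddCommGroup G] [NormedSpace ℝ G] (f : (X.B →ₐ[ℂ] ℂ) → G)
    {y : X.B →ₐ[ℂ] ℂ} (C : Chart X.z y) {ζ : Cn n} (hζ : ζ ∈ ball (0 : Cn n) C.r) :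
    D f (C.s ζ) = fderiv ℝ (fun ζ => f (C.s ζ)) ζ := by
  rw [D_eq (eC_isCh C) (s_mem_sheet C hζ)]
  have h1 : (f ∘ (eC C).symm) = fun w => (fun ζ => f (C.s ζ)) (w - cp y) := by
    funext w; rfl
  rw [h1]
  have h2 := fderiv_comp_sub (𝕜 := ℝ) (f := fun ζ : Cn n => f (C.s ζ)) (x := cp (C.s ζ)) (cp y)
  rw [h2]
  have h3 : cp (C.s ζ) - cp y = ζ := by
    rw [cp_eq, cp_eq, chart_pr C hζ]; abel
  rw [h3]

/-- evaluations are smooth -/
lemma sm_ev (b : X.B) : Sm fun y : X.B →ₐ[ℂ] ℂ => y b := by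
  apply sm_of_chart
  intro y
  obtain ⟨C⟩ := X.hch y
  refine ⟨C, ?_⟩
  have h := C.anal b 0 (Metric.mem_ball_self C.r_pos)
  exact (h.contDiffAt (n := ((⊤ : ℕ∞) : WithTop ℕ∞))).restrict_scalars ℝ

/-- evaluations are holomorphic -/
lemma hol_ev (b : X.B) : W792.Hol fun y : X.B →ₐ[ℂ] ℂ => y b where
  sm := sm_ev b
  cl := by
    intro y w
    obtain ⟨C⟩ := X.hch y
    rw [D_chart _ C]
    have h := (C.anal b 0 (mem_ball_self C.r_pos)).differentiableAt
    exact R266.SCV.fderiv_real_smul_I h w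

variable (X) in
/-- exhaustion function -/
theorem exists_rho : ∃ ρ : (X.B →ₐ[ℂ] ℂ) → ℝ, Sm ρ ∧ (∀ c : ℝ, IsCompact {x | ρ x ≤ c}) ∧
    (∀ x w, nsq w ≤ Levi ρ x w) := by
  obtain ⟨N, a, ha⟩ := exists_gens X.ft
  have ha := isCompact_sublevel a ha
  set f : Fin N ⊕ Fin n → (X.B →ₐ[ℂ] ℂ) → ℂ := Sum.elim (fun i y => y (a i)) (fun i y => y (X.z i))
    with hf
  have hH : ∀ i, W792.Hol (f i) := by
    rintro (i | i)
    · exact hol_ev (a i)
    · exact hol_ev (X.z i)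
  have hs : Sm (W792.nS f) := W792.sm_nS fun i => (hH i).sm
  have hsplit : ∀ y, W792.nS f y = (∑ i, ‖y (a i)‖ ^ 2) + ∑ i, ‖y (X.z i)‖ ^ 2 := by
    intro y
    unfold W792.nS
    rw [Fintype.sum_sum_type]
    rfl
  refine ⟨W792.nS f, hs, ?_, ?_⟩
  · intro c
    refine (ha c).of_isClosed_subset (isClosed_le hs.continuous continuous_const) ?_
    intro y hy
    have h1 : W792.nS f y ≤ c := hy
    rw [hsplit] at h1
    have h2 : 0 ≤ ∑ i, ‖y (X.z i)‖ ^ 2 := Finset.sum_nonneg fun _ _ => by positivity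
    change ∑ i, ‖y (a i)‖ ^ 2 ≤ c
    linarith
  · intro y w
    rw [W792.Levi_eq_lev hs, W792.lev_nS hH]
    unfold W792.nT nsq
    rw [Fintype.sum_sum_type]
    have h1 : ∀ i : Fin n, D (f (Sum.inr i)) y w = w i := by
      intro i
      exact D_coord (M := X.B →ₐ[ℂ] ℂ) i y w
    simp only [h1]
    have h2 : 0 ≤ ∑ i : Fin N, ‖D (f (Sum.inl i)) y w‖ ^ 2 :=
      Finset.sum_nonneg fun _ _ => by positivity
    linarith

/-- holomorphic in charts implies analytic in `Chart`s -/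
lemma anal_of_diff {F : (X.B →ₐ[ℂ] ℂ) → ℂ}
    (hF : ∀ e : OpenPartialHomeomorph (X.B →ₐ[ℂ] ℂ) (Fin n → ℂ), IsCh e →
      DifferentiableOn ℂ (F ∘ e.symm) e.target) (y : X.B →ₐ[ℂ] ℂ) (C : Chart X.z y) :
    AnalyticOnNhd ℂ (fun ζ => F (C.s ζ)) (ball 0 C.r) := by
  intro ζ hζ
  have h1 := hF (eC C) (eC_isCh C)
  have h2 : AnalyticOnNhd ℂ (F ∘ (eC C).symm) (eC C).target :=
    R266.SCV.analyticOnNhd_of_differentiableOn (eC C).open_target h1
  have hm : ζ + pr X.z y ∈ (eC C).target := by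
    rw [chartHomeo_target, Metric.mem_ball, dist_eq_norm]
    simpa using hζ
  have h3 : AnalyticAt ℂ (F ∘ (eC C).symm) (ζ + pr X.z y) := h2 _ hm
  have h4 : AnalyticAt ℂ (fun ζ : Cn n => ζ + pr X.z y) ζ := analyticAt_id.add analyticAt_const
  have h6 := AnalyticAt.comp (g := F ∘ (eC C).symm) (f := fun ζ : Cn n => ζ + pr X.z y) h3 h4
  refine h6.congr (Eventually.of_forall fun ζ => ?_)
  change F (C.s (ζ + pr X.z y - pr X.z y)) = F (C.s ζ)
  rw [add_sub_cancel_right]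

/-- holomorphic functions are continuous -/
lemma cont_of_diff {F : (X.B →ₐ[ℂ] ℂ) → ℂ}
    (hF : ∀ e : OpenPartialHomeomorph (X.B →ₐ[ℂ] ℂ) (Fin n → ℂ), IsCh e →
      DifferentiableOn ℂ (F ∘ e.symm) e.target) : Continuous F := by
  rw [continuous_iff_continuousAt]
  intro y
  have h1 := (hF (ch y) (isCh_ch y)).continuousOn.continuousAt
    ((ch y).open_target.mem_nhds ((isCh_ch y).cp_mem (mem_ch y)))
  have h2 : F =ᶠ[𝓝 y] fun x => (F ∘ (ch y).symm) (cp x) := by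
    filter_upwards [(ch y).open_source.mem_nhds (mem_ch y)] with x hx
    simp only [Function.comp_apply]
    rw [(isCh_ch y).symm_cp hx]
  refine ContinuousAt.congr ?_ h2.symm
  exact ContinuousAt.comp (g := F ∘ (ch y).symm) (f := cp) h1 cp_cont.continuousAt

/-- `Ho51.Hol` from analyticity in charts -/
lemma hol_of_anal {F : (X.B →ₐ[ℂ] ℂ) → ℂ}
    (hF : ∀ (y : X.B →ₐ[ℂ] ℂ), ∃ C : Chart X.z y, AnalyticAt ℂ (fun ζ => F (C.s ζ)) 0) :
    Ho51.Hol F := by
  intro e he w hw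
  have hy : e.symm w ∈ e.source := e.map_target hw
  obtain ⟨C, hC⟩ := hF (e.symm w)
  have hcw : cp (e.symm w) = w := he.cp_symm hw
  have h1 := he.germ (eC_isCh C) hy (self_mem_sheet C)
  rw [hcw] at h1
  have h2 : (F ∘ e.symm) =ᶠ[𝓝 w] fun w' => F (C.s (w' - w)) := by
    filter_upwards [h1] with w' hw'
    simp only [Function.comp_apply]
    rw [hw', chartHomeo_symm, ← cp_eq, hcw]
  have h3 : DifferentiableAt ℂ (fun w' => F (C.s (w' - w))) w := by
    have h4 : DifferentiableAt ℂ (fun ζ => F (C.s ζ)) (w - w) := by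
      rw [sub_self]; exact hC.differentiableAt
    exact DifferentiableAt.comp (g := fun ζ => F (C.s ζ)) (f := fun w' => w' - w) w h4
      (by fun_prop)
  exact (h3.congr_of_eventuallyEq h2).differentiableWithinAt

lemma hol_ev' (b : X.B) : Ho51.Hol fun y : X.B →ₐ[ℂ] ℂ => y b := by
  apply hol_of_anal
  intro y
  obtain ⟨C⟩ := X.hch y
  exact ⟨C, C.anal b 0 (mem_ball_self C.r_pos)⟩

/-- `lintM` is the integral against the measure of the engine -/
theorem lintM_eq {μ : Measure (X.B →ₐ[ℂ] ℂ)} (hμ : IsLeb μ)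
    {g : (X.B →ₐ[ℂ] ℂ) → ℝ≥0∞} (hg : Measurable g) :
    lintM X.z g = ∫⁻ y, g y ∂μ :=
  lintM_eq' X.ft X.z X.hch hμ hg

/-- algebraicity -/
theorem algebraic {F : (X.B →ₐ[ℂ] ℂ) → ℂ} (hF : Ho51.Hol F)
    {u : X.B} (hu : u ≠ 0) (N M : ℕ)
    (hint : lintM X.z (fun y => ENNReal.ofReal
      (‖F y‖ ^ 2 * ‖y u‖ ^ (2 * N) / (1 + ∑ i, ‖y (X.z i)‖ ^ 2) ^ M)) < ∞) :
    ∃ b : X.B, ∀ y : X.B →ₐ[ℂ] ℂ, F y = y b := by
  have := X.ft
  exact Alg956.algebraicity_gen X.etale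
    (fun y C => anal_of_diff hF y C 0 (mem_ball_self C.r_pos)) hu N M hint

/-! ### Derivations -/

variable (X) in
/-- existence of the coordinate derivations -/
theorem exists_der : ∃ d : Fin n → Derivation ℂ X.B X.B,
    ∀ i j, d j (X.z i) = if i = j then 1 else 0 :=
  Bd741.exists_coord_deriv X.z X.etale

/-- the coordinate derivation `∂ₖ` -/
def EC.der (X : EC n) (k : Fin n) : Derivation ℂ X.B X.B := (exists_der X).choose k

lemma EC.der_z (X : EC n) (i j : Fin n) : X.der j (X.z i) = if i = j then 1 else 0 :=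
  (exists_der X).choose_spec i j

lemma EC.der_z_same (X : EC n) (i : Fin n) : X.der i (X.z i) = 1 := by
  rw [X.der_z, if_pos rfl]

/-- complex derivative of evaluations in a chart -/
lemma fderiv_chart {y : X.B →ₐ[ℂ] ℂ} (C : Chart X.z y) {ζ : Cn n}
    (hζ : ζ ∈ ball (0 : Cn n) C.r) (b : X.B) (w : Cn n) :
    fderiv ℂ (fun ζ' => C.s ζ' b) ζ w = ∑ k, w k * C.s ζ (X.der k b) := by
  have h : w = ∑ k, w k • (Pi.single k (1 : ℂ) : Cn n) := by
    funext i
    simp [Finset.sum_apply, Pi.single_apply]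
  conv_lhs => rw [h]
  rw [map_sum]
  refine Finset.sum_congr rfl fun k _ => ?_
  rw [map_smul, smul_eq_mul,
    Bd741.chart_deriv X.z X.etale X.der (fun i j => X.der_z i j) C ζ hζ k b]

/-- derivative of evaluations -/
lemma D_ev (b : X.B) (y : X.B →ₐ[ℂ] ℂ) (w : Cn n) :
    D (fun y : X.B →ₐ[ℂ] ℂ => y b) y w = ∑ k, w k * y (X.der k b) := by
  obtain ⟨C⟩ := X.hch y
  rw [D_chart _ C]
  have h1 := (C.anal b 0 (mem_ball_self C.r_pos)).differentiableAt
  have h2 := fderiv_chart C (mem_ball_self C.r_pos) b w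
  rw [C.s_zero] at h2
  rw [← h2]
  have h3 := h1.fderiv_restrictScalars ℝ
  rw [h3]
  rfl

end Crest.Agent.R269.Amp1_243
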