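import Crest.Agent.R271.G3_792
import Crest.Agent.R271.Engine_51

/-!
# Row 269 (S0411), Part 13, step 2: `∂̄` with an arbitrary smooth strictly psh weight and poles (helper243)

On a Riemann domain `M` over `ℂⁿ` with a strictly psh exhaustion: for a smooth weight `Φ` with positive
definite Levi form, families `f i` of holomorphic functions, exponents `c i ≥ 0`, and a smooth `G`
which is holomorphic off a compact set `Kc` disjoint from the common zeros of the families, there is a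
holomorphic `F` with `∫ |F - G|² ∏ (∑ⱼ|f_ij|²)^{-c_i} e^{-Φ} < ∞`.
-/

set_option autoImplicit false
set_option linter.unusedSectionVars false

noncomputable section

open Set Filter Topology Complex MeasureTheory
open scoped ENNReal ComplexConjugate

namespace Crest.Agent.R269.Amp2_243

open Crest.Agent.R271 Crest.Agent.R271.Ho51 Crest.Agent.R271.W792 Crest.Agent.R271.G792

variable {n : ℕ} {M : Type} [TopologicalSpace M] [RDom n M]

section weights

variable {ι : Type*} [Fintype ι] {κ : ι → Type*} [∀ i, Fintype (κ i)]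
  (f : ∀ i, κ i → M → ℂ) (c : ι → ℝ) (Φ : M → ℝ)

/-- regularised weights -/
def phi (k : ℕ) (x : M) : ℝ := (∑ i, c i * lg (f i) (1 / ((k : ℝ) + 1)) x) + Φ x

variable {f c Φ}

lemma sm_phi (hf : ∀ i j, W792.Hol (f i j)) (hΦ : Sm Φ) (k : ℕ) : Sm (phi f c Φ k) := by
  unfold phi
  refine Sm.add (Sm.sum fun i _ => ?_) hΦ
  exact (Sm.const _).mulR (sm_lg (fun j => (hf i j).sm) fun x => hpos_del f i k x)

lemma phi_anti (hc : ∀ i, 0 ≤ c i) (x : M) : Antitone fun k => phi f c Φ k x := by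
  intro k l hkl
  unfold phi
  have : ∀ i, lg (f i) (1 / ((l : ℝ) + 1)) x ≤ lg (f i) (1 / ((k : ℝ) + 1)) x := by
    intro i
    apply lg_antitone _ _ x (hpos_del f i l x)
    apply one_div_le_one_div_of_le (by positivity)
    have : (k : ℝ) ≤ l := by exact_mod_cast hkl
    linarith
  have h2 := Finset.sum_le_sum fun i (_ : i ∈ Finset.univ) => mul_le_mul_of_nonneg_left (this i) (hc i)
  simp only
  linarith

lemma Levi_phi (hf : ∀ i j, W792.Hol (f i j)) (hc : ∀ i, 0 ≤ c i) (hΦ : Sm Φ)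
    (k : ℕ) (x : M) (w : Fin n → ℂ) : lev Φ x w ≤ Levi (phi f c Φ k) x w := by
  rw [Levi_eq_lev (sm_phi hf hΦ k)]
  unfold phi
  have hs1 : ∀ i ∈ Finset.univ, Sm (fun x => c i * lg (f i) (1 / ((k : ℝ) + 1)) x) := fun i _ =>
    (Sm.const _).mulR (sm_lg (fun j => (hf i j).sm) fun x => hpos_del f i k x)
  rw [lev_add (Sm.sum hs1) hΦ, lev_sum _ hs1]
  have h1 : 0 ≤ ∑ i, lev (fun x => c i * lg (f i) (1 / ((k : ℝ) + 1)) x) x w := by
    refine Finset.sum_nonneg fun i _ => ?_
    rw [lev_const_mul (sm_lg (fun j => (hf i j).sm) fun x => hpos_del f i k x)]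
    exact mul_nonneg (hc i)
      (lev_lg_nonneg (fun j => hf i j) (del_pos k).le (fun x => hpos_del f i k x) x w)
  linarith

lemma exp_phi (k : ℕ) (x : M) :
    ENNReal.ofReal (Real.exp (-phi f c Φ k x)) =
      (∏ i, (ENNReal.ofReal (nS (f i) x + 1 / ((k : ℝ) + 1))) ^ (-(c i))) *
        ENNReal.ofReal (Real.exp (-Φ x)) := by
  unfold phi
  rw [neg_add, Real.exp_add, ENNReal.ofReal_mul (Real.exp_pos _).le]
  congr 1
  rw [← Finset.sum_neg_distrib, Real.exp_sum, ENNReal.ofReal_prod_of_nonneg]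
  · exact Finset.prod_congr rfl fun i _ => exp_lg (f i) _ _ x (hpos_del f i k x)
  · intro i _; exact (Real.exp_pos _).le

lemma exp_phi_le (hc : ∀ i, 0 ≤ c i) (k : ℕ) (x : M) :
    ENNReal.ofReal (Real.exp (-phi f c Φ k x)) ≤ wF f c x * ENNReal.ofReal (Real.exp (-Φ x)) := by
  rw [exp_phi]
  gcongr
  unfold wF
  refine Finset.prod_le_prod' fun i _ => ?_
  rw [ENNReal.rpow_neg, ENNReal.rpow_neg]
  gcongr
  · exact hc i
  · have := del_pos k; linarith

lemma le_iSup_exp (hc : ∀ i, 0 ≤ c i) (x : M) :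
    wF f c x * ENNReal.ofReal (Real.exp (-Φ x)) ≤
      ⨆ k, ENNReal.ofReal (Real.exp (-phi f c Φ k x)) := by
  have h1 : Tendsto (fun k : ℕ => ∏ i, (ENNReal.ofReal (nS (f i) x + 1 / ((k : ℝ) + 1))) ^ (-(c i)))
      atTop (𝓝 (wF f c x)) := by
    refine tendsto_prod_ne_zero _ _ _ (fun i _ => ?_) (fun i _ => rpow_neg_ne_zero _ (hc i))
    have h2 : Tendsto (fun k : ℕ => nS (f i) x + 1 / ((k : ℝ) + 1)) atTop (𝓝 (nS (f i) x + 0)) :=
      tendsto_const_nhds.add tendsto_one_div_add_atTop_nhds_zero_nat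
    rw [add_zero] at h2
    exact ((ENNReal.continuous_rpow_const (y := -(c i))).tendsto _).comp
      ((ENNReal.continuous_ofReal.tendsto _).comp h2)
  have h3 : Tendsto (fun k : ℕ => ENNReal.ofReal (Real.exp (-phi f c Φ k x))) atTop
      (𝓝 (wF f c x * ENNReal.ofReal (Real.exp (-Φ x)))) := by
    simp only [exp_phi]
    exact ENNReal.Tendsto.mul_const h1 (Or.inr ENNReal.ofReal_ne_top)
  exact le_of_tendsto' h3 fun k => le_iSup (fun k => ENNReal.ofReal (Real.exp (-phi f c Φ k x))) k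

end weights

/-- the pole weight is bounded on compact sets without common zeros -/
lemma wF_bdd {ι : Type*} [Fintype ι] {κ : ι → Type*} [∀ i, Fintype (κ i)]
    (f : ∀ i, κ i → M → ℂ) (hf : ∀ i j, W792.Hol (f i j)) (c : ι → ℝ) (hc : ∀ i, 0 ≤ c i)
    {K : Set M} (hK : IsCompact K) (hpos : ∀ x ∈ K, ∀ i, nS (f i) x ≠ 0) :
    ∃ C : ℝ≥0∞, C ≠ ∞ ∧ ∀ x ∈ K, wF f c x ≤ C := by
  have h1 : ∀ i, ∃ δ : ℝ, 0 < δ ∧ ∀ x ∈ K, δ ≤ nS (f i) x := by
    intro i
    have hcont : Continuous (nS (f i)) := (sm_nS fun j => (hf i j).sm).continuous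
    rcases K.eq_empty_or_nonempty with h0 | h0
    · exact ⟨1, one_pos, fun x hx => by rw [h0] at hx; exact absurd hx (notMem_empty x)⟩
    · obtain ⟨x0, hx0, hmin⟩ := hK.exists_isMinOn h0 hcont.continuousOn
      refine ⟨nS (f i) x0, lt_of_le_of_ne (nS_nonneg _ _) (Ne.symm (hpos x0 hx0 i)), ?_⟩
      intro x hx
      exact hmin hx
  choose δ hδ hδK using h1
  refine ⟨∏ i, (ENNReal.ofReal (δ i)) ^ (-(c i)), ?_, ?_⟩
  · refine ENNReal.prod_ne_top fun i _ => ?_
    rw [ENNReal.ofReal_rpow_of_pos (hδ i)]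
    exact ENNReal.ofReal_ne_top
  · intro x hx
    unfold wF
    refine Finset.prod_le_prod' fun i _ => ?_
    rw [ENNReal.rpow_neg, ENNReal.rpow_neg]
    gcongr
    · exact hc i
    · exact hδK i x hx

/-- **SOLVER** on a Riemann domain, arbitrary smooth strictly psh weight and poles -/
theorem solver [T2Space M] [SecondCountableTopology M] [MeasurableSpace M] [BorelSpace M]
    (μ : Measure M) (hμ : IsLeb μ)
    (ρ : M → ℝ) (hρ : Sm ρ) (hρc : ∀ c : ℝ, IsCompact {x | ρ x ≤ c})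
    (hρL : ∀ x w, nsq w ≤ Levi ρ x w)
    (Φ : M → ℝ) (hΦ : Sm Φ) (q : M → ℝ) (hqc : Continuous q) (hq0 : ∀ x, 0 < q x)
    (hΦq : ∀ x w, q x * nsq w ≤ lev Φ x w)
    {ι : Type*} [Fintype ι] {κ : ι → Type*} [∀ i, Fintype (κ i)]
    (f : ∀ i, κ i → M → ℂ) (hf : ∀ i j, W792.Hol (f i j)) (c : ι → ℝ) (hc : ∀ i, 0 ≤ c i)
    (G : M → ℂ) (hGs : Sm G) (Kc : Set M) (hK : IsCompact Kc)
    (hD : ∀ x, x ∉ Kc → ∀ j, db j G x = 0)
    (hpos : ∀ x ∈ Kc, ∀ i, nS (f i) x ≠ 0) :
    ∃ F : M → ℂ, Ho51.Hol F ∧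
      ∫⁻ x, ENNReal.ofReal (‖F x - G x‖ ^ 2) *
        (wF f c x * ENNReal.ofReal (Real.exp (-Φ x))) ∂μ < ∞ := by
  have eng : EngineFor M μ := engineFor_of Ho51.engineP M μ hμ
  have hlf := hμ.locallyFinite
  obtain ⟨Cw, hCw, hCwK⟩ := wF_bdd f hf c hc hK hpos
  set kap : M → ℝ := fun x => (∑ j, ‖db j G x‖ ^ 2) * (q x)⁻¹ with hkap
  have hkap0 : ∀ x, 0 ≤ kap x := fun x => by
    have := hq0 x
    have : 0 ≤ ∑ j, ‖db j G x‖ ^ 2 := Finset.sum_nonneg fun _ _ => by positivity
    positivity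
  have hkapc : Continuous kap := by
    refine Continuous.mul ?_ ?_
    · exact continuous_finsetSum _ fun j _ => ((hGs.db j).continuous.norm.pow 2)
    · exact hqc.inv₀ fun x => (hq0 x).ne'
  have hec : Continuous fun x => Real.exp (-Φ x) := Real.continuous_exp.comp hΦ.continuous.neg
  obtain ⟨C0, hC0⟩ := hK.exists_bound_of_continuousOn (hkapc.mul hec).continuousOn
  have hcs : ∀ x (w : Fin n → ℂ), ‖∑ j, db j G x * conj (w j)‖ ^ 2 ≤
      (∑ j, ‖db j G x‖ ^ 2) * nsq w := by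
    intro x w
    have h1 : ‖∑ j, db j G x * conj (w j)‖ ≤ ∑ j, ‖db j G x‖ * ‖w j‖ := by
      refine (norm_sum_le _ _).trans (Finset.sum_le_sum fun j _ => ?_)
      rw [norm_mul, RCLike.norm_conj]
    calc ‖∑ j, db j G x * conj (w j)‖ ^ 2 ≤ (∑ j, ‖db j G x‖ * ‖w j‖) ^ 2 := by gcongr
      _ ≤ (∑ j, ‖db j G x‖ ^ 2) * ∑ j, ‖w j‖ ^ 2 := Finset.sum_mul_sq_le_sq_mul_sq _ _ _
  have hL : ∀ k x (w : Fin n → ℂ), q x * nsq w ≤ Levi (phi f c Φ k) x w := fun k x w =>
    (hΦq x w).trans (Levi_phi hf hc hΦ k x w)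
  obtain ⟨F, hF, hFi⟩ := eng ρ hρ hρc hρL (fun k => phi f c Φ k)
    (fun k => sm_phi hf hΦ k) (fun x => phi_anti hc x)
    (fun k x w => le_trans (by
      have := (hq0 x).le
      have := nsq_nonneg w
      positivity) (hL k x w))
    G hGs (fun _ => kap) (fun _ => hkap0) (fun _ => hkapc)
    (fun k x w => by
      refine (hcs x w).trans ?_
      have h1 := hL k x w
      have h2 := mul_le_mul_of_nonneg_left h1 (hkap0 x)
      refine le_trans (le_of_eq ?_) h2
      have hq := hq0 x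
      simp only [hkap]
      field_simp)
    (ENNReal.ofReal C0 * (Cw * μ Kc))
    (ENNReal.mul_ne_top ENNReal.ofReal_ne_top
      (ENNReal.mul_ne_top hCw hK.measure_lt_top.ne))
    (fun k => by
      calc ∫⁻ x, ENNReal.ofReal (kap x * Real.exp (-phi f c Φ k x)) ∂μ
          ≤ ∫⁻ x, Kc.indicator (fun _ => ENNReal.ofReal C0 * Cw) x ∂μ := by
            refine lintegral_mono fun x => ?_
            by_cases hx : x ∈ Kc
            · rw [Set.indicator_of_mem hx, ENNReal.ofReal_mul (hkap0 x)]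
              calc ENNReal.ofReal (kap x) * ENNReal.ofReal (Real.exp (-phi f c Φ k x))
                  ≤ ENNReal.ofReal (kap x) * (wF f c x * ENNReal.ofReal (Real.exp (-Φ x))) := by
                    gcongr; exact exp_phi_le hc k x
                _ = (ENNReal.ofReal (kap x) * ENNReal.ofReal (Real.exp (-Φ x))) * wF f c x := by
                    ring
                _ ≤ ENNReal.ofReal C0 * Cw := by
                    gcongr
                    · rw [← ENNReal.ofReal_mul (hkap0 x)]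
                      apply ENNReal.ofReal_le_ofReal
                      exact (le_abs_self _).trans (hC0 x hx)
                    · exact hCwK x hx
            · have h1 : kap x = 0 := by
                simp only [hkap]
                have : ∀ j, db j G x = 0 := hD x hx
                simp [this]
              simp [h1]
        _ = ENNReal.ofReal C0 * (Cw * μ Kc) := by
            rw [lintegral_indicator_const hK.measurableSet, mul_assoc])
  refine ⟨F, hF, lt_of_le_of_lt ?_ (lt_of_le_of_lt hFi ?_)⟩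
  · refine lintegral_mono fun x => ?_
    gcongr
    exact le_iSup_exp hc x
  · exact ENNReal.mul_lt_top (by simp) (ENNReal.mul_lt_top ENNReal.ofReal_lt_top
      (ENNReal.mul_lt_top hCw.lt_top hK.measure_lt_top))

end Crest.Agent.R269.Amp2_243
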