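import Mathlib

/-!
# Row 269 (S0411), Part 13, step 4: `∫ |H|² |ζ|^{-2(n+1)} < ∞` near `0 ∈ ℂⁿ` forces `H(0) = 0`, `dH(0) = 0`
(helper243)
-/

set_option autoImplicit false

noncomputable section

open Set Filter Topology MeasureTheory Metric
open scoped ENNReal

namespace Crest.Agent.R269.Amp4_243

variable {n : ℕ}

lemma finrank_real : Module.finrank ℝ (Fin n → ℂ) = 2 * n := by
  rw [Module.finrank_pi_fintype]
  simp [Complex.finrank_real_complex, mul_comm]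

/-- dyadic lower bound -/
theorem lint_eq_top {H : (Fin n → ℂ) → ℂ} {v : Fin n → ℂ} {δ c t0 : ℝ} (hv : v ≠ 0) (hδ : 0 < δ)
    (hδv : δ ≤ ‖v‖ / 4) (hc : 0 < c) (ht0 : 0 < t0)
    (hH : ∀ t : ℝ, 0 < t → t ≤ t0 → ∀ s ∈ ball v δ, c * t ≤ ‖H (t • s)‖)
    (a : ℝ) (ha : (n : ℝ) + 1 ≤ a) {U : Set (Fin n → ℂ)} (hU : U ∈ 𝓝 (0 : Fin n → ℂ)) :
    ∫⁻ ζ in U, ENNReal.ofReal (‖H ζ‖ ^ 2) * (ENNReal.ofReal (‖ζ‖ ^ 2)) ^ (-a) = ∞ := by
  have hv0 : 0 < ‖v‖ := norm_pos_iff.mpr hv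
  obtain ⟨ρ, hρ, hρU⟩ := Metric.mem_nhds_iff.mp hU
  -- start scale
  set t1 : ℝ := min (min t0 (ρ / (2 * ‖v‖))) (1 / (2 * ‖v‖)) with ht1
  have ht1p : 0 < t1 := by
    rw [ht1]
    positivity
  have ht1a : t1 ≤ t0 := (min_le_left _ _).trans (min_le_left _ _)
  have ht1b : t1 * (2 * ‖v‖) ≤ ρ := by
    have : t1 ≤ ρ / (2 * ‖v‖) := (min_le_left _ _).trans (min_le_right _ _)
    rwa [le_div_iff₀ (by positivity)] at this
  have ht1c : t1 * (2 * ‖v‖) ≤ 1 := by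
    have : t1 ≤ 1 / (2 * ‖v‖) := min_le_right _ _
    rwa [le_div_iff₀ (by positivity)] at this
  set t : ℕ → ℝ := fun k => t1 * (1 / 2) ^ k with ht
  have htp : ∀ k, 0 < t k := fun k => by rw [ht]; positivity
  have htle : ∀ k, t k ≤ t1 := fun k => by
    have : (1 / 2 : ℝ) ^ k ≤ 1 := pow_le_one₀ (by norm_num) (by norm_num)
    simp only [ht]
    nlinarith
  set S : ℕ → Set (Fin n → ℂ) := fun k => ball (t k • v) (t k * δ) with hS
  have hmem : ∀ k, ∀ ζ ∈ S k, ∃ s ∈ ball v δ, ζ = t k • s := by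
    intro k ζ hζ
    refine ⟨(t k)⁻¹ • ζ, ?_, ?_⟩
    · rw [mem_ball, dist_eq_norm]
      have h1 : (t k)⁻¹ • ζ - v = (t k)⁻¹ • (ζ - t k • v) := by
        rw [smul_sub, smul_smul, inv_mul_cancel₀ (htp k).ne', one_smul]
      rw [h1, norm_smul, norm_inv, Real.norm_eq_abs, abs_of_pos (htp k)]
      have h2 : ‖ζ - t k • v‖ < t k * δ := by
        have := hζ
        rwa [hS, mem_ball, dist_eq_norm] at this
      rw [inv_mul_lt_iff₀ (htp k)]
      exact h2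
    · rw [smul_smul, mul_inv_cancel₀ (htp k).ne', one_smul]
  have hnorm : ∀ k, ∀ ζ ∈ S k, t k * (‖v‖ * (3 / 4)) < ‖ζ‖ ∧ ‖ζ‖ < t k * (‖v‖ * (5 / 4)) := by
    intro k ζ hζ
    obtain ⟨s, hs, rfl⟩ := hmem k ζ hζ
    rw [mem_ball, dist_eq_norm] at hs
    rw [norm_smul, Real.norm_eq_abs, abs_of_pos (htp k)]
    have h1 : ‖v‖ - ‖s - v‖ ≤ ‖s‖ := by
      have := norm_sub_norm_le v (v - s)
      have h2 : v - (v - s) = s := by abel
      rw [h2, norm_sub_rev v s] at this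
      exact this
    have h2 : ‖s‖ ≤ ‖v‖ + ‖s - v‖ := by
      have := norm_add_le v (s - v)
      rwa [add_sub_cancel] at this
    constructor
    · apply mul_lt_mul_of_pos_left _ (htp k)
      linarith
    · apply mul_lt_mul_of_pos_left _ (htp k)
      linarith
  have hdisj : Pairwise (Function.onFun Disjoint S) := by
    have key : ∀ k l, k < l → Disjoint (S k) (S l) := by
      intro k l hkl
      rw [Set.disjoint_left]
      intro ζ h1 h2
      have h3 := (hnorm k ζ h1).1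
      have h4 := (hnorm l ζ h2).2
      have h5 : t l ≤ t k * (1 / 2) := by
        simp only [ht]
        have h6 : (1 / 2 : ℝ) ^ l ≤ (1 / 2) ^ (k + 1) :=
          pow_le_pow_of_le_one (by norm_num) (by norm_num) hkl
        rw [pow_succ] at h6
        nlinarith
      have h6 := htp k
      nlinarith [mul_pos h6 hv0]
    intro k l hkl
    rcases lt_or_gt_of_ne hkl with h | h
    · exact key k l h
    · exact (key l k h).symm
  have hsub : (⋃ k, S k) ⊆ U := by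
    intro ζ hζ
    obtain ⟨k, hk⟩ := mem_iUnion.mp hζ
    apply hρU
    rw [mem_ball_zero_iff]
    have h1 := (hnorm k ζ hk).2
    have h2 : t k * (‖v‖ * (5 / 4)) ≤ t1 * (2 * ‖v‖) := by
      have := htle k
      nlinarith
    linarith
  set κ : ℝ≥0∞ := ENNReal.ofReal (c ^ 2 * ((2 * ‖v‖) ^ 2) ^ (-((n : ℝ) + 1)) * δ ^ (2 * n)) *
    volume (ball (0 : Fin n → ℂ) 1) with hκ
  have hκ0 : κ ≠ 0 := by
    rw [hκ]
    apply mul_ne_zero
    · rw [Ne, ENNReal.ofReal_eq_zero, not_le]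
      positivity
    · exact (measure_ball_pos volume _ one_pos).ne'
  have hlow : ∀ k, κ ≤ ∫⁻ ζ in S k, ENNReal.ofReal (‖H ζ‖ ^ 2) *
      (ENNReal.ofReal (‖ζ‖ ^ 2)) ^ (-a) := by
    intro k
    have hpt : ∀ ζ ∈ S k, ENNReal.ofReal (c ^ 2 * ((2 * ‖v‖) ^ 2) ^ (-((n : ℝ) + 1)) *
        ((t k) ^ (2 * n))⁻¹) ≤ ENNReal.ofReal (‖H ζ‖ ^ 2) * (ENNReal.ofReal (‖ζ‖ ^ 2)) ^ (-a) := by
      intro ζ hζ
      obtain ⟨s, hs, hζs⟩ := hmem k ζ hζ
      have h1 : c * t k ≤ ‖H ζ‖ := by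
        rw [hζs]
        exact hH (t k) (htp k) ((htle k).trans ht1a) s hs
      obtain ⟨h2, h3⟩ := hnorm k ζ hζ
      have hζ0 : 0 < ‖ζ‖ := lt_trans (by have := htp k; positivity) h2
      have hζ1 : ‖ζ‖ ^ 2 ≤ 1 := by
        have h4 : ‖ζ‖ ≤ 1 := by
          have := htle k
          have h5 : t k * (‖v‖ * (5 / 4)) ≤ t1 * (2 * ‖v‖) := by nlinarith
          linarith
        nlinarith
      have h4 : (ENNReal.ofReal (‖ζ‖ ^ 2)) ^ (-a) = ENNReal.ofReal ((‖ζ‖ ^ 2) ^ (-a)) :=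
        ENNReal.ofReal_rpow_of_pos (by positivity)
      rw [h4, ← ENNReal.ofReal_mul (by positivity)]
      apply ENNReal.ofReal_le_ofReal
      have h5 : (‖ζ‖ ^ 2) ^ (-((n : ℝ) + 1)) ≤ (‖ζ‖ ^ 2) ^ (-a) :=
        Real.rpow_le_rpow_of_exponent_ge (by positivity) hζ1 (by linarith)
      have h6 : ((t k) ^ 2 * (2 * ‖v‖) ^ 2) ^ (-((n : ℝ) + 1)) ≤ (‖ζ‖ ^ 2) ^ (-((n : ℝ) + 1)) := by
        apply Real.rpow_le_rpow_of_nonpos (by positivity)
        · have h7 : ‖ζ‖ ≤ t k * (2 * ‖v‖) := by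
            have := htp k
            nlinarith
          calc ‖ζ‖ ^ 2 ≤ (t k * (2 * ‖v‖)) ^ 2 := by gcongr
            _ = _ := by ring
        · have : (0 : ℝ) ≤ n := Nat.cast_nonneg n
          linarith
      have h7 : ((t k) ^ 2 * (2 * ‖v‖) ^ 2) ^ (-((n : ℝ) + 1)) =
          ((t k) ^ (2 * (n + 1)))⁻¹ * ((2 * ‖v‖) ^ 2) ^ (-((n : ℝ) + 1)) := by
        rw [Real.mul_rpow (by positivity) (by positivity)]
        congr 1
        have h8 : -((n : ℝ) + 1) = -(((n + 1 : ℕ) : ℝ)) := by push_cast; ring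
        rw [h8, Real.rpow_neg (by positivity), Real.rpow_natCast, ← pow_mul]
      have h9 : (t k) ^ (2 * (n + 1)) = (t k) ^ (2 * n) * (t k) ^ 2 := by ring
      have htk := htp k
      calc c ^ 2 * ((2 * ‖v‖) ^ 2) ^ (-((n : ℝ) + 1)) * ((t k) ^ (2 * n))⁻¹
          = (c * t k) ^ 2 * (((t k) ^ (2 * (n + 1)))⁻¹ *
              ((2 * ‖v‖) ^ 2) ^ (-((n : ℝ) + 1))) := by
            rw [h9]
            field_simp
        _ ≤ ‖H ζ‖ ^ 2 * (‖ζ‖ ^ 2) ^ (-a) := by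
            rw [← h7]
            have h10 := h6.trans h5
            gcongr
    calc κ = ENNReal.ofReal (c ^ 2 * ((2 * ‖v‖) ^ 2) ^ (-((n : ℝ) + 1)) *
        ((t k) ^ (2 * n))⁻¹) * volume (S k) := by
          have h1 : volume (S k) = ENNReal.ofReal ((t k * δ) ^ (2 * n)) *
              volume (ball (0 : Fin n → ℂ) 1) := by
            have := Measure.addHaar_ball_of_pos (volume : Measure (Fin n → ℂ)) (t k • v)
              (mul_pos (htp k) hδ)
            rw [finrank_real] at this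
            exact this
          rw [h1, hκ, ← mul_assoc, ← ENNReal.ofReal_mul (by have := htp k; positivity)]
          congr 2
          have := (htp k).ne'
          field_simp
          ring
      _ = ∫⁻ _ in S k, ENNReal.ofReal (c ^ 2 * ((2 * ‖v‖) ^ 2) ^ (-((n : ℝ) + 1)) *
          ((t k) ^ (2 * n))⁻¹) := (setLIntegral_const _ _).symm
      _ ≤ _ := setLIntegral_mono' measurableSet_ball hpt
  rw [eq_top_iff]
  calc (∞ : ℝ≥0∞) = ∑' _ : ℕ, κ := (ENNReal.tsum_const_eq_top_of_ne_zero hκ0).symm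
    _ ≤ ∑' k, ∫⁻ ζ in S k, ENNReal.ofReal (‖H ζ‖ ^ 2) * (ENNReal.ofReal (‖ζ‖ ^ 2)) ^ (-a) :=
        ENNReal.tsum_le_tsum hlow
    _ = ∫⁻ ζ in ⋃ k, S k, ENNReal.ofReal (‖H ζ‖ ^ 2) * (ENNReal.ofReal (‖ζ‖ ^ 2)) ^ (-a) :=
        (lintegral_iUnion (fun k => measurableSet_ball) hdisj _).symm
    _ ≤ _ := lintegral_mono_set hsub

/-- **JET LEMMA** -/
theorem jet_of_lint (hn : 1 ≤ n) {H : (Fin n → ℂ) → ℂ} (hH : DifferentiableAt ℂ H 0)
    (a : ℝ) (ha : (n : ℝ) + 1 ≤ a) {U : Set (Fin n → ℂ)} (hU : U ∈ 𝓝 (0 : Fin n → ℂ))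
    (hint : ∫⁻ ζ in U, ENNReal.ofReal (‖H ζ‖ ^ 2) * (ENNReal.ofReal (‖ζ‖ ^ 2)) ^ (-a) ≠ ∞) :
    H 0 = 0 ∧ fderiv ℂ H 0 = 0 := by
  have h0 : H 0 = 0 := by
    by_contra hne
    apply hint
    have hp : 0 < ‖H 0‖ := norm_pos_iff.mpr hne
    have hev : ∀ᶠ ζ in 𝓝 (0 : Fin n → ℂ), ‖H 0‖ / 2 < ‖H ζ‖ :=
      hH.continuousAt.norm.eventually (lt_mem_nhds (by linarith))
    obtain ⟨ρ, hρ, hρ1⟩ := Metric.eventually_nhds_iff_ball.mp hev
    have : NeZero n := ⟨by omega⟩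
    set v : Fin n → ℂ := fun _ => 1 with hv
    have hv1 : ‖v‖ = 1 := by
      rw [hv, pi_norm_const]; simp
    have hv0 : v ≠ 0 := by
      intro h; rw [h, norm_zero] at hv1; exact zero_ne_one hv1
    refine lint_eq_top (v := v) (δ := 1 / 4) (c := ‖H 0‖ / 2) (t0 := min 1 (ρ / 2)) hv0
      (by norm_num) (by rw [hv1]) (by positivity) (by positivity) ?_ a ha hU
    intro t ht htt s hs
    have h1 : ‖H 0‖ / 2 < ‖H (t • s)‖ := by
      apply hρ1
      rw [mem_ball_zero_iff, norm_smul, Real.norm_eq_abs, abs_of_pos ht]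
      rw [mem_ball, dist_eq_norm] at hs
      have h2 : ‖s‖ ≤ ‖v‖ + ‖s - v‖ := by
        have := norm_add_le v (s - v)
        rwa [add_sub_cancel] at this
      have h3 : t ≤ ρ / 2 := htt.trans (min_le_right _ _)
      rw [hv1] at h2
      nlinarith
    have h2 : t ≤ 1 := htt.trans (min_le_left _ _)
    nlinarith
  refine ⟨h0, ?_⟩
  by_contra hne
  apply hint
  obtain ⟨v, hv⟩ : ∃ v, fderiv ℂ H 0 v ≠ 0 := by
    by_contra hcon
    push Not at hcon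
    exact hne (ContinuousLinearMap.ext hcon)
  set L := fderiv ℂ H 0 with hL
  have hv0 : v ≠ 0 := by
    rintro rfl
    exact hv (map_zero L)
  have hvn : 0 < ‖v‖ := norm_pos_iff.mpr hv0
  have hLv : 0 < ‖L v‖ := norm_pos_iff.mpr hv
  set δ : ℝ := min (‖v‖ / 4) (‖L v‖ / (2 * (‖L‖ + 1))) with hδ
  have hδp : 0 < δ := by rw [hδ]; positivity
  set ε : ℝ := ‖L v‖ / (8 * ‖v‖) with hε
  have hεp : 0 < ε := by positivity
  have ho := hH.hasFDerivAt.isLittleO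
  rw [Asymptotics.isLittleO_iff] at ho
  have ho' := ho hεp
  obtain ⟨ρ, hρ, hρ1⟩ := Metric.eventually_nhds_iff_ball.mp ho'
  refine lint_eq_top (v := v) (δ := δ) (c := ‖L v‖ / 4) (t0 := ρ / (2 * ‖v‖)) hv0
    hδp (min_le_left _ _) (by positivity) (by positivity) ?_ a ha hU
  intro t ht htt s hs
  rw [mem_ball, dist_eq_norm] at hs
  have h2 : ‖s‖ ≤ ‖v‖ + ‖s - v‖ := by
    have := norm_add_le v (s - v)
    rwa [add_sub_cancel] at this
  have hδ1 : δ ≤ ‖v‖ / 4 := min_le_left _ _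
  have hs2 : ‖s‖ < 2 * ‖v‖ := by linarith
  have h3 : t • s ∈ ball (0 : Fin n → ℂ) ρ := by
    rw [mem_ball_zero_iff, norm_smul, Real.norm_eq_abs, abs_of_pos ht]
    rw [le_div_iff₀ (by positivity)] at htt
    calc t * ‖s‖ < t * (2 * ‖v‖) := mul_lt_mul_of_pos_left hs2 ht
      _ ≤ ρ := htt
  have h4 := hρ1 _ h3
  rw [sub_zero, h0, sub_zero, norm_smul, Real.norm_eq_abs, abs_of_pos ht] at h4
  have h5 : L (t • s) = (t : ℂ) * L s := by
    have : (t • s : Fin n → ℂ) = (t : ℂ) • s := by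
      funext i; simp
    rw [this, map_smul, smul_eq_mul]
  have h6 : ‖L v‖ / 2 ≤ ‖L s‖ := by
    have h7 : ‖L (s - v)‖ ≤ ‖L v‖ / 2 := by
      have h8 : δ ≤ ‖L v‖ / (2 * (‖L‖ + 1)) := min_le_right _ _
      rw [le_div_iff₀ (by positivity)] at h8
      have h9 := L.le_opNorm (s - v)
      have h10 : ‖L‖ * ‖s - v‖ ≤ (‖L‖ + 1) * δ := by
        have := norm_nonneg L
        have := norm_nonneg (s - v)
        nlinarith
      linarith
    have h8 : ‖L v‖ - ‖L (s - v)‖ ≤ ‖L s‖ := by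
      have := norm_sub_norm_le (L v) (-(L (s - v)))
      rw [norm_neg] at this
      have h9 : L v - -(L (s - v)) = L s := by rw [map_sub]; ring
      rw [h9] at this
      exact this
    linarith
  have h7 : t * (‖L v‖ / 2) ≤ ‖L (t • s)‖ := by
    rw [h5, norm_mul, Complex.norm_real, Real.norm_eq_abs, abs_of_pos ht]
    exact mul_le_mul_of_nonneg_left h6 ht.le
  have h8 : ‖L (t • s)‖ - ‖H (t • s) - L (t • s)‖ ≤ ‖H (t • s)‖ := by
    have := norm_sub_norm_le (L (t • s)) (-(H (t • s) - L (t • s)))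
    rw [norm_neg] at this
    have h9 : L (t • s) - -(H (t • s) - L (t • s)) = H (t • s) := by ring
    rw [h9] at this
    exact this
  have h9 : ε * (t * ‖s‖) ≤ t * (‖L v‖ / 4) := by
    have h10 : ε * (2 * ‖v‖) = ‖L v‖ / 4 := by
      rw [hε]; field_simp; ring
    calc ε * (t * ‖s‖) ≤ ε * (t * (2 * ‖v‖)) := by gcongr
      _ = t * (ε * (2 * ‖v‖)) := by ring
      _ = _ := by rw [h10]
  linarith

end Crest.Agent.R269.Amp4_243
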