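import Crest.Agent.R269.Amp2_243
import Crest.Agent.R269.Amp3_243
import Crest.Agent.R269.Amp4_243
import Crest.Agent.R269.GeoT_328

/-!
# Row 269 (S0411), Part 13, step 5: holomorphic functions on `M` with a prescribed 1-jet and pole weights
(helper243)
-/

set_option autoImplicit false
set_option linter.unusedSectionVars false

noncomputable section

open Set Filter Topology Complex MeasureTheory Metric
open scoped ENNReal ComplexConjugate ContDiff

namespace Crest.Agent.R269.Amp5_243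

open Crest.AlgGeometry.ProjEmb
open Crest.Agent.R271 Crest.Agent.R271.Defs710 Crest.Agent.R271.Rd692
open Crest.Agent.R271.Ho51 hiding EE
open Crest.Agent.R269.Amp1_243 Crest.Agent.R269.Geo_328 Crest.Agent.R269.Amp3_243

/-! ### general lemmas on a Riemann domain -/

section gen

variable {n : ℕ} {M : Type*} [TopologicalSpace M] [RDom n M]

/-- `∂̄ f = 0` for holomorphic `f` -/
lemma db_hol {f : M → ℂ} (hf : W792.Hol f) (j : Fin n) (x : M) : db j f x = 0 := by
  rw [db_eq]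
  have h : (Pi.single j Complex.I : Fin n → ℂ) = Complex.I • Pi.single j (1 : ℂ) := by
    funext k
    by_cases hk : k = j
    · subst hk; simp
    · simp [Pi.single_eq_of_ne hk]
  rw [h, hf.cl x]
  have h2 := Complex.I_mul_I
  linear_combination (1 / 2 : ℂ) * D f x (Pi.single j 1) * h2

lemma Hol.const (c : ℂ) : W792.Hol (fun _ : M => c) where
  sm := Sm.const c
  cl := by intro x w; rw [D_const]; simp

lemma Hol.add {f g : M → ℂ} (hf : W792.Hol f) (hg : W792.Hol g) :
    W792.Hol (fun x => f x + g x) where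
  sm := hf.sm.add hg.sm
  cl := by
    intro x w
    rw [D_add hf.sm hg.sm, _root_.add_apply, _root_.add_apply, hf.cl, hg.cl]; ring

lemma Hol.sub {f g : M → ℂ} (hf : W792.Hol f) (hg : W792.Hol g) :
    W792.Hol (fun x => f x - g x) where
  sm := hf.sm.sub hg.sm
  cl := by
    intro x w
    rw [D_sub hf.sm hg.sm, _root_.sub_apply, _root_.sub_apply, hf.cl, hg.cl]; ring

lemma Hol.mul {f g : M → ℂ} (hf : W792.Hol f) (hg : W792.Hol g) :
    W792.Hol (fun x => f x * g x) where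
  sm := hf.sm.mul hg.sm
  cl := by
    intro x w
    rw [D_mul hf.sm hg.sm, D_mul hf.sm hg.sm, hf.cl, hg.cl]; ring

lemma Hol.sum {ι : Type*} (s : Finset ι) {f : ι → M → ℂ} (hf : ∀ i ∈ s, W792.Hol (f i)) :
    W792.Hol (fun x => ∑ i ∈ s, f i x) := by
  classical
  induction s using Finset.induction_on with
  | empty => simpa using Hol.const (n := n) (M := M) 0
  | insert a s ha ih =>
    simp only [Finset.sum_insert ha]
    exact Hol.add (hf a (Finset.mem_insert_self a s)) (ih fun i hi => hf i (Finset.mem_insert_of_mem hi))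

end gen

section ec

variable {n : ℕ} {X : EC n}

/-- integral over a ball of a chart -/
theorem lint_sheet_le {μ : Measure (X.B →ₐ[ℂ] ℂ)} (hμ : IsLeb μ) {y : X.B →ₐ[ℂ] ℂ}
    (C : Chart X.z y) {g : (X.B →ₐ[ℂ] ℂ) → ℝ≥0∞} (hg : Measurable g) {r : ℝ} (hr : r ≤ C.r) :
    ∫⁻ ζ in ball (0 : Cn n) r, g (C.s ζ) ≤ ∫⁻ y', g y' ∂μ := by
  have h2 : ∫⁻ ζ in ball (0 : Cn n) r, g (C.s ζ) =
      ∫⁻ w, (ball (0 : Cn n) r).indicator (fun ζ => g (C.s ζ)) (w - pr X.z y) := by
    rw [lintegral_sub_right_eq_self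
      (fun w => (Metric.ball (0 : Cn n) r).indicator (fun ζ => g (C.s ζ)) w) (pr X.z y),
      lintegral_indicator measurableSet_ball]
  rw [h2]
  calc ∫⁻ w, (ball (0 : Cn n) r).indicator (fun ζ => g (C.s ζ)) (w - pr X.z y)
      ≤ ∫⁻ z, (eC C).target.indicator (fun z => g ((eC C).symm z)) z := by
        refine lintegral_mono fun z => ?_
        by_cases hz : z - pr X.z y ∈ ball (0 : Cn n) r
        · have hz' : z ∈ (eC C).target := by
            have := ball_subset_ball hr hz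
            rw [mem_ball_zero_iff] at this
            change z ∈ ball _ _
            rwa [mem_ball, dist_eq_norm]
          rw [indicator_of_mem hz, indicator_of_mem hz']
          rfl
        · rw [indicator_of_notMem hz]; exact zero_le
    _ = ∫⁻ z in (eC C).target, g ((eC C).symm z) :=
        lintegral_indicator (eC C).open_target.measurableSet _
    _ = ∫⁻ x in (eC C).source, g x ∂μ :=
        (lintegral_chart hμ (eC_isCh C) hg.aemeasurable).symm
    _ ≤ ∫⁻ x, g x ∂μ := setLIntegral_le_lintegral _ _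

lemma tendsto_s {y : X.B →ₐ[ℂ] ℂ} (C : Chart X.z y) : Tendsto (C.s : Cn n → Pt X.B) (𝓝 0) (𝓝 y) := by
  have := (chart_continuousAt C (mem_ball_self C.r_pos)).tendsto
  rwa [C.s_zero] at this

end ec

/-! ### the pole functions -/

variable {N n : ℕ} {I : Ideal (HomCoordRing N)} {X : XC I n}

/-- the elements `p_a x_b - p_b x_a` -/
def elt (X : XC I n) (p : EE N) (ab : Fin (N + 1) × Fin (N + 1)) : X.B :=
  p ab.1 • X.x ab.2 - p ab.2 • X.x ab.1

/-- the functions `p_a x_b - p_b x_a` -/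
def ell (X : XC I n) (p : EE N) (ab : Fin (N + 1) × Fin (N + 1)) (y : X.B →ₐ[ℂ] ℂ) : ℂ :=
  y (elt X p ab)

lemma ell_eq (p : EE N) (ab : Fin (N + 1) × Fin (N + 1)) (y : X.B →ₐ[ℂ] ℂ) :
    ell X p ab y = p ab.1 * y (X.x ab.2) - p ab.2 * y (X.x ab.1) := by
  unfold ell elt
  rw [map_sub, map_smul, map_smul, smul_eq_mul, smul_eq_mul]

/-- `∑_{a,b} |p_a x_b - p_b x_a|²` -/
def Lp (X : XC I n) (p : EE N) (y : X.B →ₐ[ℂ] ℂ) : ℝ := W792.nS (ell X p) y

lemma Lp_nonneg (p : EE N) (y : X.B →ₐ[ℂ] ℂ) : 0 ≤ Lp X p y := W792.nS_nonneg _ _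

lemma hol_ell (p : EE N) (ab : Fin (N + 1) × Fin (N + 1)) : W792.Hol (ell X p ab) := hol_ev _

lemma sm_Lp (p : EE N) : Sm (Lp X p) := W792.sm_nS fun ab => (hol_ell p ab).sm

lemma Lp_le (p : EE N) (y : X.B →ₐ[ℂ] ℂ) : Lp X p y ≤ 4 * Geo_328.nsq p * ns X y := by
  have h1 : ∀ ab : Fin (N + 1) × Fin (N + 1), ‖ell X p ab y‖ ^ 2 ≤
      2 * (‖p ab.1‖ ^ 2 * ‖y (X.x ab.2)‖ ^ 2) + 2 * (‖p ab.2‖ ^ 2 * ‖y (X.x ab.1)‖ ^ 2) := by
    intro ab
    rw [ell_eq]
    have h2 := norm_sub_le (p ab.1 * y (X.x ab.2)) (p ab.2 * y (X.x ab.1))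
    rw [norm_mul, norm_mul] at h2
    have h3 := norm_nonneg (p ab.1 * y (X.x ab.2) - p ab.2 * y (X.x ab.1))
    nlinarith [sq_nonneg (‖p ab.1‖ * ‖y (X.x ab.2)‖ - ‖p ab.2‖ * ‖y (X.x ab.1)‖)]
  have h2 : Lp X p y ≤ ∑ ab : Fin (N + 1) × Fin (N + 1),
      (2 * (‖p ab.1‖ ^ 2 * ‖y (X.x ab.2)‖ ^ 2) + 2 * (‖p ab.2‖ ^ 2 * ‖y (X.x ab.1)‖ ^ 2)) :=
    Finset.sum_le_sum fun ab _ => h1 ab
  refine h2.trans (le_of_eq ?_)
  rw [Finset.sum_add_distrib, ← Finset.mul_sum, ← Finset.mul_sum]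
  have h3 : ∑ ab : Fin (N + 1) × Fin (N + 1), ‖p ab.1‖ ^ 2 * ‖y (X.x ab.2)‖ ^ 2 =
      Geo_328.nsq p * ns X y := by
    rw [Fintype.sum_prod_type]
    have h5 : ns X y = ∑ l, ‖y (X.x l)‖ ^ 2 := rfl
    rw [h5, Geo_328.nsq, Finset.sum_mul_sum]
  have h4 : ∑ ab : Fin (N + 1) × Fin (N + 1), ‖p ab.2‖ ^ 2 * ‖y (X.x ab.1)‖ ^ 2 =
      Geo_328.nsq p * ns X y := by
    rw [Fintype.sum_prod_type, Finset.sum_comm]
    have h5 : ns X y = ∑ l, ‖y (X.x l)‖ ^ 2 := rfl
    rw [h5, Geo_328.nsq, Finset.sum_mul_sum]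
  rw [h3, h4]; ring

/-- boundedness of `u` on the cone -/
theorem u_bdd (hX : IsSmoothProjective I n) {u : EE N → ℝ} {c : ℝ} (h : PosMet I n u c) :
    ∃ K : ℝ, ∀ p ∈ Cone I, |u p| ≤ K := by
  have hcl : IsClosed (affineCone I) := by
    have : affineCone I = ⋂ F ∈ I, {p | MvPolynomial.eval p F = 0} := by
      ext p; simp [affineCone]
    rw [this]
    exact isClosed_biInter fun F _ =>
      isClosed_eq (MvPolynomial.continuous_eval F) continuous_const
  have hK : IsCompact (affineCone I ∩ sphere (0 : EE N) 1) :=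
    (isCompact_sphere (0 : EE N) 1).inter_left hcl
  have hcont : ContinuousOn u (affineCone I ∩ sphere (0 : EE N) 1) := by
    intro p hp
    have hp0 : p ≠ 0 := by
      rintro rfl
      have := hp.2
      simp at this
    exact (h.sm p ⟨hp.1, hp0⟩).continuousAt.continuousWithinAt
  obtain ⟨K, hKb⟩ := hK.exists_bound_of_continuousOn hcont
  refine ⟨K, fun p hp => ?_⟩
  have hpn : 0 < ‖p‖ := norm_pos_iff.mpr hp.2
  have ha : ((‖p‖ : ℂ)⁻¹) ≠ 0 := inv_ne_zero (by exact_mod_cast hpn.ne')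
  rw [← h.hom p hp _ ha]
  apply hKb
  constructor
  · exact Geo_328.smul_mem_affineCone hX hp.1 _
  · rw [mem_sphere_zero_iff_norm, norm_smul, norm_inv, Complex.norm_real, norm_norm,
      inv_mul_cancel₀ hpn.ne']

/-- the weight `|dz|_g²` of the Fubini-Study metric on `K_X` -/
def wt (X : XC I n) (y : X.B →ₐ[ℂ] ℂ) : ℝ := ns X y ^ (n + 1) / gr X y

lemma wt_pos (y : X.B →ₐ[ℂ] ℂ) : 0 < wt X y := by
  have := ns_pos (X := X) y
  have := gr_pos (X := X) y
  unfold wt; positivity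

lemma continuous_ns : Continuous (ns X) := sm_ns.continuous

lemma continuous_gr : Continuous (gr X) := sm_gr.continuous

lemma continuous_wt : Continuous (wt X) :=
  (continuous_ns.pow _).div continuous_gr fun y => (gr_pos y).ne'

lemma wt_eq_exp (y : X.B →ₐ[ℂ] ℂ) : wt X y = Real.exp ((n + 1) * lns X y - Real.log (gr X y)) := by
  rw [Real.exp_sub, Real.exp_log (gr_pos y)]
  unfold wt lns
  congr 1
  have h1 : ((n : ℝ) + 1) * Real.log (ns X y) = ((n + 1 : ℕ) : ℝ) * Real.log (ns X y) := by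
    push_cast; ring
  rw [h1, Real.exp_nat_mul, Real.exp_log (ns_pos y)]

/-- the total smooth weight -/
def Phi (X : XC I n) (u : EE N → ℝ) (m : ℕ) (y : X.B →ₐ[ℂ] ℂ) : ℝ :=
  ((m : ℝ) - 1) * Psi X u y + (-(2 * ((n : ℝ) + 1))) * lns X y

lemma sm_Phi {u : EE N → ℝ} (hu : ∀ p ∈ Cone I, ContDiffAt ℝ ∞ u p) (m : ℕ) : Sm (Phi X u m) :=
  ((Sm.const _).mulR (sm_Psi hu)).add ((Sm.const _).mulR sm_lns)

lemma exp_Phi {u : EE N → ℝ} {m : ℕ} (hm : 1 ≤ m) (y : X.B →ₐ[ℂ] ℂ) :
    Real.exp (-Phi X u m y) =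
      wt X y ^ (m - 1) * ns X y ^ (2 * (n + 1)) * Real.exp (-(((m : ℝ) - 1) * u (pt X y))) := by
  rw [wt_eq_exp, ← Real.exp_nat_mul]
  have h1 : ns X y ^ (2 * (n + 1)) = Real.exp ((2 * ((n : ℝ) + 1)) * lns X y) := by
    have h2 : (2 * ((n : ℝ) + 1)) * lns X y = ((2 * (n + 1) : ℕ) : ℝ) * Real.log (ns X y) := by
      unfold lns; push_cast; ring
    rw [h2, Real.exp_nat_mul, Real.exp_log (ns_pos y)]
  rw [h1, ← Real.exp_add, ← Real.exp_add]
  congr 1
  have h3 : ((m - 1 : ℕ) : ℝ) = (m : ℝ) - 1 := by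
    rw [Nat.cast_sub hm, Nat.cast_one]
  rw [h3]
  unfold Phi Psi
  ring

lemma lev_Phi_ge {u : EE N → ℝ} {c : ℝ} (h : PosMet I n u c) {m : ℕ}
    (hm : 2 * ((n : ℝ) + 1) < ((m : ℝ) - 1) * c) (y : X.B →ₐ[ℂ] ℂ) (w : CC n) :
    ((((m : ℝ) - 1) * c - 2 * ((n : ℝ) + 1)) * (ns X y)⁻¹ ^ 2) * Ho51.nsq w ≤
      W792.lev (Phi X u m) y w := by
  unfold Phi
  rw [W792.lev_add ((Sm.const _).mulR (sm_Psi h.sm)) ((Sm.const _).mulR sm_lns),
    W792.lev_const_mul (sm_Psi h.sm), W792.lev_const_mul sm_lns]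
  have h1 := lev_Psi_ge h y w
  have h2 := lev_lns_ge y w
  have hm1 : 0 < (m : ℝ) - 1 := by
    by_contra hcon
    push Not at hcon
    have h3 : ((m : ℝ) - 1) * c ≤ 0 := mul_nonpos_of_nonpos_of_nonneg hcon h.c_pos.le
    have : (0 : ℝ) ≤ n := Nat.cast_nonneg n
    linarith
  have h4 := mul_le_mul_of_nonneg_left h1 hm1.le
  have h5 : 0 < ((m : ℝ) - 1) * c - 2 * ((n : ℝ) + 1) := by linarith
  have h6 := mul_le_mul_of_nonneg_left h2 h5.le
  nlinarith

lemma ofReal_rpow_anti {s t b : ℝ} (hst : s ≤ t) (hb : 0 ≤ b) :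
    (ENNReal.ofReal t) ^ (-b) ≤ (ENNReal.ofReal s) ^ (-b) := by
  rw [ENNReal.rpow_neg, ENNReal.rpow_neg]
  gcongr

lemma alg1 {A B s w e : ℝ} (k : ℕ) (hA : 0 < A) (hB : 0 < B) (hs : 0 < s) (he : 0 < e) :
    w = A ^ k * B ^ k * e⁻¹ * (((A * s) ^ k)⁻¹ * ((B * s) ^ k)⁻¹ * (w * s ^ (2 * k) * e)) := by
  have h1 : s ^ (2 * k) = s ^ k * s ^ k := by rw [two_mul, pow_add]
  rw [h1, mul_pow, mul_pow]
  have ha : 0 < A ^ k := by positivity
  have hb : 0 < B ^ k := by positivity
  have ht : 0 < s ^ k := by positivity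
  generalize A ^ k = a at *
  generalize B ^ k = b at *
  generalize s ^ k = t at *
  field_simp

lemma alg2 {l B s w e : ℝ} (k : ℕ) (hl : 0 < l) (hB : 0 < B) (hs : 0 < s) (he : 0 < e) :
    w * (s / l) ^ k = B ^ k * e⁻¹ * ((l ^ k)⁻¹ * ((B * s) ^ k)⁻¹ * (w * s ^ (2 * k) * e)) := by
  have h1 : s ^ (2 * k) = s ^ k * s ^ k := by rw [two_mul, pow_add]
  rw [h1, mul_pow, div_pow]
  have ha : 0 < l ^ k := by positivity
  have hb : 0 < B ^ k := by positivity
  have ht : 0 < s ^ k := by positivity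
  generalize l ^ k = a at *
  generalize B ^ k = b at *
  generalize s ^ k = t at *
  field_simp

/-- **(J)** holomorphic functions on `M` with a prescribed 1-jet at `y₀` and poles in the weight at `p` -/
theorem jets (hX : IsSmoothProjective I n) (hn : 1 ≤ n) {u : EE N → ℝ} {c : ℝ}
    (h : PosMet I n u c) {m : ℕ} (hm : 2 * ((n : ℝ) + 1) < ((m : ℝ) - 1) * c)
    (y0 : X.B →ₐ[ℂ] ℂ) (p : EE N) (hp : Lp X p y0 ≠ 0) (a0 : ℂ) (a : Fin n → ℂ) :
    ∃ F : (X.B →ₐ[ℂ] ℂ) → ℂ, Ho51.Hol F ∧ F y0 = a0 ∧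
      (∃ C : Chart X.z y0, ∀ w : CC n, fderiv ℂ (fun ζ => F (C.s ζ)) 0 w = ∑ k, a k * w k) ∧
      lintM X.z (fun y => ENNReal.ofReal (‖F y‖ ^ 2 * wt X y ^ (m - 1))) < ⊤ ∧
      lintM X.z (fun y => ENNReal.ofReal (‖F y‖ ^ 2 * wt X y ^ (m - 1) *
        (ns X y / Lp X p y) ^ (n + 1))) < ⊤ := by
  classical
  obtain ⟨μ, hμ⟩ := Ho51.exists_leb (M := X.B →ₐ[ℂ] ℂ)
  have hlf := hμ.locallyFinite
  obtain ⟨ρ, hρs, hρc, hρL⟩ := exists_rho X.toEC
  obtain ⟨Mu, hMu⟩ := u_bdd hX h
  have hn0 : (0 : ℝ) ≤ n := Nat.cast_nonneg n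
  have hm1 : 0 < (m : ℝ) - 1 := by
    by_contra hcon
    push Not at hcon
    have h3 : ((m : ℝ) - 1) * c ≤ 0 := mul_nonpos_of_nonpos_of_nonneg hcon h.c_pos.le
    linarith
  have hm1' : 1 ≤ m := by
    by_contra hcon
    have : m = 0 := by omega
    subst this
    norm_num at hm1
  set q0 : EE N := pt X y0 with hq0
  obtain ⟨C⟩ := X.hch y0
  set z0 : CC n := pr X.z y0 with hz0
  -- the radius
  have hev : ∀ᶠ ζ in 𝓝 (0 : CC n), Lp X p (C.s ζ) ≠ 0 := by
    have h1 : ∀ᶠ y in 𝓝 y0, Lp X p y ≠ 0 := (sm_Lp p).continuous.continuousAt.eventually_ne hp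
    exact (tendsto_s C).eventually h1
  obtain ⟨r0, hr0, hr0b⟩ := Metric.eventually_nhds_iff_ball.mp hev
  set r₂ : ℝ := min r0 C.r / 2 with hr₂
  have hr₂p : 0 < r₂ := by
    have := C.r_pos
    rw [hr₂]; positivity
  have hr₂0 : r₂ < r0 := by
    have := min_le_left r0 C.r
    rw [hr₂]; rw [hr₂] at hr₂p; linarith
  have hr₂C : r₂ < C.r := by
    have := min_le_right r0 C.r
    rw [hr₂]; rw [hr₂] at hr₂p; linarith
  have h12 : r₂ / 2 < r₂ := by linarith
  have hB : closedBall z0 r₂ ⊆ (eC C).target := closedBall_subset_ball hr₂C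
  obtain ⟨χ, hχs, hχ01, hχ1, hχsupp, hχD⟩ :=
    G792.exists_cutoff (eC_isCh C) z0 (half_pos hr₂p) h12 hB
  -- the polynomial
  set P : (X.B →ₐ[ℂ] ℂ) → ℂ := fun y => a0 + ∑ k, a k * (cp y k - z0 k) with hP
  have hPh : W792.Hol P := by
    refine Hol.add (Hol.const _) (Hol.sum _ fun k _ => ?_)
    exact Hol.mul (Hol.const _) (Hol.sub (G792.hol_coord k) (Hol.const _))
  set G : (X.B →ₐ[ℂ] ℂ) → ℂ := fun y => (χ y : ℂ) * P y with hG
  have hGs : Sm G := hχs.ofReal.mul hPh.sm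
  set K' : Set (CC n) := {z | r₂ / 2 ≤ ‖z - z0‖ ∧ ‖z - z0‖ ≤ r₂} with hK'
  have hK'c : IsCompact K' := by
    refine (isCompact_closedBall z0 r₂).of_isClosed_subset ?_ fun z hz => by
      rw [mem_closedBall, dist_eq_norm]; exact hz.2
    have hcont : Continuous fun z : CC n => ‖z - z0‖ := by fun_prop
    exact (isClosed_le continuous_const hcont).inter (isClosed_le hcont continuous_const)
  have hK't : K' ⊆ (eC C).target := fun z hz => hB (by rw [mem_closedBall, dist_eq_norm]; exact hz.2)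
  set Kc := (eC C).symm '' K' with hKc
  have hKcc : IsCompact Kc := isCompact_symm_image hK'c hK't
  have hD : ∀ x, x ∉ Kc → ∀ j, db j G x = 0 := by
    intro x hx j
    have h1 := db_mul hχs.ofReal hPh.sm j x
    have h2 : db j G x = db j (fun y => (χ y : ℂ)) x * P x + (χ x : ℂ) * db j P x := h1
    rw [h2, hχD x hx j, db_hol hPh]; ring
  -- the families
  set f : Bool → (Fin (N + 1) × Fin (N + 1)) → (X.B →ₐ[ℂ] ℂ) → ℂ :=
    fun b => if b then ell X p else ell X q0 with hf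
  have hfh : ∀ b ab, W792.Hol (f b ab) := by
    intro b ab
    cases b
    · exact hol_ell q0 ab
    · exact hol_ell p ab
  have hpos : ∀ x ∈ Kc, ∀ b, W792.nS (f b) x ≠ 0 := by
    rintro _ ⟨z, hz, rfl⟩ b
    have hzt := hK't hz
    cases b
    · -- the point `q0`
      intro h0
      have h1 : ∀ ab, ell X q0 ab ((eC C).symm z) = 0 := by
        intro ab
        have h2 : W792.nS (ell X q0) ((eC C).symm z) = 0 := h0
        have h3 : ‖ell X q0 ab ((eC C).symm z)‖ ^ 2 ≤ 0 := by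
          rw [← h2]
          exact Finset.single_le_sum (f := fun ab => ‖ell X q0 ab ((eC C).symm z)‖ ^ 2)
            (fun _ _ => by positivity) (Finset.mem_univ ab)
        have h4 : ‖ell X q0 ab ((eC C).symm z)‖ = 0 := by
          have := norm_nonneg (ell X q0 ab ((eC C).symm z))
          nlinarith
        exact norm_eq_zero.mp h4
      have h5 : z = z0 := by
        funext k
        have h6 := h1 (X.i, X.j k)
        rw [ell_eq] at h6
        have h7 : q0 X.i = 1 := pt_i y0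
        have h8 : ((eC C).symm z) (X.x X.i) = 1 := by rw [X.x_i, map_one]
        have h9 : ((eC C).symm z) (X.x (X.j k)) = z k := by
          have := congrFun ((eC_isCh C).cp_symm hzt) k
          rw [cp_apply, X.z_eq] at this
          exact this
        have h10 : q0 (X.j k) = z0 k := by
          change y0 (X.x (X.j k)) = y0 (X.z k)
          rw [X.z_eq]
        simp only at h6
        rw [h7, h8, h9, h10] at h6
        linear_combination h6
      have h6 := hz.1
      rw [h5, sub_self, norm_zero] at h6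
      linarith
    · -- the point `p`
      have h1 : z - z0 ∈ ball (0 : CC n) r0 := by
        rw [mem_ball_zero_iff]; exact lt_of_le_of_lt hz.2 hr₂0
      exact hr0b _ h1
  obtain ⟨F, hF, hFi⟩ := Amp2_243.solver μ hμ ρ hρs hρc hρL (Phi X u m) (sm_Phi h.sm m)
    (fun y => (((m : ℝ) - 1) * c - 2 * ((n : ℝ) + 1)) * (ns X y)⁻¹ ^ 2)
    (continuous_const.mul ((continuous_ns.inv₀ fun y => (ns_pos y).ne').pow 2))
    (fun y => by
      have := ns_pos (X := X) y
      have : 0 < ((m : ℝ) - 1) * c - 2 * ((n : ℝ) + 1) := by linarith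
      positivity)
    (fun y w => lev_Phi_ge h hm y w)
    f hfh (fun _ => (n : ℝ) + 1) (fun _ => by positivity) G hGs Kc hKcc hD hpos
  have hFc : Continuous F := cont_of_diff hF
  have hPc : Continuous P := hPh.sm.continuous
  have hGc : Continuous G := hGs.continuous
  set bb : ℝ := (n : ℝ) + 1 with hbb
  have hbb0 : 0 ≤ bb := by positivity
  set W : (X.B →ₐ[ℂ] ℂ) → ℝ≥0∞ := fun y => (ENNReal.ofReal (Lp X p y)) ^ (-bb) *
    (ENNReal.ofReal (Lp X q0 y)) ^ (-bb) * ENNReal.ofReal (Real.exp (-Phi X u m y)) with hW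
  have hWeq : ∀ y, G792.wF f (fun _ => bb) y * ENNReal.ofReal (Real.exp (-Phi X u m y)) = W y := by
    intro y
    simp only [hW, G792.wF, Fintype.prod_bool]
    rfl
  have hLc : ∀ q, Continuous (Lp X q) := fun q => (sm_Lp q).continuous
  have hWm : Measurable W := by
    refine Measurable.mul (Measurable.mul ?_ ?_) ?_
    · exact (ENNReal.measurable_ofReal.comp (hLc p).measurable).pow_const _
    · exact (ENNReal.measurable_ofReal.comp (hLc q0).measurable).pow_const _
    · exact ENNReal.measurable_ofReal.comp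
        (Real.continuous_exp.comp (sm_Phi h.sm m).continuous.neg).measurable
  set E : (X.B →ₐ[ℂ] ℂ) → ℝ≥0∞ := fun y => ENNReal.ofReal (‖F y - G y‖ ^ 2) * W y with hE
  have hEm : Measurable E :=
    (ENNReal.measurable_ofReal.comp ((hFc.sub hGc).norm.pow 2).measurable).mul hWm
  have hEi : ∫⁻ y, E y ∂μ < ⊤ := by
    have : (fun y => ENNReal.ofReal (‖F y - G y‖ ^ 2) * (G792.wF f (fun _ => bb) y *
        ENNReal.ofReal (Real.exp (-Phi X u m y)))) = E := by
      funext y; rw [hWeq]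
    rw [← this]
    exact hFi
  -- constants
  have hp0 : 0 < Geo_328.nsq p := by
    by_contra hcon
    push Not at hcon
    have h1 := Lp_le (X := X) p y0
    have h2 := Lp_nonneg (X := X) p y0
    have h3 := ns_pos (X := X) y0
    have h4 : 0 < Lp X p y0 := lt_of_le_of_ne h2 (Ne.symm hp)
    nlinarith
  have hq00 : 0 < Geo_328.nsq q0 := ns_pos (X := X) y0
  set cp' : ℝ := 4 * Geo_328.nsq p with hcp'
  set cq' : ℝ := 4 * Geo_328.nsq q0 with hcq'
  have hcp0 : 0 < cp' := by positivity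
  have hcq0 : 0 < cq' := by positivity
  have heL : ∀ y, wt X y ^ (m - 1) * ns X y ^ (2 * (n + 1)) * Real.exp (-(((m : ℝ) - 1) * Mu)) ≤
      Real.exp (-Phi X u m y) := by
    intro y
    rw [exp_Phi hm1']
    have h1 := hMu _ (pt_mem (X := X) y)
    have h2 := le_abs_self (u (pt X y))
    have := wt_pos (X := X) y
    have := ns_pos (X := X) y
    gcongr
    linarith
  refine ⟨F, hF, ?_⟩
  -- jets
  have hjet : (fun ζ : CC n => F (C.s ζ) - (a0 + ∑ k, a k * ζ k)) 0 = 0 ∧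
      fderiv ℂ (fun ζ : CC n => F (C.s ζ) - (a0 + ∑ k, a k * ζ k)) 0 = 0 := by
    have hFd : DifferentiableAt ℂ (fun ζ => F (C.s ζ)) 0 :=
      (anal_of_diff hF y0 C 0 (mem_ball_self C.r_pos)).differentiableAt
    have hHd : DifferentiableAt ℂ (fun ζ : CC n => F (C.s ζ) - (a0 + ∑ k, a k * ζ k)) 0 := by
      apply hFd.sub
      fun_prop
    -- bound of `Lp q0`
    have hO : ∃ C1 : ℝ, 0 < C1 ∧ ∀ᶠ ζ in 𝓝 (0 : CC n), Lp X q0 (C.s ζ) ≤ C1 * ‖ζ‖ ^ 2 := by
      have h1 : ∀ ab, ∃ c1 : ℝ, 0 ≤ c1 ∧ ∀ᶠ ζ in 𝓝 (0 : CC n),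
          ‖ell X q0 ab (C.s ζ)‖ ≤ c1 * ‖ζ‖ := by
        intro ab
        have h2 : DifferentiableAt ℂ (fun ζ => ell X q0 ab (C.s ζ)) 0 :=
          (C.anal (elt X q0 ab) 0 (mem_ball_self C.r_pos)).differentiableAt
        have h3 := h2.isBigO_sub
        have h4 : ell X q0 ab (C.s 0) = 0 := by
          rw [C.s_zero, ell_eq]
          change y0 (X.x ab.1) * y0 (X.x ab.2) - y0 (X.x ab.2) * y0 (X.x ab.1) = 0
          ring
        rw [h4] at h3
        simp only [sub_zero] at h3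
        obtain ⟨c1, hc1, hc1'⟩ := h3.exists_nonneg
        exact ⟨c1, hc1, hc1'.bound⟩
      choose c1 hc1 hc1' using h1
      refine ⟨(∑ ab, c1 ab ^ 2) + 1, by positivity, ?_⟩
      filter_upwards [Filter.eventually_all.mpr hc1'] with ζ hζ
      calc Lp X q0 (C.s ζ) = ∑ ab, ‖ell X q0 ab (C.s ζ)‖ ^ 2 := rfl
        _ ≤ ∑ ab, c1 ab ^ 2 * ‖ζ‖ ^ 2 := by
            refine Finset.sum_le_sum fun ab _ => ?_
            rw [← mul_pow]
            exact pow_le_pow_left₀ (norm_nonneg _) (hζ ab) 2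
        _ = (∑ ab, c1 ab ^ 2) * ‖ζ‖ ^ 2 := by rw [Finset.sum_mul]
        _ ≤ _ := by nlinarith [sq_nonneg ‖ζ‖]
    obtain ⟨C1, hC1, hC1'⟩ := hO
    have hO2 : ∀ᶠ ζ in 𝓝 (0 : CC n), Lp X p (C.s ζ) < Lp X p y0 + 1 :=
      (tendsto_s C).eventually ((hLc p).continuousAt.eventually (gt_mem_nhds (by linarith)))
    have hexpc : Continuous fun y : X.B →ₐ[ℂ] ℂ => Real.exp (-Phi X u m y) :=
      Real.continuous_exp.comp (sm_Phi h.sm m).continuous.neg
    have hO3 : ∀ᶠ ζ in 𝓝 (0 : CC n), Real.exp (-Phi X u m y0) / 2 < Real.exp (-Phi X u m (C.s ζ)) :=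
      (tendsto_s C).eventually (hexpc.continuousAt.eventually
        (lt_mem_nhds (by have := Real.exp_pos (-Phi X u m y0); linarith)))
    obtain ⟨r3, hr3, hr3b⟩ := Metric.eventually_nhds_iff_ball.mp (hC1'.and (hO2.and hO3))
    set r : ℝ := min r3 (r₂ / 2) with hr
    have hrp : 0 < r := by rw [hr]; positivity
    set C2 : ℝ := Lp X p y0 + 1 with hC2
    have hC2p : 0 < C2 := by
      have := Lp_nonneg (X := X) p y0
      linarith
    set C3 : ℝ := Real.exp (-Phi X u m y0) / 2 with hC3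
    have hC3p : 0 < C3 := by positivity
    set κ : ℝ≥0∞ := (ENNReal.ofReal C2) ^ (-bb) * (ENNReal.ofReal C1) ^ (-bb) *
      ENNReal.ofReal C3 with hκ
    have hκ0 : κ ≠ 0 := by
      rw [hκ]
      refine mul_ne_zero (mul_ne_zero (G792.rpow_neg_ne_zero _ hbb0)
        (G792.rpow_neg_ne_zero _ hbb0)) ?_
      rw [Ne, ENNReal.ofReal_eq_zero, not_le]; exact hC3p
    refine Amp4_243.jet_of_lint hn hHd bb le_rfl (ball_mem_nhds (0 : CC n) hrp) ?_
    intro htop
    have h1 : κ * ∫⁻ ζ in ball (0 : CC n) r, ENNReal.ofReal (‖F (C.s ζ) - (a0 + ∑ k, a k * ζ k)‖ ^ 2) *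
        (ENNReal.ofReal (‖ζ‖ ^ 2)) ^ (-bb) ≤ ∫⁻ y, E y ∂μ := by
      refine le_trans ?_ (lint_sheet_le hμ C hEm (r := r)
        ((min_le_right _ _).trans (by linarith)))
      refine le_trans (lintegral_const_mul_le _ _) ?_
      refine setLIntegral_mono' measurableSet_ball fun ζ hζ => ?_
      have hζ3 : ζ ∈ ball (0 : CC n) r3 := ball_subset_ball (min_le_left _ _) hζ
      have hζ2 : ζ ∈ ball (0 : CC n) (r₂ / 2) := ball_subset_ball (min_le_right _ _) hζ
      have hζC : ζ ∈ ball (0 : CC n) C.r := ball_subset_ball (by linarith) hζ2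
      obtain ⟨e1, e2, e3⟩ := hr3b ζ hζ3
      have hGζ : G (C.s ζ) = a0 + ∑ k, a k * ζ k := by
        have h2 : χ (C.s ζ) = 1 := by
          have := hχ1 (ζ + z0) (by rw [mem_ball, dist_eq_norm]; simpa using hζ2)
          change χ (C.s (ζ + z0 - z0)) = 1 at this
          rwa [add_sub_cancel_right] at this
        have h3 : ∀ k, cp (C.s ζ) k - z0 k = ζ k := by
          intro k
          have := congrFun (chart_pr C hζC) k
          rw [Amp1_243.cp_eq, this, Pi.add_apply, ← hz0]; ring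
        simp only [hG, hP, h2, h3, Complex.ofReal_one, one_mul]
      have hWζ : κ * (ENNReal.ofReal (‖ζ‖ ^ 2)) ^ (-bb) ≤ W (C.s ζ) := by
        have h4 : (ENNReal.ofReal (C1 * ‖ζ‖ ^ 2)) ^ (-bb) =
            (ENNReal.ofReal C1) ^ (-bb) * (ENNReal.ofReal (‖ζ‖ ^ 2)) ^ (-bb) := by
          rw [ENNReal.ofReal_mul hC1.le,
            ENNReal.mul_rpow_of_ne_top ENNReal.ofReal_ne_top ENNReal.ofReal_ne_top]
        calc κ * (ENNReal.ofReal (‖ζ‖ ^ 2)) ^ (-bb)
            = (ENNReal.ofReal C2) ^ (-bb) * (ENNReal.ofReal (C1 * ‖ζ‖ ^ 2)) ^ (-bb) *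
              ENNReal.ofReal C3 := by rw [h4, hκ]; ring
          _ ≤ _ := by
            simp only [hW]
            exact mul_le_mul' (mul_le_mul' (ofReal_rpow_anti e2.le hbb0)
              (ofReal_rpow_anti e1 hbb0)) (ENNReal.ofReal_le_ofReal e3.le)
      calc κ * (ENNReal.ofReal (‖F (C.s ζ) - (a0 + ∑ k, a k * ζ k)‖ ^ 2) *
            (ENNReal.ofReal (‖ζ‖ ^ 2)) ^ (-bb))
          = ENNReal.ofReal (‖F (C.s ζ) - G (C.s ζ)‖ ^ 2) *
            (κ * (ENNReal.ofReal (‖ζ‖ ^ 2)) ^ (-bb)) := by rw [hGζ]; ring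
        _ ≤ E (C.s ζ) := by simp only [hE]; gcongr
    rw [htop, ENNReal.mul_top hκ0, top_le_iff] at h1
    exact hEi.ne h1
  -- integrals
  have key : ∀ (T : (X.B →ₐ[ℂ] ℂ) → ℝ) (K : ℝ≥0∞), Measurable T → (∀ y, 0 ≤ T y) → K ≠ ⊤ →
      (∀ y, ENNReal.ofReal (T y) ≤ K * W y) →
      ContinuousOn T ((eC C).symm '' closedBall z0 r₂) →
      lintM X.z (fun y => ENNReal.ofReal (‖F y‖ ^ 2 * T y)) < ⊤ := by
    intro T K hTm hT0 hK hTW hTc
    have hS : IsCompact ((eC C).symm '' closedBall z0 r₂) :=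
      isCompact_symm_image (isCompact_closedBall z0 r₂) hB
    set S := (eC C).symm '' closedBall z0 r₂ with hSdef
    have hGS : ∀ y, y ∉ S → G y = 0 := by
      intro y hy
      have : χ y = 0 := by
        by_contra hne
        obtain ⟨h1, h2⟩ := hχsupp y hne
        exact hy ⟨cp y, ball_subset_closedBall h2, (eC_isCh C).symm_cp h1⟩
      simp only [hG, this, Complex.ofReal_zero, zero_mul]
    obtain ⟨K3, hK3⟩ := hS.exists_bound_of_continuousOn
      (f := fun y => ‖G y‖ ^ 2 * T y) ((hGc.norm.pow 2).continuousOn.mul hTc)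
    have hmeasT : Measurable fun y => ENNReal.ofReal (‖F y‖ ^ 2 * T y) :=
      ENNReal.measurable_ofReal.comp ((hFc.norm.pow 2).measurable.mul hTm)
    rw [Amp1_243.lintM_eq hμ hmeasT]
    have hpt : ∀ y, ENNReal.ofReal (‖F y‖ ^ 2 * T y) ≤
        2 * K * E y + 2 * S.indicator (fun _ => ENNReal.ofReal K3) y := by
      intro y
      have h3 : ‖F y‖ ^ 2 ≤ 2 * ‖F y - G y‖ ^ 2 + 2 * ‖G y‖ ^ 2 := by
        have h4 : ‖F y‖ ≤ ‖F y - G y‖ + ‖G y‖ := by
          have := norm_add_le (F y - G y) (G y)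
          rwa [sub_add_cancel] at this
        nlinarith [sq_nonneg (‖F y - G y‖ - ‖G y‖), norm_nonneg (F y), norm_nonneg (F y - G y),
          norm_nonneg (G y)]
      calc ENNReal.ofReal (‖F y‖ ^ 2 * T y)
          ≤ ENNReal.ofReal (2 * ‖F y - G y‖ ^ 2 * T y + 2 * (‖G y‖ ^ 2 * T y)) := by
            apply ENNReal.ofReal_le_ofReal
            have := hT0 y
            nlinarith
        _ = 2 * (ENNReal.ofReal (‖F y - G y‖ ^ 2) * ENNReal.ofReal (T y)) +
            2 * ENNReal.ofReal (‖G y‖ ^ 2 * T y) := by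
            have := hT0 y
            rw [ENNReal.ofReal_add (by positivity) (by positivity), mul_assoc,
              ENNReal.ofReal_mul (by norm_num), ENNReal.ofReal_mul (by positivity),
              ENNReal.ofReal_mul (p := 2) (by norm_num)]
            simp only [ENNReal.ofReal_ofNat]
        _ ≤ 2 * (ENNReal.ofReal (‖F y - G y‖ ^ 2) * (K * W y)) +
            2 * S.indicator (fun _ => ENNReal.ofReal K3) y := by
            gcongr
            · exact hTW y
            · by_cases hy : y ∈ S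
              · rw [indicator_of_mem hy]
                apply ENNReal.ofReal_le_ofReal
                exact (le_abs_self _).trans (hK3 y hy)
              · rw [indicator_of_notMem hy, hGS y hy]
                simp
        _ = _ := by simp only [hE]; ring
    calc ∫⁻ y, ENNReal.ofReal (‖F y‖ ^ 2 * T y) ∂μ
        ≤ ∫⁻ y, (2 * K * E y + 2 * S.indicator (fun _ => ENNReal.ofReal K3) y) ∂μ :=
          lintegral_mono hpt
      _ = 2 * K * ∫⁻ y, E y ∂μ + 2 * (ENNReal.ofReal K3 * μ S) := by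
          rw [lintegral_add_left (hEm.const_mul _), lintegral_const_mul _ hEm,
            lintegral_const_mul' _ _ (by norm_num),
            lintegral_indicator_const hS.measurableSet]
      _ < ⊤ := by
          refine ENNReal.add_lt_top.mpr ⟨?_, ?_⟩
          · exact ENNReal.mul_lt_top (ENNReal.mul_lt_top (by norm_num) hK.lt_top) hEi
          · exact ENNReal.mul_lt_top (by norm_num)
              (ENNReal.mul_lt_top ENNReal.ofReal_lt_top hS.measure_lt_top)
  have hnat : ∀ s : ℝ, 0 < s → (ENNReal.ofReal s) ^ (-bb) = ENNReal.ofReal ((s ^ (n + 1))⁻¹) := by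
    intro s hs
    rw [ENNReal.ofReal_rpow_of_pos hs, Real.rpow_neg hs.le]
    congr 2
    have : bb = ((n + 1 : ℕ) : ℝ) := by rw [hbb]; push_cast; ring
    rw [this, Real.rpow_natCast]
  set e0 : ℝ := Real.exp (-(((m : ℝ) - 1) * Mu)) with he0
  have he0p : 0 < e0 := Real.exp_pos _
  refine ⟨?_, ⟨C, ?_⟩, ?_, ?_⟩
  · have := hjet.1
    simp only [C.s_zero] at this
    simpa [sub_eq_zero] using this
  · intro w
    have hFd : DifferentiableAt ℂ (fun ζ => F (C.s ζ)) 0 :=
      (anal_of_diff hF y0 C 0 (mem_ball_self C.r_pos)).differentiableAt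
    have hLd : HasFDerivAt (fun ζ : CC n => a0 + ∑ k, a k * ζ k)
        (∑ k, a k • (ContinuousLinearMap.proj (R := ℂ) (φ := fun _ : Fin n => ℂ) k)) 0 := by
      have h1 : ∀ k ∈ Finset.univ, HasFDerivAt (fun ζ : CC n => a k * ζ k)
          (a k • (ContinuousLinearMap.proj (R := ℂ) (φ := fun _ : Fin n => ℂ) k)) 0 := by
        intro k _
        exact ((ContinuousLinearMap.proj (R := ℂ) (φ := fun _ : Fin n => ℂ) k).hasFDerivAt).const_mul
          (a k)
      exact (HasFDerivAt.fun_sum h1).const_add a0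
    have h2 := hjet.2
    rw [fderiv_fun_sub hFd hLd.differentiableAt, hLd.fderiv, sub_eq_zero] at h2
    rw [h2]
    simp
  · have := key (fun y => wt X y ^ (m - 1))
      (ENNReal.ofReal (cp' ^ (n + 1) * cq' ^ (n + 1) * e0⁻¹)) (continuous_wt.pow _).measurable
      (fun y => by have := wt_pos (X := X) y; positivity) ENNReal.ofReal_ne_top ?_
      (continuous_wt.pow _).continuousOn
    · exact this
    intro y
    have hns := ns_pos (X := X) y
    have hwt := wt_pos (X := X) y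
    calc ENNReal.ofReal (wt X y ^ (m - 1))
        = ENNReal.ofReal (cp' ^ (n + 1) * cq' ^ (n + 1) * e0⁻¹) *
          (ENNReal.ofReal (((cp' * ns X y) ^ (n + 1))⁻¹) *
            ENNReal.ofReal (((cq' * ns X y) ^ (n + 1))⁻¹) *
            ENNReal.ofReal (wt X y ^ (m - 1) * ns X y ^ (2 * (n + 1)) * e0)) := by
          rw [← ENNReal.ofReal_mul (by positivity), ← ENNReal.ofReal_mul (by positivity),
            ← ENNReal.ofReal_mul (by positivity)]
          rw [← alg1 (n + 1) hcp0 hcq0 hns he0p]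
      _ ≤ _ := by
          rw [← hnat _ (by positivity), ← hnat _ (by positivity)]
          simp only [hW]
          exact mul_le_mul' le_rfl (mul_le_mul' (mul_le_mul'
            (ofReal_rpow_anti (Lp_le p y) hbb0) (ofReal_rpow_anti (Lp_le q0 y) hbb0))
            (ENNReal.ofReal_le_ofReal (heL y)))
  · have := key (fun y => wt X y ^ (m - 1) * (ns X y / Lp X p y) ^ (n + 1))
      (ENNReal.ofReal (cq' ^ (n + 1) * e0⁻¹))
      ((continuous_wt.pow _).measurable.mul
        ((continuous_ns.measurable.div (hLc p).measurable).pow_const _))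
      (fun y => by
        have := wt_pos (X := X) y
        have := ns_pos (X := X) y
        have := Lp_nonneg (X := X) p y
        positivity) ENNReal.ofReal_ne_top ?_ ?_
    · simpa only [mul_assoc] using this
    · intro y
      have hns := ns_pos (X := X) y
      have hwt := wt_pos (X := X) y
      rcases (Lp_nonneg (X := X) p y).eq_or_lt with h0 | h0
      · rw [← h0, div_zero, zero_pow (by omega), mul_zero, ENNReal.ofReal_zero]
        exact zero_le
      calc ENNReal.ofReal (wt X y ^ (m - 1) * (ns X y / Lp X p y) ^ (n + 1))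
          = ENNReal.ofReal (cq' ^ (n + 1) * e0⁻¹) *
            (ENNReal.ofReal (((Lp X p y) ^ (n + 1))⁻¹) *
              ENNReal.ofReal (((cq' * ns X y) ^ (n + 1))⁻¹) *
              ENNReal.ofReal (wt X y ^ (m - 1) * ns X y ^ (2 * (n + 1)) * e0)) := by
            rw [← ENNReal.ofReal_mul (by positivity), ← ENNReal.ofReal_mul (by positivity),
              ← ENNReal.ofReal_mul (by positivity)]
            rw [← alg2 (n + 1) h0 hcq0 hns he0p]
        _ ≤ _ := by
            rw [← hnat _ h0, ← hnat _ (by positivity)]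
            simp only [hW]
            exact mul_le_mul' le_rfl (mul_le_mul' (mul_le_mul' le_rfl
              (ofReal_rpow_anti (Lp_le q0 y) hbb0)) (ENNReal.ofReal_le_ofReal (heL y)))
    · refine (continuous_wt.pow _).continuousOn.mul ((continuous_ns.continuousOn.div
        (hLc p).continuousOn ?_).pow _)
      rintro _ ⟨z, hz, rfl⟩
      apply hr0b
      rw [mem_ball_zero_iff]
      rw [mem_closedBall, dist_eq_norm] at hz
      exact lt_of_le_of_lt hz hr₂0

end Crest.Agent.R269.Amp5_243
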