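import Crest.Agent.R269.Geo1_632
import Crest.Agent.R269.GeoDefs_328

/-!
# R269, leaf GEO-0: the local chart theorem `ChartStmt` of `GeoDefs_328` (from `Geo1_632.exists_chart`)
-/

set_option autoImplicit false
set_option linter.unusedSectionVars false

open MvPolynomial Crest.AlgGeometry.ProjEmb Set Filter Topology
open scoped ContDiff Matrix

namespace Crest.Agent.R269.Chart_632

open Geo0_632 Geo1_632 Geo_328

noncomputable section

variable {N n : ℕ} {I : Ideal (HomCoordRing N)}

theorem dP_eq_dF (F : HomCoordRing N) (p v : EE N) : dP F p v = dF F p v := by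
  rw [dF_apply, dP]
  exact Finset.sum_congr rfl fun j _ => mul_comm _ _

theorem Tan_eq_T (p : EE N) : Tan I p = T I p := by
  ext v
  simp only [mem_Tan, mem_T, dP_eq_dF]

theorem coneChart (hI : I.IsPrime) (hX : IsSmoothProjective I n) {p₀ : EE N} (hp : p₀ ∈ Cone I) :
    Nonempty (ConeChart I n p₀) := by
  obtain ⟨c, hc⟩ := exists_chart hI hX hp.1 hp.2
  set z0 : CC n := fun k => p₀ (c.J k) / p₀ c.i with hz0
  have hz0U : z0 ∈ c.U := c.W_U p₀ hc hp.1
  obtain ⟨R, hR, hball⟩ := Metric.isOpen_iff.1 c.U_open z0 hz0U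
  have hmem : ∀ z ∈ Metric.ball (0 : CC n) R, z0 + z ∈ c.U := by
    intro z hz
    apply hball
    rw [Metric.mem_ball, dist_eq_norm, add_sub_cancel_left]
    simpa using hz
  let σ : CC n → EE N := fun z => c.σ (z0 + z)
  have hratio : ContinuousOn (ratio c.i c.J p₀) c.W := by
    rw [continuousOn_pi]
    intro k
    have h1 : ContinuousOn (fun q : EE N => q (c.J k) / q c.i) c.W :=
      ContinuousOn.div (f := fun q : EE N => q (c.J k)) (g := fun q : EE N => q c.i)
        (continuous_apply _).continuousOn (continuous_apply _).continuousOn fun q hq => c.W_ne q hq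
    exact h1.sub continuousOn_const
  have hratio_smul : ∀ a : ℂ, a ≠ 0 → ∀ q : EE N, ratio c.i c.J p₀ (a • q) = ratio c.i c.J p₀ q := by
    intro a ha q
    funext k
    simp only [ratio, Pi.smul_apply, smul_eq_mul]
    rw [mul_div_mul_left _ _ ha]
  have hratioσ : ∀ z ∈ Metric.ball (0 : CC n) R, ratio c.i c.J p₀ (σ z) = z := by
    intro z hz
    funext k
    change c.σ (z0 + z) (c.J k) / c.σ (z0 + z) c.i - p₀ (c.J k) / p₀ c.i = z k
    rw [c.σ_i _ (hmem z hz), c.σ_J _ (hmem z hz)]
    simp [hz0]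
  have hσd : ∀ z ∈ Metric.ball (0 : CC n) R, ContDiffAt ℂ ω σ z := by
    intro z hz
    exact (c.σ_an _ (hmem z hz)).comp z (contDiffAt_const.add contDiffAt_id)
  have hfd : ∀ z ∈ Metric.ball (0 : CC n) R, fderiv ℂ σ z = fderiv ℂ c.σ (z0 + z) := by
    intro z hz
    have h1 : DifferentiableAt ℂ c.σ (z0 + z) := (c.σ_an _ (hmem z hz)).differentiableAt (by simp)
    have h2 : HasFDerivAt σ ((fderiv ℂ c.σ (z0 + z)).comp (ContinuousLinearMap.id ℂ (CC n))) z :=
      HasFDerivAt.comp z h1.hasFDerivAt ((hasFDerivAt_id z).const_add z0)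
    rw [h2.fderiv, ContinuousLinearMap.comp_id]
  refine ⟨{ i := c.i, J := c.J, J_inj := c.J_inj, J_ne := c.J_ne, p₀_ne := c.W_ne _ hc, R := R,
            R_pos := hR, σ := σ, W := c.W ∩ ratio c.i c.J p₀ ⁻¹' Metric.ball 0 R,
            W_open := hratio.isOpen_inter_preimage c.W_open Metric.isOpen_ball,
            W_smul := ?_, W_ne := fun q hq => c.W_ne q hq.1, mem_W := ?_,
            an := fun z hz => (hσd z hz).analyticAt, σ_cone := ?_, σ_W := ?_, σ_zero := ?_,
            σ_i := fun z hz => c.σ_i _ (hmem z hz),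
            σ_J := fun z hz k => c.σ_J _ (hmem z hz) k, surj := ?_, tan := ?_ }⟩
  · intro a ha q hq
    refine ⟨c.W_smul q hq.1 a ha, ?_⟩
    rw [mem_preimage, hratio_smul a ha]; exact hq.2
  · refine ⟨hc, ?_⟩
    have : ratio c.i c.J p₀ p₀ = 0 := by
      funext k; simp [ratio]
    rw [mem_preimage, this]; exact Metric.mem_ball_self hR
  · intro z hz
    refine ⟨c.σ_cone _ (hmem z hz), fun h => ?_⟩
    have h1 := c.σ_i _ (hmem z hz)
    have h2 : c.σ (z0 + z) = 0 := h
    rw [h2] at h1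
    simp at h1
  · intro z hz
    refine ⟨c.σ_mem _ (hmem z hz), ?_⟩
    rw [mem_preimage, hratioσ z hz]; exact hz
  · have h1 := c.W_eq p₀ hc hp.1
    have h2 : p₀ c.i ≠ 0 := c.W_ne _ hc
    change c.σ (z0 + 0) = _
    rw [add_zero]
    have h3 : (p₀ c.i)⁻¹ • p₀ = (p₀ c.i)⁻¹ • (p₀ c.i • c.σ z0) := by rw [hz0, ← h1]
    rw [h3, inv_smul_smul₀ h2]
  · intro q hq hqW
    refine ⟨hqW.2, ?_⟩
    have h1 := c.W_eq q hqW.1 hq.1
    have h2 : z0 + ratio c.i c.J p₀ q = fun k => q (c.J k) / q c.i := by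
      funext k; simp [ratio, hz0]
    change q = q c.i • c.σ (z0 + ratio c.i c.J p₀ q)
    rw [h2]; exact h1
  · intro z hz v
    rw [Tan_eq_T]
    constructor
    · intro hv
      have h1 := c.tangent _ (hmem z hz) v hv
      refine ⟨v c.i, fun k => v (c.J k) - v c.i * (z0 + z) k, ?_⟩
      rw [hfd z hz]; exact h1
    · rintro ⟨a, x, rfl⟩
      have hcone := c.σ_cone _ (hmem z hz)
      refine Submodule.add_mem _ (Submodule.smul_mem _ _ (self_mem_T hX hcone)) ?_
      intro G hG
      have hd : DifferentiableAt ℂ σ z := (hσd z hz).differentiableAt (by simp)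
      have h1 : HasFDerivAt (fun y => eval (σ y) G) ((dF G (σ z)).comp (fderiv ℂ σ z)) z :=
        (hasFDerivAt_eval G (σ z)).comp z hd.hasFDerivAt
      have h2 : HasFDerivAt (fun y => eval (σ y) G) (0 : (Fin n → ℂ) →L[ℂ] ℂ) z := by
        refine (hasFDerivAt_const (0 : ℂ) z).congr_of_eventuallyEq ?_
        filter_upwards [Metric.isOpen_ball.mem_nhds hz] with y hy
        exact c.σ_cone _ (hmem y hy) G hG
      have := congrArg (fun L : (Fin n → ℂ) →L[ℂ] ℂ => L x) (h1.unique h2)
      simpa using this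

/-- the statement of `GeoDefs_328` -/
theorem chartStmt : ChartStmt := fun _ _ _ hI hX _ hp => coneChart hI hX hp

end

end Crest.Agent.R269.Chart_632
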