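import Crest.Agent.R269.PAsm3_976
import Crest.Agent.R269.PosC_632

/-!
# Row 269 (S0411), Part 13, step 6: `PosP` gives a positively curved metric in the form `PosMet` (helper243)
-/

set_option autoImplicit false

noncomputable section

open Set Filter Topology Complex MeasureTheory Metric
open scoped ENNReal ComplexConjugate ContDiff

namespace Crest.Agent.R269.Amp6_243

open Crest.AlgGeometry.ProjEmb
open Crest.Agent.R271 Crest.Agent.R271.Defs710 Crest.Agent.R271.Rd692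
open Crest.Agent.R271.Ho51 hiding EE nsq
open Crest.Agent.R269.Amp1_243 Crest.Agent.R269.Geo_328 Crest.Agent.R269.Amp3_243
open Crest.Agent.R269.Defs_58

variable {N n : ℕ} {I : Ideal (HomCoordRing N)}

lemma nsq_pos' {p : EE N} (hp : p ≠ 0) : 0 < Geo_328.nsq p := Alp_927.nsq_pos hp

/-- the Gram determinant of the rows `σ, ∂σ` is smooth where `σ` is analytic -/
lemma contDiffAt_gdet_frs {σ : CC n → EE N} {z0 : CC n} (hσ : AnalyticAt ℂ σ z0) :
    ContDiffAt ℝ 2 (fun z => gdet (frs σ z)) z0 := by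
  have hrow : ∀ (a : Fin (n + 1)) (l : Fin (N + 1)), ContDiffAt ℝ 2 (fun z => frs σ z a l) z0 := by
    intro a l
    refine Fin.cases ?_ (fun k => ?_) a
    · change ContDiffAt ℝ 2 (fun z => σ z l) z0
      exact (contDiffAt_pi.mp ((hσ.contDiffAt (n := 2)).restrict_scalars ℝ)) l
    · change ContDiffAt ℝ 2 (fun z => fderiv ℂ σ z (Pi.single k 1) l) z0
      have h1 : AnalyticAt ℂ (fun ζ => fderiv ℂ σ ζ (Pi.single k 1)) z0 :=
        ((ContinuousLinearMap.apply ℂ (EE N) (Pi.single k (1 : ℂ) : CC n)).analyticAt _).comp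
          hσ.fderiv
      exact (contDiffAt_pi.mp ((h1.contDiffAt (n := 2)).restrict_scalars ℝ)) l
  have hconj : ∀ {g : CC n → ℂ}, ContDiffAt ℝ 2 g z0 →
      ContDiffAt ℝ 2 (fun z => star (g z)) z0 := by
    intro g hg
    exact (Complex.conjCLE.toContinuousLinearMap.contDiff.contDiffAt).comp z0 hg
  have h1 : ContDiffAt ℝ 2 (fun z => (frs σ z * (frs σ z).conjTranspose).det) z0 := by
    simp only [Matrix.det_apply']
    refine ContDiffAt.sum fun π _ => ?_
    refine contDiffAt_const.mul (contDiffAt_prod fun a _ => ?_)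
    simp only [Matrix.mul_apply, Matrix.conjTranspose_apply]
    exact ContDiffAt.sum fun l _ => (hrow _ l).mul (hconj (hrow _ l))
  exact (Complex.reCLM.contDiff.contDiffAt).comp z0 h1

/-- **`PosMet` from the pointwise inequality on the cone** -/
theorem posMet_of_cone (hI : I.IsPrime) (hX : IsSmoothProjective I n) {φ : EE N → ℝ}
    (hφ : SmX I φ) {c : ℝ} (hc : 0 < c)
    (h : ∀ p ∈ Cone I, ∀ v ∈ Tan I p,
      c * omg p v ≤ alpha I n p v + Defs_58.lev φ p v) : PosMet I n φ c where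
  sm := hφ.1
  hom p hp a ha := hφ.2 p hp a ha
  c_pos := hc
  pos := by
    intro z0 σ hσ hcone hind w
    have hp0 : σ z0 ∈ Cone I := hcone.self_of_nhds
    have hdiff : ∀ᶠ ζ in 𝓝 z0, DifferentiableAt ℂ σ ζ :=
      hσ.eventually_analyticAt.mono fun ζ hζ => hζ.differentiableAt
    have hcone2 : ∀ᶠ ζ in 𝓝 z0, ∀ᶠ ζ' in 𝓝 ζ, σ ζ' ∈ Cone I := hcone.eventually_nhds
    have hbA : ∀ k : Fin n, AnalyticAt ℂ (fun ζ => fderiv ℂ σ ζ (Pi.single k 1)) z0 := by
      intro k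
      exact ((ContinuousLinearMap.apply ℂ (EE N) (Pi.single k (1 : ℂ) : CC n)).analyticAt _).comp
        hσ.fderiv
    have htan : ∀ᶠ ζ in 𝓝 z0, TanFam I (σ ζ) (fun k => fderiv ℂ σ ζ (Pi.single k 1)) := by
      filter_upwards [hdiff, hcone2] with ζ h1 h2 k
      exact PAsm3_976.tan_of_curve h1 h2 _
    have hDDe : ∀ ζ, DD (σ ζ) (fun k => fderiv ℂ σ ζ (Pi.single k 1)) =
        gdet (frs σ ζ) / Geo_328.nsq (σ ζ) ^ (n + 1) := by
      intro ζ
      unfold DD
      rw [PAsm3_976.wedgeSq_eq]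
      rfl
    have hg0 : 0 < gdet (frs σ z0) := gdet_pos hind
    have hpos : 0 < DD (σ z0) (fun k => fderiv ℂ σ z0 (Pi.single k 1)) := by
      rw [hDDe]
      exact div_pos hg0 (pow_pos (nsq_pos' hp0.2) _)
    have hAl := Alp_927.alphaFamStmt N n I hI hX n σ (fun k ζ => fderiv ℂ σ ζ (Pi.single k 1)) z0 w
      ⟨hσ, hcone⟩ hbA htan hpos
    rw [PAsm3_976.lev58_eq] at hAl
    -- smoothness
    have hpσ : ContDiffAt ℝ 2 σ z0 := (hσ.contDiffAt (n := 2)).restrict_scalars ℝ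
    have hφ2 : ContDiffAt ℝ 2 φ (σ z0) := (hφ.1 _ hp0).of_le (by norm_cast)
    have hl2 : ContDiffAt ℝ 2 (fun p : EE N => Real.log (∑ i, ‖p i‖ ^ 2)) (σ z0) :=
      PAsm3_976.contDiffAt_lognsq hp0.2
    have hc1 : ContDiffAt ℝ 2 (fun ζ => φ (σ ζ)) z0 := hφ2.comp _ hpσ
    have hc2 : ContDiffAt ℝ 2 (fun ζ => Real.log (∑ i, ‖σ ζ i‖ ^ 2)) z0 :=
      ContDiffAt.comp (g := fun p : EE N => Real.log (∑ i, ‖p i‖ ^ 2)) z0 hl2 hpσ
    have hG := contDiffAt_gdet_frs hσ
    have hlG : ContDiffAt ℝ 2 (fun z => Real.log (gdet (frs σ z))) z0 := hG.log hg0.ne'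
    have hall : ContDiffAt ℝ 2 (fun z => Real.log (gdet (frs σ z)) -
        (n + 1) * Real.log (Geo_328.nsq (σ z)) + φ (σ z)) z0 :=
      (hlG.sub (contDiffAt_const.mul hc2)).add hc1
    have hev : (fun z => Real.log (gdet (frs σ z)) -
        (n + 1) * Real.log (Geo_328.nsq (σ z)) + φ (σ z)) =ᶠ[𝓝 z0] fun ζ =>
        Real.log (DD (σ ζ) (fun k => fderiv ℂ σ ζ (Pi.single k 1))) + φ (σ ζ) := by
      filter_upwards [hcone, hG.continuousAt.eventually_ne hg0.ne'] with ζ h1 h2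
      rw [hDDe, Real.log_div h2 (pow_pos (nsq_pos' h1.2) _).ne', Real.log_pow]
      push_cast
      ring
    have hDD : ContDiffAt ℝ 2 (fun ζ =>
        Real.log (DD (σ ζ) (fun k => fderiv ℂ σ ζ (Pi.single k 1)))) z0 := by
      refine (hall.sub hc1).congr_of_eventuallyEq ?_
      filter_upwards [hev] with ζ hζ
      rw [hζ]
      ring
    have hR : levE (fun z => Real.log (gdet (frs σ z)) -
        (n + 1) * Real.log (Geo_328.nsq (σ z)) + φ (σ z)) z0 w =
        alpha I n (σ z0) (fderiv ℂ σ z0 w) + Defs_58.lev φ (σ z0) (fderiv ℂ σ z0 w) := by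
      rw [PAsm3_976.levE_eq hall, LevC_653.lev_congr hev, LevC_653.lev_add hDD hc1, hAl,
        Lev_901.lev_comp_hol hφ2 hσ, PAsm3_976.lev58_eq]
    have hL : levE (fun z => Real.log (Geo_328.nsq (σ z))) z0 w =
        omg (σ z0) (fderiv ℂ σ z0 w) := by
      have h1 : levE (fun z => Real.log (Geo_328.nsq (σ z))) z0 w =
          levE (fun ζ => Real.log (∑ i, ‖σ ζ i‖ ^ 2)) z0 w := rfl
      rw [h1, PAsm3_976.levE_eq hc2,
        Lev_901.lev_comp_hol (u := fun p : EE N => Real.log (∑ i, ‖p i‖ ^ 2)) hl2 hσ,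
        Lev_901.lev_log_sum_nsq hp0.2]
      rfl
    rw [hR, hL]
    exact h _ hp0 _ (PAsm3_976.tan_of_curve hdiff.self_of_nhds hcone w)

/-- **`PosP` gives `PosMet`** -/
theorem posMet_of (hI : I.IsPrime) (hX : IsSmoothProjective I n) (hP : PosP I n) :
    ∃ (u : EE N → ℝ) (c : ℝ), PosMet I n u c := by
  obtain ⟨φ, hφ, c, hc, h⟩ := PosC_632.posC hI hX hP
  exact ⟨φ, c, posMet_of_cone hI hX hφ hc h⟩

end Crest.Agent.R269.Amp6_243
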