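import Mathlib
import Crest.Prelude.Def_ProjPluricanonical

/-!
Row 269, DICT, part A: the local ring of the Prelude as a subalgebra, evaluation homomorphisms.
-/

set_option autoImplicit false
set_option linter.unusedSectionVars false

open MvPolynomial Crest.AlgGeometry.ProjEmb

noncomputable section

namespace Crest.Agent.R269.DictA_795

variable {N : ℕ} {I : Ideal (HomCoordRing N)} [I.IsPrime]

/-! ### The function field inside the fraction field of the cone -/

/-- inclusion of the function field in the fraction field of the cone -/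
def toConeHom (I : Ideal (HomCoordRing N)) [I.IsPrime] : FnField I →ₐ[ℂ] ConeFracField I :=
  (fnSubfield I).val

theorem toCone_eq (u : FnField I) : u.toCone = toConeHom I u := rfl

theorem toConeHom_injective : Function.Injective (toConeHom I) := (toConeHom I).toRingHom.injective

/-- the image of polynomials, as an algebra hom -/
def coneHom (I : Ideal (HomCoordRing N)) [I.IsPrime] : HomCoordRing N →ₐ[ℂ] ConeFracField I :=
  (IsScalarTower.toAlgHom ℂ (HomCoordRing N ⧸ I) (ConeFracField I)).comp (Ideal.Quotient.mkₐ ℂ I)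

theorem coneElt_eq (G : HomCoordRing N) : coneElt I G = coneHom I G := rfl

theorem coneHom_eq_zero_iff {G : HomCoordRing N} : coneHom I G = 0 ↔ G ∈ I := by
  have h1 : coneHom I G = algebraMap (HomCoordRing N ⧸ I) (ConeFracField I)
    (Ideal.Quotient.mk I G) := rfl
  rw [h1, map_eq_zero_iff _ (IsFractionRing.injective _ _), Ideal.Quotient.eq_zero_iff_mem]

theorem coneHom_eq_iff {G H : HomCoordRing N} : coneHom I G = coneHom I H ↔ G - H ∈ I := by
  rw [← coneHom_eq_zero_iff, map_sub, sub_eq_zero]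

/-- `u` is represented by `G/H` -/
def IsRep (u : FnField I) (G H : HomCoordRing N) : Prop :=
  toConeHom I u * coneHom I H = coneHom I G

theorem mem_stalkFn_iff {p : Fin (N + 1) → ℂ} {u : FnField I} :
    u ∈ stalkFn I p ↔ ∃ (k : ℕ) (G H : HomCoordRing N), G.IsHomogeneous k ∧ H.IsHomogeneous k ∧
      eval p H ≠ 0 ∧ IsRep u G H := Iff.rfl

theorem mem_stalkMaxFn_iff {p : Fin (N + 1) → ℂ} {u : FnField I} :
    u ∈ stalkMaxFn I p ↔ ∃ (k : ℕ) (G H : HomCoordRing N), G.IsHomogeneous k ∧ H.IsHomogeneous k ∧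
      eval p H ≠ 0 ∧ eval p G = 0 ∧ IsRep u G H := Iff.rfl

theorem IsRep.add {u v : FnField I} {G H G' H' : HomCoordRing N} (h : IsRep u G H) (h' : IsRep v G' H') :
    IsRep (u + v) (G * H' + G' * H) (H * H') := by
  unfold IsRep at *
  simp only [map_add, map_mul]
  rw [← h, ← h']; ring

theorem IsRep.mul {u v : FnField I} {G H G' H' : HomCoordRing N} (h : IsRep u G H) (h' : IsRep v G' H') :
    IsRep (u * v) (G * G') (H * H') := by
  unfold IsRep at *
  simp only [map_mul]
  rw [← h, ← h']; ring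

theorem IsRep.neg {u : FnField I} {G H : HomCoordRing N} (h : IsRep u G H) :
    IsRep (-u) (-G) H := by
  unfold IsRep at *
  simp only [map_neg]
  rw [← h]; ring

theorem rep_algebraMap (c : ℂ) : IsRep (algebraMap ℂ (FnField I) c) (C c) (1 : HomCoordRing N) := by
  unfold IsRep
  rw [map_one, mul_one, AlgHom.commutes]
  have : (C c : HomCoordRing N) = algebraMap ℂ (HomCoordRing N) c := rfl
  rw [this, AlgHom.commutes]

theorem rep_one : IsRep (1 : FnField I) (1 : HomCoordRing N) 1 := by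
  unfold IsRep; simp

theorem rep_zero : IsRep (0 : FnField I) (0 : HomCoordRing N) 1 := by
  unfold IsRep; simp

theorem IsRep.inv {u : FnField I} {G H : HomCoordRing N} (h : IsRep u G H) (hG : G ∉ I) :
    IsRep u⁻¹ H G := by
  unfold IsRep at *
  have h1 : coneHom I G ≠ 0 := fun h0 => hG (coneHom_eq_zero_iff.1 h0)
  rw [map_inv₀]
  have hu : toConeHom I u ≠ 0 := by
    intro h0; rw [h0, zero_mul] at h; exact h1 h.symm
  rw [← h]; field_simp

theorem IsRep.sub_mem {u : FnField I} {G H G' H' : HomCoordRing N} (h : IsRep u G H)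
    (h' : IsRep u G' H') : G * H' - G' * H ∈ I := by
  rw [← coneHom_eq_zero_iff]
  unfold IsRep at *
  simp only [map_sub, map_mul]
  rw [← h, ← h']; ring

/-- cone points do not kill non-members trivially: `eval p H ≠ 0` implies `H ∉ I` -/
theorem not_mem_of_eval_ne {p : Fin (N + 1) → ℂ} (hp : p ∈ affineCone I) {H : HomCoordRing N}
    (h : eval p H ≠ 0) : H ∉ I := fun hH => h (hp H hH)

/-- The local ring at `p` as a subalgebra of the function field. -/
def stalk (I : Ideal (HomCoordRing N)) [I.IsPrime] (p : Fin (N + 1) → ℂ) :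
    Subalgebra ℂ (FnField I) where
  carrier := stalkFn I p
  mul_mem' := by
    rintro a b ⟨k, G, H, hG, hH, hp, hr⟩ ⟨k', G', H', hG', hH', hp', hr'⟩
    refine ⟨k + k', G * G', H * H', hG.mul hG', hH.mul hH', ?_, IsRep.mul hr hr'⟩
    rw [map_mul]; exact mul_ne_zero hp hp'
  add_mem' := by
    rintro a b ⟨k, G, H, hG, hH, hp, hr⟩ ⟨k', G', H', hG', hH', hp', hr'⟩
    refine ⟨k + k', G * H' + G' * H, H * H', ?_, hH.mul hH', ?_, IsRep.add hr hr'⟩
    · refine (hG.mul hH').add ?_
      rw [add_comm k k']; exact hG'.mul hH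
    · rw [map_mul]; exact mul_ne_zero hp hp'
  algebraMap_mem' c := by
    refine ⟨0, C c, 1, isHomogeneous_C _ _, isHomogeneous_one _ _, ?_, rep_algebraMap c⟩
    simp

theorem mem_stalk {p : Fin (N + 1) → ℂ} {u : FnField I} : u ∈ stalk I p ↔ u ∈ stalkFn I p :=
  Iff.rfl

theorem coe_stalk {p : Fin (N + 1) → ℂ} : (stalk I p : Set (FnField I)) = stalkFn I p := rfl

/-! ### Evaluation homomorphisms -/

section evalHom

variable {S : Type*} [CommRing S] [Algebra ℂ S]

/-- data: an `S`-point `x` of the cone at which all homogeneous polynomials not vanishing at `p`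
are units -/
structure IsPt (I : Ideal (HomCoordRing N)) (p : Fin (N + 1) → ℂ) (x : HomCoordRing N →ₐ[ℂ] S) :
    Prop where
  zero : ∀ F ∈ I, x F = 0
  unit : ∀ (k : ℕ) (H : HomCoordRing N), H.IsHomogeneous k → eval p H ≠ 0 → IsUnit (x H)

theorem evalFun_exists {p : Fin (N + 1) → ℂ} {x : HomCoordRing N →ₐ[ℂ] S} (hx : IsPt I p x)
    (u : stalk I p) : ∃ s : S, ∀ (G H : HomCoordRing N), IsRep (u : FnField I) G H →
      x H * s = x G := by
  obtain ⟨u, k, G, H, hG, hH, hp, hr⟩ := u
  obtain ⟨v, hv⟩ := hx.unit k H hH hp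
  refine ⟨x G * (v⁻¹ : Sˣ), fun G' H' h' => ?_⟩
  have h0 : x G * x H' = x G' * x H := by
    have := hx.zero _ (IsRep.sub_mem hr h')
    rwa [map_sub, map_mul, map_mul, sub_eq_zero] at this
  have hvv : (v : S) * (v⁻¹ : Sˣ) = 1 := v.mul_inv
  calc x H' * (x G * (v⁻¹ : Sˣ)) = (x G * x H') * (v⁻¹ : Sˣ) := by ring
    _ = x G' * (x H * (v⁻¹ : Sˣ)) := by rw [h0]; ring
    _ = x G' := by rw [← hv, hvv, mul_one]

/-- The value at the `S`-point `x` of the regular function `u`. -/
def evalFun {p : Fin (N + 1) → ℂ} {x : HomCoordRing N →ₐ[ℂ] S} (hx : IsPt I p x)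
    (u : stalk I p) : S := (evalFun_exists hx u).choose

theorem evalFun_spec {p : Fin (N + 1) → ℂ} {x : HomCoordRing N →ₐ[ℂ] S} (hx : IsPt I p x)
    (u : stalk I p) {G H : HomCoordRing N} (h : IsRep (u : FnField I) G H) :
    x H * evalFun hx u = x G := (evalFun_exists hx u).choose_spec G H h

theorem exists_rep {p : Fin (N + 1) → ℂ} (u : stalk I p) :
    ∃ (k : ℕ) (G H : HomCoordRing N), G.IsHomogeneous k ∧ H.IsHomogeneous k ∧
      eval p H ≠ 0 ∧ IsRep (u : FnField I) G H := u.2

theorem evalFun_unique {p : Fin (N + 1) → ℂ} {x : HomCoordRing N →ₐ[ℂ] S} (hx : IsPt I p x)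
    (u : stalk I p) {k : ℕ} {G H : HomCoordRing N} (hH : H.IsHomogeneous k) (hp : eval p H ≠ 0)
    (h : IsRep (u : FnField I) G H) {s : S} (hs : x H * s = x G) : s = evalFun hx u := by
  obtain ⟨v, hv⟩ := hx.unit k H hH hp
  have h1 := evalFun_spec hx u h
  rw [← hs] at h1
  rw [← hv] at h1
  exact (v.mul_right_inj.1 h1).symm

/-- The evaluation homomorphism of the local ring at an `S`-point. -/
def evalHom {p : Fin (N + 1) → ℂ} {x : HomCoordRing N →ₐ[ℂ] S} (hx : IsPt I p x) :
    stalk I p →ₐ[ℂ] S where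
  toFun := evalFun hx
  map_one' := by
    refine (evalFun_unique hx 1 (k := 0) (G := 1) (H := 1) (isHomogeneous_one _ _) (by simp)
      rep_one ?_).symm
    simp
  map_zero' := by
    refine (evalFun_unique hx 0 (k := 0) (G := 0) (H := 1) (isHomogeneous_one _ _) (by simp)
      rep_zero ?_).symm
    simp
  map_mul' u v := by
    obtain ⟨k, G, H, hG, hH, hp, hr⟩ := exists_rep u
    obtain ⟨k', G', H', hG', hH', hp', hr'⟩ := exists_rep v
    symm
    refine evalFun_unique hx (u * v) (hH.mul hH') (by rw [map_mul]; exact mul_ne_zero hp hp')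
      (IsRep.mul hr hr') ?_
    rw [map_mul, map_mul, ← evalFun_spec hx u hr, ← evalFun_spec hx v hr']; ring
  map_add' u v := by
    obtain ⟨k, G, H, hG, hH, hp, hr⟩ := exists_rep u
    obtain ⟨k', G', H', hG', hH', hp', hr'⟩ := exists_rep v
    symm
    refine evalFun_unique hx (u + v) (hH.mul hH') (by rw [map_mul]; exact mul_ne_zero hp hp')
      (IsRep.add hr hr') ?_
    rw [map_mul, map_add, map_mul, map_mul, ← evalFun_spec hx u hr, ← evalFun_spec hx v hr']; ring
  commutes' c := by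
    symm
    refine evalFun_unique hx _ (k := 0) (isHomogeneous_one _ _) (by simp)
      (rep_algebraMap (I := I) c) ?_
    have : (C c : HomCoordRing N) = algebraMap ℂ (HomCoordRing N) c := rfl
    rw [map_one, one_mul, this, AlgHom.commutes]

theorem evalHom_spec {p : Fin (N + 1) → ℂ} {x : HomCoordRing N →ₐ[ℂ] S} (hx : IsPt I p x)
    (u : stalk I p) {G H : HomCoordRing N} (h : IsRep (u : FnField I) G H) :
    x H * evalHom hx u = x G := evalFun_spec hx u h

theorem evalHom_unique {p : Fin (N + 1) → ℂ} {x : HomCoordRing N →ₐ[ℂ] S} (hx : IsPt I p x)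
    (u : stalk I p) {k : ℕ} {G H : HomCoordRing N} (hH : H.IsHomogeneous k) (hp : eval p H ≠ 0)
    (h : IsRep (u : FnField I) G H) {s : S} (hs : x H * s = x G) : s = evalHom hx u :=
  evalFun_unique hx u hH hp h hs

end evalHom

/-! ### Values and differentials at points -/

/-- a point of the cone as a `ℂ`-point -/
theorem isPt_point {p : Fin (N + 1) → ℂ} (hp : p ∈ affineCone I) :
    IsPt I p (aeval p : HomCoordRing N →ₐ[ℂ] ℂ) where
  zero F hF := by simpa [coe_aeval_eq_eval] using hp F hF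
  unit k H _ h0 := by
    simpa [coe_aeval_eq_eval] using h0

/-- value of a regular function at `p` -/
def ev {p : Fin (N + 1) → ℂ} (hp : p ∈ affineCone I) : stalk I p →ₐ[ℂ] ℂ := evalHom (isPt_point hp)

theorem ev_spec {p : Fin (N + 1) → ℂ} (hp : p ∈ affineCone I) (u : stalk I p)
    {G H : HomCoordRing N} (h : IsRep (u : FnField I) G H) :
    eval p H * ev hp u = eval p G := by
  unfold ev
  simpa [coe_aeval_eq_eval] using evalHom_spec (isPt_point hp) u h

theorem ev_eq_div {p : Fin (N + 1) → ℂ} (hp : p ∈ affineCone I) (u : stalk I p)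
    {G H : HomCoordRing N} (h : IsRep (u : FnField I) G H) (hH : eval p H ≠ 0) :
    ev hp u = eval p G / eval p H := by
  rw [eq_div_iff hH, mul_comm]; exact ev_spec hp u h

theorem mem_stalkMaxFn_iff_ev {p : Fin (N + 1) → ℂ} (hp : p ∈ affineCone I) (u : stalk I p) :
    (u : FnField I) ∈ stalkMaxFn I p ↔ ev hp u = 0 := by
  constructor
  · rintro ⟨k, G, H, hG, hH, hpH, hpG, hr⟩
    rw [ev_eq_div hp u hr hpH, hpG, zero_div]
  · intro h
    obtain ⟨k, G, H, hG, hH, hpH, hr⟩ := exists_rep u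
    refine ⟨k, G, H, hG, hH, hpH, ?_, hr⟩
    rw [← ev_spec hp u hr, h, mul_zero]

theorem stalkMaxFn_subset_stalkFn {p : Fin (N + 1) → ℂ} : stalkMaxFn I p ⊆ stalkFn I p := by
  rintro u ⟨k, G, H, hG, hH, hpH, hpG, hr⟩
  exact ⟨k, G, H, hG, hH, hpH, hr⟩

/-- elements of the stalk with non-zero value are units -/
theorem isUnit_of_ev_ne {p : Fin (N + 1) → ℂ} (hp : p ∈ affineCone I) (u : stalk I p)
    (hu : ev hp u ≠ 0) : IsUnit u := by
  obtain ⟨k, G, H, hG, hH, hpH, hr⟩ := exists_rep u
  have hG0 : eval p G ≠ 0 := by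
    rw [← ev_spec hp u hr]; exact mul_ne_zero hpH hu
  have hinv : (u : FnField I)⁻¹ ∈ stalk I p :=
    ⟨k, H, G, hH, hG, hG0, IsRep.inv hr (not_mem_of_eval_ne hp hG0)⟩
  have hu0 : (u : FnField I) ≠ 0 := by
    intro h0
    have h00 : u = 0 := Subtype.ext h0
    apply hu; rw [h00, map_zero]
  refine ⟨⟨u, ⟨_, hinv⟩, ?_, ?_⟩, rfl⟩
  · apply Subtype.ext; exact mul_inv_cancel₀ hu0
  · apply Subtype.ext; exact inv_mul_cancel₀ hu0

theorem isUnit_iff_ev {p : Fin (N + 1) → ℂ} (hp : p ∈ affineCone I) (u : stalk I p) :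
    IsUnit u ↔ ev hp u ≠ 0 :=
  ⟨fun h => (h.map (ev hp)).ne_zero, isUnit_of_ev_ne hp u⟩

end Crest.Agent.R269.DictA_795
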