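import Mathlib
import Crest.Prelude.Def_ProjPluricanonical
import Crest.Agent.R269.DictA_795
import Crest.Agent.R269.DictB_795

/-!
Row 269, DICT, part C: coordinate data (Jacobian minors), Kaehler differentials of the local rings.
-/

set_option autoImplicit false
set_option linter.unusedSectionVars false

open MvPolynomial Crest.AlgGeometry.ProjEmb
open Crest.Agent.R269.DictA_795 Crest.Agent.R269.DictB_795

noncomputable section

namespace Crest.Agent.R269.DictC_795

variable {N n : ℕ} {I : Ideal (HomCoordRing N)} [I.IsPrime]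

/-- the Jacobian condition (last clause of `IsSmoothProjective`) -/
theorem finrank_gradSpan (hX : IsSmoothProjective I n) {p : Fin (N + 1) → ℂ}
    (hp : p ∈ affineCone I) (hp0 : p ≠ 0) : Module.finrank ℂ (gradSpan I p) = N - n :=
  hX.jacobian p hp hp0

/-- Coordinate data: a chart index `i`, a partition of the remaining indices in `n` coordinate
indices `S` and `N-n` dependent indices `J`, and `N-n` homogeneous equations `F`. -/
structure CD (I : Ideal (HomCoordRing N)) (n : ℕ) where
  i : Fin (N + 1)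
  S : Fin n → Fin (N + 1)
  J : Fin (N - n) → Fin (N + 1)
  F : Fin (N - n) → HomCoordRing N
  d : Fin (N - n) → ℕ
  F_mem : ∀ a, F a ∈ I
  F_hom : ∀ a, (F a).IsHomogeneous (d a)
  bij : Function.Bijective (Sum.elim (fun _ : Unit => i) (Sum.elim S J))

namespace CD

variable (c : CD I n)

/-- the Jacobian matrix with respect to the dependent variables -/
def jac : Matrix (Fin (N - n)) (Fin (N - n)) (HomCoordRing N) :=
  Matrix.of fun a b => pderiv (c.J b) (c.F a)

/-- the Jacobian minor -/
def δ : HomCoordRing N := c.jac.det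

/-- degree of the minor -/
def e : ℕ := ∑ a, (c.d a - 1)

theorem δ_hom : c.δ.IsHomogeneous c.e := by
  unfold δ e
  rw [Matrix.det_apply]
  refine IsHomogeneous.sum _ _ _ fun σ _ => ?_
  have h1 : (∏ a, c.jac (σ a) a).IsHomogeneous (∑ a, (c.d (σ a) - 1)) := by
    refine IsHomogeneous.prod _ _ _ fun a _ => ?_
    exact (c.F_hom (σ a)).pderiv
  have h2 : ∑ a, (c.d (σ a) - 1) = ∑ a, (c.d a - 1) := Equiv.sum_comp σ (fun a => c.d a - 1)
  rw [h2] at h1
  rcases Int.units_eq_one_or (Equiv.Perm.sign σ) with h | h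
  · rw [h, one_smul]; exact h1
  · rw [h, Units.neg_smul, one_smul]; exact h1.neg

/-- the index bijection -/
def eqv : Unit ⊕ (Fin n ⊕ Fin (N - n)) ≃ Fin (N + 1) := Equiv.ofBijective _ c.bij

@[simp] theorem eqv_i : c.eqv (Sum.inl ()) = c.i := rfl
@[simp] theorem eqv_S (s : Fin n) : c.eqv (Sum.inr (Sum.inl s)) = c.S s := rfl
@[simp] theorem eqv_J (b : Fin (N - n)) : c.eqv (Sum.inr (Sum.inr b)) = c.J b := rfl

theorem sum_eq {M : Type*} [AddCommMonoid M] (f : Fin (N + 1) → M) :
    ∑ j, f j = f c.i + (∑ s, f (c.S s) + ∑ b, f (c.J b)) := by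
  rw [← Equiv.sum_comp c.eqv, Fintype.sum_sum_type, Fintype.sum_sum_type]
  simp

/-- the domain of the coordinate data: points of the cone with `x_i ≠ 0`, `δ ≠ 0` -/
structure Dom (q : Fin (N + 1) → ℂ) : Prop where
  cone : q ∈ affineCone I
  i : q c.i ≠ 0
  δ : eval q c.δ ≠ 0

theorem Dom.ne_zero {c : CD I n} {q : Fin (N + 1) → ℂ} (h : c.Dom q) : q ≠ 0 := by
  intro h0; exact h.i (by rw [h0]; rfl)

end CD

/-- **Existence of coordinates**. -/
theorem exists_CD (hX : IsSmoothProjective I n) {p : Fin (N + 1) → ℂ} (hp : p ∈ affineCone I)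
    (hp0 : p ≠ 0) {i : Fin (N + 1)} (hpi : p i ≠ 0) : ∃ c : CD I n, c.Dom p ∧ c.i = i := by
  classical
  have hI : Hom I := hX.homogeneous
  obtain ⟨F, d, hF, hd, hl⟩ := exists_homog_basis hI (finrank_gradSpan hX hp hp0)
  -- remove the column `i`
  let M : Matrix (Fin (N - n)) {j : Fin (N + 1) // j ≠ i} ℂ := Matrix.of fun a j => grad (F a) p j
  have hM : LinearIndependent ℂ M.row := by
    rw [Fintype.linearIndependent_iff] at hl ⊢
    intro g hg
    apply hl g
    funext j
    have h1 : ∀ j' : {j : Fin (N + 1) // j ≠ i}, ∑ a, g a * grad (F a) p j' = 0 := by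
      intro j'
      have := congrFun hg j'
      simpa [M, Matrix.row] using this
    by_cases hj : j = i
    · subst hj
      have h2 : ∑ k, p k * ∑ a, g a * grad (F a) p k = 0 := by
        have h3 : ∑ k, p k * ∑ a, g a * grad (F a) p k =
            ∑ a, g a * ∑ k, p k * grad (F a) p k := by
          simp_rw [Finset.mul_sum]
          rw [Finset.sum_comm]
          refine Finset.sum_congr rfl fun a _ => Finset.sum_congr rfl fun k _ => by ring
        rw [h3]
        refine Finset.sum_eq_zero fun a _ => ?_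
        rw [euler hp (hF a) (hd a), mul_zero]
      rw [Finset.sum_eq_single j] at h2
      · have h4 := (mul_eq_zero.1 h2).resolve_left hpi
        simpa using h4
      · intro k _ hk
        rw [h1 ⟨k, hk⟩, mul_zero]
      · simp
    · simpa using h1 ⟨j, hj⟩
  obtain ⟨J', hJ', hdet⟩ := exists_cols M hM
  let J : Fin (N - n) → Fin (N + 1) := fun b => (J' b).1
  have hJinj : Function.Injective J := fun a b h => hJ' (Subtype.ext h)
  have hJi : ∀ b, J b ≠ i := fun b => (J' b).2
  let T : Finset (Fin (N + 1)) := (insert i (Finset.univ.image J))ᶜ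
  have hTcard : T.card = n := by
    have h1 : (insert i (Finset.univ.image J)).card = (N - n) + 1 := by
      rw [Finset.card_insert_of_notMem, Finset.card_image_of_injective _ hJinj]
      · simp
      · simp only [Finset.mem_image, Finset.mem_univ, true_and, not_exists]
        exact hJi
    have h2 := Finset.card_compl (insert i (Finset.univ.image J))
    rw [h1, Fintype.card_fin] at h2
    have h3 := hX.dim_le
    change ((insert i (Finset.univ.image J))ᶜ).card = n
    omega
  let eT : Fin n ≃ T := (Finset.equivFinOfCardEq hTcard).symm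
  let S : Fin n → Fin (N + 1) := fun s => (eT s).1
  have hST : ∀ s, S s ≠ i ∧ ∀ b, S s ≠ J b := by
    intro s
    have := (eT s).2
    simp only [T, Finset.mem_compl, Finset.mem_insert, Finset.mem_image, Finset.mem_univ,
      true_and, not_or, not_exists] at this
    exact ⟨this.1, fun b hb => this.2 b hb.symm⟩
  have hSinj : Function.Injective S := fun a b h => eT.injective (Subtype.ext h)
  have hbij : Function.Bijective (Sum.elim (fun _ : Unit => i) (Sum.elim S J)) := by
    constructor
    · rintro (a | a | a) (b | b | b) h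
      · rfl
      · exact absurd h.symm (hST b).1
      · exact absurd h.symm (hJi b)
      · exact absurd h (hST a).1
      · rw [hSinj h]
      · exact absurd h ((hST a).2 b)
      · exact absurd h (hJi a)
      · exact absurd h.symm ((hST b).2 a)
      · rw [hJinj h]
    · intro j
      by_cases h1 : j = i
      · exact ⟨Sum.inl (), h1.symm⟩
      by_cases h2 : ∃ b, J b = j
      · obtain ⟨b, hb⟩ := h2
        exact ⟨Sum.inr (Sum.inr b), hb⟩
      · have h3 : j ∈ T := by
          simp only [T, Finset.mem_compl, Finset.mem_insert, Finset.mem_image, Finset.mem_univ,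
            true_and, not_or]
          exact ⟨h1, h2⟩
        refine ⟨Sum.inr (Sum.inl (eT.symm ⟨j, h3⟩)), ?_⟩
        simp [S]
  refine ⟨⟨i, S, J, F, d, hF, hd, hbij⟩, ⟨hp, hpi, ?_⟩, rfl⟩
  have h5 : eval p (CD.δ ⟨i, S, J, F, d, hF, hd, hbij⟩) = (M.submatrix id J').det := by
    unfold CD.δ CD.jac
    rw [RingHom.map_det]
    rfl
  rw [h5]; exact hdet

namespace CD

variable (c : CD I n) {q : Fin (N + 1) → ℂ}

/-- at points of the domain, every gradient of a member of `I` is a combination of the `∇F_a` -/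
theorem grad_mem_span (hX : IsSmoothProjective I n) (hq : q ∈ affineCone I) (hq0 : q ≠ 0)
    (hδ : eval q c.δ ≠ 0) {G : HomCoordRing N} (hG : G ∈ I) :
    grad G q ∈ Submodule.span ℂ (Set.range fun a => grad (c.F a) q) := by
  have hl : LinearIndependent ℂ (fun a => grad (c.F a) q) := by
    have h1 : LinearIndependent ℂ (c.jac.map (eval q)).row := by
      rw [Matrix.linearIndependent_rows_iff_isUnit, Matrix.isUnit_iff_isUnit_det]
      have : (c.jac.map (eval q)).det = eval q c.δ := by
        unfold δ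
        rw [RingHom.map_det]; rfl
      rw [this]
      exact isUnit_iff_ne_zero.2 hδ
    rw [Fintype.linearIndependent_iff] at h1 ⊢
    intro g hg
    apply h1 g
    funext b
    have := congrFun hg (c.J b)
    simpa [jac, grad, Matrix.row] using this
  have h2 : Submodule.span ℂ (Set.range fun a => grad (c.F a) q) = gradSpan I q := by
    apply Submodule.eq_of_le_of_finrank_eq
    · rw [Submodule.span_le]
      rintro v ⟨a, rfl⟩
      exact grad_mem (c.F_mem a) q
    · rw [finrank_span_eq_card hl, finrank_gradSpan hX hq hq0]; simp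
  rw [h2]
  exact grad_mem hG q

/-- the coefficients of the tangential vector field `θ_s` -/
def tcoef (s : Fin n) : Fin (N + 1) → HomCoordRing N := fun j =>
  Sum.elim (fun _ => 0) (Sum.elim (fun t => if t = s then c.δ else 0)
    (fun b => - (c.jac.adjugate.mulVec (fun a => pderiv (c.S s) (c.F a))) b)) (c.eqv.symm j)

/-- the tangential vector field `θ_s` -/
def θ (s : Fin n) : Derivation ℂ (HomCoordRing N) (HomCoordRing N) := mkDerivation ℂ (c.tcoef s)

theorem tcoef_i (s : Fin n) : c.tcoef s c.i = 0 := by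
  unfold tcoef
  rw [← c.eqv_i, Equiv.symm_apply_apply]; rfl

theorem tcoef_S (s t : Fin n) : c.tcoef s (c.S t) = if t = s then c.δ else 0 := by
  have h : c.eqv.symm (c.S t) = Sum.inr (Sum.inl t) := by
    rw [← c.eqv_S t, Equiv.symm_apply_apply]
  unfold tcoef
  rw [h]; rfl

theorem tcoef_J (s : Fin n) (b : Fin (N - n)) :
    c.tcoef s (c.J b) = - (c.jac.adjugate.mulVec (fun a => pderiv (c.S s) (c.F a))) b := by
  have h : c.eqv.symm (c.J b) = Sum.inr (Sum.inr b) := by
    rw [← c.eqv_J b, Equiv.symm_apply_apply]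
  unfold tcoef
  rw [h]; rfl

theorem θ_apply (s : Fin n) (G : HomCoordRing N) : c.θ s G = ∑ j, pderiv j G * c.tcoef s j := by
  have h := der_aeval (c.θ s) (X : Fin (N + 1) → HomCoordRing N) G
  rw [aeval_X_left_apply] at h
  rw [h]
  refine Finset.sum_congr rfl fun j _ => ?_
  rw [aeval_X_left_apply, smul_eq_mul]
  congr 1
  exact mkDerivation_X _ _ _

theorem θ_F (s : Fin n) (a : Fin (N - n)) : c.θ s (c.F a) = 0 := by
  rw [θ_apply, c.sum_eq, tcoef_i, mul_zero, zero_add]
  simp_rw [tcoef_S, tcoef_J]
  simp only [mul_ite, mul_zero, Finset.sum_ite_eq', Finset.mem_univ, if_true, mul_neg,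
    Finset.sum_neg_distrib]
  have h1 : ∑ b, pderiv (c.J b) (c.F a) *
      (c.jac.adjugate.mulVec (fun a => pderiv (c.S s) (c.F a))) b =
      (c.jac.mulVec (c.jac.adjugate.mulVec (fun a => pderiv (c.S s) (c.F a)))) a := rfl
  rw [h1, Matrix.mulVec_mulVec, Matrix.mul_adjugate, Matrix.smul_mulVec, Matrix.one_mulVec]
  simp only [Pi.smul_apply, smul_eq_mul]
  change pderiv (c.S s) (c.F a) * c.δ + -(c.δ * pderiv (c.S s) (c.F a)) = 0
  ring

theorem eval_θ (s : Fin n) (G : HomCoordRing N) (q : Fin (N + 1) → ℂ) :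
    eval q (c.θ s G) = ∑ j, grad G q j * eval q (c.tcoef s j) := by
  rw [θ_apply, map_sum]
  refine Finset.sum_congr rfl fun j _ => ?_
  rw [map_mul]; rfl

theorem eval_θ_eq_zero (hX : IsSmoothProjective I n) (hq : q ∈ affineCone I) (hq0 : q ≠ 0)
    (hδ : eval q c.δ ≠ 0) {G : HomCoordRing N} (hG : G ∈ I) (s : Fin n) :
    eval q (c.θ s G) = 0 := by
  rw [eval_θ]
  have h1 := c.grad_mem_span hX hq hq0 hδ hG
  let L : (Fin (N + 1) → ℂ) →ₗ[ℂ] ℂ :=
    Fintype.linearCombination ℂ (fun j => eval q (c.tcoef s j))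
  have hL : ∀ v, L v = ∑ j, v j * eval q (c.tcoef s j) := fun v => by
    simp [L, Fintype.linearCombination_apply]
  rw [← hL]
  have h2 : Submodule.span ℂ (Set.range fun a => grad (c.F a) q) ≤ LinearMap.ker L := by
    rw [Submodule.span_le]
    rintro v ⟨a, rfl⟩
    change L (grad (c.F a) q) = 0
    rw [hL, ← eval_θ, θ_F, map_zero]
  exact h2 h1

/-- a polynomial vanishing on the cone belongs to `I` -/
theorem mem_of_eval_zero {G : HomCoordRing N} (h : ∀ q ∈ affineCone I, eval q G = 0) : G ∈ I := by
  have h1 : G ∈ vanishingIdeal ℂ (zeroLocus ℂ I) := by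
    rw [mem_vanishingIdeal_iff]
    intro q hq
    have h2 : q ∈ affineCone I := by
      intro F hF
      have := hq F hF
      simpa [coe_aeval_eq_eval] using this
    have := h q h2
    simpa [coe_aeval_eq_eval] using this
  rw [vanishingIdeal_zeroLocus_eq_radical, Ideal.IsPrime.radical inferInstance] at h1
  exact h1

/-- the fields `θ_s` preserve `I` -/
theorem θ_mem (hX : IsSmoothProjective I n) (hi : (X c.i : HomCoordRing N) ∉ I) (hδ : c.δ ∉ I)
    {G : HomCoordRing N} (hG : G ∈ I) (s : Fin n) : c.θ s G ∈ I := by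
  have h1 : X c.i * c.δ * c.θ s G ∈ I := by
    apply mem_of_eval_zero
    intro q hq
    rw [map_mul, map_mul, eval_X]
    by_cases h2 : q c.i = 0
    · rw [h2, zero_mul, zero_mul]
    by_cases h3 : eval q c.δ = 0
    · rw [h3, mul_zero, zero_mul]
    have h4 : q ≠ 0 := fun h0 => h2 (by rw [h0]; rfl)
    rw [c.eval_θ_eq_zero hX hq h4 h3 hG s, mul_zero]
  rcases Ideal.IsPrime.mem_or_mem inferInstance h1 with h | h
  · rcases Ideal.IsPrime.mem_or_mem inferInstance h with h' | h'
    · exact absurd h' hi
    · exact absurd h' hδ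
  · exact h

theorem Dom.not_mem_i {c : CD I n} (h : c.Dom q) : (X c.i : HomCoordRing N) ∉ I :=
  X_not_mem h.cone h.i

theorem Dom.not_mem_δ {c : CD I n} (h : c.Dom q) : c.δ ∉ I := not_mem_of_eval_ne h.cone h.δ

/-! ### The differentials of the coordinates generate -/

/-- `w_s = x_{S s}/x_i` as an element of the local ring at `q` -/
def w {c : CD I n} (h : c.Dom q) (s : Fin n) : stalk I q := yA h.cone h.i (c.S s)

theorem coe_w {c : CD I n} (h : c.Dom q) (s : Fin n) : (w h s : FnField I) = fnRatio I c.i (c.S s) :=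
  rfl

/-- For every module-valued derivation the values on `w_s` generate the values on all `y_j`. -/
theorem der_y_mem {c : CD I n} (h : c.Dom q) (hI : Hom I) {M : Type*} [AddCommGroup M]
    [Module (stalk I q) M] [Module ℂ M] (D : Derivation ℂ (stalk I q) M)
    (j : Fin (N + 1)) :
    D (yA h.cone h.i j) ∈ Submodule.span (stalk I q) (Set.range fun s => D (w h s)) := by
  set P := Submodule.span (stalk I q) (Set.range fun s => D (w h s)) with hP
  have hS : ∀ s, D (yA h.cone h.i (c.S s)) ∈ P := fun s => Submodule.subset_span ⟨s, rfl⟩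
  have hi : D (yA h.cone h.i c.i) ∈ P := by
    have : yA h.cone h.i c.i = 1 := Subtype.ext (fnRatio_self h.not_mem_i)
    rw [this, D.map_one_eq_zero]; exact P.zero_mem
  have hF : ∀ a, ∑ b, dhA h.cone h.i (c.jac a b) • D (yA h.cone h.i (c.J b)) ∈ P := by
    intro a
    have h1 := der_aeval D (yA h.cone h.i) (c.F a)
    have h2 : aeval (yA h.cone h.i) (c.F a) = 0 := dhA_eq_zero_of_mem hI h.cone h.i (c.F_mem a)
    rw [h2, map_zero, c.sum_eq] at h1
    have h3 : ∑ b, dhA h.cone h.i (c.jac a b) • D (yA h.cone h.i (c.J b)) =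
      - (dhA h.cone h.i (pderiv c.i (c.F a)) • D (yA h.cone h.i c.i) +
        ∑ s, dhA h.cone h.i (pderiv (c.S s) (c.F a)) • D (yA h.cone h.i (c.S s))) := by
      rw [eq_neg_iff_add_eq_zero, add_comm, add_assoc]
      exact h1.symm
    rw [h3]
    exact P.neg_mem (P.add_mem (P.smul_mem _ hi) (P.sum_mem fun s _ => P.smul_mem _ (hS s)))
  have hJ : ∀ b, D (yA h.cone h.i (c.J b)) ∈ P := by
    intro b
    let Mx : Matrix (Fin (N - n)) (Fin (N - n)) (stalk I q) :=
      c.jac.map (dhA h.cone h.i)
    have h4 : ∑ a, Mx.adjugate b a • ∑ b', Mx a b' • D (yA h.cone h.i (c.J b')) =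
        Mx.det • D (yA h.cone h.i (c.J b)) := by
      simp_rw [Finset.smul_sum, smul_smul]
      rw [Finset.sum_comm]
      simp_rw [← Finset.sum_smul]
      have h5 : ∀ b', ∑ a, Mx.adjugate b a * Mx a b' = (Mx.adjugate * Mx) b b' := fun b' => rfl
      simp_rw [h5, Matrix.adjugate_mul, Matrix.smul_apply, Matrix.one_apply]
      simp
    have h6 : Mx.det • D (yA h.cone h.i (c.J b)) ∈ P := by
      rw [← h4]
      exact P.sum_mem fun a _ => P.smul_mem _ (hF a)
    have h7 : IsUnit Mx.det := by
      have h8 : Mx.det = dhA h.cone h.i c.δ := by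
        unfold δ
        rw [AlgHom.map_det]; rfl
      rw [h8]
      apply isUnit_of_ev_ne h.cone
      rw [ev_dhA h.cone h.i c.δ_hom]
      exact div_ne_zero h.δ (pow_ne_zero _ h.i)
    obtain ⟨u, hu⟩ := h7
    have h9 : D (yA h.cone h.i (c.J b)) = (u⁻¹ : (stalk I q)ˣ) • (Mx.det • D (yA h.cone h.i (c.J b))) := by
      rw [← hu]
      exact (inv_smul_smul u _).symm
    rw [h9]
    exact P.smul_mem _ h6
  rcases hj : c.eqv.symm j with (u | s | b)
  · have : j = c.i := by rw [← c.eqv_i, ← hj.trans rfl, Equiv.apply_symm_apply]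
    rw [this]; exact hi
  · have : j = c.S s := by rw [← c.eqv_S, ← hj, Equiv.apply_symm_apply]
    rw [this]; exact hS s
  · have : j = c.J b := by rw [← c.eqv_J, ← hj, Equiv.apply_symm_apply]
    rw [this]; exact hJ b

theorem der_mem {c : CD I n} (h : c.Dom q) (hI : Hom I) {M : Type*} [AddCommGroup M]
    [Module (stalk I q) M] [Module ℂ M] (D : Derivation ℂ (stalk I q) M)
    (u : stalk I q) :
    D u ∈ Submodule.span (stalk I q) (Set.range fun s => D (w h s)) := by
  set P := Submodule.span (stalk I q) (Set.range fun s => D (w h s)) with hP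
  have h1 : ∀ G, D (dhA h.cone h.i G) ∈ P := by
    intro G
    change D (aeval (yA h.cone h.i) G) ∈ P
    rw [der_aeval]
    exact P.sum_mem fun j _ => P.smul_mem _ (der_y_mem h hI D j)
  obtain ⟨k, G, H, hG, hH, hqH, hr, he, hu⟩ := exists_dhA h.cone h.i u
  have h2 := D.leibniz u (dhA h.cone h.i H)
  rw [he] at h2
  have h3 : dhA h.cone h.i H • D u ∈ P := by
    have : dhA h.cone h.i H • D u = D (dhA h.cone h.i G) - u • D (dhA h.cone h.i H) := by
      rw [h2]; abel
    rw [this]
    exact P.sub_mem (h1 G) (P.smul_mem _ (h1 H))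
  obtain ⟨v, hv⟩ := hu
  have h4 : D u = (v⁻¹ : (stalk I q)ˣ) • (dhA h.cone h.i H • D u) := by
    rw [← hv]; exact (inv_smul_smul v _).symm
  rw [h4]
  exact P.smul_mem _ h3

/-- **The Kaehler differentials of the local ring are generated by `dw_1, …, dw_n`.** -/
theorem span_D {c : CD I n} (h : c.Dom q) (hI : Hom I) :
    Submodule.span (stalk I q) (Set.range fun s => KaehlerDifferential.D ℂ (stalk I q) (w h s)) = ⊤ := by
  rw [eq_top_iff, ← KaehlerDifferential.span_range_derivation, Submodule.span_le]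
  rintro _ ⟨u, rfl⟩
  exact der_mem h hI (KaehlerDifferential.D ℂ (stalk I q)) u

/-- universal coefficients: for every `u` in the local ring there are `a_s` in the local ring with
`D u = ∑ a_s D w_s` for EVERY derivation `D` (to every module). -/
theorem exists_coeff {c : CD I n} (h : c.Dom q) (hI : Hom I) (u : stalk I q) :
    ∃ a : Fin n → stalk I q,
      KaehlerDifferential.D ℂ (stalk I q) u = ∑ s, a s • KaehlerDifferential.D ℂ (stalk I q) (w h s) := by
  have h1 := der_mem h hI (KaehlerDifferential.D ℂ (stalk I q)) u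
  rw [Submodule.mem_span_range_iff_exists_fun] at h1
  obtain ⟨a, ha⟩ := h1
  exact ⟨a, ha.symm⟩

end CD

/-- every derivation factors through the universal one -/
theorem der_of_universal {A M : Type*} [CommRing A] [Algebra ℂ A] [AddCommGroup M] [Module A M]
    [Module ℂ M] [IsScalarTower ℂ A M] (D : Derivation ℂ A M) {m : ℕ} {u : A} {a : Fin m → A}
    {w : Fin m → A}
    (h : KaehlerDifferential.D ℂ A u = ∑ s, a s • KaehlerDifferential.D ℂ A (w s)) :
    D u = ∑ s, a s • D (w s) := by
  have h1 := congrArg D.liftKaehlerDifferential h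
  simpa using h1

end Crest.Agent.R269.DictC_795
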