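import Mathlib
import Crest.Prelude.Def_ProjPluricanonical
import Crest.Agent.R269.DictA_795
import Crest.Agent.R269.DictB_795
import Crest.Agent.R269.DictC_795

/-!
Row 269, DICT, part D: top forms. `wedgeD w ≠ 0`, `wedgeD a = J • wedgeD w`, tensor powers.
-/

set_option autoImplicit false
set_option linter.unusedSectionVars false

open MvPolynomial Crest.AlgGeometry.ProjEmb
open Crest.Agent.R269.DictA_795 Crest.Agent.R269.DictB_795 Crest.Agent.R269.DictC_795

noncomputable section

namespace Crest.Agent.R269.DictD_795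

variable {N n : ℕ} {I : Ideal (HomCoordRing N)} [I.IsPrime]

/-! ### Derivations of the fraction field of the cone -/

/-- a derivation of the polynomial ring preserving `I` induces one of the cone's fraction field -/
theorem exists_coneDer (θ : Derivation ℂ (HomCoordRing N) (HomCoordRing N))
    (hθ : ∀ G ∈ I, θ G ∈ I) :
    ∃ Θ : Derivation ℂ (ConeFracField I) (ConeFracField I),
      ∀ G, Θ (coneHom I G) = coneHom I (θ G) := by
  let A := HomCoordRing N ⧸ I
  let K := ConeFracField I
  have hsurj : Function.Surjective (Ideal.Quotient.mkₐ ℂ I) := Ideal.Quotient.mkₐ_surjective ℂ I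
  have hker : ∀ x, Ideal.Quotient.mkₐ ℂ I x = 0 → Ideal.Quotient.mkₐ ℂ I (θ x) = 0 := by
    intro x hx
    rw [Ideal.Quotient.mkₐ_eq_mk, Ideal.Quotient.eq_zero_iff_mem] at hx ⊢
    exact hθ x hx
  let D₀ : Derivation ℂ A A := Derivation.liftOfSurjective hsurj hker
  have hD₀ : ∀ G, D₀ (Ideal.Quotient.mk I G) = Ideal.Quotient.mk I (θ G) := by
    intro G
    exact Derivation.liftOfSurjective_apply hsurj hker G
  let D₁ : Derivation ℂ A K := (Algebra.linearMap A K).compDer D₀
  have : Algebra.FormallyEtale A K := Algebra.FormallyEtale.of_isLocalization (nonZeroDivisors A)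
  have hb := KaehlerDifferential.isBaseChange_of_formallyEtale ℂ A K
  let L : Ω[K⁄ℂ] →ₗ[K] K := hb.lift D₁.liftKaehlerDifferential
  refine ⟨L.compDer (KaehlerDifferential.D ℂ K), fun G => ?_⟩
  change L (KaehlerDifferential.D ℂ K (algebraMap A K (Ideal.Quotient.mk I G))) = _
  have h1 : KaehlerDifferential.D ℂ K (algebraMap A K (Ideal.Quotient.mk I G)) =
      KaehlerDifferential.map ℂ ℂ A K (KaehlerDifferential.D ℂ A (Ideal.Quotient.mk I G)) := by
    rw [KaehlerDifferential.map_D]
  rw [h1]
  have h2 : L (KaehlerDifferential.map ℂ ℂ A K (KaehlerDifferential.D ℂ A (Ideal.Quotient.mk I G))) =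
      D₁.liftKaehlerDifferential (KaehlerDifferential.D ℂ A (Ideal.Quotient.mk I G)) :=
    hb.lift_eq _ _
  rw [h2, Derivation.liftKaehlerDifferential_comp_D]
  change algebraMap A K (D₀ (Ideal.Quotient.mk I G)) = _
  rw [hD₀]; rfl

/-- the cone's fraction field as an algebra over the function field -/
instance algCone : Algebra (FnField I) (ConeFracField I) := (toConeHom I).toRingHom.toAlgebra

theorem algebraMap_algCone (u : FnField I) : algebraMap (FnField I) (ConeFracField I) u = toConeHom I u :=
  rfl

instance towerCone : IsScalarTower ℂ (FnField I) (ConeFracField I) :=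
  IsScalarTower.of_algebraMap_eq fun c => ((toConeHom I).commutes c).symm

/-- linear form on the Kaehler differentials of the function field induced by a derivation of the
cone's fraction field -/
def coneForm (Θ : Derivation ℂ (ConeFracField I) (ConeFracField I)) :
    Ω[FnField I⁄ℂ] →ₗ[FnField I] ConeFracField I :=
  (Derivation.compAlgebraMap (FnField I) Θ).liftKaehlerDifferential

theorem coneForm_D (Θ : Derivation ℂ (ConeFracField I) (ConeFracField I)) (u : FnField I) :
    coneForm Θ (KaehlerDifferential.D ℂ (FnField I) u) = Θ (toConeHom I u) := by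
  unfold coneForm
  rw [Derivation.liftKaehlerDifferential_comp_D]; rfl

/-- determinant of `n` linear forms with values in an algebra, as an alternating map -/
def detAlt {L K M : Type*} [CommRing L] [CommRing K] [Algebra L K] [AddCommGroup M] [Module L M]
    (φ : Fin n → (M →ₗ[L] K)) : M [⋀^Fin n]→ₗ[L] K :=
  { (MultilinearMap.restrictScalars L
      (Matrix.detRowAlternating (n := Fin n) (R := K)).toMultilinearMap).compLinearMap
      (fun _ => LinearMap.pi φ) with
    map_eq_zero_of_eq' := fun v i j hv hij => by
      change Matrix.det (fun l s => φ s (v l)) = 0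
      apply Matrix.det_zero_of_row_eq hij
      funext s
      rw [hv] }

theorem detAlt_apply {L K M : Type*} [CommRing L] [CommRing K] [Algebra L K] [AddCommGroup M]
    [Module L M] (φ : Fin n → (M →ₗ[L] K)) (v : Fin n → M) :
    detAlt φ v = Matrix.det (fun l s => φ s (v l)) := rfl

/-- the determinant functional on top forms attached to `n` derivations -/
def detForm (Θ : Fin n → Derivation ℂ (ConeFracField I) (ConeFracField I)) :
    TopForms I n →ₗ[FnField I] ConeFracField I :=
  exteriorPower.alternatingMapLinearEquiv (detAlt fun s => coneForm (Θ s))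

theorem detForm_wedgeD (Θ : Fin n → Derivation ℂ (ConeFracField I) (ConeFracField I))
    (a : Fin n → FnField I) :
    detForm Θ (wedgeD I n a) = Matrix.det (Matrix.of fun l s => Θ s (toConeHom I (a l))) := by
  unfold detForm wedgeD
  refine (exteriorPower.alternatingMapLinearEquiv_apply_ιMulti
    (detAlt fun s => coneForm (Θ s)) _).trans ?_
  change Matrix.det (fun l s => coneForm (Θ s) (KaehlerDifferential.D ℂ (FnField I) (a l))) = _
  congr 1
  funext l s
  rw [coneForm_D]; rfl

end Crest.Agent.R269.DictD_795

namespace Crest.Agent.R269.DictC_795.CD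

open Crest.Agent.R269.DictD_795

variable {N n : ℕ} {I : Ideal (HomCoordRing N)} [I.IsPrime] (c : CD I n)

/-- the coordinates as rational functions -/
def wL (s : Fin n) : FnField I := fnRatio I c.i (c.S s)

/-- the coordinate top form `dw_1 ∧ … ∧ dw_n` -/
def ω : TopForms I n := wedgeD I n c.wL

/-- `(dw_1 ∧ … ∧ dw_n)^{⊗ m}` -/
def wm (m : ℕ) : PluriForms I n m := PiTensorProduct.tprod (FnField I) (fun _ : Fin m => c.ω)

theorem ω_ne_zero (hX : IsSmoothProjective I n) (hi : (X c.i : HomCoordRing N) ∉ I)
    (hδ : c.δ ∉ I) : c.ω ≠ 0 := by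
  intro h0
  have h1 : ∀ s, ∃ Θ : Derivation ℂ (ConeFracField I) (ConeFracField I),
      ∀ G, Θ (coneHom I G) = coneHom I (c.θ s G) :=
    fun s => exists_coneDer (c.θ s) fun G hG => c.θ_mem hX hi hδ hG s
  choose Θ hΘ using h1
  have h2 := detForm_wedgeD Θ c.wL
  have h3 : detForm Θ (wedgeD I n c.wL) = 0 := by
    change detForm Θ c.ω = 0
    rw [h0, map_zero]
  rw [h3] at h2
  have hxi := coneHom_X_ne hi
  have h4 : ∀ l s, Θ s (toConeHom I (c.wL l)) =
      if l = s then coneHom I c.δ / coneHom I (X c.i) else 0 := by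
    intro l s
    have h5 : coneHom I (X c.i) * toConeHom I (c.wL l) = coneHom I (X (c.S l)) := by
      rw [wL, toConeHom_fnRatio]; field_simp
    have h6 := congrArg (Θ s) h5
    rw [Derivation.leibniz, hΘ, hΘ] at h6
    have h7 : c.θ s (X c.i) = 0 := by
      have : c.θ s (X c.i) = c.tcoef s c.i := mkDerivation_X _ _ _
      rw [this, tcoef_i]
    have h8 : c.θ s (X (c.S l)) = if l = s then c.δ else 0 := by
      have : c.θ s (X (c.S l)) = c.tcoef s (c.S l) := mkDerivation_X _ _ _
      rw [this, tcoef_S]
    rw [h7, h8, map_zero, smul_zero, add_zero, smul_eq_mul] at h6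
    rw [eq_comm, ← mul_right_inj' hxi, eq_comm, h6]
    split_ifs
    · field_simp
    · simp
  have h9 : (Matrix.of fun l s => Θ s (toConeHom I (c.wL l))) =
      Matrix.diagonal (fun _ : Fin n => coneHom I c.δ / coneHom I (X c.i)) := by
    funext l s
    rw [Matrix.of_apply, h4, Matrix.diagonal_apply]
  rw [h9, Matrix.det_diagonal] at h2
  have h10 : (∏ _s : Fin n, coneHom I c.δ / coneHom I (X c.i)) ≠ 0 := by
    refine Finset.prod_ne_zero_iff.2 fun _ _ => div_ne_zero ?_ hxi
    intro h; exact hδ (coneHom_eq_zero_iff.1 h)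
  exact h10 h2.symm

variable {q : Fin (N + 1) → ℂ}

theorem Dom.ω_ne_zero {c : CD I n} (h : c.Dom q) (hX : IsSmoothProjective I n) : c.ω ≠ 0 :=
  CD.ω_ne_zero c hX h.not_mem_i h.not_mem_δ

/-- **Local top forms are multiples of the coordinate form**, with coefficient the determinant of
the universal coefficient matrix. -/
theorem exists_det {c : CD I n} (h : c.Dom q) (hI : Hom I) (a : Fin n → stalk I q) :
    ∃ C : Matrix (Fin n) (Fin n) (stalk I q),
      (∀ l, KaehlerDifferential.D ℂ (stalk I q) (a l) =
        ∑ s, C l s • KaehlerDifferential.D ℂ (stalk I q) (w h s)) ∧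
      wedgeD I n (fun l => (a l : FnField I)) = (C.det : FnField I) • c.ω := by
  choose C hC using fun l => exists_coeff h hI (a l)
  refine ⟨Matrix.of C, hC, ?_⟩
  have h1 : ∀ l, KaehlerDifferential.D ℂ (FnField I) (a l : FnField I) =
      ∑ s, ((C l s : stalk I q) : FnField I) • KaehlerDifferential.D ℂ (FnField I) (c.wL s) := by
    intro l
    have h2 := congrArg (KaehlerDifferential.map ℂ ℂ (stalk I q) (FnField I)) (hC l)
    rw [map_sum, KaehlerDifferential.map_D] at h2
    simp_rw [map_smul, KaehlerDifferential.map_D] at h2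
    exact h2
  unfold wedgeD
  have h3 : (fun l => KaehlerDifferential.D ℂ (FnField I) (a l : FnField I)) = fun l =>
      ∑ s, (Matrix.of (fun l s => ((C l s : stalk I q) : FnField I))) l s •
        KaehlerDifferential.D ℂ (FnField I) (c.wL s) := by
    funext l; exact h1 l
  rw [h3]
  have h4 := alt_det (exteriorPower.ιMulti (FnField I) n) (fun s => KaehlerDifferential.D ℂ (FnField I) (c.wL s))
    (Matrix.of (fun l s => ((C l s : stalk I q) : FnField I)))
  refine h4.trans ?_
  congr 1
  have h5 : (Matrix.of (fun l s => ((C l s : stalk I q) : FnField I))) =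
      (Matrix.of C).map (stalk I q).val := rfl
  rw [h5]
  exact (AlgHom.map_det (stalk I q).val (Matrix.of C)).symm

end Crest.Agent.R269.DictC_795.CD
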