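import Mathlib
import Crest.Prelude.Def_ProjPluricanonical
import Crest.Agent.R269.DictA_795
import Crest.Agent.R269.DictB_795
import Crest.Agent.R269.DictC_795
import Crest.Agent.R269.DictD_795

/-!
Row 269, DICT, part E: tensor powers, local description of `chartSections`,
`pluricanonicalSections`, `vanishingSections`, `vanishingSections2`.
-/

set_option autoImplicit false
set_option linter.unusedSectionVars false

open MvPolynomial Crest.AlgGeometry.ProjEmb
open Crest.Agent.R269.DictA_795 Crest.Agent.R269.DictB_795 Crest.Agent.R269.DictC_795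
open Crest.Agent.R269.DictD_795

noncomputable section

namespace Crest.Agent.R269.DictE_795

variable {N n : ℕ} {I : Ideal (HomCoordRing N)} [I.IsPrime]

/-- induction over the function field -/
theorem fnField_induction {P : FnField I → Prop} (hr : ∀ i j, P (fnRatio I i j))
    (halg : ∀ a : ℂ, P (algebraMap ℂ (FnField I) a)) (hadd : ∀ a b, P a → P b → P (a + b))
    (hinv : ∀ a, P a → P a⁻¹) (hmul : ∀ a b, P a → P b → P (a * b)) (u : FnField I) : P u := by
  obtain ⟨x, hx⟩ := u
  have key : ∀ (y : ConeFracField I) (hy : y ∈ fnSubfield I), P (⟨y, hy⟩ : ↥(fnSubfield I)) := by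
    intro y hy
    unfold fnSubfield at hy
    induction hy using IntermediateField.adjoin_induction with
    | mem z hz =>
      obtain ⟨⟨i, j⟩, rfl⟩ := hz
      exact hr i j
    | algebraMap a => exact halg a
    | add y z hy hz h1 h2 => exact hadd _ _ h1 h2
    | inv y hy h1 => exact hinv _ h1
    | mul y z hy hz h1 h2 => exact hmul _ _ h1 h2
  exact key x hx

end Crest.Agent.R269.DictE_795

namespace Crest.Agent.R269.DictC_795.CD

open Crest.Agent.R269.DictE_795

variable {N n : ℕ} {I : Ideal (HomCoordRing N)} [I.IsPrime] {c : CD I n} {q : Fin (N + 1) → ℂ}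

theorem D_fnRatio_mem (h : c.Dom q) (hI : Hom I) (j : Fin (N + 1)) :
    KaehlerDifferential.D ℂ (FnField I) (fnRatio I c.i j) ∈
      Submodule.span (FnField I) (Set.range fun s => KaehlerDifferential.D ℂ (FnField I) (c.wL s)) := by
  obtain ⟨a, ha⟩ := exists_coeff h hI (yA h.cone h.i j)
  have h2 := congrArg (KaehlerDifferential.map ℂ ℂ (stalk I q) (FnField I)) ha
  rw [map_sum, KaehlerDifferential.map_D] at h2
  simp_rw [map_smul, KaehlerDifferential.map_D] at h2
  have h3 : KaehlerDifferential.D ℂ (FnField I) (fnRatio I c.i j) =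
      ∑ s, (a s : FnField I) • KaehlerDifferential.D ℂ (FnField I) (c.wL s) := h2
  rw [h3]
  exact Submodule.sum_mem _ fun s _ => Submodule.smul_mem _ _ (Submodule.subset_span ⟨s, rfl⟩)

/-- the differentials of the coordinates span the Kaehler differentials of the function field -/
theorem span_DL (h : c.Dom q) (hI : Hom I) :
    Submodule.span (FnField I) (Set.range fun s => KaehlerDifferential.D ℂ (FnField I) (c.wL s)) = ⊤ := by
  set P := Submodule.span (FnField I)
    (Set.range fun s => KaehlerDifferential.D ℂ (FnField I) (c.wL s)) with hP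
  have hinv : ∀ a : FnField I, KaehlerDifferential.D ℂ (FnField I) a ∈ P →
      KaehlerDifferential.D ℂ (FnField I) a⁻¹ ∈ P := by
    intro a ha
    by_cases h0 : a = 0
    · rw [h0, inv_zero, map_zero]; exact P.zero_mem
    · rw [Derivation.leibniz_inv]
      exact P.smul_mem _ ha
  have hmul : ∀ a b : FnField I, KaehlerDifferential.D ℂ (FnField I) a ∈ P →
      KaehlerDifferential.D ℂ (FnField I) b ∈ P → KaehlerDifferential.D ℂ (FnField I) (a * b) ∈ P := by
    intro a b ha hb
    rw [Derivation.leibniz]
    exact P.add_mem (P.smul_mem _ hb) (P.smul_mem _ ha)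
  rw [eq_top_iff, ← KaehlerDifferential.span_range_derivation, Submodule.span_le]
  rintro _ ⟨u, rfl⟩
  refine fnField_induction (P := fun u => KaehlerDifferential.D ℂ (FnField I) u ∈ P) ?_ ?_ ?_ hinv hmul u
  · intro i j
    by_cases hi : (X i : HomCoordRing N) ∈ I
    · have h0 : fnRatio I i j = 0 := by
        apply toConeHom_injective
        rw [toConeHom_fnRatio, coneHom_eq_zero_iff.2 hi, div_zero, map_zero]
      rw [h0, map_zero]; exact P.zero_mem
    · have h0 : fnRatio I i j = fnRatio I c.i j * (fnRatio I c.i i)⁻¹ := by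
        apply toConeHom_injective
        rw [map_mul, map_inv₀, toConeHom_fnRatio, toConeHom_fnRatio, toConeHom_fnRatio]
        have h1 := coneHom_X_ne hi
        have h2 := coneHom_X_ne h.not_mem_i
        field_simp
      rw [h0]
      exact hmul _ _ (D_fnRatio_mem h hI j) (hinv _ (D_fnRatio_mem h hI i))
  · intro a
    rw [Derivation.map_algebraMap]; exact P.zero_mem
  · intro a b ha hb
    rw [map_add]; exact P.add_mem ha hb

/-- every rational top form is a multiple of the coordinate form -/
theorem exists_smul_ω (h : c.Dom q) (hI : Hom I) (t : TopForms I n) : ∃ F : FnField I, t = F • c.ω := by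
  have h1 : Submodule.span (FnField I) (Set.range (exteriorPower.ιMulti (FnField I) n
      (M := Ω[FnField I⁄ℂ]))) = ⊤ := exteriorPower.ιMulti_span _ _ _
  have h2 : ∀ v : Fin n → Ω[FnField I⁄ℂ], ∃ F : FnField I,
      (exteriorPower.ιMulti (FnField I) n v : TopForms I n) = F • c.ω := by
    intro v
    have h3 : ∀ l, ∃ a : Fin n → FnField I,
        ∑ s, a s • KaehlerDifferential.D ℂ (FnField I) (c.wL s) = v l := by
      intro l
      have : v l ∈ (⊤ : Submodule (FnField I) (Ω[FnField I⁄ℂ])) := trivial
      rw [← span_DL h hI, Submodule.mem_span_range_iff_exists_fun] at this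
      exact this
    choose a ha using h3
    refine ⟨(Matrix.of a).det, ?_⟩
    have h4 := alt_det (exteriorPower.ιMulti (FnField I) n)
      (fun s => KaehlerDifferential.D ℂ (FnField I) (c.wL s)) (Matrix.of a)
    refine Eq.trans ?_ h4
    congr 1
    funext l
    exact (ha l).symm
  have h3 : t ∈ Submodule.span (FnField I) (Set.range (exteriorPower.ιMulti (FnField I) n
      (M := Ω[FnField I⁄ℂ]))) := by
    rw [h1]; trivial
  induction h3 using Submodule.span_induction with
  | mem x hx =>
    obtain ⟨v, rfl⟩ := hx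
    exact h2 v
  | zero => exact ⟨0, by rw [zero_smul]; rfl⟩
  | add x y _ _ hx hy =>
    obtain ⟨F, hF⟩ := hx
    obtain ⟨G, hG⟩ := hy
    exact ⟨F + G, by rw [add_smul, ← hF, ← hG]; rfl⟩
  | smul a x _ hx =>
    obtain ⟨F, hF⟩ := hx
    exact ⟨a * F, by rw [mul_smul, ← hF]; rfl⟩

end Crest.Agent.R269.DictC_795.CD

namespace Crest.Agent.R269.DictE_795

variable {N n : ℕ} {I : Ideal (HomCoordRing N)} [I.IsPrime]

theorem tprod_smul {L M : Type*} [CommRing L] [AddCommGroup M] [Module L M] {m : ℕ} (b : Fin m → L)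
    (v : Fin m → M) : PiTensorProduct.tprod L (fun k => b k • v k) =
      (∏ k, b k) • PiTensorProduct.tprod L v :=
  MultilinearMap.map_smul_univ _ b v

/-- a pure tensor power of a nonzero vector is nonzero -/
theorem tprod_const_ne_zero {L M : Type*} [Field L] [AddCommGroup M] [Module L M] {m : ℕ} {v : M}
    (hv : v ≠ 0) : PiTensorProduct.tprod L (fun _ : Fin m => v) ≠ 0 := by
  obtain ⟨f, hf⟩ := Module.Projective.exists_dual_ne_zero L hv
  intro h0
  let g : MultilinearMap L (fun _ : Fin m => M) L :=
    (MultilinearMap.mkPiAlgebra L (Fin m) L).compLinearMap (fun _ => f)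
  have h1 : PiTensorProduct.lift g (PiTensorProduct.tprod L (fun _ : Fin m => v)) = g (fun _ => v) :=
    PiTensorProduct.lift.tprod _
  rw [h0, map_zero] at h1
  have h2 : g (fun _ => v) = ∏ _k : Fin m, f v := rfl
  rw [h2] at h1
  exact (Finset.prod_ne_zero_iff.2 fun _ _ => hf) h1.symm

end Crest.Agent.R269.DictE_795

namespace Crest.Agent.R269.DictC_795.CD

open Crest.Agent.R269.DictE_795

variable {N n : ℕ} {I : Ideal (HomCoordRing N)} [I.IsPrime] {c : CD I n} {q : Fin (N + 1) → ℂ}

theorem Dom.wm_ne_zero (h : c.Dom q) (hX : IsSmoothProjective I n) (m : ℕ) : c.wm m ≠ 0 :=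
  tprod_const_ne_zero (h.ω_ne_zero hX)

/-- the coefficient is unique -/
theorem Dom.coeff_unique (h : c.Dom q) (hX : IsSmoothProjective I n) {m : ℕ} {F G : FnField I}
    (hFG : F • c.wm m = G • c.wm m) : F = G := by
  have h1 : (F - G) • c.wm m = 0 := by rw [sub_smul, hFG, sub_self]
  rcases smul_eq_zero.1 h1 with h2 | h2
  · exact sub_eq_zero.1 h2
  · exact absurd h2 (h.wm_ne_zero hX m)

/-- every rational pluricanonical form is a multiple of `(dw)^{⊗ m}` -/
theorem Dom.exists_coeff (h : c.Dom q) (hI : Hom I) {m : ℕ} (s : PluriForms I n m) :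
    ∃ F : FnField I, s = F • c.wm m := by
  have h1 : s ∈ Submodule.span (FnField I) (Set.range (PiTensorProduct.tprod (FnField I)
      (s := fun _ : Fin m => TopForms I n))) := by
    rw [PiTensorProduct.span_tprod_eq_top]; trivial
  induction h1 using Submodule.span_induction with
  | mem x hx =>
    obtain ⟨v, rfl⟩ := hx
    choose F hF using fun k => exists_smul_ω h hI (v k)
    refine ⟨∏ k, F k, ?_⟩
    have h2 : v = fun k => F k • c.ω := funext hF
    rw [h2, tprod_smul]; rfl
  | zero => exact ⟨0, (zero_smul _ _).symm⟩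
  | add x y _ _ hx hy =>
    obtain ⟨F, hF⟩ := hx
    obtain ⟨G, hG⟩ := hy
    exact ⟨F + G, by rw [add_smul, ← hF, ← hG]⟩
  | smul a x _ hx =>
    obtain ⟨F, hF⟩ := hx
    exact ⟨a * F, by rw [mul_smul, ← hF]⟩

/-- the coordinate function `w_s` in the local ring, coerced -/
theorem w_coe (h : c.Dom q) (s : Fin n) : (w h s : FnField I) = c.wL s := rfl

/-- local pluricanonical symbols -/
theorem exists_symbol (h : c.Dom q) (hI : Hom I) {m : ℕ} (a : Fin m → Fin n → stalk I q) :
    ∃ J : stalk I q, pluriSymbol I n m (fun k l => (a k l : FnField I)) = (J : FnField I) • c.wm m := by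
  choose C hC1 hC2 using fun k => exists_det h hI (a k)
  refine ⟨∏ k, (C k).det, ?_⟩
  unfold pluriSymbol
  have h1 : (fun k : Fin m => wedgeD I n (fun l => ((a k l : stalk I q) : FnField I))) =
      fun k => ((C k).det : FnField I) • c.ω := funext hC2
  rw [h1, tprod_smul]
  congr 1
  exact (map_prod (stalk I q).val _ _).symm

/-- change of coordinates: another coordinate system at the same point gives a unit multiple -/
theorem exists_unit_change {c c' : CD I n} (h : c.Dom q) (h' : c'.Dom q)
    (hX : IsSmoothProjective I n) : ∃ J : (stalk I q)ˣ, c'.ω = ((J : stalk I q) : FnField I) • c.ω := by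
  have hI : Hom I := hX.homogeneous
  obtain ⟨C, -, hC⟩ := exists_det h hI (w h')
  obtain ⟨C', -, hC'⟩ := exists_det h' hI (w h)
  have h1 : c'.ω = (C.det : FnField I) • c.ω := hC
  have h2 : c.ω = (C'.det : FnField I) • c'.ω := hC'
  have h3 : (C.det : FnField I) * (C'.det : FnField I) = 1 := by
    have h4 : ((1 : FnField I) - (C'.det : FnField I) * (C.det : FnField I)) • c.ω = 0 := by
      rw [sub_smul, one_smul, mul_smul, ← h1, ← h2, sub_self]
    rcases smul_eq_zero.1 h4 with h5 | h5
    · rw [mul_comm]; exact (sub_eq_zero.1 h5).symm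
    · exact absurd h5 (h.ω_ne_zero hX)
  refine ⟨⟨C.det, C'.det, Subtype.ext h3, Subtype.ext ?_⟩, h1⟩
  rw [mul_comm]; exact h3

theorem wm_change {c c' : CD I n} {J : FnField I} (hJ : c'.ω = J • c.ω) (m : ℕ) :
    c'.wm m = J ^ m • c.wm m := by
  unfold wm
  have : (fun _ : Fin m => c'.ω) = fun _ => J • c.ω := by funext; exact hJ
  rw [this, tprod_smul]; simp

end Crest.Agent.R269.DictC_795.CD

namespace Crest.Agent.R269.DictE_795

variable {N n : ℕ} {I : Ideal (HomCoordRing N)} [I.IsPrime]

/-- `s` is regular at `p`: in some coordinates its coefficient is in the local ring -/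
def RegAt (n m : ℕ) (p : Fin (N + 1) → ℂ) (s : PluriForms I n m) : Prop :=
  ∃ (c : CD I n) (_ : c.Dom p) (F : stalk I p), s = (F : FnField I) • c.wm m

theorem RegAt.of_coord {m : ℕ} {p : Fin (N + 1) → ℂ} {s : PluriForms I n m}
    (hX : IsSmoothProjective I n) (hs : RegAt n m p s) (c : CD I n) (h : c.Dom p) :
    ∃ F : stalk I p, s = (F : FnField I) • c.wm m := by
  obtain ⟨c', h', F, hF⟩ := hs
  obtain ⟨J, hJ⟩ := CD.exists_unit_change h h' hX
  refine ⟨F * (J : stalk I p) ^ m, ?_⟩
  rw [hF, CD.wm_change hJ m, smul_smul]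
  rfl

/-- sections over a chart are regular at the points of the chart -/
theorem regAt_of_mem_chartSections (hX : IsSmoothProjective I n) {m : ℕ} {p : Fin (N + 1) → ℂ}
    (hp : p ∈ affineCone I) {i : Fin (N + 1)} (hpi : p i ≠ 0) {s : PluriForms I n m}
    (hs : s ∈ chartSections I n m i) {c : CD I n} (h : c.Dom p) :
    ∃ F : stalk I p, s = (F : FnField I) • c.wm m := by
  have hI : Hom I := hX.homogeneous
  unfold chartSections at hs
  induction hs using Submodule.span_induction with
  | mem x hx =>
    obtain ⟨b, a, rfl⟩ := hx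
    have hle := chartRing_le_stalk hp hpi
    obtain ⟨J, hJ⟩ := CD.exists_symbol h hI (m := m) (fun k l => (⟨a k l, hle (a k l).2⟩ : stalk I p))
    refine ⟨⟨b, hle b.2⟩ * J, ?_⟩
    have h1 : (PiTensorProduct.tprod (FnField I) fun k : Fin m =>
        wedgeD I n fun l => ((a k l : chartRing I i) : FnField I)) = (J : FnField I) • c.wm m := hJ
    rw [h1, smul_smul]; rfl
  | zero => exact ⟨0, (zero_smul _ _).symm⟩
  | add x y _ _ hx hy =>
    obtain ⟨F, hF⟩ := hx
    obtain ⟨G, hG⟩ := hy
    exact ⟨F + G, by rw [hF, hG, ← add_smul]; rfl⟩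
  | smul a x _ hx =>
    obtain ⟨F, hF⟩ := hx
    refine ⟨algebraMap ℂ _ a * F, ?_⟩
    rw [hF]
    have : ((algebraMap ℂ (stalk I p) a * F : stalk I p) : FnField I) =
      algebraMap ℂ (FnField I) a * (F : FnField I) := rfl
    rw [this, mul_smul, algebraMap_smul]

/-- `chartSections` is closed under multiplication by the chart ring -/
theorem smul_mem_chartSections {m : ℕ} {i : Fin (N + 1)} (b : chartRing I i) {s : PluriForms I n m}
    (hs : s ∈ chartSections I n m i) : (b : FnField I) • s ∈ chartSections I n m i := by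
  unfold chartSections at hs ⊢
  induction hs using Submodule.span_induction with
  | mem x hx =>
    obtain ⟨b', a, rfl⟩ := hx
    apply Submodule.subset_span
    refine ⟨b * b', a, ?_⟩
    rw [smul_smul]; rfl
  | zero => rw [smul_zero]; exact Submodule.zero_mem _
  | add x y _ _ hx hy => rw [smul_add]; exact Submodule.add_mem _ hx hy
  | smul a x _ hx =>
    rw [smul_comm]
    exact Submodule.smul_mem _ _ hx

/-- **Local-to-global**: a form regular at every point of the chart `x_i ≠ 0` is a section over the
chart. -/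
theorem mem_chartSections_of_regAt (hX : IsSmoothProjective I n) {m : ℕ} {i : Fin (N + 1)}
    (hXi : (X i : HomCoordRing N) ∉ I) {s : PluriForms I n m}
    (hs : ∀ p ∈ affineCone I, p i ≠ 0 → RegAt n m p s) : s ∈ chartSections I n m i := by
  have hI : Hom I := hX.homogeneous
  let 𝔞 : Ideal (HomCoordRing N) :=
    { carrier := {G | dh I i G • s ∈ chartSections I n m i}
      add_mem' := fun {a b} ha hb => by
        simp only [Set.mem_ofPred_eq, map_add, add_smul] at *
        exact Submodule.add_mem _ ha hb
      zero_mem' := by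
        simp only [Set.mem_ofPred_eq, map_zero, zero_smul]; exact Submodule.zero_mem _
      smul_mem' := fun a b hb => by
        simp only [Set.mem_ofPred_eq, smul_eq_mul, map_mul, mul_smul] at *
        exact smul_mem_chartSections ⟨dh I i a, dh_mem_chartRing i a⟩ hb }
  have h𝔞 : ∀ G, G ∈ 𝔞 ↔ dh I i G • s ∈ chartSections I n m i := fun G => Iff.rfl
  have htop : 𝔞 = ⊤ := by
    by_contra hne
    obtain ⟨𝔪, h𝔪, hle⟩ := Ideal.exists_le_maximal 𝔞 hne
    rw [isMaximal_iff_eq_vanishingIdeal_singleton] at h𝔪
    obtain ⟨q, hq⟩ := h𝔪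
    have hev : ∀ G ∈ 𝔞, eval q G = 0 := by
      intro G hG
      have := hle hG
      rw [hq, mem_vanishingIdeal_iff] at this
      simpa [coe_aeval_eq_eval] using this q rfl
    have hqcone : q ∈ affineCone I := by
      intro F hF
      apply hev
      rw [h𝔞, dh_eq_zero_of_mem hI hXi hF, zero_smul]
      exact Submodule.zero_mem _
    have hqi : q i = 1 := by
      have h1 : X i - 1 ∈ 𝔞 := by
        rw [h𝔞, map_sub, map_one]
        have : dh I i (X i) = 1 := by
          unfold dh; rw [aeval_X]; exact fnRatio_self hXi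
        rw [this, sub_self, zero_smul]
        exact Submodule.zero_mem _
      have h2 := hev _ h1
      simp only [map_sub, eval_X, map_one, sub_eq_zero] at h2
      exact h2
    have hqi0 : q i ≠ 0 := by rw [hqi]; exact one_ne_zero
    have hq0 : q ≠ 0 := fun h0 => hqi0 (by rw [h0]; rfl)
    obtain ⟨c, hc, hci⟩ := exists_CD hX hqcone hq0 hqi0
    obtain ⟨F, hF⟩ := RegAt.of_coord hX (hs q hqcone hqi0) c hc
    obtain ⟨k, G, H, hG, hH, hqH, -, he, -⟩ := exists_dhA hqcone hqi0 F
    have h3 : H ∈ 𝔞 := by
      rw [h𝔞, hF, smul_smul]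
      have h4 : dh I i H * (F : FnField I) = dh I i G := by
        have h5 : (F : FnField I) * (dhA hqcone hqi0 H : FnField I) =
            (dhA hqcone hqi0 G : FnField I) := congrArg Subtype.val he
        rw [coe_dhA, coe_dhA] at h5
        rw [← h5, mul_comm]
      rw [h4]
      unfold chartSections
      apply Submodule.subset_span
      subst hci
      refine ⟨⟨dh I c.i G, dh_mem_chartRing c.i G⟩, fun _ s => ⟨c.wL s, ?_⟩, rfl⟩
      unfold chartRing
      exact Algebra.subset_adjoin ⟨_, rfl⟩
    exact hqH (hev H h3)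
  have h1 : (1 : HomCoordRing N) ∈ 𝔞 := by rw [htop]; trivial
  rw [h𝔞, map_one, one_smul] at h1
  exact h1

end Crest.Agent.R269.DictE_795
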