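import Mathlib
import Crest.Prelude.Def_ProjPluricanonical
import Crest.Agent.R269.DictA_795
import Crest.Agent.R269.DictB_795
import Crest.Agent.R269.DictC_795
import Crest.Agent.R269.DictD_795
import Crest.Agent.R269.DictE_795

/-!
Row 269, DICT, part F: membership criteria and the criterion for `IsCanonicallyAmple` by 1-jets.
-/

set_option autoImplicit false
set_option linter.unusedSectionVars false

open MvPolynomial Crest.AlgGeometry.ProjEmb
open Crest.Agent.R269.DictA_795 Crest.Agent.R269.DictB_795 Crest.Agent.R269.DictC_795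
open Crest.Agent.R269.DictD_795 Crest.Agent.R269.DictE_795

noncomputable section

namespace Crest.Agent.R269.DictF_795

variable {N n : ℕ} {I : Ideal (HomCoordRing N)} [I.IsPrime]

theorem exists_coord_ne {p : Fin (N + 1) → ℂ} (hp0 : p ≠ 0) : ∃ i, p i ≠ 0 := by
  by_contra h
  push Not at h
  exact hp0 (funext h)

/-- coordinates exist at every point -/
theorem exists_CD' (hX : IsSmoothProjective I n) {p : Fin (N + 1) → ℂ} (hp : p ∈ affineCone I)
    (hp0 : p ≠ 0) : ∃ c : CD I n, c.Dom p := by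
  obtain ⟨i, hi⟩ := exists_coord_ne hp0
  obtain ⟨c, hc, -⟩ := exists_CD hX hp hp0 hi
  exact ⟨c, hc⟩

/-- **Global sections are the forms regular at every point.** -/
theorem mem_pluricanonicalSections_iff (hX : IsSmoothProjective I n) {m : ℕ}
    {s : PluriForms I n m} :
    s ∈ pluricanonicalSections I n m ↔ ∀ p ∈ affineCone I, p ≠ 0 → RegAt n m p s := by
  unfold pluricanonicalSections
  simp only [Submodule.mem_iInf]
  constructor
  · intro h p hp hp0
    obtain ⟨i, hi⟩ := exists_coord_ne hp0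
    obtain ⟨c, hc, -⟩ := exists_CD hX hp hp0 hi
    obtain ⟨F, hF⟩ := regAt_of_mem_chartSections hX hp hi (h i (X_not_mem hp hi)) hc
    exact ⟨c, hc, F, hF⟩
  · intro h i hi
    refine mem_chartSections_of_regAt hX hi fun p hp hpi => h p hp ?_
    intro h0; exact hpi (by rw [h0]; rfl)

/-! ### Vanishing sections -/

/-- maximal ideal of the local ring -/
def mx {p : Fin (N + 1) → ℂ} (hp : p ∈ affineCone I) : Ideal (stalk I p) :=
  RingHom.ker (ev hp).toRingHom

theorem mem_mx {p : Fin (N + 1) → ℂ} (hp : p ∈ affineCone I) {u : stalk I p} :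
    u ∈ mx hp ↔ ev hp u = 0 := RingHom.mem_ker

theorem mx_isMaximal {p : Fin (N + 1) → ℂ} (hp : p ∈ affineCone I) : (mx hp).IsMaximal := by
  unfold mx
  apply RingHom.ker_isMaximal_of_surjective
  intro a
  exact ⟨algebraMap ℂ (stalk I p) a, (ev hp).commutes a⟩

theorem mem_vanishingSections_iff (hX : IsSmoothProjective I n) {m : ℕ} {p : Fin (N + 1) → ℂ}
    {c : CD I n} (h : c.Dom p) {s : PluriForms I n m} :
    s ∈ vanishingSections I n m p ↔
      ∃ F : stalk I p, ev h.cone F = 0 ∧ s = (F : FnField I) • c.wm m := by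
  have hI : Hom I := hX.homogeneous
  constructor
  · intro hs
    unfold vanishingSections at hs
    induction hs using Submodule.span_induction with
    | mem x hx =>
      obtain ⟨b, a, hb, ha, rfl⟩ := hx
      obtain ⟨J, hJ⟩ := CD.exists_symbol h hI (m := m) (fun k l => (⟨a k l, ha k l⟩ : stalk I p))
      have hb' : b ∈ stalk I p := stalkMaxFn_subset_stalkFn hb
      refine ⟨⟨b, hb'⟩ * J, ?_, ?_⟩
      · rw [map_mul]
        have : ev h.cone ⟨b, hb'⟩ = 0 := (mem_stalkMaxFn_iff_ev h.cone ⟨b, hb'⟩).1 hb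
        rw [this, zero_mul]
      · have h1 : pluriSymbol I n m a = (J : FnField I) • c.wm m := hJ
        rw [h1, smul_smul]; rfl
    | zero => exact ⟨0, map_zero _, (zero_smul _ _).symm⟩
    | add x y _ _ hx hy =>
      obtain ⟨F, hF0, hF⟩ := hx
      obtain ⟨G, hG0, hG⟩ := hy
      exact ⟨F + G, by rw [map_add, hF0, hG0, add_zero], by rw [hF, hG, ← add_smul]; rfl⟩
    | smul a x _ hx =>
      obtain ⟨F, hF0, hF⟩ := hx
      refine ⟨algebraMap ℂ _ a * F, by rw [map_mul, hF0, mul_zero], ?_⟩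
      rw [hF]
      have : ((algebraMap ℂ (stalk I p) a * F : stalk I p) : FnField I) =
        algebraMap ℂ (FnField I) a * (F : FnField I) := rfl
      rw [this, mul_smul, algebraMap_smul]
  · rintro ⟨F, hF0, rfl⟩
    unfold vanishingSections
    apply Submodule.subset_span
    exact ⟨F, fun _ => c.wL, (mem_stalkMaxFn_iff_ev h.cone F).2 hF0,
      fun _ s => (CD.w h s).2, rfl⟩

theorem mem_vanishingSections2_iff (hX : IsSmoothProjective I n) {m : ℕ} {p : Fin (N + 1) → ℂ}
    {c : CD I n} (h : c.Dom p) {s : PluriForms I n m} :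
    s ∈ vanishingSections2 I n m p ↔
      ∃ F : stalk I p, F ∈ mx h.cone ^ 2 ∧ s = (F : FnField I) • c.wm m := by
  have hI : Hom I := hX.homogeneous
  constructor
  · intro hs
    unfold vanishingSections2 at hs
    induction hs using Submodule.span_induction with
    | mem x hx =>
      obtain ⟨b, b', a, hb, hb', ha, rfl⟩ := hx
      obtain ⟨J, hJ⟩ := CD.exists_symbol h hI (m := m) (fun k l => (⟨a k l, ha k l⟩ : stalk I p))
      have h1 : b ∈ stalk I p := stalkMaxFn_subset_stalkFn hb
      have h1' : b' ∈ stalk I p := stalkMaxFn_subset_stalkFn hb'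
      have h2 : (⟨b, h1⟩ : stalk I p) ∈ mx h.cone :=
        (mem_mx _).2 ((mem_stalkMaxFn_iff_ev h.cone ⟨b, h1⟩).1 hb)
      have h2' : (⟨b', h1'⟩ : stalk I p) ∈ mx h.cone :=
        (mem_mx _).2 ((mem_stalkMaxFn_iff_ev h.cone ⟨b', h1'⟩).1 hb')
      refine ⟨⟨b, h1⟩ * ⟨b', h1'⟩ * J, ?_, ?_⟩
      · rw [pow_two]
        exact Ideal.mul_mem_right _ _ (Ideal.mul_mem_mul h2 h2')
      · have h1 : pluriSymbol I n m a = (J : FnField I) • c.wm m := hJ
        rw [h1, smul_smul]; rfl
    | zero => exact ⟨0, Submodule.zero_mem _, (zero_smul _ _).symm⟩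
    | add x y _ _ hx hy =>
      obtain ⟨F, hF0, hF⟩ := hx
      obtain ⟨G, hG0, hG⟩ := hy
      exact ⟨F + G, Submodule.add_mem _ hF0 hG0, by rw [hF, hG, ← add_smul]; rfl⟩
    | smul a x _ hx =>
      obtain ⟨F, hF0, hF⟩ := hx
      refine ⟨algebraMap ℂ _ a * F, Ideal.mul_mem_left _ _ hF0, ?_⟩
      rw [hF]
      have : ((algebraMap ℂ (stalk I p) a * F : stalk I p) : FnField I) =
        algebraMap ℂ (FnField I) a * (F : FnField I) := rfl
      rw [this, mul_smul, algebraMap_smul]
  · rintro ⟨F, hF0, rfl⟩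
    rw [pow_two] at hF0
    unfold vanishingSections2
    induction hF0 using Submodule.mul_induction_on' with
    | mem_mul_mem b hb b' hb' =>
      apply Submodule.subset_span
      exact ⟨b, b', fun _ => c.wL, (mem_stalkMaxFn_iff_ev h.cone b).2 ((mem_mx _).1 hb),
        (mem_stalkMaxFn_iff_ev h.cone b').2 ((mem_mx _).1 hb'), fun _ s => (CD.w h s).2, rfl⟩
    | add x _ y _ hx hy =>
      have : ((x + y : stalk I p) : FnField I) = (x : FnField I) + (y : FnField I) := rfl
      rw [this, add_smul]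
      exact Submodule.add_mem _ hx hy

/-! ### Derivations at points -/

/-- `δ` is a derivation of the local ring along the homomorphism `φ` -/
structure IsDerAlong {A B : Type*} [CommRing A] [Algebra ℂ A] [CommRing B] [Algebra ℂ B]
    (φ : A →ₐ[ℂ] B) (δ : A → B) : Prop where
  add : ∀ u v, δ (u + v) = δ u + δ v
  mul : ∀ u v, δ (u * v) = φ u * δ v + φ v * δ u
  alg : ∀ a : ℂ, δ (algebraMap ℂ A a) = 0

/-- universal coefficients compute every derivation along a homomorphism -/
theorem IsDerAlong.eq_sum {A B : Type*} [CommRing A] [Algebra ℂ A] [CommRing B] [Algebra ℂ B]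
    {φ : A →ₐ[ℂ] B} {δ : A → B} (hδ : IsDerAlong φ δ) {m : ℕ} {u : A} {a w : Fin m → A}
    (h : KaehlerDifferential.D ℂ A u = ∑ s, a s • KaehlerDifferential.D ℂ A (w s)) :
    δ u = ∑ s, φ (a s) * δ (w s) := by
  let _ : Module A B := Module.compHom B φ.toRingHom
  have hsm : ∀ (a : A) (b : B), a • b = φ a * b := fun _ _ => rfl
  have : IsScalarTower ℂ A B := ⟨fun c a b => by
    rw [hsm, hsm, map_smul, smul_mul_assoc]⟩
  let L : A →ₗ[ℂ] B :=
    { toFun := δ
      map_add' := hδ.add
      map_smul' := fun c u => by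
        rw [Algebra.smul_def, hδ.mul, hδ.alg, mul_zero, add_zero, AlgHom.commutes,
          RingHom.id_apply, Algebra.smul_def] }
  let D : Derivation ℂ A B :=
    Derivation.mk' L (fun a b => by rw [hsm, hsm]; exact hδ.mul a b)
  have h1 := der_of_universal D h
  exact h1

/-- tangent vectors to the cone at `p` -/
def IsTan (I : Ideal (HomCoordRing N)) (p v : Fin (N + 1) → ℂ) : Prop :=
  ∀ F ∈ I, ∑ j, grad F p j * v j = 0

/-- evaluation of a polynomial on dual numbers `p + ε v` -/
theorem aeval_dual (p v : Fin (N + 1) → ℂ) (G : HomCoordRing N) :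
    aeval (fun j => (TrivSqZeroExt.inl (p j) + TrivSqZeroExt.inr (v j) : TrivSqZeroExt ℂ ℂ)) G =
      TrivSqZeroExt.inl (eval p G) + TrivSqZeroExt.inr (∑ j, grad G p j * v j) := by
  induction G using MvPolynomial.induction_on with
  | C a =>
    rw [← MvPolynomial.algebraMap_eq, AlgHom.commutes]
    have h1 : (algebraMap ℂ (TrivSqZeroExt ℂ ℂ)) a = TrivSqZeroExt.inl a := rfl
    rw [h1]
    ext
    · simp [MvPolynomial.algebraMap_eq]
    · simp [grad, MvPolynomial.algebraMap_eq]
  | add p q hp hq =>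
    rw [map_add, hp, hq]
    ext
    · simp
    · simp [grad_add, add_mul, Finset.sum_add_distrib]
  | mul_X G i hG =>
    rw [map_mul, hG, aeval_X]
    ext
    · simp
    · have h1 : ∑ j, grad (G * X i) p j * v j =
          eval p G * v i + p i * ∑ j, grad G p j * v j := by
        unfold grad
        simp only [pderiv_mul, map_add, map_mul, eval_X, add_mul, Finset.sum_add_distrib]
        rw [add_comm]
        congr 1
        · rw [Finset.sum_eq_single i]
          · simp
          · intro j _ hj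
            rw [pderiv_X_of_ne (Ne.symm hj)]; simp
          · simp
        · rw [Finset.mul_sum]
          refine Finset.sum_congr rfl fun j _ => by ring
      simp only [TrivSqZeroExt.snd_mul, TrivSqZeroExt.fst_add, TrivSqZeroExt.fst_inl,
        TrivSqZeroExt.fst_inr, add_zero, TrivSqZeroExt.snd_add, TrivSqZeroExt.snd_inl,
        TrivSqZeroExt.snd_inr, zero_add, smul_eq_mul, MulOpposite.smul_eq_mul_unop,
        MulOpposite.unop_op]
      rw [h1]; ring

theorem isPt_dual {p : Fin (N + 1) → ℂ} (hp : p ∈ affineCone I) {v : Fin (N + 1) → ℂ}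
    (hv : IsTan I p v) : IsPt I p (aeval
      (fun j => (TrivSqZeroExt.inl (p j) + TrivSqZeroExt.inr (v j) : TrivSqZeroExt ℂ ℂ))) where
  zero F hF := by
    rw [aeval_dual, hp F hF, hv F hF]; simp
  unit k H _ h0 := by
    rw [aeval_dual, TrivSqZeroExt.isUnit_iff_isUnit_fst]
    simpa using h0

/-- the differential of a regular function at `p` in the tangent direction `v` -/
def dv {p : Fin (N + 1) → ℂ} (hp : p ∈ affineCone I) {v : Fin (N + 1) → ℂ}
    (hv : IsTan I p v) (u : stalk I p) : ℂ := (evalHom (isPt_dual hp hv) u).snd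

theorem fst_evalHom_dual {p : Fin (N + 1) → ℂ} (hp : p ∈ affineCone I) {v : Fin (N + 1) → ℂ}
    (hv : IsTan I p v) (u : stalk I p) : (evalHom (isPt_dual hp hv) u).fst = ev hp u := by
  obtain ⟨k, G, H, hG, hH, hpH, hr⟩ := exists_rep u
  have h1 := evalHom_spec (isPt_dual hp hv) u hr
  rw [aeval_dual, aeval_dual] at h1
  have h2 := congrArg TrivSqZeroExt.fst h1
  simp only [TrivSqZeroExt.fst_mul, TrivSqZeroExt.fst_add, TrivSqZeroExt.fst_inl,
    TrivSqZeroExt.fst_inr, add_zero] at h2
  rw [ev_eq_div hp u hr hpH, eq_div_iff hpH, mul_comm]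
  exact h2

/-- formula for the differential -/
theorem dv_spec {p : Fin (N + 1) → ℂ} (hp : p ∈ affineCone I) {v : Fin (N + 1) → ℂ}
    (hv : IsTan I p v) (u : stalk I p) {G H : HomCoordRing N} (hr : IsRep (u : FnField I) G H) :
    eval p H * dv hp hv u + ev hp u * ∑ j, grad H p j * v j = ∑ j, grad G p j * v j := by
  have h1 := evalHom_spec (isPt_dual hp hv) u hr
  rw [aeval_dual, aeval_dual] at h1
  have h2 := congrArg TrivSqZeroExt.snd h1
  simp only [TrivSqZeroExt.snd_mul, TrivSqZeroExt.fst_add, TrivSqZeroExt.fst_inl,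
    TrivSqZeroExt.fst_inr, add_zero, TrivSqZeroExt.snd_add, TrivSqZeroExt.snd_inl,
    TrivSqZeroExt.snd_inr, zero_add, smul_eq_mul, MulOpposite.smul_eq_mul_unop,
    MulOpposite.unop_op] at h2
  rw [fst_evalHom_dual hp hv] at h2
  unfold dv
  rw [← h2]; ring

theorem isDerAlong_dv {p : Fin (N + 1) → ℂ} (hp : p ∈ affineCone I) {v : Fin (N + 1) → ℂ}
    (hv : IsTan I p v) : IsDerAlong (ev hp) (dv hp hv) where
  add u u' := by simp [dv]
  mul u u' := by
    simp only [dv, map_mul, TrivSqZeroExt.snd_mul, smul_eq_mul,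
      MulOpposite.smul_eq_mul_unop, MulOpposite.unop_op]
    rw [fst_evalHom_dual hp hv, fst_evalHom_dual hp hv]
    ring
  alg a := by
    unfold dv
    rw [AlgHom.commutes]; rfl

/-! ### 1-jets -/

/-- existence of tangent vectors with prescribed values on the coordinates -/
theorem exists_tan (hX : IsSmoothProjective I n) {p : Fin (N + 1) → ℂ} {c : CD I n} (h : c.Dom p)
    (t : Fin n → ℂ) : ∃ (v : Fin (N + 1) → ℂ) (hv : IsTan I p v),
      v c.i = 0 ∧ ∀ s, dv h.cone hv (CD.w h s) = t s := by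
  let v : Fin (N + 1) → ℂ := fun j =>
    ∑ s, (t s * p c.i / eval p c.δ) * eval p (c.tcoef s j)
  have hv : IsTan I p v := by
    intro F hF
    have h1 : ∑ j, grad F p j * v j =
        ∑ s, (t s * p c.i / eval p c.δ) * ∑ j, grad F p j * eval p (c.tcoef s j) := by
      simp only [v, Finset.mul_sum]
      rw [Finset.sum_comm]
      refine Finset.sum_congr rfl fun s _ => Finset.sum_congr rfl fun j _ => by ring
    rw [h1]
    refine Finset.sum_eq_zero fun s _ => ?_
    rw [← CD.eval_θ, c.eval_θ_eq_zero hX h.cone h.ne_zero h.δ hF s, mul_zero]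
  have hvi : v c.i = 0 := by
    simp only [v]
    refine Finset.sum_eq_zero fun s _ => ?_
    rw [CD.tcoef_i, map_zero, mul_zero]
  have hvS : ∀ s, v (c.S s) = t s * p c.i := by
    intro s
    simp only [v]
    rw [Finset.sum_eq_single s]
    · rw [CD.tcoef_S, if_pos rfl]
      field_simp [h.δ]
    · intro s' _ hs'
      rw [CD.tcoef_S, if_neg (Ne.symm hs'), map_zero, mul_zero]
    · simp
  refine ⟨v, hv, hvi, fun s => ?_⟩
  have hr : IsRep ((CD.w h s : stalk I p) : FnField I) (X (c.S s)) (X c.i) :=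
    rep_fnRatio h.not_mem_i _
  have h2 := dv_spec h.cone hv (CD.w h s) hr
  have h3 : ∀ k, ∑ j, grad (X k : HomCoordRing N) p j * v j = v k := by
    intro k
    rw [Finset.sum_eq_single k]
    · simp [grad]
    · intro j _ hj
      unfold grad
      rw [pderiv_X_of_ne (Ne.symm hj)]; simp
    · simp
  rw [h3, h3, hvi, mul_zero, add_zero, hvS, eval_X] at h2
  have := mul_left_cancel₀ h.i (h2.trans (mul_comm _ _))
  exact this

/-- a regular function with vanishing value and vanishing differential is in the square of the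
maximal ideal -/
theorem mem_mx_sq (hX : IsSmoothProjective I n) {p : Fin (N + 1) → ℂ} {c : CD I n} (h : c.Dom p)
    {u : stalk I p} (h0 : ev h.cone u = 0)
    (h1 : ∀ (v : Fin (N + 1) → ℂ) (hv : IsTan I p v), dv h.cone hv u = 0) :
    u ∈ mx h.cone ^ 2 := by
  obtain ⟨a, ha⟩ := CD.exists_coeff h hX.homogeneous u
  have h2 : ∀ s, ev h.cone (a s) = 0 := by
    intro s
    obtain ⟨v, hv, -, hvs⟩ := exists_tan hX h (Pi.single s 1)
    have h3 := (isDerAlong_dv h.cone hv).eq_sum ha
    rw [h1 v hv] at h3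
    simp_rw [hvs] at h3
    simpa [Pi.single_apply] using h3.symm
  -- the derivation `u ↦ class of u - u(p)` in `𝔪/𝔪²`
  let 𝔪 := mx h.cone
  let A := stalk I p
  let Q := A ⧸ (𝔪 ^ 2)
  have hδ : ∀ x y : A, (x * y - algebraMap ℂ A (ev h.cone (x * y))) -
      (x * (y - algebraMap ℂ A (ev h.cone y)) + y * (x - algebraMap ℂ A (ev h.cone x))) ∈ 𝔪 ^ 2 := by
    intro x y
    have h4 : (x * y - algebraMap ℂ A (ev h.cone (x * y))) -
      (x * (y - algebraMap ℂ A (ev h.cone y)) + y * (x - algebraMap ℂ A (ev h.cone x))) =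
      - ((x - algebraMap ℂ A (ev h.cone x)) * (y - algebraMap ℂ A (ev h.cone y))) := by
      rw [map_mul, map_mul]; ring
    rw [h4, pow_two]
    refine Submodule.neg_mem _ (Ideal.mul_mem_mul ?_ ?_)
    · rw [mem_mx, map_sub, AlgHom.commutes, Algebra.algebraMap_self, RingHom.id_apply, sub_self]
    · rw [mem_mx, map_sub, AlgHom.commutes, Algebra.algebraMap_self, RingHom.id_apply, sub_self]
  have hder : IsDerAlong (Ideal.Quotient.mkₐ ℂ (𝔪 ^ 2))
      (fun x : A => Ideal.Quotient.mk (𝔪 ^ 2) (x - algebraMap ℂ A (ev h.cone x))) := by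
    refine ⟨fun x y => ?_, fun x y => ?_, fun a => ?_⟩
    · rw [← map_add]; congr 1
      rw [map_add, map_add]; ring
    · have h5 := hδ x y
      rw [← Ideal.Quotient.eq_zero_iff_mem, map_sub, sub_eq_zero] at h5
      rw [h5, map_add, map_mul, map_mul]; rfl
    · change Ideal.Quotient.mk (𝔪 ^ 2) (algebraMap ℂ A a - algebraMap ℂ A (ev h.cone (algebraMap ℂ A a))) = 0
      rw [AlgHom.commutes, Algebra.algebraMap_self, RingHom.id_apply, sub_self, map_zero]
  have h6 := hder.eq_sum ha
  simp only [h0, map_zero, sub_zero] at h6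
  rw [← Ideal.Quotient.eq_zero_iff_mem, h6]
  refine Finset.sum_eq_zero fun s _ => ?_
  rw [Ideal.Quotient.mkₐ_eq_mk, ← map_mul, Ideal.Quotient.eq_zero_iff_mem, pow_two]
  refine Ideal.mul_mem_mul ((mem_mx _).2 (h2 s)) ?_
  rw [mem_mx, map_sub, AlgHom.commutes, Algebra.algebraMap_self, RingHom.id_apply, sub_self]

/-- **Criterion for ampleness of the canonical bundle by 1-jets in coordinates.** -/
theorem isCanonicallyAmple_of_jets (hX : IsSmoothProjective I n) {m : ℕ} (hm : 1 ≤ m)
    (hbp : ∀ (p : Fin (N + 1) → ℂ) (c : CD I n) (h : c.Dom p), ∃ s ∈ pluricanonicalSections I n m,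
      ∃ F : stalk I p, s = (F : FnField I) • c.wm m ∧ ev h.cone F ≠ 0)
    (hsep : ∀ (p q : Fin (N + 1) → ℂ) (c c' : CD I n) (h : c.Dom p) (h' : c'.Dom q),
      (∀ a : ℂ, q ≠ a • p) → ∃ s ∈ pluricanonicalSections I n m,
      ∃ (F : stalk I p) (G : stalk I q), s = (F : FnField I) • c.wm m ∧
        s = (G : FnField I) • c'.wm m ∧ ev h.cone F = 0 ∧ ev h'.cone G ≠ 0)
    (htan : ∀ (p : Fin (N + 1) → ℂ) (c : CD I n) (h : c.Dom p) (t : Fin n → ℂ),
      ∃ s ∈ pluricanonicalSections I n m,
      ∃ F : stalk I p, s = (F : FnField I) • c.wm m ∧ ev h.cone F = 0 ∧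
        ∀ (v : Fin (N + 1) → ℂ) (hv : IsTan I p v),
          dv h.cone hv F = ∑ s, t s * dv h.cone hv (CD.w h s)) :
    IsCanonicallyAmple I n := by
  refine ⟨m, hm, ?_, ?_, ?_⟩
  · intro p hp hp0
    obtain ⟨c, h⟩ := exists_CD' hX hp hp0
    obtain ⟨s, hs, F, hF, hF0⟩ := hbp p c h
    refine ⟨s, hs, fun hv => hF0 ?_⟩
    obtain ⟨G, hG0, hG⟩ := (mem_vanishingSections_iff hX h).1 hv
    have : F = G := Subtype.ext (h.coeff_unique hX (hF.symm.trans hG))
    rw [this]; exact hG0
  · intro p hp q hq hp0 hq0 hpq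
    obtain ⟨c, h⟩ := exists_CD' hX hp hp0
    obtain ⟨c', h'⟩ := exists_CD' hX hq hq0
    obtain ⟨s, hs, F, G, hF, hG, hF0, hG0⟩ := hsep p q c c' h h' hpq
    refine ⟨s, hs, (mem_vanishingSections_iff hX h).2 ⟨F, hF0, hF⟩, fun hv => hG0 ?_⟩
    obtain ⟨G', hG0', hG'⟩ := (mem_vanishingSections_iff hX h').1 hv
    have : G = G' := Subtype.ext (h'.coeff_unique hX (hG.symm.trans hG'))
    rw [this]; exact hG0'
  · intro p hp hp0 s hs
    obtain ⟨c, h⟩ := exists_CD' hX hp hp0
    obtain ⟨F, hF0, hF⟩ := (mem_vanishingSections_iff hX h).1 hs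
    obtain ⟨a, ha⟩ := CD.exists_coeff h hX.homogeneous F
    obtain ⟨s', hs', F', hF', hF0', hd⟩ := htan p c h (fun s => ev h.cone (a s))
    have h1 : F - F' ∈ mx h.cone ^ 2 := by
      apply mem_mx_sq hX h
      · rw [map_sub, hF0, hF0', sub_zero]
      · intro v hv
        have h2 := (isDerAlong_dv h.cone hv).eq_sum ha
        have h3 : dv h.cone hv (F - F') = dv h.cone hv F - dv h.cone hv F' := by
          simp [dv]
        rw [h3, h2, hd v hv, sub_self]
    have h4 : s = s' + (((F - F' : stalk I p) : FnField I) • c.wm m) := by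
      have h5 : ((F - F' : stalk I p) : FnField I) = (F : FnField I) - (F' : FnField I) := rfl
      rw [h5, sub_smul, ← hF, ← hF']; abel
    rw [h4]
    exact Submodule.add_mem_sup ⟨hs', (mem_vanishingSections_iff hX h).2 ⟨F', hF0', hF'⟩⟩
      ((mem_vanishingSections2_iff hX h).2 ⟨_, h1, rfl⟩)

end Crest.Agent.R269.DictF_795
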