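import Mathlib
import Crest.Agent.R271.UfdF_243

/-!
Row 269, DICT, part G1: if `g : ℂ[z_1..z_n] → A` is étale and `φ : A → L` is a homomorphism to a field
`L` with derivations dual to `φ (g z_s)`, then the image of `φ` is étale over `ℂ[z]`.
-/

set_option autoImplicit false

open MvPolynomial

noncomputable section

namespace Crest.Agent.R269.DictG1_795

/-- uniqueness of derivations over a formally unramified algebra -/
theorem der_unique {P A S : Type*} [CommRing P] [CommRing A] [CommRing S] [Algebra P A]
    [Algebra.FormallyUnramified P A] (φ : A →+* S) (δ : A → S)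
    (hadd : ∀ u v, δ (u + v) = δ u + δ v) (hmul : ∀ u v, δ (u * v) = φ u * δ v + φ v * δ u)
    (h0 : ∀ p : P, δ (algebraMap P A p) = 0) (u : A) : δ u = 0 := by
  let _ : Module A S := Module.compHom S φ
  let _ : Module P S := Module.compHom S (algebraMap P A)
  have hsm : ∀ (a : A) (b : S), a • b = φ a * b := fun _ _ => rfl
  have hsm' : ∀ (a : P) (b : S), a • b = algebraMap P A a • b := fun _ _ => rfl
  have : IsScalarTower P A S := ⟨fun c a b => by
    rw [hsm', smul_smul, Algebra.smul_def]⟩
  let L : A →ₗ[P] S :=
    { toFun := δ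
      map_add' := hadd
      map_smul' := fun c u => by
        rw [Algebra.smul_def, hmul, h0, mul_zero, add_zero, RingHom.id_apply, hsm', hsm] }
  let D : Derivation P A S := Derivation.mk' L (fun a b => by rw [hsm, hsm]; exact hmul a b)
  have h1 : D u = D.liftKaehlerDifferential (KaehlerDifferential.D P A u) :=
    (Derivation.liftKaehlerDifferential_comp_D D u).symm
  have h2 : KaehlerDifferential.D P A u = 0 := Subsingleton.elim _ _
  rw [h2, map_zero] at h1
  exact h1

/-- two derivations along the same homomorphism of an étale algebra over a polynomial ring agree if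
they agree on the variables -/
theorem der_eq {k A S : Type*} [Field k] [CommRing A] [Algebra k A] [CommRing S] [Algebra k S] {n : ℕ}
    (g : MvPolynomial (Fin n) k →ₐ[k] A) (hg : g.toRingHom.Etale) (φ : A →+* S)
    (δ δ' : A → S)
    (hadd : ∀ u v, δ (u + v) = δ u + δ v) (hmul : ∀ u v, δ (u * v) = φ u * δ v + φ v * δ u)
    (halg : ∀ a : k, δ (algebraMap k A a) = 0)
    (hadd' : ∀ u v, δ' (u + v) = δ' u + δ' v) (hmul' : ∀ u v, δ' (u * v) = φ u * δ' v + φ v * δ' u)
    (halg' : ∀ a : k, δ' (algebraMap k A a) = 0)
    (hX : ∀ s, δ (g (X s)) = δ' (g (X s))) (u : A) : δ u = δ' u := by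
  algebraize [g.toRingHom]
  have hgeq : ∀ p, algebraMap (MvPolynomial (Fin n) k) A p = g p := fun _ => rfl
  have h1 : ∀ p : MvPolynomial (Fin n) k, δ (g p) = δ' (g p) := by
    intro p
    induction p using MvPolynomial.induction_on with
    | C a =>
      have : g (C a) = algebraMap k A a := by
        rw [← MvPolynomial.algebraMap_eq, AlgHom.commutes]
      rw [this, halg, halg']
    | add p q hp hq => rw [map_add, hadd, hadd', hp, hq]
    | mul_X p i hp => rw [map_mul, hmul, hmul', hp, hX]
  have h2 := der_unique (P := MvPolynomial (Fin n) k) φ (fun u => δ u - δ' u)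
    (fun u v => by rw [hadd, hadd']; ring) (fun u v => by rw [hmul, hmul']; ring)
    (fun p => by rw [hgeq, h1, sub_self]) u
  exact sub_eq_zero.1 h2

/-- existence of the dual derivations on an étale algebra over a polynomial ring -/
theorem exists_dual {k A : Type*} [Field k] [CommRing A] [Algebra k A] {n : ℕ}
    (g : MvPolynomial (Fin n) k →ₐ[k] A) (hg : g.toRingHom.Etale) (s : Fin n) :
    ∃ D : Derivation k A A, ∀ t, D (g (X t)) = if s = t then 1 else 0 := by
  algebraize [g.toRingHom]
  have hst : IsScalarTower k (MvPolynomial (Fin n) k) A := by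
    refine IsScalarTower.of_algebraMap_eq' ?_
    ext c
    exact (g.commutes c).symm
  let P := MvPolynomial (Fin n) k
  let D₁ : Derivation k P A := (Algebra.linearMap P A).compDer (pderiv s)
  have hb := KaehlerDifferential.isBaseChange_of_formallyEtale k P A
  let L : Ω[A⁄k] →ₗ[A] A := hb.lift D₁.liftKaehlerDifferential
  refine ⟨L.compDer (KaehlerDifferential.D k A), fun t => ?_⟩
  change L (KaehlerDifferential.D k A (algebraMap P A (X t))) = _
  have h1 : KaehlerDifferential.D k A (algebraMap P A (X t)) =
      KaehlerDifferential.map k k P A (KaehlerDifferential.D k P (X t)) := by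
    rw [KaehlerDifferential.map_D]
  rw [h1]
  have h2 : L (KaehlerDifferential.map k k P A (KaehlerDifferential.D k P (X t))) =
      D₁.liftKaehlerDifferential (KaehlerDifferential.D k P (X t)) := hb.lift_eq _ _
  rw [h2, Derivation.liftKaehlerDifferential_comp_D]
  change algebraMap P A (pderiv s (X t)) = _
  rw [pderiv_X]
  by_cases hst' : t = s
  · subst hst'; simp
  · simp [hst', Ne.symm hst']

/-- a power series all of whose iterated derivatives have zero constant coefficient is zero -/
theorem powerSeries_eq_zero {n : ℕ} (T : Set (MvPowerSeries (Fin n) ℂ))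
    (h0 : ∀ f ∈ T, MvPowerSeries.constantCoeff f = 0)
    (hd : ∀ f ∈ T, ∀ s, MvPowerSeries.pderiv ℂ s f ∈ T) {f : MvPowerSeries (Fin n) ℂ} (hf : f ∈ T) :
    f = 0 := by
  have key : ∀ (k : ℕ) (d : Fin n →₀ ℕ), d.degree = k → ∀ f ∈ T, MvPowerSeries.coeff d f = 0 := by
    intro k
    induction k with
    | zero =>
      intro d hd0 f hf
      have : d = 0 := by
        rwa [Finsupp.degree_eq_zero_iff] at hd0
      rw [this]
      exact h0 f hf
    | succ k ih =>
      intro d hdk f hf
      have h1 : d ≠ 0 := by
        intro h; rw [h, map_zero] at hdk; omega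
      obtain ⟨s, hs⟩ := Finsupp.ne_iff.1 h1
      have hs' : 1 ≤ d s := Nat.one_le_iff_ne_zero.2 (by simpa using hs)
      have h2 : d = (d - Finsupp.single s 1) + Finsupp.single s 1 := by
        rw [tsub_add_cancel_of_le]
        rw [Finsupp.single_le_iff]; exact hs'
      have h3 : (d - Finsupp.single s 1).degree = k := by
        have := congrArg Finsupp.degree h2
        rw [map_add, Finsupp.degree_single, hdk] at this
        omega
      have h4 := ih _ h3 _ (hd f hf s)
      rw [MvPowerSeries.coeff_pderiv, ← h2] at h4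
      rcases mul_eq_zero.1 h4 with h5 | h5
      · exact h5
      · exfalso
        exact Nat.cast_add_one_ne_zero _ h5
  ext d
  rw [key _ d rfl f hf]; rfl

section main

variable {n : ℕ} {A : Type} [CommRing A] [Algebra ℂ A] (g : MvPolynomial (Fin n) ℂ →ₐ[ℂ] A)
  (hg : g.toRingHom.Etale) {L : Type} [Field L] [Algebra ℂ L] (φ : A →ₐ[ℂ] L)
  (Dl : Fin n → Derivation ℂ L L)
  (hDl : ∀ s t, Dl s (φ (g (X t))) = if s = t then 1 else 0)

include hg hDl in
/-- the dual derivations preserve the kernel of `φ` -/
theorem ker_stable {s : Fin n} {D : Derivation ℂ A A}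
    (hD : ∀ t, D (g (X t)) = if s = t then 1 else 0) (b : A) : φ (D b) = Dl s (φ b) := by
  refine der_eq g hg φ.toRingHom (fun b => φ (D b)) (fun b => Dl s (φ b)) ?_ ?_ ?_ ?_ ?_ ?_ ?_ b
  · intro u v; rw [map_add, map_add]
  · intro u v
    rw [D.leibniz, map_add, smul_eq_mul, smul_eq_mul, map_mul, map_mul]; rfl
  · intro a; rw [D.map_algebraMap, map_zero]
  · intro u v; rw [map_add, map_add]
  · intro u v
    rw [map_mul, (Dl s).leibniz, smul_eq_mul, smul_eq_mul]; rfl
  · intro a; rw [AlgHom.commutes, (Dl s).map_algebraMap]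
  · intro t
    rw [hD, hDl]
    split_ifs <;> simp

include hg hDl in
/-- locally at a maximal ideal containing it, the kernel of `φ` is zero -/
theorem ker_local_zero (m : Ideal A) [m.IsMaximal] (hm : RingHom.ker φ ≤ m) {b : A}
    (hb : b ∈ RingHom.ker φ) : ∃ t ∉ m, t * b = 0 := by
  have hft : Algebra.FiniteType ℂ A := by
    algebraize [g.toRingHom]
    have : IsScalarTower ℂ (MvPolynomial (Fin n) ℂ) A := by
      refine IsScalarTower.of_algebraMap_eq' ?_
      ext c
      exact (g.commutes c).symm
    exact Algebra.FiniteType.trans (S := MvPolynomial (Fin n) ℂ) inferInstance inferInstance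
  obtain ⟨ev, hev⟩ := Crest.Agent.R271.UFD243.exists_ev A m
  let R := Localization.AtPrime m
  obtain ⟨h, h1, h2, h3, h4, -⟩ := Crest.Agent.R271.UFD243.exists_expansion_pow g hg ev m hev R
  choose D hD using fun s => exists_dual g hg s
  -- compatibility of the expansion with the derivations
  have h5 : ∀ s (a : A), h (algebraMap A R (D s a)) = MvPowerSeries.pderiv ℂ s (h (algebraMap A R a)) := by
    intro s a
    refine der_eq g hg (h.comp (algebraMap A R)) (fun a => h (algebraMap A R (D s a)))
      (fun a => MvPowerSeries.pderiv ℂ s (h (algebraMap A R a))) ?_ ?_ ?_ ?_ ?_ ?_ ?_ a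
    · intro u v; simp only [map_add]
    · intro u v
      simp only [Derivation.leibniz, map_add, smul_eq_mul, map_mul, RingHom.comp_apply]
    · intro c
      simp only [Derivation.map_algebraMap, map_zero]
    · intro u v; simp only [map_add]
    · intro u v
      simp only [map_mul, Derivation.leibniz, smul_eq_mul, RingHom.comp_apply]
    · intro c
      rw [h2, MvPowerSeries.pderiv_C]
    · intro t
      rw [hD, h1, map_add, MvPowerSeries.pderiv_C, zero_add, MvPowerSeries.pderiv_X]
      by_cases hst : s = t
      · subst hst; simp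
      · rw [if_neg hst, map_zero, map_zero]
        simp [Ne.symm hst]
  have h6 : h (algebraMap A R b) = 0 := by
    refine powerSeries_eq_zero {f | ∃ a ∈ RingHom.ker φ, h (algebraMap A R a) = f} ?_ ?_ ⟨b, hb, rfl⟩
    · rintro f ⟨a, ha, rfl⟩
      rw [h3]
      have : a ∈ RingHom.ker ev := by rw [hev]; exact hm ha
      exact this
    · rintro f ⟨a, ha, rfl⟩ s
      refine ⟨D s a, ?_, h5 s a⟩
      rw [RingHom.mem_ker] at ha ⊢
      rw [ker_stable g hg φ Dl hDl (hD s) a, ha, map_zero]
  have h7 : algebraMap A R b = 0 := h4 (by rw [h6, map_zero])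
  rw [IsLocalization.map_eq_zero_iff m.primeCompl] at h7
  obtain ⟨t, ht⟩ := h7
  exact ⟨t, t.2, ht⟩

include hg hDl in
theorem ker_idem : IsIdempotentElem (RingHom.ker φ) := by
  have hle : RingHom.ker φ * RingHom.ker φ ≤ RingHom.ker φ := Ideal.mul_le_right
  refine le_antisymm hle ?_
  intro b hb
  let J : Ideal A := (RingHom.ker φ * RingHom.ker φ).colon {b}
  have hJ : ∀ a, a ∈ J ↔ a * b ∈ RingHom.ker φ * RingHom.ker φ := by
    intro a
    rw [Submodule.mem_colon_singleton]; rfl
  have htop : J = ⊤ := by
    by_contra hne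
    obtain ⟨m, hm, hle'⟩ := Ideal.exists_le_maximal J hne
    by_cases h1 : RingHom.ker φ ≤ m
    · obtain ⟨t, ht, htb⟩ := ker_local_zero g hg φ Dl hDl m h1 hb
      apply ht
      apply hle'
      rw [hJ, htb]; exact Submodule.zero_mem _
    · apply h1
      intro p hp
      apply hle'
      rw [hJ]
      exact Ideal.mul_mem_mul hp hb
  have : (1 : A) ∈ J := by rw [htop]; trivial
  rw [hJ, one_mul] at this
  exact this

include hg hDl in
/-- **the image is étale over the polynomial ring** -/
theorem etale_range : (φ.rangeRestrict.comp g).toRingHom.Etale := by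
  have hft : Algebra.FiniteType ℂ A := by
    algebraize [g.toRingHom]
    have : IsScalarTower ℂ (MvPolynomial (Fin n) ℂ) A := by
      refine IsScalarTower.of_algebraMap_eq' ?_
      ext c
      exact (g.commutes c).symm
    exact Algebra.FiniteType.trans (S := MvPolynomial (Fin n) ℂ) inferInstance inferInstance
  have hN : IsNoetherianRing A := Algebra.FiniteType.isNoetherianRing ℂ A
  obtain ⟨e, he, hker⟩ := (Ideal.isIdempotentElem_iff_of_fg (RingHom.ker φ)
    (IsNoetherian.noetherian _)).1 (ker_idem g hg φ Dl hDl)
  let B := φ.range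
  let _ : Algebra A B := φ.rangeRestrict.toRingHom.toAlgebra
  have hsurj : Function.Surjective (algebraMap A B) := φ.rangeRestrict_surjective
  have hker' : RingHom.ker (algebraMap A B) = Ideal.span {1 - (1 - e)} := by
    have h0 : (1 - (1 - e)) = e := sub_sub_cancel 1 e
    rw [h0]
    have h1 : RingHom.ker (algebraMap A B) = RingHom.ker φ := by
      ext a
      rw [RingHom.mem_ker, RingHom.mem_ker]
      constructor
      · intro h; exact congrArg Subtype.val h
      · intro h; exact Subtype.ext h
    rw [h1, hker]
  have hloc : IsLocalization.Away (1 - e) B :=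
    IsLocalization.away_of_isIdempotentElem he.one_sub hker' hsurj
  have het : Algebra.Etale A B := Algebra.Etale.of_isLocalizationAway (1 - e)
  have h2 : (algebraMap A B).Etale := by
    rw [RingHom.etale_algebraMap]; exact het
  exact RingHom.Etale.stableUnderComposition g.toRingHom (algebraMap A B) hg h2

end main

end Crest.Agent.R269.DictG1_795
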