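import Mathlib
import Crest.Prelude.Def_ProjPluricanonical
import Crest.Agent.R269.DictA_795
import Crest.Agent.R269.DictB_795
import Crest.Agent.R269.DictC_795
import Crest.Agent.R269.DictD_795
import Crest.Agent.R269.DictE_795
import Crest.Agent.R269.DictG1_795

/-!
Row 269, DICT, part G: the étale affine charts `B c = chartRing [1/δ]` inside the function field.
-/

set_option autoImplicit false
set_option linter.unusedSectionVars false

open MvPolynomial Crest.AlgGeometry.ProjEmb Matrix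
open Crest.Agent.R269.DictA_795 Crest.Agent.R269.DictB_795 Crest.Agent.R269.DictC_795
open Crest.Agent.R269.DictD_795 Crest.Agent.R269.DictE_795 Crest.Agent.R269.DictG1_795

noncomputable section

namespace Crest.Agent.R269.DictC_795.CD

variable {N n : ℕ} {I : Ideal (HomCoordRing N)} [I.IsPrime] (c : CD I n) {q : Fin (N + 1) → ℂ}

/-! ### Dual derivations of the function field -/

theorem linearIndependent_D {c : CD I n} (h : c.Dom q) (hX : IsSmoothProjective I n) :
    LinearIndependent (FnField I) (fun s => KaehlerDifferential.D ℂ (FnField I) (c.wL s)) := by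
  by_contra hne
  have h1 := (exteriorPower.ιMulti (FnField I) n (M := Ω[FnField I⁄ℂ])).map_linearDependent
    (fun s => KaehlerDifferential.D ℂ (FnField I) (c.wL s)) hne
  exact h.ω_ne_zero hX h1

/-- dual derivations `∂/∂w_s` of the function field -/
theorem exists_dualL {c : CD I n} (h : c.Dom q) (hX : IsSmoothProjective I n) :
    ∃ Dl : Fin n → Derivation ℂ (FnField I) (FnField I),
      ∀ s t, Dl s (c.wL t) = if s = t then 1 else 0 := by
  have hli := linearIndependent_D h hX
  let b : Module.Basis (Fin n) (FnField I) (Ω[FnField I⁄ℂ]) :=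
    Module.Basis.mk hli (span_DL h hX.homogeneous).ge
  refine ⟨fun s => (b.coord s).compDer (KaehlerDifferential.D ℂ (FnField I)), fun s t => ?_⟩
  change b.coord s (KaehlerDifferential.D ℂ (FnField I) (c.wL t)) = _
  have h1 : KaehlerDifferential.D ℂ (FnField I) (c.wL t) = b t := by
    rw [Module.Basis.mk_apply]
  rw [h1, Module.Basis.coord_apply, Module.Basis.repr_self, Finsupp.single_apply]
  simp only [eq_comm]

/-! ### The standard étale algebra -/

/-- index type of the extra variables -/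
abbrev Sg (N n : ℕ) : Type := Fin (N - n) ⊕ Unit

/-- polynomials in the dependent variables and `T = 1/δ` over `ℂ[w]` -/
abbrev CC (N n : ℕ) : Type := MvPolynomial (Sg N n) (MvPolynomial (Fin n) ℂ)

/-- the images of the homogeneous coordinates -/
def yC (j : Fin (N + 1)) : CC N n :=
  Sum.elim (fun _ => 1) (Sum.elim (fun s => C (X s)) (fun b => X (Sum.inl b))) (c.eqv.symm j)

theorem yC_i : c.yC c.i = 1 := by
  unfold yC
  have : c.eqv.symm c.i = Sum.inl () := by rw [← c.eqv_i, Equiv.symm_apply_apply]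
  rw [this]; rfl

theorem yC_S (s : Fin n) : c.yC (c.S s) = C (X s) := by
  unfold yC
  have : c.eqv.symm (c.S s) = Sum.inr (Sum.inl s) := by rw [← c.eqv_S s, Equiv.symm_apply_apply]
  rw [this]; rfl

theorem yC_J (b : Fin (N - n)) : c.yC (c.J b) = X (Sum.inl b) := by
  unfold yC
  have : c.eqv.symm (c.J b) = Sum.inr (Sum.inr b) := by rw [← c.eqv_J b, Equiv.symm_apply_apply]
  rw [this]; rfl

/-- dehomogenisation into `CC` -/
def ρ : HomCoordRing N →ₐ[ℂ] CC N n := aeval c.yC

/-- relations of the standard étale algebra -/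
def v : Sg N n → CC N n := Sum.elim (fun a => c.ρ (c.F a)) (fun _ => c.ρ c.δ * X (Sum.inr ()) - 1)

/-- the standard étale algebra, as a quotient -/
abbrev B₀ : Type := CC N n ⧸ Ideal.span (Set.range c.v)

/-- the standard étale algebra -/
def B' : Type := CC N n ⧸ Ideal.span (Set.range c.v)

instance instCommRingB' : CommRing c.B' := inferInstanceAs (CommRing (CC N n ⧸ Ideal.span (Set.range c.v)))

instance instAlgebraPB' : Algebra (MvPolynomial (Fin n) ℂ) c.B' :=
  inferInstanceAs (Algebra (MvPolynomial (Fin n) ℂ) (CC N n ⧸ Ideal.span (Set.range c.v)))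

instance instAlgebraB' : Algebra ℂ c.B' :=
  inferInstanceAs (Algebra ℂ (CC N n ⧸ Ideal.span (Set.range c.v)))

instance instTowerB' : IsScalarTower ℂ (MvPolynomial (Fin n) ℂ) c.B' :=
  inferInstanceAs (IsScalarTower ℂ (MvPolynomial (Fin n) ℂ) (CC N n ⧸ Ideal.span (Set.range c.v)))

theorem pderiv_ρ (b : Fin (N - n)) (G : HomCoordRing N) :
    pderiv (Sum.inl b) (c.ρ G) = c.ρ (pderiv (c.J b) G) := by
  let D : Derivation ℂ (CC N n) (CC N n) := (pderiv (R := MvPolynomial (Fin n) ℂ) (Sum.inl b)).restrictScalars ℂ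
  have h1 := der_aeval D c.yC G
  change D (aeval c.yC G) = _
  rw [h1, Finset.sum_eq_single (c.J b)]
  · have : D (c.yC (c.J b)) = 1 := by
      rw [yC_J]; exact pderiv_X_self _
    rw [this, smul_eq_mul, mul_one]; rfl
  · intro j _ hj
    have : D (c.yC j) = 0 := by
      rcases hj' : c.eqv.symm j with (u | s | b')
      · have h2 : j = c.i := by rw [← c.eqv_i, ← hj'.trans rfl, Equiv.apply_symm_apply]
        rw [h2, yC_i]; exact D.map_one_eq_zero
      · have h2 : j = c.S s := by rw [← c.eqv_S, ← hj', Equiv.apply_symm_apply]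
        rw [h2, yC_S]; exact pderiv_C
      · have h2 : j = c.J b' := by rw [← c.eqv_J, ← hj', Equiv.apply_symm_apply]
        have h3 : b' ≠ b := by
          rintro rfl; exact hj h2
        rw [h2, yC_J]
        exact pderiv_X_of_ne (fun h => h3 (Sum.inl.inj h))
    rw [this, smul_zero]
  · simp

theorem pderiv_ρ' (G : HomCoordRing N) : pderiv (Sum.inr ()) (c.ρ G) = 0 := by
  let D : Derivation ℂ (CC N n) (CC N n) := (pderiv (R := MvPolynomial (Fin n) ℂ) (Sum.inr ())).restrictScalars ℂ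
  have h1 := der_aeval D c.yC G
  change D (aeval c.yC G) = _
  rw [h1]
  refine Finset.sum_eq_zero fun j _ => ?_
  have : D (c.yC j) = 0 := by
    rcases hj' : c.eqv.symm j with (u | s | b')
    · have h2 : j = c.i := by rw [← c.eqv_i, ← hj'.trans rfl, Equiv.apply_symm_apply]
      rw [h2, yC_i]; exact D.map_one_eq_zero
    · have h2 : j = c.S s := by rw [← c.eqv_S, ← hj', Equiv.apply_symm_apply]
      rw [h2, yC_S]; exact pderiv_C
    · have h2 : j = c.J b' := by rw [← c.eqv_J, ← hj', Equiv.apply_symm_apply]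
      rw [h2, yC_J]
      exact pderiv_X_of_ne (by simp)
  rw [this, smul_zero]

theorem mk_δ_T : Ideal.Quotient.mk (Ideal.span (Set.range c.v)) (c.ρ c.δ) *
    Ideal.Quotient.mk _ (X (Sum.inr ())) = 1 := by
  have h1 : c.v (Sum.inr ()) ∈ Ideal.span (Set.range c.v) := Ideal.subset_span ⟨_, rfl⟩
  rw [← Ideal.Quotient.eq_zero_iff_mem] at h1
  change Ideal.Quotient.mk _ (c.ρ c.δ * X (Sum.inr ()) - 1) = 0 at h1
  rw [map_sub, map_mul, map_one, sub_eq_zero] at h1
  exact h1

theorem isUnit_mk_δ : IsUnit (Ideal.Quotient.mk (Ideal.span (Set.range c.v)) (c.ρ c.δ)) :=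
  IsUnit.of_mul_eq_one _ c.mk_δ_T

/-- the presentation -/
def pres : Algebra.PreSubmersivePresentation (MvPolynomial (Fin n) ℂ) c.B₀ (Sg N n) (Sg N n) :=
  Algebra.PreSubmersivePresentation.naive (v := c.v) id Function.injective_id

theorem det_jac : (c.pres.jacobiMatrix).det = c.ρ c.δ * c.ρ c.δ := by
  have h1 : c.pres.jacobiMatrix = Matrix.fromBlocks
      (Matrix.of fun b a => c.ρ (pderiv (c.J b) (c.F a)))
      (Matrix.of fun b _ => pderiv (Sum.inl b) (c.v (Sum.inr ()))) 0
      (Matrix.of fun _ _ => c.ρ c.δ) := by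
    funext i j
    unfold pres
    rw [Algebra.PreSubmersivePresentation.jacobiMatrix_naive]
    rcases i with (b | u) <;> rcases j with (a | u')
    · change pderiv (Sum.inl b) (c.ρ (c.F a)) = _
      rw [pderiv_ρ]; rfl
    · rfl
    · change pderiv (Sum.inr ()) (c.ρ (c.F a)) = 0
      rw [pderiv_ρ']
    · change pderiv (Sum.inr ()) (c.ρ c.δ * X (Sum.inr ()) - 1) = c.ρ c.δ
      rw [map_sub, pderiv_mul, pderiv_ρ', pderiv_X_self, pderiv_one]; ring
  rw [h1, Matrix.det_fromBlocks_zero₂₁]
  congr 1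
  · have h2 : (Matrix.of fun b a => c.ρ (pderiv (c.J b) (c.F a))) = (c.jac.map c.ρ)ᵀ := rfl
    rw [h2, Matrix.det_transpose]
    unfold δ
    rw [AlgHom.map_det]; rfl
  · exact Matrix.det_unique _

theorem etale_B₀ : Algebra.Etale (MvPolynomial (Fin n) ℂ) c.B₀ := by
  let P : Algebra.SubmersivePresentation (MvPolynomial (Fin n) ℂ) c.B₀ (Sg N n) (Sg N n) :=
    { c.pres with
      jacobian_isUnit := by
        rw [Algebra.PreSubmersivePresentation.jacobian_eq_jacobiMatrix_det, det_jac, map_mul]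
        have := c.isUnit_mk_δ
        exact this.mul this }
  have : Algebra.IsStandardSmoothOfRelativeDimension 0 (MvPolynomial (Fin n) ℂ) c.B₀ :=
    P.isStandardSmoothOfRelativeDimension (by
      rw [Algebra.Presentation.dimension]
      simp)
  infer_instance

theorem etale_B' : Algebra.Etale (MvPolynomial (Fin n) ℂ) c.B' := c.etale_B₀

/-- the structure map `ℂ[w] → B'` -/
def gB' : MvPolynomial (Fin n) ℂ →ₐ[ℂ] c.B' :=
  IsScalarTower.toAlgHom ℂ (MvPolynomial (Fin n) ℂ) c.B'

theorem gB'_etale : c.gB'.toRingHom.Etale := by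
  have h1 : c.gB'.toRingHom = algebraMap (MvPolynomial (Fin n) ℂ) c.B' := rfl
  rw [h1, RingHom.etale_algebraMap]
  exact c.etale_B'

/-! ### The chart algebra in the function field -/

/-- `δ` as a rational function: `δ(x/x_i)` -/
def δL : FnField I := dh I c.i c.δ

/-- **the chart algebra** `B c = chartRing[1/δ]` -/
def B : Subalgebra ℂ (FnField I) :=
  Algebra.adjoin ℂ (Set.range (fnRatio I c.i) ∪ {(c.δL)⁻¹})

theorem δL_ne (hi : (X c.i : HomCoordRing N) ∉ I) (hδ : c.δ ∉ I) : c.δL ≠ 0 := by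
  intro h0
  have h1 := rep_dh hi c.δ_hom
  unfold δL at h0
  unfold IsRep at h1
  rw [h0, map_zero, zero_mul] at h1
  exact hδ (coneHom_eq_zero_iff.1 h1.symm)

theorem Dom.δL_ne {c : CD I n} (h : c.Dom q) : c.δL ≠ 0 := CD.δL_ne c h.not_mem_i h.not_mem_δ

/-- the map `CC → FnField` -/
def φ₀ : CC N n →ₐ[ℂ] FnField I :=
  aevalTower (aeval c.wL) (Sum.elim (fun b => fnRatio I c.i (c.J b)) (fun _ => (c.δL)⁻¹))

theorem φ₀_ρ {c : CD I n} (h : c.Dom q) (G : HomCoordRing N) : c.φ₀ (c.ρ G) = dh I c.i G := by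
  have : c.φ₀.comp c.ρ = dh I c.i := by
    apply MvPolynomial.algHom_ext
    intro j
    change c.φ₀ (aeval c.yC (X j)) = aeval (fnRatio I c.i) (X j)
    rw [aeval_X, aeval_X]
    rcases hj' : c.eqv.symm j with (u | s | b')
    · have h2 : j = c.i := by rw [← c.eqv_i, ← hj'.trans rfl, Equiv.apply_symm_apply]
      rw [h2, yC_i, map_one, fnRatio_self h.not_mem_i]
    · have h2 : j = c.S s := by rw [← c.eqv_S, ← hj', Equiv.apply_symm_apply]
      rw [h2, yC_S]
      unfold φ₀
      rw [aevalTower_C, aeval_X]; rfl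
    · have h2 : j = c.J b' := by rw [← c.eqv_J, ← hj', Equiv.apply_symm_apply]
      rw [h2, yC_J]
      unfold φ₀
      rw [aevalTower_X]; rfl
  exact congrArg (fun f => f G) this

theorem φ₀_v {c : CD I n} (h : c.Dom q) (hI : Hom I) (x : Sg N n) : c.φ₀ (c.v x) = 0 := by
  rcases x with (a | u)
  · change c.φ₀ (c.ρ (c.F a)) = 0
    rw [φ₀_ρ h, dh_eq_zero_of_mem hI h.not_mem_i (c.F_mem a)]
  · change c.φ₀ (c.ρ c.δ * X (Sum.inr ()) - 1) = 0
    rw [map_sub, map_mul, φ₀_ρ h, map_one]
    have : c.φ₀ (X (Sum.inr ())) = (c.δL)⁻¹ := by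
      unfold φ₀; rw [aevalTower_X]; rfl
    rw [this]
    change c.δL * (c.δL)⁻¹ - 1 = 0
    rw [mul_inv_cancel₀ h.δL_ne, sub_self]

/-- the map `B' → FnField` -/
def φ {c : CD I n} (h : c.Dom q) (hI : Hom I) : c.B' →ₐ[ℂ] FnField I :=
  Ideal.Quotient.liftₐ _ c.φ₀ (by
    intro a ha
    have h1 : Ideal.span (Set.range c.v) ≤ RingHom.ker c.φ₀ := by
      rw [Ideal.span_le]
      rintro _ ⟨x, rfl⟩
      exact φ₀_v h hI x
    exact h1 ha)

theorem φ_mk {c : CD I n} (h : c.Dom q) (hI : Hom I) (x : CC N n) :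
    φ h hI (Ideal.Quotient.mk _ x) = c.φ₀ x := rfl

theorem range_φ {c : CD I n} (h : c.Dom q) (hI : Hom I) : (φ h hI).range = c.B := by
  apply le_antisymm
  · rintro _ ⟨b, rfl⟩
    obtain ⟨x, rfl⟩ := Ideal.Quotient.mk_surjective b
    change c.φ₀ x ∈ c.B
    have hr : ∀ j, fnRatio I c.i j ∈ c.B := fun j => Algebra.subset_adjoin (Or.inl ⟨j, rfl⟩)
    have hinv : (c.δL)⁻¹ ∈ c.B := Algebra.subset_adjoin (Or.inr rfl)
    induction x using MvPolynomial.induction_on with
    | C a =>
      unfold φ₀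
      rw [aevalTower_C]
      induction a using MvPolynomial.induction_on with
      | C a =>
        rw [← MvPolynomial.algebraMap_eq, AlgHom.commutes]
        exact c.B.algebraMap_mem a
      | add p q hp hq => rw [map_add]; exact c.B.add_mem hp hq
      | mul_X p s hp => rw [map_mul, aeval_X]; exact c.B.mul_mem hp (hr _)
    | add p q hp hq => rw [map_add]; exact c.B.add_mem hp hq
    | mul_X p s hp =>
      rw [map_mul]
      refine c.B.mul_mem hp ?_
      unfold φ₀
      rw [aevalTower_X]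
      rcases s with (b | u)
      · exact hr _
      · exact hinv
  · unfold B
    apply Algebra.adjoin_le
    rintro u (⟨j, rfl⟩ | hu)
    · refine ⟨Ideal.Quotient.mk _ (c.ρ (X j)), ?_⟩
      change c.φ₀ (c.ρ (X j)) = _
      rw [φ₀_ρ h]
      unfold dh; rw [aeval_X]
    · rw [Set.mem_singleton_iff] at hu
      subst hu
      refine ⟨Ideal.Quotient.mk _ (X (Sum.inr ())), ?_⟩
      change c.φ₀ (X (Sum.inr ())) = _
      unfold φ₀; rw [aevalTower_X]; rfl

theorem fnRatio_mem_B (j : Fin (N + 1)) : fnRatio I c.i j ∈ c.B :=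
  Algebra.subset_adjoin (Or.inl ⟨j, rfl⟩)

theorem inv_δ_mem_B : (c.δL)⁻¹ ∈ c.B := Algebra.subset_adjoin (Or.inr rfl)

theorem dh_mem_B (G : HomCoordRing N) : dh I c.i G ∈ c.B := by
  have h1 : chartRing I c.i ≤ c.B := by
    unfold chartRing B
    exact Algebra.adjoin_mono (fun x hx => Or.inl hx)
  exact h1 (dh_mem_chartRing c.i G)

/-- the ratios as elements of `B c` -/
def yB (j : Fin (N + 1)) : c.B := ⟨fnRatio I c.i j, c.fnRatio_mem_B j⟩

/-- the étale coordinates `w_s` as elements of `B c` -/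
def zB (s : Fin n) : c.B := c.yB (c.S s)

/-- **`B c` is étale over `ℂ[w_1, …, w_n]`.** -/
theorem Dom.etale {c : CD I n} (h : c.Dom q) (hX : IsSmoothProjective I n) :
    ((aeval c.zB : MvPolynomial (Fin n) ℂ →ₐ[ℂ] c.B) : MvPolynomial (Fin n) ℂ →+* c.B).Etale := by
  have hI : Hom I := hX.homogeneous
  obtain ⟨Dl, hDl⟩ := exists_dualL h hX
  have hX' : ∀ s : Fin n, φ h hI (c.gB' (X s)) = c.wL s := by
    intro s
    change c.φ₀ (C (X s)) = _
    unfold φ₀
    rw [aevalTower_C, aeval_X]
  have h1 := etale_range c.gB' c.gB'_etale (φ h hI) Dl (fun s t => by rw [hX']; exact hDl s t)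
  -- transport along the equality of subalgebras
  let e : (φ h hI).range ≃ₐ[ℂ] c.B := Subalgebra.equivOfEq _ _ (range_φ h hI)
  have h2 : (e.toRingEquiv.toRingHom).Etale := RingHom.Etale.of_bijective e.bijective
  have h3 := RingHom.Etale.stableUnderComposition _ _ h1 h2
  have h4 : ((aeval c.zB : MvPolynomial (Fin n) ℂ →ₐ[ℂ] c.B) : MvPolynomial (Fin n) ℂ →+* c.B) =
      e.toRingEquiv.toRingHom.comp (((φ h hI).rangeRestrict.comp c.gB').toRingHom) := by
    have h5 : (aeval c.zB : MvPolynomial (Fin n) ℂ →ₐ[ℂ] c.B) =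
        e.toAlgHom.comp ((φ h hI).rangeRestrict.comp c.gB') := by
      apply MvPolynomial.algHom_ext
      intro s
      rw [aeval_X]
      apply Subtype.ext
      exact (hX' s).symm
    rw [h5]; rfl
  rw [h4]; exact h3

end Crest.Agent.R269.DictC_795.CD
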