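import Mathlib
import Crest.Prelude.Def_ProjPluricanonical
import Crest.Agent.R269.DictG_795
import Crest.Agent.R269.DictF_795

/-!
Row 269, DICT, part G2: points of the étale chart `B c`, its elements, finite type.
-/

set_option autoImplicit false
set_option linter.unusedSectionVars false

open MvPolynomial Crest.AlgGeometry.ProjEmb
open Crest.Agent.R269.DictA_795 Crest.Agent.R269.DictB_795 Crest.Agent.R269.DictC_795
open Crest.Agent.R269.DictD_795 Crest.Agent.R269.DictE_795 Crest.Agent.R269.DictF_795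

noncomputable section

namespace Crest.Agent.R269.DictC_795.CD

variable {N n : ℕ} {I : Ideal (HomCoordRing N)} [I.IsPrime] (c : CD I n) {q : Fin (N + 1) → ℂ}

theorem chartRing_le_B : chartRing I c.i ≤ c.B := by
  unfold chartRing B
  exact Algebra.adjoin_mono (fun _ hx => Or.inl hx)

theorem B_finiteType : Algebra.FiniteType ℂ c.B := by
  rw [← Subalgebra.fg_iff_finiteType]
  have hfin : (Set.range (fnRatio I c.i) ∪ {(c.δL)⁻¹}).Finite :=
    (Set.finite_range _).union (Set.finite_singleton _)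
  exact ⟨hfin.toFinset, by rw [Set.Finite.coe_toFinset]; rfl⟩

/-- every element of the chart algebra is `G(x/x_i) / δ^k` -/
theorem exists_of_mem_B {c : CD I n} (hδ : c.δL ≠ 0) {u : FnField I} (hu : u ∈ c.B) :
    ∃ (k : ℕ) (G : HomCoordRing N), u * c.δL ^ k = dh I c.i G := by
  unfold B at hu
  induction hu using Algebra.adjoin_induction with
  | mem x hx =>
    rcases hx with ⟨j, rfl⟩ | hx
    · exact ⟨0, X j, by simp [dh]⟩
    · rw [Set.mem_singleton_iff] at hx
      subst hx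
      exact ⟨1, 1, by rw [pow_one, inv_mul_cancel₀ hδ, map_one]⟩
  | algebraMap a => exact ⟨0, C a, by
      rw [pow_zero, mul_one, ← MvPolynomial.algebraMap_eq, AlgHom.commutes]⟩
  | add x y _ _ hx hy =>
    obtain ⟨k, G, h1⟩ := hx
    obtain ⟨k', G', h2⟩ := hy
    refine ⟨k + k', G * c.δ ^ k' + G' * c.δ ^ k, ?_⟩
    rw [map_add, map_mul, map_mul, map_pow, map_pow, ← h1, ← h2]
    change _ = x * c.δL ^ k * c.δL ^ k' + y * c.δL ^ k' * c.δL ^ k
    ring
  | mul x y _ _ hx hy =>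
    obtain ⟨k, G, h1⟩ := hx
    obtain ⟨k', G', h2⟩ := hy
    refine ⟨k + k', G * G', ?_⟩
    rw [map_mul, ← h1, ← h2]; ring

theorem ev_δ {c : CD I n} (h : c.Dom q) : ev h.cone (dhA h.cone h.i c.δ) ≠ 0 := by
  rw [ev_dhA h.cone h.i c.δ_hom]
  exact div_ne_zero h.δ (pow_ne_zero _ h.i)

/-- the chart algebra is contained in the local rings of its points -/
theorem Dom.B_le {c : CD I n} (h : c.Dom q) : c.B ≤ stalk I q := by
  unfold B
  apply Algebra.adjoin_le
  rintro u (⟨j, rfl⟩ | hu)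
  · exact fnRatio_mem_stalk h.cone h.i j
  · rw [Set.mem_singleton_iff] at hu
    subst hu
    obtain ⟨v, hv⟩ := isUnit_of_ev_ne h.cone _ (ev_δ h)
    have h1 : ((v⁻¹ : (stalk I q)ˣ) : stalk I q) * dhA h.cone h.i c.δ = 1 := by
      rw [← hv]; exact v.inv_mul
    have h2 : (((v⁻¹ : (stalk I q)ˣ) : stalk I q) : FnField I) * c.δL = 1 := by
      have h3 := congrArg Subtype.val h1
      have h4 : ((dhA h.cone h.i c.δ : stalk I q) : FnField I) = c.δL := coe_dhA h.cone h.i c.δ
      change (((v⁻¹ : (stalk I q)ˣ) : stalk I q) : FnField I) * (dhA h.cone h.i c.δ : FnField I) = 1 at h3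
      rw [h4] at h3
      exact h3
    rw [← eq_inv_of_mul_eq_one_left h2]
    exact (v⁻¹ : (stalk I q)ˣ).1.2

/-- inclusion of the chart algebra in the local ring -/
def Dom.toStalk {c : CD I n} (h : c.Dom q) : c.B →ₐ[ℂ] stalk I q := Subalgebra.inclusion h.B_le

/-- the point of `Hom(B c, ℂ)` defined by the cone point `q` -/
def Dom.pt {c : CD I n} (h : c.Dom q) : c.B →ₐ[ℂ] ℂ := (ev h.cone).comp h.toStalk

theorem Dom.pt_yB {c : CD I n} (h : c.Dom q) (j : Fin (N + 1)) : h.pt (c.yB j) = q j / q c.i :=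
  ev_yA h.cone h.i j

/-- two points with the same values on the ratios agree -/
theorem pt_ext {c : CD I n} (hδ : c.δL ≠ 0) {y y' : c.B →ₐ[ℂ] ℂ} (h : ∀ j, y (c.yB j) = y' (c.yB j)) :
    y = y' := by
  have hdh : ∀ (G : HomCoordRing N), y ⟨dh I c.i G, c.dh_mem_B G⟩ = y' ⟨dh I c.i G, c.dh_mem_B G⟩ := by
    intro G
    have h1 : ∀ z : c.B →ₐ[ℂ] ℂ, z ⟨dh I c.i G, c.dh_mem_B G⟩ = aeval (fun j => z (c.yB j)) G := by
      intro z
      have h2 : (⟨dh I c.i G, c.dh_mem_B G⟩ : c.B) = aeval c.yB G := by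
        apply Subtype.ext
        have h3 : (c.B.val).comp (aeval c.yB) = dh I c.i := by
          apply MvPolynomial.algHom_ext; intro j; simp [dh, yB]
        exact (congrArg (fun f => f G) h3).symm
      rw [h2]
      have h4 : z.comp (aeval c.yB) = aeval (fun j => z (c.yB j)) := by
        apply MvPolynomial.algHom_ext; intro j; simp
      exact congrArg (fun f => f G) h4
    rw [h1, h1]
    congr 2
    funext j; exact h j
  apply AlgHom.ext
  intro b
  obtain ⟨k, G, hG⟩ := exists_of_mem_B hδ b.2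
  let d : c.B := ⟨c.δL, c.dh_mem_B c.δ⟩
  have hd : IsUnit d := by
    refine IsUnit.of_mul_eq_one ⟨(c.δL)⁻¹, c.inv_δ_mem_B⟩ ?_
    apply Subtype.ext
    exact mul_inv_cancel₀ hδ
  have hb : b * d ^ k = ⟨dh I c.i G, c.dh_mem_B G⟩ := Subtype.ext hG
  have h5 := congrArg y hb
  have h6 := congrArg y' hb
  rw [map_mul, map_pow] at h5 h6
  rw [hdh, ← h6] at h5
  have h7 : y d = y' d := hdh c.δ
  rw [h7] at h5
  exact mul_right_cancel₀ (pow_ne_zero _ (hd.map y').ne_zero) h5

/-- the cone point of a point of the chart algebra -/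
def conePt (y : c.B →ₐ[ℂ] ℂ) : Fin (N + 1) → ℂ := fun j => y (c.yB j)

theorem conePt_dh (y : c.B →ₐ[ℂ] ℂ) (G : HomCoordRing N) :
    y ⟨dh I c.i G, c.dh_mem_B G⟩ = eval (c.conePt y) G := by
  have h2 : (⟨dh I c.i G, c.dh_mem_B G⟩ : c.B) = aeval c.yB G := by
    apply Subtype.ext
    have h3 : (c.B.val).comp (aeval c.yB) = dh I c.i := by
      apply MvPolynomial.algHom_ext; intro j; simp [dh, yB]
    exact (congrArg (fun f => f G) h3).symm
  rw [h2, ← coe_aeval_eq_eval]
  have h4 : y.comp (aeval c.yB) = aeval (c.conePt y) := by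
    apply MvPolynomial.algHom_ext; intro j; simp [conePt]
  exact congrArg (fun f => f G) h4

/-- **every point of the chart algebra is a point of the cone in the domain of `c`** -/
theorem dom_conePt (hI : Hom I) (hi : (X c.i : HomCoordRing N) ∉ I) (hδ : c.δ ∉ I)
    (y : c.B →ₐ[ℂ] ℂ) : c.Dom (c.conePt y) := by
  refine ⟨fun F hF => ?_, ?_, ?_⟩
  · rw [← c.conePt_dh]
    have : (⟨dh I c.i F, c.dh_mem_B F⟩ : c.B) = 0 := Subtype.ext (dh_eq_zero_of_mem hI hi hF)
    rw [this, map_zero]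
  · have : c.yB c.i = 1 := Subtype.ext (fnRatio_self hi)
    change y (c.yB c.i) ≠ 0
    rw [this, map_one]; exact one_ne_zero
  · rw [← c.conePt_dh]
    have hd : IsUnit (⟨dh I c.i c.δ, c.dh_mem_B c.δ⟩ : c.B) := by
      refine IsUnit.of_mul_eq_one ⟨(c.δL)⁻¹, c.inv_δ_mem_B⟩ ?_
      apply Subtype.ext
      exact mul_inv_cancel₀ (c.δL_ne hi hδ)
    exact (hd.map y).ne_zero

theorem conePt_i (hi : (X c.i : HomCoordRing N) ∉ I) (y : c.B →ₐ[ℂ] ℂ) : c.conePt y c.i = 1 := by
  have : c.yB c.i = 1 := Subtype.ext (fnRatio_self hi)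
  change y (c.yB c.i) = 1
  rw [this, map_one]

theorem pt_conePt (hI : Hom I) (hi : (X c.i : HomCoordRing N) ∉ I) (hδ : c.δ ∉ I)
    (y : c.B →ₐ[ℂ] ℂ) : (c.dom_conePt hI hi hδ y).pt = y := by
  apply pt_ext (c.δL_ne hi hδ)
  intro j
  rw [Dom.pt_yB, c.conePt_i hi, div_one]; rfl

theorem Dom.conePt_pt {c : CD I n} (h : c.Dom q) : c.conePt h.pt = (q c.i)⁻¹ • q := by
  funext j
  change h.pt (c.yB j) = _
  rw [h.pt_yB, Pi.smul_apply, smul_eq_mul, div_eq_mul_inv, mul_comm]

end Crest.Agent.R269.DictC_795.CD
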