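import Crest.Agent.R269.Amp5_243
import Crest.Agent.R269.DictG2_795

/-!
# Row 269 (S0411), Part 13, step 7: the étale chart `xc` of a coordinate datum; 1-jets of functions on the
chart in the language of the local rings (helper243)
-/

set_option autoImplicit false
set_option linter.unusedSectionVars false

noncomputable section

open Set Filter Topology Complex MeasureTheory Metric
open scoped ENNReal ComplexConjugate ContDiff

namespace Crest.Agent.R269.Amp7_243

open Crest.AlgGeometry.ProjEmb
open Crest.Agent.R271 Crest.Agent.R271.Defs710 Crest.Agent.R271.Rd692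
open Crest.Agent.R271.Ho51 hiding EE nsq
open Crest.Agent.R269.Amp1_243 Crest.Agent.R269.Geo_328 Crest.Agent.R269.Amp3_243
open Crest.Agent.R269.Amp5_243
open Crest.Agent.R269.DictA_795 Crest.Agent.R269.DictB_795 Crest.Agent.R269.DictC_795
open Crest.Agent.R269.DictD_795 Crest.Agent.R269.DictE_795 Crest.Agent.R269.DictF_795

variable {N n : ℕ} {I : Ideal (HomCoordRing N)} [I.IsPrime]

lemma aeval_yB (c : CD I n) (F : HomCoordRing N) :
    (MvPolynomial.aeval c.yB F : c.B) = ⟨dh I c.i F, c.dh_mem_B F⟩ := by
  apply Subtype.ext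
  have h3 : (c.B.val).comp (MvPolynomial.aeval c.yB) = dh I c.i := by
    apply MvPolynomial.algHom_ext; intro j; simp [dh, CD.yB]
  exact congrArg (fun f => f F) h3

/-- the étale chart of a coordinate datum -/
def xc {c : CD I n} {q : Fin (N + 1) → ℂ} (h : c.Dom q) (hX : IsSmoothProjective I n) : XC I n where
  B := c.B
  ft := c.B_finiteType
  z := c.zB
  etale := h.etale hX
  i := c.i
  x := c.yB
  x_i := Subtype.ext (fnRatio_self h.not_mem_i)
  j := c.S
  z_eq _ := rfl
  rel F hF := by
    rw [aeval_yB]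
    exact Subtype.ext (dh_eq_zero_of_mem hX.homogeneous h.not_mem_i hF)

variable {c : CD I n} {q : Fin (N + 1) → ℂ}

/-- inclusion of the chart algebra in the function field -/
def io (h : c.Dom q) (hX : IsSmoothProjective I n) : (xc h hX).B →ₐ[ℂ] FnField I := c.B.val

lemma io_inj (h : c.Dom q) (hX : IsSmoothProjective I n) : Function.Injective (io h hX) :=
  Subtype.val_injective

lemma io_x (h : c.Dom q) (hX : IsSmoothProjective I n) (l : Fin (N + 1)) :
    io h hX ((xc h hX).x l) = fnRatio I (xc h hX).i l := rfl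

lemma io_z (h : c.Dom q) (hX : IsSmoothProjective I n) :
    (io h hX ∘ (xc h hX).z : Fin n → FnField I) = c.wL := rfl

lemma tprod_z (h : c.Dom q) (hX : IsSmoothProjective I n) (m : ℕ) :
    PiTensorProduct.tprod (FnField I)
      (fun _ : Fin m => wedgeD I n (io h hX ∘ (xc h hX).z)) = c.wm m := rfl

/-- the point `q` of the chart -/
def y0 (h : c.Dom q) (hX : IsSmoothProjective I n) : (xc h hX).B →ₐ[ℂ] ℂ := h.pt

lemma y0_eq (h : c.Dom q) (hX : IsSmoothProjective I n) (b : (xc h hX).B) :
    y0 h hX b = ev h.cone (h.toStalk b) := rfl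

lemma pt_y0 (h : c.Dom q) (hX : IsSmoothProjective I n) :
    pt (xc h hX) (y0 h hX) = (q c.i)⁻¹ • q := by
  funext j
  change h.pt (c.yB j) = _
  rw [h.pt_yB, Pi.smul_apply, smul_eq_mul, div_eq_mul_inv, mul_comm]

/-- `Lp` vanishes only at proportional points -/
lemma Lp_ne {X : XC I n} {p : EE N} (y : X.B →ₐ[ℂ] ℂ) (hp : p ≠ 0)
    (h : ∀ a : ℂ, pt X y ≠ a • p) : Amp5_243.Lp X p y ≠ 0 := by
  intro h0
  obtain ⟨k, hk⟩ := Function.ne_iff.1 hp
  have hk' : p k ≠ 0 := hk
  have h1 : ∀ a b : Fin (N + 1), p a * y (X.x b) - p b * y (X.x a) = 0 := by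
    intro a b
    have h2 : Amp5_243.Lp X p y = ∑ ab : Fin (N + 1) × Fin (N + 1),
        ‖p ab.1 * y (X.x ab.2) - p ab.2 * y (X.x ab.1)‖ ^ 2 := by
      unfold Amp5_243.Lp
      unfold W792.nS
      exact Finset.sum_congr rfl fun ab _ => by first | rfl | simp [ell, elt]
    rw [h2] at h0
    have h3 := (Finset.sum_eq_zero_iff_of_nonneg (fun ab _ => by positivity)).1 h0 (a, b)
      (Finset.mem_univ _)
    have h4 : ‖p a * y (X.x b) - p b * y (X.x a)‖ = 0 := by
      have := pow_eq_zero_iff (two_ne_zero) |>.1 h3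
      exact this
    exact norm_eq_zero.1 h4
  apply h (y (X.x k) / p k)
  funext b
  have h5 := h1 k b
  rw [pt_apply, Pi.smul_apply, smul_eq_mul]
  field_simp
  linear_combination h5

lemma ev_der_mul {X : XC I n} (y : X.B →ₐ[ℂ] ℂ) (k : Fin n) (u v : X.B) :
    y (X.der k (u * v)) = y u * y (X.der k v) + y v * y (X.der k u) := by
  rw [← map_mul, ← map_mul, ← map_add]
  exact congrArg _ ((X.der k).leibniz u v)

/-- the derivative of a function on the chart in a tangent direction is computed by its derivatives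
with respect to the étale coordinates -/
lemma dv_toStalk (h : c.Dom q) (hX : IsSmoothProjective I n) {v : Fin (N + 1) → ℂ}
    (hv : IsTan I q v) (b : (xc h hX).B) :
    dv h.cone hv (h.toStalk b) =
      ∑ k, y0 h hX ((xc h hX).der k b) * dv h.cone hv (CD.w h k) := by
  have hd := isDerAlong_dv h.cone hv
  refine DictG1_795.der_eq (k := ℂ) (A := c.B) (S := ℂ) (MvPolynomial.aeval c.zB) (h.etale hX)
    (h.pt : c.B →+* ℂ) (fun b => dv h.cone hv (h.toStalk b))
    (fun b => ∑ k, y0 h hX ((xc h hX).der k b) * dv h.cone hv (CD.w h k))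
    (fun u v => by simp only [map_add]; exact hd.add _ _)
    (fun u v => by simp only [map_mul]; exact hd.mul _ _)
    (fun a => by
      have h1 : h.toStalk (algebraMap ℂ c.B a) = algebraMap ℂ _ a := h.toStalk.commutes a
      rw [h1]; exact hd.alg a)
    (fun u v => by
      rw [← Finset.sum_add_distrib]
      refine Finset.sum_congr rfl fun k _ => ?_
      have h1 : (xc h hX).der k (u + v) = (xc h hX).der k u + (xc h hX).der k v :=
        map_add ((xc h hX).der k) u v
      rw [h1, map_add, add_mul])
    (fun u v => by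
      rw [Finset.mul_sum, Finset.mul_sum, ← Finset.sum_add_distrib]
      refine Finset.sum_congr rfl fun k _ => ?_
      have h2 : y0 h hX ((xc h hX).der k (u * v)) =
          y0 h hX u * y0 h hX ((xc h hX).der k v) + y0 h hX v * y0 h hX ((xc h hX).der k u) :=
        ev_der_mul (y0 h hX) k u v
      rw [h2]
      change _ = y0 h hX u * _ + y0 h hX v * _
      ring)
    (fun a => by
      refine Finset.sum_eq_zero fun k _ => ?_
      have h1 : (xc h hX).der k (algebraMap ℂ c.B a) = 0 := ((xc h hX).der k).map_algebraMap a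
      rw [h1, map_zero, zero_mul])
    (fun s => ?_) b
  rw [MvPolynomial.aeval_X, Finset.sum_eq_single s]
  · have h1 : (xc h hX).der s (c.zB s) = 1 := (xc h hX).toEC.der_z_same s
    rw [h1, map_one, one_mul]
    rfl
  · intro k _ hk
    have h1 : (xc h hX).der k (c.zB s) = if s = k then 1 else 0 := (xc h hX).toEC.der_z s k
    rw [h1, if_neg (Ne.symm hk), map_zero, zero_mul]
  · intro h'; exact absurd (Finset.mem_univ s) h'

end Crest.Agent.R269.Amp7_243
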