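import Crest.Agent.R269.Amp6_243
import Crest.Agent.R269.Amp7_243

/-!
# Row 269 (S0411), Part 13, step 8: assembly of `AmpStmt` from the regularity statements (helper243)

`Reg0 I n` : a holomorphic function on the chart with finite `L²`-norm (weight of `(m+1) K_X`) is algebraic
and gives a global section of `(m+1) K_X`;
`RegV0 I n` : with the additional pole weight at `p` the section vanishes at `p`.
-/

set_option autoImplicit false
set_option linter.unusedSectionVars false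

noncomputable section

open Set Filter Topology Complex MeasureTheory Metric
open scoped ENNReal ComplexConjugate ContDiff

namespace Crest.Agent.R269.Amp8_243

open Crest.AlgGeometry.ProjEmb
open Crest.Agent.R271 Crest.Agent.R271.Defs710 Crest.Agent.R271.Rd692
open Crest.Agent.R271.Ho51 hiding EE nsq
open Crest.Agent.R269.Amp1_243 Crest.Agent.R269.Geo_328 Crest.Agent.R269.Amp3_243
open Crest.Agent.R269.Amp5_243 Crest.Agent.R269.Amp7_243
open Crest.Agent.R269.DictA_795 Crest.Agent.R269.DictB_795 Crest.Agent.R269.DictC_795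
open Crest.Agent.R269.DictD_795 Crest.Agent.R269.DictE_795 Crest.Agent.R269.DictF_795

variable {N n : ℕ}

/-- regularity: `L²` holomorphic functions are global sections -/
def Reg0 (I : Ideal (HomCoordRing N)) [I.IsPrime] (n : ℕ) : Prop :=
  ∀ (X : XC I n) (io : X.B →ₐ[ℂ] FnField I), Function.Injective io →
    (∀ l, io (X.x l) = fnRatio I X.i l) → ∀ F : (X.B →ₐ[ℂ] ℂ) → ℂ, Ho51.Hol F → ∀ m : ℕ,
    lintM X.z (fun y => ENNReal.ofReal (‖F y‖ ^ 2 * wt X y ^ m)) < ⊤ →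
    ∃ b : X.B, (∀ y, F y = y b) ∧
      io b • PiTensorProduct.tprod (FnField I)
        (fun _ : Fin (m + 1) => wedgeD I n (io ∘ X.z)) ∈ pluricanonicalSections I n (m + 1)

/-- regularity with a pole weight: the section vanishes -/
def RegV0 (I : Ideal (HomCoordRing N)) [I.IsPrime] (n : ℕ) : Prop :=
  ∀ (X : XC I n) (io : X.B →ₐ[ℂ] FnField I), Function.Injective io →
    (∀ l, io (X.x l) = fnRatio I X.i l) → ∀ F : (X.B →ₐ[ℂ] ℂ) → ℂ, Ho51.Hol F → ∀ m : ℕ,
    lintM X.z (fun y => ENNReal.ofReal (‖F y‖ ^ 2 * wt X y ^ m)) < ⊤ →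
    ∀ p ∈ affineCone I, p ≠ 0 →
    lintM X.z (fun y => ENNReal.ofReal (‖F y‖ ^ 2 * wt X y ^ m *
      (ns X y / Amp5_243.Lp X p y) ^ (n + 1))) < ⊤ →
    ∀ b : X.B, (∀ y, F y = y b) →
      io b • PiTensorProduct.tprod (FnField I)
        (fun _ : Fin (m + 1) => wedgeD I n (io ∘ X.z)) ∈ vanishingSections I n (m + 1) p

variable {I : Ideal (HomCoordRing N)} [I.IsPrime] {c : CD I n} {q : Fin (N + 1) → ℂ}

/-- **sections with prescribed 1-jet at `q` and vanishing at `p`** -/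
theorem exists_section (hX : IsSmoothProjective I n) (hn : 1 ≤ n) {u : EE N → ℝ} {κ : ℝ}
    (hu : PosMet I n u κ) {m : ℕ} (hm : 2 * ((n : ℝ) + 1) < (((m + 1 : ℕ) : ℝ) - 1) * κ)
    (hR : Reg0 I n) (h : c.Dom q) {p : EE N} (hp : Amp5_243.Lp (xc h hX) p (y0 h hX) ≠ 0)
    (a0 : ℂ) (a : Fin n → ℂ) :
    ∃ F : c.B, (F : FnField I) • c.wm (m + 1) ∈ pluricanonicalSections I n (m + 1) ∧
      ev h.cone (h.toStalk F) = a0 ∧
      (∀ (v : Fin (N + 1) → ℂ) (hv : IsTan I q v),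
        dv h.cone hv (h.toStalk F) = ∑ k, a k * dv h.cone hv (CD.w h k)) ∧
      (RegV0 I n → p ∈ affineCone I → p ≠ 0 →
        (F : FnField I) • c.wm (m + 1) ∈ vanishingSections I n (m + 1) p) := by
  obtain ⟨F, hF, hF0, ⟨C, hC⟩, h1, h2⟩ := jets (X := xc h hX) hX hn hu hm (y0 h hX) p hp a0 a
  have hm1 : m + 1 - 1 = m := by omega
  rw [hm1] at h1 h2
  obtain ⟨b, hb, hbs⟩ := hR (xc h hX) (io h hX) (io_inj h hX) (io_x h hX) F hF m h1
  refine ⟨b, hbs, ?_, ?_, ?_⟩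
  · rw [← hF0, hb]
    rfl
  · intro v hv
    rw [dv_toStalk h hX hv b]
    refine Finset.sum_congr rfl fun k _ => ?_
    have h3 : (fun ζ => F (C.s ζ)) = fun ζ => C.s ζ b := by
      funext ζ; rw [hb]
    have h4 := hC (Pi.single k 1)
    rw [h3, fderiv_chart C (mem_ball_self C.r_pos), C.s_zero] at h4
    simp only [Pi.single_apply, ite_mul, one_mul, zero_mul, Finset.sum_ite_eq', Finset.mem_univ,
      if_true, mul_ite, mul_one, mul_zero] at h4
    rw [h4]
  · intro hV hp1 hp2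
    exact hV (xc h hX) (io h hX) (io_inj h hX) (io_x h hX) F hF m h1 p hp1 hp2 h2 b hb

/-- a point not proportional to `y` -/
lemma exists_Lp_ne (hn : 1 ≤ n) {X : XC I n} (y : X.B →ₐ[ℂ] ℂ) :
    ∃ p : EE N, Amp5_243.Lp X p y ≠ 0 := by
  have hji : X.j ⟨0, hn⟩ ≠ X.i := by
    intro hk
    have h3 := X.der_z_same ⟨0, hn⟩
    rw [X.z_eq, hk, X.x_i, Derivation.map_one_eq_zero] at h3
    exact zero_ne_one h3
  refine ⟨Pi.single (X.j ⟨0, hn⟩) 1, Lp_ne y ?_ fun a ha => ?_⟩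
  · intro h0
    have := congrFun h0 (X.j ⟨0, hn⟩)
    simp at this
  · have h1 := congrFun ha X.i
    rw [pt_i, Pi.smul_apply, Pi.single_eq_of_ne hji.symm, smul_zero] at h1
    exact one_ne_zero h1

theorem ample_of (hX : IsSmoothProjective I n) (hn : 1 ≤ n) {u : EE N → ℝ} {κ : ℝ}
    (hu : PosMet I n u κ) (hR : Reg0 I n) (hV : RegV0 I n) : IsCanonicallyAmple I n := by
  obtain ⟨m, hm⟩ := exists_nat_gt (2 * ((n : ℝ) + 1) / κ)
  have hm' : 2 * ((n : ℝ) + 1) < (((m + 1 : ℕ) : ℝ) - 1) * κ := by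
    rw [div_lt_iff₀ hu.c_pos] at hm
    push_cast
    simpa using hm
  refine isCanonicallyAmple_of_jets (m := m + 1) hX (by omega) ?_ ?_ ?_
  · intro p c h
    obtain ⟨p', hp'⟩ := exists_Lp_ne hn (y0 h hX)
    obtain ⟨F, h1, h2, -, -⟩ := exists_section hX hn hu hm' hR h hp' 1 0
    exact ⟨_, h1, h.toStalk F, rfl, by rw [h2]; exact one_ne_zero⟩
  · intro p q c c' h h' hpq
    have hLp : Amp5_243.Lp (xc h' hX) p (y0 h' hX) ≠ 0 := by
      refine Lp_ne _ h.ne_zero fun a ha => ?_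
      rw [pt_y0] at ha
      apply hpq (q c'.i * a)
      rw [mul_smul, ← ha, smul_smul, mul_inv_cancel₀ h'.i, one_smul]
    obtain ⟨F, h1, h2, -, h4⟩ := exists_section hX hn hu hm' hR h' hLp 1 0
    obtain ⟨G, hG0, hG⟩ := (mem_vanishingSections_iff hX h).1 (h4 hV h.cone h.ne_zero)
    exact ⟨_, h1, G, h'.toStalk F, hG, rfl, hG0, by rw [h2]; exact one_ne_zero⟩
  · intro p c h t
    obtain ⟨p', hp'⟩ := exists_Lp_ne hn (y0 h hX)
    obtain ⟨F, h1, h2, h3, -⟩ := exists_section hX hn hu hm' hR h hp' 0 t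
    exact ⟨_, h1, h.toStalk F, rfl, h2, h3⟩

/-- **`AmpStmt` from the two regularity statements** -/
theorem ampStmt_of
    (hR : ∀ (N n : ℕ) (I : Ideal (HomCoordRing N)) [I.IsPrime], IsSmoothProjective I n → 1 ≤ n →
      Reg0 I n ∧ RegV0 I n) : Defs_58.AmpStmt := by
  intro N n I hI hX hn hP
  obtain ⟨u, κ, hu⟩ := Amp6_243.posMet_of hI hX hP
  exact ample_of hX hn hu (hR N n I hX hn).1 (hR N n I hX hn).2

end Crest.Agent.R269.Amp8_243
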