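import Crest.Agent.R269.GeoDefs_328

/-!
# R269, leaf AT3/AT4, part 1 (helper932): the projector map `PP` and compactness of `XX I`
-/

set_option autoImplicit false

open MvPolynomial Crest.AlgGeometry.ProjEmb Set Filter Topology
open scoped ContDiff ComplexConjugate
open Crest.Agent.R269.Geo_328

noncomputable section

namespace Crest.Agent.R269.Atl_932

variable {N n : ℕ} {I : Ideal (HomCoordRing N)}

/-! ## `nsq` -/

theorem nsq_nonneg (p : EE N) : 0 ≤ nsq p := Finset.sum_nonneg fun _ _ => by positivity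

theorem nsq_pos {p : EE N} (hp : p ≠ 0) : 0 < nsq p := by
  obtain ⟨i, hi⟩ := Function.ne_iff.1 hp
  refine Finset.sum_pos' (fun _ _ => by positivity) ⟨i, Finset.mem_univ _, ?_⟩
  have : 0 < ‖p i‖ := norm_pos_iff.2 hi
  positivity

theorem nsq_ne {p : EE N} (hp : p ≠ 0) : (nsq p : ℂ) ≠ 0 := by
  exact_mod_cast (nsq_pos hp).ne'

theorem nsq_smul (c : ℂ) (p : EE N) : nsq (c • p) = ‖c‖ ^ 2 * nsq p := by
  simp only [nsq, Pi.smul_apply, smul_eq_mul, norm_mul, mul_pow, Finset.mul_sum]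

theorem nsq_eq_re (p : EE N) : (nsq p : ℂ) = ∑ i, p i * conj (p i) := by
  simp only [nsq, Complex.mul_conj, Complex.normSq_eq_norm_sq]
  push_cast
  rfl

theorem contDiff_nsq {m : WithTop ℕ∞} : ContDiff ℝ m (nsq : EE N → ℝ) := by
  have h : (nsq : EE N → ℝ) = fun p => ∑ i, ((p i).re * (p i).re + (p i).im * (p i).im) := by
    funext p
    refine Finset.sum_congr rfl fun i _ => ?_
    rw [← Complex.normSq_eq_norm_sq, Complex.normSq_apply]
  rw [h]
  have h1 : ∀ i : Fin (N + 1), ContDiff ℝ m (fun p : EE N => (p i).re) := fun i =>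
    Complex.reCLM.contDiff.comp (contDiff_apply ℝ ℂ i)
  have h2 : ∀ i : Fin (N + 1), ContDiff ℝ m (fun p : EE N => (p i).im) := fun i =>
    Complex.imCLM.contDiff.comp (contDiff_apply ℝ ℂ i)
  exact ContDiff.sum fun i _ => ((h1 i).mul (h1 i)).add ((h2 i).mul (h2 i))

theorem continuous_nsq : Continuous (nsq : EE N → ℝ) := (contDiff_nsq (m := 0)).continuous

/-! ## `PP` -/

theorem PP_apply (p : EE N) (i j : Fin (N + 1)) : PP p i j = p i * conj (p j) / (nsq p : ℂ) := rfl

theorem PP_smul {c : ℂ} (hc : c ≠ 0) (p : EE N) : PP (c • p) = PP p := by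
  funext i j
  rw [PP_apply, PP_apply, nsq_smul]
  by_cases hp : p = 0
  · subst hp; simp
  have h1 := nsq_ne hp
  have h2 : ((‖c‖ ^ 2 : ℝ) : ℂ) = c * conj c := by
    rw [Complex.mul_conj, Complex.normSq_eq_norm_sq]
  have h3 : conj c ≠ 0 := by simpa using hc
  push_cast at h2 ⊢
  rw [h2]
  simp only [Pi.smul_apply, smul_eq_mul, map_mul]
  field_simp

theorem PP_div {p : EE N} {i j : Fin (N + 1)} (hp : p i ≠ 0) : PP p j i / PP p i i = p j / p i := by
  have hp0 : p ≠ 0 := by rintro rfl; exact hp rfl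
  rw [PP_apply, PP_apply]
  have h1 := nsq_ne hp0
  have h2 : conj (p i) ≠ 0 := by simpa using hp
  field_simp

theorem PP_diag (p : EE N) (i : Fin (N + 1)) : PP p i i = ((‖p i‖ ^ 2 / nsq p : ℝ) : ℂ) := by
  rw [PP_apply, Complex.mul_conj, Complex.normSq_eq_norm_sq]
  push_cast
  rfl

theorem PP_diag_ne {p : EE N} {i : Fin (N + 1)} (hp : p i ≠ 0) : PP p i i ≠ 0 := by
  have hp0 : p ≠ 0 := by rintro rfl; exact hp rfl
  rw [PP_apply]
  have h2 : conj (p i) ≠ 0 := by simpa using hp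
  exact div_ne_zero (mul_ne_zero hp h2) (nsq_ne hp0)

/-- two points with the same projector are proportional -/
theorem eq_smul_of_PP_eq {p q : EE N} (hp : p ≠ 0) (_hq : q ≠ 0) (h : PP p = PP q) :
    ∃ c : ℂ, c ≠ 0 ∧ q = c • p := by
  obtain ⟨i, hi⟩ := Function.ne_iff.1 hp
  have hi' : p i ≠ 0 := hi
  have hqi : q i ≠ 0 := by
    intro h0
    have h1 := PP_diag_ne hi'
    rw [h, PP_apply, h0] at h1
    simp at h1
  refine ⟨q i / p i, div_ne_zero hqi hi', ?_⟩
  funext j
  have h1 := PP_div (j := j) hi'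
  have h2 := PP_div (j := j) hqi
  rw [h, h2] at h1
  rw [Pi.smul_apply, smul_eq_mul]
  have : q j = q j / q i * q i := by field_simp
  rw [this, h1]
  field_simp

theorem PP_eq_iff {p q : EE N} (hp : p ≠ 0) (hq : q ≠ 0) :
    PP p = PP q ↔ ∃ c : ℂ, c ≠ 0 ∧ q = c • p :=
  ⟨eq_smul_of_PP_eq hp hq, by rintro ⟨c, hc, rfl⟩; exact (PP_smul hc p).symm⟩

theorem contDiffAt_PP {m : WithTop ℕ∞} {p : EE N} (hp : p ≠ 0) : ContDiffAt ℝ m (PP : EE N → VV N) p := by
  refine contDiffAt_pi.2 fun i => contDiffAt_pi.2 fun j => ?_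
  have h1 : ∀ i : Fin (N + 1), ContDiff ℝ m (fun p : EE N => p i) := fun i => contDiff_apply ℝ ℂ i
  have h2 : ContDiff ℝ m (fun p : EE N => conj (p j)) :=
    Complex.conjCLE.contDiff.comp (h1 j)
  have h3 : ContDiff ℝ m (fun p : EE N => (nsq p : ℂ)) :=
    Complex.ofRealCLM.contDiff.comp contDiff_nsq
  have h4 : (fun p : EE N => PP p i j) = fun p => p i * conj (p j) * (nsq p : ℂ)⁻¹ := by
    funext q
    rw [PP_apply, div_eq_mul_inv]
  rw [h4]
  exact ((h1 i).mul h2).contDiffAt.mul (h3.contDiffAt.inv (nsq_ne hp))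

theorem contDiffOn_PP {m : WithTop ℕ∞} : ContDiffOn ℝ m (PP : EE N → VV N) {p | p ≠ 0} :=
  fun _ hp => (contDiffAt_PP hp).contDiffWithinAt

theorem continuousAt_PP {p : EE N} (hp : p ≠ 0) : ContinuousAt (PP : EE N → VV N) p :=
  (contDiffAt_PP (m := 0) hp).continuousAt

theorem norm_PP_le (p : EE N) : ‖PP p‖ ≤ 1 := by
  by_cases hp : p = 0
  · subst hp
    have : PP (0 : EE N) = 0 := by funext i j; simp [PP_apply]
    rw [this, norm_zero]; exact zero_le_one
  refine (pi_norm_le_iff_of_nonneg zero_le_one).2 fun i =>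
    (pi_norm_le_iff_of_nonneg zero_le_one).2 fun j => ?_
  rw [PP_apply, norm_div, norm_mul, RCLike.norm_conj, Complex.norm_real, Real.norm_eq_abs,
    abs_of_pos (nsq_pos hp), div_le_one (nsq_pos hp)]
  have h1 : ‖p i‖ ^ 2 ≤ nsq p := Finset.single_le_sum (f := fun i => ‖p i‖ ^ 2)
    (fun _ _ => by positivity) (Finset.mem_univ i)
  have h2 : ‖p j‖ ^ 2 ≤ nsq p := Finset.single_le_sum (f := fun i => ‖p i‖ ^ 2)
    (fun _ _ => by positivity) (Finset.mem_univ j)
  nlinarith [sq_nonneg (‖p i‖ - ‖p j‖)]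

/-! ## the cone is closed, `XX I` is compact -/

theorem isClosed_affineCone (I : Ideal (HomCoordRing N)) : IsClosed (affineCone I) := by
  have h : affineCone I = ⋂ F ∈ I, {p : EE N | MvPolynomial.eval p F = 0} := by
    ext p
    simp [affineCone]
  rw [h]
  refine isClosed_biInter fun F _ => ?_
  exact isClosed_eq (MvPolynomial.continuous_eval F) continuous_const

theorem smul_mem_affineCone (hX : IsSmoothProjective I n) {p : EE N} (hp : p ∈ affineCone I)
    (c : ℂ) : c • p ∈ affineCone I := by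
  intro F hF
  have h1 : F = ∑ d ∈ Finset.range (F.totalDegree + 1), homogeneousComponent d F :=
    (sum_homogeneousComponent F).symm
  rw [h1, map_sum]
  refine Finset.sum_eq_zero fun d _ => ?_
  have h2 : eval p (homogeneousComponent d F) = 0 := hp _ (hX.homogeneous F hF d)
  have h3 : (homogeneousComponent d F).IsHomogeneous d := homogeneousComponent_isHomogeneous d F
  have h4 : eval (c • p) (homogeneousComponent d F) = c ^ d * eval p (homogeneousComponent d F) := by
    rw [eval_eq', eval_eq', Finset.mul_sum]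
    refine Finset.sum_congr rfl fun m hm => ?_
    have h1 : ∑ i, m i = d := by
      have := h3 (mem_support_iff.1 hm)
      rw [Finsupp.weight_apply] at this
      rw [← this, Finsupp.sum_fintype _ _ (by simp)]
      simp
    have h2 : ∏ i, (c • p) i ^ m i = c ^ d * ∏ i, p i ^ m i := by
      rw [← h1, ← Finset.prod_pow_eq_pow_sum, ← Finset.prod_mul_distrib]
      refine Finset.prod_congr rfl fun i _ => ?_
      rw [Pi.smul_apply, smul_eq_mul, mul_pow]
    rw [h2]
    ring
  rw [h4, h2, mul_zero]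

theorem smul_mem_Cone (hX : IsSmoothProjective I n) {p : EE N} (hp : p ∈ Cone I) {c : ℂ}
    (hc : c ≠ 0) : c • p ∈ Cone I :=
  ⟨smul_mem_affineCone hX hp.1 c, smul_ne_zero hc hp.2⟩

theorem smul_mem_Cone_iff (hX : IsSmoothProjective I n) {p : EE N} {c : ℂ}
    (hc : c ≠ 0) : c • p ∈ Cone I ↔ p ∈ Cone I := by
  refine ⟨fun h => ?_, fun h => smul_mem_Cone hX h hc⟩
  have := smul_mem_Cone hX h (inv_ne_zero hc)
  rwa [smul_smul, inv_mul_cancel₀ hc, one_smul] at this

/-- the normalised cone points -/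
def Sph (I : Ideal (HomCoordRing N)) : Set (EE N) := {p | p ∈ affineCone I ∧ nsq p = 1}

theorem Sph_sub : Sph I ⊆ Cone I := by
  rintro p ⟨h1, h2⟩
  refine ⟨h1, ?_⟩
  rintro rfl
  simp [nsq] at h2

theorem isCompact_Sph (I : Ideal (HomCoordRing N)) : IsCompact (Sph I) := by
  refine Metric.isCompact_of_isClosed_isBounded ?_ ?_
  · exact (isClosed_affineCone I).inter (isClosed_eq continuous_nsq continuous_const)
  · refine (Metric.isBounded_closedBall (x := (0 : EE N)) (r := 1)).subset ?_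
    rintro p ⟨-, hp⟩
    rw [mem_closedBall_zero_iff]
    refine (pi_norm_le_iff_of_nonneg zero_le_one).2 fun i => ?_
    have h1 : ‖p i‖ ^ 2 ≤ nsq p := Finset.single_le_sum (f := fun i => ‖p i‖ ^ 2)
      (fun _ _ => by positivity) (Finset.mem_univ i)
    rw [hp] at h1
    nlinarith [norm_nonneg (p i)]

theorem exists_normalise (hX : IsSmoothProjective I n) {p : EE N} (hp : p ∈ Cone I) :
    ∃ c : ℂ, c ≠ 0 ∧ c • p ∈ Sph I := by
  have h1 := nsq_pos hp.2
  refine ⟨((Real.sqrt (nsq p))⁻¹ : ℝ), ?_, smul_mem_affineCone hX hp.1 _, ?_⟩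
  · have : Real.sqrt (nsq p) ≠ 0 := (Real.sqrt_pos.2 h1).ne'
    exact_mod_cast inv_ne_zero this
  · rw [nsq_smul, Complex.norm_real, norm_inv, Real.norm_eq_abs, abs_of_pos (Real.sqrt_pos.2 h1),
      inv_pow, Real.sq_sqrt h1.le]
    field_simp

theorem XX_eq_image_Sph (hX : IsSmoothProjective I n) : XX I = PP '' Sph I := by
  refine Subset.antisymm ?_ (image_mono Sph_sub)
  rintro _ ⟨p, hp, rfl⟩
  obtain ⟨c, hc, h⟩ := exists_normalise hX hp
  exact ⟨_, h, PP_smul hc p⟩

theorem isCompact_XX (hX : IsSmoothProjective I n) : IsCompact (XX I) := by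
  rw [XX_eq_image_Sph hX]
  exact (isCompact_Sph I).image_of_continuousOn fun p hp =>
    (continuousAt_PP (Sph_sub hp).2).continuousWithinAt

theorem PP_mem_XX {p : EE N} (hp : p ∈ Cone I) : PP p ∈ XX I := mem_image_of_mem _ hp

/-- a cone point is recognised by its projector -/
theorem mem_Cone_of_PP_mem (hX : IsSmoothProjective I n) {p : EE N} (hp : p ≠ 0)
    (h : PP p ∈ XX I) : p ∈ Cone I := by
  obtain ⟨q, hq, h1⟩ := h
  obtain ⟨c, hc, rfl⟩ := eq_smul_of_PP_eq hq.2 hp h1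
  exact smul_mem_Cone hX hq hc

end Crest.Agent.R269.Atl_932
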