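import Crest.Agent.R269.Atl2_932

/-!
# R269, leaf AT3 (helper932): rescaled charts, finite atlas, Lebesgue number

`UChart I n`   : a holomorphic graph chart `σ : ball 0 4 ⊂ ℂⁿ → Cone I`;
`UChart.co`    : its coordinate, a function of the homogeneous coordinates;
`lift i P`     : the point of the cone with `i`-th coordinate `1` over the projector `P`;
`FinAtlas I n` : finitely many `UChart`s such that every cone point has coordinate of norm `< 1` in one.
-/

set_option autoImplicit false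

open MvPolynomial Crest.AlgGeometry.ProjEmb Set Filter Topology Metric
open scoped ContDiff ComplexConjugate
open Crest.Agent.R269.Geo_328

noncomputable section

namespace Crest.Agent.R269.Atl_932

variable {N n : ℕ} {I : Ideal (HomCoordRing N)}

/-! ## the normalised lift -/

/-- the normalised lift of a projector -/
def lift (i : Fin (N + 1)) (P : VV N) : EE N := fun j => P j i / P i i

theorem lift_PP {p : EE N} {i : Fin (N + 1)} (hp : p i ≠ 0) : lift i (PP p) = (p i)⁻¹ • p := by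
  funext j
  rw [lift, PP_div hp, Pi.smul_apply, smul_eq_mul, div_eq_inv_mul]

theorem lift_i {P : VV N} {i : Fin (N + 1)} (h : P i i ≠ 0) : lift i P i = 1 := div_self h

theorem ne_of_PP_diag {p : EE N} {i : Fin (N + 1)} (h : PP p i i ≠ 0) : p i ≠ 0 := by
  intro h0
  rw [PP_apply, h0] at h
  simp at h

theorem PP_lift {P : VV N} (hP : P ∈ XX I) {i : Fin (N + 1)} (h : P i i ≠ 0) :
    PP (lift i P) = P := by
  obtain ⟨p, hp, rfl⟩ := hP
  have hi := ne_of_PP_diag h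
  rw [lift_PP hi, PP_smul (inv_ne_zero hi)]

theorem lift_mem_Cone (hX : IsSmoothProjective I n) {P : VV N} (hP : P ∈ XX I)
    {i : Fin (N + 1)} (h : P i i ≠ 0) : lift i P ∈ Cone I := by
  obtain ⟨p, hp, rfl⟩ := hP
  have hi := ne_of_PP_diag h
  rw [lift_PP hi]
  exact smul_mem_Cone hX hp (inv_ne_zero hi)

theorem contDiffAt_lift {m : WithTop ℕ∞} {P : VV N} {i : Fin (N + 1)} (h : P i i ≠ 0) :
    ContDiffAt ℂ m (lift i : VV N → EE N) P := by
  refine contDiffAt_pi.2 fun j => ?_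
  have h1 : ∀ a b : Fin (N + 1), ContDiff ℂ m (fun P : VV N => P a b) := fun a b =>
    (contDiff_apply ℂ ℂ b).comp (contDiff_apply ℂ (Fin (N + 1) → ℂ) a)
  exact (h1 j i).contDiffAt.div (h1 i i).contDiffAt h

theorem isOpen_diag_ne (i : Fin (N + 1)) : IsOpen {P : VV N | P i i ≠ 0} := by
  have : Continuous fun P : VV N => P i i := (continuous_apply i).comp (continuous_apply i)
  exact isOpen_ne.preimage this

theorem continuousOn_lift (i : Fin (N + 1)) :
    ContinuousOn (lift i : VV N → EE N) {P | P i i ≠ 0} := fun _ hP =>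
  (contDiffAt_lift (m := 0) hP).continuousAt.continuousWithinAt

/-! ## rescaled charts -/

/-- a chart of `X` with a section of the cone, rescaled so that its domain is `ball 0 4` -/
structure UChart (I : Ideal (HomCoordRing N)) (n : ℕ) where
  i : Fin (N + 1)
  J : Fin n → Fin (N + 1)
  J_inj : Function.Injective J
  J_ne : ∀ k, J k ≠ i
  b : EE N
  s : ℝ
  s_pos : 0 < s
  σ : CC n → EE N
  W : Set (EE N)
  W_open : IsOpen W
  W_smul : ∀ c : ℂ, c ≠ 0 → ∀ q ∈ W, c • q ∈ W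
  W_ne : ∀ q ∈ W, q i ≠ 0
  an : AnalyticOnNhd ℂ σ (ball 0 4)
  σ_cone : ∀ z ∈ ball (0 : CC n) 4, σ z ∈ Cone I
  σ_W : ∀ z ∈ ball (0 : CC n) 4, σ z ∈ W
  σ_i : ∀ z ∈ ball (0 : CC n) 4, σ z i = 1
  σ_J : ∀ z ∈ ball (0 : CC n) 4, ∀ k, σ z (J k) = b (J k) + s * z k
  surj : ∀ q ∈ Cone I, q ∈ W → (fun k => (q (J k) / q i - b (J k)) / s) ∈ ball (0 : CC n) 4 ∧
    q = q i • σ (fun k => (q (J k) / q i - b (J k)) / s)
  tan : ∀ z ∈ ball (0 : CC n) 4, ∀ v : EE N, v ∈ Tan I (σ z) ↔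
    ∃ (c : ℂ) (x : CC n), v = c • σ z + fderiv ℂ σ z x

namespace UChart

variable (U : UChart I n)

/-- the coordinate of a chart (on homogeneous coordinates) -/
def co (q : EE N) : CC n := fun k => (q (U.J k) / q U.i - U.b (U.J k)) / U.s

/-- the coordinate of a chart, on projectors -/
def coP (P : VV N) : CC n := U.co (lift U.i P)

theorem s_ne : (U.s : ℂ) ≠ 0 := by exact_mod_cast U.s_pos.ne'

theorem co_smul {c : ℂ} (hc : c ≠ 0) (q : EE N) : U.co (c • q) = U.co q := by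
  funext k
  simp only [co, Pi.smul_apply, smul_eq_mul]
  rw [mul_div_mul_left _ _ hc]

theorem co_σ {z : CC n} (hz : z ∈ ball (0 : CC n) 4) : U.co (U.σ z) = z := by
  funext k
  simp only [co]
  rw [U.σ_i z hz, U.σ_J z hz k, div_one, add_sub_cancel_left, mul_div_cancel_left₀ _ U.s_ne]

theorem mem_ball_of_mem {q : EE N} (hq : q ∈ Cone I) (hW : q ∈ U.W) :
    U.co q ∈ ball (0 : CC n) 4 := (U.surj q hq hW).1

theorem eq_smul_σ {q : EE N} (hq : q ∈ Cone I) (hW : q ∈ U.W) : q = q U.i • U.σ (U.co q) :=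
  (U.surj q hq hW).2

theorem σ_ne {z : CC n} (hz : z ∈ ball (0 : CC n) 4) : U.σ z ≠ 0 := (U.σ_cone z hz).2

theorem co_injOn {z z' : CC n} (hz : z ∈ ball (0 : CC n) 4) (hz' : z' ∈ ball (0 : CC n) 4)
    (h : PP (U.σ z) = PP (U.σ z')) : z = z' := by
  obtain ⟨c, hc, h1⟩ := eq_smul_of_PP_eq (U.σ_ne hz) (U.σ_ne hz') h
  rw [← U.co_σ hz, ← U.co_σ hz', h1, U.co_smul hc]

theorem contDiffAt_co {m : WithTop ℕ∞} {q : EE N} (h : q U.i ≠ 0) : ContDiffAt ℂ m U.co q := by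
  refine contDiffAt_pi.2 fun k => ?_
  have h1 : ∀ a : Fin (N + 1), ContDiff ℂ m (fun q : EE N => q a) := fun a => contDiff_apply ℂ ℂ a
  have h2 : (fun q : EE N => U.co q k) =
      fun q : EE N => (q (U.J k) / q U.i - U.b (U.J k)) * (U.s : ℂ)⁻¹ := by
    funext q
    simp only [co, div_eq_mul_inv]
  rw [h2]
  exact (((h1 _).contDiffAt.div (h1 _).contDiffAt h).sub contDiffAt_const).mul contDiffAt_const

theorem continuousOn_co : ContinuousOn U.co {q | q U.i ≠ 0} := fun _ hq =>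
  (U.contDiffAt_co (m := 0) hq).continuousAt.continuousWithinAt

theorem contDiffAt_coP {m : WithTop ℕ∞} {P : VV N} (h : P U.i U.i ≠ 0) :
    ContDiffAt ℂ m U.coP P := by
  have h1 : (lift U.i P) U.i ≠ 0 := by rw [lift_i h]; exact one_ne_zero
  exact (U.contDiffAt_co h1).comp P (contDiffAt_lift h)

theorem coP_PP {p : EE N} (hp : p U.i ≠ 0) : U.coP (PP p) = U.co p := by
  rw [coP, lift_PP hp, U.co_smul (inv_ne_zero hp)]

/-- the part of the chart domain with coordinate of norm `< r` -/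
def Wr (r : ℝ) : Set (EE N) := {q | q ∈ U.W ∧ U.co q ∈ ball (0 : CC n) r}

/-- the same, on projectors -/
def Vr (r : ℝ) : Set (VV N) := {P | P U.i U.i ≠ 0 ∧ lift U.i P ∈ U.Wr r}

theorem isOpen_Wr (r : ℝ) : IsOpen (U.Wr r) := by
  have h1 : ContinuousOn U.co U.W := U.continuousOn_co.mono fun q hq => U.W_ne q hq
  exact h1.isOpen_inter_preimage U.W_open isOpen_ball

theorem isOpen_Vr (r : ℝ) : IsOpen (U.Vr r) :=
  (continuousOn_lift U.i).isOpen_inter_preimage (isOpen_diag_ne U.i) (U.isOpen_Wr r)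

theorem smul_mem_Wr {r : ℝ} {c : ℂ} (hc : c ≠ 0) {q : EE N} (hq : q ∈ U.Wr r) :
    c • q ∈ U.Wr r := ⟨U.W_smul c hc q hq.1, by rw [U.co_smul hc]; exact hq.2⟩

theorem smul_mem_Wr_iff {r : ℝ} {c : ℂ} (hc : c ≠ 0) {q : EE N} :
    c • q ∈ U.Wr r ↔ q ∈ U.Wr r := by
  refine ⟨fun h => ?_, U.smul_mem_Wr hc⟩
  have := U.smul_mem_Wr (inv_ne_zero hc) h
  rwa [smul_smul, inv_mul_cancel₀ hc, one_smul] at this

theorem PP_mem_Vr_iff {r : ℝ} {p : EE N} : PP p ∈ U.Vr r ↔ p ∈ U.Wr r := by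
  constructor
  · rintro ⟨h1, h2⟩
    have hi := ne_of_PP_diag h1
    rw [lift_PP hi] at h2
    exact (U.smul_mem_Wr_iff (inv_ne_zero hi)).1 h2
  · intro h
    have hi := U.W_ne p h.1
    refine ⟨PP_diag_ne hi, ?_⟩
    rw [lift_PP hi]
    exact U.smul_mem_Wr (inv_ne_zero hi) h

theorem σ_mem_Wr {r : ℝ} {z : CC n} (hz : z ∈ ball (0 : CC n) 4) (hr : z ∈ ball (0 : CC n) r) :
    U.σ z ∈ U.Wr r := ⟨U.σ_W z hz, by rwa [U.co_σ hz]⟩

/-- points of `XX I` in `Vr r` come from the chart -/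
theorem exists_of_mem_Vr {r : ℝ} {P : VV N} (hP : P ∈ XX I) (h : P ∈ U.Vr r) :
    U.coP P ∈ ball (0 : CC n) 4 ∧ U.coP P ∈ ball (0 : CC n) r ∧ PP (U.σ (U.coP P)) = P := by
  obtain ⟨p, hp, rfl⟩ := hP
  have h1 := U.PP_mem_Vr_iff.1 h
  have hi := U.W_ne p h1.1
  rw [U.coP_PP hi]
  refine ⟨U.mem_ball_of_mem hp h1.1, h1.2, ?_⟩
  conv_rhs => rw [U.eq_smul_σ hp h1.1]
  rw [PP_smul hi]

theorem coP_σ {z : CC n} (hz : z ∈ ball (0 : CC n) 4) : U.coP (PP (U.σ z)) = z := by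
  rw [U.coP_PP (by rw [U.σ_i z hz]; exact one_ne_zero), U.co_σ hz]

end UChart

/-- rescaling a `ConeChart` -/
def UChart.ofConeChart {p₀ : EE N} (C : ConeChart I n p₀) : UChart I n where
  i := C.i
  J := C.J
  J_inj := C.J_inj
  J_ne := C.J_ne
  b := (p₀ C.i)⁻¹ • p₀
  s := C.R / 4
  s_pos := by have := C.R_pos; positivity
  σ := fun z => C.σ (((C.R / 4 : ℝ) : ℂ) • z)
  W := C.W
  W_open := C.W_open
  W_smul := C.W_smul
  W_ne := C.W_ne
  an := by
    have h1 : AnalyticOnNhd ℂ (fun z : CC n => ((C.R / 4 : ℝ) : ℂ) • z) (ball 0 4) :=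
      analyticOnNhd_const.smul analyticOnNhd_id
    refine C.an.comp h1 fun z hz => ?_
    rw [mem_ball_zero_iff] at hz ⊢
    have hR := C.R_pos
    rw [norm_smul, Complex.norm_real, Real.norm_eq_abs, abs_of_pos (by positivity)]
    linarith [mul_lt_mul_of_pos_left hz (show 0 < C.R / 4 by positivity)]
  σ_cone := fun z hz => C.σ_cone _ (by
    rw [mem_ball_zero_iff] at hz ⊢
    have hR := C.R_pos
    rw [norm_smul, Complex.norm_real, Real.norm_eq_abs, abs_of_pos (by positivity)]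
    linarith [mul_lt_mul_of_pos_left hz (show 0 < C.R / 4 by positivity)])
  σ_W := fun z hz => C.σ_W _ (by
    rw [mem_ball_zero_iff] at hz ⊢
    have hR := C.R_pos
    rw [norm_smul, Complex.norm_real, Real.norm_eq_abs, abs_of_pos (by positivity)]
    linarith [mul_lt_mul_of_pos_left hz (show 0 < C.R / 4 by positivity)])
  σ_i := fun z hz => C.σ_i _ (by
    rw [mem_ball_zero_iff] at hz ⊢
    have hR := C.R_pos
    rw [norm_smul, Complex.norm_real, Real.norm_eq_abs, abs_of_pos (by positivity)]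
    linarith [mul_lt_mul_of_pos_left hz (show 0 < C.R / 4 by positivity)])
  σ_J := fun z hz k => by
    rw [C.σ_J _ (by
      rw [mem_ball_zero_iff] at hz ⊢
      have hR := C.R_pos
      rw [norm_smul, Complex.norm_real, Real.norm_eq_abs, abs_of_pos (by positivity)]
      linarith [mul_lt_mul_of_pos_left hz (show 0 < C.R / 4 by positivity)]) k]
    simp only [Pi.smul_apply, smul_eq_mul]
    rw [div_eq_inv_mul]
  surj := fun q hq hW => by
    obtain ⟨h1, h2⟩ := C.surj q hq hW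
    have hR := C.R_pos
    have hs : ((C.R / 4 : ℝ) : ℂ) ≠ 0 := by
      have : C.R / 4 ≠ 0 := by positivity
      exact_mod_cast this
    have h3 : ratio C.i C.J p₀ q = ((C.R / 4 : ℝ) : ℂ) •
        (fun k => (q (C.J k) / q C.i - ((p₀ C.i)⁻¹ • p₀) (C.J k)) / ((C.R / 4 : ℝ) : ℂ) : CC n) := by
      funext k
      simp only [ratio, Pi.smul_apply, smul_eq_mul]
      rw [mul_div_cancel₀ _ hs, div_eq_inv_mul (p₀ (C.J k))]
    refine ⟨?_, by rw [← h3]; exact h2⟩
    rw [h3, mem_ball_zero_iff, norm_smul, Complex.norm_real, Real.norm_eq_abs,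
      abs_of_pos (by positivity)] at h1
    rw [mem_ball_zero_iff]
    by_contra hcon
    rw [not_lt] at hcon
    have := mul_le_mul_of_nonneg_left hcon (show 0 ≤ C.R / 4 by positivity)
    linarith
  tan := fun z hz v => by
    have hR := C.R_pos
    have hs : ((C.R / 4 : ℝ) : ℂ) ≠ 0 := by
      have : C.R / 4 ≠ 0 := by positivity
      exact_mod_cast this
    have hb : ((C.R / 4 : ℝ) : ℂ) • z ∈ ball (0 : CC n) C.R := by
      rw [mem_ball_zero_iff] at hz ⊢
      rw [norm_smul, Complex.norm_real, Real.norm_eq_abs, abs_of_pos (by positivity)]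
      linarith [mul_lt_mul_of_pos_left hz (show 0 < C.R / 4 by positivity)]
    have hd : fderiv ℂ (fun z => C.σ (((C.R / 4 : ℝ) : ℂ) • z)) z =
        ((C.R / 4 : ℝ) : ℂ) • fderiv ℂ C.σ (((C.R / 4 : ℝ) : ℂ) • z) := by
      have h1 : HasFDerivAt C.σ (fderiv ℂ C.σ (((C.R / 4 : ℝ) : ℂ) • z))
          (((C.R / 4 : ℝ) : ℂ) • z) := (C.an _ hb).differentiableAt.hasFDerivAt
      have h2 : HasFDerivAt (fun z : CC n => ((C.R / 4 : ℝ) : ℂ) • z)
          (((C.R / 4 : ℝ) : ℂ) • ContinuousLinearMap.id ℂ (CC n)) z :=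
        (((C.R / 4 : ℝ) : ℂ) • ContinuousLinearMap.id ℂ (CC n)).hasFDerivAt
      have h3 : HasFDerivAt (fun z : CC n => C.σ (((C.R / 4 : ℝ) : ℂ) • z)) _ z := h1.comp z h2
      rw [h3.fderiv]
      ext x
      simp
    rw [C.tan _ hb v, hd]
    constructor
    · rintro ⟨c, x, rfl⟩
      refine ⟨c, (((C.R / 4 : ℝ) : ℂ))⁻¹ • x, ?_⟩
      rw [_root_.smul_apply, map_smul, smul_smul, mul_inv_cancel₀ hs, one_smul]
    · rintro ⟨c, x, rfl⟩
      refine ⟨c, ((C.R / 4 : ℝ) : ℂ) • x, ?_⟩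
      rw [_root_.smul_apply, map_smul]

theorem UChart.ofConeChart_mem {p₀ : EE N} (C : ConeChart I n p₀) :
    p₀ ∈ (UChart.ofConeChart C).Wr 1 := by
  refine ⟨C.mem_W, ?_⟩
  have : (UChart.ofConeChart C).co p₀ = 0 := by
    funext k
    simp only [UChart.co, UChart.ofConeChart, Pi.smul_apply, smul_eq_mul, Pi.zero_apply]
    rw [div_eq_inv_mul (p₀ (C.J k)), sub_self, zero_div]
  rw [this]
  exact mem_ball_self one_pos

/-! ## finite atlas -/

/-- a finite atlas of `X` -/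
structure FinAtlas (I : Ideal (HomCoordRing N)) (n : ℕ) where
  ι : Type
  [fin : Fintype ι]
  ch : ι → UChart I n
  cover : ∀ q ∈ Cone I, ∃ j, q ∈ (ch j).Wr 1

attribute [instance] FinAtlas.fin

/-- (AT3) existence of a finite atlas -/
theorem exists_finAtlas (hc : ∀ p ∈ Cone I, Nonempty (ConeChart I n p))
    (hX : IsSmoothProjective I n) : Nonempty (FinAtlas I n) := by
  classical
  let C : ∀ p : Cone I, ConeChart I n p.1 := fun p => (hc p.1 p.2).some
  let Uc : Cone I → UChart I n := fun p => UChart.ofConeChart (C p)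
  have h1 : Sph I ⊆ ⋃ p : Cone I, (Uc p).Wr 1 := fun p hp =>
    mem_iUnion.2 ⟨⟨p, Sph_sub hp⟩, UChart.ofConeChart_mem (C ⟨p, Sph_sub hp⟩)⟩
  obtain ⟨t, ht⟩ := (isCompact_Sph I).elim_finite_subcover _ (fun p => (Uc p).isOpen_Wr 1) h1
  refine ⟨{ ι := Fin t.card, ch := fun a => Uc (t.equivFin.symm a).1, cover := ?_ }⟩
  intro q hq
  obtain ⟨c, hc0, hcq⟩ := exists_normalise hX hq
  obtain ⟨p, hp, h2⟩ := mem_iUnion₂.1 (ht hcq)
  refine ⟨t.equivFin ⟨p, hp⟩, ?_⟩
  simp only [Equiv.symm_apply_apply]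
  exact ((Uc p).smul_mem_Wr_iff hc0).1 h2

namespace FinAtlas

variable (A : FinAtlas I n)

theorem cover_XX {P : VV N} (hP : P ∈ XX I) : ∃ j, P ∈ (A.ch j).Vr 1 := by
  obtain ⟨p, hp, rfl⟩ := hP
  obtain ⟨j, hj⟩ := A.cover p hp
  exact ⟨j, (A.ch j).PP_mem_Vr_iff.2 hj⟩

/-- (AT4, Lebesgue number): every small ball of `XX I` lies in one chart -/
theorem exists_lebesgue (hX : IsSmoothProjective I n) : ∃ ρ : ℝ, 0 < ρ ∧
    ∀ x ∈ XX I, ∃ j, ∀ y ∈ XX I, dist y x < ρ → y ∈ (A.ch j).Vr 1 := by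
  obtain ⟨ρ, hρ, h⟩ := lebesgue_number_lemma_of_metric (isCompact_XX hX)
    (fun j => (A.ch j).isOpen_Vr 1) (fun P hP => mem_iUnion.2 (A.cover_XX hP))
  refine ⟨ρ, hρ, fun x hx => ?_⟩
  obtain ⟨j, hj⟩ := h x hx
  exact ⟨j, fun y _ hy => hj hy⟩

end FinAtlas

end Crest.Agent.R269.Atl_932
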