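import Crest.Agent.R269.Atl3_932

/-!
# R269, leaf AT4 (helper932): Fubini-Study quantities, the differential of `PP`, Lipschitz bounds

`ip p v = ∑ v_i conj p_i`, `fs p v = (|p|²|v|² - |<v,p>|²)/|p|⁴` (the squared Fubini-Study length).
-/

set_option autoImplicit false

open MvPolynomial Crest.AlgGeometry.ProjEmb Set Filter Topology Metric
open scoped ContDiff ComplexConjugate
open Crest.Agent.R269.Geo_328

noncomputable section

namespace Crest.Agent.R269.Atl_932

variable {N n : ℕ} {I : Ideal (HomCoordRing N)}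

/-! ## Fubini-Study length -/

/-- Hermitian product `∑ v_i conj p_i` -/
def ip (p v : EE N) : ℂ := ∑ i, v i * conj (p i)

theorem ip_self (p : EE N) : ip p p = (nsq p : ℂ) := (nsq_eq_re p).symm

theorem ip_add (p v w : EE N) : ip p (v + w) = ip p v + ip p w := by
  simp only [ip, Pi.add_apply, add_mul, Finset.sum_add_distrib]

theorem ip_smul (c : ℂ) (p v : EE N) : ip p (c • v) = c * ip p v := by
  simp only [ip, Pi.smul_apply, smul_eq_mul, mul_assoc, Finset.mul_sum]

theorem ip_smul_left (c : ℂ) (p v : EE N) : ip (c • p) v = conj c * ip p v := by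
  simp only [ip, Pi.smul_apply, smul_eq_mul, map_mul, Finset.mul_sum]
  exact Finset.sum_congr rfl fun i _ => by ring

theorem ip_symm (p v : EE N) : ip v p = conj (ip p v) := by
  simp only [ip, map_sum, map_mul, Complex.conj_conj]
  exact Finset.sum_congr rfl fun i _ => by ring

/-- the squared Fubini-Study length of `v` at `p` -/
def fs (p v : EE N) : ℝ := (nsq p * nsq v - ‖ip p v‖ ^ 2) / nsq p ^ 2

/-- the component of `v` orthogonal to `p` -/
def perp (p v : EE N) : EE N := v - (ip p v / (nsq p : ℂ)) • p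

theorem nsq_add_smul (p v : EE N) (c : ℂ) :
    nsq (v + c • p) = nsq v + 2 * (conj c * ip p v).re + ‖c‖ ^ 2 * nsq p := by
  have h : ((nsq (v + c • p) : ℝ) : ℂ) =
      nsq v + (conj c * ip p v + conj (conj c * ip p v)) + (‖c‖ ^ 2 : ℝ) * nsq p := by
    have h1 : ((‖c‖ ^ 2 : ℝ) : ℂ) = c * conj c := by
      rw [Complex.mul_conj, Complex.normSq_eq_norm_sq]
    rw [h1]
    simp only [nsq_eq_re, ip, Finset.mul_sum, Pi.add_apply, Pi.smul_apply, smul_eq_mul, map_add,
      map_mul, map_sum, Complex.conj_conj, ← Finset.sum_add_distrib]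
    exact Finset.sum_congr rfl fun i _ => by ring
  rw [Complex.add_conj] at h
  exact_mod_cast h

theorem nsq_perp {p : EE N} (hp : p ≠ 0) (v : EE N) : nsq (perp p v) = nsq p * fs p v := by
  have h1 := nsq_pos hp
  have h2 : perp p v = v + (-(ip p v / (nsq p : ℂ))) • p := by
    rw [perp, neg_smul, sub_eq_add_neg]
  rw [h2, nsq_add_smul]
  have h3 : (conj (-(ip p v / (nsq p : ℂ))) * ip p v).re = -(‖ip p v‖ ^ 2 / nsq p) := by
    have : conj (-(ip p v / (nsq p : ℂ))) * ip p v = ((-(‖ip p v‖ ^ 2 / nsq p) : ℝ) : ℂ) := by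
      rw [map_neg, map_div₀, Complex.conj_ofReal]
      have h4 : conj (ip p v) * ip p v = ((‖ip p v‖ ^ 2 : ℝ) : ℂ) := by
        rw [mul_comm, Complex.mul_conj, Complex.normSq_eq_norm_sq]
      push_cast at h4 ⊢
      rw [← h4]
      ring
    rw [this, Complex.ofReal_re]
  rw [h3, norm_neg, norm_div, Complex.norm_real, Real.norm_eq_abs, abs_of_pos h1, fs]
  field_simp
  ring

theorem fs_nonneg (p v : EE N) : 0 ≤ fs p v := by
  by_cases hp : p = 0
  · subst hp
    simp [fs, nsq]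
  · have h1 := nsq_perp hp v
    have h2 := nsq_nonneg (perp p v)
    rw [h1] at h2
    exact (mul_nonneg_iff_of_pos_left (nsq_pos hp)).1 h2

theorem fs_eq_zero_iff {p : EE N} (hp : p ≠ 0) {v : EE N} :
    fs p v = 0 ↔ ∃ c : ℂ, v = c • p := by
  constructor
  · intro h
    have h1 := nsq_perp hp v
    rw [h, mul_zero] at h1
    have h2 : perp p v = 0 := by
      by_contra h3
      exact (nsq_pos h3).ne' h1
    exact ⟨_, sub_eq_zero.1 h2⟩
  · rintro ⟨c, rfl⟩
    rw [fs, ip_smul, ip_self, nsq_smul, norm_mul, Complex.norm_real, Real.norm_eq_abs,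
      abs_of_pos (nsq_pos hp)]
    have : nsq p * (‖c‖ ^ 2 * nsq p) - (‖c‖ * nsq p) ^ 2 = 0 := by ring
    rw [this, zero_div]

theorem perp_smul_add {p : EE N} (hp : p ≠ 0) (b : ℂ) (v : EE N) :
    perp p (v + b • p) = perp p v := by
  have h1 := nsq_ne hp
  have h2 : ip p (v + b • p) / (nsq p : ℂ) = ip p v / nsq p + b := by
    rw [ip_add, ip_smul, ip_self]
    field_simp
  rw [perp, perp, h2, add_smul]
  abel

theorem perp_smul_left {p : EE N} {c : ℂ} (hc : c ≠ 0) (v : EE N) :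
    perp (c • p) v = perp p v := by
  have h2 : ((‖c‖ ^ 2 : ℝ) : ℂ) = c * conj c := by
    rw [Complex.mul_conj, Complex.normSq_eq_norm_sq]
  have h3 : conj c ≠ 0 := by simpa using hc
  by_cases hp : p = 0
  · subst hp; simp [perp]
  have h1 := nsq_ne hp
  rw [perp, perp, ip_smul_left, nsq_smul, smul_smul]
  congr 2
  push_cast at h2 ⊢
  rw [h2]
  field_simp

theorem perp_smul (p : EE N) (c : ℂ) (v : EE N) : perp p (c • v) = c • perp p v := by
  rw [perp, perp, ip_smul, smul_sub, smul_smul, mul_div_assoc]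

/-- invariance of the Fubini-Study length -/
theorem fs_smul_smul {p : EE N} (hp : p ≠ 0) {c : ℂ} (hc : c ≠ 0) (b : ℂ) (v : EE N) :
    fs (c • p) (c • v + b • p) = fs p v := by
  have hcp : c • p ≠ 0 := smul_ne_zero hc hp
  have h1 := nsq_perp hcp (c • v + b • p)
  have h2 : perp (c • p) (c • v + b • p) = c • perp p v := by
    have : c • v + b • p = c • v + (b / c) • (c • p) := by
      rw [smul_smul, div_mul_cancel₀ _ hc]
    rw [this, perp_smul_add hcp, perp_smul_left hc, perp_smul]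
  rw [h2, nsq_smul, nsq_smul, nsq_perp hp] at h1
  have h3 : ‖c‖ ^ 2 * nsq p ≠ 0 := by
    have := nsq_pos hp
    have : 0 < ‖c‖ := norm_pos_iff.2 hc
    positivity
  have h4 : ‖c‖ ^ 2 * nsq p * fs p v = ‖c‖ ^ 2 * nsq p * fs (c • p) (c • v + b • p) := by
    rw [← h1]; ring
  exact (mul_left_cancel₀ h3 h4).symm

theorem fs_smul {p : EE N} (hp : p ≠ 0) (c : ℂ) (v : EE N) : fs p (c • v) = ‖c‖ ^ 2 * fs p v := by
  have h1 := nsq_perp hp (c • v)
  rw [perp_smul, nsq_smul, nsq_perp hp] at h1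
  have h3 := (nsq_pos hp).ne'
  have h4 : nsq p * fs p (c • v) = nsq p * (‖c‖ ^ 2 * fs p v) := by rw [← h1]; ring
  exact mul_left_cancel₀ h3 h4

/-! ## the differential of `PP` -/

/-- the differential of `PP` -/
def dPP (p v : EE N) : VV N := fun i j =>
  (perp p v i * conj (p j) + p i * conj (perp p v j)) / (nsq p : ℂ)

theorem hasDerivAt_nsq {γ : ℝ → EE N} {v : EE N} {t : ℝ} (h : HasDerivAt γ v t) :
    HasDerivAt (fun t => nsq (γ t)) (2 * (ip (γ t) v).re) t := by
  have h1 : ∀ i, HasDerivAt (fun t => γ t i) (v i) t := hasDerivAt_pi.1 h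
  have h2 : ∀ i, HasDerivAt (fun t => (γ t i).re) (v i).re t := fun i => by
    exact Complex.reCLM.hasFDerivAt.comp_hasDerivAt t (h1 i)
  have h3 : ∀ i, HasDerivAt (fun t => (γ t i).im) (v i).im t := fun i => by
    exact Complex.imCLM.hasFDerivAt.comp_hasDerivAt t (h1 i)
  have h4 : (fun t => nsq (γ t)) =
      fun t => ∑ i, ((γ t i).re * (γ t i).re + (γ t i).im * (γ t i).im) := by
    funext t
    refine Finset.sum_congr rfl fun i _ => ?_
    rw [← Complex.normSq_eq_norm_sq, Complex.normSq_apply]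
  rw [h4]
  have h5 : HasDerivAt (fun t => ∑ i, ((γ t i).re * (γ t i).re + (γ t i).im * (γ t i).im))
      (∑ i, (((v i).re * (γ t i).re + (γ t i).re * (v i).re) +
        ((v i).im * (γ t i).im + (γ t i).im * (v i).im))) t :=
    HasDerivAt.fun_sum fun i _ => ((h2 i).mul (h2 i)).add ((h3 i).mul (h3 i))
  convert h5 using 1
  simp only [ip, Complex.re_sum, Complex.mul_re, Complex.conj_re, Complex.conj_im, Finset.mul_sum]
  exact Finset.sum_congr rfl fun i _ => by ring

/-- derivative of `PP` along a curve -/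
theorem hasDerivAt_PP {γ : ℝ → EE N} {v : EE N} {t : ℝ} (hp : γ t ≠ 0) (h : HasDerivAt γ v t) :
    HasDerivAt (fun t => PP (γ t)) (dPP (γ t) v) t := by
  refine hasDerivAt_pi.2 fun i => hasDerivAt_pi.2 fun j => ?_
  have h1 : ∀ i, HasDerivAt (fun t => γ t i) (v i) t := hasDerivAt_pi.1 h
  have h2 : HasDerivAt (fun t => conj (γ t j)) (conj (v j)) t := by
    exact Complex.conjCLE.toContinuousLinearMap.hasFDerivAt.comp_hasDerivAt t (h1 j)
  have h3 : HasDerivAt (fun t => (nsq (γ t) : ℂ)) ((2 * (ip (γ t) v).re : ℝ) : ℂ) t :=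
    (hasDerivAt_nsq h).ofReal_comp
  have h4 := ((h1 i).mul h2).div h3 (nsq_ne hp)
  have h5 := nsq_ne hp
  have h6 : ((2 * (ip (γ t) v).re : ℝ) : ℂ) = ip (γ t) v + conj (ip (γ t) v) := by
    rw [Complex.add_conj]
  have h7 : HasDerivAt (fun t => PP (γ t) i j) _ t := h4
  refine h7.congr_deriv ?_
  rw [h6]
  simp only [dPP, perp, Pi.sub_apply, Pi.smul_apply, smul_eq_mul, map_sub, map_mul, map_div₀,
    Complex.conj_ofReal, Pi.mul_apply]
  field_simp
  ring

theorem norm_apply_sq_le_nsq (p : EE N) (i : Fin (N + 1)) : ‖p i‖ ^ 2 ≤ nsq p :=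
  Finset.single_le_sum (f := fun i => ‖p i‖ ^ 2) (fun _ _ => by positivity) (Finset.mem_univ i)

theorem norm_apply_le_sqrt (p : EE N) (i : Fin (N + 1)) : ‖p i‖ ≤ Real.sqrt (nsq p) := by
  rw [← Real.sqrt_sq (norm_nonneg (p i))]
  exact Real.sqrt_le_sqrt (norm_apply_sq_le_nsq p i)

/-- the differential of `PP` is bounded by the Fubini-Study length -/
theorem norm_dPP_le {p : EE N} (hp : p ≠ 0) (v : EE N) : ‖dPP p v‖ ≤ 2 * Real.sqrt (fs p v) := by
  have h0 : 0 ≤ 2 * Real.sqrt (fs p v) := by positivity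
  have h1 := nsq_pos hp
  refine (pi_norm_le_iff_of_nonneg h0).2 fun i => (pi_norm_le_iff_of_nonneg h0).2 fun j => ?_
  rw [dPP, norm_div, Complex.norm_real, Real.norm_eq_abs, abs_of_pos h1, div_le_iff₀ h1]
  have h2 : ∀ i, ‖perp p v i‖ ≤ Real.sqrt (nsq p) * Real.sqrt (fs p v) := fun i => by
    rw [← Real.sqrt_mul h1.le, ← nsq_perp hp]
    exact norm_apply_le_sqrt _ _
  have h3 : ∀ i, ‖p i‖ ≤ Real.sqrt (nsq p) := norm_apply_le_sqrt p
  have h4 : Real.sqrt (nsq p) * Real.sqrt (nsq p) = nsq p := Real.mul_self_sqrt h1.le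
  have h5 := Real.sqrt_nonneg (nsq p)
  have h6 := Real.sqrt_nonneg (fs p v)
  calc ‖perp p v i * conj (p j) + p i * conj (perp p v j)‖
      ≤ ‖perp p v i‖ * ‖p j‖ + ‖p i‖ * ‖perp p v j‖ := by
        refine (norm_add_le _ _).trans ?_
        rw [norm_mul, norm_mul, RCLike.norm_conj, RCLike.norm_conj]
    _ ≤ (Real.sqrt (nsq p) * Real.sqrt (fs p v)) * Real.sqrt (nsq p) +
        Real.sqrt (nsq p) * (Real.sqrt (nsq p) * Real.sqrt (fs p v)) := by
        gcongr
        · exact h2 i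
        · exact h3 j
        · exact h3 i
        · exact h2 j
    _ = 2 * Real.sqrt (fs p v) * (Real.sqrt (nsq p) * Real.sqrt (nsq p)) := by ring
    _ = 2 * Real.sqrt (fs p v) * nsq p := by rw [h4]

/-- Lipschitz bound along a holomorphic curve in the cone (segment version) -/
theorem dist_PP_le {H : ℂ → EE N} {z z' : ℂ} {A : ℝ}
    (hd : ∀ w ∈ segment ℝ z z', DifferentiableAt ℂ H w)
    (h0 : ∀ w ∈ segment ℝ z z', H w ≠ 0)
    (hA : ∀ w ∈ segment ℝ z z', Real.sqrt (fs (H w) (deriv H w)) ≤ A) :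
    dist (PP (H z)) (PP (H z')) ≤ 2 * A * ‖z - z'‖ := by
  set g : ℝ → ℂ := fun t => z + t * (z' - z) with hg
  have hseg : ∀ t ∈ Icc (0 : ℝ) 1, g t ∈ segment ℝ z z' := fun t ht => by
    rw [segment_eq_image']
    exact ⟨t, ht, by simp [hg]⟩
  have hder : ∀ t ∈ Icc (0 : ℝ) 1, HasDerivAt (fun t : ℝ => PP (H (g t)))
      (dPP (H (g t)) ((z' - z) • deriv H (g t))) t := fun t ht => by
    have h1 : HasDerivAt g (z' - z) t := by
      have h1' : HasDerivAt (fun t : ℝ => z + (t : ℂ) * (z' - z)) (0 + 1 * (z' - z)) t :=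
        (hasDerivAt_const t z).add (Complex.ofRealCLM.hasDerivAt.mul_const (z' - z))
      exact h1'.congr_deriv (by ring)
    have h2 : HasDerivAt H (deriv H (g t)) (g t) := (hd _ (hseg t ht)).hasDerivAt
    have h3 : HasDerivAt (fun t : ℝ => H (g t)) ((z' - z) • deriv H (g t)) t :=
      h2.scomp t h1
    exact hasDerivAt_PP (h0 _ (hseg t ht)) h3
  have hb : ∀ t ∈ Ico (0 : ℝ) 1, ‖dPP (H (g t)) ((z' - z) • deriv H (g t))‖ ≤
      2 * A * ‖z - z'‖ := fun t ht => by
    have ht' : t ∈ Icc (0 : ℝ) 1 := ⟨ht.1, ht.2.le⟩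
    refine (norm_dPP_le (h0 _ (hseg t ht')) _).trans ?_
    rw [fs_smul (h0 _ (hseg t ht')), Real.sqrt_mul (by positivity), Real.sqrt_sq (norm_nonneg _),
      norm_sub_rev z' z]
    have := hA _ (hseg t ht')
    nlinarith [norm_nonneg (z - z')]
  have h4 := norm_image_sub_le_of_norm_deriv_le_segment_01'
    (f := fun t : ℝ => PP (H (g t))) (f' := fun t => dPP (H (g t)) ((z' - z) • deriv H (g t)))
    (C := 2 * A * ‖z - z'‖) (fun t ht => (hder t ht).hasDerivWithinAt) hb
  have h5 : g 0 = z := by simp [hg]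
  have h6 : g 1 = z' := by simp [hg]
  simp only [h5, h6] at h4
  rw [dist_comm, dist_eq_norm]
  exact h4

/-- (1.1) ⇒ hyperbolic Lipschitz bound: if `|f'| ≤ A/(1-|z|)` on the unit disc then
`dist (f z) (f z') ≤ 2 A |z - z'| / (1 - max |z| |z'|)` -/
theorem dist_PP_le_disc {H : ℂ → EE N} {A : ℝ} (hd : DifferentiableOn ℂ H (ball 0 1))
    (h0 : ∀ w ∈ ball (0 : ℂ) 1, H w ≠ 0)
    (hA : ∀ w ∈ ball (0 : ℂ) 1, Real.sqrt (fs (H w) (deriv H w)) ≤ A / (1 - ‖w‖))
    {z z' : ℂ} {r : ℝ} (hr : r < 1) (hz : ‖z‖ ≤ r) (hz' : ‖z'‖ ≤ r) :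
    dist (PP (H z)) (PP (H z')) ≤ 2 * (A / (1 - r)) * ‖z - z'‖ := by
  have hA0 : 0 ≤ A := by
    have := hA 0 (mem_ball_self one_pos)
    rw [norm_zero, sub_zero, div_one] at this
    exact (Real.sqrt_nonneg _).trans this
  have hseg : ∀ w ∈ segment ℝ z z', ‖w‖ ≤ r := fun w hw => by
    have h1 : segment ℝ z z' ⊆ closedBall (0 : ℂ) r :=
      (convex_closedBall 0 r).segment_subset (by simpa using hz) (by simpa using hz')
    simpa using h1 hw
  refine dist_PP_le (fun w hw => ?_) (fun w hw => h0 w ?_) (fun w hw => ?_)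
  · have : w ∈ ball (0 : ℂ) 1 := by
      rw [mem_ball_zero_iff]; exact (hseg w hw).trans_lt hr
    exact (hd w this).differentiableAt (isOpen_ball.mem_nhds this)
  · rw [mem_ball_zero_iff]; exact (hseg w hw).trans_lt hr
  · have h1 := hseg w hw
    have h2 : w ∈ ball (0 : ℂ) 1 := by rw [mem_ball_zero_iff]; exact h1.trans_lt hr
    refine (hA w h2).trans ?_
    exact div_le_div_of_nonneg_left hA0 (by linarith) (by linarith)

end Crest.Agent.R269.Atl_932
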