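import Crest.Agent.R269.Atl4_932

/-!
# R269, leaf AT4 (helper932): uniform bi-Lipschitz and metric bounds in the charts

`UChart.exists_bilip` : `C⁻¹|z-z'| ≤ dist (PP σ z) (PP σ z') ≤ C |z-z'|` on `closedBall 0 3`
`UChart.exists_fs_bound` : `C⁻¹|x|² ≤ |dσ_z x|²_FS ≤ C|x|²` on `closedBall 0 3`
`UChart.fs_curve`  : Fubini-Study speed of a curve in the cone, read in the chart
transitions `UChart.tr`.
-/

set_option autoImplicit false

open MvPolynomial Crest.AlgGeometry.ProjEmb Set Filter Topology Metric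
open scoped ContDiff ComplexConjugate
open Crest.Agent.R269.Geo_328

noncomputable section

namespace Crest.Agent.R269.Atl_932

variable {N n : ℕ} {I : Ideal (HomCoordRing N)}

namespace UChart

variable (U : UChart I n)

theorem closedBall_sub : closedBall (0 : CC n) 3 ⊆ ball 0 4 :=
  closedBall_subset_ball (by norm_num)

theorem contDiffOn_σ {m : WithTop ℕ∞} : ContDiffOn ℂ m U.σ (ball 0 4) := by
  have h : ContDiffOn ℂ ⊤ U.σ (ball 0 4) := U.an.contDiffOn isOpen_ball.uniqueDiffOn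
  exact h.of_le le_top

theorem contDiffOn_σ_real {m : WithTop ℕ∞} : ContDiffOn ℝ m U.σ (ball 0 4) :=
  U.contDiffOn_σ.restrict_scalars ℝ

theorem continuousOn_σ : ContinuousOn U.σ (ball 0 4) := U.an.continuousOn

theorem differentiableAt_σ {z : CC n} (hz : z ∈ ball (0 : CC n) 4) : DifferentiableAt ℂ U.σ z :=
  (U.an z hz).differentiableAt

theorem contDiffOn_PPσ {m : WithTop ℕ∞} : ContDiffOn ℝ m (fun z => PP (U.σ z)) (ball 0 4) := by
  intro z hz
  have h1 : ContDiffAt ℝ m U.σ z := (U.contDiffOn_σ_real z hz).contDiffAt (isOpen_ball.mem_nhds hz)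
  exact ((contDiffAt_PP (U.σ_ne hz)).comp z h1).contDiffWithinAt

theorem continuousOn_PPσ : ContinuousOn (fun z => PP (U.σ z)) (ball 0 4) :=
  (U.contDiffOn_PPσ (m := 0)).continuousOn

/-- upper Lipschitz bound -/
theorem exists_lip : ∃ C : ℝ, 0 < C ∧ ∀ z ∈ closedBall (0 : CC n) 3, ∀ z' ∈ closedBall (0 : CC n) 3,
    dist (PP (U.σ z)) (PP (U.σ z')) ≤ C * ‖z - z'‖ := by
  have h1 : ContinuousOn (fun z => fderiv ℝ (fun z => PP (U.σ z)) z) (ball 0 4) :=
    (U.contDiffOn_PPσ (m := 1)).continuousOn_fderiv_of_isOpen isOpen_ball le_rfl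
  obtain ⟨C, hC⟩ := (isCompact_closedBall (0 : CC n) 3).exists_bound_of_continuousOn
    (h1.mono closedBall_sub)
  refine ⟨max C 1, lt_max_of_lt_right one_pos, fun z hz z' hz' => ?_⟩
  rw [dist_eq_norm]
  have h2 := (convex_closedBall (0 : CC n) 3).norm_image_sub_le_of_norm_fderiv_le (𝕜 := ℝ)
    (f := fun z => PP (U.σ z)) (C := max C 1) (fun w hw =>
      ((U.contDiffOn_PPσ (m := 1)).differentiableOn (by simp)).differentiableAt
        (isOpen_ball.mem_nhds (closedBall_sub hw)))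
    (fun w hw => (hC w hw).trans (le_max_left _ _)) hz' hz
  exact h2

/-- lower Lipschitz bound -/
theorem exists_colip : ∃ C : ℝ, 0 < C ∧ ∀ z ∈ closedBall (0 : CC n) 3,
    ∀ z' ∈ closedBall (0 : CC n) 3, ‖z - z'‖ ≤ C * dist (PP (U.σ z)) (PP (U.σ z')) := by
  -- `nsq (σ z) ≤ M` on the closed ball
  obtain ⟨M, hM⟩ := (isCompact_closedBall (0 : CC n) 3).exists_bound_of_continuousOn
    (f := fun z => nsq (U.σ z))
    (continuous_nsq.comp_continuousOn (U.continuousOn_σ.mono closedBall_sub))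
  set M' := max M 1 with hM'
  have hM1 : 0 < M' := lt_max_of_lt_right one_pos
  have hb : ∀ z ∈ closedBall (0 : CC n) 3, M'⁻¹ ≤ ‖PP (U.σ z) U.i U.i‖ := fun z hz => by
    have h1 := hM z hz
    have h2 := nsq_pos (U.σ_ne (closedBall_sub hz))
    rw [Real.norm_eq_abs, abs_of_pos h2] at h1
    rw [PP_diag, U.σ_i z (closedBall_sub hz), Complex.norm_real, Real.norm_eq_abs, norm_one,
      one_pow, abs_of_pos (by positivity), one_div]
    exact inv_anti₀ h2 (h1.trans (le_max_left _ _))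
  refine ⟨2 * M' ^ 2 / U.s, by have := U.s_pos; positivity, fun z hz z' hz' => ?_⟩
  have hs := U.s_pos
  have h0 : 0 ≤ 2 * M' ^ 2 / U.s * dist (PP (U.σ z)) (PP (U.σ z')) := by positivity
  refine (pi_norm_le_iff_of_nonneg h0).2 fun k => ?_
  have hz4 := closedBall_sub hz
  have hz4' := closedBall_sub hz'
  set P := PP (U.σ z) with hP
  set Q := PP (U.σ z') with hQ
  have e1 : ∀ w ∈ ball (0 : CC n) 4, w k = (PP (U.σ w) (U.J k) U.i / PP (U.σ w) U.i U.i -
      U.b (U.J k)) / U.s := fun w hw => by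
    have h1 : (U.σ w) U.i ≠ 0 := by rw [U.σ_i w hw]; exact one_ne_zero
    rw [PP_div h1, U.σ_i w hw, U.σ_J w hw k, div_one, add_sub_cancel_left,
      mul_div_cancel_left₀ _ U.s_ne]
  have e2 : (z - z') k = (P (U.J k) U.i / P U.i U.i - Q (U.J k) U.i / Q U.i U.i) / U.s := by
    rw [Pi.sub_apply, e1 z hz4, e1 z' hz4', ← sub_div]
    congr 1
    ring
  have hPi : P U.i U.i ≠ 0 := by
    intro h
    have := hb z hz
    rw [← hP, h, norm_zero] at this
    exact absurd this (not_le.2 (inv_pos.2 hM1))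
  have hQi : Q U.i U.i ≠ 0 := by
    intro h
    have := hb z' hz'
    rw [← hQ, h, norm_zero] at this
    exact absurd this (not_le.2 (inv_pos.2 hM1))
  have hd : ∀ a b, ‖P a b - Q a b‖ ≤ dist P Q := fun a b => by
    rw [← dist_eq_norm]
    exact (dist_le_pi_dist (P a) (Q a) b).trans (dist_le_pi_dist P Q a)
  have hn : ∀ (R : VV N), ‖R‖ ≤ 1 → ∀ a b, ‖R a b‖ ≤ 1 := fun R hR a b =>
    ((norm_le_pi_norm (R a) b).trans (norm_le_pi_norm R a)).trans hR
  have e3 : P (U.J k) U.i / P U.i U.i - Q (U.J k) U.i / Q U.i U.i =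
      ((P (U.J k) U.i - Q (U.J k) U.i) * Q U.i U.i - Q (U.J k) U.i * (P U.i U.i - Q U.i U.i)) /
        (P U.i U.i * Q U.i U.i) := by
    field_simp
    ring
  rw [e2, norm_div, Complex.norm_real, Real.norm_eq_abs, abs_of_pos hs, div_le_iff₀ hs, e3,
    norm_div, norm_mul]
  have hP1 := hb z hz
  have hQ1 := hb z' hz'
  rw [← hP] at hP1
  rw [← hQ] at hQ1
  have hpos : 0 < ‖P U.i U.i‖ * ‖Q U.i U.i‖ :=
    mul_pos (norm_pos_iff.2 hPi) (norm_pos_iff.2 hQi)
  rw [div_le_iff₀ hpos]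
  have h5 : ‖(P (U.J k) U.i - Q (U.J k) U.i) * Q U.i U.i -
      Q (U.J k) U.i * (P U.i U.i - Q U.i U.i)‖ ≤ 2 * dist P Q := by
    refine (norm_sub_le _ _).trans ?_
    rw [norm_mul, norm_mul]
    have a1 := hd (U.J k) U.i
    have a2 := hd U.i U.i
    have a3 := hn Q (norm_PP_le _) U.i U.i
    have a4 := hn Q (norm_PP_le _) (U.J k) U.i
    have a5 := norm_nonneg (P (U.J k) U.i - Q (U.J k) U.i)
    have a6 := norm_nonneg (P U.i U.i - Q U.i U.i)
    nlinarith [norm_nonneg (Q U.i U.i), norm_nonneg (Q (U.J k) U.i)]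
  have h6 : M'⁻¹ ^ 2 ≤ ‖P U.i U.i‖ * ‖Q U.i U.i‖ := by
    rw [sq]
    exact mul_le_mul hP1 hQ1 (inv_nonneg.2 hM1.le) (norm_nonneg _)
  have h7 : 2 * M' ^ 2 / U.s * dist P Q * U.s = 2 * M' ^ 2 * dist P Q := by
    field_simp
  rw [h7]
  calc _ ≤ 2 * dist P Q := h5
    _ = 2 * M' ^ 2 * dist P Q * M'⁻¹ ^ 2 := by field_simp
    _ ≤ 2 * M' ^ 2 * dist P Q * (‖P U.i U.i‖ * ‖Q U.i U.i‖) := by
        gcongr

/-! ## Fubini-Study length in the chart -/

theorem continuous_fs_aux : Continuous (fun q : EE N × EE N => ip q.1 q.2) := by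
  unfold ip
  fun_prop

theorem continuousAt_fs {p v : EE N} (hp : p ≠ 0) :
    ContinuousAt (fun q : EE N × EE N => fs q.1 q.2) (p, v) := by
  unfold fs
  have h1 : Continuous fun q : EE N × EE N => nsq q.1 := continuous_nsq.comp continuous_fst
  have h2 : Continuous fun q : EE N × EE N => nsq q.2 := continuous_nsq.comp continuous_snd
  have h3 := continuous_fs_aux (N := N)
  refine ContinuousAt.div ?_ ?_ ?_
  · exact ((h1.mul h2).sub ((h3.norm).pow 2)).continuousAt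
  · exact (h1.pow 2).continuousAt
  · exact pow_ne_zero _ (nsq_pos hp).ne'

/-- Fubini-Study squared length of the chart vector `x` at `z` -/
def g (z x : CC n) : ℝ := fs (U.σ z) (fderiv ℂ U.σ z x)

theorem fderiv_σ_i {z : CC n} (hz : z ∈ ball (0 : CC n) 4) (x : CC n) :
    fderiv ℂ U.σ z x U.i = 0 := by
  have h1 : HasFDerivAt U.σ (fderiv ℂ U.σ z) z := (U.differentiableAt_σ hz).hasFDerivAt
  have h2 : HasFDerivAt (fun w => U.σ w U.i)
      ((ContinuousLinearMap.proj (R := ℂ) (φ := fun _ : Fin (N + 1) => ℂ) U.i).comp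
        (fderiv ℂ U.σ z)) z :=
    (ContinuousLinearMap.proj (R := ℂ) (φ := fun _ : Fin (N + 1) => ℂ) U.i).hasFDerivAt.comp z h1
  have h3 : HasFDerivAt (fun w => U.σ w U.i) (0 : CC n →L[ℂ] ℂ) z := by
    refine (hasFDerivAt_const (1 : ℂ) z).congr_of_eventuallyEq ?_
    filter_upwards [isOpen_ball.mem_nhds hz] with w hw using U.σ_i w hw
  have h4 := h2.unique h3
  exact congrArg (fun L : CC n →L[ℂ] ℂ => L x) h4

theorem fderiv_σ_J {z : CC n} (hz : z ∈ ball (0 : CC n) 4) (x : CC n) (k : Fin n) :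
    fderiv ℂ U.σ z x (U.J k) = U.s * x k := by
  have h1 : HasFDerivAt U.σ (fderiv ℂ U.σ z) z := (U.differentiableAt_σ hz).hasFDerivAt
  have h2 : HasFDerivAt (fun w => U.σ w (U.J k))
      ((ContinuousLinearMap.proj (R := ℂ) (φ := fun _ : Fin (N + 1) => ℂ) (U.J k)).comp
        (fderiv ℂ U.σ z)) z :=
    (ContinuousLinearMap.proj (R := ℂ) (φ := fun _ : Fin (N + 1) => ℂ)
      (U.J k)).hasFDerivAt.comp z h1
  have h5 : HasFDerivAt (fun w : CC n => U.b (U.J k) + (U.s : ℂ) * w k)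
      ((U.s : ℂ) • ContinuousLinearMap.proj (R := ℂ) (φ := fun _ : Fin n => ℂ) k) z := by
    have := (((U.s : ℂ) • ContinuousLinearMap.proj (R := ℂ) (φ := fun _ : Fin n => ℂ)
      k).hasFDerivAt (x := z)).const_add (U.b (U.J k))
    exact this
  have h3 : HasFDerivAt (fun w => U.σ w (U.J k))
      ((U.s : ℂ) • ContinuousLinearMap.proj (R := ℂ) (φ := fun _ : Fin n => ℂ) k) z := by
    refine h5.congr_of_eventuallyEq ?_
    filter_upwards [isOpen_ball.mem_nhds hz] with w hw using U.σ_J w hw k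
  have h4 := h2.unique h3
  exact congrArg (fun L : CC n →L[ℂ] ℂ => L x) h4

/-- the differential of the section is injective modulo the radial direction -/
theorem eq_zero_of_fderiv_σ {z : CC n} (hz : z ∈ ball (0 : CC n) 4) {x : CC n} {c : ℂ}
    (h : fderiv ℂ U.σ z x = c • U.σ z) : x = 0 ∧ c = 0 := by
  have h1 := congrFun h U.i
  rw [U.fderiv_σ_i hz, Pi.smul_apply, U.σ_i z hz, smul_eq_mul, mul_one] at h1
  refine ⟨?_, h1.symm⟩
  funext k
  have h2 := congrFun h (U.J k)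
  rw [U.fderiv_σ_J hz, ← h1, zero_smul] at h2
  simpa [U.s_ne] using h2

theorem g_pos {z : CC n} (hz : z ∈ ball (0 : CC n) 4) {x : CC n} (hx : x ≠ 0) : 0 < U.g z x := by
  refine lt_of_le_of_ne (fs_nonneg _ _) fun h => ?_
  obtain ⟨c, hc⟩ := (fs_eq_zero_iff (U.σ_ne hz)).1 h.symm
  exact hx (U.eq_zero_of_fderiv_σ hz hc).1

theorem g_smul {z : CC n} (hz : z ∈ ball (0 : CC n) 4) (c : ℂ) (x : CC n) :
    U.g z (c • x) = ‖c‖ ^ 2 * U.g z x := by
  rw [g, map_smul, fs_smul (U.σ_ne hz), g]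

theorem continuousOn_g : ContinuousOn (fun q : CC n × CC n => U.g q.1 q.2)
    (ball 0 4 ×ˢ univ) := by
  have h1 : ContinuousOn (fun q : CC n × CC n => U.σ q.1) (ball 0 4 ×ˢ univ) :=
    U.continuousOn_σ.comp continuousOn_fst fun q hq => hq.1
  have h2 : ContinuousOn (fun q : CC n × CC n => fderiv ℂ U.σ q.1) (ball 0 4 ×ˢ univ) :=
    ((U.contDiffOn_σ (m := 1)).continuousOn_fderiv_of_isOpen isOpen_ball le_rfl).comp
      continuousOn_fst fun q hq => hq.1
  have h3 : ContinuousOn (fun q : CC n × CC n => fderiv ℂ U.σ q.1 q.2) (ball 0 4 ×ˢ univ) :=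
    h2.clm_apply continuousOn_snd
  intro q hq
  have h4 := continuousAt_fs (v := fderiv ℂ U.σ q.1 q.2) (U.σ_ne hq.1)
  have h5 : ContinuousWithinAt (fun q : CC n × CC n => (U.σ q.1, fderiv ℂ U.σ q.1 q.2))
      (ball 0 4 ×ˢ univ) q := (h1 q hq).prodMk (h3 q hq)
  exact ContinuousAt.comp_continuousWithinAt (f := fun q : CC n × CC n =>
    (U.σ q.1, fderiv ℂ U.σ q.1 q.2)) h4 h5

/-- uniform comparison of the Fubini-Study metric with the chart norm -/
theorem exists_fs_bound : ∃ C : ℝ, 0 < C ∧ ∀ z ∈ closedBall (0 : CC n) 3, ∀ x : CC n,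
    ‖x‖ ^ 2 ≤ C * U.g z x ∧ U.g z x ≤ C * ‖x‖ ^ 2 := by
  have hK : IsCompact (closedBall (0 : CC n) 3 ×ˢ sphere (0 : CC n) 1) :=
    (isCompact_closedBall _ _).prod (isCompact_sphere _ _)
  have hc : ContinuousOn (fun q : CC n × CC n => U.g q.1 q.2)
      (closedBall (0 : CC n) 3 ×ˢ sphere (0 : CC n) 1) :=
    U.continuousOn_g.mono fun q hq => ⟨closedBall_sub hq.1, mem_univ _⟩
  obtain ⟨C1, hC1⟩ := hK.exists_bound_of_continuousOn hc
  have h2 : ∃ c : ℝ, 0 < c ∧ ∀ q ∈ closedBall (0 : CC n) 3 ×ˢ sphere (0 : CC n) 1,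
      c ≤ U.g q.1 q.2 := by
    by_cases hne : (closedBall (0 : CC n) 3 ×ˢ sphere (0 : CC n) 1).Nonempty
    · obtain ⟨q, hq, hmin⟩ := hK.exists_isMinOn hne hc
      refine ⟨U.g q.1 q.2, U.g_pos (closedBall_sub hq.1) ?_, fun r hr => hmin hr⟩
      intro h0
      have := hq.2
      rw [mem_sphere_zero_iff_norm, h0, norm_zero] at this
      exact zero_ne_one this
    · exact ⟨1, one_pos, fun q hq => absurd ⟨q, hq⟩ hne⟩
  obtain ⟨c, hc0, hcm⟩ := h2
  refine ⟨max (max C1 1) c⁻¹, by positivity, fun z hz x => ?_⟩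
  have hg0 : 0 ≤ U.g z x := fs_nonneg _ _
  by_cases hx : x = 0
  · subst hx
    have : U.g z (0 : CC n) = 0 := by
      have h := U.g_smul (closedBall_sub hz) 0 (0 : CC n)
      simpa using h
    simp [this]
  have hxn : 0 < ‖x‖ := norm_pos_iff.2 hx
  have hxc : ((‖x‖ : ℝ) : ℂ) ≠ 0 := by exact_mod_cast hxn.ne'
  set y : CC n := ((‖x‖ : ℝ) : ℂ)⁻¹ • x with hy
  have hyn : ‖y‖ = 1 := by
    rw [hy, norm_smul, norm_inv, Complex.norm_real, Real.norm_eq_abs, abs_of_pos hxn,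
      inv_mul_cancel₀ hxn.ne']
  have hxy : x = ((‖x‖ : ℝ) : ℂ) • y := by rw [hy, smul_smul, mul_inv_cancel₀ hxc, one_smul]
  have hgx : U.g z x = ‖x‖ ^ 2 * U.g z y := by
    conv_lhs => rw [hxy]
    rw [U.g_smul (closedBall_sub hz), Complex.norm_real, Real.norm_eq_abs, abs_of_pos hxn]
  have hmem : (z, y) ∈ closedBall (0 : CC n) 3 ×ˢ sphere (0 : CC n) 1 :=
    ⟨hz, mem_sphere_zero_iff_norm.2 hyn⟩
  have h3 := hcm _ hmem
  have h4 := hC1 _ hmem
  simp only at h3 h4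
  rw [Real.norm_eq_abs] at h4
  have h5 : U.g z y ≤ C1 := (le_abs_self _).trans h4
  constructor
  · calc ‖x‖ ^ 2 = c⁻¹ * (‖x‖ ^ 2 * c) := by field_simp
      _ ≤ c⁻¹ * (‖x‖ ^ 2 * U.g z y) := by gcongr
      _ = c⁻¹ * U.g z x := by rw [hgx]
      _ ≤ max (max C1 1) c⁻¹ * U.g z x := by
          gcongr
          exact le_max_right _ _
  · rw [hgx]
    calc ‖x‖ ^ 2 * U.g z y ≤ ‖x‖ ^ 2 * max (max C1 1) c⁻¹ := by
          gcongr
          exact h5.trans ((le_max_left _ _).trans (le_max_left _ _))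
      _ = max (max C1 1) c⁻¹ * ‖x‖ ^ 2 := by ring

end UChart

end Crest.Agent.R269.Atl_932
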