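import Crest.Agent.R269.Atl5_932

/-!
# R269, leaf AT3/AT4 (helper932): curves read in a chart, transition maps, uniform constants
-/

set_option autoImplicit false

open MvPolynomial Crest.AlgGeometry.ProjEmb Set Filter Topology Metric
open scoped ContDiff ComplexConjugate
open Crest.Agent.R269.Geo_328

noncomputable section

namespace Crest.Agent.R269.Atl_932

variable {N n : ℕ} {I : Ideal (HomCoordRing N)}

namespace UChart

variable (U : UChart I n)

/-! ## curves -/

/-- a cone point of the chart domain is the section times its `i`-th coordinate -/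
theorem eq_smul_of_mem_Wr {r : ℝ} {q : EE N} (hq : q ∈ Cone I) (h : q ∈ U.Wr r) :
    q = q U.i • U.σ (U.co q) := U.eq_smul_σ hq h.1

theorem differentiableAt_co_comp {E' : Type*} [NormedAddCommGroup E'] [NormedSpace ℂ E']
    {H : E' → EE N} {w : E'} (hd : DifferentiableAt ℂ H w) (hW : H w ∈ U.W) :
    DifferentiableAt ℂ (fun w => U.co (H w)) w :=
  ((U.contDiffAt_co (m := 1) (U.W_ne _ hW)).differentiableAt (by simp)).comp w hd

theorem continuousAt_co_comp {E' : Type*} [TopologicalSpace E']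
    {H : E' → EE N} {w : E'} (hd : ContinuousAt H w) (hW : H w ∈ U.W) :
    ContinuousAt (fun w => U.co (H w)) w :=
  ((U.contDiffAt_co (m := 0) (U.W_ne _ hW)).continuousAt.comp_of_eq hd rfl)

/-- Fubini-Study speed of a holomorphic curve in the cone, read in a chart -/
theorem fs_curve {H : ℂ → EE N} {w : ℂ} (hd : DifferentiableAt ℂ H w) (hW : H w ∈ U.W)
    (hc : ∀ᶠ w' in 𝓝 w, H w' ∈ Cone I) :
    fs (H w) (deriv H w) = U.g (U.co (H w)) (deriv (fun w => U.co (H w)) w) := by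
  have hcw : H w ∈ Cone I := hc.self_of_nhds
  have hb := U.mem_ball_of_mem hcw hW
  have h1 : ∀ᶠ w' in 𝓝 w, H w' = (H w' U.i) • U.σ (U.co (H w')) := by
    filter_upwards [hc, hd.continuousAt.eventually_mem (U.W_open.mem_nhds hW)] with w' h1 h2
    exact U.eq_smul_σ h1 h2
  have h2 : HasDerivAt (fun w => U.co (H w)) (deriv (fun w => U.co (H w)) w) w :=
    (U.differentiableAt_co_comp hd hW).hasDerivAt
  have h3 : HasDerivAt (fun w => U.σ (U.co (H w)))
      (fderiv ℂ U.σ (U.co (H w)) (deriv (fun w => U.co (H w)) w)) w :=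
    (U.differentiableAt_σ hb).hasFDerivAt.comp_hasDerivAt w h2
  have h4 : HasDerivAt (fun w => H w U.i) (deriv H w U.i) w := by
    have := hasDerivAt_pi.1 hd.hasDerivAt U.i
    exact this
  have h5 := (h4.smul h3).congr_of_eventuallyEq h1
  have h6 : deriv H w = (H w U.i) • (fderiv ℂ U.σ (U.co (H w)) (deriv (fun w => U.co (H w)) w)) +
      (deriv H w U.i) • U.σ (U.co (H w)) := h5.deriv
  have h7 : H w = (H w U.i) • U.σ (U.co (H w)) := h1.self_of_nhds
  have hi : H w U.i ≠ 0 := U.W_ne _ hW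
  rw [h6]
  exact (congrArg (fun p : EE N => fs p
    ((H w U.i) • (fderiv ℂ U.σ (U.co (H w)) (deriv (fun w => U.co (H w)) w)) +
      (deriv H w U.i) • U.σ (U.co (H w)))) h7).trans (fs_smul_smul (U.σ_ne hb) hi _ _)

/-! ## transitions -/

/-- transition map from the chart `U` to the chart `U'` -/
def tr (U' : UChart I n) (z : CC n) : CC n := U'.co (U.σ z)

/-- domain of the transition map -/
def trDom (U' : UChart I n) : Set (CC n) := {z | z ∈ ball (0 : CC n) 4 ∧ U.σ z ∈ U'.W}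

theorem isOpen_trDom (U' : UChart I n) : IsOpen (U.trDom U') :=
  U.continuousOn_σ.isOpen_inter_preimage isOpen_ball U'.W_open

theorem tr_mem {U' : UChart I n} {z : CC n} (hz : z ∈ U.trDom U') :
    U.tr U' z ∈ ball (0 : CC n) 4 := U'.mem_ball_of_mem (U.σ_cone z hz.1) hz.2

theorem σ_eq_tr {U' : UChart I n} {z : CC n} (hz : z ∈ U.trDom U') :
    U.σ z = U.σ z U'.i • U'.σ (U.tr U' z) := U'.eq_smul_σ (U.σ_cone z hz.1) hz.2

theorem tr_factor_ne {U' : UChart I n} {z : CC n} (hz : z ∈ U.trDom U') :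
    U.σ z U'.i ≠ 0 := U'.W_ne _ hz.2

theorem PP_tr {U' : UChart I n} {z : CC n} (hz : z ∈ U.trDom U') :
    PP (U'.σ (U.tr U' z)) = PP (U.σ z) := by
  conv_rhs => rw [U.σ_eq_tr hz]
  rw [PP_smul (U.tr_factor_ne hz)]

theorem contDiffOn_tr {m : WithTop ℕ∞} (U' : UChart I n) : ContDiffOn ℂ m (U.tr U') (U.trDom U') := by
  intro z hz
  have h1 : ContDiffAt ℂ m U.σ z :=
    (U.contDiffOn_σ z hz.1).contDiffAt (isOpen_ball.mem_nhds hz.1)
  exact ((U'.contDiffAt_co (U'.W_ne _ hz.2)).comp z h1).contDiffWithinAt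

theorem analyticOnNhd_tr (U' : UChart I n) : AnalyticOnNhd ℂ (U.tr U') (U.trDom U') := by
  intro z hz
  have h := (U.contDiffOn_tr (m := 1) U').differentiableOn (by simp)
  have h2 : ContDiffAt ℂ ⊤ (U.tr U') z :=
    (U.contDiffOn_tr (m := ⊤) U' z hz).contDiffAt ((U.isOpen_trDom U').mem_nhds hz)
  exact h2.analyticAt

theorem tr_mem_trDom {U' : UChart I n} {z : CC n} (hz : z ∈ U.trDom U') :
    U.tr U' z ∈ U'.trDom U := by
  refine ⟨U.tr_mem hz, ?_⟩
  have h1 := U.σ_W z hz.1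
  rw [U.σ_eq_tr hz] at h1
  have h2 := U.W_smul (U.σ z U'.i)⁻¹ (inv_ne_zero (U.tr_factor_ne hz)) _ h1
  rwa [smul_smul, inv_mul_cancel₀ (U.tr_factor_ne hz), one_smul] at h2

theorem tr_tr {U' : UChart I n} {z : CC n} (hz : z ∈ U.trDom U') :
    U'.tr U (U.tr U' z) = z := by
  have h1 := U.σ_eq_tr hz
  have h2 : U'.σ (U.tr U' z) = (U.σ z U'.i)⁻¹ • U.σ z := by
    have h3 := congrArg (fun q : EE N => (U.σ z U'.i)⁻¹ • q) h1
    simp only [smul_smul] at h3
    rw [inv_mul_cancel₀ (U.tr_factor_ne hz), one_smul] at h3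
    exact h3.symm
  rw [tr, h2, U.co_smul (inv_ne_zero (U.tr_factor_ne hz)), U.co_σ hz.1]

/-- the chart coordinate is an open embedding on projectors: the image of an open set of the chart
is relatively open in `XX I` -/
theorem mem_Vr_iff {r : ℝ} (hr : r ≤ 4) {P : VV N} (hP : P ∈ XX I) :
    P ∈ U.Vr r ↔ ∃ z ∈ ball (0 : CC n) r, PP (U.σ z) = P := by
  constructor
  · intro h
    obtain ⟨_, h2, h3⟩ := U.exists_of_mem_Vr hP h
    exact ⟨_, h2, h3⟩
  · rintro ⟨z, hz, rfl⟩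
    exact U.PP_mem_Vr_iff.2 (U.σ_mem_Wr (ball_subset_ball hr hz) hz)

end UChart

namespace FinAtlas

variable (A : FinAtlas I n)

/-- uniform constants for all the charts of a finite atlas -/
theorem exists_const : ∃ C : ℝ, 1 ≤ C ∧ ∀ j, ∀ z ∈ closedBall (0 : CC n) 3,
    (∀ z' ∈ closedBall (0 : CC n) 3,
      dist (PP ((A.ch j).σ z)) (PP ((A.ch j).σ z')) ≤ C * ‖z - z'‖ ∧
      ‖z - z'‖ ≤ C * dist (PP ((A.ch j).σ z)) (PP ((A.ch j).σ z'))) ∧
    (∀ x : CC n, ‖x‖ ^ 2 ≤ C * (A.ch j).g z x ∧ (A.ch j).g z x ≤ C * ‖x‖ ^ 2) := by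
  choose C1 h1 h1' using fun j => (A.ch j).exists_lip
  choose C2 h2 h2' using fun j => (A.ch j).exists_colip
  choose C3 h3 h3' using fun j => (A.ch j).exists_fs_bound
  set C : ℝ := 1 + ∑ j, (C1 j + C2 j + C3 j) with hC
  have hj : ∀ j, C1 j + C2 j + C3 j ≤ ∑ j, (C1 j + C2 j + C3 j) := fun j =>
    Finset.single_le_sum (f := fun j => C1 j + C2 j + C3 j)
      (fun j _ => by have := h1 j; have := h2 j; have := h3 j; positivity) (Finset.mem_univ j)
  have hC1 : 1 ≤ C := by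
    have : 0 ≤ ∑ j, (C1 j + C2 j + C3 j) :=
      Finset.sum_nonneg fun j _ => by have := h1 j; have := h2 j; have := h3 j; positivity
    linarith
  refine ⟨C, hC1, fun j z hz => ⟨fun z' hz' => ⟨?_, ?_⟩, fun x => ⟨?_, ?_⟩⟩⟩
  · refine (h1' j z hz z' hz').trans ?_
    have a := h2 j; have b := h3 j; have c := hj j
    gcongr
    linarith
  · refine (h2' j z hz z' hz').trans ?_
    have a := h1 j; have b := h3 j; have c := hj j
    gcongr
    linarith
  · refine (h3' j z hz x).1.trans ?_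
    have a := h1 j; have b := h2 j; have c := hj j
    have d : 0 ≤ (A.ch j).g z x := fs_nonneg _ _
    gcongr
    linarith
  · refine (h3' j z hz x).2.trans ?_
    have a := h1 j; have b := h2 j; have c := hj j
    gcongr
    linarith

/-- centred Lebesgue number: every point `x` of `XX I` has a chart with `|coordinate of x| < 1`, and
the ball of radius `ρ` about `x` in `XX I` lies in this chart, with coordinates at distance `≤ C·dist` -/
theorem exists_lebesgue_centred (hX : IsSmoothProjective I n) : ∃ ρ C : ℝ, 0 < ρ ∧ 1 ≤ C ∧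
    ∀ x ∈ XX I, ∃ j, (A.ch j).coP x ∈ ball (0 : CC n) 1 ∧ PP ((A.ch j).σ ((A.ch j).coP x)) = x ∧
      ∀ y ∈ XX I, dist y x < ρ → (A.ch j).coP y ∈ ball (0 : CC n) 1 ∧
        PP ((A.ch j).σ ((A.ch j).coP y)) = y ∧
        dist ((A.ch j).coP y) ((A.ch j).coP x) ≤ C * dist y x ∧
        dist y x ≤ C * dist ((A.ch j).coP y) ((A.ch j).coP x) := by
  obtain ⟨ρ, hρ, h⟩ := A.exists_lebesgue hX
  obtain ⟨C, hC, hc⟩ := A.exists_const
  refine ⟨ρ, C, hρ, hC, fun x hx => ?_⟩
  obtain ⟨j, hj⟩ := h x hx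
  have hx1 := (A.ch j).exists_of_mem_Vr hx (hj x hx (by rwa [dist_self]))
  refine ⟨j, hx1.2.1, hx1.2.2, fun y hy hyx => ?_⟩
  have hy1 := (A.ch j).exists_of_mem_Vr hy (hj y hy hyx)
  have e1 : (A.ch j).coP y ∈ closedBall (0 : CC n) 3 :=
    (ball_subset_closedBall.trans (closedBall_subset_closedBall (by norm_num))) hy1.2.1
  have e2 : (A.ch j).coP x ∈ closedBall (0 : CC n) 3 :=
    (ball_subset_closedBall.trans (closedBall_subset_closedBall (by norm_num))) hx1.2.1
  have h3 := (hc j _ e1).1 _ e2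
  rw [hy1.2.2, hx1.2.2] at h3
  refine ⟨hy1.2.1, hy1.2.2, ?_, ?_⟩
  · rw [dist_eq_norm]; exact h3.2
  · rw [dist_eq_norm ((A.ch j).coP y)]; exact h3.1

end FinAtlas

end Crest.Agent.R269.Atl_932
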