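import Crest.Agent.R269.GeoT_328
import Crest.Agent.R273.FS_333

/-!
# R269 (S0411), leaf DICT-FLD, file 0 (helper886): the interface `CAtl`

`CAtl I A` : holomorphic sections `F i` of the cone over the charts of an atlas `A` of
`X^ = XX I = PP '' Cone I`, together with holomorphic `ℂ*`-invariant coordinates `ζ i` on open
cones `W i` of the ambient space.  Whoever constructs the atlas of `X^` (from `ConeChart`) fills this
structure; everything in `Dict*_886` is over an arbitrary `(A, CA : CAtl I A)`.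

* `pt q hq : XX I`          : the point `PP q` of `XX I`;
* `exists_smul_of_PP_eq`    : `PP p = PP q → q = c • p`, `c ≠ 0`;
* `CAtl.eq_smul`            : a cone point over `x ∈ source i` is `c • F i x`;
* `CAtl.projD`              : the homogeneous coordinates (`R273.ProjD`), so that `FS_333` applies.
-/

set_option autoImplicit false

open MvPolynomial Crest.AlgGeometry.ProjEmb Set Filter Topology
open scoped ContDiff ComplexConjugate

namespace Crest.Agent.R269.CAtl_886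

open Crest.Agent.R269.Geo_328 Crest.Agent.R275.Geo

noncomputable section

variable {N n : ℕ} {I : Ideal (HomCoordRing N)}

/-- the point of `X^` under a cone point -/
def pt {I : Ideal (HomCoordRing N)} (q : EE N) (hq : q ∈ Cone I) : XX I := ⟨PP q, q, hq, rfl⟩

@[simp] theorem pt_val (q : EE N) (hq : q ∈ Cone I) : (pt q hq : VV N) = PP q := rfl

/-- sections of the cone over an atlas of `X^` -/
structure CAtl (I : Ideal (HomCoordRing N)) (A : Atl n (XX I)) where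
  F : A.ι → XX I → EE N
  F_hol : ∀ i, DifferentiableOn ℂ (fun z => F i ((A.e i).symm z)) (A.e i).target
  F_cone : ∀ i, ∀ x ∈ (A.e i).source, F i x ∈ Cone I
  F_pp : ∀ i, ∀ x ∈ (A.e i).source, PP (F i x) = (x : VV N)
  F_tan : ∀ i, ∀ z ∈ (A.e i).target, ∀ v : EE N, v ∈ Tan I (F i ((A.e i).symm z)) ↔
    ∃ (c : ℂ) (w : Cn n), v = c • F i ((A.e i).symm z) +
      fderiv ℂ (fun z => F i ((A.e i).symm z)) z w
  F_imm : ∀ i, ∀ z ∈ (A.e i).target, ∀ (c : ℂ) (w : Cn n),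
    fderiv ℂ (fun z => F i ((A.e i).symm z)) z w = c • F i ((A.e i).symm z) → w = 0
  W : A.ι → Set (EE N)
  W_open : ∀ i, IsOpen (W i)
  W_smul : ∀ i, ∀ c : ℂ, c ≠ 0 → ∀ q ∈ W i, c • q ∈ W i
  ζ : A.ι → EE N → Cn n
  ζ_hol : ∀ i, DifferentiableOn ℂ (ζ i) (W i)
  ζ_smul : ∀ i, ∀ c : ℂ, c ≠ 0 → ∀ q ∈ W i, ζ i (c • q) = ζ i q
  ζ_mem : ∀ i, ∀ q ∈ W i, ζ i q ∈ (A.e i).target
  /-- a cone point lies in `W i` iff its class lies in the chart `i` -/
  mem_W : ∀ i, ∀ q (hq : q ∈ Cone I), q ∈ W i ↔ pt q hq ∈ (A.e i).source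
  ζ_e : ∀ i, ∀ q (hq : q ∈ Cone I), q ∈ W i → A.e i (pt q hq) = ζ i q

/-! ### the projector -/

theorem nsq_pos {p : EE N} (hp : p ≠ 0) : 0 < nsq p := by
  obtain ⟨k, hk⟩ : ∃ k, p k ≠ 0 := by
    by_contra h
    push Not at h
    exact hp (funext h)
  refine lt_of_lt_of_le (by positivity : 0 < ‖p k‖ ^ 2) ?_
  exact Finset.single_le_sum (f := fun k => ‖p k‖ ^ 2) (fun _ _ => by positivity)
    (Finset.mem_univ k)

theorem nsq_smul (c : ℂ) (p : EE N) : nsq (c • p) = ‖c‖ ^ 2 * nsq p := by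
  simp [nsq, Finset.mul_sum, mul_pow]

theorem PP_smul {c : ℂ} (hc : c ≠ 0) (p : EE N) : PP (c • p) = PP p := by
  funext i j
  simp only [PP, nsq_smul, Pi.smul_apply, smul_eq_mul, map_mul]
  have h : (c * conj c : ℂ) = ((‖c‖ ^ 2 : ℝ) : ℂ) := by
    rw [Complex.mul_conj, Complex.normSq_eq_norm_sq]
  have h0 : ((‖c‖ ^ 2 : ℝ) : ℂ) ≠ 0 := by
    exact_mod_cast (by positivity : (‖c‖ ^ 2 : ℝ) ≠ 0)
  rw [show c * p i * (conj c * conj (p j)) = (c * conj c) * (p i * conj (p j)) by ring, h]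
  push_cast
  rw [show (‖c‖ : ℂ) ^ 2 = ((‖c‖ ^ 2 : ℝ) : ℂ) by push_cast; rfl,
    mul_div_mul_left _ _ h0]

theorem exists_smul_of_PP_eq {p q : EE N} (hp : p ≠ 0) (hq : q ≠ 0) (h : PP p = PP q) :
    ∃ c : ℂ, c ≠ 0 ∧ q = c • p := by
  obtain ⟨k, hk⟩ : ∃ k, q k ≠ 0 := by
    by_contra h1
    push Not at h1
    exact hq (funext h1)
  have hp2 : (nsq p : ℂ) ≠ 0 := by exact_mod_cast (nsq_pos hp).ne'
  have hq2 : (nsq q : ℂ) ≠ 0 := by exact_mod_cast (nsq_pos hq).ne'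
  have hk2 : conj (q k) ≠ 0 := by simpa using hk
  have h1 : ∀ i, q i = (conj (p k) * nsq q / (nsq p * conj (q k))) * p i := by
    intro i
    have h2 := congrFun (congrFun h i) k
    simp only [PP] at h2
    rw [div_eq_div_iff hp2 hq2] at h2
    field_simp
    linear_combination -h2
  refine ⟨conj (p k) * nsq q / (nsq p * conj (q k)), ?_, funext h1⟩
  intro h3
  have h4 := h1 k
  rw [h3, zero_mul] at h4
  exact hk h4

theorem contDiffOn_nsq (s : Set (EE N)) : ContDiffOn ℝ ∞ (nsq (N := N)) s := by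
  unfold nsq
  refine ContDiffOn.sum fun k _ => ?_
  have h : ContDiffOn ℝ ∞ (fun p : EE N => p k) s :=
    ((ContinuousLinearMap.proj (R := ℝ) (φ := fun _ : Fin (N + 1) => ℂ) k).contDiff).contDiffOn
  exact h.norm_sq ℝ

theorem contDiffAt_PP {p : EE N} (hp : p ≠ 0) : ContDiffAt ℝ ∞ (PP (N := N)) p := by
  have hk : ∀ k, ContDiffAt ℝ ∞ (fun p : EE N => p k) p := fun k =>
    ((ContinuousLinearMap.proj (R := ℝ) (φ := fun _ : Fin (N + 1) => ℂ) k).contDiff).contDiffAt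
  have hn : ContDiffAt ℝ ∞ (nsq (N := N)) p :=
    (contDiffOn_nsq univ).contDiffAt univ_mem
  refine contDiffAt_pi.2 fun i => contDiffAt_pi.2 fun j => ?_
  have h1 : ContDiffAt ℝ ∞ (fun p : EE N => (nsq p : ℂ)) p :=
    Complex.ofRealCLM.contDiff.contDiffAt.comp p hn
  have h2 : ContDiffAt ℝ ∞ (fun p : EE N => conj (p j)) p :=
    Complex.conjCLE.contDiff.contDiffAt.comp p (hk j)
  have h3 : ContDiffAt ℝ ∞ (fun p : EE N => (nsq p : ℂ)⁻¹) p :=
    h1.inv (by exact_mod_cast (nsq_pos hp).ne')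
  simpa only [PP, div_eq_mul_inv] using ((hk i).mul h2).mul h3

/-! ### lifts -/

theorem Cone_ne {q : EE N} (hq : q ∈ Cone I) : q ≠ 0 := hq.2

/-- a cone point over `x` -/
def lift (x : XX I) : EE N := x.2.choose

theorem lift_cone (x : XX I) : lift x ∈ Cone I := x.2.choose_spec.1

theorem PP_lift (x : XX I) : PP (lift x) = (x : VV N) := x.2.choose_spec.2

@[simp] theorem pt_lift (x : XX I) : pt (lift x) (lift_cone x) = x := Subtype.ext (PP_lift x)

namespace CAtl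

variable {A : Atl n (XX I)} (CA : CAtl I A)

/-- the section read in the chart -/
def σ (i : A.ι) (z : Cn n) : EE N := CA.F i ((A.e i).symm z)

theorem pt_F {i : A.ι} {x : XX I} (hx : x ∈ (A.e i).source) :
    pt (CA.F i x) (CA.F_cone i x hx) = x := Subtype.ext (CA.F_pp i x hx)

theorem σ_e {i : A.ι} {x : XX I} (hx : x ∈ (A.e i).source) : CA.σ i (A.e i x) = CA.F i x := by
  unfold σ
  rw [(A.e i).left_inv hx]

theorem σ_cone {i : A.ι} {z : Cn n} (hz : z ∈ (A.e i).target) : CA.σ i z ∈ Cone I :=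
  CA.F_cone i _ ((A.e i).map_target hz)

theorem pt_σ {i : A.ι} {z : Cn n} (hz : z ∈ (A.e i).target) :
    pt (CA.σ i z) (CA.σ_cone hz) = (A.e i).symm z := CA.pt_F ((A.e i).map_target hz)

theorem F_mem_W {i : A.ι} {x : XX I} (hx : x ∈ (A.e i).source) : CA.F i x ∈ CA.W i := by
  rw [CA.mem_W i _ (CA.F_cone i x hx), CA.pt_F hx]
  exact hx

theorem σ_mem_W {i : A.ι} {z : Cn n} (hz : z ∈ (A.e i).target) : CA.σ i z ∈ CA.W i :=
  CA.F_mem_W ((A.e i).map_target hz)

theorem ζ_σ {i : A.ι} {z : Cn n} (hz : z ∈ (A.e i).target) : CA.ζ i (CA.σ i z) = z := by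
  rw [← CA.ζ_e i _ (CA.σ_cone hz) (CA.σ_mem_W hz), CA.pt_σ hz, (A.e i).right_inv hz]

theorem symm_ζ {i : A.ι} {q : EE N} (hq : q ∈ Cone I) (hW : q ∈ CA.W i) :
    (A.e i).symm (CA.ζ i q) = pt q hq := by
  rw [← CA.ζ_e i q hq hW, (A.e i).left_inv ((CA.mem_W i q hq).1 hW)]

/-- a cone point of `W i` is a multiple of the section -/
theorem eq_smul {i : A.ι} {q : EE N} (hq : q ∈ Cone I) (hW : q ∈ CA.W i) :
    ∃ c : ℂ, c ≠ 0 ∧ q = c • CA.σ i (CA.ζ i q) := by
  have hx := (CA.mem_W i q hq).1 hW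
  have h1 : PP (CA.σ i (CA.ζ i q)) = PP q := by
    have h2 := congrArg Subtype.val (CA.pt_σ (CA.ζ_mem i q hW))
    rw [CA.symm_ζ hq hW] at h2
    exact h2
  exact exists_smul_of_PP_eq (CA.σ_cone (CA.ζ_mem i q hW)).2 hq.2 h1

theorem eq_smul_F {i : A.ι} {q : EE N} (hq : q ∈ Cone I) (hx : pt q hq ∈ (A.e i).source) :
    ∃ c : ℂ, c ≠ 0 ∧ q = c • CA.F i (pt q hq) := by
  have h1 : PP (CA.F i (pt q hq)) = PP q := CA.F_pp i _ hx
  exact exists_smul_of_PP_eq (CA.F_cone i _ hx).2 hq.2 h1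

theorem exists_mem_W {q : EE N} (hq : q ∈ Cone I) : ∃ i, q ∈ CA.W i := by
  obtain ⟨i, hi⟩ := A.cover (pt q hq)
  exact ⟨i, (CA.mem_W i q hq).2 hi⟩

theorem σ_hol (i : A.ι) : DifferentiableOn ℂ (CA.σ i) (A.e i).target := CA.F_hol i

theorem σ_differentiableAt {i : A.ι} {z : Cn n} (hz : z ∈ (A.e i).target) :
    DifferentiableAt ℂ (CA.σ i) z :=
  (CA.F_hol i).differentiableAt ((A.e i).open_target.mem_nhds hz)

theorem σ_contDiffAt {i : A.ι} {z : Cn n} (hz : z ∈ (A.e i).target) :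
    ContDiffAt ℝ ∞ (CA.σ i) z :=
  Crest.Agent.R273.FS_333.contDiffAt_of_hol (A.e i).open_target (CA.F_hol i) hz

theorem ζ_differentiableAt {i : A.ι} {q : EE N} (hq : q ∈ CA.W i) :
    DifferentiableAt ℂ (CA.ζ i) q :=
  (CA.ζ_hol i).differentiableAt ((CA.W_open i).mem_nhds hq)

/-- homogeneous coordinates in the sense of R273 -/
def projD : Crest.Agent.R273.Defs_333.ProjD A where
  N := N
  F := CA.F
  hol i k := by
    intro z hz
    have h := differentiableWithinAt_pi.1 (CA.F_hol i z hz.1) k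
    exact h.mono fun w hw => hw.1
  ne i x hx := (CA.F_cone i x hx).2
  tr i j x hx := by
    obtain ⟨c, hc, h⟩ := exists_smul_of_PP_eq (CA.F_cone j x hx.2).2 (CA.F_cone i x hx.1).2
      ((CA.F_pp j x hx.2).trans (CA.F_pp i x hx.1).symm)
    exact ⟨c, h⟩
  inj i j x hx y hy h := by
    obtain ⟨c, hc⟩ := h
    have hc0 : c ≠ 0 := by
      rintro rfl
      rw [zero_smul] at hc
      exact (CA.F_cone i x hx).2 hc
    have h1 : PP (CA.F i x) = PP (CA.F j y) := by rw [hc, PP_smul hc0]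
    rw [CA.F_pp i x hx, CA.F_pp j y hy] at h1
    exact Subtype.ext h1
  imm i z hz v h := by
    obtain ⟨c, hc⟩ := h
    exact CA.F_imm i z hz c v hc

end CAtl

end

end Crest.Agent.R269.CAtl_886
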