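import Mathlib

/-!
# Row 269, leaf AVG (helper392), part A: Poisson averages on the unit circle

* `exists_poly`: real parts of polynomials are uniformly dense in the continuous real functions on
  the unit circle;
* `pv f w`: Poisson average of `f` on the unit circle with centre `w` (`pv f 0 = circleAverage f 0 1`);
* linearity, monotonicity, bounds, Harnack inequalities;
* `mob w`, the disc automorphism with `mob w 0 = w`, and `circleAverage_comp_mob`;
* `le_pv`: maximum principle / sub-mean value for upper semicontinuous functions with local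
  sub-mean values;
* `log ‖F‖` for zero free holomorphic `F`.
-/

set_option autoImplicit false

noncomputable section

open Complex Metric Set Filter Topology Real

namespace Crest.Agent.R269.Avg392

/-! ### Density of real parts of polynomials -/

/-- `g = p(ζ) + conj (q(ζ))` on the circle. -/
def Tri (g : C(AddCircle (1 : ℝ), ℂ)) : Prop :=
  ∃ p q : Polynomial ℂ, ∀ x : AddCircle (1 : ℝ),
    g x = p.eval (AddCircle.toCircle x : ℂ) + (starRingEnd ℂ) (q.eval (AddCircle.toCircle x : ℂ))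

lemma tri_fourier (n : ℤ) : Tri (fourier n) := by
  obtain ⟨m, rfl | rfl⟩ := n.eq_nat_or_neg
  · refine ⟨Polynomial.X ^ m, 0, fun x => ?_⟩
    simp [fourier_apply, AddCircle.toCircle_nsmul]
  · refine ⟨0, Polynomial.X ^ m, fun x => ?_⟩
    rw [fourier_neg]
    simp [fourier_apply, AddCircle.toCircle_nsmul]

lemma tri_of_mem_span {g : C(AddCircle (1 : ℝ), ℂ)}
    (hg : g ∈ Submodule.span ℂ (range (@fourier (1 : ℝ)))) : Tri g := by
  induction hg using Submodule.span_induction with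
  | mem x hx => obtain ⟨n, rfl⟩ := hx; exact tri_fourier n
  | zero => exact ⟨0, 0, fun x => by simp⟩
  | add a b _ _ ha hb =>
    obtain ⟨p, q, h⟩ := ha
    obtain ⟨p', q', h'⟩ := hb
    refine ⟨p + p', q + q', fun x => ?_⟩
    simp only [ContinuousMap.add_apply, h, h', Polynomial.eval_add, map_add]
    ring
  | smul c a _ ha =>
    obtain ⟨p, q, h⟩ := ha
    refine ⟨Polynomial.C c * p, Polynomial.C ((starRingEnd ℂ) c) * q, fun x => ?_⟩
    simp only [ContinuousMap.smul_apply, h, Polynomial.eval_mul, Polynomial.eval_C, map_mul,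
      conj_conj, smul_eq_mul]
    ring

/-- Real parts of polynomials are dense in the real continuous functions on the circle. -/
theorem exists_poly {φ : ℂ → ℝ} (hφ : ContinuousOn φ (sphere 0 1)) {ε : ℝ} (hε : 0 < ε) :
    ∃ p : Polynomial ℂ, ∀ ζ ∈ sphere (0 : ℂ) 1, |φ ζ - (p.eval ζ).re| < ε := by
  have hmem : ∀ x : AddCircle (1 : ℝ), (AddCircle.toCircle x : ℂ) ∈ sphere (0 : ℂ) 1 := fun x => by
    rw [mem_sphere_zero_iff_norm]
    exact Circle.norm_coe _
  let g : C(AddCircle (1 : ℝ), ℂ) := ⟨fun x => ((φ (AddCircle.toCircle x : ℂ) : ℝ) : ℂ), by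
    refine continuous_ofReal.comp ?_
    refine hφ.comp_continuous ?_ hmem
    exact continuous_subtype_val.comp AddCircle.continuous_toCircle⟩
  have hg : g ∈ (Submodule.span ℂ (range (@fourier (1 : ℝ)))).topologicalClosure := by
    rw [span_fourier_closure_eq_top]; trivial
  obtain ⟨h, hh, hdist⟩ := Metric.mem_closure_iff.1 hg ε hε
  obtain ⟨p, q, hpq⟩ := tri_of_mem_span hh
  refine ⟨p + q, fun ζ hζ => ?_⟩
  have hζ1 : ‖ζ‖ = 1 := by simpa using hζ
  obtain ⟨x, hx⟩ : ∃ x : AddCircle (1 : ℝ), (AddCircle.toCircle x : ℂ) = ζ := by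
    refine ⟨((arg ζ / (2 * π) : ℝ) : AddCircle (1 : ℝ)), ?_⟩
    rw [AddCircle.toCircle_apply_mk, Circle.coe_exp]
    have h9 : 2 * π / 1 * (arg ζ / (2 * π)) = arg ζ := by
      have := Real.pi_pos
      field_simp
    rw [h9]
    have := norm_mul_exp_arg_mul_I ζ
    rwa [hζ1, ofReal_one, one_mul] at this
  have h1 : ‖g x - h x‖ < ε := by
    have := (ContinuousMap.dist_lt_iff hε).1 hdist x
    rwa [dist_eq_norm] at this
  have h2 : (g x - h x).re = φ ζ - ((p + q).eval ζ).re := by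
    rw [hpq, hx]
    simp only [g, ContinuousMap.coe_mk, hx, sub_re, add_re, ofReal_re, conj_re,
      Polynomial.eval_add]
  rw [← h2]
  exact (abs_re_le_norm _).trans_lt h1

/-! ### Poisson averages -/

/-- Poisson average at `w` of a function on the unit circle. -/
def pv (f : ℂ → ℝ) (w : ℂ) : ℝ := circleAverage (fun ζ => poissonKernel 0 w ζ * f ζ) 0 1

lemma sphere_abs_one : sphere (0 : ℂ) |(1 : ℝ)| = sphere 0 1 := by simp

lemma continuousOn_pk {w : ℂ} (hw : w ∈ ball (0 : ℂ) 1) :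
    ContinuousOn (poissonKernel 0 w) (sphere 0 1) := by
  have h := continuousOn_herglotzRieszKernel_sphere (c := 0) (R := 1) hw
  rw [sphere_abs_one] at h
  rw [poissonKernel_eq_re_herglotzRieszKernel]
  exact continuous_re.comp_continuousOn h

lemma pk_le {w ζ : ℂ} (hw : w ∈ ball (0 : ℂ) 1) (hζ : ζ ∈ sphere (0 : ℂ) 1) :
    poissonKernel 0 w ζ ≤ (1 + ‖w‖) / (1 - ‖w‖) := by
  have := re_herglotzRieszKernel_le hζ hw
  rw [poissonKernel_eq_re_herglotzRieszKernel]
  simpa [herglotzRieszKernel_def] using this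

lemma le_pk {w ζ : ℂ} (hw : w ∈ ball (0 : ℂ) 1) (hζ : ζ ∈ sphere (0 : ℂ) 1) :
    (1 - ‖w‖) / (1 + ‖w‖) ≤ poissonKernel 0 w ζ := by
  have := le_re_herglotzRieszKernel hζ hw
  rw [poissonKernel_eq_re_herglotzRieszKernel]
  simpa [herglotzRieszKernel_def] using this

lemma pk_pos {w ζ : ℂ} (hw : w ∈ ball (0 : ℂ) 1) (hζ : ζ ∈ sphere (0 : ℂ) 1) :
    0 < poissonKernel 0 w ζ := by
  have h1 : ‖w‖ < 1 := by simpa using hw
  refine lt_of_lt_of_le ?_ (le_pk hw hζ)
  have := norm_nonneg w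
  apply div_pos <;> linarith

lemma ci_of_cont {f : ℂ → ℝ} (hf : ContinuousOn f (sphere 0 1)) : CircleIntegrable f 0 1 :=
  ContinuousOn.circleIntegrable zero_le_one hf

lemma pv_ci {f : ℂ → ℝ} (hf : ContinuousOn f (sphere 0 1)) {w : ℂ} (hw : w ∈ ball (0 : ℂ) 1) :
    CircleIntegrable (fun ζ => poissonKernel 0 w ζ * f ζ) 0 1 :=
  ci_of_cont ((continuousOn_pk hw).mul hf)

/-- centre `0` -/
theorem pv_zero (f : ℂ → ℝ) : pv f 0 = circleAverage f 0 1 := by
  unfold pv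
  apply circleAverage_congr_sphere
  intro ζ hζ
  rw [sphere_abs_one, mem_sphere_zero_iff_norm] at hζ
  simp [poissonKernel_def, hζ]

theorem pv_congr {f g : ℂ → ℝ} (h : EqOn f g (sphere 0 1)) (w : ℂ) : pv f w = pv g w := by
  unfold pv
  apply circleAverage_congr_sphere
  intro ζ hζ
  rw [sphere_abs_one] at hζ
  simp only [h hζ]

/-- **Poisson formula for real parts.** -/
theorem pv_re {F : ℂ → ℂ} (hF : DiffContOnCl ℂ F (ball 0 1)) {w : ℂ} (hw : w ∈ ball (0 : ℂ) 1) :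
    pv (fun z => (F z).re) w = (F w).re := by
  have h := hF.circleAverage_poissonKernel_smul hw
  have hc : ContinuousOn F (sphere 0 1) :=
    hF.continuousOn_ball.mono sphere_subset_closedBall
  have h2 : CircleIntegrable (poissonKernel 0 w • F) 0 1 :=
    ContinuousOn.circleIntegrable zero_le_one ((continuousOn_pk hw).smul hc)
  have h3 := reCLM.circleAverage_comp_comm h2
  rw [h] at h3
  rw [reCLM_apply] at h3
  rw [← h3]
  unfold pv
  apply circleAverage_congr_sphere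
  intro ζ _
  simp

theorem pv_const (c : ℝ) {w : ℂ} (hw : w ∈ ball (0 : ℂ) 1) : pv (fun _ => c) w = c := by
  have := pv_re (F := fun _ => (c : ℂ)) diffContOnCl_const hw
  simpa using this

theorem pv_add {f g : ℂ → ℝ} (hf : ContinuousOn f (sphere 0 1)) (hg : ContinuousOn g (sphere 0 1))
    {w : ℂ} (hw : w ∈ ball (0 : ℂ) 1) : pv (fun z => f z + g z) w = pv f w + pv g w := by
  unfold pv
  rw [← circleAverage_add (pv_ci hf hw) (pv_ci hg hw)]
  congr 1
  funext ζ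
  simp [mul_add]

theorem pv_smul (f : ℂ → ℝ) (c : ℝ) (w : ℂ) : pv (fun z => c * f z) w = c * pv f w := by
  unfold pv
  rw [← smul_eq_mul, ← circleAverage_fun_smul]
  congr 1
  funext ζ
  simp only [smul_eq_mul]
  ring

theorem pv_neg (f : ℂ → ℝ) (w : ℂ) : pv (fun z => -f z) w = -pv f w := by
  have := pv_smul f (-1) w
  simpa using this

theorem pv_sub {f g : ℂ → ℝ} (hf : ContinuousOn f (sphere 0 1)) (hg : ContinuousOn g (sphere 0 1))
    {w : ℂ} (hw : w ∈ ball (0 : ℂ) 1) : pv (fun z => f z - g z) w = pv f w - pv g w := by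
  have := pv_add hf (g := fun z => -g z) hg.neg hw
  rw [pv_neg] at this
  simpa [sub_eq_add_neg] using this

theorem pv_mono {f g : ℂ → ℝ} (hf : ContinuousOn f (sphere 0 1)) (hg : ContinuousOn g (sphere 0 1))
    (h : ∀ z ∈ sphere (0 : ℂ) 1, f z ≤ g z) {w : ℂ} (hw : w ∈ ball (0 : ℂ) 1) :
    pv f w ≤ pv g w := by
  unfold pv
  apply circleAverage_mono (pv_ci hf hw) (pv_ci hg hw)
  intro ζ hζ
  rw [sphere_abs_one] at hζ
  exact mul_le_mul_of_nonneg_left (h ζ hζ) (pk_pos hw hζ).le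

theorem pv_le {f : ℂ → ℝ} (hf : ContinuousOn f (sphere 0 1)) {C : ℝ}
    (h : ∀ z ∈ sphere (0 : ℂ) 1, f z ≤ C) {w : ℂ} (hw : w ∈ ball (0 : ℂ) 1) : pv f w ≤ C := by
  have := pv_mono hf continuousOn_const h hw
  rwa [pv_const C hw] at this

theorem le_pv_const {f : ℂ → ℝ} (hf : ContinuousOn f (sphere 0 1)) {C : ℝ}
    (h : ∀ z ∈ sphere (0 : ℂ) 1, C ≤ f z) {w : ℂ} (hw : w ∈ ball (0 : ℂ) 1) : C ≤ pv f w := by
  have := pv_mono continuousOn_const hf h hw
  rwa [pv_const C hw] at this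

theorem pv_nonneg {f : ℂ → ℝ} (hf : ContinuousOn f (sphere 0 1))
    (h : ∀ z ∈ sphere (0 : ℂ) 1, 0 ≤ f z) {w : ℂ} (hw : w ∈ ball (0 : ℂ) 1) : 0 ≤ pv f w :=
  le_pv_const hf h hw

/-- Harnack, upper bound -/
theorem pv_le_harnack {f : ℂ → ℝ} (hf : ContinuousOn f (sphere 0 1))
    (h : ∀ z ∈ sphere (0 : ℂ) 1, 0 ≤ f z) {w : ℂ} (hw : w ∈ ball (0 : ℂ) 1) :
    pv f w ≤ (1 + ‖w‖) / (1 - ‖w‖) * circleAverage f 0 1 := by
  rw [← smul_eq_mul ((1 + ‖w‖) / (1 - ‖w‖)), ← circleAverage_fun_smul]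
  unfold pv
  apply circleAverage_mono (pv_ci hf hw) (ci_of_cont (continuousOn_const.mul hf))
  intro ζ hζ
  rw [sphere_abs_one] at hζ
  exact mul_le_mul_of_nonneg_right (pk_le hw hζ) (h ζ hζ)

/-- Harnack, lower bound -/
theorem harnack_le_pv {f : ℂ → ℝ} (hf : ContinuousOn f (sphere 0 1))
    (h : ∀ z ∈ sphere (0 : ℂ) 1, 0 ≤ f z) {w : ℂ} (hw : w ∈ ball (0 : ℂ) 1) :
    (1 - ‖w‖) / (1 + ‖w‖) * circleAverage f 0 1 ≤ pv f w := by
  rw [← smul_eq_mul ((1 - ‖w‖) / (1 + ‖w‖)), ← circleAverage_fun_smul]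
  unfold pv
  apply circleAverage_mono (ci_of_cont (continuousOn_const.mul hf)) (pv_ci hf hw)
  intro ζ hζ
  rw [sphere_abs_one] at hζ
  exact mul_le_mul_of_nonneg_right (le_pk hw hζ) (h ζ hζ)

theorem abs_pv_sub_le {f g : ℂ → ℝ} (hf : ContinuousOn f (sphere 0 1))
    (hg : ContinuousOn g (sphere 0 1)) {ε : ℝ} (h : ∀ z ∈ sphere (0 : ℂ) 1, |f z - g z| ≤ ε)
    {w : ℂ} (hw : w ∈ ball (0 : ℂ) 1) : |pv f w - pv g w| ≤ ε := by
  rw [← pv_sub hf hg hw, abs_le]
  exact ⟨le_pv_const (hf.sub hg) (fun z hz => (abs_le.1 (h z hz)).1) hw,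
    pv_le (hf.sub hg) (fun z hz => (abs_le.1 (h z hz)).2) hw⟩

/-! ### The disc automorphism -/

/-- the disc automorphism `z ↦ (z + w) / (1 + w̄ z)` -/
def mob (w z : ℂ) : ℂ := (z + w) / (1 + (starRingEnd ℂ) w * z)

lemma mob_den {w z : ℂ} (hw : ‖w‖ < 1) (hz : ‖z‖ ≤ 1) : 1 + (starRingEnd ℂ) w * z ≠ 0 := by
  intro h
  have h1 : ‖(starRingEnd ℂ) w * z‖ = 1 := by
    have : (starRingEnd ℂ) w * z = -1 := by linear_combination h
    rw [this, norm_neg, norm_one]
  rw [norm_mul, norm_conj] at h1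
  have h2 : ‖w‖ * ‖z‖ ≤ ‖w‖ * 1 := mul_le_mul_of_nonneg_left hz (norm_nonneg _)
  linarith

@[simp] lemma mob_zero (w : ℂ) : mob w 0 = w := by simp [mob]

lemma normSq_mob_num (w z : ℂ) :
    ‖1 + (starRingEnd ℂ) w * z‖ ^ 2 - ‖z + w‖ ^ 2 = (1 - ‖w‖ ^ 2) * (1 - ‖z‖ ^ 2) := by
  simp only [← normSq_eq_norm_sq, normSq_apply, add_re, add_im, mul_re, mul_im, conj_re, conj_im,
    one_re, one_im]
  ring

lemma one_sub_normSq_mob {w z : ℂ} (hw : ‖w‖ < 1) (hz : ‖z‖ ≤ 1) :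
    1 - ‖mob w z‖ ^ 2 = (1 - ‖w‖ ^ 2) * (1 - ‖z‖ ^ 2) / ‖1 + (starRingEnd ℂ) w * z‖ ^ 2 := by
  have h0 : ‖1 + (starRingEnd ℂ) w * z‖ ≠ 0 := norm_ne_zero_iff.2 (mob_den hw hz)
  rw [← normSq_mob_num, mob, norm_div, div_pow, sub_div, div_self (pow_ne_zero 2 h0)]

lemma norm_mob_le {w z : ℂ} (hw : ‖w‖ < 1) (hz : ‖z‖ ≤ 1) : ‖mob w z‖ ≤ 1 := by
  have h := one_sub_normSq_mob hw hz
  have h1 : 0 ≤ (1 - ‖w‖ ^ 2) * (1 - ‖z‖ ^ 2) / ‖1 + (starRingEnd ℂ) w * z‖ ^ 2 := by
    have a := norm_nonneg w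
    have b := norm_nonneg z
    apply div_nonneg _ (sq_nonneg _)
    apply mul_nonneg <;> nlinarith
  nlinarith [norm_nonneg (mob w z)]

lemma norm_mob_lt {w z : ℂ} (hw : ‖w‖ < 1) (hz : ‖z‖ < 1) : ‖mob w z‖ < 1 := by
  have h := one_sub_normSq_mob hw hz.le
  have h0 : 0 < ‖1 + (starRingEnd ℂ) w * z‖ := norm_pos_iff.2 (mob_den hw hz.le)
  have h1 : 0 < (1 - ‖w‖ ^ 2) * (1 - ‖z‖ ^ 2) / ‖1 + (starRingEnd ℂ) w * z‖ ^ 2 := by
    have a := norm_nonneg w
    have b := norm_nonneg z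
    apply div_pos _ (by positivity)
    apply mul_pos <;> nlinarith
  nlinarith [norm_nonneg (mob w z)]

lemma norm_mob_eq {w z : ℂ} (hw : ‖w‖ < 1) (hz : ‖z‖ = 1) : ‖mob w z‖ = 1 := by
  have h := one_sub_normSq_mob hw hz.le
  rw [hz] at h
  simp at h
  nlinarith [norm_nonneg (mob w z)]

lemma mob_mob_neg {w z : ℂ} (hw : ‖w‖ < 1) (hz : ‖z‖ ≤ 1) : mob w (mob (-w) z) = z := by
  have h1 : 1 + (starRingEnd ℂ) (-w) * z ≠ 0 := mob_den (by simpa using hw) hz
  have h2 : 1 + (starRingEnd ℂ) w * mob (-w) z ≠ 0 :=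
    mob_den hw (norm_mob_le (by simpa using hw) hz)
  have h3 : mob (-w) z * (1 + (starRingEnd ℂ) (-w) * z) = z + -w := by
    rw [mob, div_mul_cancel₀ _ h1]
  rw [mob, div_eq_iff h2]
  apply mul_right_cancel₀ h1
  rw [map_neg] at h1 h3 ⊢
  linear_combination (1 - z * (starRingEnd ℂ) w) * h3

lemma diffContOnCl_mob {w : ℂ} (hw : ‖w‖ < 1) : DiffContOnCl ℂ (mob w) (ball 0 1) := by
  apply DifferentiableOn.diffContOnCl
  rw [closure_ball (0 : ℂ) one_ne_zero]
  intro z hz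
  have hz' : ‖z‖ ≤ 1 := by simpa using hz
  have := mob_den hw hz'
  unfold mob
  fun_prop (disch := assumption)

lemma continuousOn_mob {w : ℂ} (hw : ‖w‖ < 1) : ContinuousOn (mob w) (closedBall 0 1) := by
  have := (diffContOnCl_mob hw).continuousOn_ball
  exact this

lemma mapsTo_mob_sphere {w : ℂ} (hw : ‖w‖ < 1) : MapsTo (mob w) (sphere 0 1) (sphere 0 1) :=
  fun z hz => by
    rw [mem_sphere_zero_iff_norm] at hz ⊢
    exact norm_mob_eq hw hz

/-- **Change of centre**: average of `f ∘ mob w` = Poisson average of `f` at `w`. -/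
theorem circleAverage_comp_mob {f : ℂ → ℝ} (hf : ContinuousOn f (sphere 0 1)) {w : ℂ}
    (hw : w ∈ ball (0 : ℂ) 1) : circleAverage (fun z => f (mob w z)) 0 1 = pv f w := by
  have hw' : ‖w‖ < 1 := by simpa using hw
  have h0 : (0 : ℂ) ∈ ball (0 : ℂ) 1 := by simp
  have hfm : ContinuousOn (fun z => f (mob w z)) (sphere 0 1) :=
    hf.comp ((continuousOn_mob hw').mono sphere_subset_closedBall) (mapsTo_mob_sphere hw')
  apply eq_of_forall_dist_le
  intro ε hε
  obtain ⟨p, hp⟩ := exists_poly hf (half_pos hε)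
  have hpc : ContinuousOn (fun z => (p.eval z).re) (sphere 0 1) :=
    (continuous_re.comp p.continuous).continuousOn
  have hd : DiffContOnCl ℂ (fun z => p.eval z) (ball 0 1) :=
    p.differentiable.diffContOnCl
  have hd2 : DiffContOnCl ℂ (fun z => p.eval (mob w z)) (ball 0 1) :=
    ⟨fun z hz => (p.differentiable.differentiableAt.comp_differentiableWithinAt z
      ((diffContOnCl_mob hw').differentiableOn z hz)),
     p.continuous.comp_continuousOn (diffContOnCl_mob hw').continuousOn⟩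
  have e1 : pv (fun z => (p.eval z).re) w = (p.eval w).re := pv_re hd hw
  have e2 : pv (fun z => (p.eval (mob w z)).re) 0 = (p.eval (mob w 0)).re := pv_re hd2 h0
  rw [mob_zero, pv_zero] at e2
  have e3 : |pv f w - pv (fun z => (p.eval z).re) w| ≤ ε / 2 :=
    abs_pv_sub_le hf hpc (fun z hz => (hp z hz).le) hw
  have e4 : |pv (fun z => f (mob w z)) 0 - pv (fun z => (p.eval (mob w z)).re) 0| ≤ ε / 2 := by
    apply abs_pv_sub_le hfm _ _ h0
    · exact hd2.continuousOn_ball.mono sphere_subset_closedBall |> continuous_re.comp_continuousOn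
    · intro z hz
      exact (hp _ (mapsTo_mob_sphere hw' hz)).le
  rw [pv_zero, pv_zero, e2] at e4
  rw [e1] at e3
  rw [Real.dist_eq]
  rw [abs_le] at e3 e4 ⊢
  constructor <;> linarith

end Crest.Agent.R269.Avg392
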