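import Crest.Agent.R269.AvgA_392
import Crest.Agent.R275.FLSubA_884

/-!
# Row 269, leaf AVG (helper392), part B: sub-mean values, Dirichlet problem, `log ‖F‖`, Jensen
-/

set_option autoImplicit false

noncomputable section

open Complex Metric Set Filter Topology Real InnerProductSpace

namespace Crest.Agent.R269.Avg392

/-! ### Maximum principle for upper semicontinuous functions -/

lemma circleAverage_normSq (c : ℂ) (r : ℝ) :
    circleAverage (fun z : ℂ => ‖z‖ ^ 2) c r = ‖c‖ ^ 2 + r ^ 2 := by
  have h1 : EqOn (fun z : ℂ => ‖z‖ ^ 2)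
      ((fun _ => ‖c‖ ^ 2 + r ^ 2) + fun z => (2 * (starRingEnd ℂ) c * (z - c)).re)
      (sphere c |r|) := by
    intro z hz
    rw [mem_sphere_iff_norm] at hz
    have h2 : ‖z - c‖ ^ 2 = r ^ 2 := by rw [hz, sq_abs]
    simp only [Pi.add_apply]
    rw [← h2]
    simp only [← normSq_eq_norm_sq, normSq_apply, sub_re, sub_im, mul_re, mul_im, conj_re,
      conj_im, re_ofNat, im_ofNat]
    ring
  rw [circleAverage_congr_sphere h1, circleAverage_add]
  · rw [circleAverage_const]
    have h3 : HarmonicOnNhd (fun z : ℂ => (2 * (starRingEnd ℂ) c * (z - c)).re)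
        (closedBall c |r|) := by
      intro z _
      apply AnalyticAt.harmonicAt_re
      fun_prop
    rw [h3.circleAverage_eq]
    simp
  · exact circleIntegrable_const _ _ _
  · apply Continuous.continuousOn _ |>.circleIntegrable'
    fun_prop

/-- **Maximum principle / Poisson majorant** for upper semicontinuous functions which satisfy, at
each interior point, one local sub-mean value inequality. -/
theorem le_pv {u : ℂ → ℝ} (hu : UpperSemicontinuousOn u (closedBall 0 1))
    (hs : ∀ z ∈ ball (0 : ℂ) 1, ∃ r : ℝ, 0 < r ∧ sphere z r ⊆ closedBall 0 1 ∧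
      CircleIntegrable u z r ∧ u z ≤ circleAverage u z r)
    {φ : ℂ → ℝ} (hφ : ContinuousOn φ (sphere 0 1)) (h : ∀ z ∈ sphere (0 : ℂ) 1, u z ≤ φ z)
    {w : ℂ} (hw : w ∈ ball (0 : ℂ) 1) : u w ≤ pv φ w := by
  apply le_of_forall_pos_le_add
  intro ε hε
  obtain ⟨p, hp⟩ := exists_poly hφ (show 0 < ε / 4 by positivity)
  have hpc : ContinuousOn (fun z => (p.eval z).re) (sphere 0 1) :=
    (continuous_re.comp p.continuous).continuousOn
  have e1 : pv (fun z => (p.eval z).re) w = (p.eval w).re :=
    pv_re p.differentiable.diffContOnCl hw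
  have e3 := abs_pv_sub_le hφ hpc (fun z hz => (hp z hz).le) hw
  rw [e1, abs_le] at e3
  -- the auxiliary function
  set q : ℂ → ℝ := fun z => -(p.eval z).re + ε / 4 * ‖z‖ ^ 2 with hq
  have hqc : Continuous q := by
    have := p.continuous
    fun_prop
  set v : ℂ → ℝ := fun z => u z + q z with hv
  have hvu : UpperSemicontinuousOn v (closedBall 0 1) :=
    hu.add (hqc.continuousOn.upperSemicontinuousOn)
  obtain ⟨z₀, hz₀, hmax⟩ := hvu.exists_isMaxOn ⟨0, by simp⟩ (isCompact_closedBall 0 1)
  have hz₀' : ‖z₀‖ = 1 := by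
    by_contra hne
    have hlt : ‖z₀‖ < 1 := lt_of_le_of_ne (by simpa using hz₀) hne
    obtain ⟨r, hr, hsub, hci, hle⟩ := hs z₀ (by simpa using hlt)
    have hciv : CircleIntegrable v z₀ r := hci.add hqc.continuousOn.circleIntegrable'
    have hqa : circleAverage q z₀ r = q z₀ + ε / 4 * r ^ 2 := by
      have h1 : q = (fun z => -(p.eval z).re) + fun z => (ε / 4) • ‖z‖ ^ 2 := by
        funext z; simp [hq]
      have h2 : HarmonicOnNhd (fun z : ℂ => -(p.eval z).re) (closedBall z₀ |r|) := by
        intro z _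
        have h3 : (fun z : ℂ => -(p.eval z).re) = fun z => ((-p).eval z).re := by
          funext z; simp
        rw [h3]
        apply AnalyticAt.harmonicAt_re
        exact (-p).differentiable.analyticAt z
      rw [h1, circleAverage_add, h2.circleAverage_eq, circleAverage_fun_smul,
        circleAverage_normSq]
      · simp only [Pi.add_apply, smul_eq_mul]; ring
      · apply Continuous.continuousOn _ |>.circleIntegrable'
        have := p.continuous
        fun_prop
      · apply Continuous.continuousOn _ |>.circleIntegrable'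
        fun_prop
    have h4 : circleAverage v z₀ r = circleAverage u z₀ r + circleAverage q z₀ r := by
      rw [← circleAverage_add hci hqc.continuousOn.circleIntegrable']
      rfl
    have h5 : circleAverage v z₀ r ≤ v z₀ := by
      apply circleAverage_mono_on_of_le_circle hciv
      intro x hx
      rw [abs_of_pos hr] at hx
      exact hmax (hsub hx)
    have h6 : 0 < ε / 4 * r ^ 2 := by positivity
    have h7 : v z₀ = u z₀ + q z₀ := rfl
    linarith
  have hz₀s : z₀ ∈ sphere (0 : ℂ) 1 := by simpa using hz₀'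
  have h1 : v w ≤ v z₀ := hmax (ball_subset_closedBall hw)
  have h2 : v z₀ ≤ ε / 2 := by
    have a := h z₀ hz₀s
    have b := (abs_lt.1 (hp z₀ hz₀s)).2
    simp only [hv, hq, hz₀']
    linarith
  have h3 : u w - (p.eval w).re ≤ v w := by
    have : 0 ≤ ε / 4 * ‖w‖ ^ 2 := by positivity
    simp only [hv, hq]
    linarith
  linarith [e3.1, e3.2]

/-! ### Subharmonic functions which are continuous up to the circle -/

/-- Continuous on the closed disc, local sub-mean value inequalities inside. -/
def SubH (u : ℂ → ℝ) : Prop :=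
  ContinuousOn u (closedBall 0 1) ∧
    ∀ z ∈ ball (0 : ℂ) 1, ∀ᶠ r in 𝓝[>] (0 : ℝ), u z ≤ circleAverage u z r

lemma eventually_small {z : ℂ} (hz : z ∈ ball (0 : ℂ) 1) :
    ∀ᶠ r in 𝓝[>] (0 : ℝ), 0 < r ∧ closedBall z r ⊆ ball (0 : ℂ) 1 := by
  have h1 : ‖z‖ < 1 := by simpa using hz
  have h2 : Ioo (0 : ℝ) (1 - ‖z‖) ∈ 𝓝[>] (0 : ℝ) := Ioo_mem_nhdsGT (by linarith)
  filter_upwards [h2] with r hr
  refine ⟨hr.1, fun x hx => ?_⟩
  rw [mem_closedBall_iff_norm] at hx
  rw [mem_ball_zero_iff]
  calc ‖x‖ = ‖(x - z) + z‖ := by ring_nf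
    _ ≤ ‖x - z‖ + ‖z‖ := norm_add_le _ _
    _ < 1 := by linarith [hr.2]

lemma SubH.ci {u : ℂ → ℝ} (hu : ContinuousOn u (closedBall 0 1)) {z : ℂ} {r : ℝ} (hr : 0 < r)
    (h : closedBall z r ⊆ ball (0 : ℂ) 1) : CircleIntegrable u z r :=
  ContinuousOn.circleIntegrable hr.le
    (hu.mono (sphere_subset_closedBall.trans (h.trans ball_subset_closedBall)))

theorem SubH.le_pv {u : ℂ → ℝ} (hu : SubH u) {w : ℂ} (hw : w ∈ ball (0 : ℂ) 1) :
    u w ≤ pv u w := by
  refine Avg392.le_pv hu.1.upperSemicontinuousOn (fun z hz => ?_)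
    (hu.1.mono sphere_subset_closedBall) (fun z _ => le_rfl) hw
  obtain ⟨r, ⟨hr, hsub⟩, hle⟩ := ((eventually_small hz).and (hu.2 z hz)).exists
  exact ⟨r, hr, sphere_subset_closedBall.trans (hsub.trans ball_subset_closedBall),
    SubH.ci hu.1 hr hsub, hle⟩

theorem SubH.le_avg {u : ℂ → ℝ} (hu : SubH u) : u 0 ≤ circleAverage u 0 1 := by
  have := hu.le_pv (w := 0) (by simp)
  rwa [pv_zero] at this

theorem SubH.add {u v : ℂ → ℝ} (hu : SubH u) (hv : SubH v) : SubH fun z => u z + v z := by
  refine ⟨hu.1.add hv.1, fun z hz => ?_⟩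
  filter_upwards [hu.2 z hz, hv.2 z hz, eventually_small hz] with r h1 h2 h3
  have h4 : circleAverage (fun z => u z + v z) z r = circleAverage u z r + circleAverage v z r :=
    circleAverage_add (SubH.ci hu.1 h3.1 h3.2) (SubH.ci hv.1 h3.1 h3.2)
  rw [h4]
  exact add_le_add h1 h2

theorem SubH.smul {u : ℂ → ℝ} (hu : SubH u) {c : ℝ} (hc : 0 ≤ c) : SubH fun z => c * u z := by
  refine ⟨hu.1.const_smul c, fun z hz => ?_⟩
  filter_upwards [hu.2 z hz] with r h1
  have h4 : circleAverage (fun z => c * u z) z r = c * circleAverage u z r :=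
    circleAverage_fun_smul (𝕜 := ℝ) (a := c)
  rw [h4]
  exact mul_le_mul_of_nonneg_left h1 hc

theorem subH_const (c : ℝ) : SubH fun _ => c :=
  ⟨continuousOn_const, fun z _ => Eventually.of_forall fun r => by rw [circleAverage_const]⟩

theorem SubH.sum {ι : Type*} {s : Finset ι} {u : ι → ℂ → ℝ} (h : ∀ i ∈ s, SubH (u i)) :
    SubH fun z => ∑ i ∈ s, u i z := by
  classical
  induction s using Finset.induction_on with
  | empty => simpa using subH_const 0
  | insert a s ha ih =>
    have h1 := (h a (Finset.mem_insert_self a s)).add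
      (ih fun i hi => h i (Finset.mem_insert_of_mem hi))
    simpa [Finset.sum_insert ha] using h1

theorem SubH.max {u v : ℂ → ℝ} (hu : SubH u) (hv : SubH v) : SubH fun z => max (u z) (v z) := by
  refine ⟨hu.1.sup hv.1, fun z hz => ?_⟩
  filter_upwards [hu.2 z hz, hv.2 z hz, eventually_small hz] with r h1 h2 h3
  have hm : CircleIntegrable (fun z => Max.max (u z) (v z)) z r :=
    SubH.ci (hu.1.sup hv.1) h3.1 h3.2
  refine max_le (h1.trans ?_) (h2.trans ?_)
  · exact circleAverage_mono (SubH.ci hu.1 h3.1 h3.2) hm fun x _ => le_max_left _ _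
  · exact circleAverage_mono (SubH.ci hv.1 h3.1 h3.2) hm fun x _ => le_max_right _ _

/-! ### The Dirichlet problem -/

/-- harmonic extension of `f` to the closed disc -/
def dir (f : ℂ → ℝ) (z : ℂ) : ℝ := if ‖z‖ < 1 then pv f z else f z

lemma dir_ball (f : ℂ → ℝ) {z : ℂ} (hz : z ∈ ball (0 : ℂ) 1) : dir f z = pv f z := by
  rw [mem_ball_zero_iff] at hz
  rw [dir, if_pos hz]

lemma dir_sphere (f : ℂ → ℝ) {z : ℂ} (hz : z ∈ sphere (0 : ℂ) 1) : dir f z = f z := by
  rw [mem_sphere_zero_iff_norm] at hz
  rw [dir, if_neg (by rw [hz]; exact lt_irrefl 1)]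

lemma abs_dir_sub_le {f : ℂ → ℝ} (hf : ContinuousOn f (sphere 0 1)) {p : Polynomial ℂ} {ε : ℝ}
    (hp : ∀ ζ ∈ sphere (0 : ℂ) 1, |f ζ - (p.eval ζ).re| < ε) {z : ℂ}
    (hz : z ∈ closedBall (0 : ℂ) 1) : |dir f z - (p.eval z).re| ≤ ε := by
  have hpc : ContinuousOn (fun z => (p.eval z).re) (sphere 0 1) :=
    (continuous_re.comp p.continuous).continuousOn
  rcases lt_or_eq_of_le (mem_closedBall_zero_iff.1 hz) with h | h
  · have hz' : z ∈ ball (0 : ℂ) 1 := by simpa using h
    rw [dir_ball f hz']
    have := abs_pv_sub_le hf hpc (fun z hz => (hp z hz).le) hz'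
    rwa [pv_re p.differentiable.diffContOnCl hz'] at this
  · have hz' : z ∈ sphere (0 : ℂ) 1 := by simpa using h
    rw [dir_sphere f hz']
    exact (hp z hz').le

theorem continuousOn_dir {f : ℂ → ℝ} (hf : ContinuousOn f (sphere 0 1)) :
    ContinuousOn (dir f) (closedBall 0 1) := by
  have key : ∀ ε > 0, ∃ g : ℂ → ℝ, Continuous g ∧ ∀ z ∈ closedBall (0 : ℂ) 1, |dir f z - g z| ≤ ε :=
    fun ε hε => by
      obtain ⟨p, hp⟩ := exists_poly hf hε
      exact ⟨fun z => (p.eval z).re, continuous_re.comp p.continuous,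
        fun z hz => abs_dir_sub_le hf hp hz⟩
  intro z hz
  rw [Metric.continuousWithinAt_iff]
  intro ε hε
  obtain ⟨g, hg, hgf⟩ := key (ε / 4) (by positivity)
  obtain ⟨δ, hδ, hd⟩ := Metric.continuous_iff.1 hg z (ε / 4) (by positivity)
  refine ⟨δ, hδ, fun x hx hxz => ?_⟩
  have h1 := hd x hxz
  have h2 := hgf x hx
  have h3 := hgf z hz
  rw [Real.dist_eq] at h1 ⊢
  rw [abs_le] at h2 h3
  rw [abs_lt] at h1 ⊢
  constructor <;> linarith

theorem continuousOn_pv {f : ℂ → ℝ} (hf : ContinuousOn f (sphere 0 1)) :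
    ContinuousOn (pv f) (ball 0 1) :=
  ((continuousOn_dir hf).mono ball_subset_closedBall).congr fun z hz => (dir_ball f hz).symm

/-- mean values of the Poisson average over circles about `c` -/
theorem circleAverage_dir {f : ℂ → ℝ} (hf : ContinuousOn f (sphere 0 1)) {c : ℂ} {r : ℝ}
    (hr : 0 ≤ r) (h : closedBall c r ⊆ closedBall (0 : ℂ) 1) :
    circleAverage (dir f) c r = dir f c := by
  have hcc : c ∈ closedBall (0 : ℂ) 1 := h (mem_closedBall_self hr)
  have hci : CircleIntegrable (dir f) c r :=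
    ContinuousOn.circleIntegrable hr ((continuousOn_dir hf).mono (sphere_subset_closedBall.trans h))
  apply eq_of_forall_dist_le
  intro ε hε
  obtain ⟨p, hp⟩ := exists_poly hf (half_pos hε)
  have hpc : Continuous (fun z => (p.eval z).re) := continuous_re.comp p.continuous
  have h2 : HarmonicOnNhd (fun z : ℂ => (p.eval z).re) (closedBall c |r|) := by
    intro z _
    apply AnalyticAt.harmonicAt_re
    exact p.differentiable.analyticAt z
  have h3 := abs_dir_sub_le hf hp hcc
  have h4 : |circleAverage (dir f) c r - circleAverage (fun z => (p.eval z).re) c r| ≤ ε / 2 := by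
    have h5 : circleAverage (dir f) c r - circleAverage (fun z => (p.eval z).re) c r =
        circleAverage (dir f - fun z => (p.eval z).re) c r := by
      rw [circleAverage_sub hci hpc.continuousOn.circleIntegrable']
    rw [h5]
    have hci2 : CircleIntegrable (dir f - fun z => (p.eval z).re) c r :=
      hci.sub hpc.continuousOn.circleIntegrable'
    rw [abs_le]
    constructor
    · have h6 : circleAverage (fun _ => -(ε / 2)) c r ≤
          circleAverage (dir f - fun z => (p.eval z).re) c r := by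
        apply circleAverage_mono (circleIntegrable_const _ _ _) hci2
        intro x hx
        rw [abs_of_nonneg hr] at hx
        exact (abs_le.1 (abs_dir_sub_le hf hp (h (sphere_subset_closedBall hx)))).1
      rwa [circleAverage_const] at h6
    · apply circleAverage_mono_on_of_le_circle hci2
      intro x hx
      rw [abs_of_nonneg hr] at hx
      exact (abs_le.1 (abs_dir_sub_le hf hp (h (sphere_subset_closedBall hx)))).2
  rw [h2.circleAverage_eq] at h4
  rw [Real.dist_eq]
  rw [abs_le] at h3 h4 ⊢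
  constructor <;> linarith

theorem subH_dir {f : ℂ → ℝ} (hf : ContinuousOn f (sphere 0 1)) : SubH (dir f) := by
  refine ⟨continuousOn_dir hf, fun z hz => ?_⟩
  filter_upwards [eventually_small hz] with r h
  rw [circleAverage_dir hf h.1.le (h.2.trans ball_subset_closedBall)]

/-- averages of the Poisson averages -/
theorem circleAverage_pv {f : ℂ → ℝ} (hf : ContinuousOn f (sphere 0 1)) {r : ℝ} (hr : 0 ≤ r)
    (hr1 : r < 1) : circleAverage (pv f) 0 r = circleAverage f 0 1 := by
  have h1 : closedBall (0 : ℂ) r ⊆ ball 0 1 := closedBall_subset_ball hr1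
  have h2 := circleAverage_dir hf hr (h1.trans ball_subset_closedBall)
  rw [dir_ball f (by simp), pv_zero] at h2
  rw [← h2]
  apply circleAverage_congr_sphere
  intro z hz
  rw [abs_of_nonneg hr] at hz
  exact (dir_ball f (h1 (sphere_subset_closedBall hz))).symm

/-- circle averages are monotone in the radius -/
theorem SubH.avg_mono {u : ℂ → ℝ} (hu : SubH u) {r : ℝ} (hr : 0 ≤ r) (hr1 : r ≤ 1) :
    circleAverage u 0 r ≤ circleAverage u 0 1 := by
  rcases hr1.lt_or_eq with h | h
  · have hc := hu.1.mono (sphere_subset_closedBall (x := (0 : ℂ)) (ε := (1 : ℝ)))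
    rw [← circleAverage_pv hc hr h]
    have h1 : closedBall (0 : ℂ) r ⊆ ball 0 1 := closedBall_subset_ball h
    apply circleAverage_mono
    · exact ContinuousOn.circleIntegrable hr
        (hu.1.mono (sphere_subset_closedBall.trans (h1.trans ball_subset_closedBall)))
    · exact ContinuousOn.circleIntegrable hr
        ((continuousOn_pv hc).mono (sphere_subset_closedBall.trans h1))
    · intro x hx
      rw [abs_of_nonneg hr] at hx
      exact hu.le_pv (h1 (sphere_subset_closedBall hx))
  · rw [h]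

/-- composition with a disc automorphism: `u (mob w ·)` at centre `0` is `u` at `w` -/
theorem SubH.le_avg_mob {u : ℂ → ℝ} (hu : SubH u) {w : ℂ} (hw : w ∈ ball (0 : ℂ) 1) :
    u w ≤ circleAverage (fun z => u (mob w z)) 0 1 := by
  rw [circleAverage_comp_mob (hu.1.mono sphere_subset_closedBall) hw]
  exact hu.le_pv hw

end Crest.Agent.R269.Avg392
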