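import Crest.Agent.R269.AvgB_392

/-!
# Row 269, leaf AVG (helper392), part C: `C²` functions, scaling, monotonicity in the radius, Jensen
-/

set_option autoImplicit false

noncomputable section

open Complex Metric Set Filter Topology Real InnerProductSpace

namespace Crest.Agent.R269.Avg392

/-- the Laplacian (`= 4 * LevC_653.lev u z 1`) -/
def lapl (u : ℂ → ℝ) (z : ℂ) : ℝ :=
  fderiv ℝ (fderiv ℝ u) z 1 1 + fderiv ℝ (fderiv ℝ u) z I I

/-! ### Affine changes of variable -/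

lemma circleAverage_comp_affine (u : ℂ → ℝ) (c a z : ℂ) (r : ℝ) :
    circleAverage (fun x => u (c + a * x)) z r = circleAverage u (c + a * z) (‖a‖ * r) := by
  rcases eq_or_ne a 0 with rfl | ha
  · simp [circleAverage_const, circleAverage_zero]
  -- rotation
  obtain ⟨φ, hφ⟩ : ∃ φ : ℝ, a = ‖a‖ * Complex.exp (φ * I) := ⟨arg a, (norm_mul_exp_arg_mul_I a).symm⟩
  have h1 : ∀ θ : ℝ, c + a * circleMap z r θ = circleMap (c + a * z) (‖a‖ * r) (θ + φ) := by
    intro θ
    simp only [circleMap]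
    have h2 : Complex.exp ((θ + φ : ℝ) * I) = Complex.exp (θ * I) * Complex.exp (φ * I) := by
      rw [← Complex.exp_add]; congr 1; push_cast; ring
    rw [h2]
    push_cast
    conv_lhs => rw [hφ]
    conv_rhs => rw [hφ]
    have h3 : ‖(‖a‖ : ℂ) * Complex.exp (φ * I)‖ = ‖a‖ := by
      rw [norm_mul, Complex.norm_exp_ofReal_mul_I, mul_one]; simp
    rw [h3]
    ring
  unfold circleAverage
  congr 1
  have h4 : ∀ θ : ℝ, u (c + a * circleMap z r θ) =
      (fun t => u (circleMap (c + a * z) (‖a‖ * r) t)) (θ + φ) := fun θ => by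
    simp only [h1]
  simp_rw [h4]
  rw [intervalIntegral.integral_comp_add_right (fun t => u (circleMap (c + a * z) (‖a‖ * r) t)) φ]
  have hp : Function.Periodic (fun t => u (circleMap (c + a * z) (‖a‖ * r) t)) (2 * π) := by
    intro t
    simp only
    rw [periodic_circleMap]
  have := hp.intervalIntegral_add_eq (0 + φ) 0
  rw [show 2 * π + φ = 0 + φ + 2 * π by ring, this]
  simp

lemma hasFDerivAt_affine (c a z : ℂ) :
    HasFDerivAt (fun x : ℂ => c + a * x) ((ContinuousLinearMap.mul ℝ ℂ) a) z := by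
  have h : HasFDerivAt (fun x : ℂ => (ContinuousLinearMap.mul ℝ ℂ) a x)
      ((ContinuousLinearMap.mul ℝ ℂ) a) z := ((ContinuousLinearMap.mul ℝ ℂ) a).hasFDerivAt
  simpa using h.const_add c

lemma lapl_comp_affine {u : ℂ → ℝ} {c a z : ℂ} (hu : ContDiffAt ℝ 2 u (c + a * z)) :
    lapl (fun x => u (c + a * x)) z = ‖a‖ ^ 2 * lapl u (c + a * z) := by
  set A : ℂ →L[ℝ] ℂ := (ContinuousLinearMap.mul ℝ ℂ) a with hA
  have hev : ∀ᶠ x in 𝓝 z, ContDiffAt ℝ 2 u (c + a * x) := by
    have h1 : Tendsto (fun x : ℂ => c + a * x) (𝓝 z) (𝓝 (c + a * z)) := by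
      have : Continuous fun x : ℂ => c + a * x := by fun_prop
      exact this.tendsto z
    exact h1.eventually (hu.eventually (by simp))
  have h1 : fderiv ℝ (fun x => u (c + a * x)) =ᶠ[𝓝 z] fun x => (fderiv ℝ u (c + a * x)).comp A := by
    filter_upwards [hev] with x hx
    have h2 : HasFDerivAt u (fderiv ℝ u (c + a * x)) (c + a * x) :=
      (hx.differentiableAt (by norm_num)).hasFDerivAt
    exact (h2.comp x (hasFDerivAt_affine c a x)).fderiv
  have h3 : DifferentiableAt ℝ (fderiv ℝ u) (c + a * z) :=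
    (hu.fderiv_right (m := 1) (by norm_num)).differentiableAt (by norm_num)
  have h4 : HasFDerivAt (fun x => fderiv ℝ u (c + a * x))
      ((fderiv ℝ (fderiv ℝ u) (c + a * z)).comp A) z :=
    h3.hasFDerivAt.comp z (hasFDerivAt_affine c a z)
  have h5 : HasFDerivAt (fun x => (fderiv ℝ u (c + a * x)).comp A)
      ((((ContinuousLinearMap.compL ℝ ℂ ℂ ℝ).flip A)).comp
        ((fderiv ℝ (fderiv ℝ u) (c + a * z)).comp A)) z :=
    ((ContinuousLinearMap.compL ℝ ℂ ℂ ℝ).flip A).hasFDerivAt.comp z h4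
  have h6 : fderiv ℝ (fderiv ℝ (fun x => u (c + a * x))) z =
      (((ContinuousLinearMap.compL ℝ ℂ ℂ ℝ).flip A)).comp
        ((fderiv ℝ (fderiv ℝ u) (c + a * z)).comp A) := by
    rw [h1.fderiv_eq]
    exact h5.fderiv
  have h7 : ∀ v w : ℂ, fderiv ℝ (fderiv ℝ (fun x => u (c + a * x))) z v w =
      fderiv ℝ (fderiv ℝ u) (c + a * z) (a * v) (a * w) := by
    intro v w
    rw [h6]
    simp [hA]
  set B := fderiv ℝ (fderiv ℝ u) (c + a * z) with hB
  have hsym : ∀ v w, B v w = B w v := by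
    intro v w
    have hs : IsSymmSndFDerivAt ℝ u (c + a * z) :=
      hu.isSymmSndFDerivAt (by simp)
    exact hs v w
  unfold lapl
  rw [h7, h7, ← hB]
  have ha : a * 1 = a.re • (1 : ℂ) + a.im • I := by
    apply Complex.ext <;> simp
  have hai : a * I = a.re • I - a.im • (1 : ℂ) := by
    apply Complex.ext <;> simp
  rw [ha, hai]
  simp only [map_add, map_sub, map_smul, add_apply,
    sub_apply, smul_apply, smul_eq_mul]
  rw [hsym I 1, ← Complex.normSq_eq_norm_sq, Complex.normSq_apply]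
  ring

/-! ### Sub-mean value inequality -/

/-- `u c ≤ avg_{|z-c|=R} u + Λ R²` if `Δu ≥ -4Λ` on the closed disc -/
theorem le_avg_lapl {u : ℂ → ℝ} {c : ℂ} {R : ℝ} (hR : 0 ≤ R)
    (hu : ∀ z ∈ closedBall c R, ContDiffAt ℝ 2 u z) {Λ : ℝ}
    (hL : ∀ z ∈ closedBall c R, -(4 * Λ) ≤ lapl u z) :
    u c ≤ circleAverage u c R + Λ * R ^ 2 := by
  have hm : ∀ z ∈ closedBall (0 : ℂ) 1, c + (R : ℂ) * z ∈ closedBall c R := by
    intro z hz
    rw [mem_closedBall_iff_norm, add_sub_cancel_left, norm_mul, Complex.norm_real,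
      Real.norm_of_nonneg hR]
    have : ‖z‖ ≤ 1 := by simpa using hz
    nlinarith
  have h := Crest.Agent.R275.FL884.le_circleAverage_of_contDiffAt
    (ψ := fun z => u (c + (R : ℂ) * z)) (c := Λ * R ^ 2) ?_ ?_
  · rw [circleAverage_comp_affine] at h
    simpa [abs_of_nonneg hR] using h
  · intro z hz
    have h1 := hu _ (hm z hz)
    have h2 : ContDiffAt ℝ 2 (fun z : ℂ => c + (R : ℂ) * z) z := by fun_prop
    exact h1.comp z h2
  · intro z hz
    have h1 := lapl_comp_affine (a := (R : ℂ)) (hu _ (hm z hz))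
    have h2 := hL _ (hm z hz)
    unfold lapl at h1
    rw [h1]
    unfold lapl at h2
    have h3 : ‖(R : ℂ)‖ ^ 2 = R ^ 2 := by
      rw [Complex.norm_real, Real.norm_eq_abs, sq_abs]
    rw [h3]
    nlinarith [sq_nonneg R]

lemma lapl_neg (u : ℂ → ℝ) (z : ℂ) : lapl (fun x => -u x) z = -lapl u z := by
  unfold lapl
  have h1 : fderiv ℝ (fun x => -u x) = fun x => -fderiv ℝ u x := by
    funext x
    exact fderiv_fun_neg
  have h2 : fderiv ℝ (fun x => -fderiv ℝ u x) z = -fderiv ℝ (fderiv ℝ u) z := fderiv_fun_neg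
  rw [h1, h2]
  simp only [neg_apply]
  ring

theorem avg_le_lapl {u : ℂ → ℝ} {c : ℂ} {R : ℝ} (hR : 0 ≤ R)
    (hu : ∀ z ∈ closedBall c R, ContDiffAt ℝ 2 u z) {Λ : ℝ}
    (hL : ∀ z ∈ closedBall c R, lapl u z ≤ 4 * Λ) :
    circleAverage u c R ≤ u c + Λ * R ^ 2 := by
  have h := le_avg_lapl (u := fun x => -u x) hR (fun z hz => (hu z hz).neg) (Λ := Λ) (fun z hz => by
    rw [lapl_neg]; linarith [hL z hz])
  have h1 : circleAverage (fun x => -u x) c R = -circleAverage u c R := by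
    have := circleAverage_fun_smul (𝕜 := ℝ) (a := (-1 : ℝ)) (f := u) (c := c) (R := R)
    simpa using this
  rw [h1] at h
  linarith

/-- `|avg_{|z-c|=R} u - u c| ≤ Λ R²` if `|Δu| ≤ 4Λ` -/
theorem abs_avg_sub_le {u : ℂ → ℝ} {c : ℂ} {R : ℝ} (hR : 0 ≤ R)
    (hu : ∀ z ∈ closedBall c R, ContDiffAt ℝ 2 u z) {Λ : ℝ}
    (hL : ∀ z ∈ closedBall c R, |lapl u z| ≤ 4 * Λ) :
    |circleAverage u c R - u c| ≤ Λ * R ^ 2 := by
  have h1 := le_avg_lapl hR hu (Λ := Λ) (fun z hz => (abs_le.1 (hL z hz)).1)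
  have h2 := avg_le_lapl hR hu (Λ := Λ) (fun z hz => (abs_le.1 (hL z hz)).2)
  rw [abs_le]
  constructor <;> linarith

/-! ### Subharmonic functions on the open disc -/

/-- continuous on the open disc with local sub-mean values -/
def SubO (u : ℂ → ℝ) : Prop :=
  ContinuousOn u (ball 0 1) ∧
    ∀ z ∈ ball (0 : ℂ) 1, ∀ᶠ r in 𝓝[>] (0 : ℝ), u z ≤ circleAverage u z r

theorem SubH.subO {u : ℂ → ℝ} (h : SubH u) : SubO u := ⟨h.1.mono ball_subset_closedBall, h.2⟩

theorem SubO.subH {u : ℂ → ℝ} (h : SubO u) (hc : ContinuousOn u (closedBall 0 1)) : SubH u :=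
  ⟨hc, h.2⟩

/-- `C²` with non-negative Laplacian -/
theorem subO_of_lapl {u : ℂ → ℝ} (hu : ∀ z ∈ ball (0 : ℂ) 1, ContDiffAt ℝ 2 u z)
    (hL : ∀ z ∈ ball (0 : ℂ) 1, 0 ≤ lapl u z) : SubO u := by
  refine ⟨fun z hz => (hu z hz).continuousAt.continuousWithinAt, fun z hz => ?_⟩
  filter_upwards [eventually_small hz] with r hr
  have := le_avg_lapl (Λ := 0) hr.1.le (fun x hx => hu x (hr.2 hx))
    (fun x hx => by simpa using hL x (hr.2 hx))
  simpa using this

theorem subH_of_lapl {u : ℂ → ℝ} (hc : ContinuousOn u (closedBall 0 1))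
    (hu : ∀ z ∈ ball (0 : ℂ) 1, ContDiffAt ℝ 2 u z)
    (hL : ∀ z ∈ ball (0 : ℂ) 1, 0 ≤ lapl u z) : SubH u :=
  (subO_of_lapl hu hL).subH hc

theorem SubO.ci {u : ℂ → ℝ} (hu : ContinuousOn u (ball 0 1)) {z : ℂ} {r : ℝ} (hr : 0 < r)
    (h : closedBall z r ⊆ ball (0 : ℂ) 1) : CircleIntegrable u z r :=
  ContinuousOn.circleIntegrable hr.le (hu.mono (sphere_subset_closedBall.trans h))

theorem SubO.add {u v : ℂ → ℝ} (hu : SubO u) (hv : SubO v) : SubO fun z => u z + v z := by
  refine ⟨hu.1.add hv.1, fun z hz => ?_⟩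
  filter_upwards [hu.2 z hz, hv.2 z hz, eventually_small hz] with r h1 h2 h3
  have h4 : circleAverage (fun z => u z + v z) z r = circleAverage u z r + circleAverage v z r :=
    circleAverage_add (SubO.ci hu.1 h3.1 h3.2) (SubO.ci hv.1 h3.1 h3.2)
  rw [h4]
  exact add_le_add h1 h2

theorem SubO.smul {u : ℂ → ℝ} (hu : SubO u) {c : ℝ} (hc : 0 ≤ c) : SubO fun z => c * u z := by
  refine ⟨hu.1.const_smul c, fun z hz => ?_⟩
  filter_upwards [hu.2 z hz] with r h1
  have h4 : circleAverage (fun z => c * u z) z r = c * circleAverage u z r :=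
    circleAverage_fun_smul (𝕜 := ℝ) (a := c)
  rw [h4]
  exact mul_le_mul_of_nonneg_left h1 hc

theorem subO_const (c : ℝ) : SubO fun _ => c := (subH_const c).subO

theorem SubO.sum {ι : Type*} {s : Finset ι} {u : ι → ℂ → ℝ} (h : ∀ i ∈ s, SubO (u i)) :
    SubO fun z => ∑ i ∈ s, u i z := by
  classical
  induction s using Finset.induction_on with
  | empty => simpa using subO_const 0
  | insert a s ha ih =>
    have h1 := (h a (Finset.mem_insert_self a s)).add
      (ih fun i hi => h i (Finset.mem_insert_of_mem hi))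
    simpa [Finset.sum_insert ha] using h1

theorem SubO.max {u v : ℂ → ℝ} (hu : SubO u) (hv : SubO v) : SubO fun z => max (u z) (v z) := by
  refine ⟨hu.1.sup hv.1, fun z hz => ?_⟩
  filter_upwards [hu.2 z hz, hv.2 z hz, eventually_small hz] with r h1 h2 h3
  have hm : CircleIntegrable (fun z => Max.max (u z) (v z)) z r :=
    SubO.ci (hu.1.sup hv.1) h3.1 h3.2
  refine max_le (h1.trans ?_) (h2.trans ?_)
  · exact circleAverage_mono (SubO.ci hu.1 h3.1 h3.2) hm fun x _ => le_max_left _ _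
  · exact circleAverage_mono (SubO.ci hv.1 h3.1 h3.2) hm fun x _ => le_max_right _ _

/-- `‖h‖` for holomorphic `h` is subharmonic, also vector valued -/
theorem subO_norm {E : Type*} [NormedAddCommGroup E] [NormedSpace ℂ E] [CompleteSpace E]
    {h : ℂ → E} (hh : DifferentiableOn ℂ h (ball 0 1)) : SubO fun z => ‖h z‖ := by
  refine ⟨hh.continuousOn.norm, fun z hz => ?_⟩
  filter_upwards [eventually_small hz] with r hr
  have h1 : DiffContOnCl ℂ h (ball z |r|) := by
    rw [abs_of_pos hr.1]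
    apply DifferentiableOn.diffContOnCl
    rw [closure_ball z hr.1.ne']
    exact hh.mono hr.2
  rw [← h1.circleAverage]
  unfold circleAverage
  rw [norm_smul, Real.norm_of_nonneg (by positivity), smul_eq_mul]
  apply mul_le_mul_of_nonneg_left _ (by positivity)
  exact intervalIntegral.norm_integral_le_integral_norm (by positivity)

/-- scaling: for `0 < s < 1` (also `s = 1` on the closed disc) `z ↦ u (s z)` is subharmonic up to
the circle -/
theorem SubO.scale {u : ℂ → ℝ} (hu : SubO u) {s : ℝ} (hs0 : 0 < s) (hs : s < 1) :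
    SubH fun z => u (s * z) := by
  have hm : ∀ z ∈ closedBall (0 : ℂ) 1, (s : ℂ) * z ∈ ball (0 : ℂ) 1 := by
    intro z hz
    rw [mem_ball_zero_iff, norm_mul, Complex.norm_real, Real.norm_of_nonneg hs0.le]
    have : ‖z‖ ≤ 1 := by simpa using hz
    nlinarith
  refine ⟨hu.1.comp (by fun_prop) hm, fun z hz => ?_⟩
  have h1 := hu.2 _ (hm z (ball_subset_closedBall hz))
  have h2 : Tendsto (fun r : ℝ => s * r) (𝓝[>] 0) (𝓝[>] 0) := by
    have h3 : Tendsto (fun r : ℝ => s * r) (𝓝[>] 0) (𝓝 0) := by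
      have : Continuous fun r : ℝ => s * r := by fun_prop
      have h4 := this.tendsto 0
      rw [mul_zero] at h4
      exact h4.mono_left nhdsWithin_le_nhds
    refine tendsto_nhdsWithin_iff.2 ⟨h3, ?_⟩
    filter_upwards [self_mem_nhdsWithin] with r hr
    exact mul_pos hs0 hr
  filter_upwards [h2.eventually h1] with r hr
  have h5 := circleAverage_comp_affine u 0 s z r
  simp only [zero_add, Complex.norm_real, Real.norm_of_nonneg hs0.le] at h5
  rw [h5]
  exact hr

lemma circleAverage_scale (u : ℂ → ℝ) {s : ℝ} (hs0 : 0 ≤ s) (r : ℝ) :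
    circleAverage (fun z => u (s * z)) 0 r = circleAverage u 0 (s * r) := by
  have h5 := circleAverage_comp_affine u 0 s 0 r
  simpa [abs_of_nonneg hs0] using h5

/-- circle averages about `0` are non-decreasing in the radius `< 1` -/
theorem SubO.avg_mono {u : ℂ → ℝ} (hu : SubO u) {r s : ℝ} (hr : 0 ≤ r) (hrs : r ≤ s)
    (hs : s < 1) : circleAverage u 0 r ≤ circleAverage u 0 s := by
  rcases (hr.trans hrs).eq_or_lt with h | h
  · have : r = 0 := le_antisymm (by rw [h]; exact hrs) hr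
    rw [this, h]
  · have h1 := (hu.scale h hs).avg_mono (r := r / s) (by positivity) ((div_le_one h).2 hrs)
    rw [circleAverage_scale u h.le, circleAverage_scale u h.le, mul_div_cancel₀ _ h.ne',
      mul_one] at h1
    exact h1

theorem SubO.le_avg {u : ℂ → ℝ} (hu : SubO u) {s : ℝ} (hs0 : 0 ≤ s) (hs : s < 1) :
    u 0 ≤ circleAverage u 0 s := by
  have := hu.avg_mono le_rfl hs0 hs
  rwa [circleAverage_zero] at this

/-- Poisson majorant on the circle of radius `s < 1` -/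
theorem SubO.le_pv {u : ℂ → ℝ} (hu : SubO u) {s : ℝ} (hs0 : 0 < s) (hs : s < 1) {w : ℂ}
    (hw : w ∈ ball (0 : ℂ) s) : u w ≤ pv (fun ζ => u (s * ζ)) (w / s) := by
  have h1 : w / s ∈ ball (0 : ℂ) 1 := by
    rw [mem_ball_zero_iff] at hw ⊢
    rw [norm_div, Complex.norm_real, Real.norm_of_nonneg hs0.le, div_lt_one hs0]
    exact hw
  have h2 := (hu.scale hs0 hs).le_pv h1
  have h3 : (s : ℂ) * (w / s) = w := by
    rw [mul_div_cancel₀]
    exact_mod_cast hs0.ne'
  simpa only [h3] using h2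

/-! ### Functions with Laplacian bounded below -/

lemma lapl_add {u v : ℂ → ℝ} {z : ℂ} (hu : ContDiffAt ℝ 2 u z) (hv : ContDiffAt ℝ 2 v z) :
    lapl (fun x => u x + v x) z = lapl u z + lapl v z := by
  have h1 : fderiv ℝ (fun x => u x + v x) =ᶠ[𝓝 z] fun x => fderiv ℝ u x + fderiv ℝ v x := by
    filter_upwards [hu.eventually (by simp), hv.eventually (by simp)] with x h2 h3
    exact fderiv_fun_add (h2.differentiableAt (by norm_num)) (h3.differentiableAt (by norm_num))
  have h2 : DifferentiableAt ℝ (fderiv ℝ u) z :=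
    (hu.fderiv_right (m := 1) (by norm_num)).differentiableAt (by norm_num)
  have h3 : DifferentiableAt ℝ (fderiv ℝ v) z :=
    (hv.fderiv_right (m := 1) (by norm_num)).differentiableAt (by norm_num)
  unfold lapl
  rw [h1.fderiv_eq, fderiv_fun_add h2 h3]
  simp only [add_apply]
  ring

lemma lapl_const_mul (u : ℂ → ℝ) (a : ℝ) (z : ℂ) :
    lapl (fun x => a * u x) z = a * lapl u z := by
  unfold lapl
  have h1 : fderiv ℝ (fun x => a * u x) = a • fderiv ℝ u :=
    fderiv_const_smul_field (𝕜 := ℝ) (f := u) a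
  have h2 : fderiv ℝ (a • fderiv ℝ u) = a • fderiv ℝ (fderiv ℝ u) :=
    fderiv_const_smul_field (𝕜 := ℝ) (f := fderiv ℝ u) a
  rw [h1, h2, Pi.smul_apply]
  simp only [smul_apply, smul_eq_mul]
  ring

lemma contDiff_normSq' : ContDiff ℝ 2 fun z : ℂ => ‖z‖ ^ 2 := by
  have h : (fun z : ℂ => ‖z‖ ^ 2) = fun z : ℂ => z.re * z.re + z.im * z.im := by
    funext z
    rw [← normSq_eq_norm_sq, normSq_apply]
  rw [h]
  have h1 : ContDiff ℝ 2 fun z : ℂ => z.re := reCLM.contDiff
  have h2 : ContDiff ℝ 2 fun z : ℂ => z.im := imCLM.contDiff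
  exact (h1.mul h1).add (h2.mul h2)

lemma lapl_normSq (z : ℂ) : lapl (fun z : ℂ => ‖z‖ ^ 2) z = 4 := by
  have h : (fun z : ℂ => ‖z‖ ^ 2) = fun z : ℂ => reCLM z * reCLM z + imCLM z * imCLM z := by
    funext z
    rw [← normSq_eq_norm_sq, normSq_apply]
    rfl
  have h1 : fderiv ℝ (fun z : ℂ => reCLM z * reCLM z + imCLM z * imCLM z) =
      fun z => (2 * z.re) • reCLM + (2 * z.im) • imCLM := by
    funext x
    have h2 : HasFDerivAt (fun z : ℂ => reCLM z * reCLM z)
        (reCLM x • reCLM + reCLM x • reCLM) x := reCLM.hasFDerivAt.mul reCLM.hasFDerivAt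
    have h3 : HasFDerivAt (fun z : ℂ => imCLM z * imCLM z)
        (imCLM x • imCLM + imCLM x • imCLM) x := imCLM.hasFDerivAt.mul imCLM.hasFDerivAt
    rw [(h2.fun_add h3).fderiv]
    ext v
    simp
    ring
  have h4 : HasFDerivAt (fun z : ℂ => (2 * z.re) • reCLM + (2 * z.im) • imCLM)
      (((2 : ℝ) • reCLM).smulRight reCLM + ((2 : ℝ) • imCLM).smulRight imCLM) z := by
    apply HasFDerivAt.add
    · have h5 : HasFDerivAt (fun z : ℂ => ((2 : ℝ) • reCLM) z • (reCLM : ℂ →L[ℝ] ℝ))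
          (((2 : ℝ) • reCLM).smulRight reCLM) z :=
        (((2 : ℝ) • reCLM).smulRight reCLM : ℂ →L[ℝ] (ℂ →L[ℝ] ℝ)).hasFDerivAt
      exact h5
    · have h5 : HasFDerivAt (fun z : ℂ => ((2 : ℝ) • imCLM) z • (imCLM : ℂ →L[ℝ] ℝ))
          (((2 : ℝ) • imCLM).smulRight imCLM) z :=
        (((2 : ℝ) • imCLM).smulRight imCLM : ℂ →L[ℝ] (ℂ →L[ℝ] ℝ)).hasFDerivAt
      exact h5
  unfold lapl
  rw [h, h1, h4.fderiv]
  simp
  norm_num

/-- `Δu ≥ -4Λ` inside the disc, continuous up to the circle: `u w ≤ P_w[u] + Λ (1 - |w|²)` -/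
theorem le_pv_lapl {u : ℂ → ℝ} (hc : ContinuousOn u (closedBall 0 1))
    (hu : ∀ z ∈ ball (0 : ℂ) 1, ContDiffAt ℝ 2 u z) {Λ : ℝ}
    (hL : ∀ z ∈ ball (0 : ℂ) 1, -(4 * Λ) ≤ lapl u z) {w : ℂ} (hw : w ∈ ball (0 : ℂ) 1) :
    u w ≤ pv u w + Λ * (1 - ‖w‖ ^ 2) := by
  have hq : Continuous fun z : ℂ => Λ * ‖z‖ ^ 2 := by fun_prop
  have h1 : SubH fun z => u z + Λ * ‖z‖ ^ 2 := by
    refine subH_of_lapl (hc.add hq.continuousOn) (fun z hz => ?_) (fun z hz => ?_)
    · exact (hu z hz).add (contDiffAt_const.mul contDiff_normSq'.contDiffAt)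
    · rw [lapl_add (hu z hz) (contDiffAt_const.mul contDiff_normSq'.contDiffAt), lapl_const_mul,
        lapl_normSq]
      linarith [hL z hz]
  have h2 := h1.le_pv hw
  have h3 : pv (fun z => u z + Λ * ‖z‖ ^ 2) w = pv u w + Λ := by
    have h4 : EqOn (fun z => u z + Λ * ‖z‖ ^ 2) (fun z => u z + (fun _ => Λ) z) (sphere 0 1) := by
      intro z hz
      rw [mem_sphere_zero_iff_norm] at hz
      simp [hz]
    rw [pv_congr h4, pv_add (hc.mono sphere_subset_closedBall) continuousOn_const hw,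
      pv_const Λ hw]
  rw [h3] at h2
  linarith

theorem pv_le_lapl {u : ℂ → ℝ} (hc : ContinuousOn u (closedBall 0 1))
    (hu : ∀ z ∈ ball (0 : ℂ) 1, ContDiffAt ℝ 2 u z) {Λ : ℝ}
    (hL : ∀ z ∈ ball (0 : ℂ) 1, lapl u z ≤ 4 * Λ) {w : ℂ} (hw : w ∈ ball (0 : ℂ) 1) :
    pv u w ≤ u w + Λ * (1 - ‖w‖ ^ 2) := by
  have h := le_pv_lapl (u := fun x => -u x) hc.neg (fun z hz => (hu z hz).neg) (Λ := Λ)
    (fun z hz => by rw [lapl_neg]; linarith [hL z hz]) hw
  rw [pv_neg] at h
  linarith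

/-- averages over smaller circles: `avg_r ≤ avg_1 + Λ (1 - r²)` if `Δu ≥ -4Λ` -/
theorem avg_mono_lapl {u : ℂ → ℝ} (hc : ContinuousOn u (closedBall 0 1))
    (hu : ∀ z ∈ ball (0 : ℂ) 1, ContDiffAt ℝ 2 u z) {Λ : ℝ}
    (hL : ∀ z ∈ ball (0 : ℂ) 1, -(4 * Λ) ≤ lapl u z) {r : ℝ} (hr : 0 ≤ r) (hr1 : r ≤ 1) :
    circleAverage u 0 r ≤ circleAverage u 0 1 + Λ * (1 - r ^ 2) := by
  have hq : Continuous fun z : ℂ => Λ * ‖z‖ ^ 2 := by fun_prop
  have h1 : SubH fun z => u z + Λ * ‖z‖ ^ 2 := by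
    refine subH_of_lapl (hc.add hq.continuousOn) (fun z hz => ?_) (fun z hz => ?_)
    · exact (hu z hz).add (contDiffAt_const.mul contDiff_normSq'.contDiffAt)
    · rw [lapl_add (hu z hz) (contDiffAt_const.mul contDiff_normSq'.contDiffAt), lapl_const_mul,
        lapl_normSq]
      linarith [hL z hz]
  have h2 := h1.avg_mono hr hr1
  have h3 : ∀ s : ℝ, 0 ≤ s → s ≤ 1 →
      circleAverage (fun z => u z + Λ * ‖z‖ ^ 2) 0 s = circleAverage u 0 s + Λ * s ^ 2 := by
    intro s hs hs1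
    have h4 : CircleIntegrable u 0 s := ContinuousOn.circleIntegrable hs
      (hc.mono (sphere_subset_closedBall.trans (closedBall_subset_closedBall hs1)))
    have h5 : circleAverage (fun z => u z + Λ * ‖z‖ ^ 2) 0 s =
        circleAverage u 0 s + circleAverage (fun z => Λ * ‖z‖ ^ 2) 0 s :=
      circleAverage_add h4 hq.continuousOn.circleIntegrable'
    have h6 : circleAverage (fun z : ℂ => Λ * ‖z‖ ^ 2) 0 s = Λ * s ^ 2 := by
      have := circleAverage_fun_smul (𝕜 := ℝ) (a := Λ) (f := fun z : ℂ => ‖z‖ ^ 2) (c := 0) (R := s)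
      simp only [smul_eq_mul] at this
      rw [this, circleAverage_normSq]
      simp
    rw [h5, h6]
  rw [h3 r hr hr1, h3 1 zero_le_one le_rfl] at h2
  linarith

/-! ### Jensen -/

/-- `exp (avg f) ≤ avg (exp f)` -/
theorem exp_circleAverage_le {f : ℂ → ℝ} {c : ℂ} {R : ℝ} (hf : ContinuousOn f (sphere c |R|)) :
    Real.exp (circleAverage f c R) ≤ circleAverage (fun z => Real.exp (f z)) c R := by
  set m := circleAverage f c R with hm
  have h1 : ∀ z, Real.exp m * (1 + (f z - m)) ≤ Real.exp (f z) := by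
    intro z
    have h2 := Real.add_one_le_exp (f z - m)
    calc Real.exp m * (1 + (f z - m)) ≤ Real.exp m * Real.exp (f z - m) := by
          apply mul_le_mul_of_nonneg_left _ (Real.exp_pos m).le; linarith
      _ = Real.exp (f z) := by rw [← Real.exp_add]; congr 1; ring
  have hci : CircleIntegrable f c R := hf.circleIntegrable'
  have hce : CircleIntegrable (fun z => Real.exp (f z)) c R :=
    (Real.continuous_exp.comp_continuousOn hf).circleIntegrable'
  have hg : (fun z => Real.exp m * (1 + (f z - m))) =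
      fun z => Real.exp m • (f z + (1 - m)) := by
    funext z; simp only [smul_eq_mul]; ring
  have hgi : CircleIntegrable (fun z => f z + (1 - m)) c R :=
    hci.add (circleIntegrable_const (1 - m) c R)
  have h3 : circleAverage (fun z => Real.exp m * (1 + (f z - m))) c R = Real.exp m := by
    rw [hg, circleAverage_fun_smul]
    have h4 : circleAverage (fun z => f z + (1 - m)) c R = m + (1 - m) := by
      have h5 := circleAverage_add hci (circleIntegrable_const (1 - m) c R)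
      rw [circleAverage_const] at h5
      exact h5
    rw [h4, smul_eq_mul]
    ring
  rw [← h3]
  apply circleAverage_mono _ hce (fun z _ => h1 z)
  rw [hg]
  exact hgi.const_smul

/-- `exp (P_w[f]) ≤ P_w[exp f]` -/
theorem exp_pv_le {f : ℂ → ℝ} (hf : ContinuousOn f (sphere 0 1)) {w : ℂ}
    (hw : w ∈ ball (0 : ℂ) 1) : Real.exp (pv f w) ≤ pv (fun z => Real.exp (f z)) w := by
  set m := pv f w with hm
  have h1 : ∀ z, Real.exp m * (f z + (1 - m)) ≤ Real.exp (f z) := by
    intro z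
    have h2 := Real.add_one_le_exp (f z - m)
    calc Real.exp m * (f z + (1 - m)) ≤ Real.exp m * Real.exp (f z - m) := by
          apply mul_le_mul_of_nonneg_left _ (Real.exp_pos m).le; linarith
      _ = Real.exp (f z) := by rw [← Real.exp_add]; congr 1; ring
  have h2 := pv_mono (f := fun z => Real.exp m * (f z + (1 - m)))
    (g := fun z => Real.exp (f z)) (continuousOn_const.mul (hf.add continuousOn_const))
    (Real.continuous_exp.comp_continuousOn hf) (fun z _ => h1 z) hw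
  rw [pv_smul, pv_add hf continuousOn_const hw, pv_const _ hw] at h2
  have h3 : Real.exp m * (pv f w + (1 - m)) = Real.exp m := by
    rw [← hm]; ring
  linarith

/-! ### `log` of the norm of a zero free holomorphic map -/

theorem subO_log_norm {E : Type*} [NormedAddCommGroup E] [NormedSpace ℂ E] [CompleteSpace E]
    {h : ℂ → E} (hh : DifferentiableOn ℂ h (ball 0 1)) (h0 : ∀ z ∈ ball (0 : ℂ) 1, h z ≠ 0) :
    SubO fun z => Real.log ‖h z‖ := by
  have hc : ContinuousOn (fun z => Real.log ‖h z‖) (ball 0 1) :=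
    hh.continuousOn.norm.log fun z hz => norm_ne_zero_iff.2 (h0 z hz)
  refine ⟨hc, fun z hz => ?_⟩
  obtain ⟨g, hg1, hg2⟩ := exists_dual_vector ℂ (h z) (norm_ne_zero_iff.2 (h0 z hz))
  -- `g ∘ h` has no zero near `z`
  have hga : DifferentiableOn ℂ (fun x => g (h x)) (ball 0 1) :=
    g.differentiable.comp_differentiableOn hh
  have hgz : g (h z) ≠ 0 := by
    rw [hg2]
    simpa using h0 z hz
  have hnear : ∀ᶠ x in 𝓝 z, g (h x) ≠ 0 :=
    ((hga.continuousOn.continuousAt (isOpen_ball.mem_nhds hz)).eventually_ne hgz)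
  obtain ⟨δ, hδ, hd⟩ := Metric.eventually_nhds_iff_ball.1 hnear
  have h2 : Ioo (0 : ℝ) δ ∈ 𝓝[>] (0 : ℝ) := Ioo_mem_nhdsGT hδ
  filter_upwards [eventually_small hz, h2] with r hr hrδ
  have hsub : closedBall z r ⊆ ball z δ := closedBall_subset_ball hrδ.2
  have hharm : HarmonicOnNhd (fun x => Real.log ‖g (h x)‖) (closedBall z |r|) := by
    intro x hx
    rw [abs_of_pos hr.1] at hx
    apply AnalyticAt.harmonicAt_log_norm
    · exact (hga.analyticOnNhd isOpen_ball) x (hr.2 hx)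
    · exact hd x (hsub hx)
  have h3 : circleAverage (fun x => Real.log ‖g (h x)‖) z r = Real.log ‖g (h z)‖ :=
    hharm.circleAverage_eq
  have h4 : Real.log ‖g (h z)‖ = Real.log ‖h z‖ := by
    rw [hg2]; simp
  rw [← h4, ← h3]
  apply circleAverage_mono
  · apply ContinuousOn.circleIntegrable hr.1.le
    apply (hga.continuousOn.mono (sphere_subset_closedBall.trans hr.2)).norm.log
    intro x hx
    exact norm_ne_zero_iff.2 (hd x (hsub (sphere_subset_closedBall hx)))
  · exact SubO.ci hc hr.1 hr.2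
  · intro x hx
    rw [abs_of_pos hr.1] at hx
    have hx' := sphere_subset_closedBall hx
    apply Real.log_le_log (norm_pos_iff.2 (hd x (hsub hx')))
    calc ‖g (h x)‖ ≤ ‖g‖ * ‖h x‖ := g.le_opNorm _
      _ = ‖h x‖ := by rw [hg1, one_mul]

end Crest.Agent.R269.Avg392
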