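import Crest.Agent.R269.CAtl_886

/-!
# R269 (S0411), leaf DICT-FLD, file A (helper886): smooth functions on `X^` and on the cone

`Y` = any real normed space.
* `dn u : XX I → Y`      : the function on `X^` given by an ambient function;
* `dn_sm`                : ambient smooth at the cone points, `ℂ*`-invariant on the cone ⇒ `A.Sm (dn u)`;
* `exists_up`            : `A.Sm f` ⇒ there is an ambient `u`, smooth at every cone point,
                           `u (c • p) = u p` for ALL `p`, `u p = f (pt p)` on the cone.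
-/

set_option autoImplicit false
set_option linter.unusedSectionVars false

open MvPolynomial Crest.AlgGeometry.ProjEmb Set Filter Topology
open scoped ContDiff ComplexConjugate Manifold

namespace Crest.Agent.R269.DictA_886

open Crest.Agent.R269.Geo_328 Crest.Agent.R275.Geo Crest.Agent.R269.CAtl_886

noncomputable section

variable {N n : ℕ} {I : Ideal (HomCoordRing N)}

section Down

variable {Y : Type*} [NormedAddCommGroup Y] [NormedSpace ℝ Y]

/-- the function on `X^` given by an ambient function -/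
def dn (u : EE N → Y) : XX I → Y := fun x => u (lift x)

theorem dn_pt {u : EE N → Y} (hu : ∀ c : ℂ, c ≠ 0 → ∀ p ∈ Cone I, u (c • p) = u p)
    (q : EE N) (hq : q ∈ Cone I) : dn u (pt q hq) = u q := by
  obtain ⟨c, hc, h⟩ := exists_smul_of_PP_eq hq.2 (lift_cone (pt q hq)).2
    (PP_lift (pt q hq)).symm
  unfold dn
  rw [h, hu c hc q hq]

variable {A : Atl n (XX I)} (CA : CAtl I A)

theorem dn_σ {u : EE N → Y} (hu : ∀ c : ℂ, c ≠ 0 → ∀ p ∈ Cone I, u (c • p) = u p)
    {i : A.ι} {z : Cn n} (hz : z ∈ (A.e i).target) :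
    dn u ((A.e i).symm z) = u (CA.σ i z) := by
  rw [← CA.pt_σ hz, dn_pt hu]

theorem dn_F {u : EE N → Y} (hu : ∀ c : ℂ, c ≠ 0 → ∀ p ∈ Cone I, u (c • p) = u p)
    {i : A.ι} {x : XX I} (hx : x ∈ (A.e i).source) : dn u x = u (CA.F i x) := by
  conv_lhs => rw [← CA.pt_F hx]
  rw [dn_pt hu]

include CA in
theorem dn_sm {u : EE N → Y} (hs : ∀ p ∈ Cone I, ContDiffAt ℝ ∞ u p)
    (hu : ∀ c : ℂ, c ≠ 0 → ∀ p ∈ Cone I, u (c • p) = u p) : A.Sm (dn (I := I) u) := by
  intro i
  have h1 : ContDiffOn ℝ ∞ (fun z => u (CA.σ i z)) (A.e i).target := by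
    intro z hz
    exact ((hs _ (CA.σ_cone hz)).comp z (CA.σ_contDiffAt hz)).contDiffWithinAt
  exact h1.congr fun z hz => dn_σ CA hu hz

end Down

/-! ### extension to the ambient space -/

section Up

/-- the unit sphere of the ambient space -/
def Sph (N : ℕ) : Set (EE N) := {p | nsq p = 1}

theorem continuous_nsq : Continuous (nsq (N := N)) := by
  unfold nsq
  fun_prop

theorem isCompact_Sph : IsCompact (Sph N) := by
  refine Metric.isCompact_of_isClosed_isBounded
    (isClosed_eq continuous_nsq continuous_const) ?_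
  refine (Metric.isBounded_closedBall (x := (0 : EE N)) (r := 1)).subset fun p hp => ?_
  rw [mem_closedBall_zero_iff, pi_norm_le_iff_of_nonneg zero_le_one]
  intro k
  have h1 : ‖p k‖ ^ 2 ≤ nsq p :=
    Finset.single_le_sum (f := fun k => ‖p k‖ ^ 2) (fun _ _ => by positivity) (Finset.mem_univ k)
  have h2 : nsq p = 1 := hp
  rw [h2] at h1
  nlinarith [norm_nonneg (p k)]

theorem Sph_ne {p : EE N} (hp : p ∈ Sph N) : p ≠ 0 := by
  rintro rfl
  have h : nsq (0 : EE N) = 1 := hp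
  simp [nsq] at h

theorem continuousOn_PP : ContinuousOn (PP (N := N)) {p | p ≠ 0} := fun _ hp =>
  (contDiffAt_PP hp).continuousAt.continuousWithinAt

theorem exists_smul_Sph {p : EE N} (hp : p ≠ 0) : ∃ c : ℂ, c ≠ 0 ∧ c • p ∈ Sph N := by
  have h := nsq_pos hp
  have h1 : 0 < Real.sqrt (nsq p) := Real.sqrt_pos.2 h
  refine ⟨((Real.sqrt (nsq p))⁻¹ : ℝ), by exact_mod_cast (inv_pos.2 h1).ne', ?_⟩
  show nsq _ = 1
  rw [nsq_smul, Complex.norm_real, norm_inv, Real.norm_of_nonneg h1.le, inv_pow,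
    Real.sq_sqrt h.le, inv_mul_cancel₀ h.ne']

/-- a smooth cut-off on the space of matrices: `1` on the compact set `K ⊆ X^` over which the
sections stay in the open cone `W`, and `0` near `PP q`, `q ∉ W` -/
theorem exists_cut {W : Set (EE N)} (hW : IsOpen W)
    (hWs : ∀ c : ℂ, c ≠ 0 → ∀ q ∈ W, c • q ∈ W) {K : Set (VV N)} (hK : IsCompact K)
    (hKW : ∀ q : EE N, q ≠ 0 → PP q ∈ K → q ∈ W) :
    ∃ θ : VV N → ℝ, ContDiff ℝ ∞ θ ∧ (∀ y ∈ K, θ y = 1) ∧
      ∀ q : EE N, q ≠ 0 → q ∉ W → ∀ᶠ y in 𝓝 (PP q), θ y = 0 := by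
  set B : Set (VV N) := PP '' (Sph N ∩ Wᶜ) with hB
  have hBc : IsCompact B := by
    refine (isCompact_Sph.inter_right hW.isClosed_compl).image_of_continuousOn ?_
    exact continuousOn_PP.mono fun _ hp => Sph_ne hp.1
  have hBK : B ⊆ Kᶜ := by
    rintro _ ⟨q, ⟨hq1, hq2⟩, rfl⟩ hqK
    exact hq2 (hKW q (Sph_ne hq1) hqK)
  obtain ⟨U, hU, hBU, hUK⟩ := normal_exists_closure_subset hBc.isClosed hK.isClosed.isOpen_compl hBK
  have hd : Disjoint (closure U) K := Set.disjoint_left.2 fun y hy hyK => hUK hy hyK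
  obtain ⟨f, hf0, hf1, -⟩ := exists_contMDiffMap_zero_one_of_isClosed (n := ⊤) 𝓘(ℝ, VV N)
    isClosed_closure hK.isClosed hd
  refine ⟨f, f.contMDiff.contDiff, fun y hy => hf1 hy, fun q hq hqW => ?_⟩
  have hm : PP q ∈ B := by
    obtain ⟨c, hc, hcS⟩ := exists_smul_Sph hq
    refine ⟨c • q, ⟨hcS, fun h => hqW ?_⟩, PP_smul hc q⟩
    have := hWs c⁻¹ (inv_ne_zero hc) _ h
    rwa [smul_smul, inv_mul_cancel₀ hc, one_smul] at this
  filter_upwards [hU.mem_nhds (hBU hm)] with y hy
  exact hf0 (subset_closure hy)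

variable {Y : Type*} [NormedAddCommGroup Y] [NormedSpace ℝ Y]
variable {A : Atl n (XX I)} (CA : CAtl I A)

include CA in
/-- extension of a function supported in one chart -/
theorem exists_up_one {i : A.ι} {f : XX I → Y} (hf : A.SmAt i f) {K : Set (XX I)}
    (hK : IsCompact K) (hKs : K ⊆ (A.e i).source) (hfK : ∀ x ∉ K, f x = 0) :
    ∃ u : EE N → Y, (∀ p ∈ Cone I, ContDiffAt ℝ ∞ u p) ∧
      (∀ c : ℂ, c ≠ 0 → ∀ p, u (c • p) = u p) ∧ ∀ p (hp : p ∈ Cone I), u p = f (pt p hp) := by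
  classical
  have hK' : IsCompact (Subtype.val '' K : Set (VV N)) := hK.image continuous_subtype_val
  have hKW : ∀ q : EE N, q ≠ 0 → PP q ∈ (Subtype.val '' K : Set (VV N)) → q ∈ CA.W i := by
    rintro q hq ⟨x, hxK, hx⟩
    have hxs := hKs hxK
    obtain ⟨c, hc, h⟩ := exists_smul_of_PP_eq (CA.F_cone i x hxs).2 hq ((CA.F_pp i x hxs).trans hx)
    rw [h]
    exact CA.W_smul i c hc _ (CA.F_mem_W hxs)
  obtain ⟨θ, hθs, hθ1, hθ0⟩ := exists_cut (CA.W_open i) (CA.W_smul i) hK' hKW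
  refine ⟨fun q => if q ∈ CA.W i then θ (PP q) • f ((A.e i).symm (CA.ζ i q)) else 0,
    fun p hp => ?_, fun c hc p => ?_, fun p hp => ?_⟩
  · by_cases hpW : p ∈ CA.W i
    · have h1 : ContDiffAt ℝ ∞ (fun q => θ (PP q) • f ((A.e i).symm (CA.ζ i q))) p := by
        have h2 : ContDiffAt ℝ ∞ (fun q => θ (PP q)) p :=
          hθs.contDiffAt.comp p (contDiffAt_PP hp.2)
        have h3 : ContDiffAt ℝ ∞ (fun z => f ((A.e i).symm z)) (CA.ζ i p) :=
          (hf _ (CA.ζ_mem i p hpW)).contDiffAt ((A.e i).open_target.mem_nhds (CA.ζ_mem i p hpW))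
        have h4 : ContDiffAt ℝ ∞ (CA.ζ i) p := by
          have h5 := Crest.Agent.R266.SCV.contDiffOn_omega_of_differentiableOn
            (CA.W_open i) (CA.ζ_hol i)
          exact ((h5.restrict_scalars ℝ).of_le le_top).contDiffAt ((CA.W_open i).mem_nhds hpW)
        exact h2.smul (h3.comp p h4)
      refine h1.congr_of_eventuallyEq ?_
      filter_upwards [(CA.W_open i).mem_nhds hpW] with q hq
      exact if_pos hq
    · have h1 : ∀ᶠ q in 𝓝 p, θ (PP q) = 0 :=
        (contDiffAt_PP hp.2).continuousAt.eventually (hθ0 p hp.2 hpW)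
      refine (contDiffAt_const (c := (0 : Y))).congr_of_eventuallyEq ?_
      filter_upwards [h1] with q hq
      split_ifs
      · rw [hq, zero_smul]
      · rfl
  · have h1 : c • p ∈ CA.W i ↔ p ∈ CA.W i := by
      refine ⟨fun h => ?_, fun h => CA.W_smul i c hc p h⟩
      have := CA.W_smul i c⁻¹ (inv_ne_zero hc) _ h
      rwa [smul_smul, inv_mul_cancel₀ hc, one_smul] at this
    simp only [h1]
    split_ifs with h
    · rw [PP_smul hc, CA.ζ_smul i c hc p h]
    · rfl
  · by_cases hpW : p ∈ CA.W i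
    · beta_reduce
      rw [if_pos hpW, CA.symm_ζ hp hpW]
      by_cases hx : pt p hp ∈ K
      · rw [hθ1 (PP p) ⟨pt p hp, hx, rfl⟩, one_smul]
      · rw [hfK _ hx, smul_zero]
    · beta_reduce
      rw [if_neg hpW]
      have hx : pt p hp ∉ K := fun h => hpW ((CA.mem_W i p hp).2 (hKs h))
      rw [hfK _ hx]

include CA in
/-- every smooth function on `X^` is the restriction of a `ℂ*`-invariant ambient function, smooth
at all cone points -/
theorem exists_up [Finite A.ι] (P : Part A) {f : XX I → Y} (hf : A.Sm f) :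
    ∃ u : EE N → Y, (∀ p ∈ Cone I, ContDiffAt ℝ ∞ u p) ∧
      (∀ c : ℂ, c ≠ 0 → ∀ p, u (c • p) = u p) ∧ ∀ p (hp : p ∈ Cone I), u p = f (pt p hp) := by
  classical
  have := Fintype.ofFinite A.ι
  have hone : ∀ x, ∑ i, P.ψ i x = 1 := by
    intro x
    rw [← finsum_eq_sum_of_fintype]
    exact P.sum_one x
  have hK : ∀ i, tsupport (P.ψ i) ⊆ tsupport (P.χ i) := by
    intro i x hx
    refine subset_tsupport _ ?_
    rw [Function.mem_support, (P.χ_one i x hx).self_of_nhds]
    exact one_ne_zero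
  have hex : ∀ i, ∃ u : EE N → Y, (∀ p ∈ Cone I, ContDiffAt ℝ ∞ u p) ∧
      (∀ c : ℂ, c ≠ 0 → ∀ p, u (c • p) = u p) ∧
      ∀ p (hp : p ∈ Cone I), u p = P.ψ i (pt p hp) • f (pt p hp) := by
    intro i
    refine exists_up_one CA (i := i) (f := fun x => P.ψ i x • f x) (K := tsupport (P.ψ i)) ?_ ?_ ?_ ?_
    · exact (P.ψ_sm i i).smul (hf i)
    · exact (P.χ_cpt i).of_isClosed_subset (isClosed_tsupport _) (hK i)
    · exact (hK i).trans (P.χ_sub i)
    · intro x hx
      have : P.ψ i x = 0 := by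
        by_contra h
        exact hx (subset_tsupport _ h)
      rw [this, zero_smul]
  choose u hu1 hu2 hu3 using hex
  refine ⟨fun p => ∑ i, u i p, fun p hp => ContDiffAt.sum fun i _ => hu1 i p hp, fun c hc p => ?_,
    fun p hp => ?_⟩
  · exact Finset.sum_congr rfl fun i _ => hu2 i c hc p
  · show ∑ i, u i p = _
    rw [Finset.sum_congr rfl fun i _ => hu3 i p hp, ← Finset.sum_smul, hone, one_smul]

end Up

end

end Crest.Agent.R269.DictA_886
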