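import Mathlib

/-!
Determinant inequalities for positive (semi)definite Hermitian matrices: `n (det A det B)^{1/n} ≤
tr (A B)`, its dual description, Minkowski's inequality.  (Row 269, Steps 7, 9.)
-/

set_option autoImplicit false
noncomputable section

open Matrix
open scoped ComplexOrder MatrixOrder

namespace Crest.Agent.R269.DetIneq271

variable {ι : Type*} [Fintype ι] [DecidableEq ι]

/-- `(det A)^{1/n}` (real, for positive semidefinite `A`). -/
def dn (A : Matrix ι ι ℂ) : ℝ := (A.det.re) ^ ((Fintype.card ι : ℝ)⁻¹)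

theorem det_re_nonneg {A : Matrix ι ι ℂ} (hA : A.PosSemidef) : 0 ≤ A.det.re :=
  (Complex.nonneg_iff.mp hA.det_nonneg).1

theorem det_eq_re {A : Matrix ι ι ℂ} (hA : A.PosSemidef) : A.det = (A.det.re : ℂ) := by
  refine Complex.ext rfl ?_
  simpa using (Complex.nonneg_iff.mp hA.det_nonneg).2.symm

theorem det_re_pos {A : Matrix ι ι ℂ} (hA : A.PosDef) : 0 < A.det.re :=
  (Complex.pos_iff.mp hA.det_pos).1

theorem dn_nonneg {A : Matrix ι ι ℂ} (hA : A.PosSemidef) : 0 ≤ dn A :=
  Real.rpow_nonneg (det_re_nonneg hA) _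

theorem dn_pos {A : Matrix ι ι ℂ} (hA : A.PosDef) : 0 < dn A :=
  Real.rpow_pos_of_pos (det_re_pos hA) _

theorem det_mul_re {A B : Matrix ι ι ℂ} (hA : A.PosSemidef) (hB : B.PosSemidef) :
    (A * B).det.re = A.det.re * B.det.re := by
  rw [Matrix.det_mul, det_eq_re hA, det_eq_re hB]
  simp

/-- AM-GM for the eigenvalues: `n (det A)^{1/n} ≤ tr A`. -/
theorem card_mul_dn_le_trace [Nonempty ι] {A : Matrix ι ι ℂ} (hA : A.PosSemidef) :
    (Fintype.card ι : ℝ) * dn A ≤ A.trace.re := by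
  have hn : (0 : ℝ) < Fintype.card ι := by exact_mod_cast Fintype.card_pos
  have htr : A.trace.re = ∑ i, hA.1.eigenvalues i := by
    rw [hA.1.trace_eq_sum_eigenvalues]
    simp
  have hdet : A.det.re = ∏ i, hA.1.eigenvalues i := by
    rw [hA.1.det_eq_prod_eigenvalues, ← RCLike.ofReal_prod]
    exact Complex.ofReal_re _
  have h2 := Real.geom_mean_le_arith_mean_weighted (Finset.univ : Finset ι)
    (fun _ => (Fintype.card ι : ℝ)⁻¹) (hA.1.eigenvalues) (fun _ _ => by positivity)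
    (by simp [hn.ne']) (fun i _ => hA.eigenvalues_nonneg i)
  rw [dn, hdet, htr]
  rw [← Real.finsetProd_rpow _ _ (fun i _ => hA.eigenvalues_nonneg i)]
  rw [← Finset.mul_sum] at h2
  calc (Fintype.card ι : ℝ) * ∏ i, hA.1.eigenvalues i ^ (Fintype.card ι : ℝ)⁻¹
      ≤ (Fintype.card ι : ℝ) * ((Fintype.card ι : ℝ)⁻¹ * ∑ i, hA.1.eigenvalues i) :=
        mul_le_mul_of_nonneg_left h2 hn.le
    _ = ∑ i, hA.1.eigenvalues i := by field_simp

theorem dn_mul {A B : Matrix ι ι ℂ} (hA : A.PosSemidef) (hB : B.PosSemidef) :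
    dn (A * B) = dn A * dn B := by
  rw [dn, det_mul_re hA hB, Real.mul_rpow (det_re_nonneg hA) (det_re_nonneg hB)]
  rfl

/-- `n (det A)^{1/n} (det B)^{1/n} ≤ tr (A B)`. -/
theorem card_mul_dn_mul_dn_le_trace [Nonempty ι] {A B : Matrix ι ι ℂ} (hA : A.PosSemidef)
    (hB : B.PosSemidef) : (Fintype.card ι : ℝ) * (dn A * dn B) ≤ (A * B).trace.re := by
  obtain ⟨S, hS⟩ : ∃ S : Matrix ι ι ℂ, A = Sᴴ * S := by
    refine ⟨CFC.sqrt A, ?_⟩
    have h1 : (CFC.sqrt A)ᴴ = CFC.sqrt A := (CFC.sqrt_nonneg A).posSemidef.isHermitian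
    rw [h1]
    exact (CFC.sqrt_mul_sqrt_self A hA.nonneg).symm
  have hC : (S * B * Sᴴ).PosSemidef := hB.mul_mul_conjTranspose_same S
  have h1 := card_mul_dn_le_trace hC
  have h2 : (S * B * Sᴴ).trace = (A * B).trace := by
    rw [hS, Matrix.trace_mul_cycle, Matrix.mul_assoc]
  have h3 : (S * B * Sᴴ).det = (A * B).det := by
    rw [hS]
    simp only [Matrix.det_mul]
    ring
  rw [h2] at h1
  have h4 : dn (S * B * Sᴴ) = dn (A * B) := by
    rw [dn, dn, h3]
  rw [h4, dn_mul hA hB] at h1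
  exact h1

theorem dn_smul {A : Matrix ι ι ℂ} [Nonempty ι] (hA : A.PosSemidef) {c : ℝ} (hc : 0 ≤ c) :
    dn ((c : ℂ) • A) = c * dn A := by
  have hn : (Fintype.card ι : ℝ) ≠ 0 := by exact_mod_cast Fintype.card_ne_zero
  have h1 : ((c : ℂ) • A).det.re = c ^ Fintype.card ι * A.det.re := by
    rw [Matrix.det_smul, ← Complex.ofReal_pow, Complex.re_ofReal_mul]
  rw [dn, h1, Real.mul_rpow (by positivity) (det_re_nonneg hA), ← Real.rpow_natCast,
    ← Real.rpow_mul hc, mul_inv_cancel₀ hn, Real.rpow_one]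
  rfl

theorem dn_smul' {A : Matrix ι ι ℂ} [Nonempty ι] (hA : A.PosSemidef) {c : ℝ} (hc : 0 ≤ c) :
    dn (c • A) = c * dn A := by
  rw [← dn_smul hA hc]
  congr 1

@[simp] theorem dn_one : dn (1 : Matrix ι ι ℂ) = 1 := by simp [dn]

theorem dn_inv {A : Matrix ι ι ℂ} (hA : A.PosDef) : dn A⁻¹ = (dn A)⁻¹ := by
  have h1 : dn (A * A⁻¹) = dn A * dn A⁻¹ := dn_mul hA.posSemidef hA.inv.posSemidef
  have hu : IsUnit A.det := (Matrix.isUnit_iff_isUnit_det A).mp hA.isUnit
  rw [Matrix.mul_nonsing_inv A hu, dn_one] at h1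
  have h2 := dn_pos hA
  field_simp
  linarith

/-- Dual description: the infimum of `tr (A B)` over `B` positive definite with `det B = 1` is
attained: `tr (A B) = n (det A)^{1/n}`. -/
theorem exists_dual [Nonempty ι] {A : Matrix ι ι ℂ} (hA : A.PosDef) :
    ∃ B : Matrix ι ι ℂ, B.PosDef ∧ dn B = 1 ∧ (A * B).trace.re = Fintype.card ι * dn A := by
  have hu : IsUnit A.det := (Matrix.isUnit_iff_isUnit_det A).mp hA.isUnit
  have hpos := dn_pos hA
  refine ⟨(dn A : ℂ) • A⁻¹, ?_, ?_, ?_⟩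
  · exact hA.inv.smul (by exact_mod_cast hpos)
  · rw [dn_smul hA.inv.posSemidef hpos.le, dn_inv hA]
    field_simp
  · rw [Matrix.mul_smul, Matrix.mul_nonsing_inv A hu, Matrix.trace_smul, Matrix.trace_one]
    simp [mul_comm]

/-- Minkowski's determinant inequality, `A + B` positive definite. -/
theorem dn_add_aux [Nonempty ι] {A B : Matrix ι ι ℂ} (hA : A.PosSemidef) (hB : B.PosSemidef)
    (hAB : (A + B).PosDef) : dn A + dn B ≤ dn (A + B) := by
  have hn : (0 : ℝ) < Fintype.card ι := by exact_mod_cast Fintype.card_pos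
  obtain ⟨C, hC, hC1, hC2⟩ := exists_dual hAB
  have h1 := card_mul_dn_mul_dn_le_trace hA hC.posSemidef
  have h2 := card_mul_dn_mul_dn_le_trace hB hC.posSemidef
  rw [hC1, mul_one] at h1 h2
  rw [Matrix.add_mul, Matrix.trace_add, Complex.add_re] at hC2
  have h3 : (Fintype.card ι : ℝ) * (dn A + dn B) ≤ Fintype.card ι * dn (A + B) := by
    rw [← hC2, mul_add]
    exact add_le_add h1 h2
  exact le_of_mul_le_mul_left h3 hn

/-- **Minkowski's determinant inequality.** -/
theorem dn_add [Nonempty ι] {A B : Matrix ι ι ℂ} (hA : A.PosSemidef) (hB : B.PosSemidef) :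
    dn A + dn B ≤ dn (A + B) := by
  by_cases hAB : (A + B).PosDef
  · exact dn_add_aux hA hB hAB
  · -- then both determinants vanish
    have hS : (A + B).PosSemidef := hA.add hB
    have hn : (Fintype.card ι : ℝ)⁻¹ ≠ 0 := by
      have : (Fintype.card ι : ℝ) ≠ 0 := by exact_mod_cast Fintype.card_ne_zero
      exact inv_ne_zero this
    have hA0 : dn A = 0 := by
      have h1 : A.det = 0 := by
        by_contra h
        exact hAB ((hA.posDef_iff_det_ne_zero.mpr h).add_posSemidef hB)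
      rw [dn, h1, Complex.zero_re, Real.zero_rpow hn]
    have hB0 : dn B = 0 := by
      have h1 : B.det = 0 := by
        by_contra h
        exact hAB (by
          rw [add_comm]
          exact (hB.posDef_iff_det_ne_zero.mpr h).add_posSemidef hA)
      rw [dn, h1, Complex.zero_re, Real.zero_rpow hn]
    rw [hA0, hB0, add_zero]
    exact dn_nonneg hS

theorem dn_mono [Nonempty ι] {A B : Matrix ι ι ℂ} (hA : A.PosSemidef) (hAB : (B - A).PosSemidef) :
    dn A ≤ dn B := by
  have h1 := dn_add hA hAB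
  have h2 := dn_nonneg hAB
  rw [add_sub_cancel] at h1
  linarith

theorem continuous_dn [Nonempty ι] : Continuous (dn : Matrix ι ι ℂ → ℝ) := by
  have h1 : Continuous fun A : Matrix ι ι ℂ => A.det.re :=
    Complex.continuous_re.comp (Continuous.matrix_det continuous_id)
  exact (Real.continuous_rpow_const (by positivity)).comp h1

theorem trace_mul_posSemidef_nonneg {A B : Matrix ι ι ℂ} (hA : A.PosSemidef)
    (hB : B.PosSemidef) : 0 ≤ (A * B).trace.re := by
  cases isEmpty_or_nonempty ι with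
  | inl h => simp [Matrix.trace]
  | inr h =>
    have h1 := card_mul_dn_mul_dn_le_trace hA hB
    have h2 := dn_nonneg hA
    have h3 := dn_nonneg hB
    have h4 : 0 ≤ (Fintype.card ι : ℝ) * (dn A * dn B) := by positivity
    linarith

/-- A Hermitian matrix `H` with `0 ≤ tr (a H)` for all positive definite `a` is positive
semidefinite. -/
theorem posSemidef_of_forall_trace {H : Matrix ι ι ℂ} (hH : H.IsHermitian)
    (h : ∀ a : Matrix ι ι ℂ, a.PosDef → 0 ≤ (a * H).trace.re) : H.PosSemidef := by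
  refine Matrix.PosSemidef.of_dotProduct_mulVec_nonneg hH fun x => ?_
  have him : (star x ⬝ᵥ H *ᵥ x).im = 0 := hH.im_star_dotProduct_mulVec_self x
  have hre : 0 ≤ (star x ⬝ᵥ H *ᵥ x).re := by
    have htr : (Matrix.vecMulVec x (star x) * H).trace = star x ⬝ᵥ H *ᵥ x := by
      rw [Matrix.vecMulVec_eq Unit, Matrix.trace_mul_cycle, Matrix.mul_assoc]
      simp only [Matrix.trace, Matrix.mul_apply, dotProduct, Matrix.mulVec, Finset.mul_sum,
        Matrix.diag_apply, Matrix.replicateCol_apply, Matrix.replicateRow_apply, Finset.univ_unique,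
        Finset.sum_singleton, Pi.star_apply]
      refine Finset.sum_congr rfl fun i _ => Finset.sum_congr rfl fun j _ => ?_
      ring
    have h1 : ∀ δ : ℝ, 0 < δ →
        0 ≤ (star x ⬝ᵥ H *ᵥ x).re + δ * H.trace.re := by
      intro δ hδ
      have hpd : (Matrix.vecMulVec x (star x) + (δ : ℂ) • (1 : Matrix ι ι ℂ)).PosDef :=
        Matrix.PosDef.posSemidef_add (Matrix.posSemidef_vecMulVec_self_star x)
          (Matrix.PosDef.one.smul (by exact_mod_cast hδ))
      have h2 := h _ hpd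
      rw [Matrix.add_mul, Matrix.trace_add, htr, Matrix.smul_mul, Matrix.one_mul,
        Matrix.trace_smul, Complex.add_re, smul_eq_mul, Complex.re_ofReal_mul] at h2
      exact h2
    by_contra hneg
    push Not at hneg
    have h3 := h1 (-(star x ⬝ᵥ H *ᵥ x).re / (2 * (|H.trace.re| + 1)))
      (div_pos (by linarith) (by positivity))
    have h4 : -(star x ⬝ᵥ H *ᵥ x).re / (2 * (|H.trace.re| + 1)) * H.trace.re ≤
        -(star x ⬝ᵥ H *ᵥ x).re / 2 := by
      rw [div_mul_eq_mul_div, div_le_div_iff₀ (by positivity) two_pos]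
      have h5 : H.trace.re ≤ |H.trace.re| + 1 := by linarith [le_abs_self H.trace.re]
      nlinarith
    linarith
  exact Complex.nonneg_iff.mpr ⟨hre, him.symm⟩

/-- Dual characterisation of `c ≤ (det H)^{1/n}`. -/
theorem posSemidef_and_le_dn_of_forall [Nonempty ι] {H : Matrix ι ι ℂ} (hH : H.IsHermitian)
    {c : ℝ} (hc : 0 ≤ c)
    (h : ∀ a : Matrix ι ι ℂ, a.PosDef → (Fintype.card ι : ℝ) * (c * dn a) ≤ (a * H).trace.re) :
    H.PosSemidef ∧ c ≤ dn H := by
  have hn : (0 : ℝ) < Fintype.card ι := by exact_mod_cast Fintype.card_pos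
  have hpsd : H.PosSemidef := posSemidef_of_forall_trace hH fun a ha =>
    le_trans (by have := dn_pos ha; positivity) (h a ha)
  refine ⟨hpsd, ?_⟩
  have h1 : ∀ δ : ℝ, 0 < δ → c ≤ dn (H + (δ : ℂ) • (1 : Matrix ι ι ℂ)) := by
    intro δ hδ
    have hone : ((δ : ℂ) • (1 : Matrix ι ι ℂ)).PosDef :=
      Matrix.PosDef.one.smul (by exact_mod_cast hδ)
    have hpd : (H + (δ : ℂ) • (1 : Matrix ι ι ℂ)).PosDef :=
      Matrix.PosDef.posSemidef_add hpsd hone
    obtain ⟨B, hB, hB1, hB2⟩ := exists_dual hpd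
    have h2 := h B hB
    rw [hB1, mul_one] at h2
    have h3 : (B * H).trace.re ≤ ((H + (δ : ℂ) • (1 : Matrix ι ι ℂ)) * B).trace.re := by
      rw [Matrix.add_mul, Matrix.trace_add, Complex.add_re, Matrix.trace_mul_comm B H]
      have := trace_mul_posSemidef_nonneg hone.posSemidef hB.posSemidef
      linarith
    have h4 : (Fintype.card ι : ℝ) * c ≤
        Fintype.card ι * dn (H + (δ : ℂ) • (1 : Matrix ι ι ℂ)) := by linarith
    exact le_of_mul_le_mul_left h4 hn
  have hcont : Filter.Tendsto (fun δ : ℝ => dn (H + (δ : ℂ) • (1 : Matrix ι ι ℂ)))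
      (nhdsWithin 0 (Set.Ioi 0)) (nhds (dn H)) := by
    have h2 : Continuous (fun δ : ℝ => dn (H + (δ : ℂ) • (1 : Matrix ι ι ℂ))) := by
      refine continuous_dn.comp ?_
      exact continuous_const.add
        ((Complex.continuous_ofReal.smul continuous_const : Continuous fun δ : ℝ =>
          (δ : ℂ) • (1 : Matrix ι ι ℂ)))
    have h3 := h2.tendsto 0
    simp only [Complex.ofReal_zero, zero_smul, add_zero] at h3
    exact h3.mono_left nhdsWithin_le_nhds
  refine ge_of_tendsto hcont ?_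
  filter_upwards [self_mem_nhdsWithin] with δ hδ
  exact h1 δ hδ

theorem forall_trace_iff [Nonempty ι] {H : Matrix ι ι ℂ} (hH : H.IsHermitian)
    {c : ℝ} (hc : 0 ≤ c) :
    (∀ a : Matrix ι ι ℂ, a.PosDef → (Fintype.card ι : ℝ) * (c * dn a) ≤ (a * H).trace.re) ↔
      H.PosSemidef ∧ c ≤ dn H := by
  refine ⟨posSemidef_and_le_dn_of_forall hH hc, ?_⟩
  rintro ⟨hpsd, hcH⟩ a ha
  have h1 := card_mul_dn_mul_dn_le_trace ha.posSemidef hpsd
  refine le_trans ?_ h1
  have h2 := dn_pos ha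
  have hn : (0 : ℝ) ≤ Fintype.card ι := by positivity
  refine mul_le_mul_of_nonneg_left ?_ hn
  rw [mul_comm]
  exact mul_le_mul_of_nonneg_left hcH h2.le

/-- `c ≤ (det H)^{1/n}` iff `c ^ n ≤ det H`. -/
theorem le_dn_iff [Nonempty ι] {H : Matrix ι ι ℂ} (hH : H.PosSemidef) {c : ℝ} (hc : 0 ≤ c) :
    c ≤ dn H ↔ c ^ Fintype.card ι ≤ H.det.re := by
  have hn : (0 : ℝ) < Fintype.card ι := by exact_mod_cast Fintype.card_pos
  rw [dn, Real.le_rpow_inv_iff_of_pos hc (det_re_nonneg hH) hn, Real.rpow_natCast]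

/-- The function `a ↦ (det a)^{1/n}` is positively homogeneous and superadditive, hence concave. -/
theorem dn_concave [Nonempty ι] {A B : Matrix ι ι ℂ} (hA : A.PosSemidef) (hB : B.PosSemidef)
    {s t : ℝ} (hs : 0 ≤ s) (ht : 0 ≤ t) :
    s * dn A + t * dn B ≤ dn ((s : ℂ) • A + (t : ℂ) • B) := by
  rw [← dn_smul hA hs, ← dn_smul hB ht]
  exact dn_add (hA.smul (by exact_mod_cast hs)) (hB.smul (by exact_mod_cast ht))

/-- Change of frame: `dn (P A Pᴴ) = |det P|^{2/n} dn A`. -/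
theorem dn_conj {A : Matrix ι ι ℂ} (hA : A.PosSemidef) (P : Matrix ι ι ℂ) :
    dn (P * A * Pᴴ) = (‖P.det‖ ^ 2) ^ ((Fintype.card ι : ℝ)⁻¹) * dn A := by
  have h1 : (P * A * Pᴴ).det.re = ‖P.det‖ ^ 2 * A.det.re := by
    have h2 : (P * A * Pᴴ).det = ((‖P.det‖ ^ 2 * A.det.re : ℝ) : ℂ) := by
      rw [Matrix.det_mul, Matrix.det_mul, Matrix.det_conjTranspose, det_eq_re hA]
      have h3 : P.det * star P.det = ((‖P.det‖ ^ 2 : ℝ) : ℂ) := by
        rw [show star P.det = (starRingEnd ℂ) P.det from rfl, Complex.mul_conj,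
          Complex.normSq_eq_norm_sq]
      push_cast at h3 ⊢
      rw [← h3]
      simp only [Complex.ofReal_re]
      ring
    rw [h2, Complex.ofReal_re]
  rw [dn, h1, Real.mul_rpow (by positivity) (det_re_nonneg hA)]
  rfl

end Crest.Agent.R269.DetIneq271
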