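import Crest.Agent.R269.Frm_290
import Crest.Agent.R269.DetIneq_271

/-!
# Row 269, leaf FRAMES (helper290), second file: the Gram determinant `D(p,b)`, frames of `f*TX`,
the functionals `k(f)`, `T(f)`.
-/

set_option autoImplicit false
set_option linter.unusedSectionVars false
open Matrix Complex Metric
open scoped ComplexConjugate ComplexOrder

noncomputable section
namespace Crest.Agent.R269.Frm290

variable {ι : Type*} [Fintype ι] [DecidableEq ι] {κ : Type*} [Fintype κ] [DecidableEq κ]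

/-! ## The Fubini-Study Gram matrix -/

/-- `|p|²` -/
def nsq (p : ι → ℂ) : ℝ := ∑ i, ‖p i‖ ^ 2

lemma nsq_nonneg (p : ι → ℂ) : 0 ≤ nsq p := Finset.sum_nonneg fun i _ => by positivity

lemma nsq_pos {p : ι → ℂ} (hp : p ≠ 0) : 0 < nsq p := by
  obtain ⟨i, hi⟩ := Function.ne_iff.1 hp
  have hi' : p i ≠ 0 := hi
  exact Finset.sum_pos' (fun i _ => by positivity) ⟨i, Finset.mem_univ _, by positivity⟩

lemma nsq_eq_zero {p : ι → ℂ} : nsq p = 0 ↔ p = 0 := by
  constructor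
  · intro h
    by_contra hp
    exact (nsq_pos hp).ne' h
  · rintro rfl; simp [nsq]

lemma star_dot_self (p : ι → ℂ) : star p ⬝ᵥ p = (nsq p : ℂ) := by
  simp only [nsq, dotProduct, Pi.star_apply, RCLike.star_def]
  push_cast
  exact Finset.sum_congr rfl fun i _ => Complex.conj_mul' (p i)

lemma nsq_smul (c : ℂ) (p : ι → ℂ) : nsq (c • p) = ‖c‖ ^ 2 * nsq p := by
  simp only [nsq, Pi.smul_apply, smul_eq_mul, norm_mul, mul_pow, Finset.mul_sum]

/-- orthogonal projection onto the orthogonal complement of `p` -/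
def prj (p : ι → ℂ) : Matrix ι ι ℂ := 1 - ((nsq p : ℂ))⁻¹ • vecMulVec p (star p)

/-- Gram matrix of the Fubini-Study form `ω` at `p` : `v* g v = (|v|²|p|² - |<v,p>|²)/|p|⁴`. -/
def gmat (p : ι → ℂ) : Matrix ι ι ℂ := ((nsq p : ℂ))⁻¹ • prj p

lemma prj_isHermitian (p : ι → ℂ) : (prj p).IsHermitian := by
  unfold prj
  refine Matrix.isHermitian_one.sub ?_
  rw [Matrix.IsHermitian, Matrix.conjTranspose_smul, Matrix.conjTranspose_vecMulVec]
  simp

lemma prj_mulVec (p v : ι → ℂ) : prj p *ᵥ v = v - (((nsq p : ℂ))⁻¹ * (star p ⬝ᵥ v)) • p := by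
  rw [prj, Matrix.sub_mulVec, Matrix.one_mulVec, Matrix.smul_mulVec, Matrix.vecMulVec_mulVec]
  congr 1
  ext i
  simp [mul_comm, mul_left_comm]

lemma prj_mulVec_self {p : ι → ℂ} (hp : p ≠ 0) : prj p *ᵥ p = 0 := by
  have h : (nsq p : ℂ) ≠ 0 := by exact_mod_cast (nsq_pos hp).ne'
  rw [prj_mulVec, star_dot_self, inv_mul_cancel₀ h, one_smul, sub_self]

lemma star_vecMul_prj {p : ι → ℂ} (hp : p ≠ 0) : star p ᵥ* prj p = 0 := by
  have h := congrArg star (prj_mulVec_self hp)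
  rw [Matrix.star_mulVec, (prj_isHermitian p).eq] at h
  simpa using h

lemma prj_mul_prj {p : ι → ℂ} (hp : p ≠ 0) : prj p * prj p = prj p := by
  conv_lhs => arg 1; rw [prj]
  rw [Matrix.sub_mul, Matrix.one_mul, Matrix.smul_mul, Matrix.vecMulVec_mul, star_vecMul_prj hp]
  simp

lemma gmat_isHermitian (p : ι → ℂ) : (gmat p).IsHermitian := by
  unfold gmat
  rw [Matrix.IsHermitian, Matrix.conjTranspose_smul, (prj_isHermitian p).eq]
  simp

lemma gmat_mulVec_self {p : ι → ℂ} (hp : p ≠ 0) : gmat p *ᵥ p = 0 := by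
  rw [gmat, Matrix.smul_mulVec, prj_mulVec_self hp, smul_zero]

lemma star_vecMul_gmat {p : ι → ℂ} (hp : p ≠ 0) : star p ᵥ* gmat p = 0 := by
  rw [gmat, Matrix.vecMul_smul, star_vecMul_prj hp, smul_zero]

lemma gmat_eq {p : ι → ℂ} (hp : p ≠ 0) :
    gmat p = ((nsq p : ℂ))⁻¹ • ((prj p)ᴴ * prj p) := by
  rw [(prj_isHermitian p).eq, prj_mul_prj hp, gmat]

lemma inv_nsq_nonneg (p : ι → ℂ) : (0 : ℂ) ≤ ((nsq p : ℂ))⁻¹ := by
  rw [← Complex.ofReal_inv, Complex.zero_le_real]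
  exact inv_nonneg.2 (nsq_nonneg p)

lemma gmat_posSemidef {p : ι → ℂ} (hp : p ≠ 0) : (gmat p).PosSemidef := by
  rw [gmat_eq hp]
  exact (Matrix.posSemidef_conjTranspose_mul_self _).smul (inv_nsq_nonneg p)

lemma gmat_dot {p : ι → ℂ} (hp : p ≠ 0) (v : ι → ℂ) :
    star v ⬝ᵥ (gmat p *ᵥ v) = ((nsq p)⁻¹ * nsq (prj p *ᵥ v) : ℝ) := by
  rw [gmat_eq hp, Matrix.smul_mulVec, dotProduct_smul, ← Matrix.mulVec_mulVec,
    Matrix.dotProduct_mulVec, ← Matrix.star_mulVec, star_dot_self]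
  push_cast; rfl

/-- `|v|_g² = (|v|²|p|² - |<v,p>|²)/|p|⁴` -/
lemma gmat_dot' {p : ι → ℂ} (hp : p ≠ 0) (v : ι → ℂ) :
    star v ⬝ᵥ (gmat p *ᵥ v) = ((nsq v * nsq p - ‖star p ⬝ᵥ v‖ ^ 2) / nsq p ^ 2 : ℝ) := by
  have h : (nsq p : ℂ) ≠ 0 := by exact_mod_cast (nsq_pos hp).ne'
  have e : star v ⬝ᵥ p = conj (star p ⬝ᵥ v) := by
    rw [← RCLike.star_def, ← Matrix.star_dotProduct_star, star_star]
  rw [gmat, Matrix.smul_mulVec, dotProduct_smul, prj_mulVec, dotProduct_sub, dotProduct_smul,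
    star_dot_self, e]
  simp only [smul_eq_mul]
  push_cast
  rw [← Complex.mul_conj' (star p ⬝ᵥ v)]
  field_simp

lemma gmat_smul {c : ℂ} (hc : c ≠ 0) (p : ι → ℂ) : gmat (c • p) = ((‖c‖ ^ 2 : ℝ) : ℂ)⁻¹ • gmat p := by
  have hc' : ((‖c‖ : ℂ)) ≠ 0 := by exact_mod_cast (norm_ne_zero_iff.2 hc)
  have hp : prj (c • p) = prj p := by
    unfold prj
    congr 1
    rw [nsq_smul]
    ext i j
    simp only [Matrix.smul_apply, Matrix.vecMulVec_apply, Pi.smul_apply, Pi.star_apply,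
      smul_eq_mul, star_mul', RCLike.star_def]
    push_cast
    rw [← Complex.mul_conj' c]
    by_cases h0 : (nsq p : ℂ) = 0
    · simp [h0]
    · have hcc : (starRingEnd ℂ) c ≠ 0 := by simpa using hc
      field_simp
  rw [gmat, gmat, hp, nsq_smul, smul_smul]
  congr 1
  push_cast
  rw [mul_inv]

/-! ## Gram determinants -/

/-- the columns of `M` are linearly independent modulo `p` -/
def Indep (p : ι → ℂ) (M : Matrix ι κ ℂ) : Prop :=
  ∀ (c : κ → ℂ) (l : ℂ), M *ᵥ c = l • p → c = 0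

/-- Gram matrix -/
def gram (p : ι → ℂ) (M : Matrix ι κ ℂ) : Matrix κ κ ℂ := Mᴴ * gmat p * M

/-- `D(p,b) = det (g(b_i,b_j))` -/
def D (p : ι → ℂ) (M : Matrix ι κ ℂ) : ℝ := (gram p M).det.re

lemma gram_posSemidef {p : ι → ℂ} (hp : p ≠ 0) (M : Matrix ι κ ℂ) : (gram p M).PosSemidef :=
  (gmat_posSemidef hp).conjTranspose_mul_mul_same M

lemma gram_isHermitian (p : ι → ℂ) (M : Matrix ι κ ℂ) : (gram p M).IsHermitian :=
  Matrix.isHermitian_conjTranspose_mul_mul _ (gmat_isHermitian p)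

lemma gram_dot {p : ι → ℂ} (hp : p ≠ 0) (M : Matrix ι κ ℂ) (c : κ → ℂ) :
    star c ⬝ᵥ (gram p M *ᵥ c) = ((nsq p)⁻¹ * nsq (prj p *ᵥ (M *ᵥ c)) : ℝ) := by
  rw [← gmat_dot hp, gram, ← Matrix.mulVec_mulVec, ← Matrix.mulVec_mulVec, Matrix.dotProduct_mulVec,
    ← Matrix.star_mulVec]

lemma gram_posDef {p : ι → ℂ} (hp : p ≠ 0) {M : Matrix ι κ ℂ} (h : Indep p M) :
    (gram p M).PosDef := by
  refine Matrix.PosDef.of_dotProduct_mulVec_pos (gram_isHermitian p M) ?_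
  intro c hc
  rw [gram_dot hp, Complex.zero_lt_real]
  refine mul_pos (inv_pos.2 (nsq_pos hp)) (nsq_pos ?_)
  intro h0
  rw [prj_mulVec, sub_eq_zero] at h0
  exact hc (h c _ h0)

lemma D_nonneg {p : ι → ℂ} (hp : p ≠ 0) (M : Matrix ι κ ℂ) : 0 ≤ D p M :=
  DetIneq271.det_re_nonneg (gram_posSemidef hp M)

lemma D_pos {p : ι → ℂ} (hp : p ≠ 0) {M : Matrix ι κ ℂ} (h : Indep p M) : 0 < D p M :=
  DetIneq271.det_re_pos (gram_posDef hp h)

lemma gram_det_eq {p : ι → ℂ} (hp : p ≠ 0) (M : Matrix ι κ ℂ) : (gram p M).det = (D p M : ℂ) :=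
  DetIneq271.det_eq_re (gram_posSemidef hp M)

lemma indep_of_D_ne {p : ι → ℂ} (hp : p ≠ 0) {M : Matrix ι κ ℂ} (h : D p M ≠ 0) : Indep p M := by
  intro c l hc
  by_contra hc0
  have h1 : gram p M *ᵥ c = 0 := by
    rw [gram, ← Matrix.mulVec_mulVec, hc, ← Matrix.mulVec_mulVec, Matrix.mulVec_smul,
      gmat_mulVec_self hp]
    simp
  have h2 : (gram p M).det = 0 := by
    by_contra h3
    exact hc0 (Matrix.eq_zero_of_mulVec_eq_zero h3 h1)
  apply h
  rw [D, h2]; simp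

lemma D_mul {p : ι → ℂ} (hp : p ≠ 0) (M : Matrix ι κ ℂ) (C : Matrix κ κ ℂ) :
    D p (M * C) = ‖C.det‖ ^ 2 * D p M := by
  have h1 : gram p (M * C) = Cᴴ * gram p M * C := by
    simp only [gram, Matrix.conjTranspose_mul, Matrix.mul_assoc]
  have h2 : (gram p (M * C)).det = ((‖C.det‖ ^ 2 * D p M : ℝ) : ℂ) := by
    rw [h1, Matrix.det_mul, Matrix.det_mul, Matrix.det_conjTranspose, gram_det_eq hp]
    push_cast
    rw [← Complex.mul_conj' C.det, RCLike.star_def]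
    ring
  rw [D, h2, Complex.ofReal_re]

lemma gram_add {p : ι → ℂ} (hp : p ≠ 0) (M : Matrix ι κ ℂ) (r : κ → ℂ) :
    gram p (M + vecMulVec p r) = gram p M := by
  have e1 : gmat p * vecMulVec p r = 0 := by
    rw [Matrix.mul_vecMulVec, gmat_mulVec_self hp, Matrix.zero_vecMulVec]
  have e2 : (vecMulVec p r)ᴴ * gmat p = 0 := by
    have := congrArg Matrix.conjTranspose e1
    rwa [Matrix.conjTranspose_mul, (gmat_isHermitian p).eq, Matrix.conjTranspose_zero] at this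
  rw [gram, Matrix.conjTranspose_add, Matrix.add_mul, e2, add_zero, Matrix.mul_add,
    Matrix.mul_assoc _ _ (vecMulVec p r), e1, Matrix.mul_zero, add_zero, gram]

lemma D_add {p : ι → ℂ} (hp : p ≠ 0) (M : Matrix ι κ ℂ) (r : κ → ℂ) :
    D p (M + vecMulVec p r) = D p M := by rw [D, gram_add hp, D]

lemma gram_smul {c : ℂ} (hc : c ≠ 0) (p : ι → ℂ) (M : Matrix ι κ ℂ) :
    gram (c • p) (c • M) = gram p M := by
  have hc1 : (starRingEnd ℂ) c ≠ 0 := by simpa using hc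
  have h1 : c * (((‖c‖ ^ 2 : ℝ) : ℂ)⁻¹ * (starRingEnd ℂ) c) = 1 := by
    push_cast
    rw [← Complex.mul_conj' c]
    field_simp
  rw [gram, gmat_smul hc, Matrix.conjTranspose_smul, Matrix.smul_mul, Matrix.mul_smul,
    Matrix.mul_smul, Matrix.smul_mul, Matrix.smul_mul, smul_smul, smul_smul, RCLike.star_def, gram]
  have h2 : c * (starRingEnd ℂ) c * ((‖c‖ ^ 2 : ℝ) : ℂ)⁻¹ = 1 := by
    rw [← h1]; ring
  rw [h2, one_smul]

lemma D_smul {c : ℂ} (hc : c ≠ 0) (p : ι → ℂ) (M : Matrix ι κ ℂ) : D (c • p) (c • M) = D p M := by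
  rw [D, gram_smul hc, D]

/-- AM-GM: `∑ |b_i|_g² ≥ n D(p,b)^{1/n}`. -/
lemma card_mul_le_trace [Nonempty κ] {p : ι → ℂ} (hp : p ≠ 0) (M : Matrix ι κ ℂ) :
    (Fintype.card κ : ℝ) * (D p M) ^ ((Fintype.card κ : ℝ)⁻¹) ≤ (gram p M).trace.re :=
  DetIneq271.card_mul_dn_le_trace (gram_posSemidef hp M)

lemma cmul {l m n : Type*} [Fintype m] {s : Set ℂ} {f : ℂ → Matrix l m ℂ} {g : ℂ → Matrix m n ℂ}
    (hf : ContinuousOn f s) (hg : ContinuousOn g s) : ContinuousOn (fun z => f z * g z) s :=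
  (Continuous.matrix_mul continuous_fst continuous_snd).comp_continuousOn (hf.prodMk hg)

lemma continuousOn_D {s : Set ℂ} {H : ℂ → ι → ℂ} {M : ℂ → Matrix ι κ ℂ}
    (hH : ∀ i, ContinuousOn (fun z => H z i) s) (hM : ∀ i j, ContinuousOn (fun z => M z i j) s)
    (h0 : ∀ z ∈ s, H z ≠ 0) : ContinuousOn (fun z => D (H z) (M z)) s := by
  have hH' : ContinuousOn H s := continuousOn_pi.2 hH
  have hM' : ContinuousOn M s := continuousOn_pi.2 fun i => continuousOn_pi.2 fun j => hM i j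
  have hn : ContinuousOn (fun z => nsq (H z)) s := by
    unfold nsq
    exact continuousOn_finsetSum _ fun i _ => ((hH i).norm.pow 2)
  have hn' : ContinuousOn (fun z => ((nsq (H z) : ℂ))⁻¹) s := by
    refine (Complex.continuous_ofReal.comp_continuousOn hn).inv₀ ?_
    intro z hz
    have := (nsq_pos (h0 z hz)).ne'
    simpa using this
  have hv : ContinuousOn (fun z => vecMulVec (H z) (star (H z))) s := by
    refine continuousOn_pi.2 fun i => continuousOn_pi.2 fun j => ?_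
    exact (hH i).mul ((hH j).star)
  have hg : ContinuousOn (fun z => gmat (H z)) s := by
    unfold gmat prj
    exact hn'.smul (continuousOn_const.sub (hn'.smul hv))
  have hgr : ContinuousOn (fun z => gram (H z) (M z)) s := by
    unfold gram
    have h1 : ContinuousOn (fun z => (M z)ᴴ) s :=
      (continuous_id.matrix_conjTranspose).comp_continuousOn hM'
    exact cmul (cmul h1 hg) hM'
  unfold D
  exact Complex.continuous_re.comp_continuousOn ((continuous_id.matrix_det).comp_continuousOn hgr)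

/-! ## Averages of log |f| -/

lemma harmonic_log_norm {f : ℂ → ℂ} (hf : DiffContOnCl ℂ f (ball 0 1))
    (h0 : ∀ z : ℂ, ‖z‖ ≤ 1 → f z ≠ 0) :
    InnerProductSpace.HarmonicContOnCl (fun z => Real.log ‖f z‖) (ball 0 1) := by
  constructor
  · intro z hz
    have han : AnalyticAt ℂ f z := (hf.1.analyticOnNhd isOpen_ball) z hz
    exact han.harmonicAt_log_norm (h0 z (by simpa using (mem_ball_zero_iff.1 hz).le))
  · refine (hf.2.norm).log ?_
    intro z hz
    rw [closure_ball01] at hz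
    exact norm_ne_zero_iff.2 (h0 z (by simpa using hz))

/-- mean value property for `log |f|`, `f` in the disc algebra without zeros, on the circle of
radius `ρ ≤ 1`. -/
theorem avg_log_norm {f : ℂ → ℂ} (hf : DiffContOnCl ℂ f (ball 0 1))
    (h0 : ∀ z : ℂ, ‖z‖ ≤ 1 → f z ≠ 0) {ρ : ℝ} (hρ0 : 0 ≤ ρ) (hρ : ρ ≤ 1) :
    Real.circleAverage (fun z => Real.log ‖f z‖) 0 ρ = Real.log ‖f 0‖ := by
  have h := harmonic_log_norm hf h0
  have h2 : InnerProductSpace.HarmonicContOnCl (fun z => Real.log ‖f z‖) (ball 0 |ρ|) := by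
    refine ⟨h.1.mono (ball_subset_ball (by rw [abs_of_nonneg hρ0]; exact hρ)), h.2.mono ?_⟩
    exact closure_mono (ball_subset_ball (by rw [abs_of_nonneg hρ0]; exact hρ))
  exact h2.circleAverage_eq

theorem poisson_log_norm {f : ℂ → ℂ} (hf : DiffContOnCl ℂ f (ball 0 1))
    (h0 : ∀ z : ℂ, ‖z‖ ≤ 1 → f z ≠ 0) {w : ℂ} (hw : ‖w‖ < 1) :
    Real.circleAverage (fun z => poissonKernel 0 w z * Real.log ‖f z‖) 0 1 = Real.log ‖f w‖ :=
  (harmonic_log_norm hf h0).circleAverage_poissonKernel_smul (mem_ball_zero_iff.2 hw)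

end Crest.Agent.R269.Frm290
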