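import Mathlib
import Crest.Agent.R269.Defs_58
import Crest.Agent.R269.Frm2_290
import Crest.Agent.R269.LevCone_901
import Crest.Agent.R269.DictA_886
import Crest.Agent.R269.AtlX_632

/-! Row 269, leaf 11.1 (helper653): `DD` is 290's `D`, properties of `omg`, and
`|lev w q v|, gsq w q v ≤ C omg q v` on tangent vectors for smooth functions `w` on `X`. -/

set_option autoImplicit false
set_option linter.unusedSectionVars false

open Complex Filter Topology MvPolynomial Crest.AlgGeometry.ProjEmb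
open scoped ContDiff ComplexConjugate

namespace Crest.Agent.R269.BGl1_653

open Crest.Agent.R269.Geo_328 Crest.Agent.R269.Defs_58
open Crest.Agent.R269.LevC_653 (gsq gmul)
open Crest.Agent.R269.Frm290 (gmat prj gram D)

noncomputable section

variable {N n : ℕ} {I : Ideal (HomCoordRing N)}

/-! ### `Defs_58.lev` is `LevC_653.lev` -/

theorem lev_eq {ι : Type} [Fintype ι] (φ : (ι → ℂ) → ℝ) (p v : ι → ℂ) :
    Defs_58.lev φ p v = LevC_653.lev φ p v := by
  unfold Defs_58.lev LevC_653.lev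
  rw [iteratedFDeriv_two_apply, iteratedFDeriv_two_apply]
  simp

/-! ### `DD` and `omg` in 290's notation -/

theorem nsq_eq (p : EE N) : Frm290.nsq p = Geo_328.nsq p := rfl

/-- `Unit ⊕ Fin n ≃ Fin (n+1)` -/
def eqv (n : ℕ) : Unit ⊕ Fin n ≃ Fin (n + 1) where
  toFun := Sum.elim (fun _ => 0) Fin.succ
  invFun := Fin.cases (Sum.inl ()) Sum.inr
  left_inv := by rintro (_ | i) <;> simp
  right_inv := by
    intro i
    refine Fin.cases ?_ (fun i => ?_) i <;> simp

theorem gram_apply (p : EE N) (b : Fin n → EE N) (i j : Fin n) :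
    gram p (Matrix.of fun k l => b l k) i j = ((Geo_328.nsq p : ℂ))⁻¹ *
      ((∑ k, conj (b i k) * b j k) - ((Geo_328.nsq p : ℂ))⁻¹ * (∑ k, conj (p k) * b j k) *
        (∑ k, conj (b i k) * p k)) := by
  have e1 : (Matrix.of fun (k : Fin (N + 1)) (l : Fin n) => b l k).conjTranspose i = star (b i) := by
    ext k; simp [Matrix.conjTranspose_apply]
  have e2 : (fun k => (Matrix.of fun (k : Fin (N + 1)) (l : Fin n) => b l k) k j) = b j := by
    ext k; simp
  rw [gram, Matrix.mul_assoc, Matrix.mul_apply]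
  have e3 : ∀ k, (gmat p * Matrix.of fun k l => b l k) k j = (gmat p).mulVec (b j) k := by
    intro k
    simp [Matrix.mul_apply, Matrix.mulVec, dotProduct]
  simp only [e3]
  have e4 : (gmat p).mulVec (b j) = ((Geo_328.nsq p : ℂ))⁻¹ •
      (b j - (((Geo_328.nsq p : ℂ))⁻¹ * (star p ⬝ᵥ b j)) • p) := by
    rw [gmat, Matrix.smul_mulVec, Frm290.prj_mulVec]
    rfl
  rw [e4]
  simp only [Matrix.conjTranspose_apply, Matrix.of_apply, Pi.smul_apply, Pi.sub_apply, smul_eq_mul,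
    RCLike.star_def]
  have e5 : star p ⬝ᵥ b j = ∑ k, conj (p k) * b j k := by
    simp [dotProduct]
  rw [e5]
  generalize (∑ k, conj (p k) * b j k) = s
  generalize ((Geo_328.nsq p : ℂ))⁻¹ = a
  rw [mul_sub, Finset.mul_sum, Finset.mul_sum, Finset.mul_sum, ← Finset.sum_sub_distrib]
  refine Finset.sum_congr rfl fun k _ => ?_
  ring

/-- `|p ∧ b|² / |p|^(2(n+1)) = det g(b_i, b_j)`. -/
theorem DD_eq_D {p : EE N} (hp : p ≠ 0) (b : Fin n → EE N) :
    DD p b = D p (Matrix.of fun k l => b l k) := by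
  have hn : (0 : ℝ) < Geo_328.nsq p := Frm290.nsq_pos hp
  have hn' : ((Geo_328.nsq p : ℝ) : ℂ) ≠ 0 := by exact_mod_cast hn.ne'
  set W : Matrix (Fin (n + 1)) (Fin (n + 1)) ℂ := Matrix.of fun i j =>
    ∑ k, (Fin.cons p b : Fin (n + 1) → EE N) i k * conj ((Fin.cons p b : Fin (n + 1) → EE N) j k)
    with hW
  set A : Matrix Unit Unit ℂ := Matrix.of fun _ _ => (Geo_328.nsq p : ℂ) with hA
  set B : Matrix Unit (Fin n) ℂ := Matrix.of fun _ j => ∑ k, p k * conj (b j k) with hB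
  set C : Matrix (Fin n) Unit ℂ := Matrix.of fun i _ => ∑ k, b i k * conj (p k) with hC
  set E : Matrix (Fin n) (Fin n) ℂ := Matrix.of fun i j => ∑ k, b i k * conj (b j k) with hE
  have h1 : W.submatrix (eqv n) (eqv n) = Matrix.fromBlocks A B C E := by
    ext i j
    rcases i with i | i <;> rcases j with j | j
    · simp only [Matrix.submatrix_apply, hW, Matrix.of_apply, Matrix.fromBlocks_apply₁₁, hA, eqv,
        Equiv.coe_fn_mk, Sum.elim_inl, Fin.cons_zero]
      rw [Geo_328.nsq]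
      push_cast
      exact Finset.sum_congr rfl fun k _ => Complex.mul_conj' (p k)
    · simp [hW, hB, eqv]
    · simp [hW, hC, eqv]
    · simp [hW, hE, eqv]
  have hAu : IsUnit A.det := by
    rw [Matrix.det_unique]
    simpa [hA] using hn'
  let : Invertible A := Matrix.invertibleOfIsUnitDet A hAu
  have hAinv : (⅟A) = Matrix.of fun _ _ => ((Geo_328.nsq p : ℂ))⁻¹ := by
    rw [Matrix.invOf_eq_nonsing_inv]
    apply Matrix.inv_eq_right_inv
    ext i j
    simp [hA, Matrix.mul_apply, hn']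
  have h2 : E - C * ⅟A * B = ((Geo_328.nsq p : ℂ)) • (gram p (Matrix.of fun k l => b l k)).transpose := by
    ext i j
    rw [hAinv]
    simp only [Matrix.sub_apply, Matrix.mul_apply, Matrix.smul_apply, Matrix.transpose_apply,
      smul_eq_mul, Finset.univ_unique, Finset.sum_singleton, hE, hC, hB, Matrix.of_apply]
    rw [gram_apply, ← mul_assoc, mul_inv_cancel₀ hn', one_mul]
    have e1 : ∑ k, b i k * conj (b j k) = ∑ k, conj (b j k) * b i k :=
      Finset.sum_congr rfl fun k _ => mul_comm _ _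
    have e2 : ∑ k, b i k * conj (p k) = ∑ k, conj (p k) * b i k :=
      Finset.sum_congr rfl fun k _ => mul_comm _ _
    have e3 : ∑ k, p k * conj (b j k) = ∑ k, conj (b j k) * p k :=
      Finset.sum_congr rfl fun k _ => mul_comm _ _
    rw [e1, e2, e3]
    ring
  have h3 : W.det = (Geo_328.nsq p : ℂ) ^ (n + 1) * (gram p (Matrix.of fun k l => b l k)).det := by
    rw [← Matrix.det_submatrix_equiv_self (eqv n) W, h1, Matrix.det_fromBlocks₁₁, h2,
      Matrix.det_smul, Matrix.det_transpose, Matrix.det_unique]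
    simp only [hA, Matrix.of_apply, Fintype.card_fin]
    ring
  have h4 : W.det.re = Geo_328.nsq p ^ (n + 1) * D p (Matrix.of fun k l => b l k) := by
    rw [h3, D, ← Complex.ofReal_pow, Complex.re_ofReal_mul]
  unfold DD wedgeSq
  rw [h4, mul_div_assoc, mul_comm, div_mul_cancel₀ _ (pow_pos hn _).ne']

theorem omg_eq_dot {p : EE N} (hp : p ≠ 0) (v : EE N) :
    omg p v = (star v ⬝ᵥ ((gmat p).mulVec v)).re := by
  rw [Frm290.gmat_dot' hp, Complex.ofReal_re]
  unfold omg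
  have e : star p ⬝ᵥ v = ∑ i, v i * conj (p i) := by
    simp only [dotProduct, Pi.star_apply, RCLike.star_def]
    exact Finset.sum_congr rfl fun k _ => mul_comm _ _
  rw [e]
  simp only [Frm290.nsq]
  ring

theorem omg_eq_prj {p : EE N} (hp : p ≠ 0) (v : EE N) :
    omg p v = (Geo_328.nsq p)⁻¹ * Geo_328.nsq ((prj p).mulVec v) := by
  rw [omg_eq_dot hp, Frm290.gmat_dot hp, Complex.ofReal_re]
  rfl

theorem omg_nonneg {p : EE N} (hp : p ≠ 0) (v : EE N) : 0 ≤ omg p v := by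
  rw [omg_eq_prj hp]
  exact mul_nonneg (inv_nonneg.2 (Frm290.nsq_nonneg p)) (Frm290.nsq_nonneg _)

theorem omg_smul {p : EE N} (hp : p ≠ 0) {c : ℂ} (hc : c ≠ 0) (v : EE N) :
    omg (c • p) (c • v) = omg p v := by
  rw [omg_eq_dot (smul_ne_zero hc hp), omg_eq_dot hp, Frm290.gmat_smul hc, Matrix.mulVec_smul,
    Matrix.smul_mulVec, star_smul, smul_dotProduct, dotProduct_smul, dotProduct_smul]
  simp only [smul_eq_mul, RCLike.star_def]
  have h1 : conj c * (c * ((((‖c‖ ^ 2 : ℝ) : ℂ)⁻¹) * (star v ⬝ᵥ (gmat p).mulVec v)))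
      = star v ⬝ᵥ (gmat p).mulVec v := by
    have hcc : conj c ≠ 0 := by simpa using hc
    push_cast
    rw [← Complex.mul_conj' c]
    field_simp
  rw [h1]

theorem omg_le {p : EE N} (hp : p ≠ 0) (v : EE N) :
    omg p v ≤ Geo_328.nsq v / Geo_328.nsq p := by
  have h := Frm290.nsq_pos hp
  have h' : (0 : ℝ) < ∑ i, ‖p i‖ ^ 2 := h
  unfold omg
  simp only [Geo_328.nsq]
  rw [div_le_div_iff₀ (by positivity) h']
  have h2 : (0 : ℝ) ≤ ‖∑ i, v i * conj (p i)‖ ^ 2 := by positivity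
  nlinarith

/-- horizontal part -/
theorem exists_hor {p : EE N} (hp : p ≠ 0) (v : EE N) :
    ∃ r : ℂ, Geo_328.nsq (v + r • p) = Geo_328.nsq p * omg p v := by
  refine ⟨-((Geo_328.nsq p : ℂ)⁻¹ * (star p ⬝ᵥ v)), ?_⟩
  have e : v + (-((Geo_328.nsq p : ℂ)⁻¹ * (star p ⬝ᵥ v))) • p = (prj p).mulVec v := by
    rw [Frm290.prj_mulVec]
    rw [neg_smul, ← sub_eq_add_neg]
    rfl
  have hn : Geo_328.nsq p ≠ 0 := (Frm290.nsq_pos hp).ne'
  rw [e, omg_eq_prj hp, ← mul_assoc, mul_inv_cancel₀ hn, one_mul]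

theorem norm_sq_le_nsq (v : EE N) : ‖v‖ ^ 2 ≤ Geo_328.nsq v := by
  have h1 : ‖v‖ ≤ Real.sqrt (Geo_328.nsq v) := by
    rw [pi_norm_le_iff_of_nonneg (Real.sqrt_nonneg _)]
    intro k
    apply Real.le_sqrt_of_sq_le
    exact Finset.single_le_sum (f := fun k => ‖v k‖ ^ 2)
      (fun _ _ => by positivity) (Finset.mem_univ k)
  calc ‖v‖ ^ 2 ≤ (Real.sqrt (Geo_328.nsq v)) ^ 2 := by gcongr
    _ = Geo_328.nsq v := Real.sq_sqrt (Frm290.nsq_nonneg v)

/-! ### Bounds for smooth functions on `X` -/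

theorem two_le : (2 : WithTop ℕ∞) ≤ ∞ := by
  have : ((2 : ℕ∞) : WithTop ℕ∞) ≤ ((⊤ : ℕ∞) : WithTop ℕ∞) := WithTop.coe_le_coe.2 le_top
  exact this

section bound

variable {w : EE N → ℝ}

theorem fderiv_euler (hw : SmX I w) {q : EE N} (hq : q ∈ Cone I)
    (r : ℂ) : fderiv ℝ w q (r • q) = 0 := by
  have hd : DifferentiableAt ℝ w q := (hw.1 q hq).differentiableAt (by simp)
  have h1 : HasDerivAt (fun t : ℝ => (1 + (t : ℂ) * r) • q) (r • q) 0 := by
    have h2 : HasDerivAt (fun t : ℝ => (1 + (t : ℂ) * r)) r 0 := by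
      have := ((Complex.ofRealCLM.hasDerivAt (x := (0 : ℝ))).mul_const r).const_add 1
      simpa using this
    exact h2.smul_const q
  have h0 : (1 + ((0 : ℝ) : ℂ) * r) • q = q := by simp
  have h3 : HasDerivAt (fun t : ℝ => w ((1 + (t : ℂ) * r) • q)) (fderiv ℝ w q (r • q)) 0 := by
    have hd' : HasFDerivAt w (fderiv ℝ w q) ((1 + ((0 : ℝ) : ℂ) * r) • q) := by
      rw [h0]; exact hd.hasFDerivAt
    exact hd'.comp_hasDerivAt (0 : ℝ) h1
  have h4 : (fun t : ℝ => w ((1 + (t : ℂ) * r) • q)) =ᶠ[𝓝 0] fun _ => w q := by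
    have h5 : ContinuousAt (fun t : ℝ => (1 + (t : ℂ) * r)) 0 := by fun_prop
    have h6 : ∀ᶠ t : ℝ in 𝓝 0, (1 + (t : ℂ) * r) ≠ 0 := h5.eventually_ne (by simp)
    filter_upwards [h6] with t ht using hw.2 q hq _ ht
  have h7 := h4.hasDerivAt_iff.1 h3
  exact h7.unique (hasDerivAt_const _ _) 

theorem gsq_add_smul (hw : SmX I w) {q : EE N} (hq : q ∈ Cone I)
    (v : EE N) (r : ℂ) : gsq w q (v + r • q) = gsq w q v := by
  rw [LevC_653.gsq_eq, LevC_653.gsq_eq, smul_add, map_add, map_add, smul_smul,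
    fderiv_euler hw hq, fderiv_euler hw hq, add_zero, add_zero]

theorem gsq_smul_point (hX : IsSmoothProjective I n) (hw : SmX I w) {q : EE N} (hq : q ∈ Cone I)
    (C : ConeChart I n q) {c : ℂ} (hc : c ≠ 0) {v : EE N} (hv : v ∈ Tan I q) :
    gsq w (c • q) (c • v) = gsq w q v := by
  have hu' : ContDiffAt ℝ 2 w (c • q) := (hw.1 _ (smul_mem_Cone hX hq hc)).of_le two_le
  have hu : ContDiffAt ℝ 2 w q := (hw.1 _ hq).of_le two_le
  have h1 : ContDiffAt ℝ 2 (fun x : EE N => w (c • x)) q :=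
    ContDiffAt.comp (g := w) q hu' (contDiffAt_id.const_smul c)
  have h2 : gsq (fun x : EE N => w (c • x)) q v = gsq w (c • q) (c • v) := by
    have h3 : HasFDerivAt (fun x : EE N => c • x) (c • ContinuousLinearMap.id ℂ (EE N)) q :=
      (hasFDerivAt_id q).const_smul c
    have := Lev_901.gsq_comp_hol (F := fun x : EE N => c • x) (x := q) (u := w)
      (LevC_653.diff1 hu') h3.differentiableAt v
    rw [this, h3.fderiv]
    rfl
  rw [← h2]
  apply LevCone_901.gsq_congr_cone hX hq C h1 hu _ hv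
  filter_upwards [self_mem_nhdsWithin] with x hx using hw.2 x hx c hc

/-- on tangent vectors, the Levi form and the gradient of a smooth function are bounded by `omg` -/
theorem exists_bound (hI : I.IsPrime) (hX : IsSmoothProjective I n) (hw : SmX I w) :
    ∃ C : ℝ, 0 ≤ C ∧ ∀ q ∈ Cone I, |w q| ≤ C ∧ ∀ v ∈ Tan I q,
      |LevC_653.lev w q v| ≤ C * omg q v ∧ gsq w q v ≤ C * omg q v := by
  set K : Set (EE N) := {p : EE N | p ∈ affineCone I ∧ Geo_328.nsq p = 1} with hK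
  have hKc : IsCompact K := AtlX_632.isCompact_sphereCone I
  have hKC : ∀ q ∈ K, q ∈ Cone I := by
    rintro q ⟨h1, h2⟩
    refine ⟨h1, ?_⟩
    rintro rfl
    simp [Geo_328.nsq] at h2
  have h2 : ∀ q ∈ K, ContDiffAt ℝ 2 w q := fun q hq =>
    (hw.1 q (hKC q hq)).of_le two_le
  have c0 : ContinuousOn (fun q => ‖w q‖) K := fun q hq =>
    (h2 q hq).continuousAt.norm.continuousWithinAt
  have c1 : ContinuousOn (fun q => ‖fderiv ℝ w q‖) K := fun q hq =>
    (((h2 q hq).fderiv_right (m := 1) (by norm_num)).continuousAt.norm).continuousWithinAt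
  have c2 : ContinuousOn (fun q => ‖fderiv ℝ (fderiv ℝ w) q‖) K := fun q hq =>
    ((((h2 q hq).fderiv_right (m := 1) (by norm_num)).fderiv_right (m := 0)
      (by norm_num)).continuousAt.norm).continuousWithinAt
  obtain ⟨C0, hC0⟩ := hKc.bddAbove_image c0
  obtain ⟨C1, hC1⟩ := hKc.bddAbove_image c1
  obtain ⟨C2, hC2⟩ := hKc.bddAbove_image c2
  refine ⟨|C0| + C1 ^ 2 + |C2|, by positivity, fun q hq => ?_⟩
  obtain ⟨c, hc, hcS⟩ := Crest.Agent.R269.DictA_886.exists_smul_Sph hq.2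
  have hcK : c • q ∈ K := ⟨(smul_mem_Cone hX hq hc).1, hcS⟩
  have b0 : |w (c • q)| ≤ C0 := hC0 ⟨_, hcK, rfl⟩
  have b1 : ‖fderiv ℝ w (c • q)‖ ≤ C1 := hC1 ⟨_, hcK, rfl⟩
  have b2 : ‖fderiv ℝ (fderiv ℝ w) (c • q)‖ ≤ C2 := hC2 ⟨_, hcK, rfl⟩
  have hns : Geo_328.nsq (c • q) = 1 := hcS
  refine ⟨?_, fun v hv => ?_⟩
  · rw [← hw.2 q hq c hc]
    have := abs_nonneg C0
    have := le_abs_self C0
    have := abs_nonneg C2
    nlinarith [sq_nonneg C1]
  · have C := Classical.choice (Chart_632.chartStmt N n I hI hX q hq)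
    have C' := Classical.choice (Chart_632.chartStmt N n I hI hX (c • q) (smul_mem_Cone hX hq hc))
    have hcq := smul_mem_Cone hX hq hc
    have hcv : c • v ∈ Tan I (c • q) := by
      rw [Tan_smul hX q hc]; exact Submodule.smul_mem _ _ hv
    obtain ⟨r, hr⟩ := exists_hor hcq.2 (c • v)
    rw [hns, one_mul, omg_smul hq.2 hc] at hr
    set x := c • v + r • (c • q) with hx
    have hxn : ‖x‖ ^ 2 ≤ omg q v := by rw [← hr]; exact norm_sq_le_nsq x
    have l1 : LevC_653.lev w q v = LevC_653.lev w (c • q) x := by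
      rw [hx, LevCone_901.lev_add_smul_self hX hcq C' hw.2 (h2 _ hcK) hcv r,
        LevCone_901.lev_smul_point hX hq C hw.2 hc
          ((hw.1 q hq).of_le two_le) (h2 _ hcK) hv]
    have l2 : gsq w q v = gsq w (c • q) x := by
      rw [hx, gsq_add_smul hw hcq, gsq_smul_point hX hw hq C hc hv]
    have hIx : ‖Complex.I • x‖ = ‖x‖ := by rw [norm_smul, Complex.norm_I, one_mul]
    have hom := omg_nonneg hq.2 v
    constructor
    · rw [l1]
      unfold LevC_653.lev
      have k1 : |fderiv ℝ (fderiv ℝ w) (c • q) x x| ≤ C2 * ‖x‖ ^ 2 := by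
        have := (fderiv ℝ (fderiv ℝ w) (c • q)).le_opNorm₂ x x
        rw [Real.norm_eq_abs] at this
        calc _ ≤ ‖fderiv ℝ (fderiv ℝ w) (c • q)‖ * ‖x‖ * ‖x‖ := this
          _ ≤ C2 * ‖x‖ * ‖x‖ := by gcongr
          _ = C2 * ‖x‖ ^ 2 := by ring
      have k2 : |fderiv ℝ (fderiv ℝ w) (c • q) (Complex.I • x) (Complex.I • x)| ≤ C2 * ‖x‖ ^ 2 := by
        have := (fderiv ℝ (fderiv ℝ w) (c • q)).le_opNorm₂ (Complex.I • x) (Complex.I • x)
        rw [Real.norm_eq_abs, hIx] at this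
        calc _ ≤ ‖fderiv ℝ (fderiv ℝ w) (c • q)‖ * ‖x‖ * ‖x‖ := this
          _ ≤ C2 * ‖x‖ * ‖x‖ := by gcongr
          _ = C2 * ‖x‖ ^ 2 := by ring
      rw [abs_le] at k1 k2
      have hC2' : 0 ≤ C2 := le_trans (norm_nonneg (fderiv ℝ (fderiv ℝ w) (c • q))) b2
      have k3 : C2 * ‖x‖ ^ 2 ≤ C2 * omg q v := mul_le_mul_of_nonneg_left hxn hC2'
      have k4 : 0 ≤ (|C0| + C1 ^ 2) * omg q v := by positivity
      have k5 : C2 * omg q v ≤ |C2| * omg q v := mul_le_mul_of_nonneg_right (le_abs_self _) hom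
      have k6 : 0 ≤ C2 * ‖x‖ ^ 2 := by positivity
      rw [abs_le]
      constructor <;> nlinarith
    · rw [l2, LevC_653.gsq_eq]
      have hC1' : 0 ≤ C1 := (norm_nonneg _).trans b1
      have k1 : (fderiv ℝ w (c • q) x) ^ 2 ≤ C1 ^ 2 * ‖x‖ ^ 2 := by
        have := (fderiv ℝ w (c • q)).le_opNorm x
        have h3 : ‖fderiv ℝ w (c • q) x‖ ≤ C1 * ‖x‖ := this.trans (by gcongr)
        rw [← mul_pow, ← sq_abs]
        exact pow_le_pow_left₀ (abs_nonneg _) h3 2
      have k2 : (fderiv ℝ w (c • q) (Complex.I • x)) ^ 2 ≤ C1 ^ 2 * ‖x‖ ^ 2 := by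
        have := (fderiv ℝ w (c • q)).le_opNorm (Complex.I • x)
        rw [hIx] at this
        have h3 : ‖fderiv ℝ w (c • q) (Complex.I • x)‖ ≤ C1 * ‖x‖ := this.trans (by gcongr)
        rw [← mul_pow, ← sq_abs]
        exact pow_le_pow_left₀ (abs_nonneg _) h3 2
      have k3 : C1 ^ 2 * ‖x‖ ^ 2 ≤ C1 ^ 2 * omg q v := mul_le_mul_of_nonneg_left hxn (sq_nonneg _)
      have k4 : 0 ≤ (|C0| + |C2|) * omg q v := by positivity
      have k6 : 0 ≤ C1 ^ 2 * ‖x‖ ^ 2 := by positivity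
      nlinarith

end bound

end

end Crest.Agent.R269.BGl1_653
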