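import Mathlib
import Crest.Agent.R269.LevC_653

/-! Row 269, Blueprint 11.1 (helper653): the function `b_tau = sum_{r<M} (|h_r|^2 + tau)^gam`. -/

set_option autoImplicit false

open Complex Filter Topology Crest.Agent.R269.LevC_653

namespace Crest.Agent.R269.Bf_653

/-! ### The scalar chain lemma -/

/-- exponent after `M` steps. -/
noncomputable def dexp (gam : ℝ) (M : ℕ) : ℝ := ((1 - gam) / 2) ^ M

theorem dexp_pos {gam : ℝ} (h1 : gam < 1) (M : ℕ) : 0 < dexp gam M :=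
  pow_pos (by linarith) M

theorem dexp_le_one {gam : ℝ} (h0 : 0 < gam) (h1 : gam < 1) (M : ℕ) : dexp gam M ≤ 1 :=
  pow_le_one₀ (by linarith) (by linarith)

theorem chain {gam : ℝ} (h0 : 0 < gam) (h1 : gam < 1) {qs : ℝ} (hqs : 0 < qs) (M : ℕ) :
    ∃ c : ℝ, 0 < c ∧ ∀ (q : ℕ → ℝ) (tau : ℝ), 0 < tau → (∀ r, 0 ≤ q r) → qs ≤ q M →
      c * (q 0 + tau) ^ (-(dexp gam M)) ≤
        1 + ∑ r ∈ Finset.range M, (q r + tau) ^ (gam - 1) * q (r + 1) := by
  induction M with
  | zero =>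
    refine ⟨qs, hqs, fun q tau ht hq hM => ?_⟩
    have hT : 0 < q 0 + tau := by linarith [hq 0]
    simp only [dexp, pow_zero, Finset.range_zero, Finset.sum_empty, add_zero]
    rw [Real.rpow_neg hT.le, Real.rpow_one, ← div_eq_mul_inv, div_le_one hT]
    linarith
  | succ M ih =>
    obtain ⟨c, hc, ih⟩ := ih
    refine ⟨min 1 (c * (2 : ℝ) ^ (-(dexp gam M))), lt_min one_pos (by positivity),
      fun q tau ht hq hM => ?_⟩
    have hT : 0 < q 0 + tau := by linarith [hq 0]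
    have hT1 : 0 < q 1 + tau := by linarith [hq 1]
    set t := q 0 + tau with htdef
    set S' := ∑ r ∈ Finset.range M, (q (r + 1) + tau) ^ (gam - 1) * q (r + 1 + 1) with hS'
    have hsum : ∑ r ∈ Finset.range (M + 1), (q r + tau) ^ (gam - 1) * q (r + 1)
        = S' + t ^ (gam - 1) * q 1 := by
      rw [Finset.sum_range_succ']
    have hS'0 : 0 ≤ S' := Finset.sum_nonneg fun r _ =>
      mul_nonneg (Real.rpow_nonneg (by linarith [hq (r + 1)]) _) (hq _)
    have hmin0 : 0 ≤ min 1 (c * (2 : ℝ) ^ (-(dexp gam M))) := (lt_min one_pos (by positivity)).le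
    rw [hsum]
    have hd := dexp_pos h1 M
    have hd1 := dexp_le_one h0 h1 M
    have hdS : dexp gam (M + 1) = dexp gam M * ((1 - gam) / 2) := by
      unfold dexp; rw [pow_succ]
    have hdS0 := dexp_pos h1 (M + 1)
    have hq1 := hq 1
    have hpt : 0 ≤ t ^ (gam - 1) * q 1 := mul_nonneg (Real.rpow_nonneg hT.le _) hq1
    rcases le_or_gt 1 t with h | h
    · have e1 : t ^ (-(dexp gam (M + 1))) ≤ 1 :=
        Real.rpow_le_one_of_one_le_of_nonpos h (by linarith)
      calc min 1 (c * (2 : ℝ) ^ (-(dexp gam M))) * t ^ (-(dexp gam (M + 1)))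
          ≤ 1 * 1 := mul_le_mul (min_le_left _ _) e1 (Real.rpow_nonneg hT.le _) zero_le_one
        _ ≤ 1 + (S' + t ^ (gam - 1) * q 1) := by linarith
    · rcases le_or_gt (t ^ ((1 - gam) / 2)) (q 1) with h2 | h2
      · have e1 : t ^ (-(dexp gam (M + 1))) ≤ t ^ (-((1 - gam) / 2)) := by
          apply Real.rpow_le_rpow_of_exponent_ge hT h.le
          rw [hdS]
          nlinarith
        have e2 : t ^ (-((1 - gam) / 2)) = t ^ (gam - 1) * t ^ ((1 - gam) / 2) := by
          rw [← Real.rpow_add hT]; congr 1; ring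
        have e3 : t ^ (gam - 1) * t ^ ((1 - gam) / 2) ≤ t ^ (gam - 1) * q 1 :=
          mul_le_mul_of_nonneg_left h2 (Real.rpow_nonneg hT.le _)
        calc min 1 (c * (2 : ℝ) ^ (-(dexp gam M))) * t ^ (-(dexp gam (M + 1)))
            ≤ 1 * t ^ (-(dexp gam (M + 1))) :=
              mul_le_mul_of_nonneg_right (min_le_left _ _) (Real.rpow_nonneg hT.le _)
          _ ≤ 1 + (S' + t ^ (gam - 1) * q 1) := by linarith
      · have hts : t ≤ t ^ ((1 - gam) / 2) := by
          conv_lhs => rw [← Real.rpow_one t]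
          exact Real.rpow_le_rpow_of_exponent_ge hT h.le (by linarith)
        have hT1t : q 1 + tau ≤ 2 * t ^ ((1 - gam) / 2) := by
          have : tau ≤ t := by linarith [hq 0]
          linarith
        have e1 := ih (fun r => q (r + 1)) tau ht (fun r => hq _) hM
        have e2 : (2 * t ^ ((1 - gam) / 2)) ^ (-(dexp gam M)) ≤ (q 1 + tau) ^ (-(dexp gam M)) :=
          Real.rpow_le_rpow_of_nonpos hT1 hT1t (by linarith)
        have e3 : (2 * t ^ ((1 - gam) / 2)) ^ (-(dexp gam M))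
            = (2 : ℝ) ^ (-(dexp gam M)) * t ^ (-(dexp gam (M + 1))) := by
          rw [Real.mul_rpow (by norm_num) (Real.rpow_nonneg hT.le _), ← Real.rpow_mul hT.le, hdS]
          congr 2
          ring
        have e4 : c * ((2 : ℝ) ^ (-(dexp gam M)) * t ^ (-(dexp gam (M + 1)))) ≤ 1 + S' := by
          rw [← e3]
          exact (mul_le_mul_of_nonneg_left e2 hc.le).trans e1
        calc min 1 (c * (2 : ℝ) ^ (-(dexp gam M))) * t ^ (-(dexp gam (M + 1)))
            ≤ (c * (2 : ℝ) ^ (-(dexp gam M))) * t ^ (-(dexp gam (M + 1))) :=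
              mul_le_mul_of_nonneg_right (min_le_right _ _) (Real.rpow_nonneg hT.le _)
          _ = c * ((2 : ℝ) ^ (-(dexp gam M)) * t ^ (-(dexp gam (M + 1)))) := by ring
          _ ≤ 1 + (S' + t ^ (gam - 1) * q 1) := by linarith

/-- Lowering the exponent. -/
theorem lower_exp {T Q d d' : ℝ} (hT : 0 < T) (hTQ : T ≤ Q) (hd : d' ≤ d) :
    T ^ (-d') ≤ Q ^ (d - d') * T ^ (-d) := by
  have : T ^ (-d') = T ^ (d - d') * T ^ (-d) := by
    rw [← Real.rpow_add hT]; congr 1; ring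
  rw [this]
  exact mul_le_mul_of_nonneg_right (Real.rpow_le_rpow hT.le hTQ (by linarith))
    (Real.rpow_nonneg hT.le _)

/-! ### One summand -/

section one

variable {E : Type*} [NormedAddCommGroup E] [NormedSpace ℂ E]

/-- `(|h|^2 + tau)^gam`. -/
noncomputable def pt (gam tau : ℝ) (h : E → ℂ) (y : E) : ℝ := (‖h y‖ ^ 2 + tau) ^ gam

omit [NormedAddCommGroup E] [NormedSpace ℂ E] in
theorem T_pos {tau : ℝ} (ht : 0 < tau) (h : E → ℂ) (y : E) : 0 < ‖h y‖ ^ 2 + tau := by positivity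

theorem F_contDiffAt {gam tau t : ℝ} (ht : 0 < t + tau) {n : WithTop ℕ∞} :
    ContDiffAt ℝ n (fun s : ℝ => (s + tau) ^ gam) t :=
  (contDiffAt_id.add contDiffAt_const).rpow_const_of_ne ht.ne'

theorem F_deriv {gam tau t : ℝ} (ht : 0 < t + tau) :
    deriv (fun s : ℝ => (s + tau) ^ gam) t = gam * (t + tau) ^ (gam - 1) := by
  have h := ((hasDerivAt_id t).add_const tau).rpow_const (p := gam) (Or.inl ht.ne')
  have h' := h.deriv
  simp only [id] at h'
  rw [h']
  ring

theorem F_deriv2 {gam tau t : ℝ} (ht : 0 < t + tau) :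
    deriv (deriv (fun s : ℝ => (s + tau) ^ gam)) t
      = gam * (gam - 1) * (t + tau) ^ (gam - 2) := by
  have h1 : deriv (fun s : ℝ => (s + tau) ^ gam) =ᶠ[𝓝 t]
      fun s => gam * (s + tau) ^ (gam - 1) := by
    have : ∀ᶠ s in 𝓝 t, 0 < s + tau :=
      (continuous_id.add continuous_const).continuousAt.eventually (lt_mem_nhds ht)
    filter_upwards [this] with s hs using F_deriv hs
  rw [h1.deriv_eq]
  have h := (((hasDerivAt_id t).add_const tau).rpow_const (p := gam - 1) (Or.inl ht.ne')).const_mul gam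
  have h' := h.deriv
  simp only [id] at h'
  rw [h']
  have : gam - 1 - 1 = gam - 2 := by ring
  rw [this]
  ring

variable {h : E → ℂ} {x : E} {gam tau : ℝ}

theorem pt_contDiffAt (ht : 0 < tau) (hh : AnalyticAt ℂ h x) {n : WithTop ℕ∞} :
    ContDiffAt ℝ n (pt gam tau h) x :=
  (F_contDiffAt (T_pos ht h x)).comp x (nsq_contDiffAt hh)

theorem pt_lev (ht : 0 < tau) (hh : AnalyticAt ℂ h x) (v : E) :
    lev (pt gam tau h) x v = gam * (‖h x‖ ^ 2 + tau) ^ (gam - 1) * ‖fderiv ℂ h x v‖ ^ 2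
      + gam * (gam - 1) * (‖h x‖ ^ 2 + tau) ^ (gam - 2) * (‖h x‖ ^ 2 * ‖fderiv ℂ h x v‖ ^ 2) := by
  have h1 := lev_comp (u := fun y => ‖h y‖ ^ 2) (F := fun s : ℝ => (s + tau) ^ gam)
    (F_contDiffAt (gam := gam) (n := 2) (T_pos ht h x)) (nsq_contDiffAt hh) v
  rw [F_deriv (T_pos ht h x), F_deriv2 (T_pos ht h x), lev_nsq hh, gsq_nsq hh] at h1
  exact h1

theorem pt_gsq (ht : 0 < tau) (hh : AnalyticAt ℂ h x) (v : E) :
    gsq (pt gam tau h) x v = (gam * (‖h x‖ ^ 2 + tau) ^ (gam - 1)) ^ 2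
      * (‖h x‖ ^ 2 * ‖fderiv ℂ h x v‖ ^ 2) := by
  have h1 := gsq_comp (u := fun y => ‖h y‖ ^ 2) (F := fun s : ℝ => (s + tau) ^ gam)
    ((F_contDiffAt (gam := gam) (n := 2) (T_pos ht h x)).differentiableAt (by norm_num))
    ((nsq_contDiffAt (n := 2) hh).differentiableAt (by norm_num)) v
  rw [F_deriv (T_pos ht h x), gsq_nsq hh] at h1
  exact h1

theorem pt_lev_ge (h0 : 0 < gam) (h1 : gam < 1) (ht : 0 < tau) (hh : AnalyticAt ℂ h x) (v : E) :
    gam ^ 2 * ((‖h x‖ ^ 2 + tau) ^ (gam - 1) * ‖fderiv ℂ h x v‖ ^ 2) ≤ lev (pt gam tau h) x v := by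
  rw [pt_lev ht hh]
  have hT := T_pos ht h x
  have e : (‖h x‖ ^ 2 + tau) ^ (gam - 1) = (‖h x‖ ^ 2 + tau) ^ (gam - 2) * (‖h x‖ ^ 2 + tau) := by
    rw [← Real.rpow_add_one hT.ne']
    congr 1
    ring
  rw [e]
  have hp : 0 ≤ (‖h x‖ ^ 2 + tau) ^ (gam - 2) := Real.rpow_nonneg hT.le _
  have hD : 0 ≤ ‖fderiv ℂ h x v‖ ^ 2 := by positivity
  have hpD := mul_nonneg hp hD
  nlinarith [mul_nonneg hpD (mul_nonneg (mul_nonneg h0.le (by linarith : (0 : ℝ) ≤ 1 - gam)) ht.le)]

theorem pt_gsq_le (h0 : 0 < gam) (h1 : gam < 1) (ht : 0 < tau) (hh : AnalyticAt ℂ h x) (v : E) :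
    gsq (pt gam tau h) x v ≤ pt gam tau h x * lev (pt gam tau h) x v := by
  have hT := T_pos ht h x
  have e : pt gam tau h x = (‖h x‖ ^ 2 + tau) ^ (gam - 1) * (‖h x‖ ^ 2 + tau) := by
    unfold pt
    rw [← Real.rpow_add_one hT.ne']
    congr 1
    ring
  refine le_trans ?_ (mul_le_mul_of_nonneg_left (pt_lev_ge h0 h1 ht hh v) (by
    unfold pt; exact Real.rpow_nonneg hT.le _))
  rw [pt_gsq ht hh, e]
  have hp : 0 ≤ (‖h x‖ ^ 2 + tau) ^ (gam - 1) := Real.rpow_nonneg hT.le _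
  have hD : 0 ≤ ‖fderiv ℂ h x v‖ ^ 2 := by positivity
  have := mul_nonneg (mul_nonneg (mul_nonneg hp hp) hD) (mul_nonneg (sq_nonneg gam) ht.le)
  nlinarith

end one

/-! ### Sums -/

section sums

variable {E : Type*} [NormedAddCommGroup E] [NormedSpace ℂ E]

/-- `C²`, non-negative, psh with gradient controlled by the Levi form. -/
structure Good (b : E → ℝ) (x : E) : Prop where
  smooth : ContDiffAt ℝ 2 b x
  nonneg : 0 ≤ b x
  lev_nonneg : ∀ v, 0 ≤ lev b x v
  grad : ∀ v, gsq b x v ≤ b x * lev b x v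

theorem Good.add {b c : E → ℝ} {x : E} (hb : Good b x) (hc : Good c x) :
    Good (fun y => b y + c y) x := by
  refine ⟨hb.smooth.add hc.smooth, add_nonneg hb.nonneg hc.nonneg, fun v => ?_, fun v => ?_⟩
  · rw [lev_add hb.smooth hc.smooth]
    exact add_nonneg (hb.lev_nonneg v) (hc.lev_nonneg v)
  · have e : gsq (fun y => b y + c y) x v = gsq b x v + gsq c x v + 2 * gmul b c x v := by
      rw [gsq_eq, gsq_eq, gsq_eq, fderiv_fun_add (diff1 hb.smooth) (diff1 hc.smooth)]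
      unfold gmul
      simp only [add_apply]
      ring
    rw [e, lev_add hb.smooth hc.smooth]
    have h1 := hb.grad v
    have h2 := hc.grad v
    have h3 := gmul_sq_le b c x v
    have n1 := hb.nonneg
    have n2 := hc.nonneg
    have l1 := hb.lev_nonneg v
    have l2 := hc.lev_nonneg v
    have g1 := gsq_nonneg b x v
    have g2 := gsq_nonneg c x v
    have h4 : gsq b x v * gsq c x v ≤ (b x * lev b x v) * (c x * lev c x v) :=
      mul_le_mul h1 h2 g2 (mul_nonneg n1 l1)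
    have h5 : (2 * gmul b c x v) ^ 2 ≤ (b x * lev c x v + c x * lev b x v) ^ 2 := by
      nlinarith [sq_nonneg (b x * lev c x v - c x * lev b x v)]
    have h6 := abs_le_of_sq_le_sq' h5 (add_nonneg (mul_nonneg n1 l2) (mul_nonneg n2 l1))
    nlinarith [h6.2]

theorem Good.zero (x : E) : Good (fun _ : E => (0 : ℝ)) x := by
  refine ⟨contDiffAt_const, le_rfl, fun v => by rw [lev_const], fun v => ?_⟩
  rw [gsq_eq]
  simp

theorem Good.sum {ι : Type*} (s : Finset ι) {b : ι → E → ℝ} {x : E} (hb : ∀ i ∈ s, Good (b i) x) :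
    Good (fun y => ∑ i ∈ s, b i y) x := by
  classical
  induction s using Finset.induction_on with
  | empty => simpa using Good.zero x
  | insert a s ha ih =>
    have h1 := hb a (Finset.mem_insert_self a s)
    have h2 := ih fun i hi => hb i (Finset.mem_insert_of_mem hi)
    have := h1.add h2
    simpa [Finset.sum_insert ha] using this

theorem lev_sum {ι : Type*} (s : Finset ι) {b : ι → E → ℝ} {x : E}
    (hb : ∀ i ∈ s, ContDiffAt ℝ 2 (b i) x) (v : E) :
    lev (fun y => ∑ i ∈ s, b i y) x v = ∑ i ∈ s, lev (b i) x v := by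
  classical
  induction s using Finset.induction_on with
  | empty => simpa using lev_const (x := x) 0 v
  | insert a s ha ih =>
    have h1 := hb a (Finset.mem_insert_self a s)
    have h3 : ContDiffAt ℝ 2 (fun y => ∑ i ∈ s, b i y) x :=
      ContDiffAt.sum fun i hi => hb i (Finset.mem_insert_of_mem hi)
    have h2 := ih fun i hi => hb i (Finset.mem_insert_of_mem hi)
    simp only [Finset.sum_insert ha]
    rw [lev_add h1 h3, h2]

theorem pt_good {gam tau : ℝ} (h0 : 0 < gam) (h1 : gam < 1) (ht : 0 < tau) {h : E → ℂ} {x : E}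
    (hh : AnalyticAt ℂ h x) : Good (pt gam tau h) x := by
  have hT := T_pos ht h x
  refine ⟨pt_contDiffAt ht hh, Real.rpow_nonneg hT.le _, fun v => ?_, fun v => pt_gsq_le h0 h1 ht hh v⟩
  refine le_trans ?_ (pt_lev_ge h0 h1 ht hh v)
  have hp : 0 ≤ (‖h x‖ ^ 2 + tau) ^ (gam - 1) := Real.rpow_nonneg hT.le _
  positivity

end sums

/-! ### The local function -/

section loc

variable {E : Type*} [NormedAddCommGroup E] [NormedSpace ℂ E]

/-- iterated derivatives in the direction `e`. -/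
noncomputable def dit (e : E) (s : E → ℂ) : ℕ → E → ℂ
  | 0 => s
  | r + 1 => fun y => fderiv ℂ (dit e s r) y e

theorem dit_analyticAt {e : E} {s : E → ℂ} {x : E} (hs : AnalyticAt ℂ s x) (r : ℕ) :
    AnalyticAt ℂ (dit e s r) x := by
  induction r with
  | zero => exact hs
  | succ r ih =>
    have h1 : AnalyticAt ℂ (fderiv ℂ (dit e s r)) x := ih.fderiv
    exact ((ContinuousLinearMap.apply ℂ ℂ e).analyticAt _).comp h1

/-- the function of 11.1. -/
noncomputable def bf (gam tau : ℝ) (e : E) (s : E → ℂ) (M : ℕ) (y : E) : ℝ :=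
  ∑ r ∈ Finset.range M, pt gam tau (dit e s r) y

theorem bf_good {gam tau : ℝ} (h0 : 0 < gam) (h1 : gam < 1) (ht : 0 < tau) {e : E} {s : E → ℂ}
    {x : E} (hs : AnalyticAt ℂ s x) (M : ℕ) : Good (bf gam tau e s M) x :=
  Good.sum _ fun r _ => pt_good h0 h1 ht (dit_analyticAt hs r)

theorem bf_contDiffAt {gam tau : ℝ} (ht : 0 < tau) {e : E} {s : E → ℂ}
    {x : E} (hs : AnalyticAt ℂ s x) (M : ℕ) {n : WithTop ℕ∞} : ContDiffAt ℝ n (bf gam tau e s M) x :=
  ContDiffAt.sum fun r _ => pt_contDiffAt ht (dit_analyticAt hs r)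

theorem bf_lev_ge {gam : ℝ} (h0 : 0 < gam) (h1 : gam < 1) {qs : ℝ} (hqs : 0 < qs) (M : ℕ) :
    ∃ c : ℝ, 0 < c ∧ ∀ (tau : ℝ), 0 < tau → ∀ (e : E) (s : E → ℂ) (x : E), AnalyticAt ℂ s x →
      qs ≤ ‖dit e s M x‖ ^ 2 →
      c * (‖s x‖ ^ 2 + tau) ^ (-(dexp gam M)) ≤ 1 + lev (bf gam tau e s M) x e := by
  obtain ⟨c, hc, hch⟩ := chain h0 h1 hqs M
  refine ⟨c * gam ^ 2, by positivity, fun tau ht e s x hs hM => ?_⟩
  have h2 := hch (fun r => ‖dit e s r x‖ ^ 2) tau ht (fun r => by positivity) hM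
  have h3 : lev (bf gam tau e s M) x e
      = ∑ r ∈ Finset.range M, lev (pt gam tau (dit e s r)) x e :=
    lev_sum _ (fun r _ => pt_contDiffAt ht (dit_analyticAt hs r)) e
  have h4 : ∑ r ∈ Finset.range M, gam ^ 2 *
      ((‖dit e s r x‖ ^ 2 + tau) ^ (gam - 1) * ‖dit e s (r + 1) x‖ ^ 2)
      ≤ lev (bf gam tau e s M) x e := by
    rw [h3]
    exact Finset.sum_le_sum fun r _ => pt_lev_ge h0 h1 ht (dit_analyticAt hs r) e
  rw [← Finset.mul_sum] at h4
  have hg : gam ^ 2 ≤ 1 := pow_le_one₀ h0.le h1.le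
  have h5 := mul_le_mul_of_nonneg_left h2 (sq_nonneg gam)
  have e0 : dit e s 0 x = s x := rfl
  simp only [e0] at h5
  calc c * gam ^ 2 * (‖s x‖ ^ 2 + tau) ^ (-(dexp gam M))
      = gam ^ 2 * (c * (‖s x‖ ^ 2 + tau) ^ (-(dexp gam M))) := by ring
    _ ≤ gam ^ 2 * (1 + ∑ r ∈ Finset.range M,
        (‖dit e s r x‖ ^ 2 + tau) ^ (gam - 1) * ‖dit e s (r + 1) x‖ ^ 2) := h5
    _ ≤ 1 + lev (bf gam tau e s M) x e := by linarith

end loc

/-! ### Finite order of vanishing in some direction -/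

section dir

variable {E : Type*} [NormedAddCommGroup E] [NormedSpace ℂ E]

theorem line_analyticAt {s : E → ℂ} {e y : E} {w : ℂ} (hs : AnalyticAt ℂ s (y + w • e)) :
    AnalyticAt ℂ (fun w : ℂ => s (y + w • e)) w := by
  have h1 : AnalyticAt ℂ (fun w : ℂ => y + w • e) w :=
    analyticAt_const.add (analyticAt_id.smul analyticAt_const)
  exact AnalyticAt.fun_comp (f := fun w : ℂ => y + w • e) hs h1

theorem iteratedDeriv_line {s : E → ℂ} {p e : E} (hs : AnalyticAt ℂ s p) (M : ℕ) :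
    iteratedDeriv M (fun w : ℂ => s (p + w • e)) =ᶠ[𝓝 0] fun w => dit e s M (p + w • e) := by
  induction M with
  | zero => exact Filter.Eventually.of_forall fun w => by simp [dit]
  | succ M ih =>
    rw [iteratedDeriv_succ]
    refine ih.deriv.trans ?_
    have hc : ContinuousAt (fun w : ℂ => p + w • e) 0 := by fun_prop
    have h0 : Tendsto (fun w : ℂ => p + w • e) (𝓝 0) (𝓝 p) := by
      have := hc.tendsto
      simpa using this
    filter_upwards [h0.eventually hs.eventually_analyticAt] with w hw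
    have h1 : HasFDerivAt (dit e s M) (fderiv ℂ (dit e s M) (p + w • e)) (p + w • e) :=
      (dit_analyticAt hw M).differentiableAt.hasFDerivAt
    have h2 : HasDerivAt (fun w : ℂ => p + w • e) e w := by
      have := ((hasDerivAt_id w).smul_const e).const_add p
      simpa using this
    exact (h1.comp_hasDerivAt w h2).deriv

theorem exists_dir {s : E → ℂ} {p : E} (hs : AnalyticAt ℂ s p) (hne : ¬ ∀ᶠ x in 𝓝 p, s x = 0) :
    ∃ (e : E) (M : ℕ), dit e s M p ≠ 0 := by
  by_contra hcon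
  push Not at hcon
  apply hne
  obtain ⟨r, hr, han⟩ := hs.exists_ball_analyticOnNhd
  filter_upwards [Metric.ball_mem_nhds p hr] with x hx
  set e := x - p with he
  have hen : ‖e‖ < r := by rwa [he, ← dist_eq_norm]
  have hg0 : AnalyticAt ℂ (fun w : ℂ => s (p + w • e)) 0 :=
    line_analyticAt (by simpa using hs)
  have hz : ∀ᶠ w in 𝓝 (0 : ℂ), s (p + w • e) = 0 := by
    have hps := hg0.hasFPowerSeriesAt
    rw [hps.locally_zero_iff]
    have : (fun n => iteratedDeriv n (fun w : ℂ => s (p + w • e)) 0 / (n.factorial : ℂ))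
        = fun _ => (0 : ℂ) := by
      funext n
      rw [(iteratedDeriv_line hs n).self_of_nhds]
      have := hcon e n
      simp [this]
    rw [this]
    ext n
    simp [FormalMultilinearSeries.ofScalars]
  set U : Set ℂ := {w : ℂ | ‖w • e‖ < r} with hU
  have hUc : Convex ℝ U := by
    have : U = (fun w : ℂ => w • e) ⁻¹' Metric.ball (0 : E) r := by
      ext w
      simp [hU]
    rw [this]
    exact (convex_ball (0 : E) r).is_linear_preimage
      ⟨fun a b => add_smul a b e, fun c a => by rw [smul_assoc]⟩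
  have hanU : AnalyticOnNhd ℂ (fun w : ℂ => s (p + w • e)) U := by
    intro w hw
    apply line_analyticAt
    apply han
    have hw' : ‖w • e‖ < r := hw
    simpa [Metric.mem_ball, dist_eq_norm] using hw'
  have h0U : (0 : ℂ) ∈ U := by simp [hU, hr]
  have h1U : (1 : ℂ) ∈ U := by simpa [hU] using hen
  have := hanU.eqOn_zero_of_preconnected_of_eventuallyEq_zero hUc.isPreconnected h0U hz h1U
  simpa [he] using this

/-- **Local form of 11.1.** -/
theorem local_bf [CompleteSpace E] {s : E → ℂ} {p : E} (hs : AnalyticAt ℂ s p)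
    (hne : ¬ ∀ᶠ x in 𝓝 p, s x = 0) {gam : ℝ} (h0 : 0 < gam) (h1 : gam < 1) :
    ∃ (e : E) (M : ℕ) (r c C : ℝ), 0 < r ∧ 0 < c ∧ 0 < C ∧
      (∀ x ∈ Metric.ball p r, AnalyticAt ℂ s x) ∧
      ∀ tau : ℝ, 0 < tau → tau ≤ 1 → ∀ x ∈ Metric.ball p r,
        Good (bf gam tau e s M) x ∧ bf gam tau e s M x ≤ C ∧
        c * (‖s x‖ ^ 2 + tau) ^ (-(dexp gam M)) ≤ 1 + lev (bf gam tau e s M) x e := by
  obtain ⟨e, M, hM⟩ := exists_dir hs hne
  set qs : ℝ := ‖dit e s M p‖ ^ 2 / 2 with hqs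
  have hqp : 0 < ‖dit e s M p‖ ^ 2 := by
    have := norm_pos_iff.2 hM
    positivity
  have hqs0 : 0 < qs := by positivity
  have hqs1 : qs < ‖dit e s M p‖ ^ 2 := by rw [hqs]; linarith
  obtain ⟨c, hc, hcc⟩ := bf_lev_ge (E := E) h0 h1 hqs0 M
  have hev1 : ∀ᶠ x in 𝓝 p, qs < ‖dit e s M x‖ ^ 2 := by
    have : ContinuousAt (fun x => ‖dit e s M x‖ ^ 2) p := by
      have h := (dit_analyticAt (e := e) hs M).continuousAt
      exact (h.norm).pow 2
    exact this.eventually (lt_mem_nhds hqs1)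
  have hev2 : ∀ᶠ x in 𝓝 p, ∀ r ∈ Finset.range M, ‖dit e s r x‖ ^ 2 < ‖dit e s r p‖ ^ 2 + 1 := by
    rw [Filter.eventually_all_finset]
    intro r _
    have : ContinuousAt (fun x => ‖dit e s r x‖ ^ 2) p := by
      have h := (dit_analyticAt (e := e) hs r).continuousAt
      exact (h.norm).pow 2
    exact this.eventually (gt_mem_nhds (by linarith))
  obtain ⟨r, hr, hrb⟩ := Metric.eventually_nhds_iff_ball.1
    (hev1.and (hev2.and hs.eventually_analyticAt))
  refine ⟨e, M, r, c, 1 + ∑ r ∈ Finset.range M, (‖dit e s r p‖ ^ 2 + 2) ^ gam, hr, hc,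
    by positivity, fun x hx => (hrb x hx).2.2, fun tau ht ht1 x hx => ?_⟩
  obtain ⟨hx1, hx2, hx3⟩ := hrb x hx
  refine ⟨bf_good h0 h1 ht hx3 M, ?_, hcc tau ht e s x hx3 hx1.le⟩
  have : bf gam tau e s M x ≤ ∑ r ∈ Finset.range M, (‖dit e s r p‖ ^ 2 + 2) ^ gam := by
    unfold bf pt
    refine Finset.sum_le_sum fun r hr => ?_
    exact Real.rpow_le_rpow (by positivity) (by linarith [hx2 r hr]) h0.le
  linarith

end dir

end Crest.Agent.R269.Bf_653
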