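import Mathlib
import Crest.Agent.R269.BGl1_653
import Crest.Agent.R269.Bf_653

/-! Row 269, leaf 11.1 (helper653): the local piece of the function `b`: cut-off of
`bf gam tau e s M ∘ ratio` in a cone chart. -/

set_option autoImplicit false
set_option linter.unusedSectionVars false

open Complex Filter Topology MvPolynomial Crest.AlgGeometry.ProjEmb
open scoped ContDiff ComplexConjugate

namespace Crest.Agent.R269.BGl2_653

open Crest.Agent.R269.Geo_328
open Crest.Agent.R269.Defs_58 (SmX omg)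
open Crest.Agent.R269.LevC_653 Crest.Agent.R269.Bf_653 Crest.Agent.R269.BGl1_653

noncomputable section

/-! ### cut-offs -/

section cut

variable {E : Type*} [NormedAddCommGroup E] [NormedSpace ℂ E]

theorem lev_cut {b χ : E → ℝ} {x : E} (hb : Good b x) (hχ : ContDiffAt ℝ 2 χ x) {C : ℝ}
    (hC : b x ≤ C) (v : E) :
    -(C * |lev (fun y => χ y ^ 2) x v| + 8 * C * gsq χ x v) ≤
      lev (fun y => χ y ^ 2 * b y) x v := by
  have hb2 := hb.smooth
  have hχ2 : ContDiffAt ℝ 2 (fun y => χ y ^ 2) x := hχ.pow 2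
  rw [lev_mul (u := fun y => χ y ^ 2) (w := b) hχ2 hb2 v]
  have hL := hb.lev_nonneg v
  have hb0 := hb.nonneg
  have hC0 : 0 ≤ C := hb0.trans hC
  have hg := gsq_nonneg χ x v
  have e1 : gmul (fun y => χ y ^ 2) b x v = 2 * χ x * gmul χ b x v := by
    have : fderiv ℝ (fun y => χ y ^ 2) x = (2 * χ x) • fderiv ℝ χ x := by
      have := (diff1 hχ).hasFDerivAt.pow 2
      rw [this.fderiv]
      simp
    unfold gmul
    rw [this]
    simp only [smul_apply, smul_eq_mul]
    ring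
  have h1 := gmul_sq_le χ b x v
  have h2 : gsq b x v ≤ C * lev b x v :=
    (hb.grad v).trans (mul_le_mul_of_nonneg_right hC hL)
  have h3 : gmul χ b x v ^ 2 ≤ gsq χ x v * (C * lev b x v) :=
    h1.trans (mul_le_mul_of_nonneg_left h2 hg)
  set X := χ x ^ 2 * lev b x v / 2 with hX
  set Y := 8 * C * gsq χ x v with hY
  have hX0 : 0 ≤ X := by positivity
  have hY0 : 0 ≤ Y := by positivity
  have h4 : (4 * χ x * gmul χ b x v) ^ 2 ≤ (X + Y) ^ 2 := by
    have : (4 * χ x * gmul χ b x v) ^ 2 = 16 * χ x ^ 2 * gmul χ b x v ^ 2 := by ring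
    rw [this]
    have h5 : 16 * χ x ^ 2 * gmul χ b x v ^ 2 ≤ 16 * χ x ^ 2 * (gsq χ x v * (C * lev b x v)) :=
      mul_le_mul_of_nonneg_left h3 (by positivity)
    have h6 : 16 * χ x ^ 2 * (gsq χ x v * (C * lev b x v)) = 4 * X * Y := by
      rw [hX, hY]; ring
    nlinarith [sq_nonneg (X - Y)]
  have h7 := abs_le_of_sq_le_sq' h4 (add_nonneg hX0 hY0)
  have h8 : -(C * |lev (fun y => χ y ^ 2) x v|) ≤ b x * lev (fun y => χ y ^ 2) x v := by
    have k1 : |b x * lev (fun y => χ y ^ 2) x v| ≤ C * |lev (fun y => χ y ^ 2) x v| := by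
      rw [abs_mul, abs_of_nonneg hb0]
      exact mul_le_mul_of_nonneg_right hC (abs_nonneg _)
    exact (abs_le.1 k1).1
  rw [e1]
  have h9 : 0 ≤ χ x ^ 2 * lev b x v := by positivity
  have h10 : X = χ x ^ 2 * lev b x v / 2 := hX
  linarith [h7.1]

theorem Good.comp_hol {E' : Type*} [NormedAddCommGroup E'] [NormedSpace ℂ E'] [CompleteSpace E']
    {b : E' → ℝ}
    {F : E → E'} {x : E} (hb : Good b (F x)) (hF : AnalyticAt ℂ F x) :
    Good (fun y => b (F y)) x := by
  have hF2 : ContDiffAt ℝ 2 F x := (hF.contDiffAt (n := 2)).restrict_scalars ℝ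
  refine ⟨hb.smooth.comp x hF2, hb.nonneg, fun v => ?_, fun v => ?_⟩
  · rw [Lev_901.lev_comp_hol hb.smooth hF]
    exact hb.lev_nonneg _
  · rw [Lev_901.lev_comp_hol hb.smooth hF, Lev_901.gsq_comp_hol (diff1 hb.smooth)
      hF.differentiableAt]
    exact hb.grad _

end cut

/-! ### the chart coordinate -/

section chart

variable {N n : ℕ} {I : Ideal (HomCoordRing N)} {p : EE N} (C : ConeChart I n p)

/-- the ratio coordinate of a chart -/
def zt (q : EE N) : CC n := ratio C.i C.J p q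

theorem zt_smul {c : ℂ} (hc : c ≠ 0) (q : EE N) : zt C (c • q) = zt C q := by
  funext k
  simp only [zt, ratio, Pi.smul_apply, smul_eq_mul]
  rw [mul_div_mul_left _ _ hc]

theorem zt_self : zt C p = 0 := by
  funext k
  simp [zt, ratio]

theorem zt_sigma {z : CC n} (hz : z ∈ Metric.ball (0 : CC n) C.R) : zt C (C.σ z) = z := by
  funext k
  simp only [zt, ratio, C.σ_i z hz, C.σ_J z hz k]
  ring

theorem zt_analyticAt {q : EE N} (hq : q C.i ≠ 0) : AnalyticAt ℂ (zt C) q := by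
  refine AnalyticAt.pi fun k => ?_
  unfold zt ratio
  have h1 : AnalyticAt ℂ (fun q : EE N => q (C.J k)) q :=
    (ContinuousLinearMap.proj (R := ℂ) (φ := fun _ : Fin (N + 1) => ℂ) (C.J k)).analyticAt q
  have h2 : AnalyticAt ℂ (fun q : EE N => q C.i) q :=
    (ContinuousLinearMap.proj (R := ℂ) (φ := fun _ : Fin (N + 1) => ℂ) C.i).analyticAt q
  exact (h1.div h2 hq).sub analyticAt_const

/-- the part of the chart cone over the ball of radius `r` -/
def Wb (r : ℝ) : Set (EE N) := {q | q ∈ C.W ∧ zt C q ∈ Metric.ball (0 : CC n) r}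

theorem Wb_open (r : ℝ) : IsOpen (Wb C r) := by
  have h : ContinuousOn (zt C) C.W := fun q hq =>
    (zt_analyticAt C (C.W_ne q hq)).continuousAt.continuousWithinAt
  exact h.isOpen_inter_preimage C.W_open Metric.isOpen_ball

theorem Wb_smul (r : ℝ) (c : ℂ) (hc : c ≠ 0) (q : EE N) (hq : q ∈ Wb C r) : c • q ∈ Wb C r :=
  ⟨C.W_smul c hc q hq.1, by rw [zt_smul C hc]; exact hq.2⟩

theorem self_mem_Wb {r : ℝ} (hr : 0 < r) : p ∈ Wb C r :=
  ⟨C.mem_W, by rw [zt_self]; exact Metric.mem_ball_self hr⟩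

/-- derivative of the coordinate along the section -/
theorem fderiv_zt {z : CC n} (hz : z ∈ Metric.ball (0 : CC n) C.R) {c : ℂ} (hc : c ≠ 0) (e : CC n) :
    fderiv ℂ (zt C) (c • C.σ z) (c • fderiv ℂ C.σ z e) = e := by
  have h1 : HasFDerivAt (fun y => c • C.σ y) (c • fderiv ℂ C.σ z) z :=
    (C.an z hz).differentiableAt.hasFDerivAt.const_smul c
  have hne : (c • C.σ z) C.i ≠ 0 := by
    simp only [Pi.smul_apply, smul_eq_mul, C.σ_i z hz, mul_one]
    exact hc
  have h2 : HasFDerivAt (zt C) (fderiv ℂ (zt C) (c • C.σ z)) (c • C.σ z) :=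
    (zt_analyticAt C hne).differentiableAt.hasFDerivAt
  have h3 : HasFDerivAt (fun y => zt C (c • C.σ y))
      ((fderiv ℂ (zt C) (c • C.σ z)).comp (c • fderiv ℂ C.σ z)) z := h2.comp z h1
  have h4 : (fun y => zt C (c • C.σ y)) =ᶠ[𝓝 z] fun y => y := by
    filter_upwards [Metric.isOpen_ball.mem_nhds hz] with y hy
    rw [zt_smul C hc, zt_sigma C hy]
  have h5 : HasFDerivAt (fun y : CC n => y)
      ((fderiv ℂ (zt C) (c • C.σ z)).comp (c • fderiv ℂ C.σ z)) z := h4.hasFDerivAt_iff.1 h3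
  have h6 := h5.unique (hasFDerivAt_id z)
  have h7 := DFunLike.congr_fun h6 e
  simpa using h7

end chart

/-! ### the local piece -/

section loc

variable {N n : ℕ} {I : Ideal (HomCoordRing N)}

theorem local_pack (hI : I.IsPrime) (hX : IsSmoothProjective I n) {p : EE N}
    (C : ConeChart I n p) {ns : EE N → ℝ} (hns : ∀ q ∈ Cone I, 0 ≤ ns q)
    (hinv : ∀ q ∈ Cone I, ∀ c : ℂ, c ≠ 0 → ns (c • q) = ns q)
    {s : CC n → ℂ} (hs : AnalyticAt ℂ s 0) (hs0 : ¬ ∀ᶠ z in 𝓝 0, s z = 0) {C1 : ℝ}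
    (hC1 : ∀ᶠ z in 𝓝 (0 : CC n), ‖s z‖ ^ 2 ≤ C1 * ns (C.σ z)) :
    ∃ (O : Set (EE N)) (u : ℝ → EE N → ℝ) (dl K B c : ℝ), IsOpen O ∧ p ∈ O ∧
      (∀ c : ℂ, c ≠ 0 → ∀ q ∈ O, c • q ∈ O) ∧ 0 < dl ∧ 0 ≤ K ∧ 0 ≤ B ∧ 0 < c ∧
      ∀ tau : ℝ, 0 < tau → tau ≤ 1 →
        SmX I (u tau) ∧ (∀ q ∈ Cone I, 0 ≤ u tau q ∧ u tau q ≤ B) ∧
        (∀ q ∈ Cone I, ∀ v ∈ Tan I q, -(B * omg q v) ≤ lev (u tau) q v) ∧
        (∀ q ∈ Cone I, q ∈ O → (∀ v ∈ Tan I q, 0 ≤ lev (u tau) q v) ∧
          ∃ e ∈ Tan I q, omg q e ≤ K ∧ c * (ns q + tau) ^ (-dl) ≤ 1 + lev (u tau) q e) := by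
  classical
  obtain ⟨e, M, r, c, Cb, hr, hc, hCb, hsan, hloc⟩ := local_bf hs hs0 (gam := 1 / 2)
    (by norm_num) (by norm_num)
  have h0R : (0 : CC n) ∈ Metric.ball (0 : CC n) C.R := Metric.mem_ball_self C.R_pos
  -- bound of the derivative of the section
  set Kσ : ℝ := Geo_328.nsq (fderiv ℂ C.σ 0 e) + 1 with hKσ
  have hK1 : ∀ᶠ z in 𝓝 (0 : CC n), Geo_328.nsq (fderiv ℂ C.σ z e) < Kσ := by
    have h1 : ContinuousAt (fun z => fderiv ℂ C.σ z e) 0 := by
      have h2 : AnalyticAt ℂ (fderiv ℂ C.σ) 0 := (C.an 0 h0R).fderiv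
      exact (ContinuousLinearMap.apply ℂ (EE N) e).continuous.continuousAt.comp h2.continuousAt
    have h3 : ContinuousAt (fun z => Geo_328.nsq (fderiv ℂ C.σ z e)) 0 :=
      (DictA_886.continuous_nsq.continuousAt).comp h1
    exact h3.eventually (gt_mem_nhds (by rw [hKσ]; linarith))
  obtain ⟨r1, hr1, hrb⟩ := Metric.eventually_nhds_iff_ball.1 (hC1.and hK1)
  set r0 : ℝ := min (min r r1) C.R with hr0
  have hr0p : 0 < r0 := lt_min (lt_min hr hr1) C.R_pos
  have hr0r : r0 ≤ r := (min_le_left _ _).trans (min_le_left _ _)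
  have hr0r1 : r0 ≤ r1 := (min_le_left _ _).trans (min_le_right _ _)
  have hr0R : r0 ≤ C.R := min_le_right _ _
  have hr2 : r0 / 2 < r0 := by linarith
  have hr2p : 0 < r0 / 2 := by linarith
  -- the cut-off
  set Kc : Set (VV N) := (fun z => PP (C.σ z)) '' Metric.closedBall (0 : CC n) (r0 / 2) with hKc
  have hKcc : IsCompact Kc := by
    refine (isCompact_closedBall (0 : CC n) (r0 / 2)).image_of_continuousOn ?_
    intro z hz
    have hzR : z ∈ Metric.ball (0 : CC n) C.R := by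
      rw [Metric.mem_closedBall] at hz
      rw [Metric.mem_ball]
      linarith
    exact ((CAtl_886.contDiffAt_PP (C.σ_cone z hzR).2).continuousAt.comp
      (C.an z hzR).continuousAt).continuousWithinAt
  obtain ⟨θ, hθs, hθ1, hθ0⟩ := DictA_886.exists_cut (Wb_open C r0) (Wb_smul C r0) hKcc (by
    rintro q hq ⟨z, hz, hzq⟩
    have hz' : z ∈ Metric.ball (0 : CC n) r0 := by
      rw [Metric.mem_closedBall] at hz
      rw [Metric.mem_ball]
      linarith
    have hzR := Metric.ball_subset_ball hr0R hz'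
    obtain ⟨c, hc, h⟩ := CAtl_886.exists_smul_of_PP_eq (C.σ_cone z hzR).2 hq hzq
    rw [h]
    exact Wb_smul C r0 c hc _ ⟨C.σ_W z hzR, by rw [zt_sigma C hzR]; exact hz'⟩)
  set χ : EE N → ℝ := fun x => θ (PP x) with hχ
  have hχs : SmX I χ := by
    refine ⟨fun q hq => hθs.contDiffAt.comp q (CAtl_886.contDiffAt_PP hq.2), fun q hq c hc => ?_⟩
    simp only [hχ]
    rw [CAtl_886.PP_smul hc]
  have hχ2s : SmX I (fun x => χ x ^ 2) :=
    ⟨fun q hq => (hχs.1 q hq).pow 2, fun q hq c hc => by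
      show χ (c • q) ^ 2 = χ q ^ 2
      rw [hχs.2 q hq c hc]⟩
  obtain ⟨Ca, hCa, hCab⟩ := exists_bound hI hX hχs
  obtain ⟨Cc, hCc, hCcb⟩ := exists_bound hI hX hχ2s
  have hnsC1 : ∀ z ∈ Metric.ball (0 : CC n) r0, ‖s z‖ ^ 2 ≤ C1 * ns (C.σ z) := fun z hz =>
    (hrb z (Metric.ball_subset_ball hr0r1 hz)).1
  set u : ℝ → EE N → ℝ := fun tau x =>
    if x ∈ Wb C r0 then χ x ^ 2 * bf (1 / 2) tau e s M (zt C x) else 0 with hu
  set Dl : ℝ := dexp (1 / 2) M with hDl
  have hDlp : 0 < Dl := dexp_pos (by norm_num) M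
  set C2 : ℝ := max C1 1 with hC2
  have hC2p : 0 < C2 := lt_of_lt_of_le one_pos (le_max_right _ _)
  refine ⟨Wb C (r0 / 2), u, Dl, Kσ, Cc * Cb + (Cb * Cc + 8 * Cb * Ca), c * C2 ^ (-Dl),
    Wb_open C _, self_mem_Wb C hr2p, Wb_smul C _, hDlp, ?_, by positivity, by positivity, ?_⟩
  · rw [hKσ]
    have := Frm290.nsq_nonneg (fderiv ℂ C.σ 0 e)
    have h' : (0 : ℝ) ≤ Geo_328.nsq (fderiv ℂ C.σ 0 e) := this
    linarith
  intro tau ht ht1
  -- local formula near points of `Wb C r0`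
  have hloc' : ∀ q ∈ Wb C r0, u tau =ᶠ[𝓝 q]
      fun x => χ x ^ 2 * bf (1 / 2) tau e s M (zt C x) := by
    intro q hq
    filter_upwards [(Wb_open C r0).mem_nhds hq] with x hx
    exact if_pos hx
  have hzero : ∀ q ∈ Cone I, q ∉ Wb C r0 → u tau =ᶠ[𝓝 q] fun _ => (0 : ℝ) := by
    intro q hq hqW
    have h1 : ∀ᶠ x in 𝓝 q, θ (PP x) = 0 :=
      (CAtl_886.contDiffAt_PP hq.2).continuousAt.eventually (hθ0 q hq.2 hqW)
    filter_upwards [h1] with x hx
    simp only [hu, hχ, hx]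
    split_ifs
    · simp
    · rfl
  have hGood : ∀ q ∈ Wb C r0, Good (fun x => bf (1 / 2) tau e s M (zt C x)) q ∧
      bf (1 / 2) tau e s M (zt C q) ≤ Cb := by
    intro q hq
    have h1 := hloc tau ht ht1 (zt C q) (Metric.ball_subset_ball hr0r hq.2)
    exact ⟨Good.comp_hol h1.1 (zt_analyticAt C (C.W_ne q hq.1)), h1.2.1⟩
  have hsm : SmX I (u tau) := by
    refine ⟨fun q hq => ?_, fun q hq c hc => ?_⟩
    · by_cases hqW : q ∈ Wb C r0
      · refine ContDiffAt.congr_of_eventuallyEq ?_ (hloc' q hqW)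
        refine (hχ2s.1 q hq).mul ?_
        have h1 : ContDiffAt ℝ ∞ (bf (1 / 2) tau e s M) (zt C q) :=
          bf_contDiffAt ht (hsan _ (Metric.ball_subset_ball hr0r hqW.2)) M
        have h2 : ContDiffAt ℝ ∞ (zt C) q :=
          ((zt_analyticAt C (C.W_ne q hqW.1)).contDiffAt (n := ∞)).restrict_scalars ℝ
        exact h1.comp q h2
      · exact contDiffAt_const.congr_of_eventuallyEq (hzero q hq hqW)
    · have h1 : c • q ∈ Wb C r0 ↔ q ∈ Wb C r0 := by
        refine ⟨fun h => ?_, fun h => Wb_smul C r0 c hc q h⟩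
        have := Wb_smul C r0 c⁻¹ (inv_ne_zero hc) _ h
        rwa [smul_smul, inv_mul_cancel₀ hc, one_smul] at this
      simp only [hu, h1]
      split_ifs with h
      · rw [hχs.2 q hq c hc, zt_smul C hc]
      · rfl
  refine ⟨hsm, fun q hq => ?_, fun q hq v hv => ?_, fun q hq hqO => ?_⟩
  · -- bounds
    by_cases hqW : q ∈ Wb C r0
    · have h1 : u tau q = χ q ^ 2 * bf (1 / 2) tau e s M (zt C q) := (hloc' q hqW).self_of_nhds
      have h2 := hGood q hqW
      have h3 : 0 ≤ bf (1 / 2) tau e s M (zt C q) := h2.1.nonneg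
      have h4 : χ q ^ 2 ≤ Cc := by
        have := (hCcb q hq).1
        exact (le_abs_self _).trans this
      rw [h1]
      refine ⟨by positivity, ?_⟩
      have h5 : χ q ^ 2 * bf (1 / 2) tau e s M (zt C q) ≤ Cc * Cb :=
        mul_le_mul h4 h2.2 h3 hCc
      have h6 : 0 ≤ Cb * Cc + 8 * Cb * Ca := by positivity
      linarith
    · have h1 : u tau q = 0 := (hzero q hq hqW).self_of_nhds
      rw [h1]
      exact ⟨le_rfl, by positivity⟩
  · -- lower bound of the Levi form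
    have hom := omg_nonneg hq.2 v
    by_cases hqW : q ∈ Wb C r0
    · rw [lev_congr (hloc' q hqW) v]
      have h2 := hGood q hqW
      have h3 := lev_cut h2.1 ((hχs.1 q hq).of_le two_le) h2.2 v
      have h4 := ((hCcb q hq).2 v hv).1
      have h5 := ((hCab q hq).2 v hv).2
      refine le_trans ?_ h3
      have k1 : Cb * |lev (fun y => χ y ^ 2) q v| ≤ Cb * (Cc * omg q v) :=
        mul_le_mul_of_nonneg_left h4 hCb.le
      have k2 : 8 * Cb * gsq χ q v ≤ 8 * Cb * (Ca * omg q v) :=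
        mul_le_mul_of_nonneg_left h5 (by positivity)
      have k3 : 0 ≤ Cc * Cb * omg q v := by positivity
      linarith
    · rw [lev_congr (hzero q hq hqW) v, lev_const]
      have : 0 ≤ (Cc * Cb + (Cb * Cc + 8 * Cb * Ca)) * omg q v := by positivity
      linarith
  · -- on the inner part
    have hqW : q ∈ Wb C r0 := ⟨hqO.1, Metric.ball_subset_ball hr2.le hqO.2⟩
    have h2 := hGood q hqW
    have Cq := Classical.choice (Chart_632.chartStmt N n I hI hX q hq)
    have hev : ∀ᶠ x in 𝓝[Cone I] q, u tau x = bf (1 / 2) tau e s M (zt C x) := by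
      have h3 : ∀ᶠ x in 𝓝[Cone I] q, x ∈ Wb C (r0 / 2) :=
        mem_nhdsWithin_of_mem_nhds ((Wb_open C (r0 / 2)).mem_nhds hqO)
      filter_upwards [h3, self_mem_nhdsWithin] with x hx hxC
      have hxW : x ∈ Wb C r0 := ⟨hx.1, Metric.ball_subset_ball hr2.le hx.2⟩
      have h4 : PP x ∈ Kc := by
        refine ⟨zt C x, Metric.ball_subset_closedBall hx.2, ?_⟩
        obtain ⟨h5, h6⟩ := C.surj x hxC hx.1
        have h7 : PP (x C.i • C.σ (zt C x)) = PP (C.σ (zt C x)) :=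
          CAtl_886.PP_smul (C.W_ne x hx.1) _
        show PP (C.σ (zt C x)) = PP x
        rw [← h7]
        exact congrArg PP h6.symm
      have h8 : χ x = 1 := hθ1 _ h4
      simp only [hu]
      rw [if_pos hxW, h8]
      ring
    have hlev : ∀ v ∈ Tan I q, lev (u tau) q v = lev (fun x => bf (1 / 2) tau e s M (zt C x)) q v :=
      fun v hv => LevCone_901.lev_congr_cone hX hq Cq ((hsm.1 q hq).of_le two_le)
        h2.1.smooth hev hv
    refine ⟨fun v hv => by rw [hlev v hv]; exact h2.1.lev_nonneg v, ?_⟩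
    -- the good direction
    obtain ⟨hzR, hqσ⟩ := C.surj q hq hqW.1
    have hqi : q C.i ≠ 0 := C.W_ne q hqW.1
    set z0 : CC n := zt C q with hz0
    have hzR' : z0 ∈ Metric.ball (0 : CC n) C.R := hzR
    have hqσ' : q = q C.i • C.σ z0 := hqσ
    have hz0r : z0 ∈ Metric.ball (0 : CC n) r0 := hqW.2
    have hTan : fderiv ℂ C.σ z0 e ∈ Tan I (C.σ z0) :=
      (C.tan z0 hzR' _).2 ⟨0, e, by rw [zero_smul, zero_add]⟩
    refine ⟨q C.i • fderiv ℂ C.σ z0 e, ?_, ?_, ?_⟩
    · have h3 : Tan I q = Tan I (C.σ z0) := by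
        conv_lhs => rw [hqσ']
        exact Tan_smul hX _ hqi
      rw [h3]
      exact Submodule.smul_mem _ _ hTan
    · have h3 : omg q (q C.i • fderiv ℂ C.σ z0 e) = omg (C.σ z0) (fderiv ℂ C.σ z0 e) := by
        conv_lhs => rw [hqσ']
        have h4 : (q C.i • C.σ z0) C.i = q C.i := by
          rw [← hqσ']
        rw [h4]
        exact omg_smul (C.σ_cone z0 hzR').2 hqi _
      rw [h3]
      refine (omg_le (C.σ_cone z0 hzR').2 _).trans ?_
      have h5 : 1 ≤ Geo_328.nsq (C.σ z0) := by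
        have h6 : ‖C.σ z0 C.i‖ ^ 2 ≤ Geo_328.nsq (C.σ z0) :=
          Finset.single_le_sum (f := fun k => ‖C.σ z0 k‖ ^ 2)
            (fun _ _ => by positivity) (Finset.mem_univ C.i)
        rw [C.σ_i z0 hzR'] at h6
        simpa using h6
      have h7 : Geo_328.nsq (fderiv ℂ C.σ z0 e) < Kσ :=
        (hrb z0 (Metric.ball_subset_ball hr0r1 hz0r)).2
      have h8 : (0 : ℝ) ≤ Geo_328.nsq (fderiv ℂ C.σ z0 e) := Frm290.nsq_nonneg _
      exact (div_le_self h8 h5).trans h7.le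
    · have hmem : q C.i • fderiv ℂ C.σ z0 e ∈ Tan I q := by
        have h3 : Tan I q = Tan I (C.σ z0) := by
          conv_lhs => rw [hqσ']
          exact Tan_smul hX _ hqi
        rw [h3]
        exact Submodule.smul_mem _ _ hTan
      rw [hlev _ hmem]
      have h1 := hloc tau ht ht1 z0 (Metric.ball_subset_ball hr0r hz0r)
      have h3 : lev (fun x => bf (1 / 2) tau e s M (zt C x)) q (q C.i • fderiv ℂ C.σ z0 e)
          = lev (bf (1 / 2) tau e s M) z0 e := by
        rw [Lev_901.lev_comp_hol (F := zt C) (x := q) (u := bf (1 / 2) tau e s M) h1.1.smooth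
          (zt_analyticAt C hqi)]
        congr 1
        have h4 := fderiv_zt C hzR' hqi e
        rw [← hqσ'] at h4
        exact h4
      rw [h3]
      refine le_trans ?_ h1.2.2
      have hnsq : ns (C.σ z0) = ns q := by
        have := hinv (C.σ z0) (C.σ_cone z0 hzR') (q C.i) hqi
        rw [← hqσ'] at this
        exact this.symm
      have h5 : ‖s z0‖ ^ 2 + tau ≤ C2 * (ns q + tau) := by
        have h6 := hnsC1 z0 hz0r
        rw [hnsq] at h6
        have h7 : C1 * ns q ≤ C2 * ns q := mul_le_mul_of_nonneg_right (le_max_left _ _) (hns q hq)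
        have h8 : tau ≤ C2 * tau := by
          have : 1 ≤ C2 := le_max_right _ _
          nlinarith
        nlinarith
      have h6 : 0 < ‖s z0‖ ^ 2 + tau := by positivity
      have h7 : (C2 * (ns q + tau)) ^ (-Dl) ≤ (‖s z0‖ ^ 2 + tau) ^ (-Dl) :=
        Real.rpow_le_rpow_of_nonpos h6 h5 (by linarith)
      have h8 : 0 ≤ ns q + tau := by have := hns q hq; linarith
      rw [Real.mul_rpow hC2p.le h8] at h7
      calc c * C2 ^ (-Dl) * (ns q + tau) ^ (-Dl) = c * (C2 ^ (-Dl) * (ns q + tau) ^ (-Dl)) := by ring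
        _ ≤ c * (‖s z0‖ ^ 2 + tau) ^ (-Dl) := mul_le_mul_of_nonneg_left h7 hc.le

end loc

end

end Crest.Agent.R269.BGl2_653
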