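import Mathlib
import Crest.Agent.R269.DetIneq_271

/-! Row 269, leaf 11.1 (helper653): linear algebra.  If `G, P ≥ 0` and `P(x) ≥ (T-1) G(x)` in one
direction `x` then `n (T det G)^{1/n} ≤ tr (G + P)`. -/

set_option autoImplicit false
set_option linter.unusedSectionVars false

open Matrix Complex
open scoped ComplexConjugate ComplexOrder MatrixOrder

namespace Crest.Agent.R269.BLin_653

open Crest.Agent.R269.DetIneq271

variable {κ : Type*} [Fintype κ] [DecidableEq κ]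

theorem one_add_sum_le_prod {ι : Type*} (s : Finset ι) (f : ι → ℝ) (hf : ∀ i ∈ s, 0 ≤ f i) :
    1 + ∑ i ∈ s, f i ≤ ∏ i ∈ s, (1 + f i) := by
  classical
  induction s using Finset.induction_on with
  | empty => simp
  | insert a s ha ih =>
    have h1 := ih fun i hi => hf i (Finset.mem_insert_of_mem hi)
    have h2 := hf a (Finset.mem_insert_self a s)
    have h3 : 0 ≤ ∑ i ∈ s, f i :=
      Finset.sum_nonneg fun i hi => hf i (Finset.mem_insert_of_mem hi)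
    rw [Finset.sum_insert ha, Finset.prod_insert ha]
    nlinarith [mul_nonneg h2 h3]

theorem det_one_add_eq {Q : Matrix κ κ ℂ} (hQ : Q.IsHermitian) :
    (1 + Q).det = ∏ i, (1 + (hQ.eigenvalues i : ℂ)) := by
  have h1 := Matrix.eval_charpoly Q (-1)
  rw [hQ.charpoly_eq, Polynomial.eval_prod] at h1
  have h2 : (Matrix.scalar κ (-1 : ℂ) - Q) = -(1 + Q) := by
    ext i j
    simp [Matrix.one_apply, Matrix.diagonal_apply]
    split_ifs <;> ring
  rw [h2, Matrix.det_neg] at h1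
  have h3 : ∏ j, Polynomial.eval (-1 : ℂ) (Polynomial.X - Polynomial.C ((hQ.eigenvalues j : ℝ) : ℂ))
      = (-1) ^ Fintype.card κ * ∏ i, (1 + (hQ.eigenvalues i : ℂ)) := by
    rw [← Finset.card_univ, ← Finset.prod_const, ← Finset.prod_mul_distrib]
    refine Finset.prod_congr rfl fun i _ => ?_
    simp
    ring
  have h4 : ((-1 : ℂ) ^ Fintype.card κ) ≠ 0 := by simp
  exact mul_left_cancel₀ h4 (h1.symm.trans h3)

theorem det_one_add_ge {Q : Matrix κ κ ℂ} (hQ : Q.PosSemidef) :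
    1 + Q.trace.re ≤ (1 + Q).det.re := by
  have h1 := det_one_add_eq hQ.1
  have h2 : Q.trace.re = ∑ i, hQ.1.eigenvalues i := by
    rw [hQ.1.trace_eq_sum_eigenvalues]; simp
  have h3 : (1 + Q).det.re = ∏ i, (1 + hQ.1.eigenvalues i) := by
    rw [h1]
    have : (∏ i, (1 + (hQ.1.eigenvalues i : ℂ))) = ((∏ i, (1 + hQ.1.eigenvalues i) : ℝ) : ℂ) := by
      push_cast; rfl
    rw [this, Complex.ofReal_re]
  rw [h2, h3]
  exact one_add_sum_le_prod _ _ fun i _ => hQ.eigenvalues_nonneg i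

theorem re_star_dot (y : κ → ℂ) : (star y ⬝ᵥ y).re = ∑ i, ‖y i‖ ^ 2 := by
  simp only [dotProduct, Pi.star_apply, RCLike.star_def, Complex.re_sum]
  refine Finset.sum_congr rfl fun i _ => ?_
  rw [Complex.conj_mul']
  norm_cast

/-- `y* Q y ≤ tr Q |y|²`. -/
theorem quad_le_trace {Q : Matrix κ κ ℂ} (hQ : Q.PosSemidef) (y : κ → ℂ) :
    (star y ⬝ᵥ (Q *ᵥ y)).re ≤ Q.trace.re * (star y ⬝ᵥ y).re := by
  obtain ⟨S, hS⟩ : ∃ S : Matrix κ κ ℂ, Q = Sᴴ * S := by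
    refine ⟨CFC.sqrt Q, ?_⟩
    have h1 : (CFC.sqrt Q)ᴴ = CFC.sqrt Q := (CFC.sqrt_nonneg Q).posSemidef.isHermitian
    rw [h1]
    exact (CFC.sqrt_mul_sqrt_self Q hQ.nonneg).symm
  have h1 : star y ⬝ᵥ (Q *ᵥ y) = star (S *ᵥ y) ⬝ᵥ (S *ᵥ y) := by
    rw [hS, ← Matrix.mulVec_mulVec, Matrix.dotProduct_mulVec, ← Matrix.star_mulVec]
  have h2 : Q.trace.re = ∑ j, ∑ i, ‖S i j‖ ^ 2 := by
    rw [hS]
    simp only [Matrix.trace, Matrix.diag, Matrix.mul_apply, Matrix.conjTranspose_apply,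
      RCLike.star_def, Complex.re_sum]
    refine Finset.sum_congr rfl fun j _ => Finset.sum_congr rfl fun i _ => ?_
    rw [Complex.conj_mul']
    norm_cast
  rw [h1, re_star_dot, re_star_dot, h2, Finset.sum_comm, Finset.sum_mul]
  refine Finset.sum_le_sum fun i _ => ?_
  have h3 : ‖(S *ᵥ y) i‖ ≤ ∑ j, ‖S i j‖ * ‖y j‖ := by
    simp only [Matrix.mulVec, dotProduct]
    exact (norm_sum_le _ _).trans (Finset.sum_le_sum fun j _ => (norm_mul _ _).le)
  calc ‖(S *ᵥ y) i‖ ^ 2 ≤ (∑ j, ‖S i j‖ * ‖y j‖) ^ 2 := by gcongr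
    _ ≤ (∑ j, ‖S i j‖ ^ 2) * ∑ j, ‖y j‖ ^ 2 := Finset.sum_mul_sq_le_sq_mul_sq _ _ _

theorem trace_ge [Nonempty κ] {G P : Matrix κ κ ℂ} (hG : G.PosSemidef) (hP : P.PosSemidef) {T : ℝ}
    (hT : 0 ≤ T) (hx : 1 < T → ∃ x : κ → ℂ, x ≠ 0 ∧
      (T - 1) * (star x ⬝ᵥ (G *ᵥ x)).re ≤ (star x ⬝ᵥ (P *ᵥ x)).re) :
    (Fintype.card κ : ℝ) * (T * G.det.re) ^ ((Fintype.card κ : ℝ)⁻¹) ≤ G.trace.re + P.trace.re := by
  have htr : ∀ {A : Matrix κ κ ℂ}, A.PosSemidef → 0 ≤ A.trace.re := fun {A} hA => by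
    have := card_mul_dn_le_trace hA
    exact le_trans (mul_nonneg (by positivity) (dn_nonneg hA)) this
  have hcard : (0 : ℝ) < Fintype.card κ := by exact_mod_cast Fintype.card_pos
  by_cases hdet : G.det.re = 0
  · rw [hdet, mul_zero, Real.zero_rpow (inv_pos.2 hcard).ne', mul_zero]
    exact add_nonneg (htr hG) (htr hP)
  have hdet' : 0 < G.det.re := lt_of_le_of_ne (det_re_nonneg hG) (Ne.symm hdet)
  by_cases hT1 : T ≤ 1
  · have h1 := card_mul_dn_le_trace hG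
    have h2 := htr hP
    have h3 : (T * G.det.re) ^ ((Fintype.card κ : ℝ)⁻¹) ≤ dn G := by
      unfold dn
      exact Real.rpow_le_rpow (mul_nonneg hT hdet'.le) (by nlinarith) (inv_pos.2 hcard).le
    have h4 := mul_le_mul_of_nonneg_left h3 hcard.le
    linarith
  push Not at hT1
  obtain ⟨x, hx0, hx1⟩ := hx hT1
  -- `G = Sᴴ S`
  obtain ⟨S, hSH, hS⟩ : ∃ S : Matrix κ κ ℂ, Sᴴ = S ∧ G = Sᴴ * S := by
    refine ⟨CFC.sqrt G, (CFC.sqrt_nonneg G).posSemidef.isHermitian, ?_⟩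
    have h1 : (CFC.sqrt G)ᴴ = CFC.sqrt G := (CFC.sqrt_nonneg G).posSemidef.isHermitian
    rw [h1]
    exact (CFC.sqrt_mul_sqrt_self G hG.nonneg).symm
  have hSdet : S.det ≠ 0 := by
    intro h
    apply hdet
    rw [hS, Matrix.det_mul, h, mul_zero]
    simp
  have hSu : IsUnit S.det := isUnit_iff_ne_zero.2 hSdet
  set Q : Matrix κ κ ℂ := (S⁻¹)ᴴ * P * S⁻¹ with hQ
  have hQP : Q.PosSemidef := hP.conjTranspose_mul_mul_same S⁻¹
  have hPQ : P = Sᴴ * Q * S := by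
    have e1 : S⁻¹ * S = 1 := Matrix.nonsing_inv_mul S hSu
    have e2 : Sᴴ * (S⁻¹)ᴴ = 1 := by
      rw [← Matrix.conjTranspose_mul, e1, Matrix.conjTranspose_one]
    calc P = 1 * P * 1 := by simp
      _ = (Sᴴ * (S⁻¹)ᴴ) * P * (S⁻¹ * S) := by rw [e1, e2]
      _ = Sᴴ * Q * S := by rw [hQ]; simp only [Matrix.mul_assoc]
  set y : κ → ℂ := S *ᵥ x with hy
  have hGx : star x ⬝ᵥ (G *ᵥ x) = star y ⬝ᵥ y := by
    rw [hS, ← Matrix.mulVec_mulVec, Matrix.dotProduct_mulVec, ← Matrix.star_mulVec]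
  have hPx : star x ⬝ᵥ (P *ᵥ x) = star y ⬝ᵥ (Q *ᵥ y) := by
    rw [hPQ, ← Matrix.mulVec_mulVec, ← Matrix.mulVec_mulVec, Matrix.dotProduct_mulVec,
      ← Matrix.star_mulVec]
  have hy0 : y ≠ 0 := fun h => hx0 (by
    have := congrArg (fun v => S⁻¹ *ᵥ v) h
    simpa [hy, Matrix.mulVec_mulVec, Matrix.nonsing_inv_mul S hSu] using this)
  have hyp : 0 < (star y ⬝ᵥ y).re := by
    rw [re_star_dot]
    obtain ⟨i, hi⟩ := Function.ne_iff.1 hy0
    exact Finset.sum_pos' (fun i _ => by positivity)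
      ⟨i, Finset.mem_univ _, by have : 0 < ‖y i‖ := norm_pos_iff.2 hi; positivity⟩
  have hTQ : T - 1 ≤ Q.trace.re := by
    rw [hGx, hPx] at hx1
    have := hx1.trans (quad_le_trace hQP y)
    exact le_of_mul_le_mul_right this hyp
  have hdetQ : T ≤ (1 + Q).det.re := by linarith [det_one_add_ge hQP]
  have h1Q : (1 + Q).PosSemidef := Matrix.PosSemidef.one.add hQP
  have hSS : (S * Sᴴ).PosSemidef := Matrix.posSemidef_self_mul_conjTranspose S
  have h5 := card_mul_dn_mul_dn_le_trace h1Q hSS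
  have h6 : ((1 + Q) * (S * Sᴴ)).trace = G.trace + P.trace := by
    have e : G + P = Sᴴ * (1 + Q) * S := by
      rw [Matrix.mul_add, Matrix.add_mul, Matrix.mul_one, ← hS, ← hPQ]
    rw [← Matrix.trace_add, e, Matrix.trace_mul_cycle, Matrix.trace_mul_comm]
  have h7 : dn (1 + Q) * dn (S * Sᴴ) = ((1 + Q).det.re * G.det.re) ^ ((Fintype.card κ : ℝ)⁻¹) := by
    have e : (S * Sᴴ).det.re = G.det.re := by
      rw [hS, Matrix.det_mul, Matrix.det_mul, mul_comm]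
    unfold dn
    rw [e, Real.mul_rpow (det_re_nonneg h1Q) hdet'.le]
  rw [h7, h6, Complex.add_re] at h5
  refine le_trans ?_ h5
  refine mul_le_mul_of_nonneg_left ?_ hcard.le
  exact Real.rpow_le_rpow (mul_nonneg hT hdet'.le) (mul_le_mul_of_nonneg_right hdetQ hdet'.le)
    (inv_pos.2 hcard).le

end Crest.Agent.R269.BLin_653
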