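import Mathlib
import Crest.Agent.R269.BGl2_653
import Crest.Agent.R269.BLin_653

/-! Row 269, (11.1) (helper653): the global function `b_τ` (ambient form), theorem `exists_b`. -/

set_option autoImplicit false
set_option linter.unusedSectionVars false

open Complex Filter Topology MvPolynomial Crest.AlgGeometry.ProjEmb
open scoped ContDiff ComplexConjugate ComplexOrder

namespace Crest.Agent.R269.BGl3_653

open Crest.Agent.R269.Geo_328
open Crest.Agent.R269.Defs_58 (SmX omg DD TanFam)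
open Crest.Agent.R269.LevC_653 Crest.Agent.R269.Bf_653 Crest.Agent.R269.BGl1_653
open Crest.Agent.R269.BGl2_653
open Crest.Agent.R269.Frm290 (gmat prj gram D)

noncomputable section

variable {N n : ℕ} {I : Ideal (HomCoordRing N)}

/-! ### a tangent vector is a combination of a frame and the Euler vector -/

theorem tan_decomp (hX : IsSmoothProjective I n) {q : EE N} (hq : q ∈ Cone I) {b : Fin n → EE N}
    (hb : TanFam I q b) (hD : DD q b ≠ 0) {e : EE N} (he : e ∈ Tan I q) :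
    ∃ (x : Fin n → ℂ) (l : ℂ), e = (∑ k, x k • b k) + l • q := by
  have hi : Frm290.Indep q (Matrix.of fun k l => b l k) :=
    Frm290.indep_of_D_ne hq.2 (by rw [← DD_eq_D hq.2]; exact hD)
  set w : Fin (n + 1) → EE N := Fin.cons q b with hw
  have hwT : ∀ i, w i ∈ Tan I q := by
    intro i
    refine Fin.cases ?_ (fun i => ?_) i
    · simpa [hw] using self_mem_Tan hX hq.1
    · simpa [hw] using hb i
  have hlin : LinearIndependent ℂ w := by
    rw [Fintype.linearIndependent_iff]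
    intro g hg
    rw [Fin.sum_univ_succ] at hg
    simp only [hw, Fin.cons_zero, Fin.cons_succ] at hg
    have h1 : (Matrix.of fun (k : Fin (N + 1)) (l : Fin n) => b l k).mulVec (fun i => g i.succ)
        = (-(g 0)) • q := by
      have h2 : (Matrix.of fun (k : Fin (N + 1)) (l : Fin n) => b l k).mulVec (fun i => g i.succ)
          = ∑ i : Fin n, g i.succ • b i := by
        funext k
        simp [Matrix.mulVec, dotProduct, Finset.sum_apply, mul_comm]
      rw [h2, neg_smul]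
      exact eq_neg_of_add_eq_zero_right hg
    have h3 := hi _ _ h1
    have h4 : g 0 = 0 := by
      have h5 : ∑ i : Fin n, g i.succ • b i = 0 := by
        refine Finset.sum_eq_zero fun i _ => ?_
        have := congrFun h3 i
        simp only [Pi.zero_apply] at this
        rw [this, zero_smul]
      rw [h5, add_zero] at hg
      exact (smul_eq_zero.1 hg).resolve_right hq.2
    intro i
    refine Fin.cases h4 (fun i => ?_) i
    exact congrFun h3 i
  set w' : Fin (n + 1) → Tan I q := fun i => ⟨w i, hwT i⟩ with hw'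
  have hlin' : LinearIndependent ℂ w' := by
    apply LinearIndependent.of_comp (Tan I q).subtype
    exact hlin
  have hspan : Submodule.span ℂ (Set.range w') = ⊤ := by
    apply hlin'.span_eq_top_of_card_eq_finrank'
    rw [Fintype.card_fin, finrank_Tan hX hq]
  have hmem : (⟨e, he⟩ : Tan I q) ∈ Submodule.span ℂ (Set.range w') := by
    rw [hspan]; trivial
  obtain ⟨g, hg⟩ := (Submodule.mem_span_range_iff_exists_fun ℂ).1 hmem
  refine ⟨fun k => g k.succ, g 0, ?_⟩
  have h6 := congrArg Subtype.val hg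
  simp only at h6
  rw [← h6, Fin.sum_univ_succ]
  simp only [hw', hw, Submodule.coe_add, Submodule.coe_smul, Submodule.coe_sum, Fin.cons_zero,
    Fin.cons_succ]
  rw [add_comm]

theorem omg_add_smul {p : EE N} (hp : p ≠ 0) (v : EE N) (r : ℂ) :
    omg p (v + r • p) = omg p v := by
  rw [omg_eq_prj hp, omg_eq_prj hp, Matrix.mulVec_add, Matrix.mulVec_smul,
    Frm290.prj_mulVec_self hp, smul_zero, add_zero]

/-! ### the pointwise inequality -/

theorem comb_eq (b : Fin n → EE N) (x : Fin n → ℂ) :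
    (Matrix.of fun (k : Fin (N + 1)) (l : Fin n) => b l k).mulVec x = ∑ k, x k • b k := by
  funext j
  simp [Matrix.mulVec, dotProduct, Finset.sum_apply, mul_comm]

/-- `n (T DD q b)^{1/n} ≤ ∑ (omg + lev u)(b_i)` as soon as `lev u ≥ 0` on the tangent space and
`(T-1) omg(e) ≤ lev u (e)` in one tangent direction. -/
theorem pointwise (hI : I.IsPrime) (hX : IsSmoothProjective I n) (hn : 0 < n) {u : EE N → ℝ}
    (hu : SmX I u) {q : EE N} (hq : q ∈ Cone I) (hpos : ∀ v ∈ Tan I q, 0 ≤ lev u q v)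
    {e : EE N} (he : e ∈ Tan I q) {T : ℝ} (hT : 0 ≤ T) (hTe : 1 < T → 0 < lev u q e)
    (hTe' : 1 < T → (T - 1) * omg q e ≤ lev u q e) {b : Fin n → EE N} (hb : TanFam I q b) :
    (n : ℝ) * (T * DD q b) ^ ((n : ℝ)⁻¹) ≤ ∑ k, (omg q (b k) + lev u q (b k)) := by
  classical
  have hne : Nonempty (Fin n) := ⟨⟨0, hn⟩⟩
  have hn' : (0 : ℝ) < n := by exact_mod_cast hn
  have hu2 : ContDiffAt ℝ 2 u q := (hu.1 q hq).of_le two_le
  by_cases hD : DD q b = 0
  · rw [hD, mul_zero, Real.zero_rpow (inv_pos.2 hn').ne', mul_zero]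
    exact Finset.sum_nonneg fun k _ => add_nonneg (omg_nonneg hq.2 _) (hpos _ (hb k))
  set M : Matrix (Fin (N + 1)) (Fin n) ℂ := Matrix.of fun k l => b l k with hM
  set G : Matrix (Fin n) (Fin n) ℂ := gram q M with hG
  set P : Matrix (Fin n) (Fin n) ℂ := Matrix.of fun i j => Lev_901.levB u q (b j) (b i) with hP
  have hcomb : ∀ x : Fin n → ℂ, (∑ k, x k • b k) ∈ Tan I q := fun x =>
    Submodule.sum_mem _ fun k _ => Submodule.smul_mem _ _ (hb k)
  have hPx : ∀ x : Fin n → ℂ, star x ⬝ᵥ (P.mulVec x) = Lev_901.levB u q (∑ k, x k • b k)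
      (∑ k, x k • b k) := by
    intro x
    rw [Lev_901.levB_sum_right]
    simp only [dotProduct, Pi.star_apply, RCLike.star_def]
    refine Finset.sum_congr rfl fun i _ => ?_
    rw [Lev_901.levB_smul_right, Lev_901.levB_sum_left]
    congr 1
    simp only [Matrix.mulVec, dotProduct, hP, Matrix.of_apply]
    refine Finset.sum_congr rfl fun j _ => ?_
    rw [Lev_901.levB_smul_left, mul_comm]
  have hPH : P.IsHermitian := by
    ext i j
    simp only [hP, Matrix.conjTranspose_apply, Matrix.of_apply, RCLike.star_def]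
    exact Lev_901.levB_conj hu2 _ _
  have hPP : P.PosSemidef := by
    refine Matrix.PosSemidef.of_dotProduct_mulVec_nonneg hPH fun x => ?_
    rw [hPx, Lev_901.levB_self hu2]
    exact_mod_cast hpos _ (hcomb x)
  have hGP : G.PosSemidef := Frm290.gram_posSemidef hq.2 M
  have hGx : ∀ x : Fin n → ℂ, (star x ⬝ᵥ (G.mulVec x)).re = omg q (∑ k, x k • b k) := by
    intro x
    rw [hG, Frm290.gram_dot hq.2, Complex.ofReal_re, comb_eq, omg_eq_prj hq.2]
    rfl
  have htrG : G.trace.re = ∑ k, omg q (b k) := by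
    simp only [Matrix.trace, Matrix.diag, Complex.re_sum]
    refine Finset.sum_congr rfl fun k _ => ?_
    have h1 := hGx (Pi.single k 1)
    have h2 : (∑ j, (Pi.single k (1 : ℂ) : Fin n → ℂ) j • b j) = b k := by
      rw [Finset.sum_eq_single k]
      · simp
      · intro j _ hj; simp [hj]
      · intro h; exact absurd (Finset.mem_univ k) h
    rw [h2] at h1
    rw [← h1]
    simp
  have htrP : P.trace.re = ∑ k, lev u q (b k) := by
    simp only [Matrix.trace, Matrix.diag, Complex.re_sum, hP, Matrix.of_apply]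
    refine Finset.sum_congr rfl fun k _ => ?_
    rw [Lev_901.levB_self_re]
  have hdet : G.det.re = DD q b := by rw [DD_eq_D hq.2]; rfl
  have Cq := Classical.choice (Chart_632.chartStmt N n I hI hX q hq)
  have hadd : ∀ v ∈ Tan I q, ∀ r : ℂ, lev u q (v + r • q) = lev u q v := fun v hv r =>
    LevCone_901.lev_add_smul_self hX hq Cq hu.2 hu2 hv r
  have key := BLin_653.trace_ge hGP hPP hT (by
    intro h1T
    obtain ⟨x, l, hx⟩ := tan_decomp hX hq hb hD he
    have h1 : lev u q e = lev u q (∑ k, x k • b k) := by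
      rw [hx]; exact hadd _ (hcomb x) l
    refine ⟨x, ?_, ?_⟩
    · rintro rfl
      have h2 := hTe h1T
      rw [h1] at h2
      simp [Lev_901.lev_zero] at h2
    · rw [hGx, hPx, Lev_901.levB_self hu2, Complex.ofReal_re, ← h1]
      have h2 : omg q e = omg q (∑ k, x k • b k) := by
        rw [hx]; exact omg_add_smul hq.2 _ _
      rw [← h2]
      exact hTe' h1T)
  rw [htrG, htrP, hdet, Fintype.card_fin] at key
  rw [Finset.sum_add_distrib]
  exact key

/-! ### the global function -/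

theorem exists_lb {ι : Type*} (F : Finset ι) (f : ι → ℝ) (hf : ∀ i, 0 < f i) :
    ∃ m : ℝ, 0 < m ∧ ∀ i ∈ F, m ≤ f i := by
  classical
  induction F using Finset.induction_on with
  | empty => exact ⟨1, one_pos, by simp⟩
  | insert a s ha ih =>
    obtain ⟨m, hm, h⟩ := ih
    refine ⟨min m (f a), lt_min hm (hf a), fun i hi => ?_⟩
    rcases Finset.mem_insert.1 hi with rfl | hi
    · exact min_le_right _ _
    · exact (min_le_left _ _).trans (h i hi)

/-- **(11.1), global ambient form.** -/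
theorem exists_b (hI : I.IsPrime) (hX : IsSmoothProjective I n) (hn : 0 < n) {ns : EE N → ℝ}
    {B : ℝ} (h0 : ∀ q ∈ Cone I, 0 ≤ ns q ∧ ns q ≤ B)
    (hinv : ∀ q ∈ Cone I, ∀ c : ℂ, c ≠ 0 → ns (c • q) = ns q)
    (hloc : ∀ p ∈ Cone I, ∀ C : ConeChart I n p, ∃ s : CC n → ℂ, AnalyticAt ℂ s 0 ∧
      (¬ ∀ᶠ z in 𝓝 0, s z = 0) ∧ ∃ C1 : ℝ, ∀ᶠ z in 𝓝 (0 : CC n), ‖s z‖ ^ 2 ≤ C1 * ns (C.σ z)) :
    ∃ (dl C c : ℝ) (b : ℝ → EE N → ℝ), 0 < dl ∧ 0 < C ∧ 0 < c ∧
      ∀ tau : ℝ, 0 < tau → tau ≤ 1 →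
        SmX I (b tau) ∧ (∀ q ∈ Cone I, 0 ≤ b tau q ∧ b tau q ≤ C) ∧
        (∀ q ∈ Cone I, ∀ v ∈ Tan I q, omg q v ≤ C * omg q v + Defs_58.lev (b tau) q v) ∧
        (∀ q ∈ Cone I, ∀ w : Fin n → EE N, TanFam I q w →
          (n : ℝ) * (c * (ns q + tau) ^ (-dl) * DD q w) ^ ((n : ℝ)⁻¹) ≤
            ∑ k, (C * omg q (w k) + Defs_58.lev (b tau) q (w k))) := by
  classical
  set K1 : Set (EE N) := {p : EE N | p ∈ affineCone I ∧ Geo_328.nsq p = 1} with hK1
  have hK1c : IsCompact K1 := AtlX_632.isCompact_sphereCone I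
  have hK1C : ∀ q ∈ K1, q ∈ Cone I := by
    rintro q ⟨h1, h2⟩
    refine ⟨h1, ?_⟩
    rintro rfl
    simp [Geo_328.nsq] at h2
  have hpack : ∀ p : K1, ∃ (O : Set (EE N)) (u : ℝ → EE N → ℝ) (dl K B c : ℝ), IsOpen O ∧
      (p : EE N) ∈ O ∧ (∀ c : ℂ, c ≠ 0 → ∀ q ∈ O, c • q ∈ O) ∧ 0 < dl ∧ 0 ≤ K ∧ 0 ≤ B ∧ 0 < c ∧
      ∀ tau : ℝ, 0 < tau → tau ≤ 1 →
        SmX I (u tau) ∧ (∀ q ∈ Cone I, 0 ≤ u tau q ∧ u tau q ≤ B) ∧
        (∀ q ∈ Cone I, ∀ v ∈ Tan I q, -(B * omg q v) ≤ lev (u tau) q v) ∧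
        (∀ q ∈ Cone I, q ∈ O → (∀ v ∈ Tan I q, 0 ≤ lev (u tau) q v) ∧
          ∃ e ∈ Tan I q, omg q e ≤ K ∧ c * (ns q + tau) ^ (-dl) ≤ 1 + lev (u tau) q e) := by
    intro p
    have hp := hK1C p p.2
    have C := Classical.choice (Chart_632.chartStmt N n I hI hX p hp)
    obtain ⟨s, hs, hs0, C1, hC1⟩ := hloc p hp C
    exact local_pack hI hX C (fun q hq => (h0 q hq).1) hinv hs hs0 hC1
  choose O u dl K Bp c hOo hOp hOs hdl hK hB hc hall using hpack
  obtain ⟨t, ht⟩ := hK1c.elim_nhds_subcover' (fun x hx => O ⟨x, hx⟩)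
    (fun x hx => (hOo ⟨x, hx⟩).mem_nhds (hOp ⟨x, hx⟩))
  have hcov : ∀ q ∈ Cone I, ∃ p ∈ t, q ∈ O p := by
    intro q hq
    obtain ⟨a, ha, haS⟩ := DictA_886.exists_smul_Sph hq.2
    have haK : a • q ∈ K1 := ⟨(smul_mem_Cone hX hq ha).1, haS⟩
    obtain ⟨p, hp, hpO⟩ := Set.mem_iUnion₂.1 (ht haK)
    refine ⟨p, hp, ?_⟩
    have := hOs p a⁻¹ (inv_ne_zero ha) _ hpO
    rwa [smul_smul, inv_mul_cancel₀ ha, one_smul] at this
  set Q : ℝ := max B 0 + 1 with hQ
  have hQ1 : 0 < Q := by rw [hQ]; have := le_max_right B 0; linarith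
  obtain ⟨d0, hd0, hd0t⟩ := exists_lb t dl hdl
  obtain ⟨c1, hc1, hc1t⟩ := exists_lb t (fun p => c p * Q ^ (-(dl p - d0)))
    (fun p => mul_pos (hc p) (Real.rpow_pos_of_pos hQ1 _))
  set Km : ℝ := ∑ p ∈ t, K p with hKm
  have hKm0 : 0 ≤ Km := Finset.sum_nonneg fun p _ => hK p
  have hKt : ∀ p ∈ t, K p ≤ Km := fun p hp =>
    Finset.single_le_sum (f := K) (fun p _ => hK p) hp
  set Cm : ℝ := 1 + ∑ p ∈ t, Bp p with hCm
  have hCs : 0 ≤ ∑ p ∈ t, Bp p := Finset.sum_nonneg fun p _ => hB p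
  refine ⟨d0, Cm, c1 / (1 + Km), fun tau x => ∑ p ∈ t, u p tau x, hd0, by linarith,
    by positivity, fun tau htau htau1 => ?_⟩
  have hall' := fun p => hall p tau htau htau1
  have hsm : SmX I (fun x => ∑ p ∈ t, u p tau x) := by
    refine ⟨fun q hq => ContDiffAt.sum fun p _ => (hall' p).1.1 q hq, fun q hq a ha => ?_⟩
    exact Finset.sum_congr rfl fun p _ => (hall' p).1.2 q hq a ha
  have hlev : ∀ q ∈ Cone I, ∀ v, Defs_58.lev (fun x => ∑ p ∈ t, u p tau x) q v
      = ∑ p ∈ t, lev (u p tau) q v := by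
    intro q hq v
    rw [lev_eq]
    exact Bf_653.lev_sum t (fun p _ => ((hall' p).1.1 q hq).of_le two_le) v
  have hrest : ∀ q ∈ Cone I, ∀ v ∈ Tan I q, ∀ p ∈ t,
      omg q v + lev (u p tau) q v ≤ Cm * omg q v + ∑ p ∈ t, lev (u p tau) q v := by
    intro q hq v hv p hp
    have hom := omg_nonneg hq.2 v
    have h1 : ∑ p' ∈ t, -(Bp p' * omg q v) + (lev (u p tau) q v + Bp p * omg q v) ≤
        ∑ p' ∈ t, lev (u p' tau) q v := by
      have h2 : ∀ p' ∈ t, 0 ≤ lev (u p' tau) q v + Bp p' * omg q v := fun p' _ => by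
        have := (hall' p').2.2.1 q hq v hv
        linarith
      have h3 := Finset.single_le_sum h2 hp
      rw [Finset.sum_add_distrib] at h3
      rw [Finset.sum_neg_distrib]
      linarith
    rw [Finset.sum_neg_distrib, ← Finset.sum_mul] at h1
    have h4 : 0 ≤ Bp p * omg q v := mul_nonneg (hB p) hom
    rw [hCm]
    linarith
  refine ⟨hsm, fun q hq => ?_, fun q hq v hv => ?_, fun q hq w hw => ?_⟩
  · refine ⟨Finset.sum_nonneg fun p _ => ((hall' p).2.1 q hq).1, ?_⟩
    have h1 : ∑ p ∈ t, u p tau q ≤ ∑ p ∈ t, Bp p :=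
      Finset.sum_le_sum fun p _ => ((hall' p).2.1 q hq).2
    show ∑ p ∈ t, u p tau q ≤ Cm
    linarith
  · rw [hlev q hq]
    obtain ⟨p, hp, hqO⟩ := hcov q hq
    have h1 := hrest q hq v hv p hp
    have h2 := ((hall' p).2.2.2 q hq hqO).1 v hv
    linarith
  · obtain ⟨p, hp, hqO⟩ := hcov q hq
    obtain ⟨hpos, e, he, heK, hec⟩ := (hall' p).2.2.2 q hq hqO
    have hnq : 0 < ns q + tau := by have := (h0 q hq).1; linarith
    have hnQ : ns q + tau ≤ Q := by
      have h1 := (h0 q hq).2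
      have h2 := le_max_left B 0
      rw [hQ]; linarith
    -- uniform exponent
    have h1 : c1 * (ns q + tau) ^ (-d0) ≤ 1 + lev (u p tau) q e := by
      refine le_trans ?_ hec
      have h2 := lower_exp hnq hnQ (hd0t p hp)
      have h3 := hc1t p hp
      have h4 : 0 < (ns q + tau) ^ (-d0) := Real.rpow_pos_of_pos hnq _
      calc c1 * (ns q + tau) ^ (-d0)
          ≤ (c p * Q ^ (-(dl p - d0))) * (ns q + tau) ^ (-d0) :=
            mul_le_mul_of_nonneg_right h3 h4.le
        _ ≤ (c p * Q ^ (-(dl p - d0))) * (Q ^ (dl p - d0) * (ns q + tau) ^ (-(dl p))) :=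
            mul_le_mul_of_nonneg_left h2
              (mul_nonneg (hc p).le (Real.rpow_nonneg hQ1.le _))
        _ = c p * (ns q + tau) ^ (-(dl p)) * (Q ^ (-(dl p - d0)) * Q ^ (dl p - d0)) := by ring
        _ = c p * (ns q + tau) ^ (-(dl p)) := by
            rw [← Real.rpow_add hQ1, neg_add_cancel, Real.rpow_zero, mul_one]
    set T : ℝ := c1 / (1 + Km) * (ns q + tau) ^ (-d0) with hT
    have hT0 : 0 ≤ T := by positivity
    have hTc : c1 * (ns q + tau) ^ (-d0) = (1 + Km) * T := by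
      rw [hT]; field_simp
    rw [hTc] at h1
    have heK' : omg q e ≤ Km := heK.trans (hKt p hp)
    have hpt := pointwise hI hX hn (hall' p).1 hq hpos he hT0
      (fun h => by nlinarith) (fun h => by
        have h5 : (T - 1) * omg q e ≤ (T - 1) * Km :=
          mul_le_mul_of_nonneg_left heK' (by linarith)
        nlinarith) hw
    refine hpt.trans ?_
    refine Finset.sum_le_sum fun k _ => ?_
    rw [hlev q hq]
    exact hrest q hq (w k) (hw k) p hp

end

end Crest.Agent.R269.BGl3_653
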