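import Mathlib

/-!
# Row 269, leaf BARRIER (helper84), (4.5) of Blueprint_646

A barrier for both classes of discs.  With `δ = 1 - |z|²` and
`ψ η δ = log ((δ+η)/η) + (δ/η) log ((δ+η)/δ)` one has
`- ∂∂̄ ψ η (1 - |z|²) ≥ 1/(δ (δ+η))` in the unit disc, `ψ η 0 = 0` and
`ψ η δ ≤ 1 + log ((δ+η)/η)`.

Levi forms in one variable are expressed by four point means.
-/

set_option autoImplicit false
open Complex Metric Set Filter Topology

noncomputable section
namespace Crest.Agent.R269.Bar84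

/-- the mean of `φ` over the four points `z + r, z + ir, z - r, z - ir` -/
def m4 (φ : ℂ → ℝ) (z : ℂ) (r : ℝ) : ℝ :=
  (φ (z + r) + φ (z + I * r) + φ (z - r) + φ (z - I * r)) / 4

/-- `φ` has (upper) Levi form at most `L` at the point `z` -/
def LeviLE (φ : ℂ → ℝ) (z : ℂ) (L : ℝ) : Prop :=
  ∀ ε : ℝ, 0 < ε → ∀ᶠ r : ℝ in 𝓝[>] 0, m4 φ z r - φ z ≤ (L + ε) * r ^ 2

lemma LeviLE.mono {φ : ℂ → ℝ} {z : ℂ} {L L' : ℝ} (h : LeviLE φ z L) (hL : L ≤ L') :
    LeviLE φ z L' := by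
  intro ε hε
  filter_upwards [h ε hε] with r hr
  refine hr.trans ?_
  gcongr

lemma LeviLE.add {φ χ : ℂ → ℝ} {z : ℂ} {L L' : ℝ} (h : LeviLE φ z L) (h' : LeviLE χ z L') :
    LeviLE (fun w => φ w + χ w) z (L + L') := by
  intro ε hε
  filter_upwards [h (ε / 2) (by positivity), h' (ε / 2) (by positivity)] with r hr hr'
  have : m4 (fun w => φ w + χ w) z r = m4 φ z r + m4 χ z r := by
    unfold m4; ring
  rw [this]
  linarith

lemma LeviLE.const_mul {φ : ℂ → ℝ} {z : ℂ} {L c : ℝ} (hc : 0 ≤ c) (h : LeviLE φ z L) :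
    LeviLE (fun w => c * φ w) z (c * L) := by
  intro ε hε
  rcases hc.eq_or_lt with rfl | hc
  · filter_upwards with r
    unfold m4; simp; positivity
  filter_upwards [h (ε / c) (by positivity)] with r hr
  have : m4 (fun w => c * φ w) z r = c * m4 φ z r := by
    unfold m4; ring
  rw [this]
  have := mul_le_mul_of_nonneg_left hr hc.le
  have h2 : c * ((L + ε / c) * r ^ 2) = (c * L + ε) * r ^ 2 := by
    field_simp
  linarith

/-- limits of the four point quotient give `LeviLE` -/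
lemma LeviLE.of_tendsto {φ : ℂ → ℝ} {z : ℂ} {L : ℝ}
    (h : Tendsto (fun r : ℝ => (m4 φ z r - φ z) / r ^ 2) (𝓝[>] 0) (𝓝 L)) : LeviLE φ z L := by
  intro ε hε
  have := h.eventually (gt_mem_nhds (show L < L + ε by linarith))
  filter_upwards [this, self_mem_nhdsWithin] with r hr hr0
  have hr0' : (0 : ℝ) < r := hr0
  rw [div_lt_iff₀ (by positivity)] at hr
  exact hr.le

/-- radial functions: Levi form of `p (1 - |z|²)` -/
lemma LeviLE.radial {p p' : ℝ → ℝ} {z : ℂ} {c : ℝ}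
    (hp : ∀ᶠ t in 𝓝 (1 - ‖z‖ ^ 2), HasDerivAt p (p' t) t)
    (hp' : HasDerivAt p' c (1 - ‖z‖ ^ 2)) :
    LeviLE (fun w => p (1 - ‖w‖ ^ 2)) z (- p' (1 - ‖z‖ ^ 2) + ‖z‖ ^ 2 * c) := by
  intro ε hε
  set d : ℝ := 1 - ‖z‖ ^ 2 with hd
  -- second order upper bound
  set e : ℝ := ε / (2 * (‖z‖ ^ 2 + 1) ) with he
  have he0 : 0 < e := by positivity
  have key : ∀ᶠ t in 𝓝 (0 : ℝ), p (d + t) ≤ p d + p' d * t + (c + e) / 2 * t ^ 2 := by
    set g : ℝ → ℝ := fun t => p (d + t) - p d - p' d * t - (c + e) / 2 * t ^ 2 with hg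
    have hshift : Tendsto (fun t : ℝ => d + t) (𝓝 0) (𝓝 d) := by
      have : Continuous (fun t : ℝ => d + t) := by fun_prop
      simpa using this.tendsto 0
    have hg1 : ∀ᶠ t in 𝓝 (0 : ℝ), HasDerivAt g (p' (d + t) - p' d - (c + e) * t) t := by
      filter_upwards [hshift.eventually hp] with t ht
      have h1 : HasDerivAt (fun t => p (d + t)) (p' (d + t)) t := by
        simpa using ht.comp_const_add d t
      have h2 : HasDerivAt (fun t : ℝ => (c + e) / 2 * t ^ 2) ((c + e) * t) t := by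
        have := (hasDerivAt_pow 2 t).const_mul ((c + e) / 2)
        refine this.congr_deriv ?_
        simp; ring
      have h3 : HasDerivAt (fun t : ℝ => p' d * t) (p' d) t := by
        simpa using (hasDerivAt_id t).const_mul (p' d)
      exact ((h1.sub_const (p d)).sub h3).sub h2
    have hg2 : deriv g =ᶠ[𝓝 0] fun t => p' (d + t) - p' d - (c + e) * t := by
      filter_upwards [hg1] with t ht using ht.deriv
    have hg3 : HasDerivAt (fun t => p' (d + t) - p' d - (c + e) * t) (c - (c + e)) 0 := by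
      have h1 : HasDerivAt (fun t => p' (d + t)) c 0 := by
        have : HasDerivAt p' c (d + 0) := by simpa using hp'
        simpa using this.comp_const_add d 0
      have h3 : HasDerivAt (fun t : ℝ => (c + e) * t) (c + e) 0 := by
        simpa using (hasDerivAt_id (0 : ℝ)).const_mul (c + e)
      exact (h1.sub_const (p' d)).sub h3
    have hmax : IsLocalMax g 0 := by
      apply isLocalMax_of_deriv_deriv_neg
      · rw [hg2.deriv_eq, hg3.deriv]; linarith
      · rw [hg2.eq_of_nhds]; simp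
      · exact (hg1.self_of_nhds).continuousAt
    have hg0 : g 0 = 0 := by simp [hg]
    filter_upwards [hmax] with t ht
    rw [hg0] at ht
    simp only [hg] at ht
    linarith
  -- apply at the four points
  have hz : ∀ u : ℂ, ‖u‖ = 1 → ∀ r : ℝ, ‖z + u * r‖ ^ 2 =
      ‖z‖ ^ 2 + 2 * r * (z.re * u.re + z.im * u.im) + r ^ 2 := by
    intro u hu r
    have hu2 : u.re ^ 2 + u.im ^ 2 = 1 := by
      have := Complex.sq_norm u
      rw [hu, Complex.normSq_apply] at this
      linarith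
    rw [Complex.sq_norm, Complex.sq_norm, Complex.normSq_apply, Complex.normSq_apply]
    simp only [add_re, add_im, mul_re, mul_im, ofReal_re, ofReal_im]
    linear_combination (r ^ 2) * hu2
  have htend : ∀ a : ℝ, Tendsto (fun r : ℝ => - (2 * r * a) - r ^ 2) (𝓝[>] 0) (𝓝 0) := by
    intro a
    have : Continuous (fun r : ℝ => - (2 * r * a) - r ^ 2) := by fun_prop
    have h := this.tendsto 0
    simp only [mul_zero, zero_mul, neg_zero, ne_eq, OfNat.ofNat_ne_zero, not_false_eq_true,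
      zero_pow, sub_zero] at h
    exact h.mono_left nhdsWithin_le_nhds
  have h1 := (htend z.re).eventually key
  have h2 := (htend z.im).eventually key
  have h3 := (htend (-z.re)).eventually key
  have h4 := (htend (-z.im)).eventually key
  have h5 : ∀ᶠ r : ℝ in 𝓝[>] 0, |c + e| / 2 * r ^ 2 ≤ ε / 2 := by
    have : Continuous (fun r : ℝ => |c + e| / 2 * r ^ 2) := by fun_prop
    have h := this.tendsto 0
    simp only [ne_eq, OfNat.ofNat_ne_zero, not_false_eq_true, zero_pow, mul_zero] at h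
    exact (h.mono_left nhdsWithin_le_nhds).eventually (ge_mem_nhds (by positivity))
  filter_upwards [h1, h2, h3, h4, h5] with r k1 k2 k3 k4 k5
  have e1 : 1 - ‖z + r‖ ^ 2 = d + (- (2 * r * z.re) - r ^ 2) := by
    have := hz 1 (by simp) r
    simp only [one_mul, one_re, one_im, mul_one, mul_zero, add_zero] at this
    rw [this, hd]; ring
  have e2 : 1 - ‖z + I * r‖ ^ 2 = d + (- (2 * r * z.im) - r ^ 2) := by
    have := hz I (by simp) r
    simp only [I_re, I_im, mul_one, mul_zero, zero_add] at this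
    rw [this, hd]; ring
  have e3 : 1 - ‖z - r‖ ^ 2 = d + (- (2 * r * (-z.re)) - r ^ 2) := by
    have := hz (-1) (by simp) r
    simp only [neg_mul, one_mul, neg_re, one_re, neg_im, one_im, neg_zero, mul_zero, add_zero,
      mul_neg, mul_one] at this
    rw [sub_eq_add_neg, sub_eq_add_neg z, this, hd]; ring
  have e4 : 1 - ‖z - I * r‖ ^ 2 = d + (- (2 * r * (-z.im)) - r ^ 2) := by
    have := hz (-I) (by simp) r
    simp only [neg_mul, neg_re, I_re, neg_zero, mul_zero, neg_im, I_im, mul_neg, mul_one,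
      zero_add] at this
    rw [sub_eq_add_neg, sub_eq_add_neg z, this, hd]; ring
  have hn : ‖z‖ ^ 2 = z.re ^ 2 + z.im ^ 2 := by
    rw [Complex.sq_norm, Complex.normSq_apply]; ring
  unfold m4
  simp only [e1, e2, e3, e4]
  have hsum : (p (d + (- (2 * r * z.re) - r ^ 2)) + p (d + (- (2 * r * z.im) - r ^ 2))
      + p (d + (- (2 * r * (-z.re)) - r ^ 2)) + p (d + (- (2 * r * (-z.im)) - r ^ 2))) / 4 - p d
      ≤ - p' d * r ^ 2 + (c + e) / 2 * (2 * ‖z‖ ^ 2 * r ^ 2 + r ^ 4) := by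
    rw [hn]
    have : - p' d * r ^ 2 + (c + e) / 2 * (2 * (z.re ^ 2 + z.im ^ 2) * r ^ 2 + r ^ 4) =
      ((p d + p' d * (- (2 * r * z.re) - r ^ 2) + (c + e) / 2 * (- (2 * r * z.re) - r ^ 2) ^ 2)
      + (p d + p' d * (- (2 * r * z.im) - r ^ 2) + (c + e) / 2 * (- (2 * r * z.im) - r ^ 2) ^ 2)
      + (p d + p' d * (- (2 * r * (-z.re)) - r ^ 2)
          + (c + e) / 2 * (- (2 * r * (-z.re)) - r ^ 2) ^ 2)
      + (p d + p' d * (- (2 * r * (-z.im)) - r ^ 2)
          + (c + e) / 2 * (- (2 * r * (-z.im)) - r ^ 2) ^ 2)) / 4 - p d := by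
      ring
    rw [this]
    linarith
  have hfin : - p' d * r ^ 2 + (c + e) / 2 * (2 * ‖z‖ ^ 2 * r ^ 2 + r ^ 4) ≤
      (- p' d + ‖z‖ ^ 2 * c + ε) * r ^ 2 := by
    have a1 : e * ‖z‖ ^ 2 ≤ ε / 2 := by
      rw [he, div_mul_eq_mul_div, div_le_iff₀ (by positivity)]
      nlinarith [sq_nonneg ‖z‖]
    have a2 : (c + e) / 2 * r ^ 2 ≤ ε / 2 := by
      refine le_trans ?_ k5
      gcongr
      exact le_abs_self _
    have a3 : 0 ≤ r ^ 2 := sq_nonneg r
    have : (- p' d + ‖z‖ ^ 2 * c + ε) * r ^ 2 -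
      (- p' d * r ^ 2 + (c + e) / 2 * (2 * ‖z‖ ^ 2 * r ^ 2 + r ^ 4)) =
      r ^ 2 * ((ε / 2 - e * ‖z‖ ^ 2) + (ε / 2 - (c + e) / 2 * r ^ 2)) := by ring
    have h0 : 0 ≤ r ^ 2 * ((ε / 2 - e * ‖z‖ ^ 2) + (ε / 2 - (c + e) / 2 * r ^ 2)) :=
      mul_nonneg a3 (by linarith)
    linarith
  exact hsum.trans hfin


/-- four point means of real parts of analytic functions -/
lemma m4_re_of_analyticAt {G : ℂ → ℂ} {z : ℂ} (hG : AnalyticAt ℂ G z) :
    ∀ ε : ℝ, 0 < ε → ∀ᶠ r : ℝ in 𝓝[>] 0, |m4 (fun w => (G w).re) z r - (G z).re| ≤ ε * r ^ 2 := by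
  obtain ⟨p, hp⟩ := hG
  intro ε hε
  have hO := hp.isBigO_sub_partialSum_pow 3
  obtain ⟨C, hC0, hC⟩ := hO.exists_pos
  have hC' := hC.bound
  have htend : ∀ u : ℂ, Tendsto (fun r : ℝ => u * r) (𝓝[>] 0) (𝓝 0) := by
    intro u
    have : Continuous (fun r : ℝ => u * (r : ℂ)) := by fun_prop
    have h := this.tendsto 0
    simp only [ofReal_zero, mul_zero] at h
    exact h.mono_left nhdsWithin_le_nhds
  have h1 := (htend 1).eventually hC'
  have h2 := (htend I).eventually hC'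
  have h3 := (htend (-1)).eventually hC'
  have h4 := (htend (-I)).eventually hC'
  have h5 : ∀ᶠ r : ℝ in 𝓝[>] 0, C * r ≤ ε := by
    have : Continuous (fun r : ℝ => C * r) := by fun_prop
    have h := this.tendsto 0
    simp only [mul_zero] at h
    exact (h.mono_left nhdsWithin_le_nhds).eventually (ge_mem_nhds hε)
  filter_upwards [h1, h2, h3, h4, h5, self_mem_nhdsWithin] with r k1 k2 k3 k4 k5 k6
  have hr : (0 : ℝ) < r := k6
  set S : ℂ → ℂ := fun y => p.coeff 0 + y * p.coeff 1 + y ^ 2 * p.coeff 2 with hS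
  have hps : ∀ y, p.partialSum 3 y = S y := by
    intro y
    simp [FormalMultilinearSeries.partialSum, Finset.sum_range_succ, hS]
  have hc0 : p.coeff 0 = G z := hp.coeff_zero _
  rw [hps] at k1 k2 k3 k4
  have hn : ∀ u : ℂ, ‖u‖ = 1 → ‖u * (r : ℂ)‖ = r := by
    intro u hu
    rw [norm_mul, hu, one_mul, Complex.norm_real, Real.norm_of_nonneg hr.le]
  have hb : ∀ u : ℂ, ‖u‖ = 1 → ‖G (z + u * r) - S (u * r)‖ ≤ C * ‖‖u * (r : ℂ)‖ ^ 3‖ →
      ‖G (z + u * r) - S (u * r)‖ ≤ C * r ^ 3 := by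
    intro u hu h
    rw [hn u hu] at h
    rwa [Real.norm_of_nonneg (by positivity)] at h
  have b1 := hb 1 (by simp) k1
  have b2 := hb I (by simp) k2
  have b3 := hb (-1) (by simp) k3
  have b4 := hb (-I) (by simp) k4
  have hsum : (G (z + r) + G (z + I * r) + G (z - r) + G (z - I * r)) / 4 - G z
      = ((G (z + 1 * r) - S (1 * r)) + (G (z + I * r) - S (I * r)) + (G (z + -1 * r) - S (-1 * r))
        + (G (z + -I * r) - S (-I * r))) / 4 := by
    have hI : (I : ℂ) ^ 2 = -1 := I_sq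
    have hS4 : S (1 * r) + S (I * r) + S (-1 * r) + S (-I * r) = 4 * G z := by
      simp only [hS, hc0]
      linear_combination (2 * (r : ℂ) ^ 2 * p.coeff 2) * hI
    have e3 : z + -1 * (r : ℂ) = z - r := by ring
    have e4 : z + -I * (r : ℂ) = z - I * r := by ring
    have e1 : z + 1 * (r : ℂ) = z + r := by ring
    rw [e3, e4, e1]
    linear_combination (1 / 4 : ℂ) * hS4
  have hre : m4 (fun w => (G w).re) z r - (G z).re =
      ((G (z + r) + G (z + I * r) + G (z - r) + G (z - I * r)) / 4 - G z).re := by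
    unfold m4
    have : ((G (z + r) + G (z + I * r) + G (z - r) + G (z - I * r)) / 4 : ℂ).re
      = ((G (z + r)).re + (G (z + I * r)).re + (G (z - r)).re + (G (z - I * r)).re) / 4 := by
      rw [show (4 : ℂ) = ((4 : ℝ) : ℂ) by norm_num, Complex.div_ofReal_re]
      simp
    rw [sub_re, this]
  rw [hre]
  refine (Complex.abs_re_le_norm _).trans ?_
  rw [hsum, norm_div]
  have h4 : ‖(4 : ℂ)‖ = 4 := by norm_num
  rw [h4, div_le_iff₀ (by norm_num)]
  refine (norm_add_le _ _).trans ?_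
  have t1 := norm_add_le (G (z + 1 * r) - S (1 * r)) (G (z + I * r) - S (I * r))
  have t2 := norm_add_le ((G (z + 1 * r) - S (1 * r)) + (G (z + I * r) - S (I * r)))
    (G (z + -1 * r) - S (-1 * r))
  have t3 : C * r ^ 3 ≤ ε * r ^ 2 := by
    have : C * r ^ 3 = (C * r) * r ^ 2 := by ring
    rw [this]
    gcongr
  linarith

/-- four point means of `log ‖g‖`, `g` holomorphic, `g z ≠ 0` -/
lemma m4_log_norm {g : ℂ → ℂ} {z : ℂ} (hg : AnalyticAt ℂ g z) (h0 : g z ≠ 0) :
    ∀ ε : ℝ, 0 < ε → ∀ᶠ r : ℝ in 𝓝[>] 0,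
      |m4 (fun w => Real.log ‖g w‖) z r - Real.log ‖g z‖| ≤ ε * r ^ 2 := by
  set G : ℂ → ℂ := fun w => Complex.log (g w / g z) with hG
  have hGa : AnalyticAt ℂ G z := by
    apply AnalyticAt.clog (hg.div_const)
    rw [div_self h0]
    exact one_mem_slitPlane
  have hre : ∀ᶠ w in 𝓝 z, Real.log ‖g w‖ = (G w).re + Real.log ‖g z‖ := by
    have : ∀ᶠ w in 𝓝 z, g w ≠ 0 := hg.continuousAt.eventually_ne h0
    filter_upwards [this] with w hw
    rw [hG]
    simp only [Complex.log_re]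
    rw [norm_div, Real.log_div (norm_ne_zero_iff.2 hw) (norm_ne_zero_iff.2 h0)]
    ring
  have htend : ∀ u : ℂ, Tendsto (fun r : ℝ => z + u * r) (𝓝[>] 0) (𝓝 z) := by
    intro u
    have : Continuous (fun r : ℝ => z + u * (r : ℂ)) := by fun_prop
    have h := this.tendsto 0
    simp only [ofReal_zero, mul_zero, add_zero] at h
    exact h.mono_left nhdsWithin_le_nhds
  intro ε hε
  filter_upwards [m4_re_of_analyticAt hGa ε hε, (htend 1).eventually hre, (htend I).eventually hre,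
    (htend (-1)).eventually hre, (htend (-I)).eventually hre] with r k0 k1 k2 k3 k4
  have e3 : z + -1 * (r : ℂ) = z - r := by ring
  have e4 : z + -I * (r : ℂ) = z - I * r := by ring
  rw [e3] at k3
  rw [e4] at k4
  rw [one_mul] at k1
  have hz := hre.self_of_nhds
  have : m4 (fun w => Real.log ‖g w‖) z r - Real.log ‖g z‖ =
      m4 (fun w => (G w).re) z r - (G z).re := by
    unfold m4
    simp only [k1, k2, k3, k4]
    rw [show (G z).re = 0 by simp [hG]]
    ring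
  rw [this]
  exact k0

/-! ## The comparison function -/

/-- `ψ η δ = log ((δ+η)/η) + (δ/η) log ((δ+η)/δ)` -/
def psi (η δ : ℝ) : ℝ :=
  Real.log (δ + η) - Real.log η + (δ * Real.log (δ + η) - δ * Real.log δ) / η

@[simp] lemma psi_zero (η : ℝ) : psi η 0 = 0 := by simp [psi]

lemma psi_eq {η δ : ℝ} (hη : 0 < η) (hδ : 0 < δ) :
    psi η δ = Real.log ((δ + η) / η) + (δ / η) * Real.log ((δ + η) / δ) := by
  unfold psi
  rw [Real.log_div (by positivity) hη.ne', Real.log_div (by positivity) hδ.ne']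
  ring

lemma psi_nonneg {η δ : ℝ} (hη : 0 < η) (hδ : 0 ≤ δ) : 0 ≤ psi η δ := by
  rcases hδ.eq_or_lt with rfl | hδ
  · simp
  rw [psi_eq hη hδ]
  have h1 : 0 ≤ Real.log ((δ + η) / η) := Real.log_nonneg (by rw [le_div_iff₀ hη]; linarith)
  have h2 : 0 ≤ Real.log ((δ + η) / δ) := Real.log_nonneg (by rw [le_div_iff₀ hδ]; linarith)
  positivity

lemma psi_le {η δ : ℝ} (hη : 0 < η) (hδ : 0 ≤ δ) : psi η δ ≤ 1 + Real.log ((δ + η) / η) := by
  rcases hδ.eq_or_lt with rfl | hδ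
  · simp [hη.ne']
  rw [psi_eq hη hδ]
  have h2 : Real.log ((δ + η) / δ) ≤ η / δ := by
    have := Real.log_le_sub_one_of_pos (show 0 < (δ + η) / δ by positivity)
    refine this.trans (le_of_eq ?_)
    field_simp
    ring
  have : (δ / η) * Real.log ((δ + η) / δ) ≤ (δ / η) * (η / δ) := by gcongr
  have h3 : (δ / η) * (η / δ) = 1 := by field_simp
  linarith

/-- the exponential of the barrier is at most a power -/
lemma exp_psi_le {η δ K : ℝ} (hη : 0 < η) (hδ : 0 ≤ δ) (hK : 0 ≤ K) :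
    Real.exp (K * psi η δ) ≤ (Real.exp 1 * ((δ + η) / η)) ^ K := by
  rw [Real.rpow_def_of_pos (by positivity)]
  apply Real.exp_le_exp.2
  rw [Real.log_mul (by positivity) (by positivity), Real.log_exp, mul_comm]
  gcongr
  exact psi_le hη hδ

lemma continuousOn_psi {η : ℝ} (hη : 0 < η) : ContinuousOn (psi η) (Ici 0) := by
  have h1 : ContinuousOn (fun δ : ℝ => Real.log (δ + η)) (Ici 0) := by
    apply ContinuousOn.log (by fun_prop)
    intro x hx
    have : (0 : ℝ) ≤ x := hx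
    positivity
  have h2 : Continuous (fun δ : ℝ => δ * Real.log δ) := Real.continuous_mul_log
  unfold psi
  exact (h1.sub continuousOn_const).add
    (((continuousOn_id.mul h1).sub h2.continuousOn).div_const η)

/-- derivative of the barrier -/
def dpsi (η δ : ℝ) : ℝ := (Real.log (δ + η) - Real.log δ) / η

lemma hasDerivAt_psi {η δ : ℝ} (hη : 0 < η) (hδ : 0 < δ) : HasDerivAt (psi η) (dpsi η δ) δ := by
  have h0 : HasDerivAt (fun t : ℝ => t + η) 1 δ := by simpa using (hasDerivAt_id δ).add_const η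
  have h1 : HasDerivAt (fun δ : ℝ => Real.log (δ + η)) (1 / (δ + η)) δ := by
    have := h0.log (by positivity)
    simpa using this
  have h2 : HasDerivAt (fun δ : ℝ => Real.log δ) (1 / δ) δ := by
    simpa using Real.hasDerivAt_log hδ.ne'
  have h3 := ((h1.sub_const (Real.log η)).add
    ((((hasDerivAt_id δ).mul h1).sub ((hasDerivAt_id δ).mul h2)).div_const η))
  refine h3.congr_deriv ?_
  simp only [id_eq, one_mul]
  unfold dpsi
  field_simp
  ring

lemma hasDerivAt_dpsi {η δ : ℝ} (hη : 0 < η) (hδ : 0 < δ) :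
    HasDerivAt (dpsi η) (- (1 / (δ * (δ + η)))) δ := by
  have h0 : HasDerivAt (fun t : ℝ => t + η) 1 δ := by simpa using (hasDerivAt_id δ).add_const η
  have h1 : HasDerivAt (fun δ : ℝ => Real.log (δ + η)) (1 / (δ + η)) δ := by
    have := h0.log (by positivity)
    simpa using this
  have h2 : HasDerivAt (fun δ : ℝ => Real.log δ) (1 / δ) δ := by
    simpa using Real.hasDerivAt_log hδ.ne'
  refine ((h1.sub h2).div_const η).congr_deriv ?_
  field_simp
  ring

lemma le_dpsi {η δ : ℝ} (hη : 0 < η) (hδ : 0 < δ) : 1 / (δ + η) ≤ dpsi η δ := by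
  unfold dpsi
  rw [le_div_iff₀ hη, ← Real.log_div (by positivity) hδ.ne']
  have := Real.one_sub_inv_le_log_of_pos (show 0 < (δ + η) / δ by positivity)
  refine le_trans (le_of_eq ?_) this
  field_simp
  ring

/-- the barrier inequality `∂∂̄ ψ(1-|z|²) ≤ - 1/(δ(δ+η))` -/
lemma levi_psi {η : ℝ} (hη : 0 < η) {z : ℂ} (hz : ‖z‖ < 1) :
    LeviLE (fun w => psi η (1 - ‖w‖ ^ 2)) z
      (- (1 / ((1 - ‖z‖ ^ 2) * (1 - ‖z‖ ^ 2 + η)))) := by
  set d := 1 - ‖z‖ ^ 2 with hd
  have hz2 : ‖z‖ ^ 2 < 1 := by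
    have := norm_nonneg z
    nlinarith
  have hd0 : 0 < d := by rw [hd]; linarith
  have h := LeviLE.radial (p := psi η) (p' := dpsi η) (z := z)
    (c := - (1 / (d * (d + η)))) ?_ (hasDerivAt_dpsi hη hd0)
  · refine h.mono ?_
    rw [← hd]
    have h1 := le_dpsi hη hd0
    have h2 : ‖z‖ ^ 2 = 1 - d := by rw [hd]; ring
    rw [h2]
    have h3 : (1 - d) * - (1 / (d * (d + η))) = - (1 / (d * (d + η))) + 1 / (d + η) := by
      field_simp
      ring
    rw [h3]
    linarith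
  · have : ∀ᶠ t in 𝓝 (1 - ‖z‖ ^ 2), 0 < t := lt_mem_nhds hd0
    filter_upwards [this] with t ht using hasDerivAt_psi hη ht

/-! ## The barrier theorem -/

/-- strict version -/
theorem bar_aux {E : Type*} [NormedAddCommGroup E] [NormedSpace ℂ E] {W : ℂ → E} {q : ℂ → ℝ}
    {M : ℝ} (hM : 0 ≤ M)
    (hW : DiffContOnCl ℂ W (ball 0 1)) (hq : ContinuousOn q (closedBall 0 1))
    (hL : ∀ z : ℂ, ‖z‖ < 1 → ∃ L < 0, LeviLE q z L)
    (hb : ∀ z : ℂ, ‖z‖ = 1 → ‖W z‖ ≤ M * Real.exp (q z)) :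
    ∀ z : ℂ, ‖z‖ ≤ 1 → ‖W z‖ ≤ M * Real.exp (q z) := by
  by_contra hcon
  push Not at hcon
  obtain ⟨z1, hz1, hz1'⟩ := hcon
  have hWc : ContinuousOn W (closedBall 0 1) := by
    have := hW.continuousOn
    rwa [closure_ball _ one_ne_zero] at this
  set Φ : ℂ → ℝ := fun z => ‖W z‖ * Real.exp (- q z) with hΦ
  have hΦc : ContinuousOn Φ (closedBall 0 1) :=
    hWc.norm.mul (Real.continuous_exp.comp_continuousOn hq.neg)
  obtain ⟨z0, hz0, hmax⟩ := (isCompact_closedBall (0 : ℂ) 1).exists_isMaxOn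
    ⟨z1, by simpa using hz1⟩ hΦc
  have hgt : M < Φ z0 := by
    have h1 : Φ z1 ≤ Φ z0 := hmax (by simpa using hz1)
    have h2 : M < Φ z1 := by
      rw [hΦ]
      simp only
      rw [Real.exp_neg, ← div_eq_mul_inv, lt_div_iff₀ (Real.exp_pos _)]
      exact hz1'
    linarith
  have hz0n : ‖z0‖ ≤ 1 := by simpa using hz0
  have hz0lt : ‖z0‖ < 1 := by
    rcases hz0n.lt_or_eq with h | h
    · exact h
    exfalso
    have := hb z0 h
    have h2 : Φ z0 ≤ M := by
      rw [hΦ]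
      simp only
      rw [Real.exp_neg, ← div_eq_mul_inv, div_le_iff₀ (Real.exp_pos _)]
      exact this
    linarith
  have hW0 : W z0 ≠ 0 := by
    intro h
    have : Φ z0 = 0 := by simp [hΦ, h]
    linarith
  obtain ⟨l, hl1, hl2⟩ := exists_dual_vector ℂ (W z0) (norm_ne_zero_iff.2 hW0)
  set g : ℂ → ℂ := fun z => l (W z) with hg
  have hgz0 : ‖g z0‖ = ‖W z0‖ := by
    rw [hg]; simp only; rw [hl2]; simp
  have hgle : ∀ z, ‖g z‖ ≤ ‖W z‖ := by
    intro z
    have := l.le_opNorm (W z)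
    rw [hl1, one_mul] at this
    exact this
  have hgd : DifferentiableOn ℂ g (ball 0 1) :=
    l.differentiable.comp_differentiableOn hW.differentiableOn
  have hga : AnalyticAt ℂ g z0 :=
    hgd.analyticAt (isOpen_ball.mem_nhds (by simpa using hz0lt))
  have hg0 : g z0 ≠ 0 := by
    rw [← norm_ne_zero_iff, hgz0]
    exact norm_ne_zero_iff.2 hW0
  obtain ⟨L, hL0, hLq⟩ := hL z0 hz0lt
  -- local maximum of `log ‖g‖ - q`
  have hloc : ∀ᶠ w in 𝓝 z0, Real.log ‖g w‖ - q w ≤ Real.log ‖g z0‖ - q z0 := by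
    have h1 : ∀ᶠ w in 𝓝 z0, w ∈ ball (0 : ℂ) 1 := isOpen_ball.mem_nhds (by simpa using hz0lt)
    have h2 : ∀ᶠ w in 𝓝 z0, g w ≠ 0 := hga.continuousAt.eventually_ne hg0
    filter_upwards [h1, h2] with w hw hgw
    have h3 : Φ w ≤ Φ z0 := hmax (ball_subset_closedBall hw)
    have h4 : ‖g w‖ * Real.exp (- q w) ≤ ‖g z0‖ * Real.exp (- q z0) := by
      rw [hgz0]
      refine le_trans ?_ h3
      rw [hΦ]
      simp only
      gcongr
      exact hgle w
    have h5 := Real.log_le_log (by positivity) h4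
    rw [Real.log_mul (norm_ne_zero_iff.2 hgw) (Real.exp_pos _).ne',
      Real.log_mul (norm_ne_zero_iff.2 hg0) (Real.exp_pos _).ne', Real.log_exp, Real.log_exp] at h5
    linarith
  have htend : ∀ u : ℂ, Tendsto (fun r : ℝ => z0 + u * r) (𝓝[>] 0) (𝓝 z0) := by
    intro u
    have : Continuous (fun r : ℝ => z0 + u * (r : ℂ)) := by fun_prop
    have h := this.tendsto 0
    simp only [ofReal_zero, mul_zero, add_zero] at h
    exact h.mono_left nhdsWithin_le_nhds
  have hev := m4_log_norm hga hg0 (-L / 4) (by linarith)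
  have hev2 := hLq (-L / 4) (by linarith)
  obtain ⟨r, k0, k1, k2, k3, k4, k5, k6⟩ := (hev.and (hev2.and (((htend 1).eventually hloc).and
    (((htend I).eventually hloc).and (((htend (-1)).eventually hloc).and
    (((htend (-I)).eventually hloc).and self_mem_nhdsWithin)))))).exists
  have hr : (0 : ℝ) < r := k6
  have e3 : z0 + -1 * (r : ℂ) = z0 - r := by ring
  have e4 : z0 + -I * (r : ℂ) = z0 - I * r := by ring
  have e1 : z0 + 1 * (r : ℂ) = z0 + r := by ring
  rw [e1] at k2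
  rw [e3] at k4
  rw [e4] at k5
  have hm : m4 (fun w => Real.log ‖g w‖) z0 r - Real.log ‖g z0‖ ≤ m4 q z0 r - q z0 := by
    unfold m4
    linarith
  have hk0 := (abs_le.1 k0).1
  have : -L / 4 * r ^ 2 + (L + -L / 4) * r ^ 2 < 0 := by
    have : -L / 4 * r ^ 2 + (L + -L / 4) * r ^ 2 = L / 2 * r ^ 2 := by ring
    rw [this]
    have h2 : 0 < r ^ 2 := by positivity
    nlinarith
  linarith

/-- Levi form of `1 - |z|²` -/
lemma levi_one_sub (z : ℂ) : LeviLE (fun w => 1 - ‖w‖ ^ 2) z (-1) := by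
  have h := LeviLE.radial (p := fun t => t) (p' := fun _ => 1) (z := z) (c := 0)
    (Eventually.of_forall fun t => hasDerivAt_id t) (hasDerivAt_const _ _)
  refine h.mono ?_
  simp

lemma continuousOn_psi_norm {η : ℝ} (hη : 0 < η) :
    ContinuousOn (fun z : ℂ => psi η (1 - ‖z‖ ^ 2)) (closedBall 0 1) := by
  apply (continuousOn_psi hη).comp (by fun_prop)
  intro z hz
  have : ‖z‖ ≤ 1 := by simpa using hz
  have h0 := norm_nonneg z
  simp only [mem_Ici, sub_nonneg]
  nlinarith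

/-- **(BAR)**, the barrier theorem. `h` continuous on the closed disc with Levi form at most
`K / (δ (δ + η))`, `δ = 1 - |z|²`, `W` holomorphic with values in a normed space and
`‖W‖ ≤ M exp h` on the circle. Then `‖W z‖ ≤ M exp (h z + K ψ(1-|z|²))` on the closed disc. -/
theorem bar {E : Type*} [NormedAddCommGroup E] [NormedSpace ℂ E] {W : ℂ → E} {h : ℂ → ℝ}
    {η K M : ℝ} (hη : 0 < η) (hK : 0 ≤ K)
    (hW : DiffContOnCl ℂ W (ball 0 1)) (hh : ContinuousOn h (closedBall 0 1))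
    (hL : ∀ z : ℂ, ‖z‖ < 1 → LeviLE h z (K / ((1 - ‖z‖ ^ 2) * (1 - ‖z‖ ^ 2 + η))))
    (hM : ∀ z : ℂ, ‖z‖ = 1 → ‖W z‖ ≤ M * Real.exp (h z)) :
    ∀ z : ℂ, ‖z‖ ≤ 1 → ‖W z‖ ≤ M * Real.exp (h z + K * psi η (1 - ‖z‖ ^ 2)) := by
  have hM0 : 0 ≤ M := by
    have := (norm_nonneg _).trans (hM 1 (by simp))
    exact nonneg_of_mul_nonneg_left this (Real.exp_pos _)
  intro z hz
  -- perturbation
  have key : ∀ ε : ℝ, 0 < ε →
      ‖W z‖ ≤ M * Real.exp (h z + K * psi η (1 - ‖z‖ ^ 2) + ε * (1 - ‖z‖ ^ 2)) := by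
    intro ε hε
    refine bar_aux (q := fun w => h w + K * psi η (1 - ‖w‖ ^ 2) + ε * (1 - ‖w‖ ^ 2)) hM0 hW
      ?_ ?_ ?_ z hz
    · exact (hh.add (continuousOn_const.mul (continuousOn_psi_norm hη))).add (by fun_prop)
    · intro w hw
      refine ⟨-ε, by linarith, ?_⟩
      have h1 := ((hL w hw).add ((levi_psi hη hw).const_mul hK)).add
        ((levi_one_sub w).const_mul hε.le)
      refine h1.mono (le_of_eq ?_)
      ring
    · intro w hw
      have h0 : (1 : ℝ) - ‖w‖ ^ 2 = 0 := by rw [hw]; norm_num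
      simp only [h0, psi_zero, mul_zero, add_zero]
      exact hM w hw
  have hlim : Tendsto (fun ε : ℝ =>
      M * Real.exp (h z + K * psi η (1 - ‖z‖ ^ 2) + ε * (1 - ‖z‖ ^ 2))) (𝓝[>] 0)
      (𝓝 (M * Real.exp (h z + K * psi η (1 - ‖z‖ ^ 2)))) := by
    have : Continuous (fun ε : ℝ =>
      M * Real.exp (h z + K * psi η (1 - ‖z‖ ^ 2) + ε * (1 - ‖z‖ ^ 2))) := by fun_prop
    have h2 := this.tendsto 0
    simp only [zero_mul, add_zero] at h2
    exact h2.mono_left nhdsWithin_le_nhds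
  refine ge_of_tendsto hlim ?_
  filter_upwards [self_mem_nhdsWithin] with ε hε using key ε hε

/-- **(BAR')**: the same with a power of `(δ+η)/η`. -/
theorem bar_pow {E : Type*} [NormedAddCommGroup E] [NormedSpace ℂ E] {W : ℂ → E} {h : ℂ → ℝ}
    {η K M : ℝ} (hη : 0 < η) (hK : 0 ≤ K)
    (hW : DiffContOnCl ℂ W (ball 0 1)) (hh : ContinuousOn h (closedBall 0 1))
    (hL : ∀ z : ℂ, ‖z‖ < 1 → LeviLE h z (K / ((1 - ‖z‖ ^ 2) * (1 - ‖z‖ ^ 2 + η))))
    (hM : ∀ z : ℂ, ‖z‖ = 1 → ‖W z‖ ≤ M * Real.exp (h z)) :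
    ∀ z : ℂ, ‖z‖ ≤ 1 →
      ‖W z‖ ≤ M * (Real.exp (h z) * (Real.exp 1 * ((1 - ‖z‖ ^ 2 + η) / η)) ^ K) := by
  have hM0 : 0 ≤ M := by
    have := (norm_nonneg _).trans (hM 1 (by simp))
    exact nonneg_of_mul_nonneg_left this (Real.exp_pos _)
  intro z hz
  refine (bar hη hK hW hh hL hM z hz).trans ?_
  rw [Real.exp_add]
  have hd : 0 ≤ 1 - ‖z‖ ^ 2 := by
    have h0 := norm_nonneg z
    nlinarith
  have := exp_psi_le hη hd hK
  gcongr

/-- **(BAR0)**: scalar version, continuous function `u` with lower Levi bound. -/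
theorem bar0 {u : ℂ → ℝ} {η K m : ℝ} (hη : 0 < η) (hK : 0 ≤ K)
    (hu : ContinuousOn u (closedBall 0 1))
    (hL : ∀ z : ℂ, ‖z‖ < 1 →
      LeviLE (fun w => - u w) z (K / ((1 - ‖z‖ ^ 2) * (1 - ‖z‖ ^ 2 + η))))
    (hm : ∀ z : ℂ, ‖z‖ = 1 → u z ≤ m) :
    ∀ z : ℂ, ‖z‖ ≤ 1 → u z ≤ m + K * psi η (1 - ‖z‖ ^ 2) := by
  intro z hz
  have h := bar (W := fun _ => (1 : ℂ)) (h := fun w => - u w) (M := Real.exp m) hη hK
    (diffContOnCl_const) hu.neg hL (by
      intro w hw
      rw [norm_one, ← Real.exp_add]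
      exact Real.one_le_exp (by linarith [hm w hw])) z hz
  rw [norm_one, ← Real.exp_add] at h
  have := Real.log_nonneg h
  rw [Real.log_exp] at this
  linarith

end Crest.Agent.R269.Bar84
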