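import Crest.Agent.R269.Hardy_142

/-!
# Hardy space base, part 2 (row 269, line B): common sequences, Poisson formula, products
-/

open MeasureTheory Set Filter Topology AddCircle
open scoped ComplexConjugate ENNReal

namespace Crest.Agent.R269.Hardy_142

noncomputable section

/-- A common sequence of radii for countably many `L¹`-convergences. -/
theorem exists_common_seq {ι : Type*} [Countable ι] (φ : ι → ℝ → TT → ℝ)
    (h0 : ∀ i r t, 0 ≤ φ i r t)
    (hint : ∀ i, ∀ r ∈ Ioo (0 : ℝ) 1, Integrable (φ i r) mu)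
    (hlim : ∀ i, Tendsto (fun r => ∫ t, φ i r t ∂mu) (𝓝[<] 1) (𝓝 0)) :
    ∃ s : ℕ → ℝ, (∀ j, s j ∈ Ioo (0 : ℝ) 1) ∧ Tendsto s atTop (𝓝 1) ∧
      ∀ i, ∀ᵐ t ∂mu, Tendsto (fun j => φ i (s j) t) atTop (𝓝 0) := by
  obtain ⟨f, hf⟩ := Countable.exists_injective_nat ι
  have h1 : ∀ j : ℕ, ∃ r : ℝ, r ∈ Ioo (0 : ℝ) 1 ∧ 1 - 1 / ((j : ℝ) + 1) < r ∧
      ∀ i, f i ≤ j → ∫ t, φ i r t ∂mu ≤ (1 / 2) ^ j := by
    intro j
    have hfin : {i | f i ≤ j}.Finite := (Set.finite_Iic j).preimage hf.injOn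
    have e1 : ∀ᶠ r : ℝ in 𝓝[<] 1, r ∈ Ioo (0 : ℝ) 1 := Ioo_mem_nhdsLT one_pos
    have e2 : ∀ᶠ r : ℝ in 𝓝[<] 1, r ∈ Ioo (1 - 1 / ((j : ℝ) + 1)) 1 := by
      refine Ioo_mem_nhdsLT ?_
      have : 0 < 1 / ((j : ℝ) + 1) := by positivity
      linarith
    have e3 : ∀ᶠ r : ℝ in 𝓝[<] 1, ∀ i ∈ {i | f i ≤ j}, ∫ t, φ i r t ∂mu ≤ (1 / 2) ^ j := by
      rw [hfin.eventually_all]
      intro i _
      exact ((hlim i).eventually (gt_mem_nhds (by positivity))).mono fun r h => h.le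
    obtain ⟨r, hr1, hr2, hr3⟩ := (e1.and (e2.and e3)).exists
    exact ⟨r, hr1, hr2.1, fun i hi => hr3 i hi⟩
  choose s hs1 hs2 hs3 using h1
  refine ⟨s, hs1, ?_, fun i => ?_⟩
  · have hl : Tendsto (fun j : ℕ => 1 - 1 / ((j : ℝ) + 1)) atTop (𝓝 (1 - 0)) :=
      tendsto_const_nhds.sub tendsto_one_div_add_atTop_nhds_zero_nat
    rw [sub_zero] at hl
    exact tendsto_of_tendsto_of_tendsto_of_le_of_le hl tendsto_const_nhds
      (fun j => (hs2 j).le) (fun j => (hs1 j).2.le)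
  · have hl : ∀ j, f i ≤ j →
        ∫⁻ t, ENNReal.ofReal (φ i (s j) t) ∂mu ≤ ENNReal.ofReal ((1 / 2) ^ j) := by
      intro j hj
      rw [← ofReal_integral_eq_lintegral_ofReal (hint i _ (hs1 j))
        (Eventually.of_forall (h0 i _))]
      exact ENNReal.ofReal_le_ofReal (hs3 j i hj)
    have hm : ∀ j : ℕ, AEMeasurable (fun t => ENNReal.ofReal (φ i (s (j + f i)) t)) mu :=
      fun j => (hint i _ (hs1 _)).aestronglyMeasurable.aemeasurable.ennreal_ofReal
    have hsum : ∫⁻ t, ∑' j : ℕ, ENNReal.ofReal (φ i (s (j + f i)) t) ∂mu ≠ ∞ := by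
      rw [lintegral_tsum hm]
      refine ne_top_of_le_ne_top ?_
        (ENNReal.tsum_le_tsum fun j => hl (j + f i) (Nat.le_add_left _ _))
      rw [← ENNReal.ofReal_tsum_of_nonneg (fun j => by positivity)]
      · exact ENNReal.ofReal_ne_top
      · exact (summable_geometric_of_lt_one (r := (1 / 2 : ℝ)) (by norm_num)
          (by norm_num)).comp_injective (add_left_injective _)
    have hae := ae_lt_top' (AEMeasurable.tsum hm) hsum
    filter_upwards [hae] with t ht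
    have h2 := ENNReal.tendsto_atTop_zero_of_tsum_ne_top ht.ne
    have h3 := (ENNReal.tendsto_toReal ENNReal.zero_ne_top).comp h2
    simp only [Function.comp_def, ENNReal.toReal_ofReal (h0 _ _ _), ENNReal.toReal_zero] at h3
    exact (tendsto_add_atTop_iff_nat (f := fun j => φ i (s j) t) (f i)).mp h3

theorem tendsto_of_sq {H : Type*} [NormedAddCommGroup H] {u : ℕ → H} {v : H}
    (h : Tendsto (fun j => ‖u j - v‖ ^ 2) atTop (𝓝 0)) : Tendsto u atTop (𝓝 v) := by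
  rw [tendsto_iff_norm_sub_tendsto_zero]
  have h1 : Tendsto (fun j => Real.sqrt (‖u j - v‖ ^ 2)) atTop (𝓝 (Real.sqrt 0)) :=
    (Real.continuous_sqrt.tendsto 0).comp h
  simpa [Real.sqrt_sq (norm_nonneg _)] using h1

theorem norm_sq_integrable {E : Type*} [NormedAddCommGroup E] {f : TT → E}
    (hf : MemLp f 2 mu) : Integrable (fun t => ‖f t‖ ^ 2) mu :=
  hf.integrable_norm_pow (by norm_num)

/-- Common sequence of radii for countably many `H²` functions. -/
theorem IsH2.common_seq {ι : Type*} [Countable ι] {E : ι → Type*}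
    [∀ i, NormedAddCommGroup (E i)] [∀ i, InnerProductSpace ℂ (E i)]
    [∀ i, FiniteDimensional ℂ (E i)] (Q : ∀ i, TT → E i) (hQ : ∀ i, IsH2 (Q i)) :
    ∃ s : ℕ → ℝ, (∀ j, s j ∈ Ioo (0 : ℝ) 1) ∧ Tendsto s atTop (𝓝 1) ∧
      ∀ i, ∀ᵐ t ∂mu, Tendsto (fun j => ext (Q i) (s j * zt t)) atTop (𝓝 (Q i t)) := by
  have hc : ∀ i, CompleteSpace (E i) := fun i => FiniteDimensional.complete ℂ (E i)
  obtain ⟨s, hs1, hs2, hs3⟩ := exists_common_seq
    (fun i (r : ℝ) t => ‖ext (Q i) (r * zt t) - Q i t‖ ^ 2) (fun i r t => by positivity)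
    (fun i r hr => norm_sq_integrable ((memLp_of_continuous (continuous_slice
      (differentiableOn_ext (hQ i).integrable) hr.1.le hr.2)).sub (hQ i).memLp))
    (fun i => (hQ i).tendsto_slice)
  refine ⟨s, hs1, hs2, fun i => ?_⟩
  filter_upwards [hs3 i] with t ht
  rw [tendsto_iff_norm_sub_tendsto_zero]
  have h1 : Tendsto (fun j => Real.sqrt (‖ext (Q i) (s j * zt t) - Q i t‖ ^ 2)) atTop
      (𝓝 (Real.sqrt 0)) := (Real.continuous_sqrt.tendsto 0).comp ht
  simpa [Real.sqrt_sq (norm_nonneg _)] using h1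

/-! ### Poisson formula -/

/-- The Poisson kernel as a function on the circle. -/
def pk (w : ℂ) (t : TT) : ℝ := poissonKernel 0 w (zt t)

theorem pk_eq (w : ℂ) (t : TT) : pk w t = (1 - ‖w‖ ^ 2) / ‖zt t - w‖ ^ 2 := by
  unfold pk poissonKernel
  simp [norm_zt]

theorem zt_sub_norm {w : ℂ} (t : TT) : 1 - ‖w‖ ≤ ‖zt t - w‖ := by
  have := norm_sub_norm_le (zt t) w
  rw [norm_zt] at this
  exact this

theorem pk_pos {w : ℂ} (hw : ‖w‖ < 1) (t : TT) : 0 < pk w t := by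
  rw [pk_eq]
  have h1 := zt_sub_norm (w := w) t
  have h2 : 0 < ‖zt t - w‖ := by linarith
  have h3 : 0 < 1 - ‖w‖ ^ 2 := by nlinarith [norm_nonneg w]
  positivity

theorem pk_le {w : ℂ} (hw : ‖w‖ < 1) (t : TT) : pk w t ≤ 2 / (1 - ‖w‖) := by
  rw [pk_eq]
  have h1 := zt_sub_norm (w := w) t
  have h2 : 0 < ‖zt t - w‖ := by linarith
  have h4 : 0 < 1 - ‖w‖ := by linarith
  rw [div_le_div_iff₀ (by positivity) h4]
  have h5 : (1 - ‖w‖) ^ 2 ≤ ‖zt t - w‖ ^ 2 := pow_le_pow_left₀ h4.le h1 2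
  have h6 : 1 - ‖w‖ ^ 2 = (1 - ‖w‖) * (1 + ‖w‖) := by ring
  rw [h6]
  nlinarith [norm_nonneg w]

theorem continuous_pk {w : ℂ} (hw : ‖w‖ < 1) : Continuous (pk w) := by
  have : pk w = fun t => (1 - ‖w‖ ^ 2) / ‖zt t - w‖ ^ 2 := funext fun t => pk_eq w t
  rw [this]
  refine continuous_const.div ((continuous_zt.sub continuous_const).norm.pow 2) fun t => ?_
  have h1 := zt_sub_norm (w := w) t
  have h2 : 0 < ‖zt t - w‖ := by linarith
  positivity

theorem pk_smul_integrable {E : Type*} [NormedAddCommGroup E] [NormedSpace ℝ E] {Q : TT → E}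
    (hQ : Integrable Q mu) {w : ℂ} (hw : ‖w‖ < 1) : Integrable (fun t => pk w t • Q t) mu :=
  hQ.bdd_smul (2 / (1 - ‖w‖)) (continuous_pk hw).aestronglyMeasurable
    (Eventually.of_forall fun t => by
      rw [Real.norm_eq_abs, abs_of_pos (pk_pos hw t)]; exact pk_le hw t)

theorem pk_mul_integrable {q : TT → ℝ} (hq : Integrable q mu) {w : ℂ} (hw : ‖w‖ < 1) :
    Integrable (fun t => pk w t * q t) mu := by
  simpa [smul_eq_mul] using pk_smul_integrable hq hw

theorem poisson_slice {E : Type*} [NormedAddCommGroup E] [NormedSpace ℂ E] [CompleteSpace E]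
    {F : ℂ → E} (hF : DifferentiableOn ℂ F (Metric.ball 0 1)) {r : ℝ} (hr : r ∈ Ioo (0 : ℝ) 1)
    {w : ℂ} (hw : ‖w‖ < 1) : ∫ t, pk w t • F (r * zt t) ∂mu = F (r * w) := by
  have h1 : DifferentiableOn ℂ (fun z : ℂ => F (r * z)) (Metric.ball 0 (1 / r)) := by
    refine hF.comp (by fun_prop) fun z hz => ?_
    rw [Metric.mem_ball, dist_zero_right] at hz ⊢
    rw [norm_mul, Complex.norm_real, Real.norm_eq_abs, abs_of_pos hr.1]
    rw [lt_div_iff₀ hr.1] at hz
    linarith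
  have h2 : DiffContOnCl ℂ (fun z : ℂ => F (r * z)) (Metric.ball 0 1) := by
    refine h1.diffContOnCl_ball (Metric.closedBall_subset_ball ?_)
    rw [lt_div_iff₀ hr.1]; linarith [hr.2]
  have h3 := h2.circleAverage_poissonKernel_smul (w := w)
    (by rw [Metric.mem_ball, dist_zero_right]; exact hw)
  rw [circleAverage_eq] at h3
  simpa [pk] using h3

theorem integral_pk {w : ℂ} (hw : ‖w‖ < 1) : ∫ t, pk w t ∂mu = 1 := by
  have h := poisson_slice (F := fun _ => (1 : ℂ)) (differentiableOn_const _)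
    (r := 1 / 2) ⟨by norm_num, by norm_num⟩ hw
  have h2 : (∫ t, pk w t • (1 : ℂ) ∂mu) = ((∫ t, pk w t ∂mu : ℝ) : ℂ) := by
    rw [← integral_complex_ofReal]
    refine integral_congr_ae (Eventually.of_forall fun t => ?_)
    simp
  rw [h2] at h
  exact_mod_cast h

/-- Cauchy–Schwarz for the Poisson measure. -/
theorem sq_integral_pk_le {q : TT → ℝ} (hq : MemLp q 2 mu) {w : ℂ} (hw : ‖w‖ < 1) :
    (∫ t, pk w t * q t ∂mu) ^ 2 ≤ ∫ t, pk w t * q t ^ 2 ∂mu := by
  set m := ∫ t, pk w t * q t ∂mu with hm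
  have hq1 : Integrable q mu := hq.integrable (by norm_num)
  have hq2 : Integrable (fun t => q t ^ 2) mu := by
    have := hq.integrable_norm_pow (by norm_num)
    simpa using this
  have i1 := pk_mul_integrable hq2 hw
  have i2 := (pk_mul_integrable hq1 hw).const_mul (2 * m)
  have i3 : Integrable (fun t => m ^ 2 * pk w t) mu := by
    have := (pk_mul_integrable (integrable_const (1 : ℝ)) hw).const_mul (m ^ 2)
    simpa using this
  have h1 : 0 ≤ ∫ t, (pk w t * q t ^ 2 - 2 * m * (pk w t * q t) + m ^ 2 * pk w t) ∂mu := by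
    refine integral_nonneg fun t => ?_
    have := (pk_pos hw t).le
    have e : pk w t * q t ^ 2 - 2 * m * (pk w t * q t) + m ^ 2 * pk w t =
      pk w t * (q t - m) ^ 2 := by ring
    simp only [Pi.zero_apply]
    rw [e]; positivity
  have i12 : Integrable (fun t => pk w t * q t ^ 2 - 2 * m * (pk w t * q t)) mu := i1.sub i2
  rw [integral_add i12 i3, integral_sub i1 i2, integral_const_mul, integral_const_mul,
    integral_pk hw, ← hm] at h1
  nlinarith

section poisson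

variable {E : Type*} [NormedAddCommGroup E] [InnerProductSpace ℂ E] [FiniteDimensional ℂ E]

theorem norm_integral_pk_smul_le {Q : TT → E} (hQ : MemLp Q 2 mu) {w : ℂ} (hw : ‖w‖ < 1) :
    ‖∫ t, pk w t • Q t ∂mu‖ ^ 2 ≤ ∫ t, pk w t * ‖Q t‖ ^ 2 ∂mu := by
  have h1 : ‖∫ t, pk w t • Q t ∂mu‖ ≤ ∫ t, pk w t * ‖Q t‖ ∂mu := by
    refine (norm_integral_le_integral_norm _).trans (le_of_eq ?_)
    refine integral_congr_ae (Eventually.of_forall fun t => ?_)
    simp only [norm_smul, Real.norm_eq_abs, abs_of_pos (pk_pos hw t)]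
  exact (pow_le_pow_left₀ (norm_nonneg _) h1 2).trans (sq_integral_pk_le hQ.norm hw)

theorem IsH2.ext_eq_poisson {Q : TT → E} (hQ : IsH2 Q) {w : ℂ} (hw : ‖w‖ < 1) :
    ext Q w = ∫ t, pk w t • Q t ∂mu := by
  have hc := FiniteDimensional.complete ℂ E
  have hd := differentiableOn_ext hQ.integrable
  have h1 : Tendsto (fun r : ℝ => ext Q (r * w)) (𝓝[<] 1) (𝓝 (ext Q w)) := by
    have hcont : ContinuousAt (ext Q) w := (hd.differentiableAt
      (Metric.isOpen_ball.mem_nhds (by rw [Metric.mem_ball, dist_zero_right]; exact hw))).continuousAt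
    have h2 : Tendsto (fun r : ℝ => (r : ℂ) * w) (𝓝[<] 1) (𝓝 w) := by
      have : Tendsto (fun r : ℝ => (r : ℂ) * w) (𝓝 1) (𝓝 (((1 : ℝ) : ℂ) * w)) :=
        Continuous.tendsto (by fun_prop) _
      rw [Complex.ofReal_one, one_mul] at this
      exact this.mono_left nhdsWithin_le_nhds
    exact hcont.tendsto.comp h2
  have h2 : Tendsto (fun r : ℝ => ext Q (r * w)) (𝓝[<] 1) (𝓝 (∫ t, pk w t • Q t ∂mu)) := by
    rw [tendsto_iff_norm_sub_tendsto_zero]
    have h3 : Tendsto (fun r : ℝ => Real.sqrt (2 / (1 - ‖w‖) *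
        ∫ t, ‖ext Q (r * zt t) - Q t‖ ^ 2 ∂mu)) (𝓝[<] 1) (𝓝 0) := by
      have := (hQ.tendsto_slice.const_mul (2 / (1 - ‖w‖)))
      rw [mul_zero] at this
      have h4 := (Real.continuous_sqrt.tendsto 0).comp this
      rwa [Real.sqrt_zero] at h4
    refine squeeze_zero' (Eventually.of_forall fun r => norm_nonneg _) ?_ h3
    have : ∀ᶠ r : ℝ in 𝓝[<] 1, r ∈ Ioo (0 : ℝ) 1 := Ioo_mem_nhdsLT one_pos
    filter_upwards [this] with r hr
    have hm := memLp_of_continuous (continuous_slice hd hr.1.le hr.2)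
    have h5 : ext Q (r * w) - ∫ t, pk w t • Q t ∂mu =
        ∫ t, pk w t • (ext Q (r * zt t) - Q t) ∂mu := by
      rw [← poisson_slice hd hr hw, ← integral_sub]
      · simp only [smul_sub]
      · exact pk_smul_integrable (hm.integrable (by norm_num)) hw
      · exact pk_smul_integrable hQ.integrable hw
    rw [h5]
    refine Real.le_sqrt_of_sq_le ?_
    refine (norm_integral_pk_smul_le (hm.sub hQ.memLp) hw).trans ?_
    rw [← integral_const_mul]
    have hi := norm_sq_integrable (hm.sub hQ.memLp)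
    refine integral_mono (pk_mul_integrable hi hw) (hi.const_mul _) fun t => ?_
    exact mul_le_mul_of_nonneg_right (pk_le hw t) (by positivity)
  exact tendsto_nhds_unique h1 h2

theorem IsH2.norm_sq_ext_le {Q : TT → E} (hQ : IsH2 Q) {w : ℂ} (hw : ‖w‖ < 1) :
    ‖ext Q w‖ ^ 2 ≤ ∫ t, pk w t * ‖Q t‖ ^ 2 ∂mu := by
  rw [hQ.ext_eq_poisson hw]
  exact norm_integral_pk_smul_le hQ.memLp hw

theorem IsH2.norm_ext_le_of_ae {Q : TT → E} (hQ : IsH2 Q) {C : ℝ}
    (hC : ∀ᵐ t ∂mu, ‖Q t‖ ≤ C) {w : ℂ} (hw : ‖w‖ < 1) : ‖ext Q w‖ ≤ C := by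
  rw [hQ.ext_eq_poisson hw]
  refine (norm_integral_le_integral_norm _).trans ?_
  have h1 : (∫ t, pk w t * C ∂mu) = C := by
    rw [integral_mul_const, integral_pk hw, one_mul]
  rw [← h1]
  refine integral_mono_ae (pk_smul_integrable hQ.integrable hw).norm
    (pk_mul_integrable (integrable_const C) hw) ?_
  filter_upwards [hC] with t ht
  simp only [norm_smul, Real.norm_eq_abs, abs_of_pos (pk_pos hw t)]
  exact mul_le_mul_of_nonneg_left ht (pk_pos hw t).le

/-- Variance formula for the Poisson measure. -/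
theorem IsH2.poisson_variance {Q : TT → E} (hQ : IsH2 Q) {w : ℂ} (hw : ‖w‖ < 1) :
    ∫ t, pk w t * ‖Q t - ext Q w‖ ^ 2 ∂mu =
      (∫ t, pk w t * ‖Q t‖ ^ 2 ∂mu) - ‖ext Q w‖ ^ 2 := by
  have hc := FiniteDimensional.complete ℂ E
  set a := ext Q w with ha
  have i1 := pk_mul_integrable (norm_sq_integrable hQ.memLp) hw
  have i3 : Integrable (fun t => ‖a‖ ^ 2 * pk w t) mu := by
    have := (pk_mul_integrable (integrable_const (1 : ℝ)) hw).const_mul (‖a‖ ^ 2)
    simpa using this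
  have i2' : Integrable (fun t => (inner ℂ a (pk w t • Q t))) mu :=
    (pk_smul_integrable hQ.integrable hw).const_inner a
  have i2 : Integrable (fun t => 2 * (inner ℂ a (pk w t • Q t)).re) mu :=
    (i2'.re).const_mul 2
  have h1 : ∀ t, pk w t * ‖Q t - a‖ ^ 2 =
      pk w t * ‖Q t‖ ^ 2 - 2 * (inner ℂ a (pk w t • Q t)).re + ‖a‖ ^ 2 * pk w t := by
    intro t
    have h2 := @norm_sub_sq ℂ E _ _ _ (Q t) a
    have h3 : (inner ℂ a (pk w t • Q t)).re = pk w t * (inner ℂ (Q t) a).re := by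
      have e : (pk w t • Q t : E) = ((pk w t : ℝ) : ℂ) • Q t := by
        simp
      have e2 : (inner ℂ a (Q t)).re = (inner ℂ (Q t) a).re := by
        rw [← inner_conj_symm (𝕜 := ℂ) a (Q t), Complex.conj_re]
      rw [e, inner_smul_right, Complex.re_ofReal_mul, e2]
    rw [h2, h3]
    simp only [RCLike.re_to_complex]
    ring
  simp only [h1]
  have i12 : Integrable (fun t => pk w t * ‖Q t‖ ^ 2 - 2 * (inner ℂ a (pk w t • Q t)).re) mu :=
    i1.sub i2
  rw [integral_add i12 i3, integral_sub i1 i2, integral_const_mul, integral_const_mul,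
    integral_pk hw]
  have h4 : ∫ t, (inner ℂ a (pk w t • Q t)).re ∂mu = ‖a‖ ^ 2 := by
    have h5 : ∫ t, (inner ℂ a (pk w t • Q t)).re ∂mu =
        (∫ t, inner ℂ a (pk w t • Q t) ∂mu).re := integral_re i2'
    rw [h5, integral_inner (pk_smul_integrable hQ.integrable hw), ← hQ.ext_eq_poisson hw, ← ha,
      inner_self_eq_norm_sq_to_K]
    norm_cast
  rw [h4]
  ring

end poisson

/-! ### Quadratic means, sup norms, products -/

section prod

variable {E : Type*} [NormedAddCommGroup E] [InnerProductSpace ℂ E] [FiniteDimensional ℂ E]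

theorem hasSum_slice {F : ℂ → E} {a : ℕ → E} (hFd : DifferentiableOn ℂ F (Metric.ball 0 1))
    (hF : ∀ w : ℂ, ‖w‖ < 1 → HasSum (fun k : ℕ => w ^ k • a k) (F w))
    {r : ℝ} (hr0 : 0 ≤ r) (hr1 : r < 1) :
    HasSum (fun k : ℕ => (r ^ 2) ^ k * ‖a k‖ ^ 2) (∫ t, ‖F (r * zt t)‖ ^ 2 ∂mu) := by
  have := FiniteDimensional.complete ℂ E
  have h2 := parseval (memLp_of_continuous (continuous_slice hFd hr0 hr1))
  simp only [slice_coeff hF hr0 hr1 (summable_slice hF hr0 hr1)] at h2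
  have hinj : Function.Injective (fun k : ℕ => (k : ℤ)) := Nat.cast_injective
  have h3 := (hinj.hasSum_iff (f := fun n : ℤ => ‖(if 0 ≤ n then ((r : ℂ) ^ n.toNat) •
      a n.toNat else 0)‖ ^ 2) (a := ∫ t, ‖F (r * zt t)‖ ^ 2 ∂mu) (fun n hn => by
    have hneg : ¬ 0 ≤ n := fun h0 => hn ⟨n.toNat, by simp [h0]⟩
    rw [if_neg hneg]
    simp)).mpr h2
  convert h3 using 1
  funext k
  simp only [Function.comp_apply]
  rw [if_pos (Int.natCast_nonneg k), Int.toNat_natCast, norm_smul, norm_pow, Complex.norm_real,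
    Real.norm_eq_abs, abs_of_nonneg hr0, mul_pow, ← pow_mul, ← pow_mul, mul_comm k 2]

theorem IsH2.integral_sq_eq {Q : TT → E} (hQ : IsH2 Q) :
    HasSum (fun k : ℕ => ‖fourierCoeff Q (k : ℤ)‖ ^ 2) (∫ t, ‖Q t‖ ^ 2 ∂mu) := by
  have h2 := parseval hQ.memLp
  have hinj : Function.Injective (fun k : ℕ => (k : ℤ)) := Nat.cast_injective
  exact (hinj.hasSum_iff (f := fun n : ℤ => ‖fourierCoeff Q n‖ ^ 2) (fun n hn => by
    have hneg : ¬ 0 ≤ n := fun h0 => hn ⟨n.toNat, by simp [h0]⟩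
    rw [hQ.coeff n (not_le.mp hneg)]
    simp)).mpr h2

theorem IsH2.integral_slice_le {Q : TT → E} (hQ : IsH2 Q) {r : ℝ} (hr0 : 0 ≤ r) (hr1 : r < 1) :
    ∫ t, ‖ext Q (r * zt t)‖ ^ 2 ∂mu ≤ ∫ t, ‖Q t‖ ^ 2 ∂mu := by
  have := FiniteDimensional.complete ℂ E
  have h1 := hasSum_slice (differentiableOn_ext hQ.integrable)
    (fun w hw => hasSum_ext hQ.integrable hw) hr0 hr1
  refine hasSum_le (fun k => ?_) h1 hQ.integral_sq_eq
  have h2 : (r ^ 2) ^ k ≤ 1 := pow_le_one₀ (by positivity) (by nlinarith)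
  exact mul_le_of_le_one_left (by positivity) h2

/-- A bounded holomorphic function is the extension of an essentially bounded `H²` function. -/
theorem exists_boundary_of_bounded {F : ℂ → E} (hF : DifferentiableOn ℂ F (Metric.ball 0 1))
    {C : ℝ} (hC : ∀ w : ℂ, ‖w‖ < 1 → ‖F w‖ ≤ C) :
    ∃ Q : TT → E, IsH2 Q ∧ (∀ w : ℂ, ‖w‖ < 1 → ext Q w = F w) ∧ ∀ᵐ t ∂mu, ‖Q t‖ ≤ C := by
  have hlt : ∀ r ∈ Ioo (0 : ℝ) 1, ∀ t : TT, ‖(r : ℂ) * zt t‖ < 1 := by
    intro r hr t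
    rw [norm_mul, norm_zt, mul_one, Complex.norm_real, Real.norm_eq_abs, abs_of_nonneg hr.1.le]
    exact hr.2
  obtain ⟨Q, hQ, hQF⟩ := exists_boundary hF (M := C ^ 2) (fun r hr => by
    have h1 : (∫ _t : TT, C ^ 2 ∂mu) = C ^ 2 := by simp
    rw [← h1]
    refine integral_mono (norm_sq_integrable (memLp_of_continuous
      (continuous_slice hF hr.1.le hr.2))) (integrable_const _) fun t => ?_
    exact pow_le_pow_left₀ (norm_nonneg _) (hC _ (hlt r hr t)) 2)
  refine ⟨Q, hQ, hQF, ?_⟩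
  obtain ⟨s, hs1, _, hs3⟩ := IsH2.common_seq (fun _ : Unit => Q) (fun _ => hQ)
  filter_upwards [hs3 ()] with t ht
  refine le_of_tendsto ht.norm (Eventually.of_forall fun j => ?_)
  rw [hQF _ (hlt _ (hs1 j) t)]
  exact hC _ (hlt _ (hs1 j) t)

theorem isH2_const (v : E) : IsH2 (fun _ : TT => v) := by
  refine ⟨memLp_const v, fun n hn => ?_⟩
  have := FiniteDimensional.complete ℂ E
  unfold fourierCoeff
  rw [integral_smul_const]
  have h := integral_fourier_mul 0 n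
  simp only [fourier_zero, mul_one] at h
  rw [h, if_neg (by omega), zero_smul]

theorem ext_const (v : E) {w : ℂ} (hw : ‖w‖ < 1) : ext (fun _ : TT => v) w = v := by
  have := FiniteDimensional.complete ℂ E
  rw [(isH2_const v).ext_eq_poisson hw, integral_smul_const, integral_pk hw, one_smul]

theorem isH2_zt_pow (k : ℕ) : IsH2 (fun t : TT => zt t ^ k) := by
  refine ⟨memLp_of_continuous (continuous_zt.pow k), fun n hn => ?_⟩
  unfold fourierCoeff
  have h := integral_fourier_mul k n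
  simp only [fourier_nat] at h
  simp only [smul_eq_mul]
  rw [h, if_neg (by omega)]

theorem ext_zt_pow (k : ℕ) {w : ℂ} (hw : ‖w‖ < 1) : ext (fun t : TT => zt t ^ k) w = w ^ k := by
  have h1 := hasSum_ext (isH2_zt_pow k).integrable hw
  have h2 : ∀ m : ℕ, fourierCoeff (fun t : TT => zt t ^ k) (m : ℤ) = if m = k then 1 else 0 := by
    intro m
    unfold fourierCoeff
    have h := integral_fourier_mul k m
    simp only [fourier_nat] at h
    simp only [smul_eq_mul]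
    rw [h]
    by_cases hm : m = k
    · simp [hm]
    · have : (k : ℤ) ≠ m := by exact_mod_cast (Ne.symm hm)
      simp [hm, this]
  simp only [h2] at h1
  have h3 := hasSum_ite_eq k (w ^ k)
  have h4 : (fun m : ℕ => w ^ m • (if m = k then (1 : ℂ) else 0)) =
      fun m : ℕ => if m = k then w ^ k else 0 := by
    funext m
    by_cases hm : m = k
    · simp [hm]
    · simp [hm]
  rw [h4] at h1
  exact h1.unique h3

variable {F : Type*} [NormedAddCommGroup F] [InnerProductSpace ℂ F] [FiniteDimensional ℂ F]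
variable {G : Type*} [NormedAddCommGroup G] [InnerProductSpace ℂ G] [FiniteDimensional ℂ G]

/-- Continuous linear images. -/
theorem IsH2.clm (L : E →L[ℂ] F) {Q : TT → E} (hQ : IsH2 Q) : IsH2 (fun t => L (Q t)) := by
  have h1 := FiniteDimensional.complete ℂ E
  have h2 := FiniteDimensional.complete ℂ F
  refine ⟨L.comp_memLp' hQ.memLp, fun n hn => ?_⟩
  rw [clm_fourierCoeff L hQ.integrable, hQ.coeff n hn, map_zero]

theorem IsH2.integrable_slice_sub {Q : TT → E} (hQ : IsH2 Q) {r : ℝ} (hr : r ∈ Ioo (0 : ℝ) 1) :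
    Integrable (fun t => ‖ext Q (r * zt t) - Q t‖ ^ 2) mu := by
  have := FiniteDimensional.complete ℂ E
  exact norm_sq_integrable ((memLp_of_continuous (continuous_slice
      (differentiableOn_ext hQ.integrable) hr.1.le hr.2)).sub hQ.memLp)

theorem common3 {φ1 φ2 φ3 : ℝ → TT → ℝ} (p1 : ∀ r t, 0 ≤ φ1 r t) (p2 : ∀ r t, 0 ≤ φ2 r t)
    (p3 : ∀ r t, 0 ≤ φ3 r t) (i1 : ∀ r ∈ Ioo (0 : ℝ) 1, Integrable (φ1 r) mu)
    (i2 : ∀ r ∈ Ioo (0 : ℝ) 1, Integrable (φ2 r) mu)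
    (i3 : ∀ r ∈ Ioo (0 : ℝ) 1, Integrable (φ3 r) mu)
    (l1 : Tendsto (fun r => ∫ t, φ1 r t ∂mu) (𝓝[<] 1) (𝓝 0))
    (l2 : Tendsto (fun r => ∫ t, φ2 r t ∂mu) (𝓝[<] 1) (𝓝 0))
    (l3 : Tendsto (fun r => ∫ t, φ3 r t ∂mu) (𝓝[<] 1) (𝓝 0)) :
    ∃ s : ℕ → ℝ, (∀ j, s j ∈ Ioo (0 : ℝ) 1) ∧ Tendsto s atTop (𝓝 1) ∧
      ∀ᵐ t ∂mu, Tendsto (fun j => φ1 (s j) t) atTop (𝓝 0) ∧
        Tendsto (fun j => φ2 (s j) t) atTop (𝓝 0) ∧
        Tendsto (fun j => φ3 (s j) t) atTop (𝓝 0) := by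
  obtain ⟨s1, hs1, hs2, hs3⟩ := exists_common_seq (ι := Fin 3) ![φ1, φ2, φ3]
    (fun i => by fin_cases i; exacts [p1, p2, p3])
    (fun i => by fin_cases i; exacts [i1, i2, i3])
    (fun i => by fin_cases i; exacts [l1, l2, l3])
  refine ⟨s1, hs1, hs2, ?_⟩
  have e0 : ∀ᵐ t ∂mu, Tendsto (fun j => φ1 (s1 j) t) atTop (𝓝 0) := hs3 0
  have e1 : ∀ᵐ t ∂mu, Tendsto (fun j => φ2 (s1 j) t) atTop (𝓝 0) := hs3 1
  have e2 : ∀ᵐ t ∂mu, Tendsto (fun j => φ3 (s1 j) t) atTop (𝓝 0) := hs3 2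
  filter_upwards [e0, e1, e2] with t h0 h1 h2
  exact ⟨h0, h1, h2⟩

theorem common_seq3 {g : TT → E} {Q : TT → F} {R : TT → G} (hg : IsH2 g) (hQ : IsH2 Q)
    (hR : IsH2 R) : ∃ s : ℕ → ℝ, (∀ j, s j ∈ Ioo (0 : ℝ) 1) ∧ Tendsto s atTop (𝓝 1) ∧
      ∀ᵐ t ∂mu, Tendsto (fun j => ext g (s j * zt t)) atTop (𝓝 (g t)) ∧
        Tendsto (fun j => ext Q (s j * zt t)) atTop (𝓝 (Q t)) ∧
        Tendsto (fun j => ext R (s j * zt t)) atTop (𝓝 (R t)) := by
  obtain ⟨s1, hs1, hs2, hs3⟩ := common3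
    (φ1 := fun r t => ‖ext g (r * zt t) - g t‖ ^ 2)
    (φ2 := fun r t => ‖ext Q (r * zt t) - Q t‖ ^ 2)
    (φ3 := fun r t => ‖ext R (r * zt t) - R t‖ ^ 2)
    (fun _ _ => sq_nonneg _) (fun _ _ => sq_nonneg _) (fun _ _ => sq_nonneg _)
    (fun r hr => hg.integrable_slice_sub hr) (fun r hr => hQ.integrable_slice_sub hr)
    (fun r hr => hR.integrable_slice_sub hr) hg.tendsto_slice hQ.tendsto_slice hR.tendsto_slice
  refine ⟨s1, hs1, hs2, ?_⟩
  filter_upwards [hs3] with t ht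
  exact ⟨tendsto_of_sq ht.1, tendsto_of_sq ht.2.1, tendsto_of_sq ht.2.2⟩

/-- Products: a bilinear map applied to an essentially bounded `H²` function and an `H²`
function. -/
theorem IsH2.bilin (B : E →L[ℂ] F →L[ℂ] G) {g : TT → E} {Q : TT → F} (hg : IsH2 g)
    {C : ℝ} (hgC : ∀ᵐ t ∂mu, ‖g t‖ ≤ C) (hQ : IsH2 Q) :
    IsH2 (fun t => B (g t) (Q t)) ∧
      ∀ w : ℂ, ‖w‖ < 1 → ext (fun t => B (g t) (Q t)) w = B (ext g w) (ext Q w) := by
  have hcE := FiniteDimensional.complete ℂ E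
  have hcF := FiniteDimensional.complete ℂ F
  have hlt : ∀ r ∈ Ioo (0 : ℝ) 1, ∀ t : TT, ‖(r : ℂ) * zt t‖ < 1 := by
    intro r hr t
    rw [norm_mul, norm_zt, mul_one, Complex.norm_real, Real.norm_eq_abs, abs_of_nonneg hr.1.le]
    exact hr.2
  have hd : DifferentiableOn ℂ (fun w => B (ext g w) (ext Q w)) (Metric.ball 0 1) :=
    (B.differentiable.comp_differentiableOn (differentiableOn_ext hg.integrable)).clm_apply
      (differentiableOn_ext hQ.integrable)
  obtain ⟨t0, ht0⟩ := hgC.exists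
  have hC0 : 0 ≤ C := (norm_nonneg _).trans ht0
  have hb : ∀ w : ℂ, ‖w‖ < 1 → ‖B (ext g w) (ext Q w)‖ ≤ ‖B‖ * C * ‖ext Q w‖ := by
    intro w hw
    refine (B.le_opNorm₂ _ _).trans ?_
    exact mul_le_mul_of_nonneg_right
      (mul_le_mul_of_nonneg_left (hg.norm_ext_le_of_ae hgC hw) (norm_nonneg B)) (norm_nonneg _)
  obtain ⟨R, hR, hRe⟩ := exists_boundary hd (M := (‖B‖ * C) ^ 2 * ∫ t, ‖Q t‖ ^ 2 ∂mu)
    (fun r hr => by
      refine le_trans ?_ (mul_le_mul_of_nonneg_left (hQ.integral_slice_le hr.1.le hr.2)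
        (sq_nonneg _))
      rw [← integral_const_mul]
      refine integral_mono (norm_sq_integrable (memLp_of_continuous
        (continuous_slice hd hr.1.le hr.2))) ((norm_sq_integrable (memLp_of_continuous
        (continuous_slice (differentiableOn_ext hQ.integrable) hr.1.le hr.2))).const_mul _)
        fun t => ?_
      have h1 := pow_le_pow_left₀ (norm_nonneg _) (hb _ (hlt r hr t)) 2
      rw [mul_pow] at h1
      exact h1)
  have hcG := FiniteDimensional.complete ℂ G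
  obtain ⟨s1, hs1, -, hs1'⟩ := common_seq3 hg hQ hR
  have hae : R =ᵐ[mu] fun t => B (g t) (Q t) := by
    filter_upwards [hs1'] with t ht
    obtain ⟨g0, g1, g2⟩ := ht
    have h3 : Tendsto (fun j => B (ext g (s1 j * zt t)) (ext Q (s1 j * zt t))) atTop
        (𝓝 (B (g t) (Q t))) :=
      (B.isBoundedBilinearMap.continuous.tendsto (g t, Q t)).comp (g0.prodMk_nhds g1)
    refine tendsto_nhds_unique g2 (h3.congr fun j => ?_)
    exact (hRe _ (hlt _ (hs1 j) t)).symm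
  refine ⟨hR.congr hae, fun w hw => ?_⟩
  rw [← hRe w hw, ext_congr hae]

theorem IsH2.smul {g : TT → ℂ} {Q : TT → E} (hg : IsH2 g) {C : ℝ}
    (hgC : ∀ᵐ t ∂mu, ‖g t‖ ≤ C) (hQ : IsH2 Q) :
    IsH2 (fun t => g t • Q t) ∧
      ∀ w : ℂ, ‖w‖ < 1 → ext (fun t => g t • Q t) w = ext g w • ext Q w :=
  IsH2.bilin (ContinuousLinearMap.lsmul ℂ ℂ) hg hgC hQ

/-- Same with the boundedness on the other factor. -/
theorem IsH2.smul' {g : TT → ℂ} {Q : TT → E} (hg : IsH2 g) {C : ℝ}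
    (hQC : ∀ᵐ t ∂mu, ‖Q t‖ ≤ C) (hQ : IsH2 Q) :
    IsH2 (fun t => g t • Q t) ∧
      ∀ w : ℂ, ‖w‖ < 1 → ext (fun t => g t • Q t) w = ext g w • ext Q w :=
  IsH2.bilin (ContinuousLinearMap.lsmul ℂ ℂ).flip hQ hQC hg

theorem IsH2.zmul {Q : TT → E} (hQ : IsH2 Q) : IsH2 (fun t => zt t • Q t) := by
  have h := isH2_zt_pow 1
  simp only [pow_one] at h
  exact (h.smul (C := 1) (Eventually.of_forall fun t => (norm_zt t).le) hQ).1

theorem IsH2.ext_zmul {Q : TT → E} (hQ : IsH2 Q) {w : ℂ} (hw : ‖w‖ < 1) :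
    ext (fun t => zt t • Q t) w = w • ext Q w := by
  have h := isH2_zt_pow 1
  have h2 := ext_zt_pow 1 hw
  simp only [pow_one] at h h2
  rw [(h.smul (C := 1) (Eventually.of_forall fun t => (norm_zt t).le) hQ).2 w hw, h2]

theorem IsH2.add {Q R : TT → E} (hQ : IsH2 Q) (hR : IsH2 R) : IsH2 (fun t => Q t + R t) := by
  refine ⟨hQ.memLp.add hR.memLp, fun n hn => ?_⟩
  have := congrFun (fourierCoeff.add hQ.integrable hR.integrable) n
  simp only [Pi.add_apply] at this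
  have h2 : fourierCoeff (fun t => Q t + R t) n = fourierCoeff (Q + R) n := rfl
  rw [h2, this, hQ.coeff n hn, hR.coeff n hn, add_zero]

theorem IsH2.const_smul (c : ℂ) {Q : TT → E} (hQ : IsH2 Q) : IsH2 (fun t => c • Q t) := by
  refine ⟨hQ.memLp.const_smul c, fun n hn => ?_⟩
  have h2 : fourierCoeff (fun t => c • Q t) n = c • fourierCoeff Q n :=
    fourierCoeff.const_smul Q c n
  rw [h2, hQ.coeff n hn, smul_zero]

theorem IsH2.sum {ι : Type*} (s : Finset ι) {Q : ι → TT → E} (hQ : ∀ i ∈ s, IsH2 (Q i)) :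
    IsH2 (fun t => ∑ i ∈ s, Q i t) := by
  classical
  induction s using Finset.induction_on with
  | empty => simpa using isH2_const (0 : E)
  | insert a s ha ih =>
    simp only [Finset.sum_insert ha]
    exact (hQ a (Finset.mem_insert_self _ _)).add
      (ih fun i hi => hQ i (Finset.mem_insert_of_mem hi))

theorem ext_sum {ι : Type*} (s : Finset ι) {Q : ι → TT → E} (hQ : ∀ i ∈ s, Integrable (Q i) mu)
    {w : ℂ} (hw : ‖w‖ < 1) : ext (fun t => ∑ i ∈ s, Q i t) w = ∑ i ∈ s, ext (Q i) w := by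
  unfold ext
  simp only [Finset.smul_sum]
  exact integral_finsetSum s fun i hi => integrable_kernel_smul (hQ i hi) hw

end prod

/-! ### The closed subspace `H²` of `L²` -/

section lp

variable {E : Type*} [NormedAddCommGroup E] [InnerProductSpace ℂ E] [FiniteDimensional ℂ E]

theorem integral_norm_sq_Lp (Q : Lp E 2 mu) : ∫ t, ‖Q t‖ ^ 2 ∂mu = ‖Q‖ ^ 2 := by
  have h := @L2.inner_def TT E ℂ _ _ _ _ _ Q Q
  have h2 := @inner_self_eq_norm_sq_to_K ℂ (Lp E 2 mu) _ _ _ Q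
  rw [h] at h2
  have h3 : (∫ a, inner ℂ (Q a) (Q a) ∂mu) = ((∫ t, ‖Q t‖ ^ 2 ∂mu : ℝ) : ℂ) := by
    rw [← integral_complex_ofReal]
    refine integral_congr_ae (Eventually.of_forall fun t => ?_)
    simp only [inner_self_eq_norm_sq_to_K]
    norm_cast
  rw [h3] at h2
  apply Complex.ofReal_injective
  rw [h2]
  simp

theorem norm_fourierCoeff_Lp_le (Q : Lp E 2 mu) (n : ℤ) : ‖fourierCoeff Q n‖ ≤ ‖Q‖ := by
  have h := parseval (Lp.memLp Q)
  rw [integral_norm_sq_Lp] at h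
  have h2 : ‖fourierCoeff Q n‖ ^ 2 ≤ ‖Q‖ ^ 2 := le_hasSum h n fun _ _ => by positivity
  exact (pow_le_pow_iff_left₀ (norm_nonneg _) (norm_nonneg _) two_ne_zero).mp h2

theorem fourier_smul_integrable {Q : TT → E} (hQ : Integrable Q mu) (n : ℤ) :
    Integrable (fun t => fourier n t • Q t) mu :=
  hQ.bdd_smul 1 (fourier n).continuous.aestronglyMeasurable
    (Eventually.of_forall fun t => by rw [fourier_apply, Circle.norm_coe])

/-- The Fourier coefficient as a continuous linear map on `L²`. -/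
def coeffL (n : ℤ) : Lp E 2 mu →L[ℂ] E :=
  LinearMap.mkContinuous
    { toFun := fun Q => fourierCoeff Q n
      map_add' := fun Q R => by
        rw [fourierCoeff_congr_ae (Lp.coeFn_add Q R)]
        exact congrFun (fourierCoeff.add ((Lp.memLp Q).integrable (by norm_num))
          ((Lp.memLp R).integrable (by norm_num))) n
      map_smul' := fun c Q => by
        rw [fourierCoeff_congr_ae (Lp.coeFn_smul c Q)]
        exact fourierCoeff.const_smul Q c n } 1 fun Q => by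
    rw [one_mul]; exact norm_fourierCoeff_Lp_le Q n

theorem coeffL_apply (n : ℤ) (Q : Lp E 2 mu) : coeffL n Q = fourierCoeff Q n := rfl

/-- `H²` as a submodule of `L²`. -/
def H2 (E : Type*) [NormedAddCommGroup E] [InnerProductSpace ℂ E] [FiniteDimensional ℂ E] :
    Submodule ℂ (Lp E 2 mu) :=
  ⨅ n : {n : ℤ // n < 0}, LinearMap.ker (coeffL (E := E) n.1).toLinearMap

theorem mem_H2 {Q : Lp E 2 mu} : Q ∈ H2 E ↔ IsH2 (Q : TT → E) := by
  unfold H2
  rw [Submodule.mem_iInf]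
  constructor
  · intro h
    exact ⟨Lp.memLp Q, fun n hn => h ⟨n, hn⟩⟩
  · intro h n
    exact h.coeff n.1 n.2

theorem isClosed_H2 : IsClosed (H2 E : Set (Lp E 2 mu)) := by
  unfold H2
  rw [Submodule.coe_iInf]
  refine isClosed_iInter fun n => ?_
  exact (coeffL n.1).isClosed_ker

theorem integral_norm_le_Lp (Q : Lp E 2 mu) : ∫ t, ‖Q t‖ ∂mu ≤ ‖Q‖ := by
  have h0 : ‖(0 : ℂ)‖ < 1 := by simp
  have h := sq_integral_pk_le (Lp.memLp Q).norm h0
  have h1 : ∀ t, pk 0 t = 1 := fun t => by rw [pk_eq]; simp [norm_zt]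
  simp only [h1, one_mul] at h
  rw [integral_norm_sq_Lp] at h
  exact (pow_le_pow_iff_left₀ (integral_nonneg fun t => norm_nonneg _) (norm_nonneg _)
    two_ne_zero).mp h

/-- Evaluation at a point of the disc is bounded on `L²`. -/
theorem norm_ext_le_Lp (Q : Lp E 2 mu) {w : ℂ} (hw : ‖w‖ < 1) :
    ‖ext Q w‖ ≤ (1 - ‖w‖)⁻¹ * ‖Q‖ := by
  refine (norm_ext_le ((Lp.memLp Q).integrable (by norm_num)) hw).trans ?_
  exact mul_le_mul_of_nonneg_left (integral_norm_le_Lp Q) (inv_nonneg.mpr (by linarith))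

/-- Evaluation at a point of the disc as a continuous linear map. -/
def evalL (w : ℂ) (hw : ‖w‖ < 1) : Lp E 2 mu →L[ℂ] E :=
  LinearMap.mkContinuous
    { toFun := fun Q => ext Q w
      map_add' := fun Q R => by
        rw [ext_congr (Lp.coeFn_add Q R)]
        exact ext_add ((Lp.memLp Q).integrable (by norm_num))
          ((Lp.memLp R).integrable (by norm_num)) hw
      map_smul' := fun c Q => by
        rw [ext_congr (Lp.coeFn_smul c Q)]
        exact ext_const_smul c Q w } (1 - ‖w‖)⁻¹ fun Q => norm_ext_le_Lp Q hw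

theorem evalL_apply (w : ℂ) (hw : ‖w‖ < 1) (Q : Lp E 2 mu) : evalL w hw Q = ext Q w := rfl

end lp

end

end Crest.Agent.R269.Hardy_142
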