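import Mathlib
import Crest.Agent.R269.GeoDefs_328

/-!
# R269 (S0411), Line B (stationary maximisers, post 1368 + Lemma K, post 1576): concrete objects (helper731)

Definitions only.

* `TG q s = 4 ∫_0^s r log(s/r) avg_{|z|=r} q dr` : Green form of the characteristic (helper740);
* `TE E H s` : characteristic of the density `E(p, v)` along `H`;
* `wdg V p` : `V ∧ p` as an antisymmetric matrix;
* `Dsc I ω` : lifted discs of finite `ω`-energy; `Normal H` : normalised lift;
* `Flds I` : finitely many homogeneous polynomial fields spanning the tangent spaces of the cone (`VF1` of helper60);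
* `Flds.var` : the field `∑ c_j(z) X_j(H z)` with polynomial coefficients.
-/

set_option autoImplicit false

open MvPolynomial Crest.AlgGeometry.ProjEmb Crest.Agent.R269.Geo_328 Metric Set Filter
open scoped ContDiff Topology ComplexConjugate

noncomputable section

namespace Crest.Agent.R269.DefsS_731

variable {N n : ℕ}

/-- Green form of the characteristic: `4 ∫_0^s r log(s/r) (avg_{|z|=r} q) dr`
(`= (2/π) ∫_{|z|<s} log(s/|z|) q dA`). -/
def TG (q : ℂ → ℝ) (s : ℝ) : ℝ :=
  4 * ∫ r in (0:ℝ)..s, r * Real.log (s / r) * Real.circleAverage q 0 r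

/-- characteristic of the density `E p v` along the disc `H` -/
def TE (E : EE N → EE N → ℝ) (H : ℂ → EE N) (s : ℝ) : ℝ := TG (fun z => E (H z) (deriv H z)) s

/-- circle average of the function `u` along `H` -/
def cav (u : EE N → ℝ) (H : ℂ → EE N) (s : ℝ) : ℝ := Real.circleAverage (fun z => u (H z)) 0 s

/-- `V ∧ p` as an antisymmetric matrix -/
def wdg (V p : EE N) : VV N := fun i j => V i * p j - V j * p i

/-- a holomorphic disc in the cone (lift on the open unit disc) -/
structure IsDisc (I : Ideal (HomCoordRing N)) (H : ℂ → EE N) : Prop where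
  hol : DifferentiableOn ℂ H (ball 0 1)
  cone : ∀ z ∈ ball (0 : ℂ) 1, H z ∈ Cone I

/-- finite energy with respect to the density `ω` -/
def FinE (om : EE N → EE N → ℝ) (H : ℂ → EE N) : Prop := ∃ B : ℝ, ∀ s ∈ Ioo (0 : ℝ) 1, TE om H s ≤ B

/-- lifted discs of finite energy -/
structure Dsc (I : Ideal (HomCoordRing N)) (om : EE N → EE N → ℝ) where
  H : ℂ → EE N
  disc : IsDisc I H
  fin : FinE om H

/-- normalised lift: `|H| ≤ 1` and the circle averages of `log |H|²` tend to `0` -/
structure Normal (H : ℂ → EE N) : Prop where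
  le_one : ∀ z ∈ ball (0 : ℂ) 1, nsq (H z) ≤ 1
  avg : Tendsto (fun s => Real.circleAverage (fun z => Real.log (nsq (H z))) 0 s) (𝓝[<] 1) (𝓝 0)

/-- points of the cone -/
abbrev Pt (I : Ideal (HomCoordRing N)) : Type := {p : EE N // p ∈ Cone I}

/-- finitely many homogeneous polynomial fields of a common degree `≥ 1`, tangent to the cone and
spanning its tangent spaces (`Hom_60.exists_fields`) -/
structure Flds (I : Ideal (HomCoordRing N)) where
  D : ℕ
  M : ℕ
  X : Fin M → Fin (N + 1) → MvPolynomial (Fin (N + 1)) ℂ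
  one_le : 1 ≤ D
  homog : ∀ j k, (X j k).IsHomogeneous D
  tang : ∀ j, ∀ P ∈ I, ∑ k, pderiv k P * X j k ∈ I
  span : ∀ p ∈ Cone I, Submodule.span ℂ (Set.range fun j => fun k => MvPolynomial.eval p (X j k)) = Tan I p

/-- the value of the `j`-th field at `p` -/
def Flds.at {I : Ideal (HomCoordRing N)} (Y : Flds I) (j : Fin Y.M) (p : EE N) : EE N :=
  fun k => MvPolynomial.eval p (Y.X j k)

/-- the field `∑ c_j(z) X_j(p)` with polynomial coefficients -/
def Flds.var {I : Ideal (HomCoordRing N)} (Y : Flds I) (c : Fin Y.M → Polynomial ℂ) (z : ℂ) (p : EE N) : EE N :=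
  ∑ j, (c j).eval z • Y.at j p

end Crest.Agent.R269.DefsS_731
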