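import Mathlib
import Crest.Prelude.Def_ProjPluricanonical

/-!
# R269, leaf GEO (G0): local charts of the cone of a smooth projective variety

No dimension theory: Nullstellensatz for the `(r+1)`-minors + linear ODE on the implicit graph.
-/

set_option autoImplicit false
set_option linter.unusedSectionVars false

open MvPolynomial Crest.AlgGeometry.ProjEmb Set Filter Topology
open scoped ContDiff Matrix

namespace Crest.Agent.R269.Geo0_632

noncomputable section

/-- the ambient space `ℂ^(N+1)` -/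
abbrev E (N : ℕ) : Type := Fin (N + 1) → ℂ

variable {N n : ℕ} {I : Ideal (HomCoordRing N)}

/-- the gradient of a polynomial at a point -/
def grad (F : HomCoordRing N) (p : E N) : E N := fun j => eval p (pderiv j F)

/-- the differential of `eval · F` at `p` -/
def dF (F : HomCoordRing N) (p : E N) : E N →L[ℂ] ℂ :=
  LinearMap.toContinuousLinearMap
    { toFun := fun v => ∑ i, v i * eval p (pderiv i F)
      map_add' := fun v w => by simp [add_mul, Finset.sum_add_distrib]
      map_smul' := fun c v => by simp [Finset.mul_sum, mul_assoc] }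

theorem dF_apply (F : HomCoordRing N) (p v : E N) :
    dF F p v = ∑ i, v i * eval p (pderiv i F) := rfl

theorem hasFDerivAt_eval (g : HomCoordRing N) (x : E N) :
    HasFDerivAt (fun y : E N => eval y g) (dF g x) x := by
  classical
  induction g using MvPolynomial.induction_on with
  | C a =>
    have h : (fun y : E N => eval y (C a : HomCoordRing N)) = fun _ => a := by
      funext y; simp
    rw [h]
    refine (hasFDerivAt_const a x).congr_fderiv ?_
    ext v
    simp [dF_apply]
  | add p q hp hq =>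
    have h : (fun y : E N => eval y (p + q)) = fun y => eval y p + eval y q := by
      funext y; simp
    rw [h]
    refine (hp.fun_add hq).congr_fderiv ?_
    ext v
    change dF p x v + dF q x v = _
    simp [dF_apply, mul_add, Finset.sum_add_distrib]
  | mul_X p i hp =>
    have h2 : HasFDerivAt (fun y : E N => y i)
        (ContinuousLinearMap.proj (R := ℂ) (φ := fun _ : Fin (N + 1) => ℂ) i) x :=
      (ContinuousLinearMap.proj (R := ℂ) (φ := fun _ : Fin (N + 1) => ℂ) i).hasFDerivAt
    have h : (fun y : E N => eval y (p * X i)) = (fun y : E N => eval y p * y i) := by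
      funext y; simp
    rw [h]
    refine (hp.fun_mul h2).congr_fderiv ?_
    ext v
    change eval x p * v i + x i * dF p x v = _
    rw [dF_apply, dF_apply, Finset.mul_sum]
    have h4 : ∀ j, v j * eval x (pderiv j (p * X i)) =
        (if j = i then v j * eval x p else 0) + x i * (v j * eval x (pderiv j p)) := by
      intro j
      rw [Derivation.leibniz, pderiv_X]
      by_cases hj : j = i
      · subst hj; simp; ring
      · simp [hj, Ne.symm hj]; ring
    rw [Finset.sum_congr rfl fun j _ => h4 j, Finset.sum_add_distrib]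
    simp [Finset.sum_ite_eq', mul_comm]

theorem contDiff_eval (F : HomCoordRing N) {m : WithTop ℕ∞} :
    ContDiff ℂ m (fun y : E N => eval y F) := by
  induction F using MvPolynomial.induction_on with
  | C a => simpa using contDiff_const
  | add p q hp hq => simpa using hp.add hq
  | mul_X p i hp => simpa using hp.mul (contDiff_apply ℂ ℂ i)

/-! ### The cone -/

theorem smul_mem_cone (hX : IsSmoothProjective I n) {p : E N} (hp : p ∈ affineCone I) (c : ℂ) :
    c • p ∈ affineCone I := by
  intro F hF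
  have h1 : ∀ d, eval p (homogeneousComponent d F) = 0 := fun d => hp _ (hX.homogeneous F hF d)
  have h2 : F = ∑ d ∈ Finset.range (F.totalDegree + 1), homogeneousComponent d F :=
    (sum_homogeneousComponent F).symm
  rw [h2, map_sum]
  refine Finset.sum_eq_zero fun d _ => ?_
  have h4 : eval (c • p) (homogeneousComponent d F) = c ^ d * eval p (homogeneousComponent d F) := by
    rw [eval_eq, eval_eq, Finset.mul_sum]
    refine Finset.sum_congr rfl fun m hm => ?_
    have h5 : m.degree = d := by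
      have := homogeneousComponent_isHomogeneous d F (mem_support_iff.1 hm)
      rw [Finsupp.degree_eq_weight_one]
      exact this
    have h6 : ∏ i ∈ m.support, (c • p) i ^ m i = c ^ d * ∏ i ∈ m.support, p i ^ m i := by
      simp only [Pi.smul_apply, smul_eq_mul, mul_pow, Finset.prod_mul_distrib]
      rw [Finset.prod_pow_eq_pow_sum]
      congr 2
    rw [h6]; ring
  rw [h4, h1, mul_zero]

/-- Euler: the position vector is tangent to the cone. -/
theorem dF_self (hX : IsSmoothProjective I n) {p : E N} (hp : p ∈ affineCone I)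
    {F : HomCoordRing N} (hF : F ∈ I) : dF F p p = 0 := by
  have h1 : HasDerivAt (fun t : ℂ => t • p) p 1 := by
    simpa using (hasDerivAt_id (1 : ℂ)).smul_const p
  have h2 : HasDerivAt (fun t : ℂ => eval (t • p) F) (dF F p p) 1 := by
    have h3 := (hasFDerivAt_eval F ((1 : ℂ) • p)).comp_hasDerivAt (1 : ℂ) h1
    rw [one_smul] at h3
    exact h3
  have h3 : (fun t : ℂ => eval (t • p) F) = fun _ => 0 := by
    funext t; exact smul_mem_cone hX hp t F hF
  rw [h3] at h2
  exact h2.unique (hasDerivAt_const _ _)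

/-! ### Minors of the Jacobian lie in the ideal -/

theorem eval_det {ι : Type*} [Fintype ι] [DecidableEq ι] (M : Matrix ι ι (HomCoordRing N))
    (p : E N) : eval p M.det = (Matrix.of fun a b => eval p (M a b)).det := by
  rw [RingHom.map_det]; rfl

theorem minor_mem (hI : I.IsPrime) (hX : IsSmoothProjective I n) {ι : Type} [Fintype ι]
    [DecidableEq ι] (hι : Fintype.card ι = N - n + 1) (F : ι → HomCoordRing N)
    (hF : ∀ a, F a ∈ I) (c : ι → Fin (N + 1)) :
    (Matrix.of fun a b => pderiv (c b) (F a)).det ∈ I := by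
  obtain ⟨i, hi⟩ := hX.exists_coord_not_mem
  have key : X i * (Matrix.of fun a b => pderiv (c b) (F a)).det ∈ I := by
    have h1 := MvPolynomial.IsPrime.vanishingIdeal_zeroLocus (K := ℂ) I
    rw [← h1, mem_vanishingIdeal_iff]
    intro p hp
    have hp' : p ∈ affineCone I := fun G hG => by
      have := hp G hG
      rwa [aeval_eq_eval] at this
    rw [aeval_eq_eval]
    change eval p _ = 0
    rw [map_mul, eval_X]
    by_cases h0 : p = 0
    · rw [h0]; simp
    · have hrank := hX.jacobian p hp' h0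
      have hdep : ¬ LinearIndependent ℂ (fun a => grad (F a) p) := by
        intro hli
        have h2 : Submodule.span ℂ (range fun a => grad (F a) p) ≤
            Submodule.span ℂ {v : Fin (N + 1) → ℂ |
              ∃ F ∈ I, v = fun j => MvPolynomial.eval p (MvPolynomial.pderiv j F)} := by
          apply Submodule.span_mono
          rintro _ ⟨a, rfl⟩
          exact ⟨F a, hF a, rfl⟩
        have h3 := Submodule.finrank_mono h2
        rw [hrank, finrank_span_eq_card hli, hι] at h3
        omega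
      rw [Fintype.not_linearIndependent_iff] at hdep
      obtain ⟨g, hg, a0, ha0⟩ := hdep
      have : (Matrix.of fun a b => eval p ((Matrix.of fun a b => pderiv (c b) (F a)) a b)).det = 0 := by
        rw [← Matrix.exists_vecMul_eq_zero_iff]
        refine ⟨g, fun h => ha0 (by rw [h]; rfl), ?_⟩
        funext b
        have h4 := congrFun hg (c b)
        simp only [Finset.sum_apply, Pi.smul_apply, smul_eq_mul, Pi.zero_apply] at h4
        simpa [Matrix.vecMul, dotProduct, grad] using h4
      rw [eval_det, this, mul_zero]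
  exact (hI.mem_or_mem key).resolve_left hi

/-- Choice of local equations and of dependent coordinates at a cone point. -/
theorem exists_minor (hX : IsSmoothProjective I n) {p : E N} (hp : p ∈ affineCone I)
    (hp0 : p ≠ 0) :
    ∃ (F : Fin (N - n) → HomCoordRing N) (e : Fin (N - n) ⊕ Fin (n + 1) ≃ Fin (N + 1)),
      (∀ a, F a ∈ I) ∧
      (Matrix.of fun a b => eval p (pderiv (e (Sum.inl b)) (F a))).det ≠ 0 := by
  classical
  set S : Set (E N) := {v : Fin (N + 1) → ℂ |
              ∃ F ∈ I, v = fun j => MvPolynomial.eval p (MvPolynomial.pderiv j F)} with hS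
  have hrank : Module.finrank ℂ (Submodule.span ℂ S) = N - n := hX.jacobian p hp hp0
  obtain ⟨b, hbS, hbspan, hbli⟩ := exists_linearIndependent ℂ S
  have hbfin : Finite b := hbli.finite
  have : Fintype b := Fintype.ofFinite b
  have hcard : Fintype.card b = N - n := by
    rw [← hrank, ← hbspan]
    have := finrank_span_eq_card hbli
    rw [Subtype.range_coe] at this
    exact this.symm
  let eb : Fin (N - n) ≃ b := (Fintype.equivFinOfCardEq hcard).symm
  have hF : ∀ a : Fin (N - n), ∃ F ∈ I, ((eb a : b) : E N) = grad F p := fun a => by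
    obtain ⟨F, hF, h⟩ := hbS (eb a).2
    exact ⟨F, hF, h⟩
  choose F hFI hFg using hF
  have hli : LinearIndependent ℂ (fun a => grad (F a) p) := by
    have h1 : LinearIndependent ℂ (fun a => ((eb a : b) : E N)) :=
      hbli.comp eb eb.injective
    have h2 : (fun a => ((eb a : b) : E N)) = fun a => grad (F a) p := funext hFg
    rwa [h2] at h1
  let M : Matrix (Fin (N - n)) (Fin (N + 1)) ℂ := Matrix.of fun a j => grad (F a) p j
  have hrk : M.rank = N - n := by
    have := LinearIndependent.rank_matrix (M := M) hli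
    simpa using this
  rw [Matrix.rank_eq_finrank_span_cols] at hrk
  obtain ⟨κ, c0, hc0, hspan, hcli⟩ := exists_linearIndependent' ℂ M.col
  have : Finite κ := Finite.of_injective _ hc0
  have : Fintype κ := Fintype.ofFinite κ
  have hκ : Fintype.card κ = N - n := by
    rw [← hrk, ← hspan]
    exact (finrank_span_eq_card hcli).symm
  let ek : Fin (N - n) ≃ κ := (Fintype.equivFinOfCardEq hκ).symm
  let c : Fin (N - n) → Fin (N + 1) := c0 ∘ ek
  have hc : Function.Injective c := hc0.comp ek.injective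
  have hcli' : LinearIndependent ℂ (M.col ∘ c) := hcli.comp ek ek.injective
  have hdet : (Matrix.of fun a b => eval p (pderiv (c b) (F a))).det ≠ 0 := by
    have h1 : LinearIndependent ℂ (Matrix.of fun a b => eval p (pderiv (c b) (F a))).col := hcli'
    have h2 := (Matrix.linearIndependent_cols_iff_isUnit).1 h1
    exact ((Matrix.isUnit_iff_isUnit_det _).1 h2).ne_zero
  have hcompl : Fintype.card ((range c)ᶜ : Set (Fin (N + 1))) = n + 1 := by
    rw [Fintype.card_compl_set, Set.card_range_of_injective hc]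
    have := hX.dim_le
    simp
    omega
  let e2 : Fin (n + 1) ≃ ((range c)ᶜ : Set (Fin (N + 1))) := (Fintype.equivFinOfCardEq hcompl).symm
  let e : Fin (N - n) ⊕ Fin (n + 1) ≃ Fin (N + 1) :=
    (Equiv.sumCongr (Equiv.ofInjective c hc) e2).trans (Equiv.Set.sumCompl (range c))
  refine ⟨F, e, hFI, ?_⟩
  have he : ∀ b, e (Sum.inl b) = c b := fun b => rfl
  simpa only [he] using hdet

/-! ### The Schur identity -/

section Schur

variable {r : ℕ} (F : Fin r → HomCoordRing N) (e : Fin r ⊕ Fin (n + 1) ≃ Fin (N + 1))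

/-- the `r × r` minor -/
def Del (x : E N) : ℂ := (Matrix.of fun a b => eval x (pderiv (e (Sum.inl b)) (F a))).det

/-- the bordered minor with respect to the free column `l` and the extra polynomial `G` -/
def bord (l : Fin (n + 1)) (G : HomCoordRing N) : HomCoordRing N :=
  (Matrix.of fun (a b : Fin r ⊕ Unit) => pderiv ((Sum.elim (fun b => e (Sum.inl b))
    (fun _ => e (Sum.inr l)) : Fin r ⊕ Unit → Fin (N + 1)) b)
    ((Sum.elim F (fun _ => G) : Fin r ⊕ Unit → HomCoordRing N) a)).det

theorem bord_mem (hI : I.IsPrime) (hX : IsSmoothProjective I n) (hr : r = N - n)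
    (hF : ∀ a, F a ∈ I) (l : Fin (n + 1)) {G : HomCoordRing N} (hG : G ∈ I) :
    bord F e l G ∈ I := by
  refine minor_mem hI hX (by simp [hr]) _ ?_ _
  rintro (a | a)
  · exact hF a
  · exact hG

theorem schur (x v : E N) (hD : Del F e x ≠ 0) (hv : ∀ a, dF (F a) x v = 0)
    (G : HomCoordRing N) :
    Del F e x * dF G x v = ∑ l, v (e (Sum.inr l)) * eval x (bord F e l G) := by
  classical
  set A : Matrix (Fin r) (Fin r) ℂ :=
    Matrix.of fun a b => eval x (pderiv (e (Sum.inl b)) (F a)) with hA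
  have hAdet : IsUnit A.det := isUnit_iff_ne_zero.2 hD
  let _ : Invertible A := A.invertibleOfIsUnitDet hAdet
  have hsum : ∀ H : HomCoordRing N, dF H x v =
      ∑ b, v (e (Sum.inl b)) * eval x (pderiv (e (Sum.inl b)) H) +
      ∑ l, v (e (Sum.inr l)) * eval x (pderiv (e (Sum.inr l)) H) := by
    intro H
    rw [dF_apply, ← e.sum_comp, Fintype.sum_sum_type]
  have hb : ∀ l, eval x (bord F e l G) = A.det * (eval x (pderiv (e (Sum.inr l)) G) -
      (fun b => eval x (pderiv (e (Sum.inl b)) G)) ⬝ᵥ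
        (A⁻¹ *ᵥ fun a => eval x (pderiv (e (Sum.inr l)) (F a)))) := by
    intro l
    rw [bord, eval_det]
    have : (Matrix.of fun (a b : Fin r ⊕ Unit) => eval x
        ((Matrix.of fun (a b : Fin r ⊕ Unit) => pderiv ((Sum.elim (fun b => e (Sum.inl b))
    (fun _ => e (Sum.inr l)) : Fin r ⊕ Unit → Fin (N + 1)) b)
    ((Sum.elim F (fun _ => G) : Fin r ⊕ Unit → HomCoordRing N) a)) a b)) =
        Matrix.fromBlocks A (Matrix.of fun a (_ : Unit) => eval x (pderiv (e (Sum.inr l)) (F a)))
          (Matrix.of fun (_ : Unit) b => eval x (pderiv (e (Sum.inl b)) G))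
          (Matrix.of fun (_ _ : Unit) => eval x (pderiv (e (Sum.inr l)) G)) := by
      ext (a | a) (b | b) <;> rfl
    rw [this, Matrix.det_fromBlocks₁₁]
    congr 1
    rw [Matrix.det_unique, Matrix.invOf_eq_nonsing_inv]
    simp only [Matrix.sub_apply, Matrix.of_apply, Matrix.mul_assoc]
    rfl
  simp only [hb]
  have hvA : A *ᵥ (fun b => v (e (Sum.inl b))) =
      - ∑ l, v (e (Sum.inr l)) • (fun a => eval x (pderiv (e (Sum.inr l)) (F a))) := by
    funext a
    have h1 := hv a
    rw [hsum] at h1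
    have h2 : (A *ᵥ (fun b => v (e (Sum.inl b)))) a =
        ∑ b, v (e (Sum.inl b)) * eval x (pderiv (e (Sum.inl b)) (F a)) := by
      simp [Matrix.mulVec, dotProduct, hA, mul_comm]
    rw [h2]
    simp only [Pi.neg_apply, Finset.sum_apply, Pi.smul_apply, smul_eq_mul]
    linear_combination h1
  have hv2 : (fun b => v (e (Sum.inl b))) =
      - ∑ l, v (e (Sum.inr l)) • (A⁻¹ *ᵥ fun a => eval x (pderiv (e (Sum.inr l)) (F a))) := by
    have h1 : A⁻¹ *ᵥ (A *ᵥ (fun b => v (e (Sum.inl b)))) = (fun b => v (e (Sum.inl b))) := by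
      rw [Matrix.mulVec_mulVec, Matrix.nonsing_inv_mul A hAdet, Matrix.one_mulVec]
    rw [← h1, hvA, Matrix.mulVec_neg, Matrix.mulVec_sum]
    simp only [Matrix.mulVec_smul]
  have h5 : ∑ b, v (e (Sum.inl b)) * eval x (pderiv (e (Sum.inl b)) G) =
      - ∑ l, v (e (Sum.inr l)) * ((fun b => eval x (pderiv (e (Sum.inl b)) G)) ⬝ᵥ
        (A⁻¹ *ᵥ fun a => eval x (pderiv (e (Sum.inr l)) (F a)))) := by
    have h6 : ∑ b, v (e (Sum.inl b)) * eval x (pderiv (e (Sum.inl b)) G) =
      (fun b => eval x (pderiv (e (Sum.inl b)) G)) ⬝ᵥ (fun b => v (e (Sum.inl b))) := by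
      simp [dotProduct, mul_comm]
    rw [h6]
    conv_lhs => rw [hv2]
    rw [dotProduct_neg, dotProduct_sum]
    simp [dotProduct_smul]
  change A.det * dF G x v = _
  rw [hsum G, h5, mul_add, mul_neg, Finset.mul_sum, Finset.mul_sum, ← Finset.sum_neg_distrib,
    ← Finset.sum_add_distrib]
  refine Finset.sum_congr rfl fun l _ => ?_
  ring

theorem continuous_Del : Continuous (Del F e) := by
  unfold Del
  refine Continuous.matrix_det ?_
  refine continuous_matrix fun a b => ?_
  exact (contDiff_eval (m := 0) _).continuous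

end Schur

/-! ### Paths tangent to the local equations stay in the cone -/

theorem path_mem_cone (hI : I.IsPrime) (hX : IsSmoothProjective I n)
    {F : Fin (N - n) → HomCoordRing N}
    (e : Fin (N - n) ⊕ Fin (n + 1) ≃ Fin (N + 1)) (hF : ∀ a, F a ∈ I) (x v : ℝ → E N)
    (hx : ∀ t ∈ Icc (0:ℝ) 1, HasDerivAt x (v t) t)
    (hvc : ∀ l, ContinuousOn (fun t => v t (e (Sum.inr l))) (Icc (0:ℝ) 1))
    (hv : ∀ t ∈ Icc (0:ℝ) 1, ∀ a, dF (F a) (x t) (v t) = 0)
    (hD : ∀ t ∈ Icc (0:ℝ) 1, Del F e (x t) ≠ 0) (h0 : x 0 ∈ affineCone I) :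
    ∀ t ∈ Icc (0:ℝ) 1, x t ∈ affineCone I := by
  classical
  obtain ⟨k, g, hg⟩ := Submodule.fg_iff_exists_fin_generating_family.1 (IsNoetherian.noetherian I)
  have hgI : ∀ j, g j ∈ I := fun j => hg ▸ Submodule.subset_span (mem_range_self j)
  have hb : ∀ l j, ∃ q : Fin k → HomCoordRing N, ∑ i, q i • g i = bord F e l (g j) := fun l j => by
    rw [← Submodule.mem_span_range_iff_exists_fun, hg]
    exact bord_mem F e hI hX rfl hF l (hgI j)
  choose q hq using hb
  have hxc : ContinuousOn x (Icc (0:ℝ) 1) := fun t ht => (hx t ht).continuousAt.continuousWithinAt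
  have hev : ∀ G : HomCoordRing N, ContinuousOn (fun t => eval (x t) G) (Icc (0:ℝ) 1) := fun G =>
    (contDiff_eval (m := 0) G).continuous.comp_continuousOn hxc
  have hDc : ContinuousOn (fun t => Del F e (x t)) (Icc (0:ℝ) 1) :=
    (continuous_Del F e).comp_continuousOn hxc
  let M : Fin k → Fin k → ℝ → ℂ := fun j i t =>
    ∑ l, v t (e (Sum.inr l)) * eval (x t) (q l j i) / Del F e (x t)
  have hM : ∀ j i, ContinuousOn (M j i) (Icc (0:ℝ) 1) := fun j i =>
    continuousOn_finsetSum _ fun l _ => ((hvc l).mul (hev _)).div hDc hD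
  have hMb : ∀ j i, ∃ K, ∀ t ∈ Icc (0:ℝ) 1, ‖M j i t‖ ≤ K := fun j i =>
    isCompact_Icc.exists_bound_of_continuousOn (hM j i)
  choose K hK using hMb
  let u : ℝ → Fin k → ℂ := fun t j => eval (x t) (g j)
  have hu : ∀ t ∈ Icc (0:ℝ) 1, HasDerivAt u (fun j => ∑ i, M j i t * u t i) t := by
    intro t ht
    rw [hasDerivAt_pi]
    intro j
    have h1 : HasDerivAt (fun s => eval (x s) (g j)) (dF (g j) (x t) (v t)) t :=
      ((hasFDerivAt_eval (g j) (x t)).restrictScalars ℝ).comp_hasDerivAt t (hx t ht)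
    refine h1.congr_deriv ?_
    have h2 := schur F e (x t) (v t) (hD t ht) (hv t ht) (g j)
    have h3 : ∀ l, eval (x t) (bord F e l (g j)) = ∑ i, eval (x t) (q l j i) * u t i := by
      intro l
      rw [← hq l j, map_sum]
      refine Finset.sum_congr rfl fun i _ => ?_
      rw [smul_eq_mul, map_mul]
    have h4 : dF (g j) (x t) (v t) = (Del F e (x t))⁻¹ *
        ∑ l, v t (e (Sum.inr l)) * eval (x t) (bord F e l (g j)) := by
      rw [← h2, ← mul_assoc, inv_mul_cancel₀ (hD t ht), one_mul]
    rw [h4]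
    simp only [h3, M, Finset.sum_mul, Finset.mul_sum]
    rw [Finset.sum_comm]
    refine Finset.sum_congr rfl fun i _ => Finset.sum_congr rfl fun l _ => ?_
    field_simp
  have hu0 : u 0 = 0 := by
    funext j
    exact h0 _ (hgI j)
  have hres := eq_zero_of_abs_deriv_le_mul_abs_self_of_eq_zero_right (f := u)
    (f' := fun t => fun j => ∑ i, M j i t * u t i) (K := ∑ j, ∑ i, |K j i|) (a := 0) (b := 1)
    (fun t ht => (hu t ht).continuousAt.continuousWithinAt)
    (fun t ht => (hu t ⟨ht.1, ht.2.le⟩).hasDerivWithinAt) hu0 (by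
      intro t ht
      have ht' : t ∈ Icc (0:ℝ) 1 := ⟨ht.1, ht.2.le⟩
      have hnn : 0 ≤ (∑ j, ∑ i, |K j i|) * ‖u t‖ := by positivity
      rw [pi_norm_le_iff_of_nonneg hnn]
      intro j
      calc ‖∑ i, M j i t * u t i‖ ≤ ∑ i, ‖M j i t * u t i‖ := norm_sum_le _ _
        _ ≤ ∑ i, |K j i| * ‖u t‖ := by
            refine Finset.sum_le_sum fun i _ => ?_
            rw [norm_mul]
            exact mul_le_mul ((hK j i t ht').trans (le_abs_self _)) (norm_le_pi_norm _ i)
              (norm_nonneg _) (abs_nonneg _)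
        _ = (∑ i, |K j i|) * ‖u t‖ := by rw [Finset.sum_mul]
        _ ≤ (∑ j, ∑ i, |K j i|) * ‖u t‖ := by
            refine mul_le_mul_of_nonneg_right ?_ (norm_nonneg _)
            exact Finset.single_le_sum (f := fun j => ∑ i, |K j i|)
              (fun j _ => Finset.sum_nonneg fun i _ => abs_nonneg _) (Finset.mem_univ j))
  intro t ht G hG
  have h1 := hres t ht
  rw [← hg, Submodule.mem_span_range_iff_exists_fun] at hG
  obtain ⟨c, rfl⟩ := hG
  rw [map_sum]
  refine Finset.sum_eq_zero fun j _ => ?_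
  have h2 : eval (x t) (g j) = 0 := congrFun h1 j
  rw [smul_eq_mul, map_mul, h2, mul_zero]

/-! ### The local graph -/

theorem exists_local_graph (hI : I.IsPrime) (hX : IsSmoothProjective I n) {p : E N}
    (hp : p ∈ affineCone I) (hp0 : p ≠ 0) :
    ∃ (F : Fin (N - n) → HomCoordRing N) (e : Fin (N - n) ⊕ Fin (n + 1) ≃ Fin (N + 1))
      (S : (Fin (n + 1) → ℂ) → E N) (ε : ℝ), (∀ a, F a ∈ I) ∧ 0 < ε ∧ Del F e p ≠ 0 ∧
      (∀ z ∈ Metric.ball (fun l => p (e (Sum.inr l))) ε, ContDiffAt ℂ ω S z ∧
        S z ∈ affineCone I ∧ (∀ l, S z (e (Sum.inr l)) = z l) ∧ Del F e (S z) ≠ 0) ∧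
      S (fun l => p (e (Sum.inr l))) = p ∧
      ∃ W : Set (E N), IsOpen W ∧ p ∈ W ∧ ∀ x ∈ W, x ∈ affineCone I →
        (fun l => x (e (Sum.inr l))) ∈ Metric.ball (fun l => p (e (Sum.inr l))) ε ∧
        S (fun l => x (e (Sum.inr l))) = x := by
  classical
  obtain ⟨F, e, hF, hdet⟩ := exists_minor hX hp hp0
  have hdet' : Del F e p ≠ 0 := hdet
  let Φ : E N → (Fin (N - n) → ℂ) × (Fin (n + 1) → ℂ) :=
    fun x => (fun a => eval x (F a), fun l => x (e (Sum.inr l)))
  let Φ' : E N → (E N →L[ℂ] (Fin (N - n) → ℂ) × (Fin (n + 1) → ℂ)) := fun x =>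
    (ContinuousLinearMap.pi fun a => dF (F a) x).prod
      (ContinuousLinearMap.pi fun l => ContinuousLinearMap.proj (e (Sum.inr l)))
  have hΦd : ∀ x, HasFDerivAt Φ (Φ' x) x := fun x => by
    refine HasFDerivAt.prodMk ?_ ?_
    · exact hasFDerivAt_pi.2 fun a => hasFDerivAt_eval (F a) x
    · exact hasFDerivAt_pi.2 fun l =>
        (ContinuousLinearMap.proj (R := ℂ) (φ := fun _ : Fin (N + 1) => ℂ) (e (Sum.inr l))).hasFDerivAt
  have hΦc : ContDiff ℂ ω Φ := by
    refine ContDiff.prodMk ?_ ?_
    · exact contDiff_pi.2 fun a => contDiff_eval (F a)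
    · exact contDiff_pi.2 fun l => contDiff_apply ℂ ℂ (e (Sum.inr l))
  have hinj : Function.Injective (Φ' p) := by
    rw [injective_iff_map_eq_zero]
    intro v hv
    have h1 : ∀ a, dF (F a) p v = 0 := fun a => congrFun (congrArg Prod.fst hv) a
    have h2 : ∀ l, v (e (Sum.inr l)) = 0 := fun l => congrFun (congrArg Prod.snd hv) l
    have h3 : (fun b => v (e (Sum.inl b))) = 0 := by
      refine Matrix.eq_zero_of_mulVec_eq_zero hdet ?_
      funext a
      have h4 := h1 a
      rw [dF_apply, ← e.sum_comp, Fintype.sum_sum_type] at h4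
      simp only [h2, zero_mul, Finset.sum_const_zero, add_zero] at h4
      simpa [Matrix.mulVec, dotProduct, mul_comm] using h4
    funext j
    obtain ⟨j, rfl⟩ := e.surjective j
    rcases j with j | j
    · exact congrFun h3 j
    · exact h2 j
  have hdim : Module.finrank ℂ (E N) =
      Module.finrank ℂ ((Fin (N - n) → ℂ) × (Fin (n + 1) → ℂ)) := by
    have := hX.dim_le
    simp
    omega
  let Le : E N ≃L[ℂ] (Fin (N - n) → ℂ) × (Fin (n + 1) → ℂ) :=
    (LinearMap.linearEquivOfInjective (Φ' p : E N →ₗ[ℂ] _) hinj hdim).toContinuousLinearEquiv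
  have hLe : (Le : E N →L[ℂ] (Fin (N - n) → ℂ) × (Fin (n + 1) → ℂ)) = Φ' p := by
    ext v <;> rfl
  have hΦdp : HasFDerivAt Φ (Le : E N →L[ℂ] (Fin (N - n) → ℂ) × (Fin (n + 1) → ℂ)) p := by
    rw [hLe]; exact hΦd p
  have hω : (ω : WithTop ℕ∞) ≠ 0 := by simp
  let L := (hΦc.contDiffAt (x := p)).localInverse hΦdp hω
  have hL1 : ContDiffAt ℂ ω L (Φ p) := (hΦc.contDiffAt (x := p)).to_localInverse hΦdp hω
  have hstr := (hΦc.contDiffAt (x := p)).hasStrictFDerivAt' hΦdp hω
  have hL2 : ∀ᶠ x in 𝓝 p, L (Φ x) = x := hstr.eventually_left_inverse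
  have hL3 : ∀ᶠ y in 𝓝 (Φ p), Φ (L y) = y := hstr.eventually_right_inverse
  have hL4 : L (Φ p) = p := hL2.self_of_nhds
  set z0 : Fin (n + 1) → ℂ := fun l => p (e (Sum.inr l)) with hz0
  have hΦcone : ∀ x ∈ affineCone I, Φ x = (0, fun l => x (e (Sum.inr l))) := fun x hx =>
    Prod.ext (funext fun a => hx _ (hF a)) rfl
  have hΦp : Φ p = (0, z0) := hΦcone p hp
  have hev : ∀ᶠ y in 𝓝 (Φ p), ContDiffAt ℂ ω L y ∧ Φ (L y) = y ∧ Del F e (L y) ≠ 0 := by
    refine (hL1.eventually (by simp)).and (hL3.and ?_)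
    have h1 : ContinuousAt (fun y => Del F e (L y)) (Φ p) :=
      ContinuousAt.comp (g := Del F e) (continuous_Del F e).continuousAt hL1.continuousAt
    refine h1.eventually_ne ?_
    rw [hL4]; exact hdet'
  obtain ⟨ε, hε, hball⟩ := Metric.eventually_nhds_iff_ball.1 hev
  have hmem : ∀ z ∈ Metric.ball z0 ε, ((0 : Fin (N - n) → ℂ), z) ∈ Metric.ball (Φ p) ε := by
    intro z hz
    rw [hΦp, Metric.mem_ball, Prod.dist_eq]
    simpa using Metric.mem_ball.1 hz
  let S : (Fin (n + 1) → ℂ) → E N := fun z => L (0, z)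
  have hSp : S z0 = p := by
    change L (0, z0) = p
    rw [← hΦp, hL4]
  have hSc : ∀ z ∈ Metric.ball z0 ε, ContDiffAt ℂ ω S z := by
    intro z hz
    exact (hball _ (hmem z hz)).1.comp z (contDiffAt_const.prodMk contDiffAt_id)
  have hSΦ : ∀ z ∈ Metric.ball z0 ε, Φ (S z) = (0, z) := fun z hz => (hball _ (hmem z hz)).2.1
  have hSD : ∀ z ∈ Metric.ball z0 ε, Del F e (S z) ≠ 0 := fun z hz => (hball _ (hmem z hz)).2.2
  have hSl : ∀ z ∈ Metric.ball z0 ε, ∀ l, S z (e (Sum.inr l)) = z l := fun z hz l =>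
    congrFun (congrArg Prod.snd (hSΦ z hz)) l
  have hScone : ∀ z ∈ Metric.ball z0 ε, S z ∈ affineCone I := by
    intro z hz
    let c : ℝ → (Fin (n + 1) → ℂ) := fun t => z0 + (t : ℂ) • (z - z0)
    have hcball : ∀ t ∈ Icc (0 : ℝ) 1, c t ∈ Metric.ball z0 ε := by
      intro t ht
      have h1 : dist (c t) z0 = |t| * dist z z0 := by
        rw [dist_eq_norm, dist_eq_norm]
        have : c t - z0 = (t : ℂ) • (z - z0) := by simp [c]
        rw [this, norm_smul, Complex.norm_real, Real.norm_eq_abs]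
      rw [Metric.mem_ball, h1, abs_of_nonneg ht.1]
      have h2 := Metric.mem_ball.1 hz
      nlinarith [ht.2, ht.1, dist_nonneg (x := z) (y := z0)]
    have hcd : ∀ t, HasDerivAt c (z - z0) t := by
      intro t
      have h1 : HasDerivAt (fun t : ℝ => (t : ℂ)) 1 t := Complex.ofRealCLM.hasDerivAt
      have h2 : HasDerivAt (fun t : ℝ => z0 + (t : ℂ) • (z - z0)) ((1 : ℂ) • (z - z0)) t :=
        (h1.smul_const (z - z0)).const_add z0
      rwa [one_smul] at h2
    let x : ℝ → E N := fun t => S (c t)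
    let v : ℝ → E N := fun t => fderiv ℂ S (c t) (z - z0)
    have hx : ∀ t ∈ Icc (0 : ℝ) 1, HasDerivAt x (v t) t := by
      intro t ht
      have h1 : DifferentiableAt ℂ S (c t) :=
        (hSc _ (hcball t ht)).differentiableAt (by simp)
      exact (h1.hasFDerivAt.restrictScalars ℝ).comp_hasDerivAt t (hcd t)
    have hxn : ∀ t ∈ Icc (0 : ℝ) 1, ∀ᶠ s in 𝓝 t, Φ (x s) = (0, c s) := by
      intro t ht
      have h1 : ∀ᶠ s in 𝓝 t, c s ∈ Metric.ball z0 ε :=
        (hcd t).continuousAt.eventually_mem (Metric.isOpen_ball.mem_nhds (hcball t ht))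
      filter_upwards [h1] with s hs
      exact hSΦ _ hs
    have hΦx : ∀ t ∈ Icc (0 : ℝ) 1, Φ' (x t) (v t) = (0, z - z0) := by
      intro t ht
      have h1 : HasDerivAt (fun s => Φ (x s)) (Φ' (x t) (v t)) t :=
        ((hΦd (x t)).restrictScalars ℝ).comp_hasDerivAt t (hx t ht)
      have h2 : HasDerivAt (fun s => ((0 : Fin (N - n) → ℂ), c s)) (0, z - z0) t :=
        (hasDerivAt_const t _).prodMk (hcd t)
      exact h1.unique (h2.congr_of_eventuallyEq (hxn t ht))
    have hfin := path_mem_cone hI hX e hF x v hx ?_ ?_ ?_ ?_ 1 ⟨zero_le_one, le_rfl⟩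
    · have : c 1 = z := by simp [c]
      have h2 : x 1 = S z := by simp only [x, this]
      rwa [h2] at hfin
    · intro l
      have : EqOn (fun t => v t (e (Sum.inr l))) (fun _ => (z - z0) l) (Icc (0 : ℝ) 1) :=
        fun t ht => congrFun (congrArg Prod.snd (hΦx t ht)) l
      exact continuousOn_const.congr this
    · intro t ht a
      exact congrFun (congrArg Prod.fst (hΦx t ht)) a
    · intro t ht
      exact hSD _ (hcball t ht)
    · have : c 0 = z0 := by simp [c]
      change S (c 0) ∈ _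
      rw [this, hSp]; exact hp
  obtain ⟨W, hWsub, hWo, hpW⟩ := eventually_nhds_iff.1 (hL2.and
    (hΦc.continuous.continuousAt.eventually_mem (Metric.isOpen_ball.mem_nhds
      (Metric.mem_ball_self hε : Φ p ∈ Metric.ball (Φ p) ε))))
  refine ⟨F, e, S, ε, hF, hε, hdet', fun z hz => ⟨hSc z hz, hScone z hz, hSl z hz, hSD z hz⟩,
    hSp, W, hWo, hpW, fun x hx hxc => ?_⟩
  have h1 := hWsub x hx
  rw [hΦcone x hxc] at h1
  refine ⟨?_, h1.1⟩
  have h2 := h1.2
  rw [hΦp, Metric.mem_ball, Prod.dist_eq] at h2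
  exact Metric.mem_ball.2 (lt_of_le_of_lt (le_max_right _ _) h2)

end

end Crest.Agent.R269.Geo0_632
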