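import Mathlib

/-!
# Hardy space base (row 269, line B)

Everything lives on `TT = AddCircle (2 * π)` with its probability measure.
-/

open MeasureTheory Set Filter Topology AddCircle
open scoped ComplexConjugate ENNReal

namespace Crest.Agent.R269.Hardy_142

noncomputable section

instance instFact2pi : Fact (0 < 2 * Real.pi) := ⟨Real.two_pi_pos⟩

/-- The circle. -/
abbrev TT : Type := AddCircle (2 * Real.pi)

/-- The probability measure on the circle. -/
abbrev mu : Measure TT := @haarAddCircle (2 * Real.pi) _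

/-- The embedding of the circle into `ℂ`. -/
def zt (t : TT) : ℂ := (toCircle t : ℂ)

theorem norm_zt (t : TT) : ‖zt t‖ = 1 := Circle.norm_coe _

theorem continuous_zt : Continuous zt :=
  continuous_induced_dom.comp continuous_toCircle

theorem zt_ne (t : TT) : zt t ≠ 0 := by
  intro h; have := norm_zt t; rw [h, norm_zero] at this; norm_num at this

theorem zt_coe (x : ℝ) : zt (x : TT) = Complex.exp (x * Complex.I) := by
  unfold zt
  rw [toCircle_apply_mk, Circle.coe_exp]
  have : (2 * Real.pi / (2 * Real.pi) : ℝ) = 1 := div_self Real.two_pi_pos.ne'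
  rw [this, one_mul]

theorem fourier_nat (k : ℕ) (t : TT) : fourier (k : ℤ) t = zt t ^ k := by
  rw [fourier_apply]
  unfold zt
  rw [natCast_zsmul, toCircle_nsmul]
  simp

theorem fourier_neg_nat (k : ℕ) (t : TT) : fourier (-(k : ℤ)) t = (conj (zt t)) ^ k := by
  rw [fourier_neg, fourier_nat, map_pow]

/-! ### bridge to circle averages -/

theorem circleAverage_eq {E : Type*} [NormedAddCommGroup E] [NormedSpace ℝ E] (f : ℂ → E)
    (s : ℝ) : Real.circleAverage f 0 s = ∫ t, f (s * zt t) ∂mu := by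
  rw [integral_haarAddCircle, Real.circleAverage_def,
    ← AddCircle.intervalIntegral_preimage (2 * Real.pi) 0]
  simp only [circleMap, zero_add, zt_coe]

section ext

variable {E : Type*} [NormedAddCommGroup E] [NormedSpace ℂ E]

/-- The holomorphic extension (Cauchy integral) of a boundary function. -/
def ext (Q : TT → E) (w : ℂ) : E := ∫ t, (1 - w * conj (zt t))⁻¹ • Q t ∂mu

theorem ext_congr {Q Q' : TT → E} (h : Q =ᵐ[mu] Q') : ext Q = ext Q' := by
  funext w
  refine integral_congr_ae ?_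
  filter_upwards [h] with t ht
  rw [ht]

theorem norm_kernel_le {w : ℂ} (hw : ‖w‖ < 1) (t : TT) :
    ‖(1 - w * conj (zt t))⁻¹‖ ≤ (1 - ‖w‖)⁻¹ := by
  rw [norm_inv]
  have h1 : ‖w * conj (zt t)‖ = ‖w‖ := by
    rw [norm_mul, RCLike.norm_conj, norm_zt, mul_one]
  have h2 : 1 - ‖w‖ ≤ ‖1 - w * conj (zt t)‖ := by
    have := norm_sub_norm_le (1 : ℂ) (w * conj (zt t))
    rw [h1, norm_one] at this
    exact this
  exact inv_anti₀ (by linarith) h2

theorem continuous_kernel {w : ℂ} (hw : ‖w‖ < 1) :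
    Continuous fun t : TT => (1 - w * conj (zt t))⁻¹ := by
  refine Continuous.inv₀ (by
    exact continuous_const.sub (continuous_const.mul (Complex.continuous_conj.comp continuous_zt)))
    fun t => ?_
  intro h
  have h1 : ‖w * conj (zt t)‖ = ‖w‖ := by
    rw [norm_mul, RCLike.norm_conj, norm_zt, mul_one]
  have h2 : w * conj (zt t) = 1 := by linear_combination -h
  rw [h2, norm_one] at h1
  linarith

theorem integrable_kernel_smul {Q : TT → E} (hQ : Integrable Q mu) {w : ℂ} (hw : ‖w‖ < 1) :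
    Integrable (fun t => (1 - w * conj (zt t))⁻¹ • Q t) mu :=
  hQ.bdd_smul (1 - ‖w‖)⁻¹ (continuous_kernel hw).aestronglyMeasurable
    (Eventually.of_forall fun t => norm_kernel_le hw t)

theorem ext_add {Q R : TT → E} (hQ : Integrable Q mu) (hR : Integrable R mu) {w : ℂ}
    (hw : ‖w‖ < 1) : ext (fun t => Q t + R t) w = ext Q w + ext R w := by
  unfold ext
  rw [← integral_add (integrable_kernel_smul hQ hw) (integrable_kernel_smul hR hw)]
  simp only [smul_add]

theorem ext_const_smul (c : ℂ) (Q : TT → E) (w : ℂ) :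
    ext (fun t => c • Q t) w = c • ext Q w := by
  unfold ext
  rw [← integral_smul]
  simp only [smul_comm c]

theorem norm_ext_le {Q : TT → E} (hQ : Integrable Q mu) {w : ℂ} (hw : ‖w‖ < 1) :
    ‖ext Q w‖ ≤ (1 - ‖w‖)⁻¹ * ∫ t, ‖Q t‖ ∂mu := by
  unfold ext
  refine (norm_integral_le_integral_norm _).trans ?_
  rw [← integral_const_mul]
  refine integral_mono (integrable_kernel_smul hQ hw).norm (hQ.norm.const_mul _) fun t => ?_
  simp only [norm_smul]
  exact mul_le_mul_of_nonneg_right (norm_kernel_le hw t) (norm_nonneg _)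

theorem fourierCoeff_nat (Q : TT → E) (k : ℕ) :
    fourierCoeff Q k = ∫ t, (conj (zt t)) ^ k • Q t ∂mu := by
  unfold fourierCoeff
  refine integral_congr_ae (Eventually.of_forall fun t => ?_)
  simp only [fourier_neg_nat]

theorem norm_fourierCoeff_le (Q : TT → E) (n : ℤ) :
    ‖fourierCoeff Q n‖ ≤ ∫ t, ‖Q t‖ ∂mu := by
  unfold fourierCoeff
  refine (norm_integral_le_integral_norm _).trans (le_of_eq ?_)
  refine integral_congr_ae (Eventually.of_forall fun t => ?_)
  simp only [norm_smul, fourier_apply, Circle.norm_coe, one_mul]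

theorem hasSum_ext [CompleteSpace E] {Q : TT → E} (hQ : Integrable Q mu) {w : ℂ}
    (hw : ‖w‖ < 1) : HasSum (fun k : ℕ => w ^ k • fourierCoeff Q k) (ext Q w) := by
  have hn : ∀ (k : ℕ) (t : TT), ‖(w * conj (zt t)) ^ k • Q t‖ = ‖w‖ ^ k * ‖Q t‖ := by
    intro k t
    rw [norm_smul, norm_pow, norm_mul, RCLike.norm_conj, norm_zt, mul_one]
  have hc : ∀ k : ℕ, Continuous fun t : TT => (w * conj (zt t)) ^ k := fun k =>
    (continuous_const.mul (Complex.continuous_conj.comp continuous_zt)).pow k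
  have h1 : ∀ k : ℕ, Integrable (fun t => (w * conj (zt t)) ^ k • Q t) mu := fun k =>
    hQ.bdd_smul (‖w‖ ^ k) (hc k).aestronglyMeasurable
      (Eventually.of_forall fun t => by
        rw [norm_pow, norm_mul, RCLike.norm_conj, norm_zt, mul_one])
  have h2 := hasSum_integral_of_summable_integral_norm h1 (by
    simp only [hn, integral_const_mul]
    exact (summable_geometric_of_lt_one (norm_nonneg _) hw).mul_right _)
  have h3 : ∀ t : TT, ∑' k : ℕ, (w * conj (zt t)) ^ k • Q t =
      (1 - w * conj (zt t))⁻¹ • Q t := by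
    intro t
    have h4 : ‖w * conj (zt t)‖ < 1 := by
      rw [norm_mul, RCLike.norm_conj, norm_zt, mul_one]; exact hw
    rw [(summable_geometric_of_norm_lt_one h4).tsum_smul_const, tsum_geometric_of_norm_lt_one h4]
  simp only [h3] at h2
  have h5 : ext Q w = ∫ t, (1 - w * conj (zt t))⁻¹ • Q t ∂mu := rfl
  rw [h5]
  convert h2 using 1
  funext k
  rw [fourierCoeff_nat, ← integral_smul]
  refine integral_congr_ae (Eventually.of_forall fun t => ?_)
  simp only [smul_smul, mul_pow]

theorem differentiableOn_ext [CompleteSpace E] {Q : TT → E} (hQ : Integrable Q mu) :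
    DifferentiableOn ℂ (ext Q) (Metric.ball 0 1) := by
  intro w hw
  rw [Metric.mem_ball, dist_zero_right] at hw
  obtain ⟨r, hr1, hr2⟩ := exists_between hw
  have hr0 : 0 ≤ r := (norm_nonneg _).trans hr1.le
  have h1 : DifferentiableOn ℂ (fun w : ℂ => ∑' k : ℕ, w ^ k • fourierCoeff Q k)
      (Metric.ball 0 r) := by
    refine Complex.differentiableOn_tsum_of_summable_norm
      (u := fun k : ℕ => r ^ k * ∫ t, ‖Q t‖ ∂mu) ?_ ?_ Metric.isOpen_ball ?_
    · exact (summable_geometric_of_lt_one hr0 hr2).mul_right _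
    · intro k
      exact (differentiableOn_id.pow k).smul_const _
    · intro k z hz
      rw [Metric.mem_ball, dist_zero_right] at hz
      rw [norm_smul, norm_pow]
      exact mul_le_mul (pow_le_pow_left₀ (norm_nonneg _) hz.le k) (norm_fourierCoeff_le Q k)
        (norm_nonneg _) (by positivity)
  have h2 : DifferentiableAt ℂ (fun w : ℂ => ∑' k : ℕ, w ^ k • fourierCoeff Q k) w :=
    (h1 w (by rw [Metric.mem_ball, dist_zero_right]; exact hr1)).differentiableAt
      (Metric.isOpen_ball.mem_nhds (by rw [Metric.mem_ball, dist_zero_right]; exact hr1))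
  have h3 : ext Q =ᶠ[𝓝 w] fun w : ℂ => ∑' k : ℕ, w ^ k • fourierCoeff Q k := by
    filter_upwards [Metric.isOpen_ball.mem_nhds
      (show w ∈ Metric.ball (0 : ℂ) 1 by rw [Metric.mem_ball, dist_zero_right]; exact hw)]
      with z hz
    rw [Metric.mem_ball, dist_zero_right] at hz
    exact (hasSum_ext hQ hz).tsum_eq.symm
  exact (h2.congr_of_eventuallyEq h3).differentiableWithinAt

/-- Bounded linear maps commute with `ext`. -/
theorem clm_ext {F : Type*} [NormedAddCommGroup F] [NormedSpace ℂ F] [CompleteSpace E]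
    [CompleteSpace F] (L : E →L[ℂ] F) {Q : TT → E} (hQ : Integrable Q mu) {w : ℂ}
    (hw : ‖w‖ < 1) : ext (fun t => L (Q t)) w = L (ext Q w) := by
  unfold ext
  rw [← L.integral_comp_comm (integrable_kernel_smul hQ hw)]
  simp only [map_smul]

theorem clm_fourierCoeff {F : Type*} [NormedAddCommGroup F] [NormedSpace ℂ F] [CompleteSpace E]
    [CompleteSpace F] (L : E →L[ℂ] F) {Q : TT → E} (hQ : Integrable Q mu) (n : ℤ) :
    fourierCoeff (fun t => L (Q t)) n = L (fourierCoeff Q n) := by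
  unfold fourierCoeff
  rw [← L.integral_comp_comm]
  · simp only [map_smul]
  · exact hQ.bdd_smul 1 (fourier (-n)).continuous.aestronglyMeasurable
      (Eventually.of_forall fun t => by rw [fourier_apply, Circle.norm_coe])

end ext

/-! ### coefficients of power series -/

section coeff

variable {E : Type*} [NormedAddCommGroup E] [NormedSpace ℂ E] [CompleteSpace E]

theorem integral_fourier_mul (k n : ℤ) :
    ∫ t, fourier (-n) t * fourier k t ∂mu = if k = n then 1 else 0 := by
  have h := congrFun (fourierCoeff_fourier (T := 2 * Real.pi) k) n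
  unfold fourierCoeff at h
  simp only [smul_eq_mul] at h
  rw [h, Pi.single_apply]
  by_cases hk : k = n
  · simp [hk]
  · simp [hk, Ne.symm hk]

theorem fourierCoeff_series {a : ℕ → E} (ha : Summable fun k => ‖a k‖) (n : ℤ) :
    HasSum (fun k : ℕ => (if (k : ℤ) = n then (1 : ℂ) else 0) • a k)
      (fourierCoeff (fun t : TT => ∑' k : ℕ, zt t ^ k • a k) n) := by
  have hn : ∀ (k : ℕ) (t : TT), ‖fourier (-n) t • (zt t ^ k • a k)‖ = ‖a k‖ := by
    intro k t
    rw [norm_smul, norm_smul, norm_pow, norm_zt, one_pow, one_mul, fourier_apply,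
      Circle.norm_coe, one_mul]
  have hc : ∀ k : ℕ, Continuous fun t : TT => fourier (-n) t • (zt t ^ k • a k) := fun k =>
    (fourier (-n)).continuous.smul ((continuous_zt.pow k).smul continuous_const)
  have h1 : ∀ k : ℕ, Integrable (fun t : TT => fourier (-n) t • (zt t ^ k • a k)) mu := fun k =>
    (hc k).integrable_of_hasCompactSupport (HasCompactSupport.of_compactSpace _)
  have h2 := hasSum_integral_of_summable_integral_norm h1 (by
    simp only [hn]
    simpa using ha)
  have h3 : ∀ t : TT, ∑' k : ℕ, fourier (-n) t • (zt t ^ k • a k) =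
      fourier (-n) t • ∑' k : ℕ, zt t ^ k • a k := by
    intro t
    have hs : Summable fun k : ℕ => zt t ^ k • a k := by
      refine Summable.of_norm ?_
      simpa [norm_smul, norm_zt] using ha
    exact hs.tsum_const_smul _
  simp only [h3] at h2
  unfold fourierCoeff
  convert h2 using 1
  funext k
  have h4 : ∀ t : TT, fourier (-n) t • (zt t ^ k • a k) =
      (fourier (-n) t * fourier (k : ℤ) t) • a k := by
    intro t
    rw [smul_smul, fourier_nat]
  simp only [h4]
  rw [integral_smul_const, integral_fourier_mul]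

theorem fourierCoeff_series_nat {a : ℕ → E} (ha : Summable fun k => ‖a k‖) (m : ℕ) :
    fourierCoeff (fun t : TT => ∑' k : ℕ, zt t ^ k • a k) m = a m := by
  have h := fourierCoeff_series ha m
  have h2 := hasSum_ite_eq m (a m)
  refine h.unique ?_
  convert h2 using 1
  funext k
  by_cases hk : k = m
  · simp [hk]
  · simp [hk]

theorem fourierCoeff_series_neg {a : ℕ → E} (ha : Summable fun k => ‖a k‖) {n : ℤ}
    (hn : n < 0) : fourierCoeff (fun t : TT => ∑' k : ℕ, zt t ^ k • a k) n = 0 := by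
  have h := fourierCoeff_series ha n
  refine h.unique ?_
  convert hasSum_zero using 1
  funext k
  have : (k : ℤ) ≠ n := by omega
  simp [this]

/-- Fourier coefficients of a slice of a power series. -/
theorem slice_coeff {F : ℂ → E} {a : ℕ → E}
    (hF : ∀ w : ℂ, ‖w‖ < 1 → HasSum (fun k : ℕ => w ^ k • a k) (F w))
    {r : ℝ} (hr0 : 0 ≤ r) (hr1 : r < 1) (ha : Summable fun k => ‖((r : ℂ) ^ k) • a k‖) (n : ℤ) :
    fourierCoeff (fun t : TT => F (r * zt t)) n =
      if 0 ≤ n then ((r : ℂ) ^ n.toNat) • a n.toNat else 0 := by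
  have h1 : (fun t : TT => F (r * zt t)) =
      fun t : TT => ∑' k : ℕ, zt t ^ k • (((r : ℂ) ^ k) • a k) := by
    funext t
    have h2 : ‖(r : ℂ) * zt t‖ < 1 := by
      rw [norm_mul, norm_zt, mul_one, Complex.norm_real, Real.norm_eq_abs, abs_of_nonneg hr0]
      exact hr1
    rw [← (hF _ h2).tsum_eq]
    refine tsum_congr fun k => ?_
    rw [smul_smul, mul_pow, mul_comm]
  rw [h1]
  by_cases hn : 0 ≤ n
  · obtain ⟨m, rfl⟩ := Int.eq_ofNat_of_zero_le hn
    rw [if_pos hn]
    exact fourierCoeff_series_nat ha m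
  · rw [if_neg hn]
    exact fourierCoeff_series_neg ha (not_le.mp hn)

end coeff

/-! ### Parseval for vector valued functions -/

section parseval

variable {E : Type*} [NormedAddCommGroup E] [InnerProductSpace ℂ E] [FiniteDimensional ℂ E]

theorem norm_sq_eq_sum (x : E) :
    ‖x‖ ^ 2 = ∑ i, ‖inner ℂ (stdOrthonormalBasis ℂ E i) x‖ ^ 2 :=
  ((stdOrthonormalBasis ℂ E).sum_sq_norm_inner_right x).symm

theorem parseval_scalar {q : TT → ℂ} (hq : MemLp q 2 mu) :
    HasSum (fun n : ℤ => ‖fourierCoeff q n‖ ^ 2) (∫ t, ‖q t‖ ^ 2 ∂mu) := by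
  have h := hasSum_sq_fourierCoeff (hq.toLp q)
  have h1 : (fun n : ℤ => ‖fourierCoeff (hq.toLp q) n‖ ^ 2) =
      fun n : ℤ => ‖fourierCoeff q n‖ ^ 2 := by
    funext n
    rw [fourierCoeff_congr_ae hq.coeFn_toLp]
  have h2 : (∫ t, ‖(hq.toLp q) t‖ ^ 2 ∂mu) = ∫ t, ‖q t‖ ^ 2 ∂mu := by
    refine integral_congr_ae ?_
    filter_upwards [hq.coeFn_toLp] with t ht
    rw [ht]
  rw [h1, h2] at h
  exact h

theorem parseval {Q : TT → E} (hQ : MemLp Q 2 mu) :
    HasSum (fun n : ℤ => ‖fourierCoeff Q n‖ ^ 2) (∫ t, ‖Q t‖ ^ 2 ∂mu) := by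
  have := FiniteDimensional.complete ℂ E
  have hint : Integrable Q mu := hQ.integrable (by norm_num)
  have hc : ∀ i, MemLp (fun t => inner ℂ (stdOrthonormalBasis ℂ E i) (Q t)) 2 mu := fun i =>
    (innerSL ℂ (stdOrthonormalBasis ℂ E i)).comp_memLp' hQ
  have h1 : HasSum (fun n : ℤ => ∑ i, ‖inner ℂ (stdOrthonormalBasis ℂ E i)
      (fourierCoeff Q n)‖ ^ 2) (∑ i, ∫ t, ‖inner ℂ (stdOrthonormalBasis ℂ E i) (Q t)‖ ^ 2 ∂mu) := by
    refine hasSum_sum fun i _ => ?_
    have h2 := parseval_scalar (hc i)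
    convert h2 using 1
    funext n
    have := clm_fourierCoeff (innerSL ℂ (stdOrthonormalBasis ℂ E i)) hint n
    simp only [innerSL_apply_apply] at this
    rw [this]
  rw [← integral_finsetSum] at h1
  · have e1 : (fun n : ℤ => ‖fourierCoeff Q n‖ ^ 2) = fun n : ℤ =>
        ∑ i, ‖inner ℂ (stdOrthonormalBasis ℂ E i) (fourierCoeff Q n)‖ ^ 2 :=
      funext fun n => norm_sq_eq_sum _
    have e2 : (fun t => ‖Q t‖ ^ 2) = fun t =>
        ∑ i, ‖inner ℂ (stdOrthonormalBasis ℂ E i) (Q t)‖ ^ 2 :=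
      funext fun t => norm_sq_eq_sum _
    rw [e1, e2]
    exact h1
  · intro i _
    exact (hc i).integrable_norm_pow (by norm_num)

theorem ae_eq_of_coeff {Q R : TT → E} (hQ : MemLp Q 2 mu) (hR : MemLp R 2 mu)
    (h : ∀ n, fourierCoeff Q n = fourierCoeff R n) : Q =ᵐ[mu] R := by
  have := FiniteDimensional.complete ℂ E
  have h1 := parseval (hQ.sub hR)
  have h2 : ∀ n, fourierCoeff (Q - R) n = 0 := by
    intro n
    unfold fourierCoeff
    have hi : ∀ {S : TT → E}, MemLp S 2 mu → Integrable (fun t => fourier (-n) t • S t) mu :=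
      fun hS => (hS.integrable (by norm_num)).bdd_smul 1
        (fourier (-n)).continuous.aestronglyMeasurable
        (Eventually.of_forall fun t => by rw [fourier_apply, Circle.norm_coe])
    have h3 := h n
    unfold fourierCoeff at h3
    simp only [Pi.sub_apply, smul_sub]
    rw [integral_sub (hi hQ) (hi hR), h3, sub_self]
  simp only [h2, norm_zero] at h1
  have h4 : (∫ t, ‖(Q - R) t‖ ^ 2 ∂mu) = 0 := by
    refine h1.unique ?_
    simp
  rw [integral_eq_zero_iff_of_nonneg (fun t => by positivity)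
    ((hQ.sub hR).integrable_norm_pow (by norm_num))] at h4
  filter_upwards [h4] with t ht
  simp only [Pi.zero_apply, Pi.sub_apply] at ht
  have := pow_eq_zero_iff (two_ne_zero) |>.mp ht
  exact sub_eq_zero.mp (norm_eq_zero.mp this)

end parseval

/-! ### The Hardy space -/

section hardy

variable {E : Type*} [NormedAddCommGroup E] [InnerProductSpace ℂ E] [FiniteDimensional ℂ E]

/-- `Q` belongs to the Hardy space `H²` of the circle. -/
structure IsH2 (Q : TT → E) : Prop where
  memLp : MemLp Q 2 mu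
  coeff : ∀ n : ℤ, n < 0 → fourierCoeff Q n = 0

theorem IsH2.integrable {Q : TT → E} (hQ : IsH2 Q) : Integrable Q mu :=
  hQ.memLp.integrable (by norm_num)

theorem IsH2.congr {Q R : TT → E} (hQ : IsH2 Q) (h : Q =ᵐ[mu] R) : IsH2 R :=
  ⟨hQ.memLp.ae_eq h, fun n hn => by rw [← fourierCoeff_congr_ae h]; exact hQ.coeff n hn⟩

theorem coeff_tendsto_sq {Q : TT → E} (hQ : MemLp Q 2 mu) :
    Summable fun n : ℤ => ‖fourierCoeff Q n‖ ^ 2 := (parseval hQ).summable

theorem summable_nat {Q : TT → E} (hQ : MemLp Q 2 mu) :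
    Summable fun k : ℕ => ‖fourierCoeff Q (k : ℤ)‖ ^ 2 :=
  (coeff_tendsto_sq hQ).comp_injective (i := fun k : ℕ => (k : ℤ)) Nat.cast_injective

/-- slices of `ext Q` are continuous. -/
theorem continuous_slice {F : ℂ → E} (hF : DifferentiableOn ℂ F (Metric.ball 0 1)) {r : ℝ}
    (hr0 : 0 ≤ r) (hr1 : r < 1) : Continuous fun t : TT => F (r * zt t) := by
  refine hF.continuousOn.comp_continuous (continuous_const.mul continuous_zt) fun t => ?_
  rw [Metric.mem_ball, dist_zero_right, norm_mul, norm_zt, mul_one, Complex.norm_real,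
    Real.norm_eq_abs, abs_of_nonneg hr0]
  exact hr1

theorem memLp_of_continuous {f : TT → E} (hf : Continuous f) : MemLp f 2 mu := by
  obtain ⟨C, hC⟩ := isCompact_univ.exists_bound_of_continuousOn hf.continuousOn
  exact MemLp.of_bound hf.aestronglyMeasurable C (Eventually.of_forall fun t => hC t (mem_univ t))

theorem summable_slice {F : ℂ → E} {a : ℕ → E}
    (hF : ∀ w : ℂ, ‖w‖ < 1 → HasSum (fun k : ℕ => w ^ k • a k) (F w))
    {r : ℝ} (hr0 : 0 ≤ r) (hr1 : r < 1) : Summable fun k => ‖((r : ℂ) ^ k) • a k‖ := by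
  have hfd : FiniteDimensional ℝ E := FiniteDimensional.complexToReal E
  have h1 : ‖(r : ℂ)‖ < 1 := by
    rw [Complex.norm_real, Real.norm_eq_abs, abs_of_nonneg hr0]; exact hr1
  exact summable_norm_iff.mpr (hF r h1).summable

theorem hasSum_slice_sub {F : ℂ → E} {a : ℕ → E} (hFd : DifferentiableOn ℂ F (Metric.ball 0 1))
    (hF : ∀ w : ℂ, ‖w‖ < 1 → HasSum (fun k : ℕ => w ^ k • a k) (F w))
    {r : ℝ} (hr0 : 0 ≤ r) (hr1 : r < 1)
    {Q : TT → E} (hQ : IsH2 Q) (hQa : ∀ k : ℕ, fourierCoeff Q k = a k) :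
    HasSum (fun k : ℕ => (1 - r ^ k) ^ 2 * ‖a k‖ ^ 2)
      (∫ t, ‖F (r * zt t) - Q t‖ ^ 2 ∂mu) := by
  have := FiniteDimensional.complete ℂ E
  have hFm := memLp_of_continuous (continuous_slice hFd hr0 hr1)
  have h1 := parseval (hFm.sub hQ.memLp)
  have hi : ∀ {S : TT → E} (n : ℤ), MemLp S 2 mu →
      Integrable (fun t => fourier (-n) t • S t) mu :=
    fun n hS => (hS.integrable (by norm_num)).bdd_smul 1
      (fourier (-n)).continuous.aestronglyMeasurable
      (Eventually.of_forall fun t => by rw [fourier_apply, Circle.norm_coe])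
  have h2 : ∀ n, fourierCoeff ((fun t : TT => F (r * zt t)) - Q) n =
      fourierCoeff (fun t : TT => F (r * zt t)) n - fourierCoeff Q n := by
    intro n
    unfold fourierCoeff
    simp only [Pi.sub_apply, smul_sub]
    rw [integral_sub (hi n hFm) (hi n hQ.memLp)]
  simp only [h2, slice_coeff hF hr0 hr1 (summable_slice hF hr0 hr1)] at h1
  have hinj : Function.Injective (fun k : ℕ => (k : ℤ)) := Nat.cast_injective
  have h3 := (hinj.hasSum_iff (f := fun n : ℤ => ‖(if 0 ≤ n then ((r : ℂ) ^ n.toNat) • a n.toNat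
      else 0) - fourierCoeff Q n‖ ^ 2) (a := ∫ t, ‖((fun t : TT => F (r * zt t)) - Q) t‖ ^ 2 ∂mu)
      (fun n hn => by
    have hneg : ¬ 0 ≤ n := fun h0 => hn ⟨n.toNat, by simp [h0]⟩
    rw [if_neg hneg, hQ.coeff n (not_le.mp hneg)]
    simp)).mpr h1
  simp only [Pi.sub_apply] at h3
  convert h3 using 1
  funext k
  simp only [Function.comp_apply]
  rw [if_pos (Int.natCast_nonneg k), Int.toNat_natCast, hQa k]
  have h4 : ((r : ℂ) ^ k) • a k - a k = (((r ^ k - 1 : ℝ)) : ℂ) • a k := by
    push_cast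
    rw [sub_smul, one_smul]
  rw [h4, norm_smul, Complex.norm_real, mul_pow, Real.norm_eq_abs, sq_abs]
  ring

theorem tendsto_series {c : ℕ → ℝ} (hc : Summable c) (hc0 : ∀ k, 0 ≤ c k) :
    Tendsto (fun r : ℝ => ∑' k : ℕ, (1 - r ^ k) ^ 2 * c k) (𝓝[<] 1) (𝓝 0) := by
  have h1 : (∑' k : ℕ, (1 - (1 : ℝ) ^ k) ^ 2 * c k) = 0 := by simp
  rw [← h1]
  refine tendsto_tsum_of_dominated_convergence hc (fun k => ?_) ?_
  · refine Tendsto.mono_left ?_ nhdsWithin_le_nhds
    exact Continuous.tendsto (by fun_prop) _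
  · have : ∀ᶠ r : ℝ in 𝓝[<] 1, r ∈ Ioo (0 : ℝ) 1 := Ioo_mem_nhdsLT one_pos
    filter_upwards [this] with r hr k
    rw [Real.norm_eq_abs, abs_of_nonneg (mul_nonneg (sq_nonneg _) (hc0 k))]
    have h2 : 0 ≤ r ^ k := pow_nonneg hr.1.le k
    have h3 : r ^ k ≤ 1 := pow_le_one₀ hr.1.le hr.2.le
    have h4 : (1 - r ^ k) ^ 2 ≤ 1 := by nlinarith
    exact mul_le_of_le_one_left (hc0 k) h4

/-- `L²` convergence of the slices to the boundary function. -/
theorem IsH2.tendsto_slice {Q : TT → E} (hQ : IsH2 Q) :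
    Tendsto (fun r : ℝ => ∫ t, ‖ext Q (r * zt t) - Q t‖ ^ 2 ∂mu) (𝓝[<] 1) (𝓝 0) := by
  have := FiniteDimensional.complete ℂ E
  have hs := summable_nat hQ.memLp
  refine (tendsto_series hs fun k => sq_nonneg _).congr' ?_
  have : ∀ᶠ r : ℝ in 𝓝[<] 1, r ∈ Ioo (0 : ℝ) 1 := Ioo_mem_nhdsLT one_pos
  filter_upwards [this] with r hr
  exact (hasSum_slice_sub (differentiableOn_ext hQ.integrable)
    (fun w hw => hasSum_ext hQ.integrable hw) hr.1.le hr.2 hQ fun k => rfl).tsum_eq

theorem hasSum_taylor {F : ℂ → E} (hF : DifferentiableOn ℂ F (Metric.ball 0 1)) {w : ℂ}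
    (hw : ‖w‖ < 1) :
    HasSum (fun k : ℕ => w ^ k • ((k.factorial : ℂ)⁻¹ • iteratedDeriv k F 0)) (F w) := by
  have := FiniteDimensional.complete ℂ E
  have h := Complex.hasSum_taylorSeries_on_ball hF
    (show w ∈ Metric.ball (0 : ℂ) 1 by rw [Metric.mem_ball, dist_zero_right]; exact hw)
  convert h using 1
  funext k
  rw [sub_zero, smul_comm]

/-- A holomorphic function with bounded quadratic means is the extension of an `H²` function. -/
theorem exists_boundary {F : ℂ → E} (hF : DifferentiableOn ℂ F (Metric.ball 0 1)) {M : ℝ}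
    (hM : ∀ r ∈ Ioo (0 : ℝ) 1, ∫ t, ‖F (r * zt t)‖ ^ 2 ∂mu ≤ M) :
    ∃ Q : TT → E, IsH2 Q ∧ ∀ w : ℂ, ‖w‖ < 1 → ext Q w = F w := by
  have := FiniteDimensional.complete ℂ E
  set a : ℕ → E := fun k => (k.factorial : ℂ)⁻¹ • iteratedDeriv k F 0 with ha
  have hFs : ∀ w : ℂ, ‖w‖ < 1 → HasSum (fun k : ℕ => w ^ k • a k) (F w) :=
    fun w hw => hasSum_taylor hF hw
  -- finite sums
  have hfin : ∀ (u : Finset ℕ), ∑ k ∈ u, ‖a k‖ ^ 2 ≤ M := by
    intro u
    have h1 : ∀ r ∈ Ioo (0 : ℝ) 1, ∑ k ∈ u, ‖((r : ℂ) ^ k) • a k‖ ^ 2 ≤ M := by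
      intro r hr
      refine le_trans ?_ (hM r hr)
      have h2 := parseval (memLp_of_continuous (continuous_slice hF hr.1.le hr.2))
      simp only [slice_coeff hFs hr.1.le hr.2 (summable_slice hFs hr.1.le hr.2)] at h2
      have hinj : Function.Injective (fun k : ℕ => (k : ℤ)) := Nat.cast_injective
      have h3 := (hinj.hasSum_iff (f := fun n : ℤ => ‖(if 0 ≤ n then ((r : ℂ) ^ n.toNat) •
          a n.toNat else 0)‖ ^ 2) (a := ∫ t, ‖F (r * zt t)‖ ^ 2 ∂mu) (fun n hn => by
        have hneg : ¬ 0 ≤ n := fun h0 => hn ⟨n.toNat, by simp [h0]⟩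
        rw [if_neg hneg]
        simp)).mpr h2
      have h4 : (∑ k ∈ u, ‖((r : ℂ) ^ k) • a k‖ ^ 2) = ∑ k ∈ u,
          ((fun n : ℤ => ‖(if 0 ≤ n then ((r : ℂ) ^ n.toNat) • a n.toNat else 0)‖ ^ 2) ∘
            fun k : ℕ => (k : ℤ)) k := by
        refine Finset.sum_congr rfl fun k _ => ?_
        simp only [Function.comp_apply]
        rw [if_pos (Int.natCast_nonneg k), Int.toNat_natCast]
      rw [h4]
      exact sum_le_hasSum u (fun k _ => sq_nonneg _) h3
    have h5 : Tendsto (fun r : ℝ => ∑ k ∈ u, ‖((r : ℂ) ^ k) • a k‖ ^ 2) (𝓝[<] 1)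
        (𝓝 (∑ k ∈ u, ‖(((1 : ℝ) : ℂ) ^ k) • a k‖ ^ 2)) := by
      refine Tendsto.mono_left ?_ nhdsWithin_le_nhds
      exact Continuous.tendsto (by fun_prop) _
    have h6 := le_of_tendsto h5 (by
      have : ∀ᶠ r : ℝ in 𝓝[<] 1, r ∈ Ioo (0 : ℝ) 1 := Ioo_mem_nhdsLT one_pos
      filter_upwards [this] with r hr
      exact h1 r hr)
    simpa using h6
  have hsum : Summable fun k => ‖a k‖ ^ 2 :=
    summable_of_sum_le (fun k => by positivity) hfin
  -- scalar components
  set b := stdOrthonormalBasis ℂ E with hb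
  set c : Fin (Module.finrank ℂ E) → ℤ → ℂ := fun i n =>
    if 0 ≤ n then inner ℂ (b i) (a n.toNat) else 0 with hc
  have hcm : ∀ i, Memℓp (c i) 2 := by
    intro i
    refine memℓp_gen ?_
    have hinj : Function.Injective (fun k : ℕ => (k : ℤ)) := Nat.cast_injective
    refine (hinj.summable_iff (f := fun n : ℤ => ‖c i n‖ ^ (2 : ℝ≥0∞).toReal)
      (fun n hn => ?_)).mp ?_
    · have hneg : ¬ 0 ≤ n := fun h0 => hn ⟨n.toNat, by simp [h0]⟩
      simp only [hc]
      rw [if_neg hneg]
      simp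
    · refine Summable.of_nonneg_of_le (fun k => Real.rpow_nonneg (norm_nonneg _) _)
        (fun k => ?_) hsum
      simp only [Function.comp_apply, hc]
      rw [if_pos (Int.natCast_nonneg k), Int.toNat_natCast]
      simp only [ENNReal.toReal_ofNat, Real.rpow_ofNat]
      refine pow_le_pow_left₀ (norm_nonneg _) ?_ 2
      refine (norm_inner_le_norm _ _).trans (le_of_eq ?_)
      rw [b.norm_eq_one, one_mul]
  set q : Fin (Module.finrank ℂ E) → Lp ℂ 2 mu := fun i =>
    (fourierBasis (T := 2 * Real.pi)).repr.symm ⟨c i, hcm i⟩ with hq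
  have hqc : ∀ i n, fourierCoeff (q i) n = c i n := by
    intro i n
    rw [← fourierBasis_repr]
    simp [hq]
  set Q : TT → E := fun t => ∑ i, (q i) t • b i with hQ
  have hQm : MemLp Q 2 mu := by
    refine memLp_finsetSum _ fun i _ => ?_
    exact (ContinuousLinearMap.smulRight (ContinuousLinearMap.id ℂ ℂ) (b i)).comp_memLp' (Lp.memLp (q i))
  have hQc : ∀ n, fourierCoeff Q n = if 0 ≤ n then a n.toNat else 0 := by
    intro n
    have h1 : fourierCoeff Q n = ∑ i, fourierCoeff (q i) n • b i := by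
      unfold fourierCoeff
      simp only [hQ, Finset.smul_sum, smul_smul]
      rw [integral_finsetSum]
      · refine Finset.sum_congr rfl fun i _ => ?_
        simp only [smul_eq_mul]
        rw [integral_smul_const]
      · intro i _
        refine Integrable.smul_const ?_ _
        have := ((Lp.memLp (q i)).integrable (by norm_num)).bdd_smul 1
          (fourier (-n)).continuous.aestronglyMeasurable
          (Eventually.of_forall fun t => by rw [fourier_apply, Circle.norm_coe])
        exact this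
    rw [h1]
    simp only [hqc, hc]
    by_cases hn : 0 ≤ n
    · simp only [if_pos hn]
      exact b.sum_repr' (a n.toNat)
    · simp only [if_neg hn, zero_smul, Finset.sum_const_zero]
  have hQ2 : IsH2 Q := ⟨hQm, fun n hn => by rw [hQc, if_neg (not_le.mpr hn)]⟩
  refine ⟨Q, hQ2, fun w hw => ?_⟩
  have h1 := hasSum_ext hQ2.integrable hw
  simp only [hQc] at h1
  refine h1.unique ?_
  simpa using hFs w hw

/-- Uniqueness. -/
theorem IsH2.ae_eq_of_ext {Q R : TT → E} (hQ : IsH2 Q) (hR : IsH2 R)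
    (h : ∀ w : ℂ, ‖w‖ < 1 → ext Q w = ext R w) : Q =ᵐ[mu] R := by
  have hc := FiniteDimensional.complete ℂ E
  have h0 : ∀ r ∈ Ioo (0 : ℝ) 1, ∀ n : ℤ, fourierCoeff (fun t : TT => ext Q (r * zt t)) n =
      fourierCoeff (fun t : TT => ext R (r * zt t)) n := by
    intro r hr n
    congr 1
    funext t
    refine h _ ?_
    rw [norm_mul, norm_zt, mul_one, Complex.norm_real, Real.norm_eq_abs, abs_of_nonneg hr.1.le]
    exact hr.2
  refine ae_eq_of_coeff hQ.memLp hR.memLp fun n => ?_
  by_cases hn : 0 ≤ n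
  · obtain ⟨m, rfl⟩ := Int.eq_ofNat_of_zero_le hn
    have h1 := h0 (1 / 2) ⟨by norm_num, by norm_num⟩ (m : ℤ)
    have hQs : ∀ w : ℂ, ‖w‖ < 1 → HasSum (fun k : ℕ => w ^ k • fourierCoeff Q k) (ext Q w) :=
      fun w hw => hasSum_ext hQ.integrable hw
    have hRs : ∀ w : ℂ, ‖w‖ < 1 → HasSum (fun k : ℕ => w ^ k • fourierCoeff R k) (ext R w) :=
      fun w hw => hasSum_ext hR.integrable hw
    rw [slice_coeff hQs (by norm_num) (by norm_num)
      (summable_slice hQs (by norm_num) (by norm_num)),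
      slice_coeff hRs (by norm_num) (by norm_num)
      (summable_slice hRs (by norm_num) (by norm_num)), if_pos hn] at h1
    simp only [Int.toNat_natCast] at h1
    exact smul_right_injective E (pow_ne_zero m (by norm_num)) h1
  · rw [hQ.coeff n (not_le.mp hn), hR.coeff n (not_le.mp hn)]

end hardy

end

end Crest.Agent.R269.Hardy_142
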