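import Mathlib

/-!
# Row 269, leaf WOLD (helper290), step (4) of helper730's scheme (post 1368)

* `UZ μ z` : `z` is a measurable unimodular function on a probability space whose powers are total
  in the sense of `L¹`-uniqueness (for the circle: `uz_addCircle`).
* `wold` : a closed `z`-invariant subspace `N` of `L²(Ω; E)` with `⋂ zᵏ N = 0` has a finite family
  `V₁, …, V_m` in `N`, orthonormal at almost every point, such that every `f ∈ N` is
  `∑ ⟪V_i, f⟫ V_i` almost everywhere, and the negative Fourier coefficients of `⟪V_i, f⟫` vanish.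
-/

set_option autoImplicit false
open MeasureTheory Filter Topology
open scoped ComplexConjugate InnerProductSpace ENNReal

noncomputable section
namespace Crest.Agent.R269.Wold290

/-! ## L¹ uniqueness for Fourier coefficients -/

section circle
variable {T : ℝ} [hT : Fact (0 < T)]

/-- an integrable function on the circle all of whose Fourier coefficients vanish is zero -/
theorem ae_zero_of_fourierCoeff {f : AddCircle T → ℂ} (hf : Integrable f AddCircle.haarAddCircle)
    (h : ∀ n : ℤ, ∫ t, fourier n t * f t ∂AddCircle.haarAddCircle = 0) :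
    f =ᵐ[AddCircle.haarAddCircle] 0 := by
  set μ : Measure (AddCircle T) := AddCircle.haarAddCircle with hμ
  -- vanishing against all continuous functions
  have hint : ∀ g : C(AddCircle T, ℂ), Integrable (fun t => g t * f t) μ := by
    intro g
    refine hf.bdd_mul g.continuous.aestronglyMeasurable (c := ‖g‖) ?_
    exact Eventually.of_forall fun t => g.norm_coe_le_norm t
  let K : Submodule ℂ C(AddCircle T, ℂ) :=
    { carrier := {g | ∫ t, g t * f t ∂μ = 0}
      add_mem' := by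
        intro a b ha hb
        simp only [Set.mem_ofPred_eq, ContinuousMap.coe_add, Pi.add_apply, add_mul] at *
        rw [integral_add (hint a) (hint b), ha, hb, add_zero]
      zero_mem' := by simp
      smul_mem' := by
        intro c a ha
        simp only [Set.mem_ofPred_eq, ContinuousMap.coe_smul, Pi.smul_apply, smul_eq_mul,
          mul_assoc] at *
        rw [integral_const_mul, ha, mul_zero] }
  have hKc : IsClosed (K : Set C(AddCircle T, ℂ)) := by
    have hcont : Continuous fun g : C(AddCircle T, ℂ) => ∫ t, g t * f t ∂μ := by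
      have hlip : LipschitzWith (Real.toNNReal (∫ t, ‖f t‖ ∂μ))
          fun g : C(AddCircle T, ℂ) => ∫ t, g t * f t ∂μ := by
        refine LipschitzWith.of_dist_le_mul fun a b => ?_
        rw [dist_eq_norm, ← integral_sub (hint a) (hint b), Real.coe_toNNReal _
          (integral_nonneg fun _ => norm_nonneg _)]
        refine (norm_integral_le_integral_norm _).trans ?_
        rw [← integral_mul_const]
        refine integral_mono ((hint a).sub (hint b)).norm (hf.norm.mul_const _) fun t => ?_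
        change ‖a t * f t - b t * f t‖ ≤ _
        rw [← sub_mul, norm_mul, mul_comm]
        refine mul_le_mul_of_nonneg_left ?_ (norm_nonneg _)
        rw [dist_eq_norm]
        exact (a - b).norm_coe_le_norm t
      exact hlip.continuous
    exact isClosed_singleton.preimage hcont
  have hKtop : K = ⊤ := by
    rw [eq_top_iff, ← span_fourier_closure_eq_top (T := T)]
    refine Submodule.topologicalClosure_minimal _ ?_ hKc
    rw [Submodule.span_le]
    rintro _ ⟨n, rfl⟩
    exact h n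
  have hall : ∀ g : C(AddCircle T, ℂ), ∫ t, g t * f t ∂μ = 0 := by
    intro g
    have : g ∈ K := by rw [hKtop]; trivial
    exact this
  refine ae_eq_zero_of_forall_setIntegral_isClosed_eq_zero hf fun s hs => ?_
  -- approximate the indicator of `s`
  set δ : ℕ → ℝ := fun n => 1 / ((n : ℝ) + 1) with hδ
  have hδ0 : ∀ n, 0 < δ n := fun n => by positivity
  have hδl : Tendsto δ atTop (𝓝 0) := tendsto_one_div_add_atTop_nhds_zero_nat
  have key := thickenedIndicator_tendsto_indicator_closure hδ0 hδl s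
  rw [hs.closure_eq] at key
  have L : Tendsto (fun n => ∫ t, ((thickenedIndicator (hδ0 n) s t : ℝ) : ℂ) * f t ∂μ) atTop
      (𝓝 (∫ t, s.indicator f t ∂μ)) := by
    refine tendsto_integral_of_dominated_convergence (fun t => ‖f t‖) ?_ hf.norm ?_ ?_
    · intro n
      refine AEStronglyMeasurable.mul ?_ hf.1
      refine Continuous.aestronglyMeasurable ?_
      exact Complex.continuous_ofReal.comp (NNReal.continuous_coe.comp
        (thickenedIndicator (hδ0 n) s).continuous)
    · intro n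
      refine Eventually.of_forall fun t => ?_
      rw [norm_mul]
      refine mul_le_of_le_one_left (norm_nonneg _) ?_
      rw [Complex.norm_real, Real.norm_eq_abs, abs_of_nonneg (NNReal.coe_nonneg _)]
      exact_mod_cast thickenedIndicator_le_one (hδ0 n) s t
    · refine Eventually.of_forall fun t => ?_
      have h1 := (tendsto_pi_nhds.1 key) t
      have h2 : Tendsto (fun n => ((thickenedIndicator (hδ0 n) s t : ℝ) : ℂ) * f t) atTop
          (𝓝 (((s.indicator (fun _ => (1 : NNReal)) t : NNReal) : ℝ) * f t)) := by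
        refine Tendsto.mul_const _ ?_
        exact (Complex.continuous_ofReal.tendsto _).comp
          ((NNReal.continuous_coe.tendsto _).comp h1)
      convert h2 using 2
      by_cases hts : t ∈ s
      · simp [hts]
      · simp [hts]
  have hz : ∀ n, ∫ t, ((thickenedIndicator (hδ0 n) s t : ℝ) : ℂ) * f t ∂μ = 0 := by
    intro n
    exact hall ⟨fun t => ((thickenedIndicator (hδ0 n) s t : ℝ) : ℂ),
      Complex.continuous_ofReal.comp (NNReal.continuous_coe.comp
        (thickenedIndicator (hδ0 n) s).continuous)⟩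
  simp only [hz] at L
  rw [← integral_indicator hs.measurableSet]
  exact (tendsto_nhds_unique L tendsto_const_nhds)

end circle

/-- `z` is a unimodular function on the probability space `(Ω, μ)` whose powers are total -/
structure UZ {Ω : Type*} [MeasurableSpace Ω] (μ : Measure Ω) (z : Ω → ℂ) : Prop where
  meas : Measurable z
  norm : ∀ ω, ‖z ω‖ = 1
  tot : ∀ f : Ω → ℂ, Integrable f μ → (∀ k : ℕ, 1 ≤ k → ∫ ω, z ω ^ k * f ω ∂μ = 0) →
    (∀ k : ℕ, 1 ≤ k → ∫ ω, conj (z ω) ^ k * f ω ∂μ = 0) → ∀ᵐ ω ∂μ, f ω = ∫ ω', f ω' ∂μ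

/-- the circle -/
theorem uz_addCircle {T : ℝ} [hT : Fact (0 < T)] :
    UZ (AddCircle.haarAddCircle (T := T)) (fun t => fourier 1 t) := by
  refine ⟨(map_continuous (fourier 1)).measurable, fun t => by
    rw [fourier_apply]; exact Circle.norm_coe _, ?_⟩
  · intro f hf h1 h2
    have hpow : ∀ (k : ℕ) (t : AddCircle T), (fourier 1 t : ℂ) ^ k = fourier (k : ℤ) t := by
      intro k t
      induction k with
      | zero => simp
      | succ k ih => rw [pow_succ, ih, ← fourier_add]; norm_num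
    have hconj : ∀ (k : ℕ) (t : AddCircle T), conj (fourier 1 t : ℂ) ^ k = fourier (-(k : ℤ)) t := by
      intro k t
      rw [← map_pow, hpow, ← fourier_neg]
    have hc : ∀ n : ℤ, n ≠ 0 → ∫ t : AddCircle T, (fourier n t : ℂ) ∂AddCircle.haarAddCircle = 0 := by
      intro n hn
      have h3 := congrFun (fourierCoeff_fourier (T := T) n) 0
      rw [Pi.single_eq_of_ne (Ne.symm hn)] at h3
      simpa [fourierCoeff] using h3
    set c : ℂ := ∫ t, f t ∂AddCircle.haarAddCircle with hcdef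
    have hg : Integrable (fun t => f t - c) (AddCircle.haarAddCircle (T := T)) :=
      hf.sub (integrable_const c)
    have h0 := ae_zero_of_fourierCoeff hg (fun n => by
      have hi1 : Integrable (fun t => fourier n t * f t) (AddCircle.haarAddCircle (T := T)) := by
        refine hf.bdd_mul (map_continuous (fourier n)).aestronglyMeasurable (c := 1) ?_
        refine Eventually.of_forall fun t => ?_
        rw [fourier_apply]; exact (Circle.norm_coe _).le
      have hi2 : Integrable (fun t => fourier n t * c) (AddCircle.haarAddCircle (T := T)) := by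
        refine (integrable_const c).bdd_mul (map_continuous (fourier n)).aestronglyMeasurable (c := 1) ?_
        refine Eventually.of_forall fun t => ?_
        rw [fourier_apply]; exact (Circle.norm_coe _).le
      simp only [mul_sub]
      rw [integral_sub hi1 hi2, integral_mul_const]
      rcases lt_trichotomy n 0 with hn | hn | hn
      · obtain ⟨k, rfl⟩ : ∃ k : ℕ, n = -(k : ℤ) := ⟨n.natAbs, by omega⟩
        have := h2 k (by omega)
        simp only [hconj] at this
        rw [this, hc _ hn.ne, zero_mul, sub_zero]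
      · subst hn
        simp [hcdef]
      · obtain ⟨k, rfl⟩ : ∃ k : ℕ, n = (k : ℤ) := ⟨n.natAbs, by omega⟩
        have := h1 k (by omega)
        simp only [hpow] at this
        rw [this, hc _ hn.ne', zero_mul, sub_zero])
    filter_upwards [h0] with t ht
    have : f t - c = 0 := ht
    exact sub_eq_zero.1 this

/-! ## Multiplication by `z` on `L²(Ω; E)` -/

section main
variable {Ω : Type*} [MeasurableSpace Ω] {μ : Measure Ω} {z : Ω → ℂ}
  {E : Type*} [NormedAddCommGroup E] [InnerProductSpace ℂ E]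

lemma memLp_mz (hz : UZ μ z) (f : Lp E 2 μ) : MemLp (fun ω => z ω • f ω) 2 μ := by
  refine MemLp.of_le (Lp.memLp f) (hz.meas.aestronglyMeasurable.smul (Lp.aestronglyMeasurable f)) ?_
  refine Eventually.of_forall fun ω => ?_
  rw [norm_smul, hz.norm, one_mul]

/-- multiplication by `z` -/
def mz (hz : UZ μ z) : Lp E 2 μ →ₗᵢ[ℂ] Lp E 2 μ where
  toFun f := (memLp_mz hz f).toLp _
  map_add' f g := by
    apply Lp.ext
    filter_upwards [(memLp_mz hz (f + g)).coeFn_toLp, (memLp_mz hz f).coeFn_toLp,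
      (memLp_mz hz g).coeFn_toLp, Lp.coeFn_add f g,
      Lp.coeFn_add ((memLp_mz hz f).toLp _) ((memLp_mz hz g).toLp _)] with ω h1 h2 h3 h4 h5
    rw [h1, h5, Pi.add_apply, h2, h3, h4, Pi.add_apply, smul_add]
  map_smul' c f := by
    apply Lp.ext
    filter_upwards [(memLp_mz hz (c • f)).coeFn_toLp, (memLp_mz hz f).coeFn_toLp,
      Lp.coeFn_smul c f, Lp.coeFn_smul c ((memLp_mz hz f).toLp _)] with ω h1 h2 h3 h4
    rw [RingHom.id_apply, h1, h4, Pi.smul_apply, h2, h3, Pi.smul_apply, smul_comm]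
  norm_map' f := by
    change ‖(memLp_mz hz f).toLp _‖ = ‖f‖
    rw [Lp.norm_toLp, Lp.norm_def]
    congr 1
    refine eLpNorm_congr_norm_ae (Eventually.of_forall fun ω => ?_)
    rw [norm_smul, hz.norm, one_mul]

lemma coeFn_mz (hz : UZ μ z) (f : Lp E 2 μ) : mz hz f =ᵐ[μ] fun ω => z ω • f ω :=
  (memLp_mz hz f).coeFn_toLp

lemma coeFn_mzk (hz : UZ μ z) (f : Lp E 2 μ) (k : ℕ) :
    (mz hz)^[k] f =ᵐ[μ] fun ω => z ω ^ k • f ω := by
  induction k with
  | zero => simp
  | succ k ih =>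
    rw [Function.iterate_succ_apply']
    filter_upwards [coeFn_mz hz ((mz hz)^[k] f), ih] with ω h1 h2
    rw [h1, h2, smul_smul, pow_succ']

lemma inner_mzk (hz : UZ μ z) (f g : Lp E 2 μ) (k : ℕ) :
    ⟪f, (mz hz)^[k] g⟫_ℂ = ∫ ω, z ω ^ k * ⟪f ω, g ω⟫_ℂ ∂μ := by
  rw [L2.inner_def]
  refine integral_congr_ae ?_
  filter_upwards [coeFn_mzk hz g k] with ω h
  rw [h, inner_smul_right]

lemma inner_mzk' (hz : UZ μ z) (f g : Lp E 2 μ) (k : ℕ) :
    ⟪(mz hz)^[k] f, g⟫_ℂ = ∫ ω, conj (z ω) ^ k * ⟪f ω, g ω⟫_ℂ ∂μ := by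
  rw [L2.inner_def]
  refine integral_congr_ae ?_
  filter_upwards [coeFn_mzk hz f k] with ω h
  rw [h, inner_smul_left, map_pow]

lemma mzk_mem (hz : UZ μ z) {N : Submodule ℂ (Lp E 2 μ)} (hinv : ∀ f ∈ N, mz hz f ∈ N)
    {f : Lp E 2 μ} (hf : f ∈ N) (k : ℕ) : (mz hz)^[k] f ∈ N := by
  induction k with
  | zero => exact hf
  | succ k ih => rw [Function.iterate_succ_apply']; exact hinv _ ih

/-- the wandering subspace `N ⊖ zN` -/
def wan (hz : UZ μ z) (N : Submodule ℂ (Lp E 2 μ)) : Submodule ℂ (Lp E 2 μ) :=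
  N ⊓ (N.map (mz hz).toLinearMap)ᗮ

lemma wan_inner (hz : UZ μ z) {N : Submodule ℂ (Lp E 2 μ)} (hinv : ∀ f ∈ N, mz hz f ∈ N)
    {v f : Lp E 2 μ} (hv : v ∈ wan hz N) (hf : f ∈ N) {k : ℕ} (hk : 1 ≤ k) :
    ⟪v, (mz hz)^[k] f⟫_ℂ = 0 ∧ ⟪(mz hz)^[k] f, v⟫_ℂ = 0 := by
  obtain ⟨j, rfl⟩ : ∃ j, k = j + 1 := ⟨k - 1, by omega⟩
  have h2 : ⟪(mz hz)^[j + 1] f, v⟫_ℂ = 0 := by
    refine (Submodule.mem_orthogonal _ _).1 hv.2 _ ?_
    rw [Function.iterate_succ_apply']
    exact Submodule.mem_map_of_mem (mzk_mem hz hinv hf j)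
  exact ⟨inner_eq_zero_symm.1 h2, h2⟩

/-- inner products of elements of the wandering subspace are constant functions -/
theorem wan_const (hz : UZ μ z) {N : Submodule ℂ (Lp E 2 μ)} (hinv : ∀ f ∈ N, mz hz f ∈ N)
    {v w : Lp E 2 μ} (hv : v ∈ wan hz N) (hw : w ∈ wan hz N) :
    ∀ᵐ ω ∂μ, ⟪v ω, w ω⟫_ℂ = ⟪v, w⟫_ℂ := by
  have h := hz.tot (fun ω => ⟪v ω, w ω⟫_ℂ) (L2.integrable_inner v w)
    (fun k hk => by rw [← inner_mzk hz v w k]; exact (wan_inner hz hinv hv hw.1 hk).1)
    (fun k hk => by rw [← inner_mzk' hz v w k]; exact (wan_inner hz hinv hw hv.1 hk).2)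
  filter_upwards [h] with ω hω
  rw [hω, L2.inner_def]

variable [FiniteDimensional ℂ E] [IsProbabilityMeasure μ]

lemma wan_rank (hz : UZ μ z) {N : Submodule ℂ (Lp E 2 μ)} (hinv : ∀ f ∈ N, mz hz f ∈ N) :
    Module.rank ℂ (wan hz N) ≤ Module.finrank ℂ E := by
  refine rank_le fun s hs => ?_
  -- Gram matrices at a good point
  have hae : ∀ᵐ ω ∂μ, ∀ i j : s, ⟪((i : wan hz N) : Lp E 2 μ) ω, ((j : wan hz N) : Lp E 2 μ) ω⟫_ℂ
      = ⟪((i : wan hz N) : Lp E 2 μ), ((j : wan hz N) : Lp E 2 μ)⟫_ℂ := by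
    rw [ae_all_iff]; intro i
    rw [ae_all_iff]; intro j
    exact wan_const hz hinv (i : wan hz N).2 (j : wan hz N).2
  obtain ⟨ω, hω⟩ := hae.exists
  have hli : LinearIndependent ℂ (fun i : s => ((i : wan hz N) : Lp E 2 μ) ω) := by
    rw [Fintype.linearIndependent_iff]
    intro g hg
    have h1 : ‖∑ i : s, g i • ((i : wan hz N) : Lp E 2 μ)‖ ^ 2 = 0 := by
      have e1 : ⟪∑ i : s, g i • ((i : wan hz N) : Lp E 2 μ),
          ∑ i : s, g i • ((i : wan hz N) : Lp E 2 μ)⟫_ℂ
          = ⟪∑ i : s, g i • ((i : wan hz N) : Lp E 2 μ) ω,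
            ∑ i : s, g i • ((i : wan hz N) : Lp E 2 μ) ω⟫_ℂ := by
        simp only [sum_inner, inner_sum, inner_smul_left, inner_smul_right, hω]
      rw [hg, inner_zero_left, inner_self_eq_norm_sq_to_K] at e1
      have e2 : ((‖∑ i : s, g i • ((i : wan hz N) : Lp E 2 μ)‖ : ℝ) : ℂ) = 0 :=
        pow_eq_zero_iff (two_ne_zero) |>.1 e1
      rw [Complex.ofReal_eq_zero] at e2
      rw [e2]; norm_num
    have h2 : ∑ i : s, g i • ((i : wan hz N) : Lp E 2 μ) = 0 :=
      norm_eq_zero.1 (pow_eq_zero_iff (two_ne_zero) |>.1 h1)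
    have h3 : ∑ i : s, g i • (i : wan hz N) = 0 := by
      apply Subtype.ext
      simpa using h2
    exact (Fintype.linearIndependent_iff.1 hs) g h3
  have := hli.fintype_card_le_finrank
  simpa using this

/-- **Wold decomposition**, pointwise form. -/
theorem wold (hz : UZ μ z) (N : Submodule ℂ (Lp E 2 μ)) (hcl : IsClosed (N : Set (Lp E 2 μ)))
    (hinv : ∀ f ∈ N, mz hz f ∈ N)
    (hpure : ∀ f : Lp E 2 μ, (∀ k : ℕ, ∃ g ∈ N, f = (mz hz)^[k] g) → f = 0) :
    ∃ (m : ℕ) (V : Fin m → Lp E 2 μ), (∀ i, V i ∈ N) ∧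
      (∀ᵐ ω ∂μ, ∀ i j, ⟪V i ω, V j ω⟫_ℂ = if i = j then 1 else 0) ∧
      (∀ f ∈ N, ∀ i, ∀ k : ℕ, 1 ≤ k → ∫ ω, z ω ^ k * ⟪V i ω, f ω⟫_ℂ ∂μ = 0) ∧
      (∀ f ∈ N, ∀ᵐ ω ∂μ, f ω = ∑ i, ⟪V i ω, f ω⟫_ℂ • V i ω) := by
  set W := wan hz N with hW
  have hfin : FiniteDimensional ℂ W := by
    refine Module.rank_lt_aleph0_iff.1 ((wan_rank hz hinv).trans_lt ?_)
    exact Cardinal.natCast_lt_aleph0
  let e := stdOrthonormalBasis ℂ W
  let V : Fin (Module.finrank ℂ W) → Lp E 2 μ := fun i => (e i : Lp E 2 μ)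
  have hVW : ∀ i, V i ∈ W := fun i => (e i).2
  have hon : ∀ i j, ⟪V i, V j⟫_ℂ = if i = j then (1 : ℂ) else 0 := by
    intro i j
    have := orthonormal_iff_ite.1 e.orthonormal i j
    simpa using this
  have hpt : ∀ᵐ ω ∂μ, ∀ i j, ⟪V i ω, V j ω⟫_ℂ = if i = j then (1 : ℂ) else 0 := by
    rw [ae_all_iff]; intro i
    rw [ae_all_iff]; intro j
    rw [← hon i j]
    exact wan_const hz hinv (hVW i) (hVW j)
  refine ⟨_, V, fun i => (hVW i).1, hpt, ?_, ?_⟩
  · intro f hf i k hk
    rw [← inner_mzk]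
    exact (wan_inner hz hinv (hVW i) hf hk).1
  -- the closed subspace of elements with the expansion
  let P : Submodule ℂ (Lp E 2 μ) :=
    { carrier := {f | ∀ᵐ ω ∂μ, f ω = ∑ i, ⟪V i ω, f ω⟫_ℂ • V i ω}
      add_mem' := by
        intro a b ha hb
        filter_upwards [ha, hb, Lp.coeFn_add a b] with ω h1 h2 h3
        rw [h3, Pi.add_apply]
        simp only [inner_add_right, add_smul, Finset.sum_add_distrib]
        rw [← h1, ← h2]
      zero_mem' := by
        filter_upwards [Lp.coeFn_zero E 2 μ] with ω h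
        rw [h]; simp
      smul_mem' := by
        intro c a ha
        filter_upwards [ha, Lp.coeFn_smul c a] with ω h1 h2
        rw [h2, Pi.smul_apply]
        simp only [inner_smul_right, mul_smul, ← Finset.smul_sum]
        rw [← h1] }
  have hPcl : IsClosed (P : Set (Lp E 2 μ)) := by
    rw [← isSeqClosed_iff_isClosed]
    intro x f hx hf
    obtain ⟨ns, -, hns⟩ := (tendstoInMeasure_of_tendsto_Lp hf).exists_seq_tendsto_ae
    have hall : ∀ᵐ ω ∂μ, ∀ n, x n ω = ∑ i, ⟪V i ω, x n ω⟫_ℂ • V i ω := ae_all_iff.2 hx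
    change ∀ᵐ ω ∂μ, f ω = ∑ i, ⟪V i ω, f ω⟫_ℂ • V i ω
    filter_upwards [hns, hall] with ω h1 h2
    have h3 : Tendsto (fun n => ∑ i, ⟪V i ω, x (ns n) ω⟫_ℂ • V i ω) atTop
        (𝓝 (∑ i, ⟪V i ω, f ω⟫_ℂ • V i ω)) :=
      tendsto_finsetSum _ fun i _ => ((tendsto_const_nhds.inner h1).smul_const _)
    refine tendsto_nhds_unique h1 (h3.congr fun n => ?_)
    exact (h2 (ns n)).symm
  let K : Submodule ℂ (Lp E 2 μ) :=
    Submodule.span ℂ {f | ∃ w ∈ W, ∃ k : ℕ, f = (mz hz)^[k] w}
  have hKP : K ≤ P := by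
    rw [Submodule.span_le]
    rintro _ ⟨w, hw, k, rfl⟩
    have hw' : w = ∑ i, ⟪V i, w⟫_ℂ • V i := by
      have h1 := e.sum_repr' ⟨w, hw⟩
      have h2 := congrArg Subtype.val h1
      simp only [AddSubmonoidClass.coe_finsetSum, Submodule.coe_smul, Submodule.coe_inner] at h2
      exact h2.symm
    have hc : ∀ᵐ ω ∂μ, ∀ i, ⟪V i ω, w ω⟫_ℂ = ⟪V i, w⟫_ℂ := by
      rw [ae_all_iff]; intro i
      exact wan_const hz hinv (hVW i) hw
    have hwae : ∀ᵐ ω ∂μ, w ω = ∑ i, ⟪V i, w⟫_ℂ • V i ω := by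
      have h1 : (∑ i, ⟪V i, w⟫_ℂ • V i : Lp E 2 μ) =ᵐ[μ] fun ω => ∑ i, ⟪V i, w⟫_ℂ • V i ω := by
        have h2 := Lp.coeFn_finsetSum (E := E) (p := 2) (μ := μ) Finset.univ
          (fun i => ⟪V i, w⟫_ℂ • V i)
        have h3 : ∀ᵐ ω ∂μ, ∀ i, (⟪V i, w⟫_ℂ • V i : Lp E 2 μ) ω = ⟪V i, w⟫_ℂ • V i ω := by
          rw [ae_all_iff]; intro i
          exact Lp.coeFn_smul _ _
        filter_upwards [h2, h3] with ω h4 h5
        rw [h4, Finset.sum_apply]
        exact Finset.sum_congr rfl fun i _ => h5 i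
      rw [← hw'] at h1
      exact h1
    change ∀ᵐ ω ∂μ, ((mz hz)^[k] w) ω = ∑ i, ⟪V i ω, ((mz hz)^[k] w) ω⟫_ℂ • V i ω
    filter_upwards [coeFn_mzk hz w k, hc, hwae] with ω h1 h2 h3
    rw [h1]
    simp only [inner_smul_right, h2, mul_smul, ← Finset.smul_sum]
    rw [← h3]
  have hKN : K ≤ N := by
    rw [Submodule.span_le]
    rintro _ ⟨w, hw, k, rfl⟩
    exact mzk_mem hz hinv hw.1 k
  -- `N` is contained in the closure of `K`
  have hmapcl : IsClosed ((N.map (mz hz).toLinearMap : Submodule ℂ (Lp E 2 μ)) :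
      Set (Lp E 2 μ)) := by
    have : IsComplete (N : Set (Lp E 2 μ)) := hcl.isComplete
    have h2 : IsComplete ((mz hz) '' (N : Set (Lp E 2 μ))) :=
      (isComplete_image_iff (mz hz).isometry.isUniformInducing).2 this
    exact h2.isClosed
  have step : ∀ g ∈ N, g ∈ Kᗮ → ∃ g' ∈ N, g' ∈ Kᗮ ∧ g = mz hz g' := by
    intro g hgN hgK
    have : CompleteSpace (N.map (mz hz).toLinearMap) := hmapcl.completeSpace_coe
    obtain ⟨a, ha, b, hb, hab⟩ :=
      Submodule.exists_add_mem_mem_orthogonal (K := N.map (mz hz).toLinearMap) g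
    obtain ⟨g', hg', rfl⟩ := ha
    have hbN : b ∈ N := by
      have : b = g - mz hz g' := by rw [hab]; simp
      rw [this]; exact N.sub_mem hgN (hinv _ hg')
    have hbW : b ∈ W := ⟨hbN, hb⟩
    have h1 : ⟪b, g⟫_ℂ = 0 :=
      (Submodule.mem_orthogonal _ _).1 hgK _ (Submodule.subset_span ⟨b, hbW, 0, rfl⟩)
    have h2 : ⟪b, mz hz g'⟫_ℂ = 0 :=
      inner_eq_zero_symm.1 ((Submodule.mem_orthogonal _ _).1 hb _ (Submodule.mem_map_of_mem hg'))
    have h3 : ⟪b, b⟫_ℂ = 0 := by
      have : ⟪b, g⟫_ℂ = ⟪b, mz hz g'⟫_ℂ + ⟪b, b⟫_ℂ := by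
        conv_lhs => rw [hab]
        exact inner_add_right _ _ _
      rw [h1, h2, zero_add] at this
      exact this.symm
    have hb0 : b = 0 := inner_self_eq_zero.1 h3
    rw [hb0, add_zero] at hab
    refine ⟨g', hg', ?_, hab⟩
    rw [Submodule.mem_orthogonal]
    intro u hu
    -- it suffices to treat generators
    refine Submodule.span_induction (p := fun u _ => ⟪u, g'⟫_ℂ = 0) ?_ ?_ ?_ ?_ hu
    · rintro _ ⟨w, hw, k, rfl⟩
      rw [← (mz hz).inner_map_map, ← Function.iterate_succ_apply' (mz hz) k w]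
      have : ((mz hz).toLinearMap g') = g := hab.symm
      change ⟪_, (mz hz).toLinearMap g'⟫_ℂ = 0
      rw [this]
      exact (Submodule.mem_orthogonal _ _).1 hgK _ (Submodule.subset_span ⟨w, hw, k + 1, rfl⟩)
    · exact inner_zero_left _
    · intro x y _ _ hx hy
      rw [inner_add_left, hx, hy, add_zero]
    · intro c x _ hx
      rw [inner_smul_left, hx, mul_zero]
  have hzero : ∀ g ∈ N, g ∈ Kᗮ → g = 0 := by
    intro g hgN hgK
    refine hpure g fun k => ?_
    have : ∃ g' ∈ N, g' ∈ Kᗮ ∧ g = (mz hz)^[k] g' := by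
      induction k with
      | zero => exact ⟨g, hgN, hgK, rfl⟩
      | succ k ih =>
        obtain ⟨g', h1, h2, h3⟩ := ih
        obtain ⟨g'', h4, h5, h6⟩ := step g' h1 h2
        exact ⟨g'', h4, h5, by rw [h3, h6, ← Function.iterate_succ_apply]⟩
    obtain ⟨g', h1, -, h3⟩ := this
    exact ⟨g', h1, h3⟩
  intro f hf
  have hfK : f ∈ K.topologicalClosure := by
    have : CompleteSpace K.topologicalClosure :=
      K.isClosed_topologicalClosure.completeSpace_coe
    obtain ⟨a, ha, b, hb, hab⟩ :=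
      Submodule.exists_add_mem_mem_orthogonal (K := K.topologicalClosure) f
    have haN : a ∈ N := (Submodule.topologicalClosure_minimal _ hKN hcl) ha
    have hbN : b ∈ N := by
      have : b = f - a := by rw [hab]; simp
      rw [this]; exact N.sub_mem hf haN
    have hbK : b ∈ Kᗮ := by
      rw [← Submodule.orthogonal_closure K]; exact hb
    rw [hab, hzero b hbN hbK, add_zero]
    exact ha
  exact (Submodule.topologicalClosure_minimal _ hKP hPcl) hfK

end main

end Crest.Agent.R269.Wold290
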