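import Mathlib
import Crest.Agent.R269.Mod_402
import Crest.Agent.R269.Hardy2_142

/-!
# R269 (S0411), Line B, WOLD-INST: boundary function of a normalised disc (helper402)

`BD I H Hs` : `Hs` is the boundary function of the normalised disc `H`; `pmT w` = Poisson probability on the circle.
-/

set_option autoImplicit false

open MvPolynomial Crest.AlgGeometry.ProjEmb Crest.Agent.R269.Geo_328 Crest.Agent.R269.DefsS_731
open Crest.Agent.R269.Fib_402 Crest.Agent.R269.Hardy_142 Crest.Agent.R269.Mod_402
open MeasureTheory Filter Metric Set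
open scoped ContDiff Topology ComplexConjugate ENNReal

namespace Crest.Agent.R269.Bd_402

noncomputable section

variable {N n : ℕ} {I : Ideal (HomCoordRing N)}

/-- Hilbert space version of the ambient space -/
abbrev EH (N : ℕ) : Type := EuclideanSpace ℂ (Fin (N + 1))

/-- the map to the Hilbert space -/
def toH (p : EE N) : EH N := WithLp.toLp 2 p

@[simp] theorem toH_apply (p : EE N) (i : Fin (N + 1)) : toH p i = p i := rfl

theorem norm_sq_toH (p : EE N) : ‖toH p‖ ^ 2 = nsq p := by
  rw [EuclideanSpace.norm_sq_eq]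
  rfl

/-! ### Poisson probability on the circle -/

/-- Poisson probability -/
def pmT (w : ℂ) : Measure TT := (mu : Measure TT).withDensity (fun t => ENNReal.ofReal (pk w t))

theorem pmT_ac (w : ℂ) : pmT w ≪ (mu : Measure TT) := withDensity_absolutelyContinuous _ _

theorem ae_pmT {p : TT → Prop} (w : ℂ) (h : ∀ᵐ t ∂mu, p t) : ∀ᵐ t ∂(pmT w), p t :=
  (pmT_ac w).ae_le h

theorem integral_pmT {E : Type*} [NormedAddCommGroup E] [NormedSpace ℝ E] {w : ℂ} (hw : ‖w‖ < 1)
    (g : TT → E) : ∫ t, g t ∂(pmT w) = ∫ t, pk w t • g t ∂mu := by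
  rw [pmT, integral_withDensity_eq_integral_toReal_smul₀]
  · congr 1
    funext t
    rw [ENNReal.toReal_ofReal (pk_pos hw t).le]
  · exact (continuous_pk hw).measurable.ennreal_ofReal.aemeasurable
  · exact Eventually.of_forall fun _ => ENNReal.ofReal_lt_top

theorem integrable_pmT {E : Type*} [NormedAddCommGroup E] [NormedSpace ℝ E] {w : ℂ} (hw : ‖w‖ < 1)
    {g : TT → E} (hg : Integrable g mu) : Integrable g (pmT w) := by
  rw [pmT, integrable_withDensity_iff_integrable_smul₀']
  · have : (fun t => (ENNReal.ofReal (pk w t)).toReal • g t) = fun t => pk w t • g t := by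
      funext t
      rw [ENNReal.toReal_ofReal (pk_pos hw t).le]
    rw [this]
    exact pk_smul_integrable hg hw
  · exact (continuous_pk hw).measurable.ennreal_ofReal.aemeasurable
  · exact Eventually.of_forall fun _ => ENNReal.ofReal_lt_top

theorem isProb_pmT {w : ℂ} (hw : ‖w‖ < 1) : IsProbabilityMeasure (pmT w) := by
  have h1 : ∫ t, (1:ℝ) ∂(pmT w) = 1 := by
    rw [integral_pmT hw]
    simpa using integral_pk hw
  have h2 : Integrable (fun _ : TT => (1:ℝ)) (pmT w) := integrable_pmT hw (integrable_const _)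
  have h3 : IsFiniteMeasure (pmT w) := by
    rw [integrable_const_iff] at h2
    simpa using h2
  constructor
  rw [integral_const] at h1
  have h4 : (pmT w).real univ = 1 := by simpa using h1
  rw [measureReal_def] at h4
  have h5 : (pmT w) univ ≠ ⊤ := measure_ne_top _ _
  rw [← ENNReal.ofReal_toReal h5, h4, ENNReal.ofReal_one]

theorem integrable_of_continuous {E : Type*} [NormedAddCommGroup E] {f : TT → E}
    (hf : Continuous f) : Integrable f mu := by
  obtain ⟨C, hC⟩ := isCompact_univ.exists_bound_of_continuousOn hf.continuousOn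
  exact Integrable.of_bound hf.aestronglyMeasurable C (Eventually.of_forall fun t => hC t (mem_univ t))

/-! ### boundary function -/

/-- `Hs` is the boundary function of the normalised disc `H` -/
structure BD (I : Ideal (HomCoordRing N)) (H : ℂ → EE N) (Hs : TT → EE N) : Prop where
  meas : Measurable Hs
  h2 : IsH2 (fun t => toH (Hs t))
  ext_eq : ∀ w : ℂ, ‖w‖ < 1 → Hardy_142.ext (fun t => toH (Hs t)) w = toH (H w)
  nsq_eq : ∀ᵐ t ∂mu, nsq (Hs t) = 1
  cone : ∀ᵐ t ∂mu, Hs t ∈ Cone I

theorem isClosed_affineCone : IsClosed (affineCone I : Set (EE N)) := by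
  have : (affineCone I : Set (EE N)) = ⋂ F : I, {p | MvPolynomial.eval p (F : HomCoordRing N) = 0} := by
    ext p
    simp only [mem_iInter, mem_ofPred_eq]
    constructor
    · intro h F
      exact h F.1 F.2
    · intro h F hF
      exact h ⟨F, hF⟩
  rw [this]
  exact isClosed_iInter fun F => isClosed_eq (MvPolynomial.continuous_eval _) continuous_const

theorem exists_BD {H : ℂ → EE N} (hH : IsDisc I H) (hN : Normal H) : ∃ Hs, BD I H Hs := by
  have hd : DifferentiableOn ℂ (fun z => toH (H z)) (ball 0 1) := by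
    have := (EuclideanSpace.equiv (Fin (N + 1)) ℂ).symm.toContinuousLinearMap.differentiable
      |>.comp_differentiableOn hH.hol
    exact this
  have hb : ∀ w : ℂ, ‖w‖ < 1 → ‖toH (H w)‖ ≤ 1 := by
    intro w hw
    have h1 := hN.le_one w (mem_ball_zero_iff.mpr hw)
    rw [← norm_sq_toH] at h1
    nlinarith [norm_nonneg (toH (H w))]
  obtain ⟨Q0, hQ0, hQe0, hQb0⟩ := exists_boundary_of_bounded hd hb
  -- measurable representative
  obtain ⟨Q, hQm, hQQ⟩ := hQ0.memLp.aestronglyMeasurable
  have hQ : IsH2 Q := hQ0.congr hQQ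
  have hQe : ∀ w : ℂ, ‖w‖ < 1 → Hardy_142.ext Q w = toH (H w) := by
    intro w hw
    rw [← ext_congr hQQ]
    exact hQe0 w hw
  have hQb : ∀ᵐ t ∂mu, ‖Q t‖ ≤ 1 := by
    filter_upwards [hQb0, hQQ] with t h1 h2
    rw [← h2]; exact h1
  set Hs : TT → EE N := fun t => WithLp.ofLp (Q t) with hHs
  have htoH : ∀ t, toH (Hs t) = Q t := fun t => rfl
  have hQfun : (fun t => toH (Hs t)) = Q := funext htoH
  -- norm one
  have hn1 : ∀ᵐ t ∂mu, ‖Q t‖ ^ 2 = 1 := by
    have hi : Integrable (fun t => ‖Q t‖ ^ 2) mu := norm_sq_integrable hQ.memLp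
    have hge : 1 ≤ ∫ t, ‖Q t‖ ^ 2 ∂mu := by
      have h1 : ∀ᶠ r : ℝ in 𝓝[<] 1, 1 + Real.circleAverage (fun z => Real.log (nsq (H z))) 0 r
          ≤ ∫ t, ‖Q t‖ ^ 2 ∂mu := by
        have : ∀ᶠ r : ℝ in 𝓝[<] 1, r ∈ Ioo (0 : ℝ) 1 := Ioo_mem_nhdsLT one_pos
        filter_upwards [this] with r hr
        have h2 := hQ.integral_slice_le hr.1.le hr.2
        refine le_trans ?_ h2
        have hlt : ∀ t : TT, ‖(r : ℂ) * zt t‖ < 1 := by
          intro t
          rw [norm_mul, norm_zt, mul_one, Complex.norm_real, Real.norm_eq_abs,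
            abs_of_nonneg hr.1.le]
          exact hr.2
        have h3 : ∀ t : TT, ‖Hardy_142.ext Q (r * zt t)‖ ^ 2 = nsq (H (r * zt t)) := by
          intro t
          rw [hQe _ (hlt t), norm_sq_toH]
        simp only [h3]
        have hcont : Continuous (fun t : TT => nsq (H (r * zt t))) := by
          have hc := continuous_slice hd hr.1.le hr.2
          have : (fun t : TT => nsq (H (r * zt t))) = fun t => ‖toH (H (r * zt t))‖ ^ 2 := by
            funext t
            rw [norm_sq_toH]
          rw [this]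
          exact hc.norm.pow 2
        have hpos : ∀ t : TT, 0 < nsq (H (r * zt t)) := fun t =>
          nsq_pos (hH.cone _ (mem_ball_zero_iff.mpr (hlt t))).2
        have hclog : Continuous (fun t : TT => Real.log (nsq (H (r * zt t)))) :=
          hcont.log fun t => (hpos t).ne'
        have hi1 : Integrable (fun t : TT => Real.log (nsq (H (r * zt t)))) mu :=
          integrable_of_continuous hclog
        have hi2 : Integrable (fun t : TT => nsq (H (r * zt t))) mu :=
          integrable_of_continuous hcont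
        rw [Hardy_142.circleAverage_eq]
        have h4 : (1 : ℝ) + ∫ t : TT, Real.log (nsq (H (r * zt t))) ∂mu
            = ∫ t : TT, (1 + Real.log (nsq (H (r * zt t)))) ∂mu := by
          rw [integral_add (integrable_const _) hi1]
          simp
        rw [h4]
        refine integral_mono ((integrable_const _).add hi1) hi2 fun t => ?_
        have := Real.log_le_sub_one_of_pos (hpos t)
        simp only
        linarith
      have h2 : Tendsto (fun r => 1 + Real.circleAverage (fun z => Real.log (nsq (H z))) 0 r)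
          (𝓝[<] 1) (𝓝 (1 + 0)) := tendsto_const_nhds.add hN.avg
      have h3 := le_of_tendsto h2 h1
      simpa using h3
    have hle : ∀ᵐ t ∂mu, 0 ≤ 1 - ‖Q t‖ ^ 2 := by
      filter_upwards [hQb] with t ht
      nlinarith [norm_nonneg (Q t)]
    have h0 : ∫ t, (1 - ‖Q t‖ ^ 2) ∂mu = 0 := by
      apply le_antisymm
      · rw [integral_sub (integrable_const _) hi]
        simpa using hge
      · exact integral_nonneg_of_ae hle
    rw [integral_eq_zero_iff_of_nonneg_ae hle ((integrable_const _).sub hi)] at h0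
    filter_upwards [h0] with t ht
    simp only [Pi.zero_apply] at ht
    linarith
  refine ⟨Hs, ?_, ?_, ?_, ?_, ?_⟩
  · have h1 : Measurable Q := hQm.measurable
    exact (EuclideanSpace.equiv (Fin (N + 1)) ℂ).continuous.measurable.comp h1
  · rw [hQfun]; exact hQ
  · rw [hQfun]; exact hQe
  · filter_upwards [hn1] with t ht
    rw [← norm_sq_toH, htoH]
    exact ht
  · obtain ⟨s, hs, hs1, hs2⟩ := IsH2.common_seq (ι := Unit) (E := fun _ => EH N) (fun _ => Q)
      (fun _ => hQ)
    filter_upwards [hs2 (), hn1] with t ht h1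
    have hlt : ∀ j, ‖((s j : ℝ) : ℂ) * zt t‖ < 1 := by
      intro j
      rw [norm_mul, norm_zt, mul_one, Complex.norm_real, Real.norm_eq_abs,
        abs_of_nonneg (hs j).1.le]
      exact (hs j).2
    have h2 : Tendsto (fun j => H (s j * zt t)) atTop (𝓝 (Hs t)) := by
      have h3 : Tendsto (fun j => WithLp.ofLp (Hardy_142.ext Q (s j * zt t))) atTop
          (𝓝 (WithLp.ofLp (Q t))) :=
        ((EuclideanSpace.equiv (Fin (N + 1)) ℂ).continuous.tendsto (Q t)).comp ht
      refine h3.congr fun j => ?_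
      rw [hQe _ (hlt j)]
      rfl
    refine ⟨isClosed_affineCone.mem_of_tendsto h2 (Eventually.of_forall fun j =>
      (hH.cone _ (mem_ball_zero_iff.mpr (hlt j))).1), ?_⟩
    intro h0
    have h4 : nsq (Hs t) = 1 := by
      rw [← norm_sq_toH, htoH]
      exact h1
    rw [h0] at h4
    simp [nsq] at h4

variable {H : ℂ → EE N} {Hs : TT → EE N}

theorem BD.integrable (h : BD I H Hs) : Integrable Hs mu := by
  have h1 := h.h2.integrable
  exact (EuclideanSpace.equiv (Fin (N + 1)) ℂ).toContinuousLinearMap.integrable_comp h1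

theorem BD.integral_pmT_eq (h : BD I H Hs) {w : ℂ} (hw : ‖w‖ < 1) :
    ∫ t, Hs t ∂(pmT w) = H w := by
  have h1 := h.h2.ext_eq_poisson hw
  rw [h.ext_eq w hw, ← integral_pmT hw] at h1
  have h2 : Integrable (fun t => toH (Hs t)) (pmT w) := integrable_pmT hw h.h2.integrable
  have h3 := (EuclideanSpace.equiv (Fin (N + 1)) ℂ).toContinuousLinearMap.integral_comp_comm h2
  rw [← h1] at h3
  exact h3

/-- boundary values of the module lie in the fibres -/
theorem BD.mem_Fib (hX : IsSmoothProjective I n) (hH : IsDisc I H) (h : BD I H Hs) {Y : Flds I}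
    {f : Lp (FF N) 2 mu} (hf : f ∈ MM Y H) : ∀ᵐ t ∂mu, f t ∈ Fib I (Hs t) := by
  have hf2 : IsH2 (f : TT → FF N) := mem_HH.mp (MM_le_HH Y H hf)
  obtain ⟨s, hs, hs1, hs2⟩ := common_seq3 h.h2 hf2 hf2
  filter_upwards [hs2, h.cone] with t ht hc
  have hlt : ∀ j, ‖((s j : ℝ) : ℂ) * zt t‖ < 1 := by
    intro j
    rw [norm_mul, norm_zt, mul_one, Complex.norm_real, Real.norm_eq_abs,
      abs_of_nonneg (hs j).1.le]
    exact (hs j).2
  have h2 : Tendsto (fun j => H (s j * zt t)) atTop (𝓝 (Hs t)) := by
    have h3 : Tendsto (fun j => WithLp.ofLp (Hardy_142.ext (fun t => toH (Hs t)) (s j * zt t)))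
        atTop (𝓝 (WithLp.ofLp (toH (Hs t)))) :=
      ((EuclideanSpace.equiv (Fin (N + 1)) ℂ).continuous.tendsto (toH (Hs t))).comp ht.1
    refine h3.congr fun j => ?_
    rw [h.ext_eq _ (hlt j)]
    rfl
  exact mem_Fib_of_tendsto hX (p := fun j => H (s j * zt t))
    (v := fun j => Hardy_142.ext (f : TT → FF N) (s j * zt t))
    (Eventually.of_forall fun j => hH.cone _ (mem_ball_zero_iff.mpr (hlt j)))
    (Eventually.of_forall fun j => ext_mem_Fib hH hf (hlt j)) hc h2 ht.2.1

end

end Crest.Agent.R269.Bd_402
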