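import Mathlib

/-!
# Row 269 (S0411), leaf L4: Bezout on the closed disc (helper19)

`m₁,…,m_k` holomorphic on the open unit disc, continuous on the closed disc, without common zero on the
closed disc. Then there are POLYNOMIALS `p_j` with `|∑ p_j m_j - 1| ≤ ε` on the closed disc
(Gelfand theory of the disc algebra; no `∂̄`). Hence `c_j := p_j / ∑ p_i m_i` solves Bezout with the
same boundary regularity as the `m_j`.
-/

set_option autoImplicit false
open scoped ContDiff Topology NNReal ENNReal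
open Metric Set

namespace Crest.Agent.R269.Bez_19

/-- A function continuous on the closed disc and holomorphic inside is a uniform limit of polynomials. -/
theorem exists_poly_near {f : ℂ → ℂ} (hc : ContinuousOn f (closedBall 0 1))
    (hd : DifferentiableOn ℂ f (ball 0 1)) {ε : ℝ} (hε : 0 < ε) :
    ∃ p : Polynomial ℂ, ∀ z ∈ closedBall (0 : ℂ) 1, ‖f z - p.eval z‖ ≤ ε := by
  have huc : UniformContinuousOn f (closedBall 0 1) :=
    (isCompact_closedBall (0 : ℂ) 1).uniformContinuousOn_of_continuous hc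
  rw [Metric.uniformContinuousOn_iff] at huc
  obtain ⟨δ, hδ, hf⟩ := huc (ε / 2) (by positivity)
  -- the dilation
  obtain ⟨r, hr0, hr1, hrδ⟩ : ∃ r : ℝ, 0 < r ∧ r < 1 ∧ 1 - r < δ := by
    refine ⟨1 - min (δ / 2) (1 / 2), ?_, ?_, ?_⟩
    · have := min_le_right (δ / 2) (1 / 2 : ℝ); linarith
    · have : 0 < min (δ / 2) (1 / 2 : ℝ) := by positivity
      linarith
    · have := min_le_left (δ / 2) (1 / 2 : ℝ); linarith
  set g : ℂ → ℂ := fun z => f ((r : ℂ) * z) with hg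
  have hfg : ∀ z ∈ closedBall (0 : ℂ) 1, ‖f z - g z‖ ≤ ε / 2 := by
    intro z hz
    have hz' : ‖z‖ ≤ 1 := by simpa using hz
    have h1 : (r : ℂ) * z ∈ closedBall (0 : ℂ) 1 := by
      simp only [mem_closedBall, dist_zero_right, norm_mul, Complex.norm_real, Real.norm_eq_abs,
        abs_of_pos hr0]
      nlinarith [norm_nonneg z]
    have h2 : dist z ((r : ℂ) * z) < δ := by
      rw [dist_eq_norm]
      have : z - (r : ℂ) * z = ((1 - r : ℝ) : ℂ) * z := by push_cast; ring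
      rw [this, norm_mul, Complex.norm_real, Real.norm_eq_abs, abs_of_pos (by linarith)]
      nlinarith [norm_nonneg z]
    have := hf z hz _ h1 h2
    rw [dist_eq_norm] at this
    exact this.le
  -- power series of `g`
  obtain ⟨R, hR1, hRr⟩ : ∃ R : ℝ≥0, 1 < (R : ℝ) ∧ r * (R : ℝ) < 1 := by
    refine ⟨Real.toNNReal ((1 + 1 / r) / 2), ?_, ?_⟩
    · have : 1 < 1 / r := by rw [lt_div_iff₀ hr0]; linarith
      rw [Real.coe_toNNReal _ (by positivity)]; linarith
    · rw [Real.coe_toNNReal _ (by positivity)]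
      field_simp
      linarith
  have hgd : DifferentiableOn ℂ g (closedBall 0 R) := by
    refine DifferentiableOn.comp (t := ball 0 1) hd (by fun_prop) ?_
    intro z hz
    have hz' : ‖z‖ ≤ R := by simpa using hz
    simp only [mem_ball, dist_zero_right, norm_mul, Complex.norm_real, Real.norm_eq_abs,
      abs_of_pos hr0]
    nlinarith [norm_nonneg z]
  have hps := hgd.hasFPowerSeriesOnBall (R := R) (by
    have : (0 : ℝ) < R := by linarith
    exact_mod_cast this)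
  obtain ⟨r', hr'1, hr'R⟩ : ∃ r' : ℝ≥0, 1 < (r' : ℝ) ∧ (r' : ℝ) < R := by
    refine ⟨Real.toNNReal ((1 + (R : ℝ)) / 2), ?_, ?_⟩ <;>
      rw [Real.coe_toNNReal _ (by positivity)] <;> linarith
  have htu := hps.tendstoUniformlyOn (r' := r') (by exact_mod_cast hr'R)
  rw [Metric.tendstoUniformlyOn_iff] at htu
  obtain ⟨n, hn⟩ := (htu (ε / 2) (by positivity)).exists
  refine ⟨∑ k ∈ Finset.range n, Polynomial.C ((cauchyPowerSeries g 0 R).coeff k) *
    Polynomial.X ^ k, fun z hz => ?_⟩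
  have hz' : ‖z‖ ≤ 1 := by simpa using hz
  have h1 := hn z (by simp only [mem_ball, dist_zero_right]; linarith)
  have h2 : (∑ k ∈ Finset.range n, Polynomial.C ((cauchyPowerSeries g 0 R).coeff k) *
      Polynomial.X ^ k).eval z = (cauchyPowerSeries g 0 R).partialSum n z := by
    simp only [Polynomial.eval_finsetSum, Polynomial.eval_mul, Polynomial.eval_C,
      Polynomial.eval_pow, Polynomial.eval_X, FormalMultilinearSeries.partialSum,
      FormalMultilinearSeries.apply_eq_pow_smul_coeff, smul_eq_mul]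
    exact Finset.sum_congr rfl fun k _ => mul_comm _ _
  rw [h2]
  rw [dist_eq_norm, zero_add] at h1
  calc ‖f z - (cauchyPowerSeries g 0 R).partialSum n z‖
      = ‖(f z - g z) + (g z - (cauchyPowerSeries g 0 R).partialSum n z)‖ := by ring_nf
    _ ≤ ‖f z - g z‖ + ‖g z - (cauchyPowerSeries g 0 R).partialSum n z‖ := norm_add_le _ _
    _ ≤ ε / 2 + ε / 2 := add_le_add (hfg z hz) h1.le
    _ = ε := by ring

/-- Abstract Gelfand step. -/
theorem span_eq_top {A : Type*} [NormedCommRing A] [NormedAlgebra ℂ A] [CompleteSpace A]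
    [NormOneClass A] {ι : Type*} (X : A) (hX : ‖X‖ ≤ 1) (M : ι → A) (m : ι → ℂ → ℂ)
    (happ : ∀ j, ∀ δ : ℝ, 0 < δ → ∃ p : Polynomial ℂ, ‖M j - Polynomial.aeval X p‖ ≤ δ ∧
      ∀ z ∈ closedBall (0 : ℂ) 1, ‖m j z - p.eval z‖ ≤ δ)
    (hz : ∀ z ∈ closedBall (0 : ℂ) 1, ∃ j, m j z ≠ 0) : Ideal.span (Set.range M) = ⊤ := by
  by_contra hne
  obtain ⟨N, hN, hle⟩ := Ideal.exists_le_maximal _ hne
  set φ := N.toCharacterSpace with hφ
  have hφ0 : ∀ j, φ (M j) = 0 := fun j =>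
    Ideal.toCharacterSpace_apply_eq_zero_of_mem N (hle (Ideal.subset_span ⟨j, rfl⟩))
  have hφn : ∀ a : A, ‖φ a‖ ≤ ‖a‖ := fun a => AlgHom.norm_apply_le_self φ a
  have hlam1 : φ X ∈ closedBall (0 : ℂ) 1 := by
    simpa using (hφn X).trans hX
  obtain ⟨j, hj⟩ := hz (φ X) hlam1
  apply hj
  have key : ∀ δ : ℝ, 0 < δ → ‖m j (φ X)‖ ≤ 2 * δ := by
    intro δ hδ
    obtain ⟨p, hp, hp'⟩ := happ j δ hδ
    have h1 : φ (Polynomial.aeval X p) = p.eval (φ X) := by
      rw [← Polynomial.aeval_algHom_apply, Polynomial.coe_aeval_eq_eval]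
    have h2 : ‖p.eval (φ X)‖ ≤ δ := by
      rw [← h1, ← norm_neg, show -φ (Polynomial.aeval X p) = φ (M j - Polynomial.aeval X p) by
        rw [map_sub, hφ0, zero_sub]]
      exact (hφn _).trans hp
    calc ‖m j (φ X)‖ = ‖(m j (φ X) - p.eval (φ X)) + p.eval (φ X)‖ := by ring_nf
      _ ≤ ‖m j (φ X) - p.eval (φ X)‖ + ‖p.eval (φ X)‖ := norm_add_le _ _
      _ ≤ 2 * δ := by linarith [hp' _ hlam1]
  by_contra h0
  have hpos : 0 < ‖m j (φ X)‖ := norm_pos_iff.mpr h0
  have := key (‖m j (φ X)‖ / 4) (by positivity)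
  linarith

/-- Abstract Bezout with coefficients in a dense subalgebra of "polynomials". -/
theorem exists_coeff {A : Type*} [NormedCommRing A] [NormedAlgebra ℂ A] [CompleteSpace A]
    [NormOneClass A] {ι : Type*} [Fintype ι] (X : A) (M : ι → A)
    (hdense : ∀ a : A, ∀ δ : ℝ, 0 < δ → ∃ p : Polynomial ℂ, ‖a - Polynomial.aeval X p‖ ≤ δ)
    (hspan : Ideal.span (Set.range M) = ⊤) {ε : ℝ} (hε : 0 < ε) :
    ∃ p : ι → Polynomial ℂ, ‖(∑ j, Polynomial.aeval X (p j) * M j) - 1‖ ≤ ε := by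
  have h1 : (1 : A) ∈ Ideal.span (Set.range M) := by rw [hspan]; trivial
  rw [Ideal.mem_span_range_iff_exists_fun] at h1
  obtain ⟨c, hc⟩ := h1
  set S : ℝ := 1 + ∑ j, ‖M j‖ with hS
  have hS0 : 0 < S := by
    have : 0 ≤ ∑ j, ‖M j‖ := Finset.sum_nonneg fun _ _ => norm_nonneg _
    linarith
  choose p hp using fun j => hdense (c j) (ε / S) (by positivity)
  refine ⟨p, ?_⟩
  rw [← hc, ← Finset.sum_sub_distrib]
  calc ‖∑ j, (Polynomial.aeval X (p j) * M j - c j * M j)‖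
      ≤ ∑ j, ‖Polynomial.aeval X (p j) * M j - c j * M j‖ := norm_sum_le _ _
    _ ≤ ∑ j, (ε / S) * ‖M j‖ := by
        refine Finset.sum_le_sum fun j _ => ?_
        rw [← sub_mul]
        refine (norm_mul_le _ _).trans ?_
        refine mul_le_mul_of_nonneg_right ?_ (norm_nonneg _)
        rw [← norm_neg, neg_sub]
        exact hp j
    _ = (ε / S) * ∑ j, ‖M j‖ := by rw [Finset.mul_sum]
    _ ≤ ε := by
        rw [div_mul_eq_mul_div, div_le_iff₀ hS0]
        refine mul_le_mul_of_nonneg_left ?_ hε.le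
        linarith

/-- the closed unit disc -/
abbrev Dc : Set ℂ := closedBall (0 : ℂ) 1

instance : CompactSpace Dc := isCompact_iff_compactSpace.mp (isCompact_closedBall (0 : ℂ) 1)

instance : Nonempty Dc := ⟨⟨0, by simp⟩⟩

/-- restriction of a function continuous on the closed disc -/
noncomputable def res (f : ℂ → ℂ) (hc : ContinuousOn f (closedBall 0 1)) : C(Dc, ℂ) :=
  ⟨fun z : Dc => f z, by exact continuousOn_iff_continuous_domRestrict.mp hc⟩

theorem res_apply (f : ℂ → ℂ) (hc : ContinuousOn f (closedBall 0 1)) (z : Dc) :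
    res f hc z = f z := rfl

theorem norm_sub_poly {f : ℂ → ℂ} (hc : ContinuousOn f (closedBall 0 1)) {ε : ℝ} (hε : 0 ≤ ε)
    (p : Polynomial ℂ) (hp : ∀ z ∈ closedBall (0 : ℂ) 1, ‖f z - p.eval z‖ ≤ ε) :
    ‖res f hc - p.toContinuousMapOn Dc‖ ≤ ε := by
  refine (ContinuousMap.norm_le _ hε).mpr fun z => ?_
  have h := hp z z.2
  rw [ContinuousMap.sub_apply, res_apply, Polynomial.toContinuousMapOn_apply]
  exact h

theorem mem_DA {f : ℂ → ℂ} (hc : ContinuousOn f (closedBall 0 1))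
    (hd : DifferentiableOn ℂ f (ball 0 1)) :
    res f hc ∈ (polynomialFunctions Dc).topologicalClosure := by
  rw [← SetLike.mem_coe, Subalgebra.topologicalClosure_coe, Metric.mem_closure_iff]
  intro ε hε
  obtain ⟨p, hp⟩ := exists_poly_near hc hd (half_pos hε)
  refine ⟨p.toContinuousMapOn Dc, ?_, ?_⟩
  · rw [SetLike.mem_coe]
    exact ⟨p, trivial, rfl⟩
  · rw [dist_eq_norm]
    exact lt_of_le_of_lt (norm_sub_poly hc (half_pos hε).le p hp) (half_lt_self hε)

/-- The disc algebra: closure of the polynomials in `C(closedDisc)`. -/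
noncomputable def DA : Subalgebra ℂ C(Dc, ℂ) := (polynomialFunctions Dc).topologicalClosure

theorem isClosed_DA : IsClosed (DA : Set C(Dc, ℂ)) :=
  Subalgebra.isClosed_topologicalClosure _

instance : CompleteSpace DA := isClosed_DA.completeSpace_coe

instance : NormOneClass DA := ⟨by
  change ‖((1 : DA) : C(Dc, ℂ))‖ = 1
  rw [OneMemClass.coe_one]
  exact norm_one⟩

/-- the coordinate function -/
noncomputable def XD : DA := ⟨(Polynomial.X : Polynomial ℂ).toContinuousMapOn Dc,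
  Subalgebra.le_topologicalClosure _ ⟨Polynomial.X, trivial, rfl⟩⟩

theorem coe_aeval (p : Polynomial ℂ) :
    ((Polynomial.aeval XD p : DA) : C(Dc, ℂ)) = p.toContinuousMapOn Dc := by
  have h := (Polynomial.aeval_algHom_apply DA.val XD p).symm
  rw [show DA.val (Polynomial.aeval XD p) = ((Polynomial.aeval XD p : DA) : C(Dc, ℂ)) from rfl] at h
  rw [h]
  ext z
  rw [Polynomial.toContinuousMapOn_apply, Polynomial.aeval_continuousMap_apply]
  have : (DA.val XD) z = (z : ℂ) := by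
    change ((Polynomial.X : Polynomial ℂ).toContinuousMapOn Dc) z = z
    simp
  rw [this]
  simp

theorem norm_XD : ‖XD‖ ≤ 1 := by
  change ‖(XD : C(Dc, ℂ))‖ ≤ 1
  refine (ContinuousMap.norm_le _ zero_le_one).mpr fun z => ?_
  have hz' := z.2
  simp only [mem_closedBall, dist_zero_right] at hz'
  have : (XD : C(Dc, ℂ)) z = (z : ℂ) := by
    change ((Polynomial.X : Polynomial ℂ).toContinuousMapOn Dc) z = z
    simp
  rw [this]
  exact hz'

/-- **Bezout in the disc algebra, polynomial form.** -/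
theorem bezout_poly {ι : Type*} [Fintype ι] (m : ι → ℂ → ℂ)
    (hc : ∀ j, ContinuousOn (m j) (closedBall 0 1)) (hd : ∀ j, DifferentiableOn ℂ (m j) (ball 0 1))
    (hz : ∀ z ∈ closedBall (0 : ℂ) 1, ∃ j, m j z ≠ 0) {ε : ℝ} (hε : 0 < ε) :
    ∃ p : ι → Polynomial ℂ, ∀ z ∈ closedBall (0 : ℂ) 1, ‖(∑ j, (p j).eval z * m j z) - 1‖ ≤ ε := by
  set M : ι → DA := fun j => ⟨res (m j) (hc j), mem_DA (hc j) (hd j)⟩ with hM
  have htop : Ideal.span (Set.range M) = ⊤ := by
    refine span_eq_top XD norm_XD M m (fun j δ hδ => ?_) hz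
    obtain ⟨p, hp⟩ := exists_poly_near (hc j) (hd j) hδ
    refine ⟨p, ?_, hp⟩
    change ‖((M j - Polynomial.aeval XD p : DA) : C(Dc, ℂ))‖ ≤ δ
    rw [AddSubgroupClass.coe_sub, coe_aeval]
    exact norm_sub_poly (hc j) hδ.le p hp
  obtain ⟨p, hp⟩ := exists_coeff XD M (fun a δ hδ => by
    have ha : (a : C(Dc, ℂ)) ∈ (polynomialFunctions Dc).topologicalClosure := a.2
    rw [← SetLike.mem_coe, Subalgebra.topologicalClosure_coe, Metric.mem_closure_iff] at ha
    obtain ⟨b, ⟨q, -, rfl⟩, hb⟩ := ha δ hδ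
    refine ⟨q, ?_⟩
    change ‖((a - Polynomial.aeval XD q : DA) : C(Dc, ℂ))‖ ≤ δ
    rw [AddSubgroupClass.coe_sub, coe_aeval, ← dist_eq_norm]
    exact hb.le) htop hε
  refine ⟨p, fun z hz' => ?_⟩
  have h1 : ‖(((∑ j, Polynomial.aeval XD (p j) * M j) - 1 : DA) : C(Dc, ℂ))‖ ≤ ε := hp
  have h2 := (ContinuousMap.norm_le _ hε.le).mp h1 ⟨z, hz'⟩
  have h3 : (((∑ j, Polynomial.aeval XD (p j) * M j) - 1 : DA) : C(Dc, ℂ)) ⟨z, hz'⟩ =
      (∑ j, (p j).eval z * m j z) - 1 := by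
    rw [AddSubgroupClass.coe_sub, AddSubmonoidClass.coe_finsetSum, OneMemClass.coe_one,
      ContinuousMap.sub_apply, ContinuousMap.coe_sum, Finset.sum_apply, ContinuousMap.one_apply]
    congr 1
    refine Finset.sum_congr rfl fun j _ => ?_
    rw [MulMemClass.coe_mul, ContinuousMap.mul_apply, coe_aeval, Polynomial.toContinuousMapOn_apply]
    rfl
  rw [h3] at h2
  exact h2

/-! ### Exact Bezout in an abstract Banach algebra of functions on the closed disc -/

open WeakDual in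
/-- polynomial growth of the powers of `X` bounds all characters at `X` by one -/
theorem norm_character_le_one {A : Type*} [NormedCommRing A] [NormedAlgebra ℂ A] [CompleteSpace A]
    (X : A) {C : ℝ} {s : ℕ} (hX : ∀ k : ℕ, ‖X ^ k‖ ≤ C * ((k : ℝ) + 1) ^ s)
    (φ : characterSpace ℂ A) : ‖φ X‖ ≤ 1 := by
  by_contra hlt
  push Not at hlt
  -- `‖φ X‖ ^ k ≤ C' (k+1)^s`
  have h1 : ∀ k : ℕ, ‖φ X‖ ^ k ≤ (C * ‖(1 : A)‖) * ((k : ℝ) + 1) ^ s := by
    intro k
    rw [← norm_pow, ← map_pow]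
    calc ‖φ (X ^ k)‖ ≤ ‖X ^ k‖ * ‖(1 : A)‖ := AlgHom.norm_apply_le_self_mul_norm_one φ _
      _ ≤ (C * ((k : ℝ) + 1) ^ s) * ‖(1 : A)‖ :=
        mul_le_mul_of_nonneg_right (hX k) (norm_nonneg _)
      _ = _ := by ring
  have h2 : Filter.Tendsto (fun k : ℕ => ((k : ℝ) ^ s) / ‖φ X‖ ^ k) Filter.atTop (𝓝 0) :=
    tendsto_pow_const_div_const_pow_of_one_lt s hlt
  have h3 : Filter.Tendsto (fun k : ℕ => (C * ‖(1 : A)‖) * ‖φ X‖ *
      ((((k + 1 : ℕ) : ℝ) ^ s) / ‖φ X‖ ^ (k + 1))) Filter.atTop (𝓝 ((C * ‖(1 : A)‖) * ‖φ X‖ * 0)) :=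
    ((Filter.tendsto_add_atTop_iff_nat 1).mpr h2).const_mul _
  rw [mul_zero] at h3
  have h4 : ∀ k : ℕ, (1 : ℝ) ≤ (C * ‖(1 : A)‖) * ‖φ X‖ *
      ((((k + 1 : ℕ) : ℝ) ^ s) / ‖φ X‖ ^ (k + 1)) := by
    intro k
    have hpos : 0 < ‖φ X‖ := by linarith
    have := h1 k
    push_cast
    rw [pow_succ, show C * ‖(1 : A)‖ * ‖φ X‖ * (((k : ℝ) + 1) ^ s / (‖φ X‖ ^ k * ‖φ X‖)) =
      (C * ‖(1 : A)‖ * ((k : ℝ) + 1) ^ s) / ‖φ X‖ ^ k by field_simp]
    rw [le_div_iff₀ (by positivity), one_mul]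
    exact this
  have := ge_of_tendsto' h3 h4
  linarith

open WeakDual in
/-- **Bezout**: in a commutative Banach algebra generated by `X` (polynomials dense), all of whose characters
satisfy `|φ X| ≤ 1` and which has the evaluation characters `ev z`, `|z| ≤ 1`, finitely many
elements without common zero generate the unit ideal. -/
theorem bezout_algebra {A : Type*} [NormedCommRing A] [NormedAlgebra ℂ A] [CompleteSpace A]
    {ι : Type*} [Finite ι] (X : A)
    (hX : ∀ φ : characterSpace ℂ A, ‖φ X‖ ≤ 1)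
    (hdense : Dense (Set.range (fun p : Polynomial ℂ => Polynomial.aeval X p)))
    (ev : ℂ → A → ℂ) (hev : ∀ z : ℂ, ‖z‖ ≤ 1 → Continuous (ev z))
    (hevp : ∀ z : ℂ, ‖z‖ ≤ 1 → ∀ p : Polynomial ℂ, ev z (Polynomial.aeval X p) = p.eval z)
    (M : ι → A) (hM : ∀ z : ℂ, ‖z‖ ≤ 1 → ∃ j, ev z (M j) ≠ 0) :
    ∃ G : ι → A, ∑ᶠ j, G j * M j = 1 := by
  have := Fintype.ofFinite ι
  have htop : Ideal.span (Set.range M) = ⊤ := by
    by_contra hne
    obtain ⟨N, hN, hle⟩ := Ideal.exists_le_maximal _ hne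
    set φ := N.toCharacterSpace with hφ
    have hφ0 : ∀ j, φ (M j) = 0 := fun j =>
      Ideal.toCharacterSpace_apply_eq_zero_of_mem N (hle (Ideal.subset_span ⟨j, rfl⟩))
    obtain ⟨j, hj⟩ := hM (φ X) (hX φ)
    apply hj
    have hc : Continuous (ev (φ X)) := hev _ (hX φ)
    have hc' : Continuous (fun a : A => φ a) := map_continuous φ
    have heq : ev (φ X) = fun a : A => φ a := by
      refine Continuous.ext_on hdense hc hc' ?_
      rintro _ ⟨p, rfl⟩
      simp only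
      rw [hevp _ (hX φ), ← Polynomial.aeval_algHom_apply, Polynomial.coe_aeval_eq_eval]
    rw [heq]
    exact hφ0 j
  have h1 : (1 : A) ∈ Ideal.span (Set.range M) := by rw [htop]; trivial
  rw [Ideal.mem_span_range_iff_exists_fun] at h1
  obtain ⟨c, hc⟩ := h1
  exact ⟨c, by rw [finsum_eq_sum_of_fintype]; exact hc⟩

open WeakDual in
/-- same, with a `Fintype` sum and polynomial growth of `‖X ^ k‖` -/
theorem bezout_algebra' {A : Type*} [NormedCommRing A] [NormedAlgebra ℂ A] [CompleteSpace A]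
    {ι : Type*} [Fintype ι] (X : A) {C : ℝ} {s : ℕ} (hX : ∀ k : ℕ, ‖X ^ k‖ ≤ C * ((k : ℝ) + 1) ^ s)
    (hdense : Dense (Set.range (fun p : Polynomial ℂ => Polynomial.aeval X p)))
    (ev : ℂ → A → ℂ) (hev : ∀ z : ℂ, ‖z‖ ≤ 1 → Continuous (ev z))
    (hevp : ∀ z : ℂ, ‖z‖ ≤ 1 → ∀ p : Polynomial ℂ, ev z (Polynomial.aeval X p) = p.eval z)
    (M : ι → A) (hM : ∀ z : ℂ, ‖z‖ ≤ 1 → ∃ j, ev z (M j) ≠ 0) :
    ∃ G : ι → A, ∑ j, G j * M j = 1 := by
  obtain ⟨G, hG⟩ := bezout_algebra X (norm_character_le_one X hX) hdense ev hev hevp M hM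
  exact ⟨G, by rw [finsum_eq_sum_of_fintype] at hG; exact hG⟩

open WeakDual in
/-- an element without zeros is a unit -/
theorem isUnit_of_ne_zero {A : Type*} [NormedCommRing A] [NormedAlgebra ℂ A] [CompleteSpace A]
    (X : A) {C : ℝ} {s : ℕ} (hX : ∀ k : ℕ, ‖X ^ k‖ ≤ C * ((k : ℝ) + 1) ^ s)
    (hdense : Dense (Set.range (fun p : Polynomial ℂ => Polynomial.aeval X p)))
    (ev : ℂ → A → ℂ) (hev : ∀ z : ℂ, ‖z‖ ≤ 1 → Continuous (ev z))
    (hevp : ∀ z : ℂ, ‖z‖ ≤ 1 → ∀ p : Polynomial ℂ, ev z (Polynomial.aeval X p) = p.eval z)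
    (m : A) (hm : ∀ z : ℂ, ‖z‖ ≤ 1 → ev z m ≠ 0) : IsUnit m := by
  obtain ⟨G, hG⟩ := bezout_algebra' (ι := Unit) X hX hdense ev hev hevp (fun _ => m)
    (fun z hz => ⟨(), hm z hz⟩)
  simp only [Finset.univ_unique, Finset.sum_singleton] at hG
  exact IsUnit.of_mul_eq_one _ (by rw [mul_comm]; exact hG)

/-! ### Smooth version -/

/-- a smooth function equal to `1/t` for `t ≥ 1/4` -/
noncomputable def inv4 (t : ℝ) : ℝ := Real.smoothTransition (8 * t - 1) / t

theorem inv4_of_ge {t : ℝ} (ht : 1 / 4 ≤ t) : inv4 t = 1 / t := by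
  rw [inv4, Real.smoothTransition.one_of_one_le (by linarith)]

theorem contDiff_inv4 : ContDiff ℝ ∞ inv4 := by
  rw [contDiff_iff_contDiffAt]
  intro t
  rcases lt_or_ge t (1 / 8) with ht | ht
  · have : inv4 =ᶠ[𝓝 t] fun _ => 0 := by
      filter_upwards [Iio_mem_nhds ht] with x hx
      rw [inv4, Real.smoothTransition.zero_of_nonpos (by simp only [mem_Iio] at hx; linarith), zero_div]
    exact contDiffAt_const.congr_of_eventuallyEq this
  · have h0 : t ≠ 0 := by linarith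
    unfold inv4
    refine ContDiffAt.div ?_ contDiffAt_id h0
    exact (Real.smoothTransition.contDiff.comp (by fun_prop)).contDiffAt

/-- **Bezout, smooth up to the circle.** The `m_j` are `C^∞` on `ℂ` (as real maps), holomorphic in the open
disc; then so are the `c_j`; moreover `c_j = p_j / ∑ p_i m_i` on the closed disc with polynomials
`p_j` and `|∑ p_i m_i - 1| ≤ 1/2`. -/
theorem bezout_smooth {ι : Type*} [Fintype ι] (m : ι → ℂ → ℂ)
    (hc : ∀ j, ContDiff ℝ ∞ (m j)) (hd : ∀ j, DifferentiableOn ℂ (m j) (ball 0 1))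
    (hz : ∀ z ∈ closedBall (0 : ℂ) 1, ∃ j, m j z ≠ 0) :
    ∃ c : ι → ℂ → ℂ, (∀ j, ContDiff ℝ ∞ (c j)) ∧ (∀ j, DifferentiableOn ℂ (c j) (ball 0 1)) ∧
      ∀ z ∈ closedBall (0 : ℂ) 1, ∑ j, c j z * m j z = 1 := by
  obtain ⟨p, hp⟩ := bezout_poly m (fun j => (hc j).continuous.continuousOn) hd hz
    (ε := 1 / 2) (by norm_num)
  set g : ℂ → ℂ := fun z => ∑ j, (p j).eval z * m j z with hg
  have hpd : ∀ j, Differentiable ℂ (fun z => (p j).eval z) := fun j => (p j).differentiable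
  have hpsm : ∀ j, ContDiff ℝ ∞ (fun z => (p j).eval z) := fun j =>
    ((hpd j).contDiff (n := ∞)).restrict_scalars ℝ
  have hgc : ContDiff ℝ ∞ g := ContDiff.sum fun j _ => (hpsm j).mul (hc j)
  have hgn : ∀ z ∈ closedBall (0 : ℂ) 1, 1 / 2 ≤ ‖g z‖ := by
    intro z hz'
    have h1 := hp z hz'
    have h2 : ‖(1 : ℂ)‖ ≤ ‖g z‖ + ‖g z - 1‖ := by
      have := norm_sub_le (g z) (g z - 1)
      simpa using this
    rw [norm_one] at h2
    have h3 : ‖g z - 1‖ ≤ 1 / 2 := h1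
    linarith
  have hgsq : ContDiff ℝ ∞ (fun z => ‖g z‖ ^ 2) := hgc.norm_sq ℝ
  have hform : ∀ j, ∀ z ∈ closedBall (0 : ℂ) 1,
      (p j).eval z * (starRingEnd ℂ (g z) * ((inv4 (‖g z‖ ^ 2) : ℝ) : ℂ)) = (p j).eval z / g z := by
    intro j z hz'
    have h1 := hgn z hz'
    have h2 : (1 / 4 : ℝ) ≤ ‖g z‖ ^ 2 := by nlinarith
    have h3 : g z ≠ 0 := by
      intro h0; rw [h0, norm_zero] at h1; norm_num at h1
    rw [inv4_of_ge h2, div_eq_mul_inv]
    congr 1
    have h4 : g z * starRingEnd ℂ (g z) = ((‖g z‖ ^ 2 : ℝ) : ℂ) := by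
      rw [Complex.mul_conj, Complex.normSq_eq_norm_sq]
    have h5 : ((‖g z‖ ^ 2 : ℝ) : ℂ) ≠ 0 := by
      rw [← h4]
      exact mul_ne_zero h3 (by simpa using h3)
    rw [eq_comm, inv_eq_iff_eq_inv]
    push_cast at h4 h5 ⊢
    rw [one_mul, ← h4]
    have h6 : starRingEnd ℂ (g z) ≠ 0 := by simpa using h3
    field_simp
  refine ⟨fun j z => (p j).eval z * (starRingEnd ℂ (g z) * ((inv4 (‖g z‖ ^ 2) : ℝ) : ℂ)),
    fun j => ?_, fun j => ?_, fun z hz' => ?_⟩
  · refine (hpsm j).mul (ContDiff.mul ?_ ?_)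
    · exact Complex.conjCLE.contDiff.comp hgc
    · exact Complex.ofRealCLM.contDiff.comp (contDiff_inv4.comp hgsq)
  · have hgd : DifferentiableOn ℂ g (ball 0 1) :=
      DifferentiableOn.fun_sum fun j _ => ((hpd j).differentiableOn).mul (hd j)
    have h1 : DifferentiableOn ℂ (fun z => (p j).eval z / g z) (ball 0 1) := by
      refine ((hpd j).differentiableOn).div hgd fun z hz' h0 => ?_
      have := hgn z (ball_subset_closedBall hz')
      rw [h0, norm_zero] at this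
      norm_num at this
    exact h1.congr fun z hz' => hform j z (ball_subset_closedBall hz')
  · have h1 : g z ≠ 0 := by
      intro h0
      have := hgn z hz'
      rw [h0, norm_zero] at this
      norm_num at this
    calc ∑ j, (p j).eval z * (starRingEnd ℂ (g z) * ((inv4 (‖g z‖ ^ 2) : ℝ) : ℂ)) * m j z
        = ∑ j, ((p j).eval z * m j z) / g z := by
          refine Finset.sum_congr rfl fun j _ => ?_
          rw [hform j z hz']
          ring
      _ = g z / g z := by rw [← Finset.sum_div]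
      _ = 1 := div_self h1

/-- **Bezout, class `C^k` / continuous version with explicit form.** Any regularity class: `c_j = p_j / g`,
`g = ∑ p_i m_i`, `|g - 1| ≤ 1/2` on the closed disc. -/
theorem bezout_explicit {ι : Type*} [Fintype ι] (m : ι → ℂ → ℂ)
    (hc : ∀ j, ContinuousOn (m j) (closedBall 0 1)) (hd : ∀ j, DifferentiableOn ℂ (m j) (ball 0 1))
    (hz : ∀ z ∈ closedBall (0 : ℂ) 1, ∃ j, m j z ≠ 0) :
    ∃ p : ι → Polynomial ℂ, (∀ z ∈ closedBall (0 : ℂ) 1,
      ‖(∑ j, (p j).eval z * m j z) - 1‖ ≤ 1 / 2 ∧ (∑ j, (p j).eval z * m j z) ≠ 0 ∧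
      ∑ j, ((p j).eval z / ∑ i, (p i).eval z * m i z) * m j z = 1) := by
  obtain ⟨p, hp⟩ := bezout_poly m hc hd hz (ε := 1 / 2) (by norm_num)
  refine ⟨p, fun z hz' => ?_⟩
  have h1 := hp z hz'
  have h0 : (∑ j, (p j).eval z * m j z) ≠ 0 := by
    intro h0
    rw [h0] at h1
    norm_num at h1
  refine ⟨h1, h0, ?_⟩
  calc ∑ j, ((p j).eval z / ∑ i, (p i).eval z * m i z) * m j z
      = ∑ j, ((p j).eval z * m j z) / (∑ i, (p i).eval z * m i z) :=
        Finset.sum_congr rfl fun j _ => by ring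
    _ = 1 := by rw [← Finset.sum_div, div_self h0]

end Crest.Agent.R269.Bez_19
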