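import Mathlib
import Crest.Prelude.Def_ProjPluricanonical

/-!
# R269 (S0411), linear algebra of the BIG assembly (helper85)

* `finrank_map_comap` : for `f : B → W` injective, `g : B → U` linear and `H ≤ W` finite dimensional,
  `g (f⁻¹ H)` is finite dimensional of dimension `≤ dim H`;
* `ev_injective` : the elements of a reduced `ℂ`-algebra of finite type are separated by its points
  (used only through `exists_pt_ne`);
* `smul_form_injective` : `b ↦ φ b • w` is injective for `φ` injective and `w ≠ 0`.
-/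

set_option autoImplicit false

open Module

namespace Crest.Agent.R269.BigLin_85

section lin

variable {B W U : Type*} [AddCommGroup B] [Module ℂ B] [AddCommGroup W] [Module ℂ W]
  [AddCommGroup U] [Module ℂ U]

theorem finrank_comap {f : B →ₗ[ℂ] W} (hf : Function.Injective f) (H : Submodule ℂ W)
    [FiniteDimensional ℂ H] :
    FiniteDimensional ℂ (H.comap f) ∧ finrank ℂ (H.comap f) ≤ finrank ℂ H := by
  let r : (H.comap f) →ₗ[ℂ] H := f.restrict (p := H.comap f) (q := H) fun x hx => hx
  have hr : Function.Injective r := by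
    intro x y hxy
    apply Subtype.ext
    apply hf
    have := congrArg Subtype.val hxy
    exact this
  exact ⟨FiniteDimensional.of_injective r hr, LinearMap.finrank_le_finrank_of_injective hr⟩

theorem finrank_map_comap {f : B →ₗ[ℂ] W} (hf : Function.Injective f) (g : B →ₗ[ℂ] U)
    (H : Submodule ℂ W) [FiniteDimensional ℂ H] :
    FiniteDimensional ℂ ((H.comap f).map g) ∧ finrank ℂ ((H.comap f).map g) ≤ finrank ℂ H := by
  obtain ⟨h1, h2⟩ := finrank_comap hf H
  refine ⟨inferInstance, ?_⟩
  exact (Submodule.finrank_map_le g (H.comap f)).trans h2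

end lin

section ev

variable {B : Type*} [CommRing B] [Algebra ℂ B]

/-- evaluation at all points, as a linear map -/
def evL (B : Type*) [CommRing B] [Algebra ℂ B] : B →ₗ[ℂ] ((B →ₐ[ℂ] ℂ) → ℂ) where
  toFun b := fun y => y b
  map_add' := by intro a b; funext y; simp
  map_smul' := by intro c b; funext y; simp

@[simp] theorem evL_apply (b : B) (y : B →ₐ[ℂ] ℂ) : evL B b y = y b := rfl

end ev

section form

open Crest.AlgGeometry.ProjEmb

variable {N : ℕ} {I : Ideal (HomCoordRing N)} [I.IsPrime] {n m : ℕ}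

/-- `b ↦ φ b • w` as a `ℂ`-linear map into the rational pluricanonical forms -/
noncomputable def formL {B : Type*} [CommRing B] [Algebra ℂ B] (φ : B →ₐ[ℂ] FnField I)
    (w : PluriForms I n m) : B →ₗ[ℂ] PluriForms I n m where
  toFun b := φ b • w
  map_add' := by intro a b; rw [map_add, add_smul]
  map_smul' := by
    intro c b
    rw [map_smul, RingHom.id_apply, smul_assoc]

@[simp] theorem formL_apply {B : Type*} [CommRing B] [Algebra ℂ B] (φ : B →ₐ[ℂ] FnField I)
    (w : PluriForms I n m) (b : B) : formL φ w b = φ b • w := rfl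

theorem formL_injective {B : Type*} [CommRing B] [Algebra ℂ B] {φ : B →ₐ[ℂ] FnField I}
    (hφ : Function.Injective φ) {w : PluriForms I n m} (hw : w ≠ 0) :
    Function.Injective (formL φ w) := by
  rw [injective_iff_map_eq_zero]
  intro b hb
  rw [formL_apply] at hb
  rcases smul_eq_zero.1 hb with h | h
  · exact (injective_iff_map_eq_zero φ).1 hφ b h
  · exact absurd h hw

/-- the space of functions on `Hom(B, ℂ)` attached to a space of forms -/
noncomputable def VV {B : Type*} [CommRing B] [Algebra ℂ B] (φ : B →ₐ[ℂ] FnField I)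
    (w : PluriForms I n m) (H : Submodule ℂ (PluriForms I n m)) :
    Submodule ℂ ((B →ₐ[ℂ] ℂ) → ℂ) :=
  (H.comap (formL φ w)).map (evL B)

theorem mem_VV {B : Type*} [CommRing B] [Algebra ℂ B] {φ : B →ₐ[ℂ] FnField I}
    {w : PluriForms I n m} {H : Submodule ℂ (PluriForms I n m)} {F : (B →ₐ[ℂ] ℂ) → ℂ} :
    F ∈ VV φ w H ↔ ∃ b : B, φ b • w ∈ H ∧ ∀ y, F y = y b := by
  constructor
  · rintro ⟨b, hb, rfl⟩
    exact ⟨b, hb, fun y => rfl⟩
  · rintro ⟨b, hb, h⟩
    exact ⟨b, hb, (funext h).symm⟩

theorem finrank_VV {B : Type*} [CommRing B] [Algebra ℂ B] {φ : B →ₐ[ℂ] FnField I}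
    (hφ : Function.Injective φ) {w : PluriForms I n m} (hw : w ≠ 0)
    (H : Submodule ℂ (PluriForms I n m)) [FiniteDimensional ℂ H] :
    FiniteDimensional ℂ (VV φ w H) ∧ finrank ℂ (VV φ w H) ≤ finrank ℂ H :=
  finrank_map_comap (formL_injective hφ hw) (evL B) H

end form

end Crest.Agent.R269.BigLin_85
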