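import Mathlib

/-!
Row 269, P10-COUNT, part 1: the abstract convexity argument.
-/

set_option autoImplicit false

namespace Crest.Agent.R269.Cnt1_197

open Module

section lin

variable {k F : Type*} [Field k] [AddCommGroup F] [Module k F]

/-- One convexity step: `V0 ≤ V1 ≤ V2`, `u : V1 → V2` and `x, u x ∈ V1 → x ∈ V0`. -/
theorem conv_step (V0 V1 V2 : Submodule k F) (h12 : V1 ≤ V2)
    [Module.Finite k V2] (u : F →ₗ[k] F) (hu : ∀ x ∈ V1, u x ∈ V2)
    (hinj : ∀ x ∈ V1, u x ∈ V1 → x ∈ V0) (hfin : Module.Finite k V0) :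
    finrank k V1 + finrank k V1 ≤ finrank k V0 + finrank k V2 := by
  have hf1 : Module.Finite k V1 := Submodule.finiteDimensional_of_le h12
  let u1 : V1 →ₗ[k] V2 := u.restrict hu
  let V1' : Submodule k V2 := V1.comap V2.subtype
  let g : V1 →ₗ[k] (V2 ⧸ V1') := V1'.mkQ ∘ₗ u1
  have h1 := g.finrank_range_add_finrank_ker
  have h2 : finrank k (LinearMap.range g) ≤ finrank k (V2 ⧸ V1') := Submodule.finrank_le _
  have h3 := V1'.finrank_quotient_add_finrank
  have h4 : finrank k V1' = finrank k V1 :=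
    (Submodule.comapSubtypeEquivOfLe h12).finrank_eq
  have h5 : finrank k (LinearMap.ker g) ≤ finrank k V0 := by
    let e : LinearMap.ker g →ₗ[k] V0 :=
      { toFun := fun x => ⟨x.1.1, hinj x.1.1 x.1.2 (by
          have hx : g x.1 = 0 := x.2
          have hx' : u1 x.1 ∈ V1' := by
            rw [← Submodule.Quotient.mk_eq_zero]; exact hx
          exact hx')⟩
        map_add' := fun _ _ => rfl
        map_smul' := fun _ _ => rfl }
    refine LinearMap.finrank_le_finrank_of_injective (f := e) ?_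
    intro x y hxy
    apply Subtype.ext
    apply Subtype.ext
    exact congrArg (fun v : V0 => (v : F)) hxy
  omega

end lin

/-- A convex sequence with `d 0 = 0`: `d j / j` is nondecreasing. -/
theorem conv_succ (d : ℕ → ℕ) (h0 : d 0 = 0) (hc : ∀ j, d (j + 1) + d (j + 1) ≤ d j + d (j + 2))
    (j : ℕ) : d j * (j + 1) ≤ j * d (j + 1) := by
  induction j with
  | zero => simp [h0]
  | succ j ih =>
    have h1 := hc j
    have h2 := Nat.mul_le_mul_left (j + 1) h1
    nlinarith

theorem conv_le (d : ℕ → ℕ) (h0 : d 0 = 0) (hc : ∀ j, d (j + 1) + d (j + 1) ≤ d j + d (j + 2))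
    {J M : ℕ} (h : J ≤ M) : d J * M ≤ J * d M := by
  induction M, h using Nat.le_induction with
  | base => rw [mul_comm]
  | succ M hJM ih =>
    rcases Nat.eq_zero_or_pos M with rfl | hM
    · have : J = 0 := by omega
      subst this; simp [h0]
    · have h1 := conv_succ d h0 hc M
      have h2 : M * (d J * (M + 1)) ≤ M * (J * d (M + 1)) := by
        calc M * (d J * (M + 1)) = (d J * M) * (M + 1) := by ring
          _ ≤ (J * d M) * (M + 1) := Nat.mul_le_mul_right _ ih
          _ = J * (d M * (M + 1)) := by ring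
          _ ≤ J * (M * d (M + 1)) := Nat.mul_le_mul_left _ h1
          _ = M * (J * d (M + 1)) := by ring
      exact Nat.le_of_mul_le_mul_left h2 hM

section lin2

variable {k F : Type*} [Field k] [AddCommGroup F] [Module k F]

/-- The abstract convexity argument for a filtered space `V 0 ≤ V 1 ≤ …` with `V 0 = 0`. -/
theorem filt_conv (V : ℕ → Submodule k F) (h0 : V 0 = ⊥) (hmono : ∀ j, V j ≤ V (j + 1))
    (hfin : ∀ j, Module.Finite k (V j)) (u : F →ₗ[k] F) (hu : ∀ j, ∀ x ∈ V j, u x ∈ V (j + 1))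
    (hinj : ∀ j, ∀ x ∈ V (j + 1), u x ∈ V (j + 1) → x ∈ V j) {J M : ℕ} (h : J ≤ M) :
    finrank k (V J) * M ≤ J * finrank k (V M) := by
  refine conv_le (fun j => finrank k (V j)) (by simp [h0]) (fun j => ?_) h
  have := hfin (j + 2)
  exact conv_step (V j) (V (j + 1)) (V (j + 2)) (hmono (j + 1)) u (fun x hx => hu _ x hx)
    (hinj j) (hfin j)

end lin2

end Crest.Agent.R269.Cnt1_197
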