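import Mathlib
import Crest.Prelude.Def_ProjPluricanonical
import Crest.Agent.R269.DictB_795
import Crest.Agent.R065.Growth_669

/-!
Row 269, P10-COUNT, part 2: the spaces `WW I l k` of rational functions with poles of order `≤ k`
along `x_l = 0` (= `H⁰(X, O(k))` up to normality) and the crude bound of their dimension.
-/

set_option autoImplicit false
set_option linter.unusedSectionVars false

open MvPolynomial Module Crest.AlgGeometry.ProjEmb
open Crest.Agent.R269.DictA_795 Crest.Agent.R269.DictB_795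
open Crest.Agent.R065.HF669

noncomputable section

namespace Crest.Agent.R269.Cnt2_197

variable {N : ℕ} {I : Ideal (HomCoordRing N)} [I.IsPrime]

theorem fnRatio_mul {j : Fin (N + 1)} (hj : (X j : HomCoordRing N) ∉ I) (i k : Fin (N + 1)) :
    fnRatio I i j * fnRatio I j k = fnRatio I i k := by
  apply toConeHom_injective
  rw [map_mul, toConeHom_fnRatio, toConeHom_fnRatio, toConeHom_fnRatio, div_mul_div_comm,
    mul_comm (coneHom I (X i)), mul_div_mul_left _ _ (coneHom_X_ne hj)]

theorem fnRatio_ne_zero {i j : Fin (N + 1)} (hi : (X i : HomCoordRing N) ∉ I)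
    (hj : (X j : HomCoordRing N) ∉ I) : fnRatio I i j ≠ 0 := by
  intro h
  have h1 := fnRatio_mul hj i i
  rw [h, zero_mul, fnRatio_self hi] at h1
  exact zero_ne_one h1

theorem fnRatio_eq_zero (i : Fin (N + 1)) {j : Fin (N + 1)} (hj : (X j : HomCoordRing N) ∈ I) :
    fnRatio I i j = 0 := by
  apply toConeHom_injective
  rw [toConeHom_fnRatio, coneHom_eq_zero_iff.2 hj, zero_div, map_zero]

theorem fnRatio_mem_chartRing (i j : Fin (N + 1)) : fnRatio I i j ∈ chartRing I i :=
  Algebra.subset_adjoin ⟨j, rfl⟩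

/-- rational functions with poles of order at most `k` along `x_l = 0` -/
def WW (I : Ideal (HomCoordRing N)) [I.IsPrime] (l : Fin (N + 1)) (k : ℕ) :
    Submodule ℂ (FnField I) :=
  ⨅ (i : Fin (N + 1)) (_ : (X i : HomCoordRing N) ∉ I),
    (Subalgebra.toSubmodule (chartRing I i)).comap
      (LinearMap.mulLeft ℂ (fnRatio I i l ^ k))

theorem mem_WW {l : Fin (N + 1)} {k : ℕ} {ψ : FnField I} :
    ψ ∈ WW I l k ↔ ∀ i, (X i : HomCoordRing N) ∉ I → fnRatio I i l ^ k * ψ ∈ chartRing I i := by
  simp [WW, Submodule.mem_iInf]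

theorem one_mem_WW (l : Fin (N + 1)) : (1 : FnField I) ∈ WW I l 0 := by
  rw [mem_WW]
  intro i _
  rw [pow_zero, mul_one]; exact one_mem _

theorem WW_mono {l : Fin (N + 1)} {k k' : ℕ} (h : k ≤ k') : WW I l k ≤ WW I l k' := by
  intro ψ hψ
  rw [mem_WW] at hψ ⊢
  intro i hi
  obtain ⟨d, rfl⟩ := exists_add_of_le h
  have e : fnRatio I i l ^ (k + d) * ψ = fnRatio I i l ^ d * (fnRatio I i l ^ k * ψ) := by ring
  rw [e]
  exact mul_mem (pow_mem (fnRatio_mem_chartRing i l) d) (hψ i hi)

theorem mul_mem_WW {l : Fin (N + 1)} {k k' : ℕ} {ψ φ : FnField I} (h : ψ ∈ WW I l k)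
    (h' : φ ∈ WW I l k') : ψ * φ ∈ WW I l (k + k') := by
  rw [mem_WW] at *
  intro i hi
  have e : fnRatio I i l ^ (k + k') * (ψ * φ) =
      (fnRatio I i l ^ k * ψ) * (fnRatio I i l ^ k' * φ) := by ring
  rw [e]
  exact mul_mem (h i hi) (h' i hi)

theorem pow_mem_WW {l : Fin (N + 1)} {k : ℕ} {ψ : FnField I} (h : ψ ∈ WW I l k) (a : ℕ) :
    ψ ^ a ∈ WW I l (a * k) := by
  induction a with
  | zero => simpa using one_mem_WW l
  | succ a ih => rw [pow_succ, Nat.succ_mul]; exact mul_mem_WW ih h

theorem prod_mem_WW {ι : Type*} (s : Finset ι) {l : Fin (N + 1)} (x : ι → FnField I) (a : ι → ℕ)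
    (hx : ∀ i ∈ s, x i ∈ WW I l (a i)) : ∏ i ∈ s, x i ∈ WW I l (∑ i ∈ s, a i) := by
  classical
  induction s using Finset.induction_on with
  | empty => simpa using one_mem_WW l
  | insert i s hi ih =>
    rw [Finset.prod_insert hi, Finset.sum_insert hi]
    exact mul_mem_WW (hx i (Finset.mem_insert_self _ _))
      (ih fun j hj => hx j (Finset.mem_insert_of_mem hj))

theorem fnRatio_mem_WW {l : Fin (N + 1)} (hl : (X l : HomCoordRing N) ∉ I) (j : Fin (N + 1)) :
    fnRatio I l j ∈ WW I l 1 := by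
  rw [mem_WW]
  intro i _
  rw [pow_one, fnRatio_mul hl]
  exact fnRatio_mem_chartRing i j

theorem U_le_WW {l : Fin (N + 1)} (hl : (X l : HomCoordRing N) ∉ I) (q : ℕ) :
    U ℂ (fnRatio I l) q ≤ WW I l q := by
  apply U_le_of_monomials
  intro n hn
  refine WW_mono hn ?_
  rw [Finsupp.prod, Finsupp.degree_apply]
  refine prod_mem_WW _ _ _ fun i _ => ?_
  have := pow_mem_WW (fnRatio_mem_WW hl i) (n i)
  rwa [mul_one] at this

theorem mem_chartRing_of_mem_WW {l : Fin (N + 1)} (hl : (X l : HomCoordRing N) ∉ I) {k : ℕ}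
    {ψ : FnField I} (h : ψ ∈ WW I l k) : ψ ∈ chartRing I l := by
  have := mem_WW.1 h l hl
  rwa [fnRatio_self hl, one_pow, one_mul] at this

theorem exists_mem_U_of_mem_chartRing {l : Fin (N + 1)} {u : FnField I} (h : u ∈ chartRing I l) :
    ∃ q, u ∈ U ℂ (fnRatio I l) q := exists_mem_U _ h

/-! ### Graded common denominators -/

theorem exists_frac {l : Fin (N + 1)} (hl : (X l : HomCoordRing N) ∉ I) (c : FnField I) :
    ∃ a ∈ chartRing I l, ∃ b ∈ chartRing I l, b ≠ 0 ∧ c * b = a := by
  -- the intermediate field of quotients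
  let T : IntermediateField ℂ (ConeFracField I) :=
    IntermediateField.adjoin ℂ ((chartRing I l).map (toConeHom I) : Set (ConeFracField I))
  have hT : ∀ x ∈ T, ∃ a ∈ chartRing I l, ∃ b ∈ chartRing I l, b ≠ 0 ∧
      x * toConeHom I b = toConeHom I a := by
    intro x hx
    rw [IntermediateField.mem_adjoin_iff_div] at hx
    obtain ⟨r, hr, s, hs, rfl⟩ := hx
    rw [Algebra.adjoin_eq] at hr hs
    obtain ⟨r, hr, rfl⟩ := hr
    obtain ⟨s, hs, rfl⟩ := hs
    by_cases h0 : s = 0
    · refine ⟨0, zero_mem _, 1, one_mem _, one_ne_zero, ?_⟩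
      simp [h0]
    · refine ⟨r, hr, s, hs, h0, ?_⟩
      have hs0 : toConeHom I s ≠ 0 := fun h => h0 (toConeHom_injective (by rw [h, map_zero]))
      exact div_mul_cancel₀ _ hs0
  have hle : fnSubfield I ≤ T := by
    unfold fnSubfield
    rw [IntermediateField.adjoin_le_iff]
    rintro _ ⟨⟨i, j⟩, rfl⟩
    have e : coordRatio I i j = toConeHom I (fnRatio I l j) / toConeHom I (fnRatio I l i) := by
      have h0 : coordRatio I i j = toConeHom I (fnRatio I i j) := rfl
      rw [h0, toConeHom_fnRatio, toConeHom_fnRatio, toConeHom_fnRatio,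
        div_div_div_cancel_right₀ (coneHom_X_ne hl)]
    change coordRatio I i j ∈ T
    rw [e]
    refine T.div_mem ?_ ?_
    · exact IntermediateField.subset_adjoin _ _ ⟨_, fnRatio_mem_chartRing l j, rfl⟩
    · exact IntermediateField.subset_adjoin _ _ ⟨_, fnRatio_mem_chartRing l i, rfl⟩
  have hc : toConeHom I c ∈ fnSubfield I := (show ↥(fnSubfield I) from c).2
  obtain ⟨a, ha, b, hb, hb0, h⟩ := hT _ (hle hc)
  refine ⟨a, ha, b, hb, hb0, toConeHom_injective ?_⟩
  rw [map_mul]; exact h

theorem exists_den {l : Fin (N + 1)} (hl : (X l : HomCoordRing N) ∉ I) (c : FnField I) :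
    ∃ (e : ℕ) (h : FnField I), h ∈ WW I l e ∧ h ≠ 0 ∧ h * c ∈ WW I l e := by
  obtain ⟨a, ha, b, hb, hb0, h⟩ := exists_frac hl c
  obtain ⟨q, hq⟩ := exists_mem_U_of_mem_chartRing ha
  obtain ⟨q', hq'⟩ := exists_mem_U_of_mem_chartRing hb
  refine ⟨max q q', b, U_le_WW hl _ (U_mono _ (le_max_right _ _) hq'), hb0, ?_⟩
  rw [mul_comm, h]
  exact U_le_WW hl _ (U_mono _ (le_max_left _ _) hq)

/-- common graded denominator of a finite family -/
theorem exists_common_den {l : Fin (N + 1)} (hl : (X l : HomCoordRing N) ∉ I) {ι : Type*}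
    (s : Finset ι) (c : ι → FnField I) :
    ∃ (e : ℕ) (h : FnField I), h ∈ WW I l e ∧ h ≠ 0 ∧ ∀ i ∈ s, h * c i ∈ WW I l e := by
  classical
  induction s using Finset.induction_on with
  | empty => exact ⟨0, 1, one_mem_WW l, one_ne_zero, fun i hi => absurd hi (Finset.notMem_empty i)⟩
  | insert i s hi ih =>
    obtain ⟨e, h, he, h0, hc⟩ := ih
    obtain ⟨e', h', he', h0', hc'⟩ := exists_den hl (c i)
    refine ⟨e + e', h * h', mul_mem_WW he he', mul_ne_zero h0 h0', fun j hj => ?_⟩
    rcases Finset.mem_insert.1 hj with rfl | hj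
    · rw [mul_assoc]; exact mul_mem_WW he hc'
    · have : h * h' * c j = (h * c j) * h' := by ring
      rw [this]
      exact mul_mem_WW (hc j hj) he'

/-! ### `WW` multiplies `U r` into `U (r + k)` for large `r` -/

theorem pow_fnRatio_mul_dh_mem {l i : Fin (N + 1)} (hi : (X i : HomCoordRing N) ∉ I)
    (G : HomCoordRing N) {M : ℕ} (hM : G.totalDegree ≤ M) :
    fnRatio I l i ^ M * dh I i G ∈ U ℂ (fnRatio I l) M := by
  have key : U ℂ (fnRatio I i) M ≤ (U ℂ (fnRatio I l) M).comap
      (LinearMap.mulLeft ℂ (fnRatio I l i ^ M)) := by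
    apply U_le_of_monomials
    intro n hn
    rw [Submodule.mem_comap, LinearMap.mulLeft_apply]
    obtain ⟨d, rfl⟩ := exists_add_of_le hn
    have h1 : fnRatio I l i ^ n.degree * (n.prod fun j e => fnRatio I i j ^ e) =
        n.prod fun j e => fnRatio I l j ^ e := by
      rw [Finsupp.degree_apply, Finsupp.prod, Finsupp.prod, ← Finset.prod_pow_eq_pow_sum,
        ← Finset.prod_mul_distrib]
      refine Finset.prod_congr rfl fun j _ => ?_
      rw [← mul_pow, fnRatio_mul hi]
    rw [pow_add, mul_comm (fnRatio I l i ^ n.degree), mul_assoc, h1, add_comm n.degree d]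
    refine mul_mem_U ?_ ?_
    · have := pow_mem_U (k := ℂ) (self_mem_U (k := ℂ) (fnRatio I l) i) d
      rwa [mul_one] at this
    · rw [Finsupp.prod, Finsupp.degree_apply]
      refine prod_mem_U _ _ _ fun j _ => ?_
      have := pow_mem_U (k := ℂ) (self_mem_U (k := ℂ) (fnRatio I l) j) (n j)
      rwa [mul_one] at this
  exact key (aeval_mem_U hM)

theorem exists_pow_mul_mem {l : Fin (N + 1)} {k : ℕ} {ψ : FnField I}
    (h : ψ ∈ WW I l k) (i : Fin (N + 1)) :
    ∃ m₀ : ℕ, ∀ m, m₀ ≤ m → fnRatio I l i ^ m * ψ ∈ U ℂ (fnRatio I l) (m + k) := by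
  by_cases hi : (X i : HomCoordRing N) ∈ I
  · refine ⟨1, fun m hm => ?_⟩
    rw [fnRatio_eq_zero l hi, zero_pow (by omega), zero_mul]
    exact Submodule.zero_mem _
  · by_cases hl : (X l : HomCoordRing N) ∈ I
    · -- junk case: all ratios with denominator `x_l` vanish
      refine ⟨1, fun m hm => ?_⟩
      have h0 : fnRatio I l i = 0 := by
        apply toConeHom_injective
        rw [toConeHom_fnRatio, coneHom_eq_zero_iff.2 hl, div_zero, map_zero]
      rw [h0, zero_pow (by omega), zero_mul]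
      exact Submodule.zero_mem _
    obtain ⟨G, hG⟩ := exists_dh_of_mem_chartRing (mem_WW.1 h i hi)
    refine ⟨G.totalDegree, fun m hm => ?_⟩
    have h1 := pow_fnRatio_mul_dh_mem (l := l) hi G (M := m + k) (by omega)
    rw [hG, pow_add] at h1
    have h2 : fnRatio I l i ^ m * fnRatio I l i ^ k * (fnRatio I i l ^ k * ψ) =
        fnRatio I l i ^ m * ψ * (fnRatio I l i * fnRatio I i l) ^ k := by
      rw [mul_pow]; ring
    rw [h2, fnRatio_mul hi, fnRatio_self hl, one_pow, mul_one] at h1
    exact h1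

theorem exists_U_mul_mem {l : Fin (N + 1)} (hl : (X l : HomCoordRing N) ∉ I) {k : ℕ}
    {ψ : FnField I} (h : ψ ∈ WW I l k) :
    ∃ r₀ : ℕ, ∀ r, r₀ ≤ r → ∀ x ∈ U ℂ (fnRatio I l) r, x * ψ ∈ U ℂ (fnRatio I l) (r + k) := by
  classical
  choose m₀ hm₀ using fun i => exists_pow_mul_mem h i
  let M := Finset.univ.sup m₀
  have hM : ∀ i, m₀ i ≤ M := fun i => Finset.le_sup (Finset.mem_univ i)
  refine ⟨(N + 1) * M, fun r hr => ?_⟩
  have key : U ℂ (fnRatio I l) r ≤ (U ℂ (fnRatio I l) (r + k)).comap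
      (LinearMap.mulRight ℂ ψ) := by
    apply U_le_of_monomials
    intro n hn
    rw [Submodule.mem_comap, LinearMap.mulRight_apply]
    -- homogenise
    obtain ⟨d, hd⟩ := exists_add_of_le hn
    let n' : Fin (N + 1) →₀ ℕ := n + Finsupp.single l d
    have hn'deg : n'.degree = r := by
      change (n + Finsupp.single l d).degree = r
      rw [map_add, Finsupp.degree_single, hd]
    have hprod : (n.prod fun j e => fnRatio I l j ^ e) = n'.prod fun j e => fnRatio I l j ^ e := by
      change _ = (n + Finsupp.single l d).prod _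
      rw [Finsupp.prod_add_index' (by simp) (by intro a b c; rw [pow_add]),
        Finsupp.prod_single_index (by simp), fnRatio_self hl, one_pow, mul_one]
    rw [hprod]
    -- some exponent is large
    obtain ⟨i, hi⟩ : ∃ i, M ≤ n' i := by
      by_contra hcon
      push Not at hcon
      have h1 : n'.degree = ∑ i, n' i := by
        rw [Finsupp.degree_eq_sum]
      rw [hn'deg] at h1
      rcases Nat.eq_zero_or_pos M with h0 | h0
      · have := hcon 0; omega
      · have h2 : ∑ i, n' i ≤ ∑ _i : Fin (N + 1), (M - 1) :=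
          Finset.sum_le_sum fun i _ => by have := hcon i; omega
        simp only [Finset.sum_const, Finset.card_univ, Fintype.card_fin, smul_eq_mul] at h2
        have h3 : (N + 1) * (M - 1) < (N + 1) * M := Nat.mul_lt_mul_of_pos_left (by omega) (by omega)
        omega
    -- split off `x_i^{n' i}`
    have hsplit : (n'.prod fun j e => fnRatio I l j ^ e) =
        ((n'.erase i).prod fun j e => fnRatio I l j ^ e) * fnRatio I l i ^ (n' i) := by
      conv_lhs => rw [← Finsupp.erase_add_single i n']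
      rw [Finsupp.prod_add_index' (by simp) (by intro a b c; rw [pow_add]),
        Finsupp.prod_single_index (by simp)]
    have hdeg : (n'.erase i).degree + n' i = r := by
      rw [← hn'deg]
      conv_rhs => rw [← Finsupp.erase_add_single i n']
      rw [map_add, Finsupp.degree_single]
    rw [hsplit, mul_assoc]
    have h1 := hm₀ i (n' i) ((hM i).trans hi)
    have h2 : ((n'.erase i).prod fun j e => fnRatio I l j ^ e) ∈
        U ℂ (fnRatio I l) (n'.erase i).degree := by
      rw [Finsupp.prod, Finsupp.degree_apply]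
      refine prod_mem_U _ _ _ fun j _ => ?_
      have := pow_mem_U (k := ℂ) (self_mem_U (k := ℂ) (fnRatio I l) j) ((n'.erase i) j)
      rwa [mul_one] at this
    have h3 := mul_mem_U h2 h1
    have e : (n'.erase i).degree + (n' i + k) = r + k := by omega
    rwa [e] at h3
  intro x hx
  exact key hx

end Crest.Agent.R269.Cnt2_197
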