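import Mathlib
import Crest.Agent.R269.Cnt2_197

/-!
Row 269, P10-COUNT, part 3: the crude bound `dim WW I l k ≤ C (k+1)^r`.
-/

set_option autoImplicit false
set_option linter.unusedSectionVars false

open MvPolynomial Module Crest.AlgGeometry.ProjEmb
open Crest.Agent.R269.DictA_795 Crest.Agent.R269.DictB_795
open Crest.Agent.R065.HF669 Crest.Agent.R269.Cnt2_197

noncomputable section

namespace Crest.Agent.R269.Cnt3_197

variable {N : ℕ} {I : Ideal (HomCoordRing N)} [I.IsPrime]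

/-- the generators `x_i / x_l` of the chart ring -/
def zz (I : Ideal (HomCoordRing N)) [I.IsPrime] (l : Fin (N + 1)) :
    Fin (N + 1) → ↥(chartRing I l) :=
  fun i => ⟨fnRatio I l i, fnRatio_mem_chartRing l i⟩

theorem coe_aeval_zz (l : Fin (N + 1)) (G : HomCoordRing N) :
    ((aeval (zz I l) G : ↥(chartRing I l)) : FnField I) = aeval (fnRatio I l) G := by
  have : (chartRing I l).val.comp (aeval (zz I l)) = aeval (fnRatio I l) := by
    apply MvPolynomial.algHom_ext; intro j; simp [zz]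
  exact congrArg (fun h => h G) this

theorem mem_U_zz {l : Fin (N + 1)} {q : ℕ} {x : ↥(chartRing I l)} :
    x ∈ U ℂ (zz I l) q ↔ (x : FnField I) ∈ U ℂ (fnRatio I l) q := by
  rw [mem_U, mem_U]
  constructor
  · rintro ⟨f, hf, rfl⟩
    exact ⟨f, hf, (coe_aeval_zz l f).symm⟩
  · rintro ⟨f, hf, h⟩
    exact ⟨f, hf, Subtype.ext (by rw [coe_aeval_zz, h])⟩

theorem exists_mem_U_zz {l : Fin (N + 1)} (x : ↥(chartRing I l)) : ∃ q, x ∈ U ℂ (zz I l) q := by
  obtain ⟨q, hq⟩ := exists_mem_U_of_mem_chartRing x.2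
  exact ⟨q, mem_U_zz.2 hq⟩

theorem exists_D (I : Ideal (HomCoordRing N)) [I.IsPrime] (l : Fin (N + 1)) :
    ∃ D : NData ℂ (zz I l), ∀ i, D.y i ∈ U ℂ (zz I l) 1 := by
  obtain ⟨D, -, hD⟩ := exists_NData (k := ℂ) (zz I l) (exists_mem_U_zz) (zz I l) {1}
    (Set.finite_singleton 1) (fun q => by
      intro x hx
      have := Submodule.mul_mem_mul (Submodule.subset_span (Set.mem_singleton (1 : ↥(chartRing I l)))
        : (1 : ↥(chartRing I l)) ∈ Submodule.span ℂ {1}) hx
      rwa [one_mul] at this)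
  exact ⟨D, hD⟩

/-- degree of the coordinates of the elements of `WW` -/
theorem crd_degree {l : Fin (N + 1)} (hl : (X l : HomCoordRing N) ∉ I) (D : NData ℂ (zz I l))
    (hD : ∀ i, D.y i ∈ U ℂ (zz I l) 1) {k : ℕ} {ψ : ↥(chartRing I l)}
    (hψ : (ψ : FnField I) ∈ WW I l k) (i : Fin D.δ) :
    (D.crd ψ i).totalDegree ≤ k + D.a := by
  rcases Nat.eq_zero_or_pos D.r with h0 | h0
  · have : IsEmpty (Fin D.r) := by rw [h0]; infer_instance
    rw [MvPolynomial.eq_C_of_isEmpty (D.crd ψ i), totalDegree_C]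
    exact Nat.zero_le _
  obtain ⟨r, hr⟩ := exists_U_mul_mem hl hψ
  let g : MvPolynomial (Fin D.r) ℂ := X ⟨0, h0⟩ ^ r
  have hg : aeval D.y g ∈ U ℂ (zz I l) r := by
    have := pow_mem_U (hD ⟨0, h0⟩) r
    simpa [g] using this
  have h1 : aeval D.y g * ψ ∈ U ℂ (zz I l) (r + k) := by
    rw [mem_U_zz]
    exact hr r le_rfl _ (mem_U_zz.1 hg)
  have h2 := D.c3 _ _ h1 i
  rw [D.crd_smul] at h2
  by_cases hz : D.crd ψ i = 0
  · rw [hz, totalDegree_zero]; exact Nat.zero_le _
  · have h3 : (g * D.crd ψ i).totalDegree = g.totalDegree + (D.crd ψ i).totalDegree :=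
      totalDegree_mul_of_isDomain (pow_ne_zero _ (X_ne_zero _)) hz
    have h4 : g.totalDegree = r := by simp [g, totalDegree_X_pow]
    rw [h3, h4] at h2
    omega

theorem crd_injective {l : Fin (N + 1)} (D : NData ℂ (zz I l)) :
    Function.Injective D.crd := by
  rw [injective_iff_map_eq_zero]
  intro x hx
  have h1 := D.c1 x
  simp only [hx, Pi.zero_apply, map_zero, zero_mul, Finset.sum_const_zero] at h1
  rcases mul_eq_zero.1 h1 with h | h
  · exact absurd h D.aeval_h_ne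
  · exact h

theorem finrank_WW_le {l : Fin (N + 1)} (hl : (X l : HomCoordRing N) ∉ I) (D : NData ℂ (zz I l))
    (hD : ∀ i, D.y i ∈ U ℂ (zz I l) 1) (k : ℕ) :
    Module.Finite ℂ (WW I l k) ∧
      finrank ℂ (WW I l k) ≤ D.δ * (k + D.a + D.r).choose D.r := by
  let L : WW I l k →ₗ[ℂ] (Fin D.δ → W ℂ (Fin D.r) (k + D.a)) :=
    { toFun := fun ψ i => ⟨D.crd ⟨ψ.1, mem_chartRing_of_mem_WW hl ψ.2⟩ i,
        mem_W.2 (crd_degree hl D hD ψ.2 i)⟩
      map_add' := fun ψ φ => by
        funext i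
        apply Subtype.ext
        have : (⟨(ψ + φ).1, mem_chartRing_of_mem_WW hl (ψ + φ).2⟩ : ↥(chartRing I l)) =
          ⟨ψ.1, mem_chartRing_of_mem_WW hl ψ.2⟩ + ⟨φ.1, mem_chartRing_of_mem_WW hl φ.2⟩ := rfl
        change D.crd _ i = D.crd _ i + D.crd _ i
        rw [this, map_add]; rfl
      map_smul' := fun c ψ => by
        funext i
        apply Subtype.ext
        have : (⟨(c • ψ).1, mem_chartRing_of_mem_WW hl (c • ψ).2⟩ : ↥(chartRing I l)) =
          c • ⟨ψ.1, mem_chartRing_of_mem_WW hl ψ.2⟩ := rfl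
        change D.crd _ i = c • D.crd _ i
        rw [this, map_smul]; rfl }
  have hL : Function.Injective L := by
    rw [injective_iff_map_eq_zero]
    intro ψ hψ
    have h1 : D.crd ⟨ψ.1, mem_chartRing_of_mem_WW hl ψ.2⟩ = 0 := by
      funext i
      exact congrArg (fun v => ((v i : W ℂ (Fin D.r) (k + D.a)) : MvPolynomial (Fin D.r) ℂ)) hψ
    have h2 := crd_injective D (h1.trans (map_zero D.crd).symm)
    exact Subtype.ext (congrArg (fun v : ↥(chartRing I l) => (v : FnField I)) h2)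
  refine ⟨Module.Finite.of_injective L hL, ?_⟩
  refine (LinearMap.finrank_le_finrank_of_injective hL).trans ?_
  rw [finrank_pi_fintype]
  simp [finrank_W]

theorem choose_bound (δ a r k : ℕ) :
    δ * (k + a + r).choose r ≤ (δ * (a + r + 1) ^ r) * (k + 1) ^ r := by
  rw [mul_assoc, ← mul_pow]
  refine Nat.mul_le_mul_left _ ((Nat.choose_le_pow _ _).trans (Nat.pow_le_pow_left ?_ r))
  nlinarith

/-- The crude bound. -/
theorem crude {l : Fin (N + 1)} (hl : (X l : HomCoordRing N) ∉ I) :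
    ∃ (r : ℕ) (y : Fin r → FnField I) (C : ℕ), AlgebraicIndependent ℂ y ∧
      ∀ k, Module.Finite ℂ (WW I l k) ∧ finrank ℂ (WW I l k) ≤ C * (k + 1) ^ r := by
  obtain ⟨D, hD⟩ := exists_D I l
  refine ⟨D.r, fun i => (D.y i : FnField I), D.δ * (D.a + D.r + 1) ^ D.r, ?_, fun k => ?_⟩
  · have := D.hy.map' (f := (chartRing I l).val) Subtype.val_injective
    exact this
  · obtain ⟨h1, h2⟩ := finrank_WW_le hl D hD k
    exact ⟨h1, h2.trans (choose_bound _ _ _ _)⟩

end Crest.Agent.R269.Cnt3_197
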