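import Mathlib
import Crest.Prelude.Def_ProjPluricanonical
import Crest.Agent.R269.DictE_795
import Crest.Agent.R269.Cnt3_197

/-!
Row 269, P10-COUNT, part 4: twisted pluricanonical forms `TW I n l a j = H⁰(aK + jA)` and the crude
bound of their dimension.
-/

set_option autoImplicit false
set_option linter.unusedSectionVars false

open MvPolynomial Module Crest.AlgGeometry.ProjEmb
open Crest.Agent.R269.DictA_795 Crest.Agent.R269.DictB_795 Crest.Agent.R269.DictC_795
open Crest.Agent.R269.DictD_795 Crest.Agent.R269.DictE_795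
open Crest.Agent.R065.HF669 Crest.Agent.R269.Cnt2_197 Crest.Agent.R269.Cnt3_197

noncomputable section

namespace Crest.Agent.R269.Cnt4_197

variable {N n : ℕ} {I : Ideal (HomCoordRing N)} [I.IsPrime]

/-- `H⁰(aK + jA)`: forms `s` with `(x_l/x_i)^j s` regular on the chart `x_i ≠ 0`, all `i`. -/
def TW (I : Ideal (HomCoordRing N)) [I.IsPrime] (n : ℕ) (l : Fin (N + 1)) (a : ℕ) (j : ℤ) :
    Submodule ℂ (PluriForms I n a) where
  carrier := {s | ∀ i, (X i : HomCoordRing N) ∉ I →
    (fnRatio I i l) ^ j • s ∈ chartSections I n a i}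
  add_mem' := by
    intro x y hx hy i hi
    rw [smul_add]; exact Submodule.add_mem _ (hx i hi) (hy i hi)
  zero_mem' := by
    intro i _
    rw [smul_zero]; exact Submodule.zero_mem _
  smul_mem' := by
    intro c x hx i hi
    rw [smul_comm]; exact Submodule.smul_mem _ _ (hx i hi)

theorem mem_TW {l : Fin (N + 1)} {a : ℕ} {j : ℤ} {s : PluriForms I n a} :
    s ∈ TW I n l a j ↔ ∀ i, (X i : HomCoordRing N) ∉ I →
      (fnRatio I i l) ^ j • s ∈ chartSections I n a i := Iff.rfl

theorem mul_smul_mem {l : Fin (N + 1)} (hl : (X l : HomCoordRing N) ∉ I) {a : ℕ} {j : ℤ}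
    {s : PluriForms I n a} (hs : s ∈ TW I n l a j) {k : ℕ} {ψ : FnField I} (hψ : ψ ∈ WW I l k) :
    ψ • s ∈ TW I n l a (j + k) := by
  intro i hi
  have h1 := hs i hi
  have h2 := mem_WW.1 hψ i hi
  have h3 := smul_mem_chartSections ⟨_, h2⟩ h1
  have h0 := fnRatio_ne_zero hi hl
  rw [smul_smul] at h3 ⊢
  have e : fnRatio I i l ^ (j + (k : ℤ)) * ψ = fnRatio I i l ^ k * ψ * fnRatio I i l ^ j := by
    rw [zpow_add₀ h0, zpow_natCast]; ring
  rw [e]; exact h3

theorem TW_mono_succ {l : Fin (N + 1)} (hl : (X l : HomCoordRing N) ∉ I) {a : ℕ} {j : ℤ} :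
    TW I n l a j ≤ TW I n l a (j + 1) := by
  intro s hs
  have := mul_smul_mem hl hs (WW_mono (Nat.zero_le 1) (one_mem_WW l))
  rwa [one_smul] at this

/-! ### Denominators -/

/-- expansion of an alternating map on linear combinations -/
theorem alt_expand {R M M' : Type*} [CommRing R] [AddCommGroup M] [Module R M] [AddCommGroup M']
    [Module R M'] {m K : ℕ} (f : M [⋀^Fin m]→ₗ[R] M') (e : Fin K → M) (b : Fin m → Fin K → R) :
    f (fun t => ∑ j, b t j • e j) =
      ∑ J : Fin m → Fin K, (∏ t, b t (J t)) • f (fun t => e (J t)) := by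
  have h1 := f.toMultilinearMap.map_sum (fun t j => b t j • e j)
  refine Eq.trans h1 (Finset.sum_congr rfl fun J _ => ?_)
  exact f.toMultilinearMap.map_smul_univ (fun t => b t (J t)) (fun t => e (J t))

variable {c : CD I n} {q : Fin (N + 1) → ℂ}

theorem exists_wedge_den (h : c.Dom q) (hI : Hom I) {l : Fin (N + 1)}
    (hl : (X l : HomCoordRing N) ∉ I) :
    ∃ (e : ℕ) (hd : FnField I), hd ∈ WW I l e ∧ hd ≠ 0 ∧
      ∀ i, (X i : HomCoordRing N) ∉ I → ∀ v : Fin n → FnField I, (∀ t, v t ∈ chartRing I i) →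
        ∃ φ : FnField I, wedgeD I n v = φ • c.ω ∧
          fnRatio I i l ^ e * (hd * φ) ∈ chartRing I i := by
  classical
  choose cf hcf using fun (x : Fin (N + 1) × (Fin n → Fin (N + 1))) =>
    CD.exists_smul_ω h hI (wedgeD I n (fun t => fnRatio I x.1 (x.2 t)))
  obtain ⟨e, hd, hde, hd0, hden⟩ := exists_common_den hl Finset.univ cf
  refine ⟨e, hd, hde, hd0, fun i hi v hv => ?_⟩
  choose G hG using fun t => exists_dh_of_mem_chartRing (hv t)
  let b : Fin n → Fin (N + 1) → FnField I := fun t j => dh I i (pderiv j (G t))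
  have hD : ∀ t, KaehlerDifferential.D ℂ (FnField I) (v t) =
      ∑ j, b t j • KaehlerDifferential.D ℂ (FnField I) (fnRatio I i j) := by
    intro t
    rw [← hG t]
    exact der_aeval (KaehlerDifferential.D ℂ (FnField I)) (fnRatio I i) (G t)
  refine ⟨∑ J : Fin n → Fin (N + 1), (∏ t, b t (J t)) * cf (i, J), ?_, ?_⟩
  · have h1 : wedgeD I n v = exteriorPower.ιMulti (FnField I) n
        (fun t => ∑ j, b t j • KaehlerDifferential.D ℂ (FnField I) (fnRatio I i j)) := by
      unfold wedgeD
      congr 1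
      funext t
      exact hD t
    rw [h1]
    have h2 := alt_expand (exteriorPower.ιMulti (FnField I) n)
      (fun j => KaehlerDifferential.D ℂ (FnField I) (fnRatio I i j)) b
    refine Eq.trans h2 ?_
    rw [Finset.sum_smul]
    refine Finset.sum_congr rfl fun J _ => ?_
    rw [mul_smul]
    congr 1
    exact hcf (i, J)
  · rw [Finset.mul_sum, Finset.mul_sum]
    refine sum_mem fun J _ => ?_
    have e1 : fnRatio I i l ^ e * (hd * ((∏ t, b t (J t)) * cf (i, J))) =
        (∏ t, b t (J t)) * (fnRatio I i l ^ e * (hd * cf (i, J))) := by ring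
    rw [e1]
    refine mul_mem (prod_mem fun t _ => dh_mem_chartRing i _) ?_
    exact mem_WW.1 (hden (i, J) (Finset.mem_univ _)) i hi

theorem exists_den_chart (h : c.Dom q) (hI : Hom I) {l : Fin (N + 1)}
    (hl : (X l : HomCoordRing N) ∉ I) :
    ∃ (e : ℕ) (hd : FnField I), hd ∈ WW I l e ∧ hd ≠ 0 ∧
      ∀ (a : ℕ) (i : Fin (N + 1)), (X i : HomCoordRing N) ∉ I → ∀ s ∈ chartSections I n a i,
        ∃ φ : FnField I, s = φ • c.wm a ∧
          fnRatio I i l ^ (a * e) * (hd ^ a * φ) ∈ chartRing I i := by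
  obtain ⟨e, hd, hde, hd0, hw⟩ := exists_wedge_den h hI hl
  refine ⟨e, hd, hde, hd0, fun a i hi s hs => ?_⟩
  unfold chartSections at hs
  induction hs using Submodule.span_induction with
  | mem x hx =>
    obtain ⟨b, v, rfl⟩ := hx
    choose φ hφ1 hφ2 using fun k => hw i hi (fun t => (v k t : FnField I)) (fun t => (v k t).2)
    refine ⟨(b : FnField I) * ∏ k, φ k, ?_, ?_⟩
    · rw [mul_smul]
      congr 1
      have h1 : (fun k : Fin a => wedgeD I n (fun t => ((v k t : chartRing I i) : FnField I))) =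
          fun k => φ k • c.ω := funext hφ1
      rw [h1, tprod_smul]
      rfl
    · have e1 : fnRatio I i l ^ (a * e) * (hd ^ a * ((b : FnField I) * ∏ k, φ k)) =
          (b : FnField I) * ∏ k : Fin a, (fnRatio I i l ^ e * (hd * φ k)) := by
        rw [Finset.prod_mul_distrib, Finset.prod_mul_distrib]
        simp only [Finset.prod_const, Finset.card_univ, Fintype.card_fin]
        rw [← pow_mul, mul_comm a e]; ring
      rw [e1]
      exact mul_mem b.2 (prod_mem fun k _ => hφ2 k)
  | zero =>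
    refine ⟨0, by rw [zero_smul], ?_⟩
    rw [mul_zero, mul_zero]; exact zero_mem _
  | add x y _ _ hx hy =>
    obtain ⟨φ, h1, h2⟩ := hx
    obtain ⟨φ', h1', h2'⟩ := hy
    refine ⟨φ + φ', by rw [add_smul, ← h1, ← h1'], ?_⟩
    rw [mul_add, mul_add]; exact add_mem h2 h2'
  | smul r x _ hx =>
    obtain ⟨φ, h1, h2⟩ := hx
    refine ⟨algebraMap ℂ (FnField I) r * φ, ?_, ?_⟩
    · rw [mul_smul, ← h1, algebraMap_smul]
    · have e1 : fnRatio I i l ^ (a * e) * (hd ^ a * (algebraMap ℂ (FnField I) r * φ)) =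
          algebraMap ℂ (FnField I) r * (fnRatio I i l ^ (a * e) * (hd ^ a * φ)) := by ring
      rw [e1]
      exact mul_mem (Subalgebra.algebraMap_mem _ r) h2

/-! ### The coefficient map -/

/-- `F ↦ F • wm` is an isomorphism -/
def coefEquiv (h : c.Dom q) (hX : IsSmoothProjective I n) (a : ℕ) :
    FnField I ≃ₗ[FnField I] PluriForms I n a :=
  LinearEquiv.ofBijective (LinearMap.toSpanSingleton (FnField I) (PluriForms I n a) (c.wm a))
    ⟨fun F G hFG => h.coeff_unique hX hFG, fun s => by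
      obtain ⟨F, hF⟩ := h.exists_coeff hX.homogeneous s
      exact ⟨F, hF.symm⟩⟩

theorem coefEquiv_symm_smul (h : c.Dom q) (hX : IsSmoothProjective I n) (a : ℕ)
    (s : PluriForms I n a) : (coefEquiv h hX a).symm s • c.wm a = s :=
  (coefEquiv h hX a).apply_symm_apply s

/-- **Crude bound** for the twisted forms. -/
theorem crude_TW (hX : IsSmoothProjective I n) (h : c.Dom q) {l : Fin (N + 1)}
    (hl : (X l : HomCoordRing N) ∉ I) :
    ∃ (r : ℕ) (y : Fin r → FnField I) (C : ℕ), AlgebraicIndependent ℂ y ∧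
      ∀ a j : ℕ, Module.Finite ℂ (TW I n l a j) ∧
        finrank ℂ (TW I n l a j) ≤ C * (a + j + 1) ^ r := by
  obtain ⟨e, hd, hde, hd0, hden⟩ := exists_den_chart h hX.homogeneous hl
  obtain ⟨r, y, C, hy, hC⟩ := crude (I := I) hl
  refine ⟨r, y, C * (e + 1) ^ r, hy, fun a j => ?_⟩
  have key : ∀ s ∈ TW I n l a j, hd ^ a * (coefEquiv h hX a).symm s ∈ WW I l (j + a * e) := by
    intro s hs
    rw [mem_WW]
    intro i hi
    obtain ⟨φ, h1, h2⟩ := hden a i hi _ (hs i hi)
    have h3 : φ = fnRatio I i l ^ j * (coefEquiv h hX a).symm s := by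
      refine h.coeff_unique hX (m := a) ?_
      rw [← h1, mul_smul, coefEquiv_symm_smul, zpow_natCast]
    rw [h3] at h2
    have e1 : fnRatio I i l ^ (j + a * e) * (hd ^ a * (coefEquiv h hX a).symm s) =
        fnRatio I i l ^ (a * e) * (hd ^ a * (fnRatio I i l ^ j * (coefEquiv h hX a).symm s)) := by
      rw [pow_add]; ring
    rw [e1]; exact h2
  let L : TW I n l a j →ₗ[ℂ] WW I l (j + a * e) :=
    { toFun := fun s => ⟨hd ^ a * (coefEquiv h hX a).symm s.1, key s.1 s.2⟩
      map_add' := fun s t => by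
        apply Subtype.ext
        change hd ^ a * (coefEquiv h hX a).symm (s.1 + t.1) = _
        rw [map_add, mul_add]; rfl
      map_smul' := fun r s => by
        apply Subtype.ext
        change hd ^ a * (coefEquiv h hX a).symm (r • s.1) =
          r • (hd ^ a * (coefEquiv h hX a).symm s.1)
        rw [← algebraMap_smul (FnField I) r s.1, map_smul, smul_eq_mul, Algebra.smul_def]
        ring }
  have hL : Function.Injective L := by
    intro s t hst
    have h1 : hd ^ a * (coefEquiv h hX a).symm s.1 = hd ^ a * (coefEquiv h hX a).symm t.1 :=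
      congrArg (fun v : WW I l (j + a * e) => (v : FnField I)) hst
    have h2 := mul_left_cancel₀ (pow_ne_zero a hd0) h1
    exact Subtype.ext ((coefEquiv h hX a).symm.injective h2)
  obtain ⟨hf, hb⟩ := hC (j + a * e)
  refine ⟨Module.Finite.of_injective L hL, ?_⟩
  refine (LinearMap.finrank_le_finrank_of_injective hL).trans (hb.trans ?_)
  rw [mul_assoc, ← mul_pow]
  refine Nat.mul_le_mul_left _ (Nat.pow_le_pow_left ?_ r)
  nlinarith

end Crest.Agent.R269.Cnt4_197
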