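import Mathlib

/-!
Row 269, P10-COUNT, part 5: over a UFD `R`, if `s₀ x` and `s₁ x` are integral over `R` and
`s₀, s₁` are coprime, then `x` is integral over `R`.
-/

set_option autoImplicit false

open Polynomial
open scoped nonZeroDivisors

namespace Crest.Agent.R269.Cnt5_197

/-- a nonzero polynomial over the fraction field is a multiple of a primitive one -/
theorem exists_primitive {R K : Type*} [CommRing R] [IsDomain R] [UniqueFactorizationMonoid R]
    [Field K] [Algebra R K] [IsFractionRing R K] (g : K[X]) (hg : g ≠ 0) :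
    ∃ P : R[X], P.IsPrimitive ∧ P.map (algebraMap R K) ∣ g ∧ g ∣ P.map (algebraMap R K) := by
  obtain ⟨inst⟩ : Nonempty (NormalizedGCDMonoid R) := inferInstance
  set G := IsLocalization.integerNormalization R⁰ g with hG
  obtain ⟨b, hb0, hb⟩ := IsLocalization.integerNormalization_spec R⁰ g
  rw [Algebra.smul_def, Polynomial.algebraMap_apply] at hb
  have hb0' : algebraMap R K b ≠ 0 := by
    intro h
    exact nonZeroDivisors.ne_zero hb0 ((map_eq_zero_iff _ (IsFractionRing.injective R K)).1 h)
  have hGc : G = C G.content * G.primPart := G.eq_C_content_mul_primPart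
  have hG0 : G ≠ 0 := by
    intro h
    rw [← hG, h, Polynomial.map_zero] at hb
    rcases mul_eq_zero.1 hb.symm with h1 | h1
    · exact hb0' (by simpa using h1)
    · exact hg h1
  have hc0 : algebraMap R K G.content ≠ 0 := by
    intro h
    have h1 := (map_eq_zero_iff _ (IsFractionRing.injective R K)).1 h
    rw [content_eq_zero_iff] at h1
    exact hG0 h1
  have h2 : C (algebraMap R K b) * g = C (algebraMap R K G.content) *
      G.primPart.map (algebraMap R K) := by
    rw [← hb, ← hG]
    conv_lhs => rw [hGc]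
    rw [Polynomial.map_mul, map_C]
  refine ⟨G.primPart, G.isPrimitive_primPart, ?_, ?_⟩
  · refine ⟨C ((algebraMap R K b)⁻¹ * algebraMap R K G.content), ?_⟩
    have h3 : C ((algebraMap R K b)⁻¹) * (C (algebraMap R K b) * g) = g := by
      rw [← mul_assoc, ← C_mul, inv_mul_cancel₀ hb0', C_1, one_mul]
    rw [← h3, h2, C_mul]; ring
  · refine ⟨C ((algebraMap R K G.content)⁻¹ * algebraMap R K b), ?_⟩
    have h3 : C ((algebraMap R K G.content)⁻¹) * (C (algebraMap R K G.content) *
        G.primPart.map (algebraMap R K)) = G.primPart.map (algebraMap R K) := by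
      rw [← mul_assoc, ← C_mul, inv_mul_cancel₀ hc0, C_1, one_mul]
    rw [← h3, ← h2, C_mul]; ring

theorem exists_scaled {R L : Type*} [CommRing R] [IsDomain R] [Field L] [Algebra R L] {s : R}
    (hs : s ≠ 0) {x : L} (h : IsIntegral R (algebraMap R L s * x)) :
    ∃ (G : R[X]) (d : ℕ), aeval x G = 0 ∧ G.leadingCoeff = s ^ d := by
  obtain ⟨F, hF, hF0⟩ := h
  refine ⟨F.comp (C s * X), F.natDegree, ?_, ?_⟩
  · rw [aeval_comp, map_mul, aeval_C, aeval_X]; exact hF0
  · have h1 : (C s * X : R[X]).natDegree = 1 := natDegree_C_mul_X s hs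
    rw [leadingCoeff_comp (by rw [h1]; exact one_ne_zero), hF.leadingCoeff, one_mul,
      leadingCoeff_C_mul_X]

theorem isIntegral_of_two {R L : Type*} [CommRing R] [IsDomain R] [UniqueFactorizationMonoid R]
    [Field L] [Algebra R L] (hinj : Function.Injective (algebraMap R L)) {s0 s1 : R}
    (hs0 : s0 ≠ 0) (hs1 : s1 ≠ 0) (hrel : IsRelPrime s0 s1) {x : L}
    (h0 : IsIntegral R (algebraMap R L s0 * x)) (h1 : IsIntegral R (algebraMap R L s1 * x)) :
    IsIntegral R x := by
  let K := FractionRing R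
  let _ : Algebra K L := (IsFractionRing.lift (A := R) (K := K) hinj).toAlgebra
  have htow : IsScalarTower R K L := IsScalarTower.of_algebraMap_eq fun r =>
    (IsFractionRing.lift_algebraMap (A := R) (K := K) hinj r).symm
  obtain ⟨G0, d0, hG0, hl0⟩ := exists_scaled hs0 h0
  obtain ⟨G1, d1, hG1, hl1⟩ := exists_scaled hs1 h1
  have hG0' : aeval x (G0.map (algebraMap R K)) = 0 := by rw [aeval_map_algebraMap, hG0]
  have hG1' : aeval x (G1.map (algebraMap R K)) = 0 := by rw [aeval_map_algebraMap, hG1]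
  have hG0ne : G0 ≠ 0 := by
    intro h
    rw [h, leadingCoeff_zero] at hl0
    exact pow_ne_zero d0 hs0 hl0.symm
  have hxint : IsIntegral K x := by
    rw [← isAlgebraic_iff_isIntegral]
    refine ⟨G0.map (algebraMap R K), ?_, hG0'⟩
    rwa [Ne, Polynomial.map_eq_zero_iff (IsFractionRing.injective R K)]
  obtain ⟨P, hP, hP1, hP2⟩ := exists_primitive (R := R) (minpoly K x) (minpoly.ne_zero hxint)
  have hd0 : P ∣ G0 :=
    hP.dvd_of_fraction_map_dvd_fraction_map (K := K) (hP1.trans (minpoly.dvd K x hG0'))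
  have hd1 : P ∣ G1 :=
    hP.dvd_of_fraction_map_dvd_fraction_map (K := K) (hP1.trans (minpoly.dvd K x hG1'))
  have hu : IsUnit P.leadingCoeff := by
    have e0 : P.leadingCoeff ∣ s0 ^ d0 := by
      rw [← hl0]; exact leadingCoeff_dvd_leadingCoeff hd0
    have e1 : P.leadingCoeff ∣ s1 ^ d1 := by
      rw [← hl1]; exact leadingCoeff_dvd_leadingCoeff hd1
    exact (hrel.pow (m := d0) (n := d1)) e0 e1
  have hPx : aeval x P = 0 := by
    have h2 : aeval x (P.map (algebraMap R K)) = 0 := by
      obtain ⟨Q, hQ⟩ := hP2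
      rw [hQ, map_mul, minpoly.aeval, zero_mul]
    rwa [aeval_map_algebraMap] at h2
  obtain ⟨u, hu⟩ := hu
  refine ⟨C ((u⁻¹ : Rˣ) : R) * P, ?_, ?_⟩
  · unfold Monic
    rw [leadingCoeff_mul, leadingCoeff_C, ← hu, Units.inv_mul]
  · have : aeval x (C ((u⁻¹ : Rˣ) : R) * P) = 0 := by rw [map_mul, hPx, mul_zero]
    exact this

end Crest.Agent.R269.Cnt5_197
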