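import Mathlib
import Crest.Agent.R065.NN_669
import Crest.Agent.R271.C5a_756
import Crest.Agent.R269.Cnt5_197

/-!
Row 269, P10-COUNT, part 6: the graded Noether normalisation `ℂ[T, y₁T, …, y_rT] ⊆ K[T]`, integrality
of the Rees algebra `⊕ U_q T^q`, and the extension lemma.
-/

set_option autoImplicit false

open Polynomial
open Crest.Agent.R065.HF669

noncomputable section

namespace Crest.Agent.R269.Cnt6_197

variable {E : Type*} [Field E] [Algebra ℂ E] {r : ℕ}

/-- `(1, y_1, …, y_r)` -/
def xv (y : Fin r → E) : Fin (r + 1) → E := Fin.cons 1 y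

/-- `(T, y_1 T, …, y_r T)` -/
def gg (y : Fin r → E) : Fin (r + 1) → E[X] := fun i => monomial 1 (xv y i)

theorem coeff_aeval_gg (y : Fin r → E) (F : MvPolynomial (Fin (r + 1)) ℂ) (q : ℕ) :
    (MvPolynomial.aeval (gg y) F).coeff q =
      MvPolynomial.aeval (xv y) (MvPolynomial.homogeneousComponent q F) :=
  Crest.Agent.R271.C5_756.coeff_aeval_monomial_one (xv y) F q

theorem aeval_smul_hom' {R A σ : Type*} [CommRing R] [CommRing A] [Algebra R A]
    {G : MvPolynomial σ R} {k : ℕ} (hG : G.IsHomogeneous k) (c : A) (x : σ → A) :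
    MvPolynomial.aeval (fun j => c * x j) G = c ^ k * MvPolynomial.aeval x G := by
  rw [MvPolynomial.aeval_def, MvPolynomial.aeval_def, MvPolynomial.eval₂_eq,
    MvPolynomial.eval₂_eq, Finset.mul_sum]
  refine Finset.sum_congr rfl fun d hd => ?_
  have h1 : ∑ i ∈ d.support, d i = k := by
    have := hG (MvPolynomial.mem_support_iff.1 hd)
    rw [← this, Finsupp.weight_apply]
    simp [Finsupp.sum]
  rw [← h1]
  simp_rw [mul_pow]
  rw [Finset.prod_mul_distrib, Finset.prod_pow_eq_pow_sum]
  ring

theorem aeval_eq_eval' {τ : Type*} (w : τ → ℂ) (F : MvPolynomial τ ℂ) :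
    MvPolynomial.aeval w F = MvPolynomial.eval w F := by
  rw [← MvPolynomial.coe_aeval_eq_eval]; rfl

theorem homog_eq_zero {y : Fin r → E} (hy : AlgebraicIndependent ℂ y)
    {F : MvPolynomial (Fin (r + 1)) ℂ} {k : ℕ} (hF : F.IsHomogeneous k)
    (h : MvPolynomial.aeval (xv y) F = 0) : F = 0 := by
  let v : Fin (r + 1) → MvPolynomial (Fin r) ℂ := Fin.cons 1 MvPolynomial.X
  have h1 : MvPolynomial.aeval v F = 0 := by
    apply hy
    rw [map_zero]
    have h2 : (MvPolynomial.aeval y).comp (MvPolynomial.aeval v) =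
        (MvPolynomial.aeval (xv y) : MvPolynomial (Fin (r + 1)) ℂ →ₐ[ℂ] E) := by
      apply MvPolynomial.algHom_ext
      intro i
      refine Fin.cases ?_ (fun j => ?_) i
      · simp [v, xv]
      · simp [v, xv]
    have h3 := congrArg (fun f => f F) h2
    simp only [AlgHom.comp_apply] at h3
    rw [h3, h]
  have h2 : ∀ b : Fin r → ℂ, MvPolynomial.eval (Fin.cons 1 b : Fin (r + 1) → ℂ) F = 0 := by
    intro b
    have h3 : (MvPolynomial.aeval b).comp (MvPolynomial.aeval v) =
        (MvPolynomial.aeval (Fin.cons 1 b : Fin (r + 1) → ℂ) :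
          MvPolynomial (Fin (r + 1)) ℂ →ₐ[ℂ] ℂ) := by
      apply MvPolynomial.algHom_ext
      intro i
      refine Fin.cases ?_ (fun j => ?_) i
      · simp [v]
      · simp [v]
    have h4 := congrArg (fun f => f F) h3
    simp only [AlgHom.comp_apply] at h4
    rw [h1, map_zero, aeval_eq_eval'] at h4
    exact h4.symm
  have h3 : MvPolynomial.X 0 * F = 0 := by
    apply MvPolynomial.funext
    intro w
    rw [map_mul, MvPolynomial.eval_X, map_zero]
    by_cases hw : w 0 = 0
    · rw [hw, zero_mul]
    · have h4 : w = fun j => w 0 * (Fin.cons 1 (fun k : Fin r => w k.succ / w 0) :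
          Fin (r + 1) → ℂ) j := by
        funext j
        refine Fin.cases ?_ (fun k => ?_) j
        · simp
        · simp only [Fin.cons_succ]
          field_simp
      have h5 : MvPolynomial.eval w F = w 0 ^ k *
          MvPolynomial.eval (Fin.cons 1 (fun k : Fin r => w k.succ / w 0) : Fin (r + 1) → ℂ) F := by
        conv_lhs => rw [h4]
        have h6 := aeval_smul_hom' hF (w 0)
          (Fin.cons 1 (fun k : Fin r => w k.succ / w 0) : Fin (r + 1) → ℂ)
        rw [aeval_eq_eval', aeval_eq_eval'] at h6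
        exact h6
      rw [h5, h2, mul_zero, mul_zero]
  rcases mul_eq_zero.1 h3 with h4 | h4
  · exact absurd h4 (MvPolynomial.X_ne_zero 0)
  · exact h4

theorem aeval_gg_injective {y : Fin r → E} (hy : AlgebraicIndependent ℂ y) :
    Function.Injective (MvPolynomial.aeval (gg y) : MvPolynomial (Fin (r + 1)) ℂ →ₐ[ℂ] E[X]) := by
  rw [injective_iff_map_eq_zero]
  intro F hF
  rw [← MvPolynomial.sum_homogeneousComponent F]
  refine Finset.sum_eq_zero fun d _ => ?_
  refine homog_eq_zero hy (MvPolynomial.homogeneousComponent_isHomogeneous d F) ?_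
  rw [← coeff_aeval_gg, hF, coeff_zero]

/-! ### Integrality of the Rees algebra -/

variable {σ : Type*}

/-- the homogenisation of a polynomial in `y` of degree `≤ q` -/
theorem exists_aeval_gg (y : Fin r → E) {q : ℕ} {u : E} (hu : u ∈ U ℂ y q) :
    ∃ F : MvPolynomial (Fin (r + 1)) ℂ, MvPolynomial.aeval (gg y) F = monomial q u := by
  let S : Submodule ℂ E :=
    ((MvPolynomial.aeval (gg y) : MvPolynomial (Fin (r + 1)) ℂ →ₐ[ℂ] E[X]).range.toSubmodule).comap
      ((monomial q : E →ₗ[E] E[X]).restrictScalars ℂ)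
  have key : U ℂ y q ≤ S := by
    apply U_le_of_monomials
    intro n hn
    change monomial q (n.prod fun i e => y i ^ e) ∈
      (MvPolynomial.aeval (gg y) : MvPolynomial (Fin (r + 1)) ℂ →ₐ[ℂ] E[X]).range
    obtain ⟨d, rfl⟩ := exists_add_of_le hn
    refine ⟨MvPolynomial.X 0 ^ d * ∏ i ∈ n.support, MvPolynomial.X i.succ ^ n i, ?_⟩
    have h1 : ∀ i : Fin r, MvPolynomial.aeval (gg y) (MvPolynomial.X i.succ :
        MvPolynomial (Fin (r + 1)) ℂ) = monomial 1 (y i) := by
      intro i; simp [gg, xv]
    have h0 : MvPolynomial.aeval (gg y) (MvPolynomial.X 0 :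
        MvPolynomial (Fin (r + 1)) ℂ) = monomial 1 (1 : E) := by
      simp [gg, xv]
    have h2 : MvPolynomial.aeval (gg y) (∏ i ∈ n.support, (MvPolynomial.X i.succ :
        MvPolynomial (Fin (r + 1)) ℂ) ^ n i) = monomial n.degree (n.prod fun i e => y i ^ e) := by
      rw [map_prod]
      simp_rw [map_pow, h1, monomial_pow, one_mul]
      rw [Finsupp.prod, Finsupp.degree_apply]
      generalize n.support = s
      classical
      induction s using Finset.induction_on with
      | empty => simp
      | insert i s hi ih =>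
        rw [Finset.prod_insert hi, ih, Finset.prod_insert hi, Finset.sum_insert hi,
          monomial_mul_monomial]
    change MvPolynomial.aeval (gg y) _ = _
    rw [map_mul, h2, map_pow, h0, monomial_pow, monomial_mul_monomial, one_pow, one_mul, one_mul,
      add_comm]
  obtain ⟨F, hF⟩ := key hu
  exact ⟨F, hF⟩

/-- the algebra structure of `E[T]` over `ℂ[X_0, …, X_r]` -/
@[reducible] def algR (y : Fin r → E) : Algebra (MvPolynomial (Fin (r + 1)) ℂ) E[X] :=
  (MvPolynomial.aeval (gg y)).toRingHom.toAlgebra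

theorem isIntegral_monomial {z : σ → E} {y : Fin r → E} (hy1 : ∀ i, y i ∈ U ℂ z 1)
    {B : Set E} (hB : B.Finite) (hBU : ∀ q, U ℂ z q ≤ Submodule.span ℂ B * U ℂ y q)
    {q : ℕ} {a : E} (ha : a ∈ U ℂ z q) :
    @IsIntegral (MvPolynomial (Fin (r + 1)) ℂ) E[X] _ _ (algR y) (monomial q a : E[X]) := by
  let _ := algR y
  have halg : ∀ F : MvPolynomial (Fin (r + 1)) ℂ,
      algebraMap (MvPolynomial (Fin (r + 1)) ℂ) E[X] F = MvPolynomial.aeval (gg y) F :=
    fun F => rfl
  let M : Submodule (MvPolynomial (Fin (r + 1)) ℂ) E[X] := Submodule.span _ (C '' B)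
  have hMfg : M.FG := Submodule.fg_span (hB.image _)
  have hMN : IsNoetherian (MvPolynomial (Fin (r + 1)) ℂ) M := isNoetherian_of_fg_of_noetherian M hMfg
  have hCm : ∀ m ∈ Submodule.span ℂ B, (C m : E[X]) ∈ M := by
    intro m hm
    induction hm using Submodule.span_induction with
    | mem b hb => exact Submodule.subset_span ⟨b, hb, rfl⟩
    | zero => rw [map_zero]; exact M.zero_mem
    | add x y _ _ hx hy => rw [map_add]; exact M.add_mem hx hy
    | smul c x _ hx =>
      have h3 : (C (c • x) : E[X]) = (MvPolynomial.C c : MvPolynomial (Fin (r + 1)) ℂ) • C x := by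
        change _ = MvPolynomial.aeval (gg y) (MvPolynomial.C c) * C x
        rw [MvPolynomial.aeval_C, Polynomial.algebraMap_apply, ← C_mul, Algebra.smul_def]
      rw [h3]; exact M.smul_mem _ hx
  -- all the graded pieces are in `M`
  have hmem : ∀ (q : ℕ) (a : E), a ∈ U ℂ z q → (monomial q a : E[X]) ∈ M := by
    intro q a ha
    have h2 := hBU q ha
    clear ha
    induction h2 using Submodule.mul_induction_on' with
    | mem_mul_mem m hm u hu =>
      obtain ⟨F, hF⟩ := exists_aeval_gg y hu
      have h3 : (monomial q (m * u) : E[X]) = F • (C m) := by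
        rw [Algebra.smul_def, halg, hF, monomial_mul_C, mul_comm]
      rw [h3]
      exact M.smul_mem _ (hCm m hm)
    | add x _ y _ hx hy => rw [map_add]; exact M.add_mem hx hy
  -- the Rees algebra
  have hxv : ∀ i, xv y i ∈ U ℂ z 1 := by
    intro i
    refine Fin.cases ?_ (fun j => ?_) i
    · exact one_mem_U z 1
    · exact hy1 j
  let S : Subalgebra (MvPolynomial (Fin (r + 1)) ℂ) E[X] :=
    { carrier := {P | ∀ k, P.coeff k ∈ U ℂ z k}
      mul_mem' := by
        intro P Q hP hQ k
        rw [coeff_mul]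
        refine Submodule.sum_mem _ fun x hx => ?_
        have := mul_mem_U (hP x.1) (hQ x.2)
        rwa [Finset.HasAntidiagonal.mem_antidiagonal.1 hx] at this
      add_mem' := by
        intro P Q hP hQ k
        rw [coeff_add]; exact Submodule.add_mem _ (hP k) (hQ k)
      algebraMap_mem' := by
        intro F k
        rw [halg, coeff_aeval_gg]
        refine U_le_U hxv k ?_
        exact aeval_mem_U ((MvPolynomial.homogeneousComponent_isHomogeneous k F).totalDegree_le) }
  have hSM : Subalgebra.toSubmodule S ≤ M := by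
    intro P hP
    rw [← P.sum_monomial_eq]
    exact M.sum_mem fun k _ => hmem k _ (hP k)
  have hSN : IsNoetherian (MvPolynomial (Fin (r + 1)) ℂ) (Subalgebra.toSubmodule S) :=
    isNoetherian_of_le hSM
  refine isIntegral_of_submodule_noetherian S hSN _ ?_
  intro k
  rw [coeff_monomial]
  split_ifs with h
  · rw [← h]; exact ha
  · exact Submodule.zero_mem _

end Crest.Agent.R269.Cnt6_197
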