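import Mathlib
import Crest.Prelude.Def_ProjPluricanonical
import Crest.Agent.R269.Cnt2_197
import Crest.Agent.R269.Cnt6_197

/-!
Row 269, P10-COUNT, part 7: the extension lemma (REG): if `t f` and `t y f` are regular at `p`
(`t = x_l/x_i`, `y = Y/x_l` a linear Noether parameter) and the local ring is integrally closed,
then `f` is regular at `p`.
-/

set_option autoImplicit false
set_option linter.unusedSectionVars false

open MvPolynomial Module Crest.AlgGeometry.ProjEmb
open Crest.Agent.R269.DictA_795 Crest.Agent.R269.DictB_795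
open Crest.Agent.R065.HF669 Crest.Agent.R269.Cnt2_197 Crest.Agent.R269.Cnt6_197

noncomputable section

namespace Crest.Agent.R269.Cnt7_197

section eqn

variable {E : Type*} [Field E] [Algebra ℂ E] {r : ℕ} {σ : Type*}

theorem exists_equation {z : σ → E} {y : Fin r → E} (hy1 : ∀ i, y i ∈ U ℂ z 1) {k : ℕ} {a : E}
    (h : @IsIntegral (MvPolynomial (Fin (r + 1)) ℂ) (Polynomial E) _ _ (algR y)
      (Polynomial.monomial k a)) :
    ∃ (d : ℕ) (c : ℕ → E), (∀ j, c j ∈ U ℂ z (k * (d - j))) ∧
      a ^ d + ∑ j ∈ Finset.range d, c j * a ^ j = 0 := by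
  let _ := algR y
  obtain ⟨P, hP, hP0⟩ := h
  have hxv : ∀ i, xv y i ∈ U ℂ z 1 := by
    intro i
    refine Fin.cases ?_ (fun j => ?_) i
    · exact one_mem_U z 1
    · exact hy1 j
  refine ⟨P.natDegree, fun j => (aeval (gg y) (P.coeff j)).coeff (k * (P.natDegree - j)), ?_, ?_⟩
  · intro j
    change (aeval (gg y) (P.coeff j)).coeff _ ∈ _
    rw [coeff_aeval_gg]
    refine U_le_U hxv _ ?_
    exact aeval_mem_U ((homogeneousComponent_isHomogeneous _ _).totalDegree_le)
  · rw [Polynomial.eval₂_eq_sum_range] at hP0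
    have h1 := congrArg (fun Q => Polynomial.coeff Q (k * P.natDegree)) hP0
    simp only [Polynomial.coeff_zero, Polynomial.finsetSum_coeff] at h1
    have h2 : ∀ j ∈ Finset.range (P.natDegree + 1),
        (algebraMap (MvPolynomial (Fin (r + 1)) ℂ) (Polynomial E) (P.coeff j) *
          (Polynomial.monomial k a) ^ j).coeff (k * P.natDegree) =
        (aeval (gg y) (P.coeff j)).coeff (k * (P.natDegree - j)) * a ^ j := by
      intro j hj
      have hj' : j ≤ P.natDegree := by rw [Finset.mem_range] at hj; omega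
      have h3 : k * P.natDegree = k * (P.natDegree - j) + k * j := by
        rw [← mul_add]; congr 1; omega
      rw [Polynomial.monomial_pow, h3, Polynomial.coeff_mul_monomial]
      rfl
    rw [Finset.sum_congr rfl h2, Finset.sum_range_succ] at h1
    have h4 : (aeval (gg y) (P.coeff P.natDegree)).coeff (k * (P.natDegree - P.natDegree)) = 1 := by
      rw [Nat.sub_self, mul_zero]
      have : P.coeff P.natDegree = 1 := hP
      rw [this, map_one, Polynomial.coeff_one_zero]
    rw [h4, one_mul, add_comm] at h1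
    exact h1

theorem isIntegral_two_monomial {z : σ → E} {y : Fin r → E} (hy : AlgebraicIndependent ℂ y)
    (hy1 : ∀ i, y i ∈ U ℂ z 1) {B : Set E} (hB : B.Finite)
    (hBU : ∀ q, U ℂ z q ≤ Submodule.span ℂ B * U ℂ y q) (k0 : Fin r) {k : ℕ} {a : E}
    (h0 : a ∈ U ℂ z (k + 1)) (h1 : y k0 * a ∈ U ℂ z (k + 1)) :
    @IsIntegral (MvPolynomial (Fin (r + 1)) ℂ) (Polynomial E) _ _ (algR y)
      (Polynomial.monomial k a) := by
  let _ := algR y
  let L := FractionRing (Polynomial E)
  have htow : IsScalarTower (MvPolynomial (Fin (r + 1)) ℂ) (Polynomial E) L := inferInstance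
  have hinjL : Function.Injective (algebraMap (Polynomial E) L) := IsFractionRing.injective _ _
  have hinj : Function.Injective (algebraMap (MvPolynomial (Fin (r + 1)) ℂ) L) := by
    rw [IsScalarTower.algebraMap_eq (MvPolynomial (Fin (r + 1)) ℂ) (Polynomial E) L]
    exact hinjL.comp (aeval_gg_injective hy)
  have hI0 := isIntegral_monomial hy1 hB hBU h0
  have hI1 := isIntegral_monomial hy1 hB hBU h1
  have hrel : IsRelPrime (X 0 : MvPolynomial (Fin (r + 1)) ℂ) (X k0.succ) := by
    have hp0 : Prime (X 0 : MvPolynomial (Fin (r + 1)) ℂ) := MvPolynomial.X_prime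
    rw [hp0.irreducible.isRelPrime_iff_not_dvd]
    intro hdvd
    rw [MvPolynomial.X_dvd_X] at hdvd
    exact (Fin.succ_ne_zero k0) hdvd.symm
  have key := Cnt5_197.isIntegral_of_two (L := L) hinj (MvPolynomial.X_ne_zero 0)
    (MvPolynomial.X_ne_zero k0.succ) hrel
    (x := algebraMap (Polynomial E) L (Polynomial.monomial k a)) ?_ ?_
  · exact (isIntegral_algebraMap_iff hinjL).1 key
  · have e : algebraMap (MvPolynomial (Fin (r + 1)) ℂ) L (X 0) *
        algebraMap (Polynomial E) L (Polynomial.monomial k a) =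
        algebraMap (Polynomial E) L (Polynomial.monomial (k + 1) a) := by
      rw [IsScalarTower.algebraMap_apply (MvPolynomial (Fin (r + 1)) ℂ) (Polynomial E) L,
        ← map_mul]
      congr 1
      change aeval (gg y) (X 0) * _ = _
      rw [aeval_X]
      simp only [gg, xv, Fin.cons_zero]
      rw [Polynomial.monomial_mul_monomial, one_mul, add_comm]
    rw [e]
    exact hI0.algebraMap
  · have e : algebraMap (MvPolynomial (Fin (r + 1)) ℂ) L (X k0.succ) *
        algebraMap (Polynomial E) L (Polynomial.monomial k a) =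
        algebraMap (Polynomial E) L (Polynomial.monomial (k + 1) (y k0 * a)) := by
      rw [IsScalarTower.algebraMap_apply (MvPolynomial (Fin (r + 1)) ℂ) (Polynomial E) L,
        ← map_mul]
      congr 1
      change aeval (gg y) (X k0.succ) * _ = _
      rw [aeval_X]
      simp only [gg, xv, Fin.cons_succ]
      rw [Polynomial.monomial_mul_monomial, add_comm]
    rw [e]
    exact hI1.algebraMap

end eqn

variable {N : ℕ} {I : Ideal (HomCoordRing N)} [I.IsPrime]

theorem dh_change {l : Fin (N + 1)} (hl : (X l : HomCoordRing N) ∉ I) (i : Fin (N + 1)) {k : ℕ}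
    {H : HomCoordRing N} (hH : H.IsHomogeneous k) :
    dh I i H = fnRatio I i l ^ k * dh I l H := by
  unfold dh
  rw [← aeval_smul_hom hH]
  congr 1
  congr 1
  funext j
  exact (fnRatio_mul hl i j).symm

theorem rep_mul_dh {l : Fin (N + 1)} (hl : (X l : HomCoordRing N) ∉ I) {k : ℕ}
    {G H : HomCoordRing N} (hG : G.IsHomogeneous k) (hH : H.IsHomogeneous k) {u : FnField I}
    (h : IsRep u G H) : u * dh I l H = dh I l G := by
  apply toConeHom_injective
  rw [map_mul]
  have h1 := rep_dh hl hG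
  have h2 := rep_dh hl hH
  unfold IsRep at h h1 h2
  have h0 : coneHom I (X l ^ k) ≠ 0 := by
    rw [map_pow]; exact pow_ne_zero _ (coneHom_X_ne hl)
  apply mul_right_cancel₀ h0
  rw [h1, mul_assoc, h2, h]

/-- **The extension lemma (REG).** -/
theorem reg_core {l : Fin (N + 1)} (hl : (X l : HomCoordRing N) ∉ I) {r : ℕ}
    {y : Fin r → FnField I} (hy : AlgebraicIndependent ℂ y)
    (hy1 : ∀ i, y i ∈ U ℂ (fnRatio I l) 1) {B : Set (FnField I)} (hB : B.Finite)
    (hBU : ∀ q, U ℂ (fnRatio I l) q ≤ Submodule.span ℂ B * U ℂ y q) (k0 : Fin r)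
    {p : Fin (N + 1) → ℂ} (hp : p ∈ affineCone I) {i : Fin (N + 1)} (hpi : p i ≠ 0)
    (hcl : ∀ g : FnField I, IsIntegral (stalk I p) g → g ∈ stalk I p) {f : FnField I}
    (h0 : fnRatio I i l * f ∈ stalk I p) (h1 : fnRatio I i l * y k0 * f ∈ stalk I p) :
    f ∈ stalk I p := by
  have hXi : (X i : HomCoordRing N) ∉ I := X_not_mem hp hpi
  obtain ⟨k1, G1, H1, hG1, hH1, hpH1, hr1⟩ := h0
  obtain ⟨k2, G2, H2, hG2, hH2, hpH2, hr2⟩ := h1
  have e1 := rep_mul_dh hl hG1 hH1 (u := fnRatio I i l * f) hr1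
  have e2 := rep_mul_dh hl hG2 hH2 (u := fnRatio I i l * y k0 * f) hr2
  have hzt : fnRatio I l i * fnRatio I i l = 1 := by rw [fnRatio_mul hXi, fnRatio_self hl]
  set t := fnRatio I i l with ht
  set w := fnRatio I l i with hw
  set a := dh I l H1 * dh I l H2 * f with ha
  have hdU : ∀ {k : ℕ} {G : HomCoordRing N}, G.IsHomogeneous k → dh I l G ∈ U ℂ (fnRatio I l) k :=
    fun hG => aeval_mem_U hG.totalDegree_le
  have ha1 : a = dh I l H2 * (w * dh I l G1) := by
    rw [← e1]
    have : dh I l H2 * (w * (t * f * dh I l H1)) = (w * t) * (dh I l H1 * dh I l H2 * f) := by ring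
    rw [this, hzt, one_mul]
  have ha2 : y k0 * a = dh I l H1 * (w * dh I l G2) := by
    rw [← e2]
    have : dh I l H1 * (w * (t * y k0 * f * dh I l H2)) =
      (w * t) * (y k0 * (dh I l H1 * dh I l H2 * f)) := by ring
    rw [this, hzt, one_mul]
  have hw1 : w ∈ U ℂ (fnRatio I l) 1 := self_mem_U _ i
  have hm0 : a ∈ U ℂ (fnRatio I l) (k1 + k2 + 1) := by
    rw [ha1]
    have := mul_mem_U (hdU hH2) (mul_mem_U hw1 (hdU hG1))
    have e : k2 + (1 + k1) = k1 + k2 + 1 := by omega
    rwa [e] at this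
  have hm1 : y k0 * a ∈ U ℂ (fnRatio I l) (k1 + k2 + 1) := by
    rw [ha2]
    have := mul_mem_U (hdU hH1) (mul_mem_U hw1 (hdU hG2))
    have e : k1 + (1 + k2) = k1 + k2 + 1 := by omega
    rwa [e] at this
  have hint := isIntegral_two_monomial hy hy1 hB hBU k0 hm0 hm1
  obtain ⟨d, c, hc, heq⟩ := exists_equation hy1 hint
  set k := k1 + k2 with hk
  -- `α = t^k a` is integral over the stalk
  have hcs : ∀ j, t ^ (k * (d - j)) * c j ∈ stalk I p := by
    intro j
    have h3 := mem_WW.1 (U_le_WW hl _ (hc j)) i hXi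
    exact chartRing_le_stalk hp hpi h3
  let e : Fin d → stalk I p := fun j => ⟨t ^ (k * (d - j)) * c j, hcs j⟩
  have hα : IsIntegral (stalk I p) (t ^ k * a) := by
    refine ⟨Polynomial.X ^ d + ∑ j : Fin d, Polynomial.C (e j) * Polynomial.X ^ (j : ℕ),
      Polynomial.monic_X_pow_add (Polynomial.degree_sum_fin_lt e), ?_⟩
    rw [Polynomial.eval₂_add, Polynomial.eval₂_X_pow, Polynomial.eval₂_finsetSum]
    have h5 : ∑ j : Fin d, Polynomial.eval₂ (algebraMap (stalk I p) (FnField I)) (t ^ k * a)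
        (Polynomial.C (e j) * Polynomial.X ^ (j : ℕ)) =
        ∑ j ∈ Finset.range d, t ^ (k * d) * (c j * a ^ j) := by
      rw [Finset.sum_range]
      refine Finset.sum_congr rfl fun j _ => ?_
      rw [Polynomial.eval₂_mul, Polynomial.eval₂_C, Polynomial.eval₂_X_pow]
      have h6 : algebraMap (stalk I p) (FnField I) (e j) = t ^ (k * (d - j)) * c j := rfl
      have h7 : k * d = k * (d - j) + k * j := by
        rw [← mul_add]; congr 1; omega
      have h8 : (t ^ k * a) ^ (j : ℕ) = t ^ (k * (j : ℕ)) * a ^ (j : ℕ) := by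
        rw [mul_pow, ← pow_mul]
      rw [h6, h7, h8, pow_add t (k * (d - j)) (k * j)]; ring
    rw [h5, ← Finset.mul_sum, mul_pow, ← pow_mul, ← mul_add, heq, mul_zero]
  have hαm := hcl _ hα
  -- remove the units
  have e3 : t ^ k * a = dh I i H1 * dh I i H2 * f := by
    rw [dh_change hl i hH1, dh_change hl i hH2, ha, hk, pow_add]; ring
  rw [e3] at hαm
  have hunit : ∀ {k : ℕ} {H : HomCoordRing N}, H.IsHomogeneous k → eval p H ≠ 0 →
      ∃ v ∈ stalk I p, v * dh I i H = 1 := by
    intro k H hH hpH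
    have h6 : IsUnit (dhA hp hpi H) := by
      apply isUnit_of_ev_ne hp
      rw [ev_dhA hp hpi hH]
      exact div_ne_zero hpH (pow_ne_zero _ hpi)
    obtain ⟨v, hv⟩ := h6.exists_left_inv
    refine ⟨v, v.2, ?_⟩
    have := congrArg (fun x : stalk I p => (x : FnField I)) hv
    simp only [MulMemClass.coe_mul, OneMemClass.coe_one, coe_dhA] at this
    exact this
  obtain ⟨v1, hv1, hv1'⟩ := hunit hH1 hpH1
  obtain ⟨v2, hv2, hv2'⟩ := hunit hH2 hpH2
  have h8 := mul_mem (mul_mem hv1 hv2) hαm
  have h9 : v1 * v2 * (dh I i H1 * dh I i H2 * f) = (v1 * dh I i H1) * (v2 * dh I i H2) * f := by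
    ring
  rw [h9, hv1', hv2', one_mul, one_mul] at h8
  exact h8

end Crest.Agent.R269.Cnt7_197
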