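import Mathlib
import Crest.Prelude.Def_ProjPluricanonical
import Crest.Agent.R269.Cnt1_197
import Crest.Agent.R269.Cnt4_197
import Crest.Agent.R269.Cnt7_197

/-!
Row 269, P10-COUNT, part 8: the convexity argument for `j ↦ dim H⁰(aK + jA)` and the existence of a
section of `aK - A`.
-/

set_option autoImplicit false
set_option linter.unusedSectionVars false

open MvPolynomial Module Crest.AlgGeometry.ProjEmb
open Crest.Agent.R269.DictA_795 Crest.Agent.R269.DictB_795 Crest.Agent.R269.DictC_795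
open Crest.Agent.R269.DictD_795 Crest.Agent.R269.DictE_795
open Crest.Agent.R065.HF669 Crest.Agent.R269.Cnt2_197 Crest.Agent.R269.Cnt3_197
open Crest.Agent.R269.Cnt4_197 Crest.Agent.R269.Cnt7_197

noncomputable section

namespace Crest.Agent.R269.Cnt8_197

variable {N n : ℕ} {I : Ideal (HomCoordRing N)} [I.IsPrime]

/-- linear Noether parameters on the chart `x_l ≠ 0`, with degree control -/
structure NN (I : Ideal (HomCoordRing N)) [I.IsPrime] (l : Fin (N + 1)) where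
  r : ℕ
  y : Fin r → FnField I
  B : Set (FnField I)
  ind : AlgebraicIndependent ℂ y
  y1 : ∀ i, y i ∈ U ℂ (fnRatio I l) 1
  fin : B.Finite
  span : ∀ q, U ℂ (fnRatio I l) q ≤ Submodule.span ℂ B * U ℂ y q

theorem exists_NN (I : Ideal (HomCoordRing N)) [I.IsPrime] (l : Fin (N + 1)) :
    Nonempty (NN I l) := by
  obtain ⟨j, y, B, -, h1, h2, h3, -, h4⟩ :=
    noether_normalisation (k := ℂ) (N + 1) (fnRatio I l)
  exact ⟨⟨j, y, B, h2, h1, h3, h4⟩⟩

/-- in positive dimension there is a Noether parameter -/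
theorem NN.r_pos {l : Fin (N + 1)} (D : NN I l) (hl : (X l : HomCoordRing N) ∉ I)
    (hX : IsSmoothProjective I n) (hn : 1 ≤ n) {c : CD I n} {q : Fin (N + 1) → ℂ}
    (h : c.Dom q) : 0 < D.r := by
  by_contra hr
  have hr0 : D.r = 0 := by omega
  have hemp : IsEmpty (Fin D.r) := by rw [hr0]; infer_instance
  have hU : ∀ q, U ℂ D.y q ≤ 1 := by
    intro q x hx
    obtain ⟨f, -, rfl⟩ := mem_U.1 hx
    rw [MvPolynomial.eq_C_of_isEmpty f, MvPolynomial.aeval_C]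
    exact Submodule.mem_one.2 ⟨_, rfl⟩
  have hU2 : ∀ q, U ℂ (fnRatio I l) q ≤ Submodule.span ℂ D.B := by
    intro q
    refine (D.span q).trans (Submodule.mul_le.2 fun m hm u hu => ?_)
    obtain ⟨b, rfl⟩ := Submodule.mem_one.1 (hU q hu)
    rw [mul_comm, ← Algebra.smul_def]
    exact Submodule.smul_mem _ _ hm
  have hsub : Subalgebra.toSubmodule (chartRing I l) ≤ Submodule.span ℂ D.B := by
    intro x hx
    obtain ⟨q, hq⟩ := exists_mem_U_of_mem_chartRing hx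
    exact hU2 q hq
  have hfinB : Module.Finite ℂ (Submodule.span ℂ D.B) :=
    Module.Finite.span_of_finite ℂ D.fin
  have hfin : Module.Finite ℂ (chartRing I l) := Submodule.finiteDimensional_of_le hsub
  have hint : Algebra.IsIntegral ℂ (chartRing I l) := Algebra.IsIntegral.of_finite ℂ _
  have hbij : Function.Bijective (algebraMap ℂ (chartRing I l)) :=
    IsAlgClosed.algebraMap_bijective_of_isIntegral
  have hconst : ∀ j, ∃ b : ℂ, fnRatio I l j = algebraMap ℂ (FnField I) b := by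
    intro j
    obtain ⟨b, hb⟩ := hbij.2 ⟨fnRatio I l j, fnRatio_mem_chartRing l j⟩
    exact ⟨b, (congrArg (fun v : chartRing I l => (v : FnField I)) hb).symm⟩
  have hD : KaehlerDifferential.D ℂ (FnField I) (c.wL ⟨0, hn⟩) = 0 := by
    have hi : (X c.i : HomCoordRing N) ∉ I := h.not_mem_i
    have h1 : fnRatio I l c.i ≠ 0 := fnRatio_ne_zero hl hi
    have h2 : c.wL ⟨0, hn⟩ = (fnRatio I l c.i)⁻¹ * fnRatio I l (c.S ⟨0, hn⟩) := by
      rw [eq_inv_mul_iff_mul_eq₀ h1]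
      exact fnRatio_mul hi l _
    obtain ⟨b, hb⟩ := hconst c.i
    obtain ⟨b', hb'⟩ := hconst (c.S ⟨0, hn⟩)
    rw [h2, hb, hb', ← map_inv₀, ← map_mul, Derivation.map_algebraMap]
  apply h.ω_ne_zero hX
  unfold CD.ω wedgeD
  exact (exteriorPower.ιMulti (FnField I) n).map_coord_zero ⟨0, hn⟩ hD

/-- **(REG)** for twisted forms. -/
theorem TW_reg (hX : IsSmoothProjective I n) {l : Fin (N + 1)} (hl : (X l : HomCoordRing N) ∉ I)
    (D : NN I l) (k0 : Fin D.r)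
    (hcl : ∀ p ∈ affineCone I, p ≠ 0 → ∀ g : FnField I, IsIntegral (stalk I p) g → g ∈ stalk I p)
    {a : ℕ} {j : ℤ} {s : PluriForms I n a} (hs : s ∈ TW I n l a j)
    (hs' : D.y k0 • s ∈ TW I n l a j) : s ∈ TW I n l a (j - 1) := by
  intro i hi
  refine mem_chartSections_of_regAt hX hi fun p hp hpi => ?_
  have hp0 : p ≠ 0 := fun h => hpi (by rw [h]; rfl)
  obtain ⟨c, hc, -⟩ := exists_CD hX hp hp0 hpi
  obtain ⟨F, hF⟩ := hc.exists_coeff hX.homogeneous s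
  have ht0 : fnRatio I i l ≠ 0 := fnRatio_ne_zero hi hl
  set t := fnRatio I i l with ht
  have h0 : t * (t ^ (j - 1) * F) ∈ stalk I p := by
    obtain ⟨G, hG⟩ := regAt_of_mem_chartSections hX hp hpi (hs i hi) hc
    have h1 : t ^ j * F = (G : FnField I) := by
      refine hc.coeff_unique hX (m := a) ?_
      rw [← hG, mul_smul, ← hF]
    have h2 : t * (t ^ (j - 1) * F) = t ^ j * F := by
      rw [← mul_assoc, zpow_sub_one₀ ht0, mul_comm t, mul_assoc (t ^ j), inv_mul_cancel₀ ht0,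
        mul_one]
    rw [h2, h1]; exact G.2
  have h1 : t * D.y k0 * (t ^ (j - 1) * F) ∈ stalk I p := by
    obtain ⟨G, hG⟩ := regAt_of_mem_chartSections hX hp hpi (hs' i hi) hc
    have h1 : t ^ j * (D.y k0 * F) = (G : FnField I) := by
      refine hc.coeff_unique hX (m := a) ?_
      rw [← hG, mul_smul, mul_smul, ← hF]
    have h2 : t * D.y k0 * (t ^ (j - 1) * F) = t ^ j * (D.y k0 * F) := by
      have h3 : t * t ^ (j - 1) = t ^ j := by
        rw [zpow_sub_one₀ ht0, mul_comm t, mul_assoc, inv_mul_cancel₀ ht0, mul_one]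
      rw [← h3]; ring
    rw [h2, h1]; exact G.2
  have hf := reg_core hl D.ind D.y1 D.fin D.span k0 hp hpi (hcl p hp hp0) h0 h1
  refine ⟨c, hc, ⟨_, hf⟩, ?_⟩
  change t ^ (j - 1) • s = (t ^ (j - 1) * F) • c.wm a
  rw [mul_smul, ← hF]

/-- **The counting inequality.** -/
theorem count (hX : IsSmoothProjective I n) (hn : 1 ≤ n) {l : Fin (N + 1)}
    (hl : (X l : HomCoordRing N) ∉ I) {c : CD I n} {q : Fin (N + 1) → ℂ} (h : c.Dom q)
    (hcl : ∀ p ∈ affineCone I, p ≠ 0 → ∀ g : FnField I, IsIntegral (stalk I p) g → g ∈ stalk I p)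
    (htr : ∀ (r : ℕ) (y : Fin r → FnField I), AlgebraicIndependent ℂ y → r ≤ n) :
    ∃ C : ℕ, (∀ a j : ℕ, Module.Finite ℂ (TW I n l a j) ∧
        finrank ℂ (TW I n l a j) ≤ C * (a + j + 1) ^ n) ∧
      ∀ a : ℕ, TW I n l a (-1) = ⊥ → ∀ J M : ℕ, J ≤ M →
        finrank ℂ (TW I n l a J) * (M + 1) ≤ (J + 1) * finrank ℂ (TW I n l a M) := by
  obtain ⟨r, y, C, hy, hC⟩ := crude_TW hX h hl
  refine ⟨C, fun a j => ⟨(hC a j).1, (hC a j).2.trans ?_⟩, ?_⟩
  · exact Nat.mul_le_mul_left _ (Nat.pow_le_pow_right (by omega) (htr r y hy))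
  intro a hbot J M hJM
  obtain ⟨D⟩ := exists_NN I l
  have hr := D.r_pos hl hX hn h
  let k0 : Fin D.r := ⟨0, hr⟩
  let V : ℕ → Submodule ℂ (PluriForms I n a) := fun j => TW I n l a ((j : ℤ) - 1)
  have hVsucc : ∀ j : ℕ, V (j + 1) = TW I n l a (j : ℤ) := by
    intro j
    change TW I n l a (((j + 1 : ℕ) : ℤ) - 1) = _
    congr 1
    push_cast; ring
  have hV0 : V 0 = ⊥ := by
    change TW I n l a (((0 : ℕ) : ℤ) - 1) = ⊥
    rw [← hbot]; congr 1
  have hfin : ∀ j, Module.Finite ℂ (V j) := by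
    intro j
    cases j with
    | zero => rw [hV0]; infer_instance
    | succ j => rw [hVsucc]; exact (hC a j).1
  let u : PluriForms I n a →ₗ[ℂ] PluriForms I n a :=
    { toFun := fun s => D.y k0 • s
      map_add' := fun s t => smul_add _ _ _
      map_smul' := fun c s => smul_comm _ _ _ }
  have key := Cnt1_197.filt_conv V hV0 (fun j => ?_) hfin u (fun j x hx => ?_)
    (fun j x hx hx' => ?_) (J := J + 1) (M := M + 1) (by omega)
  · rw [hVsucc, hVsucc] at key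
    exact key
  · have := TW_mono_succ (n := n) hl (a := a) (j := (j : ℤ) - 1)
    have e : ((j : ℤ) - 1) + 1 = (((j + 1 : ℕ) : ℤ) - 1) := by push_cast; ring
    rw [e] at this
    exact this
  · have h1 := mul_smul_mem hl hx (U_le_WW hl 1 (D.y1 k0))
    have e : ((j : ℤ) - 1) + ((1 : ℕ) : ℤ) = (((j + 1 : ℕ) : ℤ) - 1) := by push_cast; ring
    rw [e] at h1
    exact h1
  · rw [hVsucc] at hx hx'
    exact TW_reg hX hl D k0 hcl hx hx'

/-- elementary estimate behind `big` -/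
theorem numeric (C n j0 : ℕ) (c2 : ℝ) (hc2 : 0 < c2) :
    ∃ q : ℕ, 1 ≤ q ∧ ∃ m0 : ℕ, ∀ m : ℕ, m0 ≤ m → m / q + j0 ≤ m ∧
      ∀ d : ℕ, c2 * (m : ℝ) ^ n ≤ d → ¬ (d * (m + 1) ≤ (m / q + j0 + 1) *
        (C * (m + 1 + m + 1) ^ n)) := by
  set K : ℝ := C * 4 ^ n with hK
  have hK0 : 0 ≤ K := by positivity
  obtain ⟨q, hq⟩ := exists_nat_gt (2 * K / c2)
  have hqq : 0 < (max q 2 : ℕ) := by omega
  obtain ⟨m1, hm1⟩ := exists_nat_gt (2 * K * (j0 + 1) / c2)
  refine ⟨max q 2, by omega, max m1 (max 1 (2 * j0)), fun m hm => ?_⟩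
  have hm1' : m1 ≤ m := (le_max_left _ _).trans hm
  have hm2 : 1 ≤ m := (le_max_left _ _).trans ((le_max_right _ _).trans hm)
  have hm3 : 2 * j0 ≤ m := (le_max_right _ _).trans ((le_max_right _ _).trans hm)
  have hdiv : m / max q 2 ≤ m / 2 := Nat.div_le_div_left (le_max_right _ _) (by norm_num)
  refine ⟨by omega, fun d hd hcon => ?_⟩
  have hcast : (d : ℝ) * (m + 1) ≤ (((m / max q 2 : ℕ) : ℝ) + j0 + 1) *
      (C * ((m : ℝ) + 1 + m + 1) ^ n) := by exact_mod_cast hcon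
  have hmpos : (0 : ℝ) < m := by exact_mod_cast hm2
  have hmn : (0 : ℝ) < (m : ℝ) ^ n := by positivity
  have h1 : ((m : ℝ) + 1 + m + 1) ^ n ≤ 4 ^ n * (m : ℝ) ^ n := by
    rw [← mul_pow]
    have h5 : (1 : ℝ) ≤ m := by exact_mod_cast hm2
    exact pow_le_pow_left₀ (by positivity) (by linarith) n
  have h2 : ((m / max q 2 : ℕ) : ℝ) ≤ (m : ℝ) / (max q 2 : ℕ) := Nat.cast_div_le
  have hqpos : (0 : ℝ) < (max q 2 : ℕ) := by exact_mod_cast hqq
  have hq' : 2 * K / c2 < (max q 2 : ℕ) := hq.trans_le (by exact_mod_cast le_max_left _ _)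
  have h3 : K * ((m : ℝ) / (max q 2 : ℕ)) < c2 * m / 2 := by
    rw [div_lt_iff₀ hc2] at hq'
    rw [mul_div_assoc', div_lt_iff₀ hqpos]
    nlinarith
  have h4 : K * (j0 + 1) < c2 * m / 2 := by
    have h5 : 2 * K * (j0 + 1) / c2 < m := hm1.trans_le (by exact_mod_cast hm1')
    rw [div_lt_iff₀ hc2] at h5
    linarith
  have h5 : (d : ℝ) * (m + 1) ≤ K * (m : ℝ) ^ n * ((m : ℝ) / (max q 2 : ℕ) + j0 + 1) := by
    calc (d : ℝ) * (m + 1) ≤ (((m / max q 2 : ℕ) : ℝ) + j0 + 1) *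
          (C * ((m : ℝ) + 1 + m + 1) ^ n) := hcast
      _ ≤ ((m : ℝ) / (max q 2 : ℕ) + j0 + 1) * (C * (4 ^ n * (m : ℝ) ^ n)) := by
          gcongr
      _ = K * (m : ℝ) ^ n * ((m : ℝ) / (max q 2 : ℕ) + j0 + 1) := by rw [hK]; ring
  have h6 : c2 * (m : ℝ) ^ n * m < c2 * (m : ℝ) ^ n * m := by
    calc c2 * (m : ℝ) ^ n * m ≤ d * (m + 1) := by
          have h7 : c2 * (m : ℝ) ^ n * m ≤ d * m := mul_le_mul_of_nonneg_right hd hmpos.le
          have h8 : (0 : ℝ) ≤ d := Nat.cast_nonneg d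
          linarith
      _ ≤ K * (m : ℝ) ^ n * ((m : ℝ) / (max q 2 : ℕ) + j0 + 1) := h5
      _ = (m : ℝ) ^ n * (K * ((m : ℝ) / (max q 2 : ℕ)) + K * (j0 + 1)) := by ring
      _ < (m : ℝ) ^ n * (c2 * m / 2 + c2 * m / 2) := by
          apply mul_lt_mul_of_pos_left _ hmn
          linarith
      _ = c2 * (m : ℝ) ^ n * m := by ring
  exact lt_irrefl _ h6

/-- **BIG**: many sections of `(m+1)K + (m/q + j₀)A`, uniformly in `q`, give a nonzero section of
`aK - A`, `a ≥ 1`. -/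
theorem big (hX : IsSmoothProjective I n) (hn : 1 ≤ n) {l : Fin (N + 1)}
    (hl : (X l : HomCoordRing N) ∉ I) {c : CD I n} {q : Fin (N + 1) → ℂ} (h : c.Dom q)
    (hcl : ∀ p ∈ affineCone I, p ≠ 0 → ∀ g : FnField I, IsIntegral (stalk I p) g → g ∈ stalk I p)
    (htr : ∀ (r : ℕ) (y : Fin r → FnField I), AlgebraicIndependent ℂ y → r ≤ n)
    (c2 : ℝ) (hc2 : 0 < c2) (j0 : ℕ) :
    ∃ q : ℕ, 1 ≤ q ∧ ∃ m0 : ℕ, ∀ m : ℕ, m0 ≤ m →
      c2 * (m : ℝ) ^ n ≤ finrank ℂ (TW I n l (m + 1) ((m / q + j0 : ℕ) : ℤ)) →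
      ∃ s ∈ TW I n l (m + 1) (-1), s ≠ 0 := by
  obtain ⟨C, hC1, hC2⟩ := count hX hn hl h hcl htr
  obtain ⟨q, hq, m0, hm0⟩ := numeric C n j0 c2 hc2
  refine ⟨q, hq, m0, fun m hm hbig => ?_⟩
  by_contra hcon
  push Not at hcon
  have hbot : TW I n l (m + 1) (-1) = ⊥ := by
    rw [Submodule.eq_bot_iff]; exact hcon
  obtain ⟨h1, h2⟩ := hm0 m hm
  refine h2 _ hbig ?_
  refine (hC2 (m + 1) hbot (m / q + j0) m h1).trans ?_
  exact Nat.mul_le_mul_left _ (hC1 (m + 1) m).2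

end Crest.Agent.R269.Cnt8_197
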