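import Mathlib
import Crest.Prelude.Def_ProjPluricanonical

/-!
Row 269: the spaces `H0tw I n l m j = H⁰(X, m K_X + j A)` of twisted pluricanonical sections
(`l` = reference coordinate with `X l ∉ I`; the section attached to `s` is `s ⊗ x_l^j`).
-/

set_option autoImplicit false

open MvPolynomial Crest.AlgGeometry.ProjEmb

noncomputable section

namespace Crest.Agent.R269.H0tw_795

variable {N : ℕ} (I : Ideal (HomCoordRing N)) [I.IsPrime] (n : ℕ)

/-- multiplication by a rational function as a `ℂ`-linear map -/
def smulL {m : ℕ} (a : FnField I) : PluriForms I n m →ₗ[ℂ] PluriForms I n m :=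
  (a • (LinearMap.id : PluriForms I n m →ₗ[FnField I] PluriForms I n m)).restrictScalars ℂ

variable {I n}

@[simp] theorem smulL_apply {m : ℕ} (a : FnField I) (s : PluriForms I n m) :
    smulL I n a s = a • s := rfl

variable (I n)

/-- sections of `m K_X + j A` -/
def H0tw (l : Fin (N + 1)) (m : ℕ) (j : ℤ) : Submodule ℂ (PluriForms I n m) :=
  ⨅ (i : Fin (N + 1)) (_ : (X i : HomCoordRing N) ∉ I),
    (chartSections I n m i).comap (smulL I n ((fnRatio I i l) ^ j))

variable {I n}

theorem mem_H0tw {l : Fin (N + 1)} {m : ℕ} {j : ℤ} {s : PluriForms I n m} :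
    s ∈ H0tw I n l m j ↔ ∀ i : Fin (N + 1), (X i : HomCoordRing N) ∉ I →
      (fnRatio I i l) ^ j • s ∈ chartSections I n m i := by
  unfold H0tw
  simp only [Submodule.mem_iInf, Submodule.mem_comap, smulL_apply]

theorem H0tw_zero {l : Fin (N + 1)} {m : ℕ} : H0tw I n l m 0 = pluricanonicalSections I n m := by
  ext s
  rw [mem_H0tw]
  unfold pluricanonicalSections
  simp only [Submodule.mem_iInf, zpow_zero, one_smul]

end Crest.Agent.R269.H0tw_795
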