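import Mathlib
import Crest.Prelude.Def_ProjPluricanonical
import Crest.Agent.R269.H0tw_795
import Crest.Agent.R269.Cnt8_197

/-!
Row 269, P10-COUNT, part 9: the counting theorem for helper795's `H0tw`.
-/

set_option autoImplicit false
set_option linter.unusedSectionVars false

open MvPolynomial Module Crest.AlgGeometry.ProjEmb
open Crest.Agent.R269.DictA_795 Crest.Agent.R269.DictB_795 Crest.Agent.R269.DictC_795
open Crest.Agent.R269.H0tw_795 Crest.Agent.R269.Cnt4_197 Crest.Agent.R269.Cnt8_197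

noncomputable section

namespace Crest.Agent.R269.Cnt9_197

variable {N n : ℕ} {I : Ideal (HomCoordRing N)} [I.IsPrime]

theorem TW_eq (l : Fin (N + 1)) (a : ℕ) (j : ℤ) : TW I n l a j = H0tw I n l a j := by
  ext s
  rw [mem_H0tw]
  rfl

/-- the local rings are integrally closed in the function field -/
def StalkClosed (I : Ideal (HomCoordRing N)) [I.IsPrime] : Prop :=
  ∀ p ∈ affineCone I, p ≠ 0 → ∀ g : FnField I, IsIntegral (stalk I p) g → g ∈ stalk I p

/-- the function field has transcendence degree at most `n` -/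
def TrLe (I : Ideal (HomCoordRing N)) [I.IsPrime] (n : ℕ) : Prop :=
  ∀ (r : ℕ) (y : Fin r → FnField I), AlgebraicIndependent ℂ y → r ≤ n

/-- `H⁰(aK + jA)` is finite dimensional, of dimension at most `C (a + j + 1)^n`. -/
theorem finrank_H0tw_le (hX : IsSmoothProjective I n) {l : Fin (N + 1)}
    (hl : (X l : HomCoordRing N) ∉ I) {c : CD I n} {q : Fin (N + 1) → ℂ} (h : c.Dom q)
    (htr : TrLe I n) :
    ∃ C : ℕ, ∀ a j : ℕ, Module.Finite ℂ (H0tw I n l a j) ∧
      finrank ℂ (H0tw I n l a j) ≤ C * (a + j + 1) ^ n := by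
  obtain ⟨r, y, C, hy, hC⟩ := crude_TW hX h hl
  refine ⟨C, fun a j => ?_⟩
  rw [← TW_eq]
  exact ⟨(hC a j).1, (hC a j).2.trans
    (Nat.mul_le_mul_left _ (Nat.pow_le_pow_right (by omega) (htr r y hy)))⟩

/-- finite dimensionality does not need the transcendence degree -/
theorem finite_H0tw (hX : IsSmoothProjective I n) {l : Fin (N + 1)}
    (hl : (X l : HomCoordRing N) ∉ I) {c : CD I n} {q : Fin (N + 1) → ℂ} (h : c.Dom q)
    (a j : ℕ) : Module.Finite ℂ (H0tw I n l a j) := by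
  obtain ⟨r, y, C, hy, hC⟩ := crude_TW hX h hl
  rw [← TW_eq]
  exact (hC a j).1

/-- **BIG** for `H0tw`. -/
theorem big_H0tw (hX : IsSmoothProjective I n) (hn : 1 ≤ n) {l : Fin (N + 1)}
    (hl : (X l : HomCoordRing N) ∉ I) {c : CD I n} {q : Fin (N + 1) → ℂ} (h : c.Dom q)
    (hcl : StalkClosed I) (htr : TrLe I n) (c2 : ℝ) (hc2 : 0 < c2) (j0 : ℕ) :
    ∃ q : ℕ, 1 ≤ q ∧ ∃ m0 : ℕ, ∀ m : ℕ, m0 ≤ m →
      c2 * (m : ℝ) ^ n ≤ finrank ℂ (H0tw I n l (m + 1) ((m / q + j0 : ℕ) : ℤ)) →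
      ∃ s ∈ H0tw I n l (m + 1) (-1), s ≠ 0 := by
  obtain ⟨q, hq, m0, hm0⟩ := big hX hn hl h hcl htr c2 hc2 j0
  refine ⟨q, hq, m0, fun m hm hbig => ?_⟩
  have := hm0 m hm (by rw [TW_eq]; exact hbig)
  rwa [TW_eq] at this

end Crest.Agent.R269.Cnt9_197
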