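import Crest.Agent.R269.Reg3_241
import Crest.Agent.R269.Chart_632

/-!
# R269 (S0411): a homogeneous polynomial outside `I` is nonzero on a dense subset of the cone (helper85)

Glue for `BigStmt`: the identity principle on `X` (I prime) through Krull's theorem (`Reg3_241`), at
every cone point, without connectedness of `X`.
-/

set_option autoImplicit false

open MvPolynomial Crest.AlgGeometry.ProjEmb Crest.Agent.R269.Geo_328 Crest.Agent.R269.Reg3_241
open Filter Topology

namespace Crest.Agent.R269.Dense_85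

noncomputable section

variable {N n : ℕ} {I : Ideal (HomCoordRing N)}

/-- the affine germ of a cone chart, at every point of the chart -/
theorem affGerm (hX : IsSmoothProjective I n) {p₀ : EE N} (C : ConeChart I n p₀)
    {z : CC n} (hz : z ∈ Metric.ball (0 : CC n) C.R) :
    AffGerm I C.i C.J (fun y => C.σ (y - fun k => p₀ (C.J k) / p₀ C.i))
      (z + fun k => p₀ (C.J k) / p₀ C.i) := by
  set z₀ : CC n := fun k => p₀ (C.J k) / p₀ C.i with hz₀
  have hsub : z + z₀ - z₀ = z := add_sub_cancel_right z z₀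
  have hcont : Tendsto (fun y : CC n => y - z₀) (𝓝 (z + z₀)) (𝓝 z) := by
    have : ContinuousAt (fun y : CC n => y - z₀) (z + z₀) := by fun_prop
    have h := this.tendsto
    rwa [hsub] at h
  have hev : ∀ᶠ y in 𝓝 (z + z₀), y - z₀ ∈ Metric.ball (0 : CC n) C.R :=
    hcont.eventually (Metric.isOpen_ball.mem_nhds hz)
  have hσd : DifferentiableAt ℂ C.σ z := (C.an z hz).differentiableAt
  refine ⟨hX.homogeneous, ?_, ?_, ?_, ?_, ?_⟩
  · have h1 : DifferentiableAt ℂ C.σ (z + z₀ - z₀) := by rw [hsub]; exact hσd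
    exact h1.comp (z + z₀) (differentiableAt_id.sub_const z₀)
  · filter_upwards [hev] with y hy using C.σ_i _ hy
  · filter_upwards [hev] with y hy k
    rw [C.σ_J _ hy k]
    simp [hz₀]
  · filter_upwards [hev] with y hy F hF
    exact (C.σ_cone _ hy).1 F hF
  · intro v hv hvi hvJ
    have hv' : v ∈ Tan I (C.σ z) := by
      intro F hF
      have := hv F hF
      simp only [hsub] at this
      rw [dP]
      rw [← this]
      exact Finset.sum_congr rfl fun j _ => mul_comm _ _
    obtain ⟨c, x, hcx⟩ := (C.tan z hz v).1 hv'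
    -- derivative of the coordinates of `σ`
    have hd : HasFDerivAt C.σ (fderiv ℂ C.σ z) z := hσd.hasFDerivAt
    have hdi : fderiv ℂ C.σ z x C.i = 0 := by
      have h1 : HasFDerivAt (fun y => C.σ y C.i)
          ((ContinuousLinearMap.proj C.i).comp (fderiv ℂ C.σ z)) z :=
        (hasFDerivAt_pi'.1 hd C.i)
      have h2 : (fun y => C.σ y C.i) =ᶠ[𝓝 z] fun _ => (1 : ℂ) := by
        filter_upwards [Metric.isOpen_ball.mem_nhds hz] with y hy using C.σ_i y hy
      have h3 := h1.unique ((hasFDerivAt_const (1 : ℂ) z).congr_of_eventuallyEq h2)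
      have := congrArg (fun L : CC n →L[ℂ] ℂ => L x) h3
      simpa using this
    have hdJ : ∀ k, fderiv ℂ C.σ z x (C.J k) = x k := by
      intro k
      have h1 : HasFDerivAt (fun y => C.σ y (C.J k))
          ((ContinuousLinearMap.proj (C.J k)).comp (fderiv ℂ C.σ z)) z :=
        (hasFDerivAt_pi'.1 hd (C.J k))
      have h2 : (fun y => C.σ y (C.J k)) =ᶠ[𝓝 z] fun y => p₀ (C.J k) / p₀ C.i + y k := by
        filter_upwards [Metric.isOpen_ball.mem_nhds hz] with y hy using C.σ_J y hy k
      have h4 : HasFDerivAt (fun y : CC n => p₀ (C.J k) / p₀ C.i + y k)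
          (ContinuousLinearMap.proj (R := ℂ) (φ := fun _ : Fin n => ℂ) k) z :=
        ((ContinuousLinearMap.proj (R := ℂ) (φ := fun _ : Fin n => ℂ) k).hasFDerivAt).const_add _
      have h3 := h1.unique (h4.congr_of_eventuallyEq h2)
      have := congrArg (fun L : CC n →L[ℂ] ℂ => L x) h3
      simpa using this
    have hc : c = 0 := by
      have := congrFun hcx C.i
      rw [Pi.add_apply, Pi.smul_apply, smul_eq_mul, C.σ_i z hz, hdi, hvi] at this
      simpa using this.symm
    have hx : x = 0 := by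
      funext k
      have := congrFun hcx (C.J k)
      rw [Pi.add_apply, Pi.smul_apply, hc, zero_smul, zero_add, hdJ, hvJ k] at this
      exact this.symm
    rw [hcx, hc, hx]
    simp

/-- **identity principle**: a homogeneous polynomial outside the prime `I` is nonzero at cone points
arbitrarily near every cone point -/
theorem frequently_eval_ne [hI : I.IsPrime] (hX : IsSmoothProjective I n) {p : EE N}
    (hp : p ∈ Cone I) {G : HomCoordRing N} {k : ℕ} (hG : G.IsHomogeneous k) (hGI : G ∉ I) :
    ∃ᶠ q in 𝓝 p, q ∈ Cone I ∧ MvPolynomial.eval q G ≠ 0 := by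
  intro hcon
  obtain ⟨C⟩ := Chart_632.coneChart hI hX hp
  set z₀ : CC n := fun k => p (C.J k) / p C.i with hz₀
  have h0 : (0 : CC n) ∈ Metric.ball (0 : CC n) C.R := Metric.mem_ball_self C.R_pos
  have hA := affGerm hX C h0
  apply hGI
  refine hA.mem_of_zero hG ?_
  -- `q(y) = p_i • σ (y - z₀)` tends to `p`
  have hcont : Tendsto (fun y : CC n => p C.i • C.σ (y - z₀)) (𝓝 ((0 : CC n) + z₀)) (𝓝 p) := by
    have h1 : ContinuousAt C.σ ((0 : CC n) + z₀ - z₀) := by
      rw [add_sub_cancel_right]; exact (C.an 0 h0).continuousAt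
    have h2 : ContinuousAt (fun y : CC n => C.σ (y - z₀)) ((0 : CC n) + z₀) :=
      ContinuousAt.comp (g := C.σ) (f := fun y : CC n => y - z₀) h1 (by fun_prop)
    have h3 : Tendsto (fun y : CC n => p C.i • C.σ (y - z₀)) (𝓝 ((0 : CC n) + z₀))
        (𝓝 (p C.i • C.σ ((0 : CC n) + z₀ - z₀))) := (h2.const_smul (p C.i)).tendsto
    have h4 : p C.i • C.σ ((0 : CC n) + z₀ - z₀) = p := by
      rw [add_sub_cancel_right, C.σ_zero, smul_smul, mul_inv_cancel₀ C.p₀_ne, one_smul]
    rwa [h4] at h3
  have hev : ∀ᶠ y in 𝓝 ((0 : CC n) + z₀), y - z₀ ∈ Metric.ball (0 : CC n) C.R := by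
    have h1 : ContinuousAt (fun y : CC n => y - z₀) ((0 : CC n) + z₀) := by fun_prop
    have h2 := h1.tendsto
    rw [add_sub_cancel_right] at h2
    exact h2.eventually (Metric.isOpen_ball.mem_nhds h0)
  filter_upwards [hcont.eventually hcon, hev] with y hy hyb
  have hcone : p C.i • C.σ (y - z₀) ∈ Cone I := by
    refine ⟨fun F hF => ?_, smul_ne_zero C.p₀_ne (C.σ_cone _ hyb).2⟩
    exact eval_smul_zero hX.homogeneous (fun F hF => (C.σ_cone _ hyb).1 F hF) _ F hF
  by_contra hne
  apply hy
  refine ⟨hcone, ?_⟩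
  rw [eval_smul_of_isHomogeneous hG]
  exact mul_ne_zero (pow_ne_zero _ C.p₀_ne) hne

end

end Crest.Agent.R269.Dense_85
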