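import Mathlib
import Crest.Prelude.Def_ProjPluricanonical
import Crest.Agent.R269.Defs_58
import Crest.Agent.R269.DictF_795
import Crest.Agent.R269.H0tw_795

/-!
Row 269, DICT, part H (D3): algebraic sections of `m K_X + j A` give holomorphic sections `HolSec`.
-/

set_option autoImplicit false
set_option linter.unusedSectionVars false

open MvPolynomial Crest.AlgGeometry.ProjEmb
open Crest.Agent.R269.DictA_795 Crest.Agent.R269.DictB_795 Crest.Agent.R269.DictC_795
open Crest.Agent.R269.DictD_795 Crest.Agent.R269.DictE_795 Crest.Agent.R269.DictF_795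
open Crest.Agent.R269.H0tw_795 Crest.Agent.R269.Geo_328 Crest.Agent.R269.Defs_58
open scoped Topology

noncomputable section

namespace Crest.Agent.R269.DictH_795

variable {N n : ℕ} {I : Ideal (HomCoordRing N)} [I.IsPrime]

theorem isTan_iff {p v : Fin (N + 1) → ℂ} : v ∈ Tan I p ↔ IsTan I p v := Iff.rfl

/-- explicit formula for the differential of the coordinates -/
theorem dv_w {p : Fin (N + 1) → ℂ} {c : CD I n} (h : c.Dom p) {v : Fin (N + 1) → ℂ}
    (hv : IsTan I p v) (t : Fin n) :
    dv h.cone hv (CD.w h t) = (p c.i * v (c.S t) - p (c.S t) * v c.i) / (p c.i) ^ 2 := by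
  have hr : IsRep ((CD.w h t : stalk I p) : FnField I) (X (c.S t)) (X c.i) :=
    rep_fnRatio h.not_mem_i _
  have h2 := dv_spec h.cone hv (CD.w h t) hr
  have h3 : ∀ k, ∑ j, grad (X k : HomCoordRing N) p j * v j = v k := by
    intro k
    rw [Finset.sum_eq_single k]
    · simp [grad]
    · intro j _ hj
      unfold grad
      rw [pderiv_X_of_ne (Ne.symm hj)]; simp
    · simp
  have h4 : ev h.cone (CD.w h t) = p (c.S t) / p c.i := ev_yA h.cone h.i _
  rw [h3, h3, h4, eval_X] at h2
  have hi := h.i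
  rw [eq_div_iff (pow_ne_zero _ hi)]
  field_simp at h2
  linear_combination h2

/-- the matrix `dw_t(e_k)` -/
def wmat (c : CD I n) (p : EE N) (e : Fin n → EE N) : Matrix (Fin n) (Fin n) ℂ :=
  Matrix.of fun k t => (p c.i * e k (c.S t) - p (c.S t) * e k c.i) / (p c.i) ^ 2

/-- change of coordinates for values -/
theorem val_unique (hX : IsSmoothProjective I n) {m : ℕ} {p : EE N} {c c' : CD I n} (h : c.Dom p)
    (h' : c'.Dom p) {F F' : stalk I p}
    (hFF : (F : FnField I) • c.wm m = (F' : FnField I) • c'.wm m)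
    {e : Fin n → EE N} (he : ∀ k, IsTan I p (e k)) :
    ev h.cone F * (wmat c p e).det ^ m = ev h'.cone F' * (wmat c' p e).det ^ m := by
  have hI : Hom I := hX.homogeneous
  obtain ⟨C, hC1, hC2⟩ := CD.exists_det h hI (CD.w h')
  have h1 : c'.ω = (C.det : FnField I) • c.ω := hC2
  have h2 : c'.wm m = ((C.det ^ m : stalk I p) : FnField I) • c.wm m := by
    rw [CD.wm_change h1 m]; rfl
  have h3 : F = F' * C.det ^ m := by
    apply Subtype.ext
    apply h.coeff_unique hX (m := m)
    rw [hFF, h2, smul_smul]; rfl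
  have h4 : wmat c' p e = wmat c p e * (C.map (ev h.cone)).transpose := by
    funext k l
    have h5 := (isDerAlong_dv h.cone (he k)).eq_sum (hC1 l)
    rw [Matrix.mul_apply]
    have h6 : dv h.cone (he k) (CD.w h' l) = wmat c' p e k l := dv_w h' (he k) l
    rw [← h6, h5]
    refine Finset.sum_congr rfl fun t _ => ?_
    rw [dv_w h (he k) t, mul_comm]; rfl
  have h7 : (wmat c' p e).det = (wmat c p e).det * ev h.cone C.det := by
    rw [h4, Matrix.det_mul, Matrix.det_transpose, AlgHom.map_det]; rfl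
  rw [h7, h3, map_mul, map_pow, mul_pow]
  ring

/-- `(c, F)` represents the section `s ⊗ x_l^j` at `p` -/
structure LRep (l : Fin (N + 1)) (j : ℤ) {m : ℕ} (s : PluriForms I n m) (p : EE N) (c : CD I n)
    (F : stalk I p) : Prop where
  dom : c.Dom p
  eq : (fnRatio I c.i l) ^ j • s = (F : FnField I) • c.wm m

/-- the value of the section -/
def lval (j : ℤ) (m : ℕ) {p : EE N} {c : CD I n} (h : c.Dom p) (F : stalk I p)
    (e : Fin n → EE N) : ℂ := (p c.i) ^ j * (ev h.cone F * (wmat c p e).det ^ m)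

theorem fnRatio_ne {i l : Fin (N + 1)} (hi : (X i : HomCoordRing N) ∉ I)
    (hl : (X l : HomCoordRing N) ∉ I) : fnRatio I i l ≠ 0 := by
  intro h0
  have h1 := congrArg (toConeHom I) h0
  rw [toConeHom_fnRatio, map_zero, div_eq_zero_iff] at h1
  rcases h1 with h1 | h1
  · exact coneHom_X_ne hl h1
  · exact coneHom_X_ne hi h1

/-- integer powers of units of the local ring -/
theorem zpow_stalk {p : EE N} (hp : p ∈ affineCone I) (u : (stalk I p)ˣ) (j : ℤ) :
    ∃ v : stalk I p, (v : FnField I) = ((u : stalk I p) : FnField I) ^ j ∧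
      ev hp v = (ev hp (u : stalk I p)) ^ j := by
  refine ⟨((u ^ j : (stalk I p)ˣ) : stalk I p), ?_, ?_⟩
  · have h1 := map_zpow (Units.map (stalk I p).val.toRingHom.toMonoidHom) u j
    have h2 := congrArg Units.val h1
    rw [Units.val_zpow_eq_zpow_val] at h2
    exact h2
  · have h1 := map_zpow (Units.map (ev hp).toRingHom.toMonoidHom) u j
    have h2 := congrArg Units.val h1
    rw [Units.val_zpow_eq_zpow_val] at h2
    exact h2

theorem lval_unique (hX : IsSmoothProjective I n) {l : Fin (N + 1)}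
    (hl : (X l : HomCoordRing N) ∉ I) {j : ℤ} {m : ℕ} {s : PluriForms I n m} {p : EE N}
    {c c' : CD I n} {F F' : stalk I p} (h : LRep l j s p c F) (h' : LRep l j s p c' F')
    {e : Fin n → EE N} (he : ∀ k, IsTan I p (e k)) :
    lval j m h.dom F e = lval j m h'.dom F' e := by
  -- `x_{c.i}/x_{c'.i}` is a unit of the local ring
  have hu : IsUnit (yA h.dom.cone h'.dom.i c.i) := by
    apply isUnit_of_ev_ne h.dom.cone
    rw [ev_yA]
    exact div_ne_zero h.dom.i h'.dom.i
  obtain ⟨u, hu⟩ := hu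
  obtain ⟨v, hv1, hv2⟩ := zpow_stalk h.dom.cone u j
  rw [hu, ev_yA] at hv2
  rw [hu] at hv1
  have h1 : fnRatio I c'.i l = fnRatio I c'.i c.i * fnRatio I c.i l := by
    apply toConeHom_injective
    rw [map_mul, toConeHom_fnRatio, toConeHom_fnRatio, toConeHom_fnRatio]
    have h2 := coneHom_X_ne h.dom.not_mem_i
    have h3 := coneHom_X_ne h'.dom.not_mem_i
    field_simp
  have h2 : ((v * F : stalk I p) : FnField I) • c.wm m = (F' : FnField I) • c'.wm m := by
    rw [← h'.eq, h1, mul_zpow, mul_smul, h.eq, smul_smul]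
    have : (v : FnField I) = (fnRatio I c'.i c.i) ^ j := hv1
    rw [← this]; rfl
  have h3 := val_unique hX h.dom h'.dom h2 he
  unfold lval
  rw [← h3, map_mul, hv2, div_zpow]
  have h4 : (p c'.i) ^ j ≠ 0 := zpow_ne_zero _ h'.dom.i
  field_simp

open Classical in
/-- **the function on frames defined by an algebraic section** -/
def evalSec (l : Fin (N + 1)) (j : ℤ) {m : ℕ} (s : PluriForms I n m) (p : EE N)
    (e : Fin n → EE N) : ℂ :=
  if h : ∃ (c : CD I n) (F : stalk I p), LRep l j s p c F then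
    lval j m h.choose_spec.choose_spec.dom h.choose_spec.choose e else 0

theorem evalSec_eq (hX : IsSmoothProjective I n) {l : Fin (N + 1)}
    (hl : (X l : HomCoordRing N) ∉ I) {j : ℤ} {m : ℕ} {s : PluriForms I n m} {p : EE N}
    {c : CD I n} {F : stalk I p} (h : LRep l j s p c F) {e : Fin n → EE N}
    (he : ∀ k, IsTan I p (e k)) : evalSec l j s p e = lval j m h.dom F e := by
  have h0 : ∃ (c : CD I n) (F : stalk I p), LRep l j s p c F := ⟨c, F, h⟩
  unfold evalSec
  rw [dif_pos h0]
  exact lval_unique hX hl h0.choose_spec.choose_spec h he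

/-- sections of the twisted space have representatives at every point -/
theorem exists_lrep (hX : IsSmoothProjective I n) {l : Fin (N + 1)} {j : ℤ} {m : ℕ}
    {s : PluriForms I n m} (hs : s ∈ H0tw I n l m j) {p : EE N} (hp : p ∈ affineCone I)
    (hp0 : p ≠ 0) : ∃ (c : CD I n) (F : stalk I p), LRep l j s p c F := by
  obtain ⟨i, hi⟩ := exists_coord_ne hp0
  obtain ⟨c, hc, hci⟩ := exists_CD hX hp hp0 hi
  subst hci
  obtain ⟨F, hF⟩ := regAt_of_mem_chartSections hX hp hi (mem_H0tw.1 hs c.i hc.not_mem_i) hc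
  exact ⟨c, F, hc, hF⟩

theorem eval_smul_hom {F : HomCoordRing N} {k : ℕ} (hF : F.IsHomogeneous k) (a : ℂ) (p : EE N) :
    eval (a • p) F = a ^ k * eval p F := by
  have h1 : ∀ x : EE N, aeval x F = eval x F := fun x => by
    rw [← coe_aeval_eq_eval]; rfl
  have h2 := aeval_smul_hom hF a p
  rw [h1, h1] at h2
  exact h2

theorem eval_smul_zero_of_mem (hI : Hom I) {F : HomCoordRing N} (hF : F ∈ I) (a : ℂ) {p : EE N}
    (hp : p ∈ affineCone I) : eval (a • p) F = 0 := by
  rw [← sum_homogeneousComponent F, map_sum]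
  refine Finset.sum_eq_zero fun d _ => ?_
  rw [eval_smul_hom (homogeneousComponent_isHomogeneous d F), hp _ (hI F hF d), mul_zero]

theorem smul_mem_cone (hI : Hom I) (a : ℂ) {p : EE N} (hp : p ∈ affineCone I) :
    a • p ∈ affineCone I := fun _ hF => eval_smul_zero_of_mem hI hF a hp

theorem dom_smul (hI : Hom I) {c : CD I n} {p : EE N} (h : c.Dom p) {a : ℂ} (ha : a ≠ 0) :
    c.Dom (a • p) := by
  refine ⟨smul_mem_cone hI a h.cone, ?_, ?_⟩
  · rw [Pi.smul_apply, smul_eq_mul]; exact mul_ne_zero ha h.i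
  · rw [eval_smul_hom c.δ_hom]
    exact mul_ne_zero (pow_ne_zero _ ha) h.δ

/-- a representative at `p` is a representative at every nearby point of the domain -/
theorem lrep_of_rep {l : Fin (N + 1)} {j : ℤ} {m : ℕ} {s : PluriForms I n m} {p : EE N}
    {c : CD I n} {F : stalk I p} (h : LRep l j s p c F) {k : ℕ} {G H : HomCoordRing N}
    (hG : G.IsHomogeneous k) (hH : H.IsHomogeneous k) (hr : IsRep (F : FnField I) G H)
    {q : EE N} (hq : c.Dom q) (hqH : eval q H ≠ 0) :
    ∃ F' : stalk I q, LRep l j s q c F' ∧ ev hq.cone F' = eval q G / eval q H := by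
  refine ⟨⟨F, k, G, H, hG, hH, hqH, hr⟩, ⟨hq, h.eq⟩, ?_⟩
  exact ev_eq_div hq.cone _ hr hqH

/-- **D3: algebraic sections are holomorphic sections.** -/
theorem holSec_evalSec (hX : IsSmoothProjective I n) {l : Fin (N + 1)}
    (hl : (X l : HomCoordRing N) ∉ I) {j : ℤ} {m : ℕ} {s : PluriForms I n m}
    (hs : s ∈ H0tw I n l m j) : HolSec I n m j (evalSec l j s) := by
  have hI : Hom I := hX.homogeneous
  refine ⟨?_, ?_, ?_⟩
  · -- homogeneity
    rintro p ⟨hp, hp0⟩ b hb a ha
    obtain ⟨c, F, h⟩ := exists_lrep hX hs hp hp0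
    obtain ⟨k, G, H, hG, hH, hpH, hr⟩ := exists_rep F
    have hd := dom_smul hI h.dom ha
    have hH' : eval (a • p) H ≠ 0 := by
      rw [eval_smul_hom hH]; exact mul_ne_zero (pow_ne_zero _ ha) hpH
    obtain ⟨F', h', hev⟩ := lrep_of_rep h hG hH hr hd hH'
    have hb' : ∀ i, IsTan I (a • p) (a • b i) := by
      intro i Q hQ
      -- tangent spaces are constant along the line
      have h1 := hb i
      rw [isTan_iff] at h1
      rw [← sum_homogeneousComponent Q, grad_sum]
      have h2 : ∀ (d : ℕ), ∑ t, grad (homogeneousComponent d Q) (a • p) t * (a • b i) t = 0 := by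
        intro d
        have h3 : ∀ t, grad (homogeneousComponent d Q) (a • p) t =
            a ^ (d - 1) * grad (homogeneousComponent d Q) p t := by
          intro t
          exact eval_smul_hom ((homogeneousComponent_isHomogeneous d Q).pderiv) a p
        have h4 := h1 _ (hI Q hQ d)
        simp only [h3, Pi.smul_apply, smul_eq_mul]
        have h5 : ∑ t, a ^ (d - 1) * grad (homogeneousComponent d Q) p t * (a * b i t) =
            a ^ (d - 1) * a * ∑ t, grad (homogeneousComponent d Q) p t * b i t := by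
          rw [Finset.mul_sum]
          exact Finset.sum_congr rfl fun t _ => by ring
        rw [h5, h4, mul_zero]
      simp only [Finset.sum_apply, Finset.sum_mul]
      rw [Finset.sum_comm]
      exact Finset.sum_eq_zero fun d _ => h2 d
    rw [evalSec_eq hX hl h' (e := fun i => a • b i) hb', evalSec_eq hX hl h (e := b) hb]
    unfold lval
    have h6 : wmat c (a • p) (fun i => a • b i) = wmat c p b := by
      funext k t
      simp only [wmat, Matrix.of_apply, Pi.smul_apply, smul_eq_mul]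
      have hi := h.dom.i
      field_simp
    have h7 : ev hd.cone F' = ev h.dom.cone F := by
      rw [hev, ev_eq_div h.dom.cone F hr hpH, eval_smul_hom hG, eval_smul_hom hH,
        mul_div_mul_left _ _ (pow_ne_zero _ ha)]
    rw [h6, h7, Pi.smul_apply, smul_eq_mul, mul_zpow]
    ring
  · -- mixing
    rintro p ⟨hp, hp0⟩ b hb M r
    obtain ⟨c, F, h⟩ := exists_lrep hX hs hp hp0
    have hpt : IsTan I p p := by
      intro Q hQ
      rw [← sum_homogeneousComponent Q, grad_sum]
      simp only [Finset.sum_apply, Finset.sum_mul]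
      rw [Finset.sum_comm]
      refine Finset.sum_eq_zero fun d _ => ?_
      have := euler hp (hI Q hQ d) (homogeneousComponent_isHomogeneous d Q)
      rw [← this]
      exact Finset.sum_congr rfl fun t _ => mul_comm _ _
    have hb' : ∀ i, IsTan I p ((∑ k, M i k • b k) + r i • p) := by
      intro i
      rw [← isTan_iff]
      exact Submodule.add_mem _ (Submodule.sum_mem _ fun k _ => Submodule.smul_mem _ _ (hb k))
        (Submodule.smul_mem _ _ (isTan_iff.2 hpt))
    rw [evalSec_eq hX hl h (e := fun i => (∑ k, M i k • b k) + r i • p) hb',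
      evalSec_eq hX hl h (e := b) hb]
    unfold lval
    have h6 : wmat c p (fun i => (∑ k, M i k • b k) + r i • p) = M * wmat c p b := by
      funext i t
      rw [Matrix.mul_apply]
      simp only [wmat, Matrix.of_apply, Pi.add_apply, Finset.sum_apply, Pi.smul_apply, smul_eq_mul]
      have h8 : ∀ k, M i k * ((p c.i * b k (c.S t) - p (c.S t) * b k c.i) / p c.i ^ 2) =
          (p c.i * (M i k * b k (c.S t)) - p (c.S t) * (M i k * b k c.i)) / p c.i ^ 2 := by
        intro k; ring
      simp_rw [h8]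
      rw [← Finset.sum_div, Finset.sum_sub_distrib, ← Finset.mul_sum, ← Finset.mul_sum]
      congr 1
      ring
    rw [h6, Matrix.det_mul, mul_pow]
    ring
  · -- holomorphy
    intro d F b z₀ hF hb hev
    obtain ⟨⟨hp, hp0⟩, hbz⟩ := hev.self_of_nhds
    obtain ⟨c, F₀, h⟩ := exists_lrep hX hs hp hp0
    obtain ⟨k, G, H, hG, hH, hpH, hr⟩ := exists_rep F₀
    have hFj : ∀ j, AnalyticAt ℂ (fun z => F z j) z₀ := fun j =>
      ((ContinuousLinearMap.proj (R := ℂ) (φ := fun _ : Fin (N + 1) => ℂ) j).analyticAt _).comp hF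
    have hbj : ∀ i j, AnalyticAt ℂ (fun z => b i z j) z₀ := fun i j =>
      ((ContinuousLinearMap.proj (R := ℂ) (φ := fun _ : Fin (N + 1) => ℂ) j).analyticAt _).comp
        (hb i)
    have hpoly : ∀ Q : HomCoordRing N, AnalyticAt ℂ (fun z => eval (F z) Q) z₀ := by
      intro Q
      induction Q using MvPolynomial.induction_on with
      | C a => simpa using analyticAt_const
      | add p q hp hq => simp only [map_add]; exact hp.add hq
      | mul_X p i hp => simp only [map_mul, eval_X]; exact hp.mul (hFj i)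
    have hne : ∀ Q : HomCoordRing N, eval (F z₀) Q ≠ 0 → ∀ᶠ z in 𝓝 z₀, eval (F z) Q ≠ 0 :=
      fun Q hQ => (hpoly Q).continuousAt.eventually_ne hQ
    have hi0 : ∀ᶠ z in 𝓝 z₀, F z c.i ≠ 0 := (hFj c.i).continuousAt.eventually_ne h.dom.i
    have hform : (fun z => evalSec l j s (F z) (fun i => b i z)) =ᶠ[𝓝 z₀]
        fun z => (F z c.i) ^ j * (eval (F z) G / eval (F z) H *
          (wmat c (F z) (fun i => b i z)).det ^ m) := by
      filter_upwards [hev, hne _ h.dom.δ, hne _ hpH, hi0] with z hz hδ hzH hzi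
      have hd : c.Dom (F z) := ⟨hz.1.1, hzi, hδ⟩
      obtain ⟨F', h', hev'⟩ := lrep_of_rep h hG hH hr hd hzH
      rw [evalSec_eq hX hl h' (e := fun i => b i z) (fun i => hz.2 i)]
      unfold lval
      rw [hev']
    refine AnalyticAt.congr ?_ hform.symm
    refine AnalyticAt.mul ((hFj c.i).zpow h.dom.i) (AnalyticAt.mul ?_ (AnalyticAt.pow ?_ m))
    · exact (hpoly G).div (hpoly H) hpH
    · have hent : ∀ k t, AnalyticAt ℂ (fun z => wmat c (F z) (fun i => b i z) k t) z₀ := by
        intro k t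
        simp only [wmat, Matrix.of_apply]
        refine AnalyticAt.div ?_ ((hFj c.i).pow 2) (pow_ne_zero _ h.dom.i)
        exact ((hFj c.i).mul (hbj k _)).sub ((hFj _).mul (hbj k _))
      simp only [Matrix.det_apply]
      refine Finset.analyticAt_fun_sum _ fun σ _ => ?_
      refine AnalyticAt.const_smul ?_
      exact Finset.analyticAt_fun_prod _ fun k _ => hent _ _

/-- a polynomial outside `I` is nonzero at some point of the cone -/
theorem exists_eval_ne {G : HomCoordRing N} (hG : G ∉ I) : ∃ q ∈ affineCone I, eval q G ≠ 0 := by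
  by_contra hne
  push Not at hne
  exact hG (CD.mem_of_eval_zero hne)

theorem exists_cone_point (hX : IsSmoothProjective I n) : ∃ p ∈ affineCone I, p ≠ 0 := by
  obtain ⟨i, hi⟩ := hX.exists_coord_not_mem
  obtain ⟨p, hp, hpi⟩ := exists_eval_ne hi
  refine ⟨p, hp, fun h0 => hpi ?_⟩
  rw [h0]; simp

/-- the numerator of a local coefficient of a nonzero section is not in `I` -/
theorem num_not_mem {l : Fin (N + 1)} (hl : (X l : HomCoordRing N) ∉ I) {j : ℤ} {m : ℕ}
    {s : PluriForms I n m} (hs0 : s ≠ 0) {p : EE N} {c : CD I n} {F : stalk I p}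
    (h : LRep l j s p c F) {G H : HomCoordRing N} (hpH : eval p H ≠ 0)
    (hr : IsRep (F : FnField I) G H) : G ∉ I := by
  have hF0 : (F : FnField I) ≠ 0 := by
    intro h0
    have h1 := h.eq
    rw [h0, zero_smul, smul_eq_zero] at h1
    rcases h1 with h1 | h1
    · exact (zpow_ne_zero _ (fnRatio_ne h.dom.not_mem_i hl)) h1
    · exact hs0 h1
  intro hGI
  have h1 : toConeHom I (F : FnField I) * coneHom I H = coneHom I G := hr
  rw [coneHom_eq_zero_iff.2 hGI] at h1
  rcases mul_eq_zero.1 h1 with h2 | h2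
  · exact hF0 (toConeHom_injective (by rw [h2, map_zero]))
  · exact not_mem_of_eval_ne h.dom.cone hpH (coneHom_eq_zero_iff.1 h2)

/-- **non-vanishing at the points of the domain where `G H ≠ 0`**, `G/H` = local coefficient -/
theorem exists_frame_ne (hX : IsSmoothProjective I n) {l : Fin (N + 1)}
    (hl : (X l : HomCoordRing N) ∉ I) {j : ℤ} {m : ℕ} {s : PluriForms I n m} {p : EE N}
    {c : CD I n} {F : stalk I p} (h : LRep l j s p c F) {k : ℕ} {G H : HomCoordRing N}
    (hG : G.IsHomogeneous k) (hH : H.IsHomogeneous k) (hr : IsRep (F : FnField I) G H)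
    {q : EE N} (hq : q ∈ affineCone I) (hne : eval q (X c.i * c.δ * (G * H)) ≠ 0) :
    ∃ b : Fin n → EE N, TanFam I q b ∧ evalSec l j s q b ≠ 0 := by
  simp only [map_mul, eval_X, mul_ne_zero_iff] at hne
  have hd : c.Dom q := ⟨hq, hne.1.1, hne.1.2⟩
  obtain ⟨F', h', hev⟩ := lrep_of_rep h hG hH hr hd hne.2.2
  choose b hb hbi hbw using fun k : Fin n => exists_tan hX hd (Pi.single k 1)
  refine ⟨b, fun k => hb k, ?_⟩
  rw [evalSec_eq hX hl h' (e := b) hb]
  unfold lval
  have h1 : wmat c q b = 1 := by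
    funext k t
    have h2 := hbw k t
    rw [dv_w hd (hb k) t] at h2
    change (q c.i * b k (c.S t) - q (c.S t) * b k c.i) / (q c.i) ^ 2 = _
    rw [h2, Matrix.one_apply, Pi.single_apply]
    simp only [eq_comm]
  rw [h1, Matrix.det_one, one_pow, mul_one, hev]
  exact mul_ne_zero (zpow_ne_zero _ hd.i) (div_ne_zero hne.2.1 hne.2.2)

theorem prod_not_mem {p : EE N} {c : CD I n} (h : c.Dom p) {G H : HomCoordRing N} (hGI : G ∉ I)
    (hpH : eval p H ≠ 0) : X c.i * c.δ * (G * H) ∉ I := by
  intro hmem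
  rcases Ideal.IsPrime.mem_or_mem inferInstance hmem with h1 | h1
  · rcases Ideal.IsPrime.mem_or_mem inferInstance h1 with h2 | h2
    · exact h.not_mem_i h2
    · exact h.not_mem_δ h2
  · rcases Ideal.IsPrime.mem_or_mem inferInstance h1 with h2 | h2
    · exact hGI h2
    · exact not_mem_of_eval_ne h.cone hpH h2

theorem prod_hom {c : CD I n} {k : ℕ} {G H : HomCoordRing N} (hG : G.IsHomogeneous k)
    (hH : H.IsHomogeneous k) : (X c.i * c.δ * (G * H)).IsHomogeneous (1 + c.e + (k + k)) :=
  ((isHomogeneous_X _ _).mul c.δ_hom).mul (hG.mul hH)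

/-- a non-zero section does not vanish identically -/
theorem exists_evalSec_ne (hX : IsSmoothProjective I n) {l : Fin (N + 1)}
    (hl : (X l : HomCoordRing N) ∉ I) {j : ℤ} {m : ℕ} {s : PluriForms I n m}
    (hs : s ∈ H0tw I n l m j) (hs0 : s ≠ 0) :
    ∃ p ∈ Cone I, ∃ b : Fin n → EE N, TanFam I p b ∧ evalSec l j s p b ≠ 0 := by
  obtain ⟨p, hp, hp0⟩ := exists_cone_point hX
  obtain ⟨c, F, h⟩ := exists_lrep hX hs hp hp0
  obtain ⟨k, G, H, hG, hH, hpH, hr⟩ := exists_rep F
  have hGI := num_not_mem hl hs0 h hpH hr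
  obtain ⟨q, hq, hqne⟩ := exists_eval_ne (prod_not_mem h.dom hGI hpH)
  obtain ⟨b, hb, hbne⟩ := exists_frame_ne hX hl h hG hH hr hq hqne
  refine ⟨q, ⟨hq, ?_⟩, b, hb, hbne⟩
  rintro rfl
  simp only [map_mul, eval_X, mul_ne_zero_iff] at hqne
  exact hqne.1.1 rfl

/-- **BigP from an algebraic section of `m K_X - A`**, given density of the non-zero sets of
homogeneous polynomials outside `I` (`Dense_85.frequently_eval_ne`). -/
theorem bigP_of_section (hX : IsSmoothProjective I n) {l : Fin (N + 1)}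
    (hl : (X l : HomCoordRing N) ∉ I) {m : ℕ} (hm : 1 ≤ m) {s : PluriForms I n m}
    (hs : s ∈ H0tw I n l m (-1)) (hs0 : s ≠ 0)
    (hdense : ∀ (G : HomCoordRing N) (k : ℕ), G.IsHomogeneous k → G ∉ I → ∀ p ∈ Cone I,
      ∃ᶠ q in 𝓝 p, q ∈ Cone I ∧ eval q G ≠ 0) : BigP I n := by
  refine ⟨m, hm, evalSec l (-1) s, holSec_evalSec hX hl hs, ?_⟩
  rintro p ⟨hp, hp0⟩
  obtain ⟨c, F, h⟩ := exists_lrep hX hs hp hp0
  obtain ⟨k, G, H, hG, hH, hpH, hr⟩ := exists_rep F
  have hGI := num_not_mem hl hs0 h hpH hr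
  refine (hdense _ _ (prod_hom hG hH) (prod_not_mem h.dom hGI hpH) p ⟨hp, hp0⟩).mono ?_
  rintro q ⟨hq, hne⟩
  exact ⟨hq, exists_frame_ne hX hl h hG hH hr hq.1 hne⟩

end Crest.Agent.R269.DictH_795
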