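import Mathlib
import Crest.Prelude.Def_ProjPluricanonical
import Crest.Agent.R269.DictG2_795
import Crest.Agent.R271.UfdF_243
import Crest.Agent.R269.Cnt2_197

/-!
Row 269, DICT, part I: the local rings `stalk I q` are localizations of the étale chart algebras,
hence unique factorization domains (integrally closed in the function field); the function field is
algebraic over the étale coordinates.
-/

set_option autoImplicit false
set_option linter.unusedSectionVars false
set_option linter.style.haveILetI false

open MvPolynomial Crest.AlgGeometry.ProjEmb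
open Crest.Agent.R269.DictA_795 Crest.Agent.R269.DictB_795 Crest.Agent.R269.DictC_795
open Crest.Agent.R269.DictD_795 Crest.Agent.R269.DictE_795 Crest.Agent.R269.DictF_795

noncomputable section

namespace Crest.Agent.R269.DictC_795.CD

variable {N n : ℕ} {I : Ideal (HomCoordRing N)} [I.IsPrime] {c : CD I n} {q : Fin (N + 1) → ℂ}

/-- the local ring as an algebra over the chart algebra -/
@[reducible] def Dom.algStalk (h : c.Dom q) : Algebra c.B (stalk I q) := h.toStalk.toRingHom.toAlgebra

theorem Dom.ker_prime (h : c.Dom q) : (RingHom.ker h.pt).IsPrime := RingHom.ker_isPrime _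

theorem Dom.mem_ker {h : c.Dom q} {b : c.B} : b ∈ RingHom.ker h.pt ↔ ev h.cone (h.toStalk b) = 0 :=
  Iff.rfl

/-- **the local ring of a cone point is the localization of the chart algebra at that point** -/
theorem Dom.isLocalization (h : c.Dom q) :
    letI := h.algStalk
    haveI := h.ker_prime
    IsLocalization.AtPrime (stalk I q) (RingHom.ker h.pt) := by
  letI := h.algStalk
  haveI := h.ker_prime
  refine ⟨?_, ?_, ?_⟩
  · rintro ⟨b, hb⟩
    exact isUnit_of_ev_ne h.cone (h.toStalk b) (fun h0 => hb h0)
  · intro u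
    obtain ⟨k, G, H, hG, hH, hqH, hr, hu, hunit⟩ := exists_dhA h.cone h.i u
    have hco : ∀ G : HomCoordRing N, h.toStalk ⟨dh I c.i G, c.dh_mem_B G⟩ = dhA h.cone h.i G := by
      intro G
      apply Subtype.ext
      rw [coe_dhA]; rfl
    refine ⟨⟨⟨dh I c.i G, c.dh_mem_B G⟩, ⟨⟨dh I c.i H, c.dh_mem_B H⟩, ?_⟩⟩, ?_⟩
    · intro h0
      have h1 : ev h.cone (h.toStalk ⟨dh I c.i H, c.dh_mem_B H⟩) = 0 := h0
      rw [hco] at h1
      exact (isUnit_iff_ev h.cone _).1 hunit h1
    · change u * h.toStalk ⟨dh I c.i H, c.dh_mem_B H⟩ = h.toStalk ⟨dh I c.i G, c.dh_mem_B G⟩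
      rw [hco, hco, hu]
  · intro a b hab
    refine ⟨1, ?_⟩
    have h1 : h.toStalk a = h.toStalk b := hab
    have h2 : (a : FnField I) = (b : FnField I) :=
      congrArg (fun z : stalk I q => (z : FnField I)) h1
    have h3 : a = b := Subtype.ext h2
    rw [h3]

/-- **the local rings are unique factorization domains** -/
theorem Dom.ufd (h : c.Dom q) (hX : IsSmoothProjective I n) :
    UniqueFactorizationMonoid (stalk I q) := by
  letI := h.algStalk
  haveI := h.ker_prime
  haveI := h.isLocalization
  exact Crest.Agent.R271.UFD243.chart_ufd (aeval c.zB) (h.etale hX) (RingHom.ker h.pt) (stalk I q)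

/-- the function field is the fraction field of every local ring -/
theorem isFractionRing_stalk {p : Fin (N + 1) → ℂ} (hp : p ∈ affineCone I) (hp0 : p ≠ 0) :
    IsFractionRing (stalk I p) (FnField I) := by
  obtain ⟨i, hi⟩ : ∃ i, p i ≠ 0 := by
    by_contra hne
    push Not at hne
    exact hp0 (funext hne)
  refine IsFractionRing.of_field _ _ fun u => ?_
  obtain ⟨a, ha, b, hb, hb0, hu⟩ := Cnt2_197.exists_frac (X_not_mem hp hi) u
  refine ⟨⟨a, chartRing_le_stalk hp hi ha⟩, ⟨b, chartRing_le_stalk hp hi hb⟩, ?_⟩
  change u = a / b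
  rw [eq_div_iff hb0, hu]

/-- the function field is the fraction field of the chart algebra -/
theorem isFractionRing_B (c : CD I n) (hi : (X c.i : HomCoordRing N) ∉ I) :
    IsFractionRing c.B (FnField I) := by
  refine IsFractionRing.of_field _ _ fun u => ?_
  obtain ⟨a, ha, b, hb, hb0, hu⟩ := Cnt2_197.exists_frac hi u
  refine ⟨⟨a, c.chartRing_le_B ha⟩, ⟨b, c.chartRing_le_B hb⟩, ?_⟩
  change u = a / b
  rw [eq_div_iff hb0, hu]

/-- **the local rings are integrally closed in the function field** -/
theorem stalkClosed (hX : IsSmoothProjective I n) (p : Fin (N + 1) → ℂ) (hp : p ∈ affineCone I)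
    (hp0 : p ≠ 0) (g : FnField I) (hg : IsIntegral (stalk I p) g) : g ∈ stalk I p := by
  obtain ⟨i, hi⟩ : ∃ i, p i ≠ 0 := by
    by_contra hne
    push Not at hne
    exact hp0 (funext hne)
  obtain ⟨c, h, -⟩ := exists_CD hX hp hp0 hi
  haveI := h.ufd hX
  haveI := isFractionRing_stalk hp hp0
  haveI : IsIntegrallyClosed (stalk I p) := UniqueFactorizationMonoid.instIsIntegrallyClosed
  obtain ⟨y, hy⟩ := IsIntegrallyClosed.isIntegral_iff.1 hg
  rw [← hy]
  exact y.2

/-! ### Transcendence degree -/

/-- the function field is separable algebraic over `ℂ(w)` -/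
theorem Dom.isSeparable (h : c.Dom q) (hI : Hom I) :
    Algebra.IsSeparable (IntermediateField.adjoin ℂ (Set.range c.wL)) (FnField I) := by
  set K := IntermediateField.adjoin ℂ (Set.range c.wL) with hK
  have h1 : Subsingleton (Ω[FnField I⁄K]) := by
    refine subsingleton_of_forall_eq 0 fun x => ?_
    obtain ⟨y, rfl⟩ := KaehlerDifferential.map_surjective ℂ K (FnField I) x
    have hy : y ∈ Submodule.span (FnField I)
        (Set.range fun s => KaehlerDifferential.D ℂ (FnField I) (c.wL s)) := by
      rw [span_DL h hI]; trivial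
    induction hy using Submodule.span_induction with
    | mem z hz =>
      obtain ⟨s, rfl⟩ := hz
      change KaehlerDifferential.map ℂ K (FnField I) (FnField I) (KaehlerDifferential.D ℂ (FnField I) (c.wL s)) = 0
      rw [KaehlerDifferential.map_D]
      have h2 : c.wL s ∈ K := IntermediateField.subset_adjoin _ _ ⟨s, rfl⟩
      exact (KaehlerDifferential.D K (FnField I)).map_algebraMap ⟨c.wL s, h2⟩
    | zero => rw [map_zero]
    | add y z _ _ hy hz => rw [map_add, hy, hz, add_zero]
    | smul a y _ hy => rw [map_smul, hy, smul_zero]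
  haveI : Algebra.FormallyUnramified K (FnField I) := ⟨h1⟩
  haveI : Algebra.EssFiniteType ℂ (FnField I) := by
    haveI := isFractionRing_B c h.not_mem_i
    haveI := c.B_finiteType
    haveI : Algebra.EssFiniteType c.B (FnField I) :=
      Algebra.EssFiniteType.of_isLocalization (FnField I) (nonZeroDivisors c.B)
    exact Algebra.EssFiniteType.comp ℂ c.B (FnField I)
  haveI : Algebra.EssFiniteType K (FnField I) := Algebra.EssFiniteType.of_comp ℂ K (FnField I)
  exact Algebra.FormallyUnramified.isSeparable K (FnField I)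

open scoped IntermediateField.algebraAdjoinAdjoin in
/-- the function field is algebraic over the polynomial algebra generated by the coordinates -/
theorem Dom.isAlgebraic (h : c.Dom q) (hI : Hom I) :
    Algebra.IsAlgebraic (Algebra.adjoin ℂ (Set.range c.wL)) (FnField I) := by
  haveI := h.isSeparable hI
  exact Algebra.IsAlgebraic.trans (Algebra.adjoin ℂ (Set.range c.wL))
    (IntermediateField.adjoin ℂ (Set.range c.wL)) (FnField I)

/-- **transcendence degree**: algebraically independent families have at most `n` elements -/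
theorem trLe (hX : IsSmoothProjective I n) (r : ℕ) (y : Fin r → FnField I)
    (hy : AlgebraicIndependent ℂ y) : r ≤ n := by
  obtain ⟨i, hXi⟩ := hX.exists_coord_not_mem
  obtain ⟨p, hp, hpi⟩ : ∃ p ∈ affineCone I, p i ≠ 0 := by
    by_contra hne
    push Not at hne
    exact hXi (mem_of_eval_zero fun p hp => by rw [eval_X]; exact hne p hp)
  obtain ⟨c, h, -⟩ := exists_CD hX hp (fun h0 => hpi (by rw [h0]; rfl)) hpi
  haveI := h.isAlgebraic hX.homogeneous
  have h1 : Cardinal.mk (Fin r) ≤ Algebra.trdeg ℂ (FnField I) := hy.cardinalMk_le_trdeg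
  have h2 : Algebra.trdeg ℂ (FnField I) ≤ Cardinal.mk (Set.range c.wL) :=
    Algebra.IsAlgebraic.trdeg_le_cardinalMk ℂ (Set.range c.wL)
  have h3 : Cardinal.mk (Set.range c.wL) ≤ Cardinal.mk (Fin n) := Cardinal.mk_range_le
  have h4 := h1.trans (h2.trans h3)
  rw [Cardinal.mk_fin, Cardinal.mk_fin] at h4
  exact_mod_cast h4

end Crest.Agent.R269.DictC_795.CD
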