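import Crest.Agent.R269.PAsm4_976

/-!
# R269, P10-PEAK-ASM (helper976), part 5: **(10.1)** = steps (G1) + (G2) of part 10
-/

set_option autoImplicit false

open Set Filter Topology Complex MeasureTheory Metric
open scoped ENNReal ComplexConjugate ContDiff

noncomputable section

namespace Crest.Agent.R269.PAsm5_976

open Crest.AlgGeometry.ProjEmb
open Crest.Agent.R271 Crest.Agent.R271.Defs710 Crest.Agent.R271.Rd692
open Crest.Agent.R271.Ho51 hiding EE nsq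
open Crest.Agent.R269.Amp1_243 Crest.Agent.R269.Geo_328 Crest.Agent.R269.Amp3_243
open Crest.Agent.R269.Defs_58 Crest.Agent.R269.PAsm3_976 Crest.Agent.R269.PAsm4_976
open Crest.Agent.R276.LM3_976 Crest.Agent.R269.Peak4_976 Crest.Agent.R269.Peak6_976

variable {N n : ℕ} {I : Ideal (HomCoordRing N)}

/-- the weight `|dz|²` -/
def wt (X : XC I n) (y : X.B →ₐ[ℂ] ℂ) : ℝ := ns X y ^ (n + 1) / gr X y

lemma wt_pos {X : XC I n} (y : X.B →ₐ[ℂ] ℂ) : 0 < wt X y := div_pos (pow_pos (ns_pos y) _) (gr_pos y)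

lemma exp_Psi {X : XC I n} (φ : EE N → ℝ) (e : ℝ) (y : X.B →ₐ[ℂ] ℂ) :
    Real.exp (-(Psi X (uu φ e) y)) =
      wt X y * Real.exp (-φ (pt X y)) * Real.exp (-(e * lns X y)) := by
  have h1 : wt X y = Real.exp (-(Real.log (gr X y) - (n + 1) * lns X y)) := by
    unfold wt lns
    rw [neg_sub, Real.exp_sub, Real.exp_log (gr_pos y)]
    congr 1
    have : ((n : ℝ) + 1) * Real.log (ns X y) = ((n + 1 : ℕ) : ℝ) * Real.log (ns X y) := by
      push_cast; ring
    rw [this, Real.exp_nat_mul, Real.exp_log (ns_pos y)]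
  rw [h1, ← Real.exp_add, ← Real.exp_add]
  unfold Psi uu
  congr 1
  unfold lns ns
  ring

/-- comparison of the integrands -/
lemma integrand_le {X : XC I n} {φ : EE N → ℝ} {B : ℝ} (hB : ∀ p ∈ Cone I, φ p ≤ B) {q : ℕ}
    (hq : 1 ≤ q) (m : ℕ) (F : (X.B →ₐ[ℂ] ℂ) → ℂ) (y : X.B →ₐ[ℂ] ℂ) :
    ‖F y‖ ^ 2 * wt X y ^ m / ns X y ^ (m / q + 1) ≤
      Real.exp (m * B) * (‖F y‖ ^ 2 * Real.exp (-(m * Psi X (uu φ (1 / q)) y))) := by
  have hqr : (0 : ℝ) < q := by exact_mod_cast hq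
  have h1 : Real.exp (-(m * Psi X (uu φ (1 / q)) y)) =
      wt X y ^ m * Real.exp (-(m * φ (pt X y))) * Real.exp (-((m / q) * lns X y)) := by
    have h2 : -(m * Psi X (uu φ (1 / q)) y) = m * (-(Psi X (uu φ (1 / q)) y)) := by ring
    rw [h2, Real.exp_nat_mul, exp_Psi, mul_pow, mul_pow, ← Real.exp_nat_mul, ← Real.exp_nat_mul]
    congr 2 <;> ring_nf
  have h2 : Real.exp (-(m * B)) ≤ Real.exp (-(m * φ (pt X y))) := by
    have := hB _ (pt_mem y)
    gcongr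
  have h3 : (ns X y ^ (m / q + 1))⁻¹ ≤ Real.exp (-((m / q) * lns X y)) := by
    have h4 : ns X y ^ (m / q + 1) = Real.exp ((m / q + 1 : ℕ) * lns X y) := by
      rw [Real.exp_nat_mul]
      unfold lns
      rw [Real.exp_log (ns_pos y)]
    rw [h4, ← Real.exp_neg]
    refine Real.exp_le_exp.2 (neg_le_neg ?_)
    have h5 : 0 ≤ lns X y := Real.log_nonneg (one_le_ns y)
    refine mul_le_mul_of_nonneg_right ?_ h5
    rw [div_le_iff₀ hqr]
    have h6 : m < (m / q + 1) * q := by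
      have := Nat.div_add_mod m q
      have := Nat.mod_lt m hq
      nlinarith
    exact_mod_cast h6.le
  rw [h1]
  have h4 : Real.exp (m * B) * Real.exp (-(m * B)) = 1 := by
    rw [← Real.exp_add, add_neg_cancel, Real.exp_zero]
  have hw := wt_pos (X := X) y
  have hns := ns_pos (X := X) y
  calc ‖F y‖ ^ 2 * wt X y ^ m / ns X y ^ (m / q + 1)
      = (Real.exp (m * B) * Real.exp (-(m * B))) *
        (‖F y‖ ^ 2 * (wt X y ^ m * (ns X y ^ (m / q + 1))⁻¹)) := by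
        rw [h4, one_mul, div_eq_mul_inv]; ring
    _ ≤ (Real.exp (m * B) * Real.exp (-(m * φ (pt X y)))) *
        (‖F y‖ ^ 2 * (wt X y ^ m * Real.exp (-((m / q) * lns X y)))) := by
        gcongr
    _ = _ := by ring

lemma nonempty_pts (X : XC I n) : Nonempty (X.B →ₐ[ℂ] ℂ) := by
  have := X.ft
  obtain ⟨y, _⟩ := KT661.exists_point_of_ne_top (⊥ : Ideal X.B) bot_ne_top
  exact ⟨y⟩

/-- **(10.1)**: steps (G1) + (G2). -/
theorem g12 (hA : AlphaFamStmt) (hI : I.IsPrime) (hX : IsSmoothProjective I n) (hn : 1 ≤ n)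
    (hMA : MAP I n) (X : XC I n) :
    ∃ c₂ : ℝ, 0 < c₂ ∧ ∀ q : ℕ, 1 ≤ q → ∀ V : ℕ → Submodule ℂ ((X.B →ₐ[ℂ] ℂ) → ℂ),
      (∀ m, FiniteDimensional ℂ (V m)) →
      (∀ m F, Ho51.Hol F → lintM X.z (fun y => ENNReal.ofReal
        (‖F y‖ ^ 2 * wt X y ^ m / ns X y ^ (m / q + 1))) < ⊤ → F ∈ V m) →
      ∀ᶠ m : ℕ in atTop, c₂ * (m : ℝ) ^ n ≤ Module.finrank ℂ (V m) := by
  classical
  obtain ⟨c₁, hc₁, hma⟩ := hMA
  obtain ⟨Cn, hCn, hpk⟩ := PAsm2_976.pk2N (n := n) hn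
  obtain ⟨ρ, hρ, hρc, hρL⟩ := exists_rho X.toEC
  let _ : MeasurableSpace (X.B →ₐ[ℂ] ℂ) := borel _
  have : BorelSpace (X.B →ₐ[ℂ] ℂ) := ⟨rfl⟩
  obtain ⟨μ, hμ⟩ := exists_leb (n := n) (M := X.B →ₐ[ℂ] ℂ)
  -- the volume
  set g : (X.B →ₐ[ℂ] ℂ) → ℝ := fun y => c₁ ^ n * (gr X y / ns X y ^ (n + 1)) with hg
  have hgpos : ∀ y, 0 < g y := fun y =>
    mul_pos (pow_pos hc₁ n) (div_pos (gr_pos y) (pow_pos (ns_pos y) _))
  have hgc : Continuous g := by
    have h1 : Continuous (gr X) := sm_gr.continuous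
    have h2 : Continuous (ns X) := sm_ns.continuous
    exact continuous_const.mul (h1.div (h2.pow _) fun y => (pow_pos (ns_pos y) _).ne')
  have hvol : 0 < ∫⁻ y, ENNReal.ofReal (g y) ∂μ := by
    have hm : Measurable fun y => ENNReal.ofReal (g y) := hgc.measurable.ennreal_ofReal
    rw [lintegral_pos_iff_support hm]
    have hs : Function.support (fun y => ENNReal.ofReal (g y)) = univ := by
      ext y
      simp [Function.mem_support, hgpos y]
    rw [hs]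
    have := nonempty_pts X
    exact leb_pos hμ isOpen_univ univ_nonempty
  obtain ⟨a, ha0, ha⟩ := ENNReal.lt_iff_exists_nnreal_btwn.1 hvol
  have ha0' : 0 < (a : ℝ) := by exact_mod_cast ha0
  refine ⟨a / Cn, by positivity, ?_⟩
  intro q hq V hVf hV
  have hqr : (0 : ℝ) < q := by exact_mod_cast hq
  obtain ⟨φ, hφ, hφm⟩ := hma (1 / q) (by positivity)
  obtain ⟨B, hB⟩ := bdd_above hX hφ
  set ψ : (X.B →ₐ[ℂ] ℂ) → ℝ := Psi X (uu φ (1 / q)) with hψdef
  have hψ : Sm ψ := sm_Psi (sm_uu hφ.1 (1 / q))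
  have hmc := ma_chart hA hI hX hn X hc₁ hφ.1 hφm
  -- `W μ (m ψ) ≤ V m`
  have hWV : ∀ m : ℕ, W μ (fun y => m * ψ y) ((Sm.const (m : ℝ)).mulR hψ).continuous.measurable ≤
      V m := by
    intro m F hF
    obtain ⟨hF1, hF2⟩ := hF
    refine hV m F hF1 ?_
    have hFc : Continuous F := Crest.Agent.R271.T7a297.Hol.continuous hF1
    have hmeas : Measurable fun y => ENNReal.ofReal
        (‖F y‖ ^ 2 * wt X y ^ m / ns X y ^ (m / q + 1)) := by
      have h1 : Continuous (gr X) := sm_gr.continuous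
      have h2 : Continuous (ns X) := sm_ns.continuous
      have h3 : Continuous (wt X) := (h2.pow _).div h1 fun y => (gr_pos y).ne'
      exact ((((hFc.norm.pow 2).mul (h3.pow m)).div (h2.pow _)
        fun y => (pow_pos (ns_pos y) _).ne').measurable).ennreal_ofReal
    rw [Amp1_243.lintM_eq hμ hmeas]
    calc ∫⁻ y, ENNReal.ofReal (‖F y‖ ^ 2 * wt X y ^ m / ns X y ^ (m / q + 1)) ∂μ
        ≤ ∫⁻ y, ENNReal.ofReal (Real.exp (m * B)) *
          ENNReal.ofReal (‖F y‖ ^ 2 * Real.exp (-(m * ψ y))) ∂μ := by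
          refine lintegral_mono fun y => ?_
          rw [← ENNReal.ofReal_mul (by positivity)]
          exact ENNReal.ofReal_le_ofReal (integrand_le hB hq m F y)
      _ = ENNReal.ofReal (Real.exp (m * B)) *
          ∫⁻ y, ENNReal.ofReal (‖F y‖ ^ 2 * Real.exp (-(m * ψ y))) ∂μ :=
          lintegral_const_mul' _ _ ENNReal.ofReal_ne_top
      _ < ⊤ := ENNReal.mul_lt_top ENNReal.ofReal_lt_top hF2
  have hWf : ∀ m : ℕ, FiniteDimensional ℂ
      (W μ (fun y => m * ψ y) ((Sm.const (m : ℝ)).mulR hψ).continuous.measurable) := fun m =>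
    Submodule.finiteDimensional_of_le (hWV m)
  have hlt : (a : ℝ≥0∞) < ∫⁻ x, ENNReal.ofReal ((PL ψ x).det.re) ∂μ :=
    ha.trans_le (lintegral_mono fun y => ENNReal.ofReal_le_ofReal (hmc y).2)
  have hfin := hpk (X.B →ₐ[ℂ] ℂ) μ hμ ρ hρ hρc hρL ψ hψ hWf (fun x => (hmc x).1) a hlt
  filter_upwards [hfin] with m hm
  have h1 : Module.finrank ℂ
      (W μ (fun y => m * ψ y) ((Sm.const (m : ℝ)).mulR hψ).continuous.measurable) ≤
      Module.finrank ℂ (V m) := by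
    have := hVf m
    exact Submodule.finrank_mono (hWV m)
  have h2 : ENNReal.ofReal (a / Cn * (m : ℝ) ^ n) < (Module.finrank ℂ
      (W μ (fun y => m * ψ y) ((Sm.const (m : ℝ)).mulR hψ).continuous.measurable) : ℝ≥0∞) := by
    refine lt_of_eq_of_lt ?_ hm
    rw [show (a : ℝ≥0∞) = ENNReal.ofReal (a : ℝ) from (ENNReal.ofReal_coe_nnreal).symm,
      ← ENNReal.ofReal_mul (by positivity)]
    congr 1; ring
  have h3 : a / Cn * (m : ℝ) ^ n < (Module.finrank ℂ
      (W μ (fun y => m * ψ y) ((Sm.const (m : ℝ)).mulR hψ).continuous.measurable) : ℝ) := by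
    rw [← ENNReal.ofReal_natCast] at h2
    exact (ENNReal.ofReal_lt_ofReal_iff_of_nonneg (by positivity)).1 h2
  exact h3.le.trans (by exact_mod_cast h1)

end Crest.Agent.R269.PAsm5_976
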