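import Crest.Agent.R269.Reg10_241
import Crest.Agent.R269.Cnt9_197
import Crest.Agent.R269.DictI_795
import Crest.Agent.R269.DictH_795
import Crest.Agent.R269.PAsm5_976
import Crest.Agent.R269.BigLin_85
import Crest.Agent.R269.Dense_85
import Crest.Agent.R269.Alp5_927

/-!
# R269 (S0411), assembly of part 10 (helper85): `bigStmt : BigStmt`

(G1)+(G2) `PAsm5_976.g12` (helper976: peak sections, linear Monge-Ampère inequality), (G3)
`Reg10_241.reg_H0tw` (helper241: regularity), (G4) `Cnt9_197.big_H0tw` (helper197: counting),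
`DictI_795` (local rings are UFD), (G5) `DictH_795.bigP_of_section` (helper795), density `Dense_85`.
-/

set_option autoImplicit false

open MvPolynomial Crest.AlgGeometry.ProjEmb Filter
open Crest.Agent.R269.DictA_795 Crest.Agent.R269.DictB_795 Crest.Agent.R269.DictC_795
open Crest.Agent.R269.DictD_795 Crest.Agent.R269.DictE_795 Crest.Agent.R269.H0tw_795
open Crest.Agent.R269.Defs_58 Crest.Agent.R269.Amp3_243 Crest.Agent.R269.Amp1_243
open Crest.Agent.R269.BigLin_85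
open Crest.Agent.R271
open scoped ENNReal

noncomputable section

namespace Crest.Agent.R269.Big_85

variable {N n : ℕ} {I : Ideal (HomCoordRing N)} [I.IsPrime]

/-- **(G1)+(G2)+(G3)**: `c₂ m^n ≤ dim H⁰((m+1) K + (m/q+1) A)` for large `m`, `c₂` independent
of `q`. -/
theorem lower (hA : AlphaFamStmt) (hX : IsSmoothProjective I n) (hn : 1 ≤ n) (hMA : MAP I n)
    {c : CD I n} {q₀ : Fin (N + 1) → ℂ} (h : c.Dom q₀) :
    ∃ c₂ : ℝ, 0 < c₂ ∧ ∀ q : ℕ, 1 ≤ q → ∀ᶠ m : ℕ in atTop,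
      c₂ * (m : ℝ) ^ n ≤ Module.finrank ℂ (H0tw I n c.i (m + 1) ((m / q + 1 : ℕ) : ℤ)) := by
  obtain ⟨c₂, hc₂, hlow⟩ := PAsm5_976.g12 hA inferInstance hX hn hMA (Reg9_241.xc c h hX)
  refine ⟨c₂, hc₂, fun q hq => ?_⟩
  let io : (Reg9_241.xc c h hX).B →ₐ[ℂ] FnField I := c.B.val
  have hinj : Function.Injective io := Subtype.val_injective
  have hx : ∀ l, io ((Reg9_241.xc c h hX).x l) = fnRatio I (Reg9_241.xc c h hX).i l := fun l => rfl
  let V : ℕ → Submodule ℂ (((Reg9_241.xc c h hX).B →ₐ[ℂ] ℂ) → ℂ) := fun m =>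
    VV io (c.wm (m + 1)) (H0tw I n c.i (m + 1) ((m / q + 1 : ℕ) : ℤ))
  have hV : ∀ m, FiniteDimensional ℂ (V m) ∧ Module.finrank ℂ (V m) ≤
      Module.finrank ℂ (H0tw I n c.i (m + 1) ((m / q + 1 : ℕ) : ℤ)) := by
    intro m
    have : FiniteDimensional ℂ (H0tw I n c.i (m + 1) ((m / q + 1 : ℕ) : ℤ)) :=
      Cnt9_197.finite_H0tw hX h.not_mem_i h (m + 1) (m / q + 1)
    exact finrank_VV hinj (h.wm_ne_zero hX (m + 1)) _
  have h1 := hlow q hq V (fun m => (hV m).1) ?_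
  · filter_upwards [h1] with m hm
    exact hm.trans (by exact_mod_cast (hV m).2)
  · intro m F hF hint
    have h2 : ∀ y : (Reg9_241.xc c h hX).B →ₐ[ℂ] ℂ,
        ‖F y‖ ^ 2 * PAsm5_976.wt (Reg9_241.xc c h hX) y ^ m /
            ns (Reg9_241.xc c h hX) y ^ (m / q + 1) =
          ‖F y‖ ^ 2 * (Reg7_241.wt (Reg9_241.xc c h hX) y ^ m *
            ns (Reg9_241.xc c h hX) y ^ (-((m / q + 1 : ℕ) : ℤ))) := by
      intro y
      rw [zpow_neg, zpow_natCast, div_eq_mul_inv, mul_assoc]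
      rfl
    simp only [h2] at hint
    obtain ⟨b, hb, hmem⟩ := Reg10_241.reg_H0tw hX (Reg9_241.xc c h hX) io hinj hx hF m _ hint
    exact mem_VV.2 ⟨b, hmem, hb⟩

/-- a nonzero section of `m K - A` -/
theorem exists_section (hA : AlphaFamStmt) (hX : IsSmoothProjective I n) (hn : 1 ≤ n)
    (hMA : MAP I n) {c : CD I n} {q₀ : Fin (N + 1) → ℂ} (h : c.Dom q₀) :
    ∃ m : ℕ, 1 ≤ m ∧ ∃ s ∈ H0tw I n c.i m (-1), s ≠ 0 := by
  obtain ⟨c₂, hc₂, hlow⟩ := lower hA hX hn hMA h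
  obtain ⟨q, hq, m0, hbig⟩ := Cnt9_197.big_H0tw hX hn h.not_mem_i h
    (CD.stalkClosed hX) (CD.trLe hX) c₂ hc₂ 1
  obtain ⟨m, hm, hm0⟩ := ((hlow q hq).and (eventually_ge_atTop m0)).exists
  exact ⟨m + 1, by omega, hbig m hm0 hm⟩

theorem exists_chart (hX : IsSmoothProjective I n) :
    ∃ (c : CD I n) (q : Fin (N + 1) → ℂ), c.Dom q := by
  obtain ⟨i, hXi⟩ := hX.exists_coord_not_mem
  obtain ⟨p, hp, hpi⟩ : ∃ p ∈ affineCone I, p i ≠ 0 := by
    by_contra hne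
    push Not at hne
    exact hXi (CD.mem_of_eval_zero fun p hp => by rw [eval_X]; exact hne p hp)
  have hp0 : p ≠ 0 := fun h0 => hpi (by rw [h0]; rfl)
  obtain ⟨c, h, -⟩ := exists_CD hX hp hp0 hpi
  exact ⟨c, p, h⟩

/-- **Part 10**: `K_X` is big, given the approximate Monge-Ampère inequality -/
theorem bigStmt : BigStmt := by
  intro N n I hI hX hn hMA
  obtain ⟨c, q₀, h⟩ := exists_chart hX
  obtain ⟨m, hm, s, hs, hs0⟩ := exists_section Alp_927.alphaFamStmt hX hn hMA h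
  exact DictH_795.bigP_of_section hX h.not_mem_i hm hs hs0
    fun G k hG hGI p hp => Dense_85.frequently_eval_ne hX hp hG hGI

end Crest.Agent.R269.Big_85
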