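import Mathlib
/-
ROW 269 (S0411).  BLUEPRINT v2 (helper646).  PARTS 0, 1-6 and 11 of Blueprint_646 are REPLACED by the text below (LINE B: helper730 #1368,
helper430's Lemma K #1576, formalism helper731 #1678/#1715).  PARTS 7-10, 12, 13 of Blueprint_646 are unchanged except for the
improvements listed in PART S at the end.  Formal statements: Defs_58 (Level A), DefsS_731 (disc objects).

==============================================================================================================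
B0. NOTATION (ambient).   C := Cone I,  p in C,  T_p := Tan I p,  |p|^2 := nsq p,  om(p,v) := omg p v, al(p,v) := alpha I n p v,
    Lu(p,v) := lev u p v.   All of them are Hermitian quadratic forms in v, vanish on v in Cp  (v -> v+cp does not change them), and
    q(cp, cv) = q(p,v)   (C^*-invariance of densities).   |al| <= C om, |Lu| <= C_u om on T_p (compactness of {|p|=1} cap C + continuity).
    wdg V p = V p^T - p V^T,  |wdg V p|^2 = 2 |p|^4 om(p,V),   (wdg V p) pbar = |p|^2 V - <V,p> p = |p|^2 V mod p.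
    So a density E is a form in w = wdg V p:  E(p,V) = E(p, w pbar)/|p|^4,  bounded on |p| = 1:  |E(p,w pbar)/|p|^4 - E(p,w'pbar)/|p|^4| <= C|w-w'|(|w|+|w'|)/|p|^4.
    FIELD a (PosField): a(p) = sum b_i b_i^*, b_i in T_p horizontal; tr_a E (p) := sum E(p,b_i); det a (p) := DD p b > 0;
    h := a^{-1}:  |V|_h^2 := sum |c_i|^2 if V = sum c_i b_i mod p.  All C^*-invariant:  h(cp; cV) = h(p;V).
    For covectors xi (linear forms on EE killing p):  |xi|_a^2 := sum |xi(b_i)|^2, and  sup over V of |xi(V)|^2/|V|_h^2 = |xi|_a^2.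

B1. DISC = holomorphic H : D -> C^{N+1}, H(z) in C.   TG q s = 4 int_0^s r log(s/r) (avg_{|z|=r} q) dr;  T_E(s) = T_E(H;s) := TG (z -> E(H z, H' z)) s.
 (B1.1) GREEN-JENSEN: phi C^2 on D:  avg_{|z|=s} phi - phi(0) = TG (d_z d_zbar phi) s  for s < 1.
        (phi = u o H: d_z d_zbar phi = Lu(H,H');  phi = log|H|^2: om(H,H');  phi = log DD(H,e), e_i local holomorphic tangent fields along H: al(H,H').)
 (B1.2) q >= 0: TG q s >= 0, nondecreasing in s (integrand r log(s/r) increases in s).  |TG q s| <= TG |q| s.  For 0<r<s, |q| <= C q':  |TG q s - TG q r| <= C (TG q' s - TG q' r).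
        [TG q s - TG q r = 4 int_0^s rho (log+(s/rho) - log+(r/rho)) avg_rho q, kernel >= 0.]
 (B1.3) FINITE ENERGY: T_om(s) <= B for s<1.  Then T_om(1) := sup = lim; for |E| <= C om:  T_E(1) := lim_{s->1} T_E(s) exists, |T_E(1) - T_E(r)| <= C e_r,
        e_r := T_om(1) - T_om(r) >= 0, e_r -> 0 (r -> 1) for fixed H.  bavg u := u(H 0) + T_{Lu}(1) = lim avg_{|z|=s} u(H);  |bavg u - avg_{|z|=r} u(H)| <= C_u e_r.
 (B1.4) invariance: H~ = e^{phi} H has the same T_E, bavg u, om(H(0),H'(0)).
 (B1.5) SCHWARZ (Brody_164): om(H(0),H'(0)) <= A^2 for every disc; hence om(H(z),H'(z)) <= A^2/(1-|z|)^2  (disc w -> H(z+(1-|z|)w)).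

B2. NORMALISED LIFT.  H of finite energy.  There is phi holomorphic in D with H~ := e^{-phi}H: |H~| <= 1, avg_{|z|=s} log|H~|^2 -> 0.
    Write H for H~, P := -log|H|^2 >= 0.  P is superharmonic, smooth, d_z d_zbar P = -om(H,H').   T_om(1) = P(0),  e_r = avg_{|z|=r} P.
    Boundary values (L2 of the circle): H* := L2-limit of H(s .), |H*| = 1 a.e.  (|H*| <= 1 and avg log|H(s.)|^2 <= log avg|H(s.)|^2 <= 0, left side -> 0),
    H(z) = int H* dmu_z,  mu_z Poisson measure,   int |H* - H(z)|^2 dmu_z = 1 - |H(z)|^2 <= P(z).   One sequence s_j -> 1 with a.e. convergence.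
    bavg u = avg_{dD} u(H*)  (a.e. convergence along s_j, u bounded and continuous on C).

B3. MAXIMISERS.  E a density (combination of al, om, L u, u in SmX) with E >= om on T_p for all p in C.  x0 a point of X.
    c : functional on the set DD_{x0} of all discs with [H(0)] = x0, c(H) <= B, invariant under B1.4, continuous for locally uniform convergence (H_m -> H disc).
    THEN Psi := c - kap T_E(.;1) (kap>0; -inf if T_E(1) = +inf) has a maximiser, of finite energy (H constant has Psi = c > -inf).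
    PROOF.  Maximising sequence: T_om(1) <= T_E(1) <= K.  Normalised lifts: |H_m| <= 1, |H_m(0)|^2 = exp(-P_m(0)) = exp(-T_om(H_m;1)) >= e^{-K}.  Montel: H_m -> H.
    H(z) != 0: by (B1.1) on |w-z|=s':  P_m(z) <= avg_{|w-z|=s'} P_m + TG(A^2/(dist)^2) <= C(K,|z|), because avg of the positive superharmonic P_m over a circle around z is
    <= C(|z|) P_m(0)-type bound [Harnack-free version: avg_{|w|=s} P_m <= P_m(0) <= K for all s gives int_{D_s} P_m dA <= pi K, and local mean value + bounded Laplacian].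
    H(z) in C by continuity of polynomials.  T_E(H;s) = lim T_E(H_m;s) <= liminf T_E(H_m;1) for s<1, so Psi(H) >= limsup Psi(H_m).  QED
    EXAMPLES of c:  om(H(0),H'(0));  T_q(H;r), r<1, q density;  avg_{|z|=1/2} g(H), g continuous C^*-invariant; sums.

B4. VARIATIONS.  X_1..X_M: EE -> EE homogeneous polynomial of degree D >= 1, X_j(p) in T_p (p in C), span_j X_j(p) = T_p, tangent to the ideal (so flows stay in C).
    c_j in C[z].  Phi_tau(z,Y) := flow at time 1 of  Y' = tau z sum_j c_j(z) X_j(Y).  Phi_tau(z,sY) = s Phi_{s^{D-1}tau}(z,Y)  =>  exists for |tau| <= rho0, |z|<=1, |Y|<=1,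
    analytic, and everything below is controlled by |Y| = 1, |tau| <= rho0.   H_tau(z) := Phi_tau(z,H(z)): disc, H_tau(0)=H(0), H_tau'(0) = H'(0) + tau sum c_j(0)X_j(H(0)) exactly.
    F^E_tau(z,Y), Y in C:  for E = om: log|Phi|^2 - log|Y|^2;  E = Lu: u(Phi)-u(Y);  E = al: log(wedgeSq(D_YPhi e_0..D_YPhi e_n)/nsq(Phi)^{n+1})
    - log(wedgeSq(e_0..e_n)/nsq(Y)^{n+1}), e_0..e_n any basis of the FULL tangent space T_Y of the cone (helper60: D_YPhi(Y) is not in C Phi, so DD(Y,b) would not do; AlphaFrameStmt).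
     (i) F^E_0 = 0, F^E_tau(0,Y) = 0, F^E_tau(z,sY) = F^E_{s^{D-1}tau}(z,Y);   (ii) d_z d_zbar [F_tau(z,H(z))] = E(H_tau,H_tau') - E(H,H');
     (iii) mean over arg tau (or over 4 arguments) of F_tau(z,Y), |tau|=rho:  = rho^2 E(Y,V) + O(rho^3), V = z sum c_j(z)X_j(Y), uniformly for |z|<=1, 0<|Y|<=1, constant depends on (c_j).
     (ii)+(B1.1): T_E(H_tau;s) = T_E(H;s) + avg_{|z|=s} F_tau(z,H(z)).
 (VAR) H normalised maximiser of c - kap T_E(1), c = c0 |f'(0)|^2 + kap t T_om(r) + c1 Chi, Chi = avg_{|z|=1/2} g(H) (g smooth C^*-inv., or log|s|^2+.. see B11):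
       c0 om(H(0), V'(0)) + kap t avg_{|z|=r} om(H,V) + c1 avg_{|z|=1/2} Lg(H,V)  <=  kap avg_{dD} E(H*,V*)    for V = z sum c_j X_j(H), hence (L2 limits, B0) for all V in zM:
    M := closure in L2(dD; matrices) of the boundary values of { wdg (sum c_j(z)X_j(H)) H : c_j in C[z] }.  Elements v of M are boundary values of holomorphic v : D -> matrices
    with v(z) = wdg V(z) H(z), V(z) in T_{H(z)} (closed conditions).  "om(H,V)" means |v|^2/(2|H|^4).

B5. WOLD.  a field, h = a^{-1}.  Norm^2 on M: avg_{dD} |v|_h^2 (equivalent to L2).  W := M minus_h zM.  For v,w in W: avg z^k <v,w>_h = 0 for k>=1 (v perp z^k w..) and k<=-1, so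
    <v,w>_h is constant a.e.  =>  orthonormal basis v_1..v_d of W is pointwise h-orthonormal a.e., d <= n; the map M -> T_{H(0)}/H(0), v -> V(0), kills zM and is onto (constants c_j): d >= n.
    So d = n, sum_i V_i V_i^* = a mod H* a.e. on dD,  tr_a E(H*) = sum E(H*,V_i*), DD(H*,V*) = det a(H*) a.e.

B6. LEMMA K.  v in M, z in D, xi a linear form on matrices:  |xi(v(z))|^2 <= (int |v|_h^2 dmu_z) sum_i |xi(v_i(z))|^2.
    PROOF.  q_i := <v,v_i>_h in L2: Fourier coefficient of order -k is <z^k v,v_i> = 0 (k>=1) so q_i in H^2.  v = sum q_i v_i a.e. (n orthonormal vectors in an n-dimensional fibre), |v|_h^2 = sum|q_i|^2;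
    v(z) = sum q_i(z)v_i(z), Cauchy-Schwarz, |q_i(z)|^2 <= int |q_i|^2 dmu_z.
 (K1) sum_i V_iV_i^*(z) >= (1 - C P(z)) a(H(z)) as forms on covectors killing H(z); C = C(X,a,X_j).  In particular sum_i om(H,V_i) >= tr_a om(H) - C' P.
    PROOF.  P(z)<=1 wlog, p := H(z), 1/e <= |p|^2.  xi given, u := h-dual vector (xi(u) = |u|_h^2 = |xi|_a^2), constants c_j with sum c_jX_j(p) = u mod p, |c| <= C|u|_h.
    v := wdg(sum c_jX_j(H)) H.  Phi_c(Y) := |sum c_jX_j(Y)|_h^2 (at Y) for Y in C; for 1/2<=|p|<=1=|Y|:  Phi_c(Y) <= Phi_c(p) + Re l(Y-p) + C|c|^2|Y-p|^2, l C-linear.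
    int (H*-p)dmu_z = 0, int|H*-p|^2dmu_z = 1-|p|^2 <= P(z)  =>  int |v|_h^2 dmu_z <= |u|_h^2(1+CP).  Lemma K: |u|_h^4 <= |u|_h^2(1+CP) sum|xi(V_i(z))|^2.
 (K2) sum_i |xi(V_i(z))|^2 >= c |H(z)|^K |xi|_om^2 (all z; test v with v = wdg X_j(H) H: |v|_h<=C; sum_j|xi(X_j(p))|^2 >= c|p|^{2(D-1)}..|xi|^2 by homogeneity).  So DD(H,V)(z) >= c|H(z)|^{K'} > 0.

B7. DET.  log DD(H,V) is smooth on D with Levi form al(H,H') (near z choose k with H_k != 0, V_i = k-th column of v_i / H_k holomorphic).  >= -C - C P(z) by (K2).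
    a.e. limit along s_j: log det a(H*).  Fatou (P has circle averages -> 0; use log DD + C + CP >= 0):
      (det)   log DD(H,V)(0) = avg_{s_j} log DD(H,V) - T_al(s_j)   =>   log DD(H,V)(0) >= bavg(log det a) - T_al(1);
      (det')  avg_{|z|=1/2} log DD(H,V) >= bavg(log det a) - (T_al(1) - T_al(1/2)).
    AM-GM: sum_i om(H(0),V_i(0)) >= n exp((bavg(log det a) - T_al(1))/n).
 (key) avg_{|z|=r} sum om(H,V_i) >= bavg(tr_a om) - C_a e_r   [(K1), avg_r P = e_r, B1.3].

B8. SUMMED VAR (V := zV_i, sum over i; |zV_i|^2 = r^2|V_i|^2 on |z|=r; on dD sum_i E(H*,zV_i*) = tr_a E(H*)).   k := T_al(1):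
      c0 n exp((bavg log det a - k)/n) + kap t (bavg tr_a om - C_a(e_r + 1 - r)) + c1 sum_i L_Chi(zV_i) <= kap bavg(tr_a E).

B9. (A*)   k(H) >= -C1 for every disc of finite energy.   E = al + t om >= om, kap = 1, c = |f'(0)|^2 + t T_om(r), a := a field, e.g. h with a^{-1} = E (or any fixed a).
      With a^{-1} = E: VAR gives for each V = z v, v in M: om(H(0),V'(0)) <= avg E = |v|_h^2 norm: so |sum xi_i V_i(0)|^2 <= |xi|^2, DD(H(0),V(0)) <= 1, k >= bavg log det a >= -C.
      [or via B8, dropping the t-term: n exp((bavg log det a - k)/n) <= bavg tr_a E <= C  =>  k >= -C.]   So at the maximiser  Psi = |f'(0)|^2 + tT_om(r) - T_al(1) - tT_om(1) <= A^2 + C, and for every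
      disc g centred at x0:  tT_om(g;r) - k(g) - tT_om(g;1) <= A^2 + C;  r -> 1.
    MONOTONICITY TRICK.  S(r) := max Psi_r over discs centred at x0, Psi_r = |f'(0)|^2 - kap[T_E(1) - t T_om(r)], E = al + e om + Lu + t om >= om.  S nondecreasing in r,
      S(r) <= A^2 + kap(C1 + 2 sup|u|) [T_E(1)-tT_om(r) >= k + bavg u - u(x0) >= -C1 - 2sup|u|].  f_r maximiser.  r'>r:  S(r') >= Psi_{r'}(f_r) = S(r) + kap t (T_om(f_r;r') - T_om(f_r;r)); r' -> 1:
      kap t e_r(f_r) <= S(1-) - S(r) -> 0.
B10. (T)  lam := n/(e A^2) (A>0), c0 := lam, kap := A^2/n.  e>=0, tr_a(al + e om + Lu) <= (n c0 + lam u)(det a)^{1/n}  =>  u >= 0.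
      WLOG det a = 1 (replace a by a/(det a)^{1/n}, a smooth field).  x0 := argmin u, assume u(x0)<0.  B8 at f_r:  n e^{-k/n} <= kap bavg tr_a(al + e om + Lu) + o(1) <= kap (n c0 + lam bavg u) + o(1).
      Psi_r(f_r) >= Psi_r(const) = 0 and e T_om(1) + t e_r>=0:  kap (k + bavg u - u(x0)) <= A^2.   So n e^{-k/n} + kap lam k <= kap n c0 + lam A^2 + kap lam u(x0) + o(1); the minimum over k of the left
      side is n kap lam (1 - log(kap lam)) = with kap lam = 1/e:  2n/e.   Right side: kap n c0 = n/e, lam A^2 = n/e.  So 0 <= kap lam u(x0) + o(1).  QED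
      (version with general constants: Stat_85.T_gen.)
B11. (A_delta), (T_delta).  s in HolSec n m1 (-1), s != 0.  |s|^2(p) := |s(p,b)|^2 |p|^2/DD(p,b)^{m1} (smooth, C^*-invariant, <= 1 after scaling).  k_delta := (1+delta m1)k - delta T_om(1).
      For discs off {s=0}: J_s := avg_{|z|=rho} log|s(H)|^2 - log|s(x0)|^2 = T_om(rho) - m1 T_al(rho) + N(rho), N(rho)>=0 nondecreasing [Jensen for log|S|, S = s(H,e) holomorphic].
      Hence for rho in {1/2} and rho'->1 (log|s|<=0):  m1 T_al(1) - T_om(1) >= m1 T_al(1/2) - T_om(1/2) + ... >= avg_{1/2} log|s(H)|^2 - C   [T_om(1/2), |T_al(1/2)| <= C by (B1.5)].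
      b (11.1 of Blueprint_646): om_b := Cb om + L b >= om, det om_b >= c|s|^{-2delta} off {s=0}, |b|<=C; regularised b_tau smooth, om_{b_tau} >= om, det om_{b_tau} >= c (|s|^2+tau)^{-delta}.
      MAX for c = avg_{1/2}(Cb log|H|^2 + b_tau)-(value at 0) + t T_om(r), E = al_delta + t om >= om, al_delta := (1+delta m1)al - delta om, h = a^{-1} := E or any fixed a; B8 with (det'):
      C >= avg_{1/2} sum_i om_{b_tau}(zV_i) >= (n/4) avg_{1/2} (det om_{b_tau}(H) DD(H,V))^{1/n} >= (n/4) exp((1/n)avg_{1/2}[log det om_{b_tau}(H) + log DD(H,V)])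
        >= c exp((1/n)(-delta avg_{1/2} log(|s|^2+tau) - T_al(1)));  tau -> 0 chosen depending on the disc's centre x0 (Dini: family of discs centred at x0 is compact modulo finite energy; or Jensen, Stat_85.kdel_ge).
      So T_al(1) >= -delta avg_{1/2} log|s(H)|^2 - C, and with delta x (the inequality above): k_delta = T_al(1) + delta(m1T_al(1) - T_om(1)) >= -C3 for every disc with centre off {s=0}.
      (T_delta): tr_a(al_delta + Lu) <= u  =>  u >= -C3':  as B10 with kap = 1: f_r: 0 <= c0-term <= bavg u + o(1), and k_delta + bavg u - u(x0) <= A^2  =>  u(x0) >= -C3 - A^2 (x0 off {s=0}; dense; u continuous).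

==============================================================================================================
PART S.  IMPROVEMENTS OF PARTS 8-13 ADOPTED BY THE TEAM
==============================================================================================================
(S8)  duality through one Slater point (DetIneq_271, Dual_271, DualAsm_128/411).      (S9) gluing by mollification in one atlas: GlueA..H_390, RegStmt_848.RegStmt.
(S10) 346's convexity (#1138): j -> dim H^0(aK+jA) - dim H^0(aK+(j-1)A) nondecreasing in j; so dim M_J - dim M_{-1} <= (J+1)/m dim M_{J+m}; 197's COUNT (algebraic H0tw), 976's PEAK (PK1, PK2).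
(S13) 795's jet criterion DictF_795.isCanonicallyAmple_of_jets; 243/241 L2 engine.
==============================================================================================================
-/
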