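import Mathlib
/-
ROW 269 (S0411).  HYPERBOLIC => CANONICALLY AMPLE.   COMPLETE PAPER PROOF (helper646), numbered for checking.   v1

Theorem.  X in P^N smooth projective of dimension n >= 1 (homogeneous prime ideal I, Jacobian criterion), every holomorphic
map C -> X constant.  Then K_X is ample.

==============================================================================================================
PART 0.  NOTATION
==============================================================================================================
(0.1) E = C^{N+1} with the standard Hermitian norm |.|, cone C = {p in E, p != 0, F(p)=0 for all F in I},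
 T_p = {v in E : dF_p(v)=0 for all F in I}, dim T_p = n+1, p in T_p (Euler).  X = C/C^*.  T_xX (x) line = T_p/Cp.
 P(p) = p p^*/|p|^2 in V := Herm(N+1): embeds X as a compact real analytic submanifold X^ of V.  "Smooth function on X" = C^inf
 function u of P(p) (defined on E-0, C^*-invariant).
(0.2) LEVI FORM.  For phi : E -> R of class C^2 near p:  Lphi(p)(v) := (1/4)(D^2phi(v,v) + D^2phi(iv,iv)) = d_w d_wbar phi(F(w))|_0 for every
 holomorphic F with F(0)=p, F'(0)=v.   omega := L(log|p|^2):  omega(v) = (|v|^2|p|^2-|<v,p>|^2)/|p|^4 =: g(v), positive definite on T_p/Cp.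
(0.3) For b=(b_1..b_n), b_i in T_p:  D(p,b) := det(g(b_i,b_j)) = |p ^ b_1 ^ ... ^ b_n|^2/|p|^{2(n+1)}.
 alpha(v) := L(log D)(v) along any local holomorphic frame field b(.) of T/Cp on C (independent of the frame: two frames differ by a
 holomorphic determinant).  alpha is the curvature form of K_X with the metric induced by g.  |alpha(v)| <= C g(v).
 dV = volume form of g.   For a positive definite Hermitian tensor a in (T/Cp) x conj(T/Cp) (Hermitian metric on the cotangent
 space), a = sum_i v_i x conj(v_i), and a Hermitian form beta:  tr(a beta) := sum_i beta(v_i,v_i);  det_g a := D(p,v).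
 tr(a beta) >= n (det_g a)^{1/n} (det_g beta)^{1/n} for beta >= 0.
(0.4) DISC: H : D^- -> C holomorphic inside and smooth (class A below) up to the circle; f=[H].  f*T/H := f*TX has global holomorphic frames e
 (Part 2).  k(f) := avg_{dD} log D(H,e) - log D(H(0),e(0)),   T(f) := avg_{dD} log|H|^2 - log|H(0)|^2 >= 0 (independent of choices, since
 log|holomorphic without zeros| is harmonic).  |f'(z)| := g-norm of H'(z) mod H(z).
(0.5) avg = average over the circle.

==============================================================================================================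
PART 1.  SCHWARZ
==============================================================================================================
(1.1) There is A with |f'(0)| <= A for all holomorphic f: D -> X.  (Brody: if |f_j'(0)| -> inf, reparametrise, get a non-constant
 entire curve with bounded derivative; lift it to C -> E-0.)   Hence |f'(z)| <= A/(1-|z|).

==============================================================================================================
PART 2.  THE ALGEBRA A AND DEFORMATIONS OF DISCS
==============================================================================================================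
(2.1) A := {F = sum_{k>=0} a_k z^k : ||F||^2 = sum (1+k)^4 |a_k|^2 < inf}: Banach algebra of functions on the closed disc (= H^2-Sobolev
 boundary values), polynomials dense, dilations F(rz) -> F as r -> 1.  Characters = points of D^- (Gelfand-Mazur + density), hence
 BEZOUT: F_1..F_k in A without common zero in D^-  =>  sum F_i G_i = 1 in A.
(2.2) Let F_1..F_r generate I, c = N-n.  For |S|=c rows, |J|=c+1 columns: theta_{S,J} := sum_{j in J} +-det(dF_S/dx_{J-j}) d_j.
 theta_{S,J}(I) in I (rows in S: determinant with equal rows; other rows: (c+1)-minors vanish on C, I prime).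
 If H in A^{N+1} is a disc and V in A^{N+1}, V(z) in T_{H(z)}: V = sum c_{S,J} theta_{S,J}(H) with c_{S,J} in A: Cramer:
 Delta_{S,J'} v = sum_{j not in J'} +- v_j theta_{S,J'+j} for v in T_p, and Bezout for the minors Delta_{S,J'}(H).
(2.3) FLOW: for |w| small, H_w := solution at time 1 of dH/dt = w sum c_{S,J} theta_{S,J}(H) in A^{N+1}, H(0)=H.  It is a disc (F_k(H_t) solves a linear
 homogeneous ODE), H_w = H + wV + w^2 R + O(w^3) in A, and if V(0)=0 (choose c(0)=0, i.e. V=zb, c=zc~) then H_w(0)=H(0) and
 H_w'(0) = H'(0)+w b(0) exactly.
(2.4) GLOBAL FRAMES.  For H holomorphic on a neighbourhood of D^-: the ring O(D^-) of germs is a PID, ker dF(H) in O^{N+1} is free of rank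
 n+1 with fibre rank n+1 everywhere (it is a direct summand by Bezout), and H extends to a basis (H, e_1..e_n).
 For H in A: (Bezout) there is an idempotent matrix Q_H(z) in M_{N+1}(A) onto T_{H(z)}; Q_{H(r.)}(z)=Q_H(rz).
(2.5) SECOND VARIATION.  For the family f_w of (2.3), as |w|=rho -> 0, mean over arg w:
   mean Phi(f_w) = Phi(f) + rho^2 Levi_V Phi(f) + o(rho^2)  with
   Levi_V T = avg_{dD} omega(V) - omega(V(0)),   Levi_V k = avg_{dD} alpha(V) - alpha(V(0)),  Levi_V avg u(f) = avg (Lu)(V),
   Levi_V |f'(0)|^2 = |b(0)|_g^2 if V = zb.
 (e_w frames depending holomorphically on w, e.g. Q_{H_w} e; D(H_w,e_w)(z) has w-Levi form alpha(V(z)) by (0.3).)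
 Levi_V is continuous in (H,V) in A-norm.
(2.6) For r<1, f_r(z)=f(rz).  k(f_r) -> k(f) etc.

==============================================================================================================
PART 3.  SPECTRAL FACTORISATION
==============================================================================================================
(3.1) G : dD -> positive definite n x n matrices, entries in H^2(dD) (Sobolev).  There is B in GL_n(A) with B^* G B = I on dD.
 PROOF.  Hardy space H = L^2-closure of polynomials in L^2(dD;C^n), projection P_+.  T_G = P_+ G P_+ is positive definite, bounded below: solve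
 T_G Y = I (columns constant).  G Y = I + conj(H_0)-part, so Y^* G Y is antianalytic, being Hermitian it is constant: Y^*GY = Y(0)^* =: positive
 matrix M (= Y(0)); B := Y M^{-1/2}.  B^{-1} = B^* G on dD = (GB)^* has no negative Fourier coefficients, so B is invertible in the
 algebra.  Regularity: commute d/dphi with P_+ : ||DY|| <= C(||DG Y|| ..) (as in (4.7)).
(3.2) log|det B(0)|^2 = - avg log det G.
(3.3) Let a be a smooth positive definite field on X (0.3), f=[H] a disc with frame e; G(z) := inverse of the matrix of a in the frame e
 (a = sum (G^{-1})_{ij} e_i x conj e_j up to the obvious transposition).  b := eB (n sections b_1..b_n of f*TX, holomorphic).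
 On dD: sum_i b_i x conj(b_i) = a(f).   At 0:  sum_i |b_i(0)|_g^2 >= n exp((1/n)(avg log det_g a(f) - k(f)))     [AM-GM and (3.2)]
 and for every z in D: log D(H(z),b(z)) = Poisson integral at z of log det_g a  - k_z(f),  where k_z(f) is defined like k with centre z.
 V_i := z b_i.

==============================================================================================================
PART 4.  LOCAL BOUNDARY ESTIMATES
==============================================================================================================
(4.1) eta in (0,1/10], arcs I_i = {|phi-phi_i|<eta}, phi_i = i eta, i=1..ceil(2pi/eta).  For q : dD -> real Hilbert space: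
 y_i(q)^2 := eta int_{I_i}|q'|^2 + eta^3 int_{I_i}|q''|^2  (' = d/dphi).   y_i(f) := y_i(P(H)).   N(K,eta) := {discs in A : y_i(f) <= K all i}.
 Constants C, C', c below depend on X, A, K, a only -- NOT on eta, f.  y_i(f)<=K => |d_phi P(H)| <= CK/eta on dD.
(4.2) COLLAR.  f in N(K,eta)  =>  f(D cap B(zeta,c1 eta)) lies in the coordinate ball of radius rho0 at f(zeta), zeta in dD.
 PROOF.  Let s <= c1 eta be maximal such that dist(f(z),f(z/|z|)) < rho0/2 for 1-|z| < s.  If s < c1 eta there is z1, 1-|z1|=s, equality.  In the box
 {1-|z|<s, |arg z - arg z1|<Ls} f is in a chart; v = f - f(zeta1) (chart coordinates), |v| <= rho0, |v| <= C K L c1 =: delta on the bottom.  log|v| subharmonic: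
 two constants: at z_theta (same ray, 1-|z_theta|=theta s): log|v| <= (1-theta-e^{-cL}) log delta + (theta+e^{-cL}) log rho0.  And dist(f(z1),f(z_theta)) <= A log(1/theta) by (1.1).
 theta near 1, L large, c1 small: dist(f(z1),f(zeta1)) <= rho0/4.  Contradiction.
(4.3) LOCAL HOLOMORPHIC REGULARITY.  chi(phi) cutoff =1 on |phi-phi0|<=c1eta/4, supported in c1eta/2; almost analytic extension (variable
 phi+iy = -i log z, y>0 inside): chi^ = sum_{l<=L0} chi^{(l)}(phi)(iy)^l/l! psi(y/eta), |dbar chi^| <= C(y/eta)^{L0}/eta.  If F is bounded holomorphic on
 D cap B(zeta0,c1 eta), continuous up to the arc: negative Fourier coefficients  |(chi F)^(-k)| <= C sup|F| eta (1+k eta)^{-L0-1}  (Stokes).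
 Consequently ||(1-P_+)(chi F)||_{L2}, eta||d_phi ..||, eta^2||d_phi^2 ..|| <= C eta^{1/2} sup|F|.
(4.4) |f'(z)| <= C/(1-|z|+eta) on D.   (1-|z| >= c eta: (1.1).  In the collar: chart coordinates F of f, v=chi F: v = P_+v+(1-P_+)v, Cauchy-Pompeiu for
 chi^F; sum k|a_k| <= (sum (1+k eta)^2k^2|a_k|^2)^{1/2}(C/eta)^{1/2}.)
(4.5) BARRIER.  For a holomorphic section V of f*TX:  L_z log|V|_g^2 >= -C|f'|^2 (V != 0).  psi(z)=C log((1-|z|^2+eta)/eta) satisfies
 L psi <= -C'|f'|^2, psi ~ C log 2.. on dD.  Hence for b_i of (3.3): |b_i(z)|_g <= C((1-|z|+eta)/eta)^C; same for the dual frame.  In particular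
 |b|,|b^{-1}| <= C in chart trivialisations on D cap B(zeta,c1 eta).   Also |k(f)| <= C log(1/eta), T(f) <= C log(1/eta) (same barrier).
(4.6) In the chart trivialisation over D cap B(zeta0,c1 eta): b = matrix B(z) holomorphic, |B|,|B^{-1}|<=C, B^*GB=I on the arc with G(zeta)=a^{-1}(f(zeta)):
 C^{-1}<=G<=C, |DG|<=C/eta, ||D^2G||_{L2(arc)} <= C eta^{-3/2}.
(4.7) CONCLUSION: ||D^l(chi B)||_{L2(dD)} <= C eta^{1/2-l}, l=0,1,2.   PROOF.  v=chi B (columns).  (1-P_+)v =: r1 small by (4.3).  chi G B = (chi B^{-1})^* so
 P_+(chi G B) =: r2 satisfies the same bounds (4.3).  Extend G from supp chi to G^e on dD with the same bounds: P_+(G^e v)=r2.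
 <G^e P_+v,P_+v> = <r2 - G^e r1, P_+v>  => ||P_+v|| <= C eta^{1/2}.  Apply D: P_+(G^e Dv) = Dr2 - P_+((DG^e)v) => ||DP_+v|| <= C eta^{-1/2};
 D^2: P_+(G^e D^2 v) = D^2 r2 - P_+(2DG^e Dv + D^2G^e v) => ||D^2P_+v|| <= C eta^{-3/2}.
(4.8) Hence for V_i=z b_i:  y_j(dP(V_i)) + sup_{dD}|V_i|_g <= C   (all arcs j),  C independent of eta.

==============================================================================================================
PART 5.  PATH THEOREM
==============================================================================================================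
(5.1) ADMISSIBLE FUNCTIONAL for the field a:  Psi(s,f), s in [0,t], f disc (class A) with f(0)=x fixed:  (a) C^1 in s; upper semicontinuous in f
 for uniform convergence on D^- inside N(K,eta); (b) Psi(s,f) <= C(1+log(1/eta)) on N(K,eta); (c) for every f, s:
   d_s Psi(s,f) + sum_i Levi_{V_i} Psi(s,f) >= 0, V_i from (3.3)   (Levi_V = liminf rho^-2 (mean - value); continuity in V in A-norm or the
   inequality for V near V_i up to small error).
(5.2) THEOREM.  Psi admissible, f0 disc with Psi(0,f0) > -inf, eps>0.  There is a disc f_t with f_t(0)=f0(0), Psi(t,f_t) >= Psi(0,f0)-eps.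
(5.3) STAGE LEMMA.  K>=1 fixed.  There are delta0,c>0, j0 such that for j>=j0, eta=2^{-j}, f_ref in N(K,eta), Psi(s0,f_ref) >= -M (M<= j), T_j=c/j: there is f1 in
 N(K+delta0,eta) with Psi(s0+T_j,f1) >= Psi(s0,f_ref) - 2^{-j} - eps T_j.
 PROOF.  On the compact set NN := {f : y_i(P(f)-P(f_ref)) <= delta0 all i} (compact for uniform convergence on D^-: (4.2),(4.4) give
 equicontinuity, weak lower semicontinuity of y_i; limits have lifts in A: divide by a generic linear form) put
   Pen(tau,f) := e^{-2j} (1+C0 mu0 tau)^{-1} sum_i exp(mu(tau) y_i(P(f)-P(f_ref))^2),  mu(tau)=mu0/(1+C0 mu0 tau),  mu0=1/(C0 T_j).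
 For V=V_i, y=y_i<=delta0<=1: Levi_V exp(mu y^2) <= exp(mu y^2) C(mu + mu^2 y^2)  [(4.8); second derivative of P(f_w): scaled H^2 norm <= C], so
 (d_tau + sum Levi_{V_i}) Pen <= 0 if C0 >= nC.   G(tau) := max_NN (Psi(s0+tau,.)-Pen(tau,.)).  While G(tau)>=G(0)-eps tau, a maximiser has
 Pen <= C(1+j)+M, and exp(mu(T_j)delta0^2) >= exp(delta0^2 j/(2C0 c)) > e^{3j} if c small: so it is interior: y_i<delta0.  At an interior maximiser f
 sum Levi_{V_i}(Psi-Pen) <= 0 (families f_w stay in NN), hence d_tau(Psi-Pen) >= -eps.  So D_+G >= -eps.  G(0) >= Psi(s0,f_ref)-2^{-j}.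
(5.4) PROOF OF (5.2): after stage j rescale: N(K+delta0,2^{-j}) in N(K,2^{-j-1}) when delta0<=(sqrt2-1)K (the scaled norm decreases by 1/sqrt2).  Any disc of class
 A is in N(K,2^{-j}) for j large.  sum c/j = inf, so finitely many stages reach t.
(5.5) Frames at a maximiser f in A: take frames of f_r (2.4), r->1, transport by Q_f; use continuity of Levi and (4.8) for f_r.

==============================================================================================================
PART 6.  CONSEQUENCES
==============================================================================================================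
(6.1) (A*)  k(f) >= -C1 for all discs.  a = g^{-1} (det_g a=1), Psi = |f'(0)|^2 - kap(s)k(f) + th(s), kap=kap0(1-s), 0<=s<=1.  Rate:
   sum|b_i(0)|^2 - kap avg tr_g alpha + kap0 k + th' >= n e^{-k/n} + kap0 k - kap0 C + th' >= n kap0(1-log kap0) - kap0 C + th' =: 0.
   Psi(1,.) <= A^2+th(1):  -kap0 k(f0) <= A^2 - n kap0(1-log kap0)+kap0 C.
(6.2) (T)  eps>=0; a smooth field, det_g a = 1; u smooth with tr(a(alpha+eps omega+Lu)) <= n c0+lam u on X, lam:=n/(eA^2), c0:=lam.  THEN u >= 0.
   Psi = |f'(0)|^2 - kap(s)(k(f)+eps T(f)+avg u(f)) + th(s), kap=kap0 e^{-lam s}, kap0=A^2/n; start f0 = constant disc x.  Rate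
   >= n e^{-k/n} - kap(n c0+lam avg u) + lam kap(k+eps T+avg u) + th' >= n e^{-k/n}+lam kap k - n c0 kap + th' >= n kap lam(1-log(kap lam)) - n c0 kap + th' =: 0.
   -kap0 u(x) <= A^2 + kap(t)(C1+sup|u|) + th(t)-th(0); t->inf: u(x) >= -A^2/kap0 + n(2-log(kap0 lam)-c0/lam) = n(2-c0/lam) = n > 0.
(6.3) det_g a != 1: apply (6.2) to a/(det_g a)^{1/n}:  tr(a(alpha+eps omega+Lu)) <= (n c0+lam u)(det_g a)^{1/n}  =>  u>=0.

==============================================================================================================
PART 7.  RESOLVENT
==============================================================================================================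
(7.1) a smooth positive field, lam>0, h smooth on X, delta>0: there is a smooth (C^4) u with |lam (det_g a)^{1/n} u - tr(a Lu) - h| <= delta.
   WLOG det_g a=1, L_a u := tr(a Lu).
(7.2) Extend to R^M=V: L~ = (1/2) sum_i W_i^2 + W_0, W_i smooth compactly supported vector fields on V tangent to X^ , L~u = L_a u on X^.
   (W_E(P) = a^{1/2} E P + (a^{1/2} E P)^*, E in a real basis of M_{N+1}(C); W_0 chosen to correct first order terms, also tangent.)
(7.3) Q_h u(y) := mean over xi in {+-1}^m of u(y+sqrt h sum xi_i W_i(y)+h b(y)).  Jet of order k: j(Q_h u)(y)=mean A_xi(y) j(u)(Theta_xi y), A_xi=I+sqrt h B_xi+O(h),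
   B_{-xi}=-B_xi:  |mean (I+sqrt h B)v|^2 <= (1+Ch) mean|v|^2  =>  ||Q_h u||_{C^k} <= (1+C_k h)||u||_{C^k} (Hilbert norm on jets).
   For lam > C_4: u_h = sum_j h(1+lam h)^{-j-1} Q_h^j g bounded in C^4, lam u_h - (Q_h-1)u_h/h = g, (Q_h-1)/h = L~+O(sqrt h)||.||_{C^3}.
(7.4) general lam: iterate u_{j+1} = R_{Lam}(g+(Lam-lam)u_j), maximum principle sup|v| <= sup|(Lam-L_a)v|/Lam.

==============================================================================================================
PART 8.  DUALITY
==============================================================================================================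
(8.1) rho_s := L_s^* 1: for a smooth field s: int L_s u dV = int u rho_s dV (integration by parts in charts; for s=g^{-1}: rho=0, Kaehler).
(8.2) eps>0.  UU := {positive linear functionals l on C(X), l(1) <= B}, weak-* compact.  J_s(l) := l(rho_s - lam (det_g s)^{1/n}) + int tr(s(alpha+eps omega))dV - n c0 int (det_g s)^{1/n}dV.
   CLAIM: for every smooth s>0 there is l in UU with J_s(l) >= 0.  PROOF: m := max(0,max(rho_s-lam(det s)^{1/n})); need Bm + int tr(s alpha_eps) - n c0 int(det s)^{1/n} >= 0.
   s' := s+(m/lam)g^{-1}: (det s')^{1/n} >= (det s)^{1/n}+m/lam, so rho_{s'}-lam(det s')^{1/n} <= 0.  (7.1): u with h<=(lam (det s')^{1/n}-L_{s'})u<=h+delta, h:=tr(s' alpha_eps)-n c0(det s')^{1/n};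
   (6.3): u>=0.  int h >= int (lam (det s')^{1/n} - L_{s'})u - delta' = -int u(rho_{s'}-lam(det s')^{1/n}) - delta' >= -delta'.  So B := (1/lam) int tr(g^{-1}alpha_eps)dV works.
(8.3) (det)^{1/n} is superadditive, so J_{sum w_i s_i}(l) <= sum w_i J_{s_i}(l) for w_i>=0; separation in R^m + compactness: there is l in UU with J_s(l)>=0 for ALL smooth s>=0.
(8.4) l restricted to a chart ball, divided by det g: a positive distribution (measure) v with, for chi>=0 test function, A constant psd Hermitian matrix:
   int (sum A_{jk} d_j dbar_k chi) dv + int chi tr(A alpha_eps) dz >= n c0 int chi (det A)^{1/n}(det g)^{1/n} dz.    [drop lam-term: l>=0]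

==============================================================================================================
PART 9.  REGULARISATION
==============================================================================================================
(9.1) INPUT: l positive functional as in (8.4) (or l+C dV with l.. in Part 12), gamma smooth closed form given by potentials gamma = L p_j in charts (alpha, omega have them:
   log D(sigma,d sigma), log|sigma|^2), so v+p_j has psh mollifications.
(9.2) v_t := (v+p_j)*chi_t (radial chi): smooth psh, increasing in t, t<=t0; bounded above (L^1 bound) and below: |v_t| <= C.   MA: L v_t >= in the sense tr(A L v_t)>=(n c0-o(1))(det A)^{1/n}(det g)^{1/n}.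
(9.3) w psh smooth, |w|<=C on B(x,1): M(x,r)=max_{B(x,r)} w is convex in log r, so M(x,4Cr)-M(x,r) <= C'/log(1/r); K-w>=0 superharmonic with K=M(x,4r): K-avg_{B(x,r)}w <= C''/log(1/r).
   Hence mollifications at scale t in two charts differ (after subtracting p_j) by <= C'/log(1/t) on overlaps.
(9.4) GLUE: f_j := v_t^{(j)} - p_j - eta rho_j, rho_j=0 on the inner ball, rho_j=1/dist near the boundary of chart ball j, (rho_j=+inf outside), t with C'/log(1/t) <= eta^2:
   phi := (1/M)log sum_j exp(M f_j), M eta = K0.  L phi >= sum w_j L f_j, w_j softmax, w_j <= e.e^{-K0 rho_j}, |L rho_j|<=C(1+rho_j)^4  =>  gamma + L phi >= -C eta omega and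
   tr(A(gamma+Lphi+C eta omega)) >= (n c0-o(1))(det_g A)^{1/n}.
(9.5) CONCLUSION of 8+9: c1>0 (indep. of eps) and for every eps>0 a smooth phi on X with beta:=alpha+eps omega+L phi>0, det_g beta >= c1.

==============================================================================================================
PART 10.  BIGNESS
==============================================================================================================
(10.1) PEAK: phi smooth, beta = alpha+eps omega+L phi > 0, eps rational, det_g beta>=c1.  For m >= m0(phi), m eps integer, x in X: there is s in H^0(K_X+m(K_X+eps A)) with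
   |s(x)|^2_{m phi} >= c m^n det_g beta(x) ||s||^2_{L2}.  (coordinates w with weight phi = |w|^2+O(|w|^3), cutoff at |w| ~ m^{-1/2}R.., weight m phi+ n chi log|w|^2, Hoermander.)
   So dim H^0(X,(m+1)K_X+m eps A) = int Bergman >= c2 m^n, c2 = c2(c1,X).
(10.2) dim H^0(aK_X+jA)/l.H^0(aK_X+(j-1)A) <= C2 m^{n-1} for a,j<=m+1, l a linear form (multiply by tau^a, tau in H^0(C4 A-K_X): Hilbert function of R/(I,l)).
   For eps < c2/(4C2): after m eps+1 divisions by l a nonzero section of (m+1)K_X - A remains.   m1:=m+1.
(10.3) OUTPUT: m1>=1, s != 0 in H^0(m1K_X-A).  On a disc with frame e: s(H,e)=:S(z) holomorphic, log|s|^2 = log|S|^2 + log|H|^2 - m1 log D(H,e).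

==============================================================================================================
PART 11.  A_delta
==============================================================================================================
(11.1) b := sum_{r<M} (|d^r s|^2)^gamma, locally d=d/dz_n direction in which s vanishes to order <=M (glue with chi_p^2; or b = sum over words theta^I s).  b bounded, L b >= -C omega.
   CHAIN: if sum_r |P_r|^{2gamma-2}|P_{r+1}|^2 <= t^{-delta}, t=|P_0|^2.. small, |P_M|>=c: |P_{r+1}|^2 <= t^{-delta}|P_r|^{2-2gamma}: contradiction for gamma,delta small.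
   So omega_b := Cb omega + L b >= omega and det_g omega_b >= c|s|^{-2delta} off {s=0}.
(11.2) k_delta := (1+delta m1)k - delta T.  CLAIM k_delta(f) >= -C3 for all discs.  a=g^{-1}.  Theta(f) := avg_{|z|=1/2}(Cb log|H|^2+b(f)) - (same at 0), 0<=..|Theta|<=C.
   sum Levi_{V_i}Theta = avg_{|z|=1/2} sum omega_b(V_i) >= (n/4) exp((1/n) avg_{1/2}[log det_g omega_b + log D(H,b)]) >= c exp(-k_delta(f)/n): since
   -delta avg_{1/2}log|s|^2 + avg_{1/2} log D(H,b) >= -delta avg_{dD}log|s|^2 - k_delta(f)+k_{delta,1/2}(f), log|s|<=0, |k_{delta,1/2}|<=C.
   Psi = Theta + tau0 avg_{1/2}log|s(f)|^2 - kap(s)k_delta+th(s), kap=kap0(1-s), as in (6.1); tau0->0.  (tau0-term: maximisers are not inside {s=0}; its Levi >= -C tau0 omega(V), absorbed.)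
   f inside {s=0}: perturb.
(11.3) (T_delta) a smooth field >0, u smooth, tr(a(alpha_delta+Lu)) <= u, alpha_delta:=(1+delta m1)alpha-delta omega  =>  u >= -C3.
   Psi = -e^{-s}(k_delta(f)+avg u(f)) + C3(1-e^{-s}): rate >= e^{-s}(k_delta+C3) >= 0; -u(x) <= C3+o(1).

==============================================================================================================
PART 12.  K_X IS POSITIVE
==============================================================================================================
(12.1) Duality: UU={l >= 0, l(1)<=C3 vol}; U = l - C3 dV.  For smooth s>0: m=max rho_s >=0 (int rho_s=0).  If m>0 take the density m: a := s/m: (7.1): u with u - L_a u ~ tr(a alpha_delta);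
   int tr(s alpha_delta) dV = int (m u - L_s u) = int u(m-rho_s) >= -C3 m vol.  So there is l with l(rho_s)+int tr(s alpha_delta)dV >= 0; as in 8: l for all s.
(12.2) Part 9: for every e>0 smooth phi with alpha_delta+e omega+L phi>0.  e<delta: alpha+L phi' > 0, phi'=phi/(1+delta m1).

==============================================================================================================
PART 13.  K_X IS AMPLE.   alpha+L phi'>0.  Hoermander with weights m phi' + n chi log|w-x|^2 (+ n chi log|w-y|^2, or (n+1) chi log|w-x|^2): for m>=m0 uniformly, sections of mK_X separate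
   points and 1-jets; algebraicity of L2 holomorphic sections; translation to chart-regular pluricanonical forms.
==============================================================================================================
-/
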