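import Mathlib

/-!
Row 269, leaf L7 (Brody reparametrisation), part 1: the Fubini-Study density of a lift
(helper164).
-/

set_option autoImplicit false

open Set Filter Topology Metric Complex
open scoped ComplexConjugate

noncomputable section

namespace Crest.Agent.R269.Brody_164

variable {ι : Type*} [Fintype ι]

/-- squared euclidean norm -/
def nsq (p : ι → ℂ) : ℝ := ∑ i, ‖p i‖ ^ 2

/-- hermitian product, linear in the first variable -/
def herm (v p : ι → ℂ) : ℂ := ∑ i, v i * conj (p i)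

/-- sum of the squares of the absolute values of the `2 × 2` minors (each counted twice) -/
def wsq (p v : ι → ℂ) : ℝ := ∑ i, ∑ j, ‖v i * p j - v j * p i‖ ^ 2

/-- squared Fubini-Study norm (for the form `i ∂∂̄ log |H|²`) of the tangent vector with lift `v`
at the point with lift `p` -/
def fsSq (p v : ι → ℂ) : ℝ :=
  ((∑ i, ‖p i‖ ^ 2) * (∑ i, ‖v i‖ ^ 2) - ‖∑ i, v i * conj (p i)‖ ^ 2) / (∑ i, ‖p i‖ ^ 2) ^ 2

theorem fsSq_def (p v : ι → ℂ) :
    fsSq p v = (nsq p * nsq v - ‖herm v p‖ ^ 2) / (nsq p) ^ 2 := rfl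

theorem nsq_nonneg (p : ι → ℂ) : 0 ≤ nsq p := Finset.sum_nonneg fun _ _ => by positivity

theorem wsq_nonneg (p v : ι → ℂ) : 0 ≤ wsq p v :=
  Finset.sum_nonneg fun _ _ => Finset.sum_nonneg fun _ _ => by positivity

theorem nsq_pos {p : ι → ℂ} (hp : p ≠ 0) : 0 < nsq p := by
  obtain ⟨i, hi⟩ := Function.ne_iff.1 hp
  have h1 : ‖p i‖ ^ 2 ≤ nsq p :=
    Finset.single_le_sum (f := fun i => ‖p i‖ ^ 2) (fun _ _ => by positivity) (Finset.mem_univ i)
  have h2 : 0 < ‖p i‖ := norm_pos_iff.2 hi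
  have h3 : 0 < ‖p i‖ ^ 2 := by positivity
  linarith

theorem nsq_eq_zero {p : ι → ℂ} : nsq p = 0 ↔ p = 0 := by
  constructor
  · intro h
    by_contra hp
    exact (nsq_pos hp).ne' h
  · rintro rfl
    simp [nsq]

theorem norm_sq_le_nsq (p : ι → ℂ) (i : ι) : ‖p i‖ ^ 2 ≤ nsq p :=
  Finset.single_le_sum (f := fun i => ‖p i‖ ^ 2) (fun _ _ => by positivity) (Finset.mem_univ i)

theorem nsq_smul (c : ℂ) (p : ι → ℂ) : nsq (c • p) = ‖c‖ ^ 2 * nsq p := by
  simp only [nsq, Pi.smul_apply, smul_eq_mul, norm_mul, mul_pow, Finset.mul_sum]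

theorem herm_self (p : ι → ℂ) : herm p p = (nsq p : ℂ) := by
  simp only [herm, nsq, Complex.ofReal_sum, Complex.ofReal_pow]
  refine Finset.sum_congr rfl fun i _ => ?_
  rw [Complex.mul_conj, Complex.normSq_eq_norm_sq]
  simp

/-- **Lagrange's identity** -/
theorem wsq_eq (p v : ι → ℂ) : wsq p v = 2 * (nsq p * nsq v - ‖herm v p‖ ^ 2) := by
  have hn : ∀ z : ℂ, ((‖z‖ ^ 2 : ℝ) : ℂ) = z * conj z := by
    intro z
    rw [Complex.mul_conj, Complex.normSq_eq_norm_sq]
  apply Complex.ofReal_injective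
  have e1 : ((wsq p v : ℝ) : ℂ) = ∑ i, ∑ j,
      (v i * p j - v j * p i) * (conj (v i) * conj (p j) - conj (v j) * conj (p i)) := by
    unfold wsq
    rw [Complex.ofReal_sum]
    refine Finset.sum_congr rfl fun i _ => ?_
    rw [Complex.ofReal_sum]
    refine Finset.sum_congr rfl fun j _ => ?_
    rw [hn, map_sub, map_mul, map_mul]
  have e2 : ((nsq p : ℝ) : ℂ) = ∑ i, p i * conj (p i) := by
    unfold nsq
    rw [Complex.ofReal_sum]
    exact Finset.sum_congr rfl fun i _ => hn _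
  have e3 : ((nsq v : ℝ) : ℂ) = ∑ i, v i * conj (v i) := by
    unfold nsq
    rw [Complex.ofReal_sum]
    exact Finset.sum_congr rfl fun i _ => hn _
  have e4 : ((‖herm v p‖ ^ 2 : ℝ) : ℂ) = (∑ i, v i * conj (p i)) * (∑ j, conj (v j) * p j) := by
    rw [hn, herm, map_sum]
    congr 1
    exact Finset.sum_congr rfl fun i _ => by rw [map_mul, Complex.conj_conj]
  rw [e1, Complex.ofReal_mul, Complex.ofReal_sub, Complex.ofReal_mul, e2, e3, e4]
  simp only [Complex.ofReal_ofNat]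
  have hA : ∑ i, ∑ j, (v i * p j - v j * p i) * (conj (v i) * conj (p j) - conj (v j) * conj (p i))
      = ∑ i, ∑ j, ((v i * conj (v i)) * (p j * conj (p j)) - (v i * conj (p i)) * (conj (v j) * p j)
        - (conj (v i) * p i) * (v j * conj (p j)) + (p i * conj (p i)) * (v j * conj (v j))) := by
    refine Finset.sum_congr rfl fun i _ => Finset.sum_congr rfl fun j _ => ?_
    ring
  rw [hA]
  simp only [Finset.sum_add_distrib, Finset.sum_sub_distrib, ← Finset.mul_sum, ← Finset.sum_mul]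
  ring

theorem fsSq_eq (p v : ι → ℂ) : fsSq p v = wsq p v / (2 * nsq p ^ 2) := by
  rw [fsSq_def, wsq_eq]
  by_cases h : nsq p = 0
  · simp [h]
  · field_simp

theorem fsSq_nonneg (p v : ι → ℂ) : 0 ≤ fsSq p v := by
  rw [fsSq_eq]
  have := wsq_nonneg p v
  positivity

theorem wsq_le_iff {p v : ι → ℂ} (hp : p ≠ 0) (L : ℝ) :
    fsSq p v ≤ L ↔ wsq p v ≤ 2 * L * nsq p ^ 2 := by
  have h := nsq_pos hp
  rw [fsSq_eq, div_le_iff₀ (by positivity)]
  constructor <;> intro h' <;> linarith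

/-- the minors do not see the direction of `p` and scale by `c ^ 2` -/
theorem wsq_smul (p v : ι → ℂ) (c b : ℂ) :
    wsq (c • p) (c • v + b • p) = (‖c‖ ^ 2) ^ 2 * wsq p v := by
  unfold wsq
  rw [Finset.mul_sum]
  refine Finset.sum_congr rfl fun i _ => ?_
  rw [Finset.mul_sum]
  refine Finset.sum_congr rfl fun j _ => ?_
  have : (c • v + b • p) i * (c • p) j - (c • v + b • p) j * (c • p) i
      = c ^ 2 * (v i * p j - v j * p i) := by
    simp only [Pi.add_apply, Pi.smul_apply, smul_eq_mul]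
    ring
  rw [this, norm_mul, norm_pow]
  ring

/-- `fsSq` is the pullback of a metric on projective space -/
theorem fsSq_smul {c : ℂ} (hc : c ≠ 0) (p v : ι → ℂ) (b : ℂ) :
    fsSq (c • p) (c • v + b • p) = fsSq p v := by
  rw [fsSq_eq, fsSq_eq, wsq_smul, nsq_smul]
  have h : 0 < ‖c‖ := norm_pos_iff.2 hc
  by_cases hn : nsq p = 0
  · simp [hn]
  · field_simp

theorem wsq_smul_right (p v : ι → ℂ) (a : ℂ) : wsq p (a • v) = ‖a‖ ^ 2 * wsq p v := by
  unfold wsq
  rw [Finset.mul_sum]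
  refine Finset.sum_congr rfl fun i _ => ?_
  rw [Finset.mul_sum]
  refine Finset.sum_congr rfl fun j _ => ?_
  have : (a • v) i * p j - (a • v) j * p i = a * (v i * p j - v j * p i) := by
    simp only [Pi.smul_apply, smul_eq_mul]
    ring
  rw [this, norm_mul]
  ring

theorem fsSq_smul_right (p v : ι → ℂ) (a : ℂ) : fsSq p (a • v) = ‖a‖ ^ 2 * fsSq p v := by
  rw [fsSq_eq, fsSq_eq, wsq_smul_right]
  ring

theorem continuous_nsq : Continuous (nsq : (ι → ℂ) → ℝ) := by
  unfold nsq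
  fun_prop

theorem tendsto_nsq {α : Type*} {l : Filter α} {f : α → ι → ℂ} {a : ι → ℂ}
    (hf : Tendsto f l (𝓝 a)) :
    Tendsto (fun x => nsq (f x)) l (𝓝 (nsq a)) :=
  (continuous_nsq.tendsto a).comp hf

theorem tendsto_wsq {α : Type*} {l : Filter α} {f g : α → ι → ℂ} {a b : ι → ℂ}
    (hf : Tendsto f l (𝓝 a)) (hg : Tendsto g l (𝓝 b)) :
    Tendsto (fun x => wsq (f x) (g x)) l (𝓝 (wsq a b)) := by
  unfold wsq
  have h1 : ∀ i, Tendsto (fun x => f x i) l (𝓝 (a i)) := fun i => (tendsto_pi_nhds.1 hf) i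
  have h2 : ∀ i, Tendsto (fun x => g x i) l (𝓝 (b i)) := fun i => (tendsto_pi_nhds.1 hg) i
  refine tendsto_finsetSum _ fun i _ => tendsto_finsetSum _ fun j _ => ?_
  exact ((((h2 i).mul (h1 j)).sub ((h2 j).mul (h1 i))).norm).pow 2

theorem tendsto_fsSq {α : Type*} {l : Filter α} {f g : α → ι → ℂ} {a b : ι → ℂ}
    (hf : Tendsto f l (𝓝 a)) (hg : Tendsto g l (𝓝 b)) (ha : a ≠ 0) :
    Tendsto (fun x => fsSq (f x) (g x)) l (𝓝 (fsSq a b)) := by
  simp only [fsSq_eq]
  refine (tendsto_wsq hf hg).div (((tendsto_nsq hf).pow 2).const_mul 2) ?_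
  have := nsq_pos ha
  positivity

theorem continuousOn_fsSq {X : Type*} [TopologicalSpace X] {f g : X → ι → ℂ} {s : Set X}
    (hf : ContinuousOn f s) (hg : ContinuousOn g s) (h0 : ∀ x ∈ s, f x ≠ 0) :
    ContinuousOn (fun x => fsSq (f x) (g x)) s :=
  fun x hx => tendsto_fsSq (hf x hx) (hg x hx) (h0 x hx)

/-- the density of a lift multiplied by a holomorphic function -/
theorem fsSq_mul_lift {c : ℂ → ℂ} {H : ℂ → ι → ℂ} {z : ℂ} (hc : DifferentiableAt ℂ c z)
    (hH : DifferentiableAt ℂ H z) (h0 : c z ≠ 0) :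
    fsSq (c z • H z) (deriv (fun w => c w • H w) z) = fsSq (H z) (deriv H z) := by
  have h1 : deriv (fun w => c w • H w) z = c z • deriv H z + deriv c z • H z :=
    (hc.hasDerivAt.smul hH.hasDerivAt).deriv
  rw [h1, fsSq_smul h0]

theorem fsSq_comp_affine {H : ℂ → ι → ℂ} {a ρ z : ℂ} (hH : DifferentiableAt ℂ H (a + ρ * z)) :
    fsSq (H (a + ρ * z)) (deriv (fun w => H (a + ρ * w)) z)
      = ‖ρ‖ ^ 2 * fsSq (H (a + ρ * z)) (deriv H (a + ρ * z)) := by
  have h2 : HasDerivAt (fun w : ℂ => a + ρ * w) ρ z := by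
    simpa using ((hasDerivAt_id z).const_mul ρ).const_add a
  have h1 : deriv (fun w => H (a + ρ * w)) z = ρ • deriv H (a + ρ * z) :=
    (hH.hasDerivAt.scomp z h2).deriv
  rw [h1, fsSq_smul_right]

end Crest.Agent.R269.Brody_164
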