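import Crest.Agent.R269.Brody1_164

/-!
Row 269, leaf L7 (Brody reparametrisation), part 2: normalised lifts (helper164).

* `exists_entire_re_approx`: a continuous real function on a circle is uniformly approximated by
  real parts of entire functions (polynomials);
* `nsq_lower_bound`: barrier for `-log |F|²`;
* `exists_normalised_lift`.
-/

set_option autoImplicit false

open Set Filter Topology Metric Complex
open scoped ComplexConjugate Real

noncomputable section

namespace Crest.Agent.R269.Brody_164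

/-! ### Approximation on a circle -/

instance factTwoPi : Fact (0 < 2 * π) := ⟨Real.two_pi_pos⟩

/-- property of a function on the circle: the real parts of its multiples are the boundary values
of real parts of entire functions -/
def ReEnt (R : ℝ) (g : AddCircle (2 * π) → ℂ) : Prop :=
  ∀ c : ℂ, ∃ P : ℂ → ℂ, Differentiable ℂ P ∧
    ∀ t : ℝ, (c * g (t : AddCircle (2 * π))).re = (P (circleMap 0 R t)).re

theorem reEnt_fourier {R : ℝ} (hR : R ≠ 0) (n : ℤ) :
    ReEnt R (fun t => fourier n t) := by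
  intro c
  have hRc : (R : ℂ) ≠ 0 := by exact_mod_cast hR
  have hcm : ∀ t : ℝ, circleMap 0 R t / R = exp (t * I) := by
    intro t
    rw [circleMap]
    field_simp
    simp
  rcases Int.eq_nat_or_neg n with ⟨m, hm | hm⟩
  · refine ⟨fun z => c * (z / R) ^ m, by fun_prop, fun t => ?_⟩
    simp only
    rw [fourier_coe_apply, hcm, ← Complex.exp_nat_mul, hm]
    congr 3
    push_cast
    field_simp
  · refine ⟨fun z => conj c * (z / R) ^ m, by fun_prop, fun t => ?_⟩
    simp only
    rw [fourier_coe_apply, hcm, ← Complex.exp_nat_mul, ← Complex.conj_re, map_mul, hm,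
      ← Complex.exp_conj]
    congr 3
    push_cast
    simp only [map_div₀, map_mul, map_neg, Complex.conj_ofReal, Complex.conj_I, map_ofNat,
      map_natCast]
    field_simp

theorem reEnt_of_mem_span {R : ℝ} (hR : R ≠ 0) (g : C(AddCircle (2 * π), ℂ))
    (hg : g ∈ Submodule.span ℂ (range (@fourier (2 * π)))) : ReEnt R g := by
  induction hg using Submodule.span_induction with
  | mem x hx =>
    obtain ⟨n, rfl⟩ := hx
    exact reEnt_fourier hR n
  | zero =>
    intro c
    exact ⟨fun _ => 0, by fun_prop, fun t => by simp⟩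
  | add x y _ _ hx hy =>
    intro c
    obtain ⟨P, hP, hP'⟩ := hx c
    obtain ⟨Q, hQ, hQ'⟩ := hy c
    refine ⟨fun z => P z + Q z, hP.add hQ, fun t => ?_⟩
    rw [ContinuousMap.add_apply, mul_add, Complex.add_re, Complex.add_re, hP', hQ']
  | smul a x _ hx =>
    intro c
    obtain ⟨P, hP, hP'⟩ := hx (c * a)
    refine ⟨P, hP, fun t => ?_⟩
    rw [ContinuousMap.smul_apply, smul_eq_mul, ← mul_assoc, hP']

theorem exists_entire_re_approx {R : ℝ} (hR : 0 < R) {u : ℂ → ℝ}
    (hu : ContinuousOn u (sphere 0 R)) {ε : ℝ} (hε : 0 < ε) :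
    ∃ P : ℂ → ℂ, Differentiable ℂ P ∧ ∀ z ∈ sphere (0 : ℂ) R, |u z - (P z).re| ≤ ε := by
  set f : ℝ → ℂ := fun t => ((u (circleMap 0 R t) : ℝ) : ℂ) with hf
  have hper : Function.Periodic f (2 * π) := by
    intro t
    simp only [hf, periodic_circleMap 0 R t]
  have hfc : Continuous f := by
    have h1 : Continuous fun t : ℝ => u (circleMap 0 R t) :=
      hu.comp_continuous (continuous_circleMap 0 R) (fun t => circleMap_mem_sphere 0 hR.le t)
    exact Complex.continuous_ofReal.comp h1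
  have hlc : Continuous (hper.lift) := by
    exact hfc.quotient_liftOn' _
  set g : C(AddCircle (2 * π), ℂ) := ⟨hper.lift, hlc⟩ with hg
  have hmem : g ∈ closure ((Submodule.span ℂ (range (@fourier (2 * π))) :
      Submodule ℂ C(AddCircle (2 * π), ℂ)) : Set C(AddCircle (2 * π), ℂ)) := by
    have h1 := @span_fourier_closure_eq_top (2 * π) _
    have h2 : g ∈ (Submodule.span ℂ (range (@fourier (2 * π)))).topologicalClosure := by
      rw [h1]; trivial
    exact h2
  obtain ⟨q, hq, hqd⟩ := Metric.mem_closure_iff.1 hmem ε hε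
  obtain ⟨P, hP, hP'⟩ := reEnt_of_mem_span hR.ne' q hq 1
  refine ⟨P, hP, fun z hz => ?_⟩
  obtain ⟨t, ht⟩ : ∃ t : ℝ, circleMap 0 R t = z := by
    have h1 : z ∈ range (circleMap 0 R) := by
      rw [range_circleMap, abs_of_pos hR]
      exact hz
    exact h1
  subst ht
  rw [← hP' t, one_mul]
  have h2 : dist (g (t : AddCircle (2 * π))) (q (t : AddCircle (2 * π))) ≤ dist g q :=
    ContinuousMap.dist_apply_le_dist _
  have h3 : g (t : AddCircle (2 * π)) = ((u (circleMap 0 R t) : ℝ) : ℂ) := rfl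
  rw [h3, dist_eq_norm] at h2
  have h4 : |(((u (circleMap 0 R t) : ℝ) : ℂ) - q (t : AddCircle (2 * π))).re| ≤ _ :=
    Complex.abs_re_le_norm _
  rw [Complex.sub_re, Complex.ofReal_re] at h4
  linarith

/-! ### the barrier -/

theorem circleAverage_normSq (c : ℂ) (r : ℝ) :
    Real.circleAverage (fun z => ‖z‖ ^ 2) c r = ‖c‖ ^ 2 + r ^ 2 := by
  have h1 : EqOn (fun z : ℂ => ‖z‖ ^ 2)
      (fun z => (‖c‖ ^ 2 + r ^ 2) + (reCLM ∘ fun z => 2 * (conj c * (z - c))) z)
      (sphere c |r|) := by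
    intro z hz
    rw [mem_sphere_iff_norm] at hz
    have h2 : ‖z‖ ^ 2 = ‖c + (z - c)‖ ^ 2 := by congr 2; ring
    simp only [Function.comp_apply, reCLM_apply]
    rw [h2, ← Complex.normSq_eq_norm_sq, Complex.normSq_add, Complex.normSq_eq_norm_sq,
      Complex.normSq_eq_norm_sq, hz, sq_abs]
    have h3 : (c * conj (z - c)).re = (conj c * (z - c)).re := by
      rw [← Complex.conj_re]
      simp
    rw [h3]
    have h4 : (2 * (conj c * (z - c))).re = 2 * (conj c * (z - c)).re := by
      simp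
    rw [h4]
  rw [Real.circleAverage_congr_sphere h1]
  have hd : Differentiable ℂ (fun z => 2 * (conj c * (z - c))) := by fun_prop
  have hci : CircleIntegrable (fun z => 2 * (conj c * (z - c))) c r :=
    hd.continuous.continuousOn.circleIntegrable'
  have h5 : Real.circleAverage (reCLM ∘ fun z => 2 * (conj c * (z - c))) c r = 0 := by
    rw [reCLM.circleAverage_comp_comm hci, hd.diffContOnCl.circleAverage]
    simp
  have hci2 : CircleIntegrable (reCLM ∘ fun z => 2 * (conj c * (z - c))) c r :=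
    (reCLM.continuous.comp hd.continuous).continuousOn.circleIntegrable'
  rw [Real.circleAverage_fun_add (circleIntegrable_const _ _ _) hci2, h5,
    Real.circleAverage_const]
  ring

variable {ι : Type*} [Fintype ι]

theorem herm_left_diff {F : ℂ → ι → ℂ} {s : Set ℂ} (hF : DifferentiableOn ℂ F s) (p : ι → ℂ) :
    DifferentiableOn ℂ (fun z => herm (F z) p) s := by
  unfold herm
  have : ∀ i, DifferentiableOn ℂ (fun z => F z i) s := fun i =>
    (differentiableOn_pi.1 hF) i
  fun_prop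

/-- local comparison near a point -/
theorem eventually_cmp {F : ℂ → ι → ℂ} {z₀ : ℂ} {L η : ℝ} (hF : DifferentiableAt ℂ F z₀)
    (h0 : F z₀ ≠ 0) (hL : fsSq (F z₀) (deriv F z₀) ≤ L) (hη : 0 < η) :
    ∀ᶠ w in 𝓝 z₀, (1 - (L + η) * ‖w - z₀‖ ^ 2) * (nsq (F z₀) * nsq (F w)) ≤
      ‖herm (F w) (F z₀)‖ ^ 2 := by
  have hS := nsq_pos h0
  -- the slope
  have h1 : Tendsto (slope F z₀) (𝓝[≠] z₀) (𝓝 (deriv F z₀)) :=
    hasDerivAt_iff_tendsto_slope.1 hF.hasDerivAt
  have h2 : Tendsto (fun w => wsq (F z₀) (slope F z₀ w)) (𝓝[≠] z₀)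
      (𝓝 (wsq (F z₀) (deriv F z₀))) := tendsto_wsq tendsto_const_nhds h1
  have h3 : Tendsto (fun w => 2 * (L + η) * (nsq (F z₀) * nsq (F w))) (𝓝[≠] z₀)
      (𝓝 (2 * (L + η) * (nsq (F z₀) * nsq (F z₀)))) := by
    have h4 : Tendsto (fun w => nsq (F w)) (𝓝[≠] z₀) (𝓝 (nsq (F z₀))) :=
      ((continuous_nsq.continuousAt).comp hF.continuousAt).tendsto.mono_left nhdsWithin_le_nhds
    exact (h4.const_mul _).const_mul _
  have h5 : wsq (F z₀) (deriv F z₀) < 2 * (L + η) * (nsq (F z₀) * nsq (F z₀)) := by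
    have h6 := (wsq_le_iff h0 L).1 hL
    have h7 : 0 < η * (nsq (F z₀) * nsq (F z₀)) := by positivity
    nlinarith
  have h8 : ∀ᶠ w in 𝓝[≠] z₀, wsq (F z₀) (slope F z₀ w) <
      2 * (L + η) * (nsq (F z₀) * nsq (F w)) := h2.eventually_lt h3 h5
  rw [eventually_nhdsWithin_iff] at h8
  filter_upwards [h8] with w hw
  by_cases hwz : w = z₀
  · subst hwz
    rw [herm_self]
    simp only [sub_self, norm_zero]
    rw [Complex.norm_real, Real.norm_of_nonneg hS.le]
    ring_nf
    exact le_refl _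
  · have h9 := hw hwz
    have h10 : wsq (F z₀) (F w) = ‖w - z₀‖ ^ 2 * wsq (F z₀) (slope F z₀ w) := by
      have e1 : (w - z₀) • slope F z₀ w = F w - F z₀ := by
        rw [sub_smul_slope]
        rfl
      rw [← wsq_smul_right, e1]
      have e2 := wsq_smul (F z₀) (F w - F z₀) 1 1
      rw [one_smul, one_smul, sub_add_cancel] at e2
      rw [e2]
      simp
    rw [wsq_eq (F z₀) (F w)] at h10
    have h11 : 0 < ‖w - z₀‖ ^ 2 := by
      have : 0 < ‖w - z₀‖ := norm_pos_iff.2 (sub_ne_zero.2 hwz)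
      positivity
    have h12 := mul_lt_mul_of_pos_left h9 h11
    rw [← h10] at h12
    nlinarith

/-- **barrier**: a lower bound for `|F|²` inside a disc -/
theorem nsq_lower_bound {F : ℂ → ι → ℂ} {R L m : ℝ} (hR : 0 < R) (hL : 0 ≤ L)
    (hFc : ContinuousOn F (closedBall 0 R)) (hFd : DifferentiableOn ℂ F (ball 0 R))
    (h0 : ∀ z ∈ closedBall 0 R, F z ≠ 0)
    (hfs : ∀ z ∈ ball 0 R, fsSq (F z) (deriv F z) ≤ L)
    (hm : ∀ z ∈ sphere 0 R, Real.exp m ≤ nsq (F z)) :
    ∀ z ∈ closedBall (0 : ℂ) R, Real.exp (m - (L + 1) * R ^ 2) ≤ nsq (F z) := by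
  set W : ℂ → ℝ := fun z => - Real.log (nsq (F z)) + (L + 1) * ‖z‖ ^ 2 with hW
  have hlogc : ContinuousOn (fun z => Real.log (nsq (F z))) (closedBall 0 R) := by
    refine ContinuousOn.log (continuous_nsq.comp_continuousOn hFc) ?_
    intro z hz
    exact (nsq_pos (h0 z hz)).ne'
  have hWc : ContinuousOn W (closedBall 0 R) := by
    refine hlogc.neg.add ?_
    fun_prop
  obtain ⟨z₁, hz₁, hmax⟩ := (isCompact_closedBall (0 : ℂ) R).exists_isMaxOn
    ⟨0, mem_closedBall_self hR.le⟩ hWc
  have hsph : z₁ ∈ sphere (0 : ℂ) R := by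
    by_contra hns
    have hz₁' : z₁ ∈ ball (0 : ℂ) R := by
      rw [mem_ball]
      rw [mem_closedBall] at hz₁
      rw [mem_sphere] at hns
      exact lt_of_le_of_ne hz₁ hns
    have hd : DifferentiableAt ℂ F z₁ := hFd.differentiableAt (isOpen_ball.mem_nhds hz₁')
    have hev := eventually_cmp hd (h0 z₁ hz₁) (hfs z₁ hz₁') (η := 1/4) (by norm_num)
    obtain ⟨δ, hδ, hδ'⟩ := Metric.eventually_nhds_iff_ball.1 hev
    obtain ⟨δ₂, hδ₂, hδ₂'⟩ := Metric.isOpen_iff.1 isOpen_ball z₁ hz₁'
    -- nonvanishing of the pairing near z₁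
    have hS := nsq_pos (h0 z₁ hz₁)
    set r : ℝ := min (min (δ / 2) (δ₂ / 2)) (1 / (2 * (2 * L + 1))) with hr
    have hr0 : 0 < r := by
      apply lt_min
      · exact lt_min (by positivity) (by positivity)
      · positivity
    have hrδ : r < δ := lt_of_le_of_lt ((min_le_left _ _).trans (min_le_left _ _)) (by linarith)
    have hrδ₂ : r < δ₂ := lt_of_le_of_lt ((min_le_left _ _).trans (min_le_right _ _)) (by linarith)
    have hrL : r ≤ 1 / (2 * (2 * L + 1)) := min_le_right _ _
    have hcb : closedBall z₁ r ⊆ ball 0 R := (closedBall_subset_ball hrδ₂).trans hδ₂'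
    have hcb' : closedBall z₁ r ⊆ closedBall 0 R := hcb.trans ball_subset_closedBall
    -- x = (L+1/4) r^2
    have hLr : (2 * L + 1) * r ≤ 1 / 2 := by
      calc (2 * L + 1) * r ≤ (2 * L + 1) * (1 / (2 * (2 * L + 1))) := by gcongr
        _ = 1 / 2 := by field_simp
    have hx1 : (L + 1 / 4) * r ^ 2 ≤ 1 / 4 := by
      have h1 : ((2 * L + 1) * r) * ((2 * L + 1) * r) ≤ 1 / 2 * (1 / 2) :=
        mul_le_mul hLr hLr (by positivity) (by norm_num)
      have h2 : (L + 1 / 4) * r ^ 2 ≤ ((2 * L + 1) * r) * ((2 * L + 1) * r) := by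
        have : (L + 1 / 4) ≤ (2 * L + 1) * (2 * L + 1) := by nlinarith
        calc (L + 1 / 4) * r ^ 2 ≤ ((2 * L + 1) * (2 * L + 1)) * r ^ 2 := by gcongr
          _ = _ := by ring
      linarith
    -- lower bound on closed ball
    have hcmp : ∀ w ∈ closedBall z₁ r, (1 - (L + 1/4) * r ^ 2) * (nsq (F z₁) * nsq (F w)) ≤
        ‖herm (F w) (F z₁)‖ ^ 2 := by
      intro w hw
      have h1 := hδ' w (closedBall_subset_ball hrδ hw)
      refine le_trans ?_ h1
      have h2 : ‖w - z₁‖ ≤ r := by rwa [mem_closedBall_iff_norm] at hw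
      have h3 : ‖w - z₁‖ ^ 2 ≤ r ^ 2 := by gcongr
      have h4 : 0 < nsq (F z₁) * nsq (F w) := mul_pos hS (nsq_pos (h0 w (hcb' hw)))
      apply mul_le_mul_of_nonneg_right _ h4.le
      have h5 : (L + 1/4) * ‖w - z₁‖ ^ 2 ≤ (L + 1/4) * r ^ 2 := by gcongr
      linarith
    have hne : ∀ w ∈ closedBall z₁ r, herm (F w) (F z₁) ≠ 0 := by
      intro w hw h
      have h1 := hcmp w hw
      rw [h] at h1
      have h4 : 0 < nsq (F z₁) * nsq (F w) := mul_pos hS (nsq_pos (h0 w (hcb' hw)))
      have h5 : 0 < (1 - (L + 1/4) * r ^ 2) * (nsq (F z₁) * nsq (F w)) :=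
        mul_pos (by linarith) h4
      simp at h1
      linarith
    have han : AnalyticOnNhd ℂ (fun w => herm (F w) (F z₁)) (closedBall z₁ |r|) := by
      rw [abs_of_pos hr0]
      have h1 : AnalyticOnNhd ℂ (fun w => herm (F w) (F z₁)) (ball 0 R) :=
        (herm_left_diff hFd (F z₁)).analyticOnNhd isOpen_ball
      exact fun w hw => h1 w (hcb hw)
    have havg := AnalyticOnNhd.circleAverage_log_norm_of_ne_zero han
      (by rw [abs_of_pos hr0]; exact hne)
    rw [herm_self, Complex.norm_real, Real.norm_of_nonneg hS.le] at havg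
    -- compare averages
    have hcs : sphere z₁ |r| ⊆ closedBall z₁ r := by
      rw [abs_of_pos hr0]; exact sphere_subset_closedBall
    have hci1 : CircleIntegrable (fun z => Real.log (nsq (F z))) z₁ r :=
      (hlogc.mono (hcs.trans hcb')).circleIntegrable'
    have hci2 : CircleIntegrable (fun w => Real.log ‖herm (F w) (F z₁)‖) z₁ r := by
      refine ContinuousOn.circleIntegrable' ?_
      refine ContinuousOn.log ?_ ?_
      · exact (((herm_left_diff hFd (F z₁)).continuousOn).mono (hcs.trans hcb)).norm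
      · intro w hw
        exact (norm_pos_iff.2 (hne w (hcs hw))).ne'
    have hci3 : CircleIntegrable (fun z : ℂ => ‖z‖ ^ 2) z₁ r :=
      (by fun_prop : Continuous (fun z : ℂ => ‖z‖ ^ 2)).continuousOn.circleIntegrable'
    set x : ℝ := (L + 1/4) * r ^ 2 with hx
    have hpt : ∀ w ∈ sphere z₁ |r|, Real.log (nsq (F w)) ≤
        2 * Real.log ‖herm (F w) (F z₁)‖ + (- Real.log (nsq (F z₁)) - Real.log (1 - x)) := by
      intro w hw
      have hw' := hcs hw
      have h1 := hcmp w hw'
      have h2 : 0 < nsq (F w) := nsq_pos (h0 w (hcb' hw'))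
      have h3 : 0 < 1 - x := by linarith
      have h4 : 0 < ‖herm (F w) (F z₁)‖ := norm_pos_iff.2 (hne w hw')
      have h5 := Real.log_le_log (by positivity) h1
      rw [Real.log_mul h3.ne' (by positivity), Real.log_mul hS.ne' h2.ne', Real.log_pow] at h5
      push_cast at h5
      linarith
    have hav1 : Real.circleAverage (fun z => Real.log (nsq (F z))) z₁ r ≤
        2 * Real.log (nsq (F z₁)) + (- Real.log (nsq (F z₁)) - Real.log (1 - x)) := by
      have hci4 : CircleIntegrable (fun w => (2:ℝ) • Real.log ‖herm (F w) (F z₁)‖) z₁ r :=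
        hci2.const_fun_smul
      have h1 := Real.circleAverage_mono hci1
        (hci4.add (circleIntegrable_const
          (- Real.log (nsq (F z₁)) - Real.log (1 - x)) z₁ r)) hpt
      refine h1.trans (le_of_eq ?_)
      rw [Real.circleAverage_add hci4 (circleIntegrable_const _ _ _), Real.circleAverage_const,
        Real.circleAverage_fun_smul, havg, smul_eq_mul]
    have hav2 : Real.circleAverage W z₁ r =
        - Real.circleAverage (fun z => Real.log (nsq (F z))) z₁ r
          + (L + 1) * (‖z₁‖ ^ 2 + r ^ 2) := by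
      have e1 : W = fun z => (-1 : ℝ) • Real.log (nsq (F z)) + (L + 1) • ‖z‖ ^ 2 := by
        funext z
        simp [hW]
      rw [e1, Real.circleAverage_fun_add (hci1.const_fun_smul) (hci3.const_fun_smul),
        Real.circleAverage_fun_smul, Real.circleAverage_fun_smul, circleAverage_normSq]
      simp
    have hav3 : Real.circleAverage W z₁ r ≤ W z₁ := by
      refine Real.circleAverage_mono_on_of_le_circle ?_ ?_
      · exact (hWc.mono (hcs.trans hcb')).circleIntegrable'
      · intro w hw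
        exact hmax (hcb' (hcs hw))
    have hlog : -(x / (1 - x)) ≤ Real.log (1 - x) := by
      have h3 : 0 < 1 - x := by linarith
      have := Real.one_sub_inv_le_log_of_pos h3
      refine le_trans (le_of_eq ?_) this
      field_simp
      ring
    have hxx : x / (1 - x) ≤ (L + 1/2) * r ^ 2 := by
      have h3 : 0 < 1 - x := by linarith
      rw [div_le_iff₀ h3, hx]
      have h4 : (2 * L + 1) * r * ((2 * L + 1) * r) ≤ 1 / 2 * (1 / 2) :=
        mul_le_mul hLr hLr (by positivity) (by norm_num)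
      have h5 : (L + 1/2) * ((L + 1/4) * r ^ 2) ≤ 1 / 4 := by nlinarith
      nlinarith [mul_nonneg (sub_nonneg.2 h5) (sq_nonneg r)]
    have hW1 : W z₁ = - Real.log (nsq (F z₁)) + (L + 1) * ‖z₁‖ ^ 2 := rfl
    rw [hav2, hW1] at hav3
    have hr2 : 0 < r ^ 2 := by positivity
    nlinarith
  intro z hz
  have h1 : W z ≤ W z₁ := hmax hz
  have h2 : m ≤ Real.log (nsq (F z₁)) := by
    rw [Real.le_log_iff_exp_le (nsq_pos (h0 z₁ hz₁))]
    exact hm z₁ hsph
  have h3 : ‖z₁‖ = R := by simpa using hsph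
  simp only [hW] at h1
  rw [h3] at h1
  have h4 : m - (L + 1) * R ^ 2 ≤ Real.log (nsq (F z)) := by
    have : 0 ≤ (L + 1) * ‖z‖ ^ 2 := by positivity
    linarith
  rwa [Real.le_log_iff_exp_le (nsq_pos (h0 z hz))] at h4

/-- maximum modulus for `nsq` -/
theorem nsq_upper_bound {F : ℂ → ι → ℂ} {R M : ℝ} (hR : 0 < R)
    (hFc : ContinuousOn F (closedBall 0 R)) (hFd : DifferentiableOn ℂ F (ball 0 R))
    (hm : ∀ z ∈ sphere 0 R, nsq (F z) ≤ M) :
    ∀ z ∈ closedBall (0 : ℂ) R, nsq (F z) ≤ M := by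
  have hnn : ∀ p : ι → ℂ, ‖(WithLp.toLp 2 p : EuclideanSpace ℂ ι)‖ = Real.sqrt (nsq p) := by
    intro p
    rw [EuclideanSpace.norm_eq]
    rfl
  have hL : Differentiable ℂ (fun p : ι → ℂ => (WithLp.toLp 2 p : EuclideanSpace ℂ ι)) :=
    (PiLp.continuousLinearEquiv 2 ℂ (fun _ : ι => ℂ)).symm.differentiable
  intro z hz
  have hd : DiffContOnCl ℂ (fun z => (WithLp.toLp 2 (F z) : EuclideanSpace ℂ ι)) (ball 0 R) := by
    refine ⟨hL.comp_differentiableOn hFd, ?_⟩
    rw [closure_ball _ hR.ne']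
    exact hL.continuous.comp_continuousOn hFc
  have h1 := Complex.norm_le_of_forall_mem_frontier_norm_le (isBounded_ball) hd
    (C := Real.sqrt M) (by
      intro w hw
      rw [frontier_ball _ hR.ne'] at hw
      rw [hnn]
      exact Real.sqrt_le_sqrt (hm w hw)) (z := z) (by rwa [closure_ball _ hR.ne'])
  rw [hnn] at h1
  have h2 : 0 ≤ M := by
    obtain ⟨w, hw⟩ : (sphere (0 : ℂ) R).Nonempty := NormedSpace.sphere_nonempty.2 hR.le
    exact (nsq_nonneg _).trans (hm w hw)
  exact (Real.sqrt_le_sqrt_iff h2).1 h1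

/-- **normalised lifts** -/
theorem exists_normalised_lift {H : ℂ → ι → ℂ} {R L : ℝ} (hR : 0 < R) (hL : 0 ≤ L)
    (hHc : ContinuousOn H (closedBall 0 R)) (hHd : DifferentiableOn ℂ H (ball 0 R))
    (h0 : ∀ z ∈ closedBall 0 R, H z ≠ 0)
    (hfs : ∀ z ∈ ball 0 R, fsSq (H z) (deriv H z) ≤ L) :
    ∃ φ : ℂ → ℂ, Differentiable ℂ φ ∧ ∀ z ∈ closedBall (0 : ℂ) R,
      Real.exp (-1 - (L + 1) * R ^ 2) ≤ nsq (exp (φ z) • H z) ∧
      nsq (exp (φ z) • H z) ≤ Real.exp 1 := by
  have hlogc : ContinuousOn (fun z => - Real.log (nsq (H z)) / 2) (sphere 0 R) := by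
    refine ((ContinuousOn.log (continuous_nsq.comp_continuousOn
      (hHc.mono sphere_subset_closedBall)) ?_).neg).div_const 2
    intro z hz
    exact (nsq_pos (h0 z (sphere_subset_closedBall hz))).ne'
  obtain ⟨φ, hφ, hφ'⟩ := exists_entire_re_approx hR hlogc (ε := 1/2) (by norm_num)
  have hval : ∀ z ∈ closedBall (0 : ℂ) R, nsq (exp (φ z) • H z) =
      Real.exp (2 * (φ z).re + Real.log (nsq (H z))) := by
    intro z hz
    rw [nsq_smul, Complex.norm_exp, Real.exp_add, Real.exp_log (nsq_pos (h0 z hz)), two_mul,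
      Real.exp_add, sq]
  set F : ℂ → ι → ℂ := fun z => exp (φ z) • H z with hF
  have hec : Differentiable ℂ (fun z => exp (φ z)) := hφ.cexp
  have hFc : ContinuousOn F (closedBall 0 R) := hec.continuous.continuousOn.smul hHc
  have hFd : DifferentiableOn ℂ F (ball 0 R) := hec.differentiableOn.smul hHd
  have hF0 : ∀ z ∈ closedBall 0 R, F z ≠ 0 := fun z hz =>
    smul_ne_zero (exp_ne_zero _) (h0 z hz)
  have hFfs : ∀ z ∈ ball 0 R, fsSq (F z) (deriv F z) ≤ L := by
    intro z hz
    have h1 := fsSq_mul_lift (hec z) (hHd.differentiableAt (isOpen_ball.mem_nhds hz))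
      (exp_ne_zero (φ z))
    have h2 : fsSq (F z) (deriv F z) = fsSq (H z) (deriv H z) := h1
    rw [h2]
    exact hfs z hz
  have hs1 : ∀ z ∈ sphere 0 R, Real.exp (-1) ≤ nsq (F z) := by
    intro z hz
    have h1 := abs_le.1 (hφ' z hz)
    have h2 := hval z (sphere_subset_closedBall hz)
    rw [h2]
    apply Real.exp_le_exp.2
    linarith
  have hs2 : ∀ z ∈ sphere 0 R, nsq (F z) ≤ Real.exp 1 := by
    intro z hz
    have h1 := abs_le.1 (hφ' z hz)
    have h2 := hval z (sphere_subset_closedBall hz)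
    rw [h2]
    apply Real.exp_le_exp.2
    linarith
  exact ⟨φ, hφ, fun z hz => ⟨nsq_lower_bound hR hL hFc hFd hF0 hFfs hs1 z hz,
    nsq_upper_bound hR hFc hFd hs2 z hz⟩⟩

end Crest.Agent.R269.Brody_164
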