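import Crest.Agent.R269.Brody1_164

/-!
Row 269, leaf L7 (Brody reparametrisation), part 3: gluing of lifts on an increasing sequence of
discs to a lift on the whole plane (Mittag-Leffler) (helper164).
-/

set_option autoImplicit false

open Set Filter Topology Metric Complex
open scoped ComplexConjugate Real NNReal ENNReal

noncomputable section

namespace Crest.Agent.R269.Brody_164

/-- Taylor polynomials approximate -/
theorem exists_entire_approx {φ : ℂ → ℂ} {r R : ℝ} (hr : 0 < r) (hrR : r < R)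
    (hφ : DifferentiableOn ℂ φ (ball 0 R)) {ε : ℝ} (hε : 0 < ε) :
    ∃ p : ℂ → ℂ, Differentiable ℂ p ∧ ∀ z ∈ ball (0 : ℂ) r, ‖φ z - p z‖ ≤ ε := by
  obtain ⟨R', hR'1, hR'2⟩ := exists_between hrR
  have hR'0 : 0 < R' := hr.trans hR'1
  lift R' to ℝ≥0 using hR'0.le
  lift r to ℝ≥0 using hr.le
  have h1 : HasFPowerSeriesOnBall φ (cauchyPowerSeries φ 0 R') 0 R' :=
    DifferentiableOn.hasFPowerSeriesOnBall
      (hφ.mono (closedBall_subset_ball hR'2)) (by exact_mod_cast hR'0)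
  have h2 := h1.tendstoUniformlyOn (r' := r) (by exact_mod_cast hR'1)
  obtain ⟨n, hn⟩ := (Metric.tendstoUniformlyOn_iff.1 h2 ε hε).exists
  refine ⟨fun z => (cauchyPowerSeries φ 0 R').partialSum n z, ?_, fun z hz => ?_⟩
  · have : (fun z => (cauchyPowerSeries φ 0 R').partialSum n z)
        = fun z => ∑ k ∈ Finset.range n, z ^ k • (cauchyPowerSeries φ 0 R').coeff k := by
      funext z
      unfold FormalMultilinearSeries.partialSum
      refine Finset.sum_congr rfl fun k _ => ?_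
      rw [FormalMultilinearSeries.apply_eq_pow_smul_coeff]
    rw [this]
    fun_prop
  · have h3 := hn z hz
    rw [zero_add, dist_eq_norm] at h3
    exact h3.le

/-- logarithm of a nowhere zero holomorphic function on a disc -/
theorem exists_log_ball {c : ℂ → ℂ} {R : ℝ} (hR : 0 < R) (hc : DifferentiableOn ℂ c (ball 0 R))
    (h0 : ∀ z ∈ ball (0 : ℂ) R, c z ≠ 0) :
    ∃ φ : ℂ → ℂ, DifferentiableOn ℂ φ (ball 0 R) ∧ ∀ z ∈ ball (0 : ℂ) R, exp (φ z) = c z := by
  have hd : DifferentiableOn ℂ (fun z => deriv c z / c z) (ball 0 R) :=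
    (hc.deriv isOpen_ball).div hc h0
  obtain ⟨g, hg⟩ := hd.isExactOn_ball
  have hgd : DifferentiableOn ℂ g (ball 0 R) := fun z hz =>
    (hg z hz).differentiableAt.differentiableWithinAt
  set q : ℂ → ℂ := fun z => c z * exp (- g z) with hq
  have hqd : ∀ z ∈ ball (0 : ℂ) R, HasDerivAt q 0 z := by
    intro z hz
    have h1 : HasDerivAt c (deriv c z) z :=
      (hc.differentiableAt (isOpen_ball.mem_nhds hz)).hasDerivAt
    have h2 := h1.mul ((hg z hz).neg.cexp)
    refine h2.congr_deriv ?_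
    have := h0 z hz
    field_simp
    ring
  have hqD : DifferentiableOn ℂ q (ball 0 R) := fun z hz =>
    (hqd z hz).differentiableAt.differentiableWithinAt
  have h0m : (0 : ℂ) ∈ ball (0 : ℂ) R := mem_ball_self hR
  have hconst : ∀ z ∈ ball (0 : ℂ) R, q z = q 0 := fun z hz =>
    isOpen_ball.is_const_of_deriv_eq_zero (convex_ball (0 : ℂ) R).isPreconnected hqD
      (fun w hw => (hqd w hw).deriv) hz h0m
  have hq0 : q 0 ≠ 0 := mul_ne_zero (h0 0 h0m) (exp_ne_zero _)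
  refine ⟨fun z => g z + log (q 0), hgd.add_const _, fun z hz => ?_⟩
  rw [exp_add, exp_log hq0, ← hconst z hz, hq]
  simp only
  rw [mul_comm, mul_assoc, ← exp_add, neg_add_cancel, exp_zero, mul_one]

/-- additive Mittag-Leffler on the plane -/
theorem mittag_leffler {φ : ℕ → ℂ → ℂ}
    (hφ : ∀ n, DifferentiableOn ℂ (φ n) (ball 0 (n + 1))) :
    ∃ f : ℕ → ℂ → ℂ, (∀ n, DifferentiableOn ℂ (f n) (ball 0 (n + 1))) ∧
      ∀ n : ℕ, ∀ z ∈ ball (0 : ℂ) (n + 1), f n z = f (n + 1) z + φ n z := by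
  have hp : ∀ n : ℕ, ∃ p : ℂ → ℂ, Differentiable ℂ p ∧
      ∀ z ∈ ball (0 : ℂ) (n + 1 / 2), ‖φ n z - p z‖ ≤ (1 / 2) ^ n := fun n =>
    exists_entire_approx (by positivity) (by linarith) (hφ n) (by positivity)
  choose p hpd hpb using hp
  have hbd : ∀ n j : ℕ, ∀ z ∈ ball (0 : ℂ) (n + 1),
      ‖φ (n + 1 + j) z - p (n + 1 + j) z‖ ≤ (1 / 2) ^ j := by
    intro n j z hz
    refine (hpb (n + 1 + j) z ?_).trans ?_
    · rw [mem_ball_zero_iff] at hz ⊢
      push_cast
      have : (0 : ℝ) ≤ j := Nat.cast_nonneg j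
      linarith
    · exact pow_le_pow_of_le_one (by norm_num) (by norm_num) (by omega)
  have hsumm : ∀ n : ℕ, ∀ z ∈ ball (0 : ℂ) (n + 1),
      Summable (fun j => φ (n + 1 + j) z - p (n + 1 + j) z) := by
    intro n z hz
    exact Summable.of_norm_bounded (summable_geometric_two) (fun j => hbd n j z hz)
  refine ⟨fun n z => (φ n z - p n z) + (∑' j : ℕ, (φ (n + 1 + j) z - p (n + 1 + j) z))
    - ∑ k ∈ Finset.range n, p k z, fun n => ?_, fun n z hz => ?_⟩
  · refine (DifferentiableOn.add ((hφ n).sub (hpd n).differentiableOn) ?_).sub ?_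
    · refine differentiableOn_tsum_of_summable_norm (u := fun j : ℕ => ((1 : ℝ) / 2) ^ j)
        summable_geometric_two (fun j => ?_) isOpen_ball (fun j w hw => hbd n j w hw)
      refine ((hφ (n + 1 + j)).mono (ball_subset_ball ?_)).sub (hpd _).differentiableOn
      push_cast
      have : (0 : ℝ) ≤ j := Nat.cast_nonneg j
      linarith
    · exact (Differentiable.fun_sum fun k _ => hpd k).differentiableOn
  · have h1 : ∑' j : ℕ, (φ (n + 1 + j) z - p (n + 1 + j) z)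
        = (φ (n + 1) z - p (n + 1) z)
          + ∑' j : ℕ, (φ (n + 1 + 1 + j) z - p (n + 1 + 1 + j) z) := by
      rw [(hsumm n z hz).tsum_eq_zero_add]
      congr 1
      refine tsum_congr fun j => ?_
      rw [show n + 1 + (j + 1) = n + 1 + 1 + j by ring]
    simp only
    rw [h1, Finset.sum_range_succ]
    ring

variable {ι : Type*} [Fintype ι]

/-- **gluing of lifts**: nowhere zero lifts `G n` on the discs `|z| < n + 1` which differ by
nowhere zero holomorphic factors come from one nowhere zero lift on the plane -/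
theorem glue_lifts {G : ℕ → ℂ → ι → ℂ} {c : ℕ → ℂ → ℂ}
    (hG : ∀ n, DifferentiableOn ℂ (G n) (ball 0 (n + 1)))
    (hc : ∀ n, DifferentiableOn ℂ (c n) (ball 0 (n + 1)))
    (hc0 : ∀ n : ℕ, ∀ z ∈ ball (0 : ℂ) (n + 1), c n z ≠ 0)
    (hGc : ∀ n : ℕ, ∀ z ∈ ball (0 : ℂ) (n + 1), G (n + 1) z = c n z • G n z) :
    ∃ F : ℂ → ι → ℂ, Differentiable ℂ F ∧ ∀ n : ℕ, ∃ e : ℂ → ℂ,
      DifferentiableOn ℂ e (ball 0 (n + 1)) ∧ (∀ z, e z ≠ 0) ∧
      ∀ z ∈ ball (0 : ℂ) (n + 1), F z = e z • G n z := by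
  have hlog : ∀ n : ℕ, ∃ φ : ℂ → ℂ, DifferentiableOn ℂ φ (ball 0 (n + 1)) ∧
      ∀ z ∈ ball (0 : ℂ) (n + 1), exp (φ z) = c n z := fun n =>
    exists_log_ball (by positivity) (hc n) (hc0 n)
  choose φ hφd hφe using hlog
  obtain ⟨f, hfd, hff⟩ := mittag_leffler hφd
  have hstep : ∀ n : ℕ, ∀ z ∈ ball (0 : ℂ) (n + 1),
      exp (f (n + 1) z) • G (n + 1) z = exp (f n z) • G n z := by
    intro n z hz
    rw [hGc n z hz, ← hφe n z hz, smul_smul, ← exp_add, ← hff n z hz]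
  have hstep' : ∀ n k : ℕ, ∀ z ∈ ball (0 : ℂ) (n + 1),
      exp (f (n + k) z) • G (n + k) z = exp (f n z) • G n z := by
    intro n k
    induction k with
    | zero => intro z _; rfl
    | succ k ih =>
      intro z hz
      have h1 : z ∈ ball (0 : ℂ) ((n + k : ℕ) + 1) := by
        rw [mem_ball_zero_iff] at hz ⊢
        push_cast
        have : (0 : ℝ) ≤ k := Nat.cast_nonneg k
        linarith
      rw [← add_assoc, hstep (n + k) z h1, ih z hz]
  set F : ℂ → ι → ℂ := fun z => exp (f ⌊‖z‖⌋₊ z) • G ⌊‖z‖⌋₊ z with hF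
  have hFn : ∀ n : ℕ, ∀ z ∈ ball (0 : ℂ) (n + 1), F z = exp (f n z) • G n z := by
    intro n z hz
    have h1 : ⌊‖z‖⌋₊ ≤ n := by
      rw [mem_ball_zero_iff] at hz
      have h2 : ⌊‖z‖⌋₊ < n + 1 := (Nat.floor_lt (norm_nonneg z)).2 (by exact_mod_cast hz)
      omega
    obtain ⟨k, hk⟩ := Nat.exists_eq_add_of_le h1
    have h2 : z ∈ ball (0 : ℂ) ((⌊‖z‖⌋₊ : ℕ) + 1) := by
      rw [mem_ball_zero_iff]
      exact Nat.lt_floor_add_one ‖z‖
    have h3 := hstep' ⌊‖z‖⌋₊ k z h2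
    rw [← hk] at h3
    rw [hF]
    exact h3.symm
  refine ⟨F, ?_, fun n => ⟨fun z => exp (f n z), (hfd n).cexp, fun z => exp_ne_zero _, hFn n⟩⟩
  intro z
  have h2 : z ∈ ball (0 : ℂ) ((⌊‖z‖⌋₊ : ℕ) + 1) := by
    rw [mem_ball_zero_iff]
    exact Nat.lt_floor_add_one ‖z‖
  have h3 : DifferentiableAt ℂ (fun w => exp (f ⌊‖z‖⌋₊ w) • G ⌊‖z‖⌋₊ w) z :=
    (((hfd _).cexp).smul (hG _)).differentiableAt (isOpen_ball.mem_nhds h2)
  refine h3.congr_of_eventuallyEq ?_
  filter_upwards [isOpen_ball.mem_nhds h2] with w hw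
  exact hFn _ w hw

end Crest.Agent.R269.Brody_164
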