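import Crest.Prelude.Def_ProjPluricanonical
import Crest.Agent.R264.MontelU
import Crest.Agent.R269.Brody2_164
import Crest.Agent.R269.Brody3_164

/-!
Row 269, leaf L7: **Brody's theorem** for closed cones in `ℂ^ι` (projective varieties given by
their affine cone), with lifts (helper164).

* `brody_cone`: if every entire curve in the cone is projectively constant then the Fubini-Study
  derivative of every disc is bounded;
* `brody`: the case of `EntireCurvesConstant I`.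
-/

set_option autoImplicit false

open Set Filter Topology Metric Complex
open scoped ComplexConjugate Real

noncomputable section

namespace Crest.Agent.R269.Brody_164

variable {ι : Type*} [Fintype ι]

/-- Brody's reparametrisation -/
theorem reparam {H : ℂ → ι → ℂ} {K : ℝ} (hK : 0 < K) (hH : DifferentiableOn ℂ H (ball 0 1))
    (h0 : ∀ z ∈ ball (0 : ℂ) 1, H z ≠ 0) (hbig : K ^ 2 < fsSq (H 0) (deriv H 0)) :
    ∃ a ρ : ℂ, (∀ ζ ∈ ball (0 : ℂ) (K / 4), a + ρ * ζ ∈ ball (0 : ℂ) 1) ∧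
      fsSq (H (a + ρ * 0)) (deriv (fun w => H (a + ρ * w)) 0) = 1 ∧
      ∀ ζ ∈ ball (0 : ℂ) (K / 4),
        fsSq (H (a + ρ * ζ)) (deriv (fun w => H (a + ρ * w)) ζ) ≤ 4 := by
  have hsub : closedBall (0 : ℂ) (1 / 2) ⊆ ball (0 : ℂ) 1 := closedBall_subset_ball (by norm_num)
  set fs : ℂ → ℝ := fun z => fsSq (H z) (deriv H z) with hfs
  have hfsc : ContinuousOn fs (closedBall 0 (1 / 2)) :=
    continuousOn_fsSq (hH.continuousOn.mono hsub)
      ((hH.deriv isOpen_ball).continuousOn.mono hsub) (fun z hz => h0 z (hsub hz))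
  set m : ℂ → ℝ := fun z => (1 / 2 - ‖z‖) ^ 2 * fs z with hm
  have hmc : ContinuousOn m (closedBall 0 (1 / 2)) :=
    ContinuousOn.mul (by fun_prop) hfsc
  obtain ⟨z₁, hz₁, hmax⟩ := (isCompact_closedBall (0 : ℂ) (1 / 2)).exists_isMaxOn
    ⟨0, mem_closedBall_self (by norm_num)⟩ hmc
  have hm0 : K ^ 2 / 4 < m z₁ := by
    have h1 : m 0 ≤ m z₁ := hmax (mem_closedBall_self (by norm_num))
    have h2 : m 0 = fs 0 / 4 := by
      simp only [hm, norm_zero]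
      ring
    have h3 : K ^ 2 < fs 0 := hbig
    linarith
  have hmpos : 0 < m z₁ := lt_trans (by positivity) hm0
  have hz₁n : ‖z₁‖ ≤ 1 / 2 := by simpa using hz₁
  have hfs1 : 0 < fs z₁ := by
    have h1 : 0 ≤ fs z₁ := fsSq_nonneg _ _
    rcases h1.eq_or_lt with h | h
    · exfalso
      rw [hm] at hmpos
      simp only [← h, mul_zero, lt_self_iff_false] at hmpos
    · exact h
  set d : ℝ := 1 / 2 - ‖z₁‖ with hd
  have hd0 : 0 < d := by
    have h1 : 0 ≤ d := by linarith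
    rcases h1.eq_or_lt with h | h
    · exfalso
      have : m z₁ = d ^ 2 * fs z₁ := rfl
      rw [this, ← h] at hmpos
      simp at hmpos
    · exact h
  set ρ : ℝ := (Real.sqrt (fs z₁))⁻¹ with hρ
  have hsq : 0 < Real.sqrt (fs z₁) := Real.sqrt_pos.2 hfs1
  have hρ0 : 0 < ρ := inv_pos.2 hsq
  have hρ2 : ρ ^ 2 * fs z₁ = 1 := by
    rw [hρ, inv_pow, Real.sq_sqrt hfs1.le]
    field_simp
  have hKd : ρ * (K / 2) < d := by
    have h1 : K ^ 2 / 4 < d ^ 2 * fs z₁ := hm0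
    have h2 : (ρ * (K / 2)) ^ 2 < d ^ 2 := by
      have h3 : (ρ * (K / 2)) ^ 2 = ρ ^ 2 * (K ^ 2 / 4) := by ring
      rw [h3]
      calc ρ ^ 2 * (K ^ 2 / 4) < ρ ^ 2 * (d ^ 2 * fs z₁) := by gcongr
        _ = d ^ 2 * (ρ ^ 2 * fs z₁) := by ring
        _ = d ^ 2 := by rw [hρ2, mul_one]
    exact lt_of_pow_lt_pow_left₀ 2 hd0.le h2
  have hnorm : ∀ ζ ∈ ball (0 : ℂ) (K / 4), ‖z₁ + (ρ : ℂ) * ζ‖ ≤ 1 / 2 - d / 2 := by
    intro ζ hζ
    rw [mem_ball_zero_iff] at hζ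
    have h1 : ‖z₁ + (ρ : ℂ) * ζ‖ ≤ ‖z₁‖ + ρ * ‖ζ‖ := by
      refine (norm_add_le _ _).trans ?_
      rw [norm_mul, Complex.norm_real, Real.norm_of_nonneg hρ0.le]
    have h2 : ρ * ‖ζ‖ ≤ ρ * (K / 4) := by gcongr
    have h3 : ρ * (K / 4) = (ρ * (K / 2)) / 2 := by ring
    rw [h3] at h2
    linarith
  have hmem : ∀ ζ ∈ ball (0 : ℂ) (K / 4), z₁ + (ρ : ℂ) * ζ ∈ closedBall (0 : ℂ) (1 / 2) := by
    intro ζ hζ
    rw [mem_closedBall_zero_iff]
    linarith [hnorm ζ hζ]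
  have hval : ∀ ζ ∈ ball (0 : ℂ) (K / 4),
      fsSq (H (z₁ + (ρ : ℂ) * ζ)) (deriv (fun w => H (z₁ + (ρ : ℂ) * w)) ζ)
        = ρ ^ 2 * fs (z₁ + (ρ : ℂ) * ζ) := by
    intro ζ hζ
    rw [fsSq_comp_affine (hH.differentiableAt (isOpen_ball.mem_nhds (hsub (hmem ζ hζ)))),
      Complex.norm_real, Real.norm_of_nonneg hρ0.le]
  refine ⟨z₁, (ρ : ℂ), fun ζ hζ => hsub (hmem ζ hζ), ?_, fun ζ hζ => ?_⟩
  · rw [hval 0 (mem_ball_self (by positivity)), mul_zero, add_zero, hρ2]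
  · rw [hval ζ hζ]
    have h1 : m (z₁ + (ρ : ℂ) * ζ) ≤ m z₁ := hmax (hmem ζ hζ)
    have h2 : (d / 2) ^ 2 * fs (z₁ + (ρ : ℂ) * ζ) ≤ d ^ 2 * fs z₁ := by
      refine le_trans ?_ h1
      have h3 : d / 2 ≤ 1 / 2 - ‖z₁ + (ρ : ℂ) * ζ‖ := by linarith [hnorm ζ hζ]
      have h4 : 0 ≤ fs (z₁ + (ρ : ℂ) * ζ) := fsSq_nonneg _ _
      show _ ≤ (1 / 2 - ‖z₁ + (ρ : ℂ) * ζ‖) ^ 2 * fs (z₁ + (ρ : ℂ) * ζ)
      gcongr
    have h5 : fs (z₁ + (ρ : ℂ) * ζ) ≤ 4 * fs z₁ := by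
      have h6 : 0 < d ^ 2 := by positivity
      have h7 : d ^ 2 * fs (z₁ + (ρ : ℂ) * ζ) ≤ d ^ 2 * (4 * fs z₁) := by nlinarith
      exact le_of_mul_le_mul_left h7 h6
    calc ρ ^ 2 * fs (z₁ + (ρ : ℂ) * ζ) ≤ ρ ^ 2 * (4 * fs z₁) := by gcongr
      _ = 4 * (ρ ^ 2 * fs z₁) := by ring
      _ = 4 := by rw [hρ2, mul_one]

theorem norm_le_sqrt_nsq (p : ι → ℂ) : ‖p‖ ≤ Real.sqrt (nsq p) := by
  rw [pi_norm_le_iff_of_nonneg (Real.sqrt_nonneg _)]
  intro i
  exact Real.le_sqrt_of_sq_le (norm_sq_le_nsq p i)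

/-- **limits of discs of growing radius**: an entire lift -/
theorem limit_curve {C : Set (ι → ℂ)} (hC : IsClosed C)
    (hCs : ∀ c : ℂ, c ≠ 0 → ∀ p ∈ C, c • p ∈ C) {L a : ℝ} (hL : 0 ≤ L)
    {H : ℕ → ℂ → ι → ℂ}
    (hd : ∀ k : ℕ, DifferentiableOn ℂ (H k) (ball 0 (k + 2)))
    (h0 : ∀ k : ℕ, ∀ z ∈ ball (0 : ℂ) (k + 2), H k z ≠ 0)
    (hHC : ∀ k : ℕ, ∀ z ∈ ball (0 : ℂ) (k + 2), H k z ∈ C)
    (hfs : ∀ k : ℕ, ∀ z ∈ ball (0 : ℂ) (k + 2), fsSq (H k z) (deriv (H k) z) ≤ L)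
    (hfs0 : ∀ k : ℕ, fsSq (H k 0) (deriv (H k) 0) = a) :
    ∃ F : ℂ → ι → ℂ, Differentiable ℂ F ∧ (∀ z, F z ≠ 0) ∧ (∀ z, F z ∈ C) ∧
      fsSq (F 0) (deriv F 0) = a := by
  -- normalised lifts
  have hex : ∀ n k : ℕ, ∃ φ : ℂ → ℂ, Differentiable ℂ φ ∧ (n ≤ k → ∀ z ∈ closedBall (0 : ℂ) (n + 1),
      Real.exp (-1 - (L + 1) * ((n : ℝ) + 1) ^ 2) ≤ nsq (exp (φ z) • H k z) ∧
      nsq (exp (φ z) • H k z) ≤ Real.exp 1) := by
    intro n k
    by_cases hnk : n ≤ k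
    · have hsub : closedBall (0 : ℂ) (n + 1) ⊆ ball (0 : ℂ) (k + 2) := by
        apply closedBall_subset_ball
        have : (n : ℝ) ≤ k := by exact_mod_cast hnk
        linarith
      obtain ⟨φ, hφ, hφ'⟩ := exists_normalised_lift (H := H k) (R := (n : ℝ) + 1) (L := L)
        (by positivity) hL ((hd k).continuousOn.mono hsub)
        ((hd k).mono (ball_subset_closedBall.trans hsub)) (fun z hz => h0 k z (hsub hz))
        (fun z hz => hfs k z (hsub (ball_subset_closedBall hz)))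
      exact ⟨φ, hφ, fun _ => hφ'⟩
    · exact ⟨fun _ => 0, by fun_prop, fun h => (hnk h).elim⟩
  choose φ hφd hφb using hex
  set u : Ultrafilter ℕ := hyperfilter ℕ with hu
  have hev : ∀ n : ℕ, ∀ᶠ k in (u : Filter ℕ), n ≤ k := fun n =>
    (Nat.hyperfilter_le_atTop) (eventually_ge_atTop n)
  -- the lifts
  set A : ℕ → ℕ → ℂ → ι → ℂ := fun n k z => if n ≤ k then exp (φ n k z) • H k z else 0 with hA
  have hbk : ∀ n k : ℕ, n ≤ k → ball (0 : ℂ) (n + 1) ⊆ ball (0 : ℂ) (k + 2) := by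
    intro n k hnk
    apply ball_subset_ball
    have : (n : ℝ) ≤ k := by exact_mod_cast hnk
    linarith
  have hAeq : ∀ n k : ℕ, n ≤ k → A n k = fun z => exp (φ n k z) • H k z := by
    intro n k hnk
    funext z
    simp only [hA, if_pos hnk]
  have hAd : ∀ n k : ℕ, DifferentiableOn ℂ (A n k) (ball 0 (n + 1)) := by
    intro n k
    by_cases hnk : n ≤ k
    · rw [hAeq n k hnk]
      exact ((hφd n k).cexp.differentiableOn).smul ((hd k).mono (hbk n k hnk))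
    · have : A n k = fun _ => 0 := by
        funext z
        simp only [hA, if_neg hnk]
      rw [this]
      fun_prop
  have hAM : ∀ n k : ℕ, ∀ z ∈ ball (0 : ℂ) (n + 1), ‖A n k z‖ ≤ Real.sqrt (Real.exp 1) := by
    intro n k z hz
    by_cases hnk : n ≤ k
    · rw [hAeq n k hnk]
      refine (norm_le_sqrt_nsq _).trans (Real.sqrt_le_sqrt ?_)
      exact (hφb n k hnk z (ball_subset_closedBall hz)).2
    · simp only [hA, if_neg hnk, norm_zero]
      positivity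
  have hG : ∀ n : ℕ, ∃ g : ℂ → ι → ℂ, TendstoLocallyUniformlyOn (A n) g u (ball 0 (n + 1)) ∧
      DifferentiableOn ℂ g (ball 0 (n + 1)) ∧
      (∀ z ∈ ball (0 : ℂ) (n + 1), ‖g z‖ ≤ Real.sqrt (Real.exp 1)) := fun n =>
    R264.montel_ultra u isOpen_ball (hAd n) (hAM n)
  choose G hGu hGd _ using hG
  have hGt : ∀ n : ℕ, ∀ z ∈ ball (0 : ℂ) (n + 1),
      Tendsto (fun k => A n k z) u (𝓝 (G n z)) := fun n z hz =>
    (hGu n).tendsto_at hz
  -- the factors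
  set c : ℕ → ℕ → ℂ → ℂ := fun n k z => if n + 1 ≤ k then exp (φ (n + 1) k z - φ n k z) else 1
    with hc
  have hceq : ∀ n k : ℕ, n + 1 ≤ k → c n k = fun z => exp (φ (n + 1) k z - φ n k z) := by
    intro n k hnk
    funext z
    simp only [hc, if_pos hnk]
  have hcd : ∀ n k : ℕ, DifferentiableOn ℂ (c n k) (ball 0 (n + 1)) := by
    intro n k
    by_cases hnk : n + 1 ≤ k
    · rw [hceq n k hnk]
      exact ((hφd (n + 1) k).sub (hφd n k)).cexp.differentiableOn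
    · have : c n k = fun _ => 1 := by
        funext z
        simp only [hc, if_neg hnk]
      rw [this]
      fun_prop
  have hcA : ∀ n k : ℕ, n + 1 ≤ k → ∀ z, A (n + 1) k z = c n k z • A n k z := by
    intro n k hnk z
    rw [hceq n k hnk, hAeq n k (by omega), hAeq (n + 1) k hnk]
    simp only
    rw [smul_smul, ← exp_add]
    congr 2
    ring
  have hcn : ∀ n k : ℕ, n + 1 ≤ k → ∀ z, ‖c n k z‖ ^ 2 * nsq (A n k z) = nsq (A (n + 1) k z) := by
    intro n k hnk z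
    rw [hcA n k hnk z, nsq_smul]
  set M₁ : ℕ → ℝ := fun n => Real.exp 1 / Real.exp (-1 - (L + 1) * ((n : ℝ) + 1) ^ 2) with hM₁
  set m₁ : ℕ → ℝ := fun n => Real.exp (-1 - (L + 1) * (((n + 1 : ℕ) : ℝ) + 1) ^ 2) / Real.exp 1
    with hm₁
  have hcb : ∀ n k : ℕ, n + 1 ≤ k → ∀ z ∈ ball (0 : ℂ) (n + 1),
      ‖c n k z‖ ^ 2 ≤ M₁ n ∧ m₁ n ≤ ‖c n k z‖ ^ 2 := by
    intro n k hnk z hz
    have h1 := hφb n k (by omega) z (ball_subset_closedBall hz)
    have hz' : z ∈ closedBall (0 : ℂ) (((n + 1 : ℕ) : ℝ) + 1) := by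
      rw [mem_ball_zero_iff] at hz
      rw [mem_closedBall_zero_iff]
      push_cast
      linarith
    have h2 := hφb (n + 1) k hnk z hz'
    have e1 : A n k z = exp (φ n k z) • H k z := by rw [hAeq n k (by omega)]
    have e2 : A (n + 1) k z = exp (φ (n + 1) k z) • H k z := by rw [hAeq (n + 1) k hnk]
    rw [← e1] at h1
    rw [← e2, ← hcn n k hnk z] at h2
    have hp : 0 < Real.exp (-1 - (L + 1) * ((n : ℝ) + 1) ^ 2) := Real.exp_pos _
    have hp1 : 0 < Real.exp 1 := Real.exp_pos _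
    constructor
    · rw [hM₁]
      simp only
      rw [le_div_iff₀ hp]
      refine le_trans ?_ h2.2
      gcongr
      exact h1.1
    · rw [hm₁]
      simp only
      rw [div_le_iff₀ hp1]
      refine le_trans h2.1 ?_
      gcongr
      exact h1.2
  have hcM : ∀ n k : ℕ, ∀ z ∈ ball (0 : ℂ) (n + 1), ‖c n k z‖ ≤ max 1 (Real.sqrt (M₁ n)) := by
    intro n k z hz
    by_cases hnk : n + 1 ≤ k
    · exact (Real.le_sqrt_of_sq_le (hcb n k hnk z hz).1).trans (le_max_right _ _)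
    · simp only [hc, if_neg hnk, norm_one]
      exact le_max_left _ _
  have hγ : ∀ n : ℕ, ∃ g : ℂ → ℂ, TendstoLocallyUniformlyOn (c n) g u (ball 0 (n + 1)) ∧
      DifferentiableOn ℂ g (ball 0 (n + 1)) ∧
      (∀ z ∈ ball (0 : ℂ) (n + 1), ‖g z‖ ≤ max 1 (Real.sqrt (M₁ n))) := fun n =>
    R264.montel_ultra u isOpen_ball (hcd n) (hcM n)
  choose γ hγu hγd _ using hγ
  have hγt : ∀ n : ℕ, ∀ z ∈ ball (0 : ℂ) (n + 1),
      Tendsto (fun k => c n k z) u (𝓝 (γ n z)) := fun n z hz =>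
    (hγu n).tendsto_at hz
  have hγ0 : ∀ n : ℕ, ∀ z ∈ ball (0 : ℂ) (n + 1), γ n z ≠ 0 := by
    intro n z hz h
    have h1 : Tendsto (fun k => ‖c n k z‖ ^ 2) u (𝓝 (‖γ n z‖ ^ 2)) := ((hγt n z hz).norm).pow 2
    have h2 : m₁ n ≤ ‖γ n z‖ ^ 2 :=
      ge_of_tendsto h1 ((hev (n + 1)).mono fun k hk => (hcb n k hk z hz).2)
    rw [h] at h2
    have h3 : 0 < m₁ n := by positivity
    simp at h2
    linarith
  have hGγ : ∀ n : ℕ, ∀ z ∈ ball (0 : ℂ) (n + 1), G (n + 1) z = γ n z • G n z := by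
    intro n z hz
    have hz' : z ∈ ball (0 : ℂ) (((n + 1 : ℕ) : ℝ) + 1) := by
      rw [mem_ball_zero_iff] at hz ⊢
      push_cast
      linarith
    have h1 := hGt (n + 1) z hz'
    have h2 := (hγt n z hz).smul (hGt n z hz)
    refine tendsto_nhds_unique (h1.congr' ?_) h2
    filter_upwards [hev (n + 1)] with k hk
    exact hcA n k hk z
  have hG0 : ∀ n : ℕ, ∀ z ∈ ball (0 : ℂ) (n + 1), G n z ≠ 0 := by
    intro n z hz h
    have h1 : Tendsto (fun k => nsq (A n k z)) u (𝓝 (nsq (G n z))) := tendsto_nsq (hGt n z hz)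
    have h2 : Real.exp (-1 - (L + 1) * ((n : ℝ) + 1) ^ 2) ≤ nsq (G n z) := by
      refine ge_of_tendsto h1 ((hev n).mono fun k hk => ?_)
      rw [hAeq n k hk]
      exact (hφb n k hk z (ball_subset_closedBall hz)).1
    rw [h] at h2
    have h3 : nsq (0 : ι → ℂ) = 0 := nsq_eq_zero.2 rfl
    rw [h3] at h2
    exact absurd h2 (not_le.2 (Real.exp_pos _))
  have hGC : ∀ n : ℕ, ∀ z ∈ ball (0 : ℂ) (n + 1), G n z ∈ C := by
    intro n z hz
    refine hC.mem_of_tendsto (hGt n z hz) ((hev n).mono fun k hk => ?_)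
    rw [hAeq n k hk]
    exact hCs _ (exp_ne_zero _) _ (hHC k z (hbk n k hk hz))
  -- the density at 0
  have hGfs : fsSq (G 0 0) (deriv (G 0) 0) = a := by
    have hz : (0 : ℂ) ∈ ball (0 : ℂ) ((0 : ℕ) + 1) := mem_ball_self (by positivity)
    have h1 := hGt 0 0 hz
    have h2 : TendstoLocallyUniformlyOn (deriv ∘ A 0) (deriv (G 0)) u (ball 0 ((0 : ℕ) + 1)) :=
      (hGu 0).deriv (Eventually.of_forall fun k => hAd 0 k) isOpen_ball
    have h3 : Tendsto (fun k => deriv (A 0 k) 0) u (𝓝 (deriv (G 0) 0)) := h2.tendsto_at hz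
    have h4 := tendsto_fsSq h1 h3 (hG0 0 0 hz)
    refine tendsto_nhds_unique (h4.congr' ?_) (tendsto_const_nhds (x := a))
    filter_upwards [hev 0] with k hk
    rw [hAeq 0 k hk]
    have hz2 : (0 : ℂ) ∈ ball (0 : ℂ) ((k : ℝ) + 2) := mem_ball_self (by positivity)
    have h5 := fsSq_mul_lift ((hφd 0 k).cexp 0) ((hd k).differentiableAt (isOpen_ball.mem_nhds hz2))
      (exp_ne_zero (φ 0 k 0))
    rw [← hfs0 k]
    exact h5
  obtain ⟨F, hFd, hF⟩ := glue_lifts hGd hγd hγ0 hGγ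
  refine ⟨F, hFd, ?_, ?_, ?_⟩
  · intro z
    obtain ⟨n, hn⟩ := exists_nat_gt ‖z‖
    obtain ⟨e, -, he0, heF⟩ := hF n
    have hz : z ∈ ball (0 : ℂ) (n + 1) := by
      rw [mem_ball_zero_iff]
      linarith
    rw [heF z hz]
    exact smul_ne_zero (he0 z) (hG0 n z hz)
  · intro z
    obtain ⟨n, hn⟩ := exists_nat_gt ‖z‖
    obtain ⟨e, -, he0, heF⟩ := hF n
    have hz : z ∈ ball (0 : ℂ) (n + 1) := by
      rw [mem_ball_zero_iff]
      linarith
    rw [heF z hz]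
    exact hCs _ (he0 z) _ (hGC n z hz)
  · obtain ⟨e, hed, he0, heF⟩ := hF 0
    have hz : (0 : ℂ) ∈ ball (0 : ℂ) ((0 : ℕ) + 1) := mem_ball_self (by positivity)
    have h1 : F =ᶠ[𝓝 0] fun z => e z • G 0 z := by
      filter_upwards [isOpen_ball.mem_nhds hz] with w hw
      exact heF w hw
    rw [h1.deriv_eq, heF 0 hz, ← hGfs]
    exact fsSq_mul_lift (hed.differentiableAt (isOpen_ball.mem_nhds hz))
      ((hGd 0).differentiableAt (isOpen_ball.mem_nhds hz)) (he0 0)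

/-- **Brody's theorem** for a closed cone -/
theorem brody_cone {C : Set (ι → ℂ)} (hC : IsClosed C)
    (hCs : ∀ c : ℂ, c ≠ 0 → ∀ p ∈ C, c • p ∈ C)
    (hcurve : ∀ f : ℂ → ι → ℂ, Differentiable ℂ f → (∀ z, f z ≠ 0) → (∀ z, f z ∈ C) →
      ∀ z, ∃ c : ℂ, f z = c • f 0) :
    ∃ A : ℝ, 0 < A ∧ ∀ (H : ℂ → ι → ℂ) (z₀ : ℂ) (r : ℝ), 0 < r →
      DifferentiableOn ℂ H (ball z₀ r) → (∀ z ∈ ball z₀ r, H z ≠ 0 ∧ H z ∈ C) →
      r ^ 2 * fsSq (H z₀) (deriv H z₀) ≤ A ^ 2 := by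
  by_contra hcon
  push Not at hcon
  -- sequence of discs
  have hseq : ∀ k : ℕ, ∃ H : ℂ → ι → ℂ, DifferentiableOn ℂ H (ball 0 (k + 2)) ∧
      (∀ z ∈ ball (0 : ℂ) (k + 2), H z ≠ 0 ∧ H z ∈ C) ∧
      (∀ z ∈ ball (0 : ℂ) (k + 2), fsSq (H z) (deriv H z) ≤ 4) ∧
      fsSq (H 0) (deriv H 0) = 1 := by
    intro k
    have hk0 : (0 : ℝ) < 4 * ((k : ℝ) + 2) := by positivity
    obtain ⟨H, z₀, r, hr, hd, hH, hbig⟩ := hcon (4 * ((k : ℝ) + 2)) hk0
    have hmap : ∀ z ∈ ball (0 : ℂ) 1, z₀ + (r : ℂ) * z ∈ ball z₀ r := by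
      intro z hz
      rw [mem_ball_zero_iff] at hz
      rw [mem_ball_iff_norm, add_sub_cancel_left, norm_mul, Complex.norm_real,
        Real.norm_of_nonneg hr.le]
      calc r * ‖z‖ < r * 1 := by gcongr
        _ = r := mul_one r
    have hz₀m : z₀ + (r : ℂ) * 0 ∈ ball z₀ r := hmap 0 (mem_ball_self one_pos)
    set H₁ : ℂ → ι → ℂ := fun w => H (z₀ + (r : ℂ) * w) with hH₁
    have hd₁ : DifferentiableOn ℂ H₁ (ball 0 1) := by
      refine hd.comp ?_ hmap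
      fun_prop
    have hbig₁ : (4 * ((k : ℝ) + 2)) ^ 2 < fsSq (H₁ 0) (deriv H₁ 0) := by
      have h1 := fsSq_comp_affine (H := H) (a := z₀) (ρ := (r : ℂ)) (z := 0)
        (hd.differentiableAt (isOpen_ball.mem_nhds hz₀m))
      have h2 : fsSq (H₁ 0) (deriv H₁ 0) = r ^ 2 * fsSq (H z₀) (deriv H z₀) := by
        have h3 : fsSq (H₁ 0) (deriv H₁ 0) =
          fsSq (H (z₀ + (r : ℂ) * 0)) (deriv (fun w => H (z₀ + (r : ℂ) * w)) 0) := rfl
        rw [h3, h1, mul_zero, add_zero, Complex.norm_real, Real.norm_of_nonneg hr.le]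
      rw [h2]
      exact hbig
    obtain ⟨a, ρ, hmem, h1, h4⟩ := reparam hk0 hd₁ (fun z hz => (hH _ (hmap z hz)).1) hbig₁
    have hrad : 4 * ((k : ℝ) + 2) / 4 = (k : ℝ) + 2 := by ring
    rw [hrad] at hmem h4
    refine ⟨fun w => H₁ (a + ρ * w), ?_, fun z hz => ?_, h4, h1⟩
    · refine hd₁.comp ?_ hmem
      fun_prop
    · exact hH _ (hmap _ (hmem z hz))
  choose H hHd hHC hH4 hH1 using hseq
  obtain ⟨F, hFd, hF0, hFC, hF1⟩ := limit_curve hC hCs (L := 4) (a := 1) (by norm_num) hHd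
    (fun k z hz => (hHC k z hz).1) (fun k z hz => (hHC k z hz).2) hH4 hH1
  have hprop := hcurve F hFd hF0 hFC
  have hw : wsq (F 0) (deriv F 0) = 0 := by
    unfold wsq
    refine Finset.sum_eq_zero fun i _ => Finset.sum_eq_zero fun j _ => ?_
    have hdi : ∀ i, HasDerivAt (fun z => F z i) (deriv F 0 i) 0 := fun i =>
      (hasDerivAt_pi.1 (hFd 0).hasDerivAt) i
    have h1 : HasDerivAt (fun z => F z i * F 0 j - F z j * F 0 i)
        (deriv F 0 i * F 0 j - deriv F 0 j * F 0 i) 0 :=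
      ((hdi i).mul_const _).sub ((hdi j).mul_const _)
    have h2 : (fun z => F z i * F 0 j - F z j * F 0 i) = fun _ => (0 : ℂ) := by
      funext z
      obtain ⟨c, hc⟩ := hprop z
      rw [hc]
      simp only [Pi.smul_apply, smul_eq_mul]
      ring
    rw [h2] at h1
    have h3 := h1.unique (hasDerivAt_const (0 : ℂ) (0 : ℂ))
    rw [h3]
    simp
  rw [fsSq_eq, hw] at hF1
  simp at hF1

open Crest.AlgGeometry.ProjEmb MvPolynomial

theorem isClosed_affineCone {N : ℕ} (I : Ideal (HomCoordRing N)) : IsClosed (affineCone I) := by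
  have : affineCone I = ⋂ F ∈ I, {p | MvPolynomial.eval p F = 0} := by
    ext p
    simp [affineCone]
  rw [this]
  exact isClosed_biInter fun F _ => isClosed_eq (MvPolynomial.continuous_eval F) continuous_const

theorem smul_mem_affineCone {N n : ℕ} {I : Ideal (HomCoordRing N)} (hX : IsSmoothProjective I n)
    (c : ℂ) {p : Fin (N + 1) → ℂ} (hp : p ∈ affineCone I) : c • p ∈ affineCone I := by
  intro F hF
  have h1 : F = ∑ d ∈ Finset.range (F.totalDegree + 1), homogeneousComponent d F :=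
    (sum_homogeneousComponent F).symm
  rw [h1, map_sum]
  refine Finset.sum_eq_zero fun d _ => ?_
  have h2 := hX.homogeneous F hF d
  have h3 : (homogeneousComponent d F).IsHomogeneous d := homogeneousComponent_isHomogeneous d F
  have h4 : MvPolynomial.eval (c • p) (homogeneousComponent d F)
      = c ^ d * MvPolynomial.eval p (homogeneousComponent d F) := by
    rw [MvPolynomial.eval_eq, MvPolynomial.eval_eq, Finset.mul_sum]
    refine Finset.sum_congr rfl fun m hm => ?_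
    have h5 : ∑ i ∈ m.support, m i = d := by
      have h6 := h3 (MvPolynomial.mem_support_iff.1 hm)
      rw [Finsupp.weight_apply, Finsupp.sum] at h6
      simpa using h6
    simp only [Pi.smul_apply, smul_eq_mul, mul_pow, Finset.prod_mul_distrib,
      Finset.prod_pow_eq_pow_sum, h5]
    ring
  rw [h4, hp _ h2, mul_zero]

/-- **Brody's theorem** for a projective variety presented by its homogeneous ideal: if every
entire curve is constant then there is `A` with `|f'(z₀)| ≤ A / r` (Fubini-Study) for every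
holomorphic map `f` from the disc `|z - z₀| < r` to the variety, given by a lift `H`. -/
theorem brody {N n : ℕ} (I : Ideal (HomCoordRing N)) (hX : IsSmoothProjective I n)
    (hc : EntireCurvesConstant I) :
    ∃ A : ℝ, 0 < A ∧ ∀ (H : ℂ → Fin (N + 1) → ℂ) (z₀ : ℂ) (r : ℝ), 0 < r →
      DifferentiableOn ℂ H (ball z₀ r) → (∀ z ∈ ball z₀ r, H z ≠ 0 ∧ H z ∈ affineCone I) →
      r ^ 2 * fsSq (H z₀) (deriv H z₀) ≤ A ^ 2 :=
  brody_cone (isClosed_affineCone I) (fun c _ _ hp => smul_mem_affineCone hX c hp) hc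

end Crest.Agent.R269.Brody_164
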