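import Mathlib

/-!
# The collar lemma (row 269, STEP 3 (i))

A holomorphic "disc" satisfying the hyperbolic derivative bound and mapping a boundary arc into a
tiny coordinate ball maps a whole collar of proportional width into the (larger) coordinate ball.
Everything is stated for a map `h : ℂ → V` into a normed space which is only meaningful on a set
`G` (`G` = the set of parameters at which the map lies in the chart domain).
-/

set_option autoImplicit false

open Complex Set Filter Topology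

namespace Crest.Agent.R269.Col_67

variable {V : Type*} [NormedAddCommGroup V] [NormedSpace ℂ V]

/-- The comparison function on the box `|Re z - x0| ≤ L`, `0 ≤ Im z ≤ H`. -/
noncomputable def vbox (x0 L H : ℝ) (z : ℂ) : ℝ :=
  1 - H ^ 2 / L ^ 2 - z.im / H - ((z.re - x0) ^ 2 - z.im ^ 2) / L ^ 2

/-- two constants estimate on a box, bottom edge small. -/
lemma box_bound (h : ℂ → V) (x0 L H M t : ℝ) (hL : 0 < L) (hH : 0 < H) (ht : 0 ≤ t)
    (hdc : DiffContOnCl ℂ h (Ioo (x0 - L) (x0 + L) ×ℂ Ioo 0 H))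
    (hM : ∀ z : ℂ, |z.re - x0| ≤ L → 0 ≤ z.im → z.im ≤ H → ‖h z‖ ≤ M)
    (hbot : ∀ x : ℝ, |x - x0| ≤ L → ‖h x‖ ≤ M * Real.exp (-t))
    (z : ℂ) (hz1 : |z.re - x0| ≤ L) (hz2 : 0 ≤ z.im) (hz3 : z.im ≤ H) :
    ‖h z‖ ≤ M * Real.exp (-(t * vbox x0 L H z)) := by
  set g : ℂ → ℂ := fun z => (t : ℂ) * ((1 - H ^ 2 / L ^ 2 : ℝ) + I * (z - x0) / H
    - (z - x0) ^ 2 / L ^ 2) with hg
  have hgre : ∀ z : ℂ, (g z).re = t * vbox x0 L H z := by
    intro z
    have e1 : (I * (z - x0) / (H : ℂ)).re = - z.im / H := by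
      rw [div_ofReal_re]
      simp
    have e2 : ((z - x0) ^ 2 / (L : ℂ) ^ 2).re = ((z.re - x0) ^ 2 - z.im ^ 2) / L ^ 2 := by
      rw [show ((L : ℂ)) ^ 2 = ((L ^ 2 : ℝ) : ℂ) by push_cast; rfl, div_ofReal_re]
      simp [pow_two]
    simp only [hg]
    rw [re_ofReal_mul, sub_re, add_re, e1, e2, ofReal_re]
    unfold vbox
    ring
  have hgd : Differentiable ℂ g := by
    intro z
    simp only [hg]
    fun_prop
  set F : ℂ → V := fun z => Complex.exp (g z) • h z with hF
  have hFn : ∀ z, ‖F z‖ = Real.exp (t * vbox x0 L H z) * ‖h z‖ := by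
    intro z
    simp only [hF, norm_smul, Complex.norm_exp, hgre]
  set U : Set ℂ := Ioo (x0 - L) (x0 + L) ×ℂ Ioo 0 H with hU
  have hUb : Bornology.IsBounded U := by
    exact (Metric.isBounded_Ioo (x0-L) (x0+L)).reProdIm (Metric.isBounded_Ioo 0 H)
  have hclU : closure U = Icc (x0 - L) (x0 + L) ×ℂ Icc 0 H := by
    rw [hU, closure_reProdIm, closure_Ioo (by linarith), closure_Ioo (by linarith)]
  have hFd : DiffContOnCl ℂ F U := by
    refine DiffContOnCl.smul ?_ hdc
    exact (Complex.differentiable_exp.comp hgd).diffContOnCl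
  have hmemcl : z ∈ closure U := by
    rw [hclU, mem_reProdIm]
    rw [abs_le] at hz1
    exact ⟨⟨by linarith, by linarith⟩, hz2, hz3⟩
  have key : ‖F z‖ ≤ M := by
    refine norm_le_of_forall_mem_frontier_norm_le hUb hFd ?_ hmemcl
    intro w hw
    have hwcl : w ∈ closure U := frontier_subset_closure hw
    rw [hclU, mem_reProdIm] at hwcl
    obtain ⟨⟨hw1, hw2⟩, hw3, hw4⟩ := hwcl
    have hwabs : |w.re - x0| ≤ L := by rw [abs_le]; constructor <;> linarith
    rw [hFn]
    rw [hU, frontier_reProdIm, closure_Ioo (by linarith), closure_Ioo (by linarith),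
      frontier_Ioo (by linarith), frontier_Ioo (by linarith)] at hw
    have hL2 : 0 < L ^ 2 := by positivity
    -- upper bounds
    have hcase : (w.im = 0) ∨ (vbox x0 L H w ≤ 0) := by
      rcases hw with hw | hw
      · rw [mem_reProdIm] at hw
        obtain ⟨-, hw⟩ := hw
        rcases hw with hw | hw
        · left; exact hw
        · right
          have hw' : w.im = H := hw
          unfold vbox
          rw [hw', div_self hH.ne']
          have : 0 ≤ (w.re - x0) ^ 2 / L ^ 2 := by positivity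
          have e : ((w.re - x0) ^ 2 - H ^ 2) / L ^ 2 = (w.re - x0) ^ 2 / L ^ 2 - H ^ 2 / L ^ 2 := by
            ring
          rw [e]; linarith
      · rw [mem_reProdIm] at hw
        obtain ⟨hw, -⟩ := hw
        right
        have hsq : (w.re - x0) ^ 2 = L ^ 2 := by
          rcases hw with hw | hw
          · have : w.re = x0 - L := hw
            rw [this]; ring
          · have : w.re = x0 + L := hw
            rw [this]; ring
        unfold vbox
        rw [hsq]
        have e : (L ^ 2 - w.im ^ 2) / L ^ 2 = 1 - w.im ^ 2 / L ^ 2 := by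
          rw [sub_div, div_self hL2.ne']
        rw [e]
        have h1 : w.im ^ 2 / L ^ 2 ≤ H ^ 2 / L ^ 2 := by
          apply div_le_div_of_nonneg_right _ hL2.le
          exact pow_le_pow_left₀ hw3 hw4 2
        have h2 : 0 ≤ w.im / H := by positivity
        linarith
    rcases hcase with h0 | hv
    · have hwr : w = ((w.re : ℝ) : ℂ) := by
        apply Complex.ext <;> simp [h0]
      have hb := hbot w.re hwabs
      rw [← hwr] at hb
      have hv1 : vbox x0 L H w ≤ 1 := by
        unfold vbox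
        rw [h0]
        have h1 : 0 ≤ H ^ 2 / L ^ 2 := by positivity
        have h2 : 0 ≤ ((w.re - x0) ^ 2 - 0 ^ 2) / L ^ 2 := by
          apply div_nonneg _ hL2.le
          nlinarith [sq_nonneg (w.re - x0)]
        have h3 : (0 : ℝ) / H = 0 := zero_div _
        rw [h3]
        linarith
      calc Real.exp (t * vbox x0 L H w) * ‖h w‖
          ≤ Real.exp t * (M * Real.exp (-t)) := by
            apply mul_le_mul _ hb (norm_nonneg _) (Real.exp_pos _).le
            apply Real.exp_le_exp.mpr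
            nlinarith
        _ = M := by
            rw [mul_comm M, ← mul_assoc, ← Real.exp_add]; simp
    · calc Real.exp (t * vbox x0 L H w) * ‖h w‖
          ≤ 1 * M := by
            apply mul_le_mul _ (hM w hwabs hw3 hw4) (norm_nonneg _) zero_le_one
            rw [Real.exp_le_one_iff]
            exact mul_nonpos_of_nonneg_of_nonpos ht hv
        _ = M := one_mul M
  rw [hFn] at key
  calc ‖h z‖ = Real.exp (-(t * vbox x0 L H z)) * (Real.exp (t * vbox x0 L H z) * ‖h z‖) := by
        rw [← mul_assoc, ← Real.exp_add]; simp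
    _ ≤ Real.exp (-(t * vbox x0 L H z)) * M := by
        apply mul_le_mul_of_nonneg_left key (Real.exp_pos _).le
    _ = M * Real.exp (-(t * vbox x0 L H z)) := mul_comm _ _

/-- three circles, integer form -/
lemma three_circles (h : ℂ → V) (c : ℂ) (r M : ℝ) (hr : 0 < r) (hM0 : 0 ≤ M) (m : ℕ)
    (hd : DifferentiableOn ℂ h (Metric.ball c r))
    (hc : ContinuousOn h (Metric.closedBall c r))
    (hM : ∀ z ∈ Metric.closedBall c r, ‖h z‖ ≤ M)
    (hs : ∀ z ∈ Metric.closedBall c (r / 4), ‖h z‖ ≤ M / 4 ^ m) :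
    ∀ z ∈ Metric.closedBall c (r / 2), ‖h z‖ ≤ M / 2 ^ m := by
  intro z hz
  by_cases hz4 : z ∈ Metric.closedBall c (r / 4)
  · refine (hs z hz4).trans ?_
    apply div_le_div_of_nonneg_left hM0 (by positivity)
    exact pow_le_pow_left₀ (by norm_num) (by norm_num) m
  have hzd : r / 4 < dist z c := by
    simpa [Metric.mem_closedBall] using hz4
  have hzd2 : dist z c ≤ r / 2 := hz
  set U : Set ℂ := Metric.ball c r \ Metric.closedBall c (r / 4) with hU
  have hUo : IsOpen U := Metric.isOpen_ball.sdiff Metric.isClosed_closedBall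
  have hUb : Bornology.IsBounded U := Metric.isBounded_ball.subset sdiff_subset
  have hUcl : closure U ⊆ Metric.closedBall c r \ Metric.ball c (r / 4) := by
    apply closure_minimal
    · intro w hw
      refine ⟨Metric.ball_subset_closedBall hw.1, fun hw2 => hw.2 (Metric.ball_subset_closedBall hw2)⟩
    · exact Metric.isClosed_closedBall.sdiff Metric.isOpen_ball
  set F : ℂ → V := fun w => ((w - c) ^ m)⁻¹ • h w with hF
  have hFd : DiffContOnCl ℂ F U := by
    constructor
    · intro w hw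
      have hwc : w - c ≠ 0 := by
        intro h0
        apply hw.2
        rw [Metric.mem_closedBall, dist_eq_norm, h0, norm_zero]; positivity
      have h1 : DifferentiableAt ℂ h w := hd.differentiableAt (Metric.isOpen_ball.mem_nhds hw.1)
      have h2 : DifferentiableAt ℂ (fun w : ℂ => ((w - c) ^ m)⁻¹) w := by
        apply DifferentiableAt.inv
        · fun_prop
        · exact pow_ne_zero _ hwc
      exact (h2.smul h1).differentiableWithinAt
    · intro w hw
      have hw' := hUcl hw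
      have hwc : w - c ≠ 0 := by
        intro h0
        apply hw'.2
        rw [Metric.mem_ball, dist_eq_norm, h0, norm_zero]; positivity
      have h1 : ContinuousWithinAt h (closure U) w :=
        (hc w hw'.1).mono (fun u hu => (hUcl hu).1)
      have h2 : ContinuousAt (fun w : ℂ => ((w - c) ^ m)⁻¹) w := by
        apply ContinuousAt.inv₀
        · fun_prop
        · exact pow_ne_zero _ hwc
      exact h2.continuousWithinAt.smul h1
  have hzU : z ∈ U := by
    constructor
    · rw [Metric.mem_ball]; linarith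
    · exact hz4
  have key : ‖F z‖ ≤ M / r ^ m := by
    refine norm_le_of_forall_mem_frontier_norm_le hUb hFd ?_ (subset_closure hzU)
    intro w hw
    have hwcl := hUcl (frontier_subset_closure hw)
    have hwn : w ∉ U := by
      rw [hUo.frontier_eq] at hw
      exact hw.2
    have hnorm : ‖F w‖ = ‖h w‖ / (dist w c) ^ m := by
      simp only [hF, norm_smul, norm_inv, norm_pow, dist_eq_norm]
      rw [div_eq_inv_mul]
    rw [hnorm]
    have hlow : r / 4 ≤ dist w c := by
      have := hwcl.2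
      rw [Metric.mem_ball] at this
      linarith
    have hup : dist w c ≤ r := hwcl.1
    by_cases hw4 : w ∈ Metric.closedBall c (r / 4)
    · have : dist w c = r / 4 := le_antisymm hw4 hlow
      rw [this]
      calc ‖h w‖ / (r / 4) ^ m ≤ (M / 4 ^ m) / (r / 4) ^ m :=
            div_le_div_of_nonneg_right (hs w hw4) (by positivity)
        _ = M / r ^ m := by
            rw [div_div, ← mul_pow]; congr 2; ring
    · have hwr : dist w c = r := by
        by_contra hne
        apply hwn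
        refine ⟨?_, hw4⟩
        rw [Metric.mem_ball]
        exact lt_of_le_of_ne hup hne
      rw [hwr]
      exact div_le_div_of_nonneg_right (hM w hwcl.1) (by positivity)
  have hnz : ‖F z‖ = ‖h z‖ / (dist z c) ^ m := by
    simp only [hF, norm_smul, norm_inv, norm_pow, dist_eq_norm]
    rw [div_eq_inv_mul]
  rw [hnz] at key
  have hpos : 0 < dist z c := by linarith
  rw [div_le_iff₀ (by positivity)] at key
  calc ‖h z‖ ≤ M / r ^ m * dist z c ^ m := key
    _ ≤ M / r ^ m * (r / 2) ^ m := by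
        apply mul_le_mul_of_nonneg_left _ (by positivity)
        exact pow_le_pow_left₀ hpos.le hzd2 m
    _ = M / 2 ^ m := by
        rw [div_pow]
        field_simp


/-- propagation of smallness along a vertical segment by a chain of discs. -/
lemma chain (h : ℂ → V) (r M : ℝ) (hr : 0 < r) (hM0 : 0 ≤ M) (N : ℕ) :
    ∀ (c : ℂ) (m : ℕ),
      (∀ k : ℕ, k ≤ N → DifferentiableOn ℂ h (Metric.ball (c + k * (r / 8 : ℝ) * I) r)) →
      (∀ k : ℕ, k ≤ N → ContinuousOn h (Metric.closedBall (c + k * (r / 8 : ℝ) * I) r)) →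
      (∀ k : ℕ, k ≤ N → ∀ z ∈ Metric.closedBall (c + k * (r / 8 : ℝ) * I) r, ‖h z‖ ≤ M) →
      (∀ z ∈ Metric.closedBall c (r / 4), ‖h z‖ ≤ M / 4 ^ (m * 2 ^ N)) →
      ∀ z ∈ Metric.closedBall (c + N * (r / 8 : ℝ) * I) (r / 2), ‖h z‖ ≤ M / 2 ^ m := by
  induction N with
  | zero =>
    intro c m hd hc hM hs z hz
    have h0 := hd 0 le_rfl
    have h1 := hc 0 le_rfl
    have h2 := hM 0 le_rfl
    simp only [Nat.cast_zero, zero_mul, add_zero, pow_zero, mul_one] at h0 h1 h2 hs hz
    exact three_circles h c r M hr hM0 m h0 h1 h2 hs z hz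
  | succ N ih =>
    intro c m hd hc hM hs z hz
    have h0 := hd 0 (Nat.zero_le _)
    have h1 := hc 0 (Nat.zero_le _)
    have h2 := hM 0 (Nat.zero_le _)
    simp only [Nat.cast_zero, zero_mul, add_zero] at h0 h1 h2
    have hs' : ∀ z ∈ Metric.closedBall c (r / 4), ‖h z‖ ≤ M / 4 ^ (2 * (m * 2 ^ N)) := by
      intro z hz
      have := hs z hz
      rwa [show m * 2 ^ (N + 1) = 2 * (m * 2 ^ N) by ring] at this
    have h3 := three_circles h c r M hr hM0 (2 * (m * 2 ^ N)) h0 h1 h2 hs'
    have hnext : ∀ z ∈ Metric.closedBall (c + (1 : ℕ) * (r / 8 : ℝ) * I) (r / 4),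
        ‖h z‖ ≤ M / 4 ^ (m * 2 ^ N) := by
      intro z hz
      have hz' : z ∈ Metric.closedBall c (r / 2) := by
        rw [Metric.mem_closedBall] at hz ⊢
        have hd1 : dist (c + (1 : ℕ) * (r / 8 : ℝ) * I) c = r / 8 := by
          rw [dist_eq_norm]
          simp only [Nat.cast_one, one_mul, add_sub_cancel_left, norm_mul, norm_I, mul_one]
          rw [Complex.norm_real, Real.norm_eq_abs, abs_of_pos (by positivity)]
        calc dist z c ≤ dist z _ + dist _ c := dist_triangle _ _ _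
          _ ≤ r / 4 + r / 8 := add_le_add hz hd1.le
          _ ≤ r / 2 := by linarith
      have := h3 z hz'
      rwa [pow_mul, show (2 : ℝ) ^ 2 = 4 by norm_num] at this
    have e : ∀ k : ℕ, c + (1 : ℕ) * (r / 8 : ℝ) * I + k * (r / 8 : ℝ) * I
        = c + ((k + 1 : ℕ) : ℂ) * (r / 8 : ℝ) * I := by
      intro k; push_cast; ring
    have := ih (c + (1 : ℕ) * (r / 8 : ℝ) * I) m
      (fun k hk => by rw [e]; exact hd (k + 1) (by omega))
      (fun k hk => by rw [e]; exact hc (k + 1) (by omega))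
      (fun k hk => by rw [e]; exact hM (k + 1) (by omega))
      hnext z (by rw [e]; exact hz)
    exact this


/-- the smallness constant of the collar lemma -/
noncomputable def eps (ρ : ℝ) : ℝ :=
  Real.exp (-(8 * 2 ^ (⌈32 / ρ⌉₊ - 1) * Real.log 4))

lemma eps_pos (ρ : ℝ) : 0 < eps ρ := Real.exp_pos _

lemma eps_lt_one (ρ : ℝ) : eps ρ < 1 := by
  unfold eps
  rw [Real.exp_lt_one_iff]
  have : 0 < Real.log 4 := Real.log_pos (by norm_num)
  have h2 : (0 : ℝ) < 2 ^ (⌈32 / ρ⌉₊ - 1) := by positivity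
  have := mul_pos (mul_pos (by norm_num : (0:ℝ) < 8) h2) this
  linarith

set_option maxHeartbeats 2000000 in
/-- **Collar lemma.**  `G` = parameters which are mapped into the chart domain, `h` = the map read in
the chart.  `hLip` is the consequence of the hyperbolic derivative bound. -/
theorem collar (ρ : ℝ) (hρ0 : 0 < ρ) (hρ1 : ρ ≤ 1) (h : ℂ → V) (G : Set ℂ) (a R M : ℝ)
    (hR : 0 < R) (hM : 0 < M)
    (hG : ∀ w ∈ G, 0 ≤ w.im → |w.re - a| ≤ R → w.im ≤ R → G ∈ 𝓝[{z : ℂ | 0 ≤ z.im}] w)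
    (hcont : ∀ w ∈ G, 0 ≤ w.im → |w.re - a| ≤ R → w.im ≤ R →
      ContinuousWithinAt h {z : ℂ | 0 ≤ z.im} w)
    (hdiff : ∀ w ∈ G, 0 < w.im → |w.re - a| < R → w.im < R → DifferentiableAt ℂ h w)
    (hLip : ∀ w ∈ G, 0 < w.im → |w.re - a| < R → w.im < R / 20 → ‖h w‖ < M / 2 →
      ∀ w' : ℂ, ‖w' - w‖ ≤ ρ * w.im → w' ∈ G ∧ ‖h w'‖ ≤ M)
    (hbot : ∀ x : ℝ, |x - a| ≤ R → (x : ℂ) ∈ G ∧ ‖h x‖ ≤ M * eps ρ) :
    ∀ w : ℂ, 0 ≤ w.im → w.im ≤ R / 40 → |w.re - a| ≤ R / 2 → w ∈ G ∧ ‖h w‖ < M / 2 := by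
  classical
  set S : Set ℂ := {w | w ∈ G ∧ ‖h w‖ < M / 2} with hS
  have hlog4 : 0 < Real.log 4 := Real.log_pos (by norm_num)
  have heps : eps ρ < 1 / 4 := by
    unfold eps
    have : Real.exp (-(Real.log 4)) = 1 / 4 := by
      rw [Real.exp_neg, Real.exp_log (by norm_num)]; norm_num
    rw [← this]
    apply Real.exp_lt_exp.mpr
    have h2 : (1 : ℝ) ≤ 2 ^ (⌈32 / ρ⌉₊ - 1) := one_le_pow₀ (by norm_num)
    nlinarith
  -- the closed region
  set P : Set ℂ := {w | 0 ≤ w.im ∧ |w.re - a| ≤ R ∧ w.im ≤ R} with hP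
  have hPc : IsClosed P := by
    apply IsClosed.inter
    · exact isClosed_le continuous_const continuous_im
    apply IsClosed.inter
    · exact isClosed_le (f := fun w : ℂ => |w.re - a|) (by fun_prop) continuous_const
    · exact isClosed_le continuous_im continuous_const
  have hSn : ∀ w ∈ P, w ∈ S → S ∈ 𝓝[{z : ℂ | 0 ≤ z.im}] w := by
    intro w hwP hwS
    have h1 := hG w hwS.1 hwP.1 hwP.2.1 hwP.2.2
    have h2 := hcont w hwS.1 hwP.1 hwP.2.1 hwP.2.2
    have h3 : ∀ᶠ z in 𝓝[{z : ℂ | 0 ≤ z.im}] w, ‖h z‖ < M / 2 :=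
      h2.norm.eventually_lt_const hwS.2
    filter_upwards [h1, h3] with z hz1 hz2
    exact ⟨hz1, hz2⟩
  set Bad : Set ℂ := P \ S with hBad
  have hBadc : IsClosed Bad := by
    apply isClosed_of_closure_subset
    intro w hw
    have hwP : w ∈ P := by
      have : closure Bad ⊆ P := closure_minimal sdiff_subset hPc
      exact this hw
    refine ⟨hwP, fun hwS => ?_⟩
    have h1 := hSn w hwP hwS
    rw [mem_closure_iff_frequently] at hw
    rw [mem_nhdsWithin_iff_eventually] at h1
    obtain ⟨z, hz1, hz2⟩ := (hw.and_eventually h1).exists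
    exact hz1.2 (hz2 hz1.1.1)
  have hreal : ∀ w ∈ Bad, 0 < w.im := by
    intro w hw
    rcases hw.1.1.lt_or_eq with h0 | h0
    · exact h0
    · exfalso
      apply hw.2
      have hwr : w = ((w.re : ℝ) : ℂ) := by
        apply Complex.ext <;> simp [← h0]
      have := hbot w.re hw.1.2.1
      rw [← hwr] at this
      refine ⟨this.1, this.2.trans_lt ?_⟩
      nlinarith
  intro w0 hw01 hw02 hw03
  by_contra hcon
  have hw0P : w0 ∈ P := ⟨hw01, by linarith, by linarith⟩
  have hw0B : w0 ∈ Bad := ⟨hw0P, hcon⟩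
  set K : Set ℂ := Bad ∩ {w | w.im ≤ (1 / 20) * (R - |w.re - a|)} with hK
  have hKc : IsClosed K := hBadc.inter (isClosed_le continuous_im (by fun_prop))
  have hKb : Bornology.IsBounded K := by
    refine ((Metric.isBounded_Icc (a - R) (a + R)).reProdIm (Metric.isBounded_Icc 0 R)).subset ?_
    · intro w hw
      have h1 := hw.1.1.2.1
      rw [abs_le] at h1
      rw [mem_reProdIm]
      exact ⟨⟨by linarith, by linarith⟩, hw.1.1.1, hw.1.1.2.2⟩
  have hKcomp : IsCompact K := Metric.isCompact_of_isClosed_isBounded hKc hKb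
  have hKne : K.Nonempty := ⟨w0, hw0B, by
    show w0.im ≤ (1 / 20) * (R - |w0.re - a|)
    linarith⟩
  have hKpos : ∀ w ∈ K, 0 < R - |w.re - a| := by
    intro w hw
    have h1 := hreal w hw.1
    have h2 : w.im ≤ (1 / 20) * (R - |w.re - a|) := hw.2
    linarith
  obtain ⟨ws, hwsK, hmin⟩ := hKcomp.exists_isMinOn hKne
    (f := fun w : ℂ => w.im / (R - |w.re - a|)) (by
      apply ContinuousOn.div
      · exact continuous_im.continuousOn
      · fun_prop
      · intro w hw; exact (hKpos w hw).ne')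
  set d : ℝ := ws.im with hd
  set x0 : ℝ := ws.re with hx0
  set D : ℝ := R - |x0 - a| with hD
  have hDpos : 0 < D := hKpos ws hwsK
  have hDR : D ≤ R := by
    have := abs_nonneg (x0 - a)
    linarith
  have hdpos : 0 < d := hreal ws hwsK.1
  have hdD : d ≤ (1 / 20) * D := hwsK.2
  -- everything strictly below is good
  have hgood : ∀ w : ℂ, 0 ≤ w.im → |w.re - a| < R → w.im * D < d * (R - |w.re - a|) → w ∈ S := by
    intro w hw1 hw2 hw3
    by_contra hwS
    have hpos : 0 < R - |w.re - a| := by linarith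
    have h4 : w.im / (R - |w.re - a|) < d / D := by
      rw [div_lt_div_iff₀ hpos hDpos]; exact hw3
    have h5 : d / D ≤ 1 / 20 := by
      rw [div_le_iff₀ hDpos]; exact hdD
    have h6 : w.im ≤ (1 / 20) * (R - |w.re - a|) := by
      have := (h4.trans_le h5).le
      rwa [div_le_iff₀ hpos] at this
    have hwP : w ∈ P := ⟨hw1, hw2.le, by
      have := abs_nonneg (w.re - a)
      linarith⟩
    have hwK : w ∈ K := ⟨⟨hwP, hwS⟩, h6⟩
    have := hmin hwK
    exact absurd h4 (not_lt.mpr this)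
  -- the box
  have hbox : ∀ w : ℂ, |w.re - x0| ≤ 4 * d → 0 ≤ w.im → w.im ≤ (2 / 5) * d →
      |w.re - a| < R ∧ w ∈ S := by
    intro w hw1 hw2 hw3
    have h1 : |w.re - a| ≤ |w.re - x0| + |x0 - a| := abs_sub_le _ _ _
    have h2 : (4 / 5) * D ≤ R - |w.re - a| := by
      have : 4 * d ≤ (1 / 5) * D := by linarith
      linarith
    refine ⟨by linarith, hgood w hw2 (by linarith) ?_⟩
    have h3 : w.im * D ≤ (2 / 5) * d * D := mul_le_mul_of_nonneg_right hw3 hDpos.le
    have h4 : d * ((4 / 5) * D) ≤ d * (R - |w.re - a|) := mul_le_mul_of_nonneg_left h2 hdpos.le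
    nlinarith [mul_pos hdpos hDpos]
  -- the segment
  have hseg : ∀ y : ℝ, 0 ≤ y → y < d → ((x0 : ℂ) + y * I) ∈ S := by
    intro y hy1 hy2
    have e1 : ((x0 : ℂ) + y * I).re = x0 := by simp
    have e2 : ((x0 : ℂ) + y * I).im = y := by simp
    apply hgood
    · rw [e2]; exact hy1
    · rw [e1]; linarith
    · rw [e1, e2]
      exact mul_lt_mul_of_pos_right hy2 hDpos
  set N : ℕ := ⌈32 / ρ⌉₊ - 1 with hN
  set r : ℝ := ρ * (d / 5) with hr
  have hrpos : 0 < r := by positivity
  have hrd : r ≤ d / 5 := by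
    have : r ≤ 1 * (d / 5) := mul_le_mul_of_nonneg_right hρ1 (by positivity)
    linarith
  have hceil : 0 < ⌈32 / ρ⌉₊ := by
    apply Nat.ceil_pos.mpr; positivity
  have hN1 : (N : ℝ) < 32 / ρ := by
    have h1 : N < ⌈32 / ρ⌉₊ := by omega
    exact Nat.lt_ceil.mp h1
  have hN2 : 32 / ρ ≤ (N : ℝ) + 1 := by
    have h1 : ⌈32 / ρ⌉₊ = N + 1 := by omega
    have h2 := Nat.le_ceil (32 / ρ)
    rw [h1] at h2
    push_cast at h2
    exact h2
  have hNr1 : (N : ℝ) * (r / 8) < (4 / 5) * d := by
    rw [lt_div_iff₀ hρ0] at hN1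
    have : (N : ℝ) * (r / 8) = (N * ρ) * (d / 40) := by rw [hr]; ring
    rw [this]
    nlinarith
  have hNr2 : (4 / 5) * d ≤ (N + 1 : ℝ) * (r / 8) := by
    rw [div_le_iff₀ hρ0] at hN2
    have : (N + 1 : ℝ) * (r / 8) = ((N + 1) * ρ) * (d / 40) := by rw [hr]; ring
    rw [this]
    nlinarith
  set c : ℂ := (x0 : ℂ) + ((d / 5 : ℝ) : ℂ) * I with hc
  have hck : ∀ k : ℕ, c + k * (r / 8 : ℝ) * I = (x0 : ℂ) + ((d / 5 + k * (r / 8) : ℝ) : ℂ) * I := by
    intro k
    rw [hc]; push_cast; ring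
  have hckS : ∀ k : ℕ, k ≤ N → (d / 5 + k * (r / 8) < d) ∧
      (∀ z : ℂ, ‖z - (c + k * (r / 8 : ℝ) * I)‖ ≤ r → z ∈ G ∧ ‖h z‖ ≤ M) := by
    intro k hk
    have hk' : (k : ℝ) * (r / 8) ≤ N * (r / 8) := by
      apply mul_le_mul_of_nonneg_right _ (by positivity)
      exact_mod_cast hk
    have h1 : d / 5 + k * (r / 8) < d := by linarith
    refine ⟨h1, ?_⟩
    intro z hz
    rw [hck] at hz
    have hyk : (0 : ℝ) ≤ k * (r / 8) := by positivity
    have hS1 := hseg (d / 5 + k * (r / 8)) (by positivity) h1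
    have e1 : ((x0 : ℂ) + ((d / 5 + k * (r / 8) : ℝ) : ℂ) * I).re = x0 := by simp
    have e2 : ((x0 : ℂ) + ((d / 5 + k * (r / 8) : ℝ) : ℂ) * I).im = d / 5 + k * (r / 8) := by
      simp
    refine hLip _ hS1.1 (by rw [e2]; positivity) (by rw [e1]; linarith) (by rw [e2]; linarith) hS1.2
      z ?_
    rw [e2]
    refine hz.trans ?_
    calc r = ρ * (d / 5) := hr
      _ ≤ ρ * (d / 5 + k * (r / 8)) := by
        apply mul_le_mul_of_nonneg_left _ hρ0.le
        linarith
  have hball : ∀ k : ℕ, k ≤ N → ∀ z ∈ Metric.closedBall (c + k * (r / 8 : ℝ) * I) r,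
      z ∈ G ∧ ‖h z‖ ≤ M := by
    intro k hk z hz
    rw [Metric.mem_closedBall, dist_eq_norm] at hz
    exact (hckS k hk).2 z hz
  have hgeom : ∀ k : ℕ, k ≤ N → ∀ z ∈ Metric.closedBall (c + k * (r / 8 : ℝ) * I) r,
      0 ≤ z.im ∧ |z.re - a| < R ∧ z.im < R := by
    intro k hk z hz
    rw [Metric.mem_closedBall, dist_eq_norm, hck] at hz
    have h1 := (hckS k hk).1
    have hyk : (0 : ℝ) ≤ k * (r / 8) := by positivity
    have him : |z.im - (d / 5 + k * (r / 8))| ≤ r := by
      have := (abs_im_le_norm (z - ((x0 : ℂ) + ((d / 5 + k * (r / 8) : ℝ) : ℂ) * I))).trans hz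
      simpa using this
    have hre : |z.re - x0| ≤ r := by
      have := (abs_re_le_norm (z - ((x0 : ℂ) + ((d / 5 + k * (r / 8) : ℝ) : ℂ) * I))).trans hz
      simpa using this
    rw [abs_le] at him
    have h2 : |z.re - a| ≤ |z.re - x0| + |x0 - a| := abs_sub_le _ _ _
    refine ⟨by linarith, by linarith, by linarith⟩
  have hgeom2 : ∀ k : ℕ, k ≤ N → ∀ z ∈ Metric.ball (c + k * (r / 8 : ℝ) * I) r, 0 < z.im := by
    intro k hk z hz
    rw [Metric.mem_ball, dist_eq_norm, hck] at hz
    have hyk : (0 : ℝ) ≤ k * (r / 8) := by positivity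
    have him : |z.im - (d / 5 + k * (r / 8))| < r := by
      have := (abs_im_le_norm (z - ((x0 : ℂ) + ((d / 5 + k * (r / 8) : ℝ) : ℂ) * I))).trans_lt hz
      simpa using this
    rw [abs_lt] at him
    linarith
  -- smallness in the first ball
  have hfirst : ∀ z ∈ Metric.closedBall c (r / 4), ‖h z‖ ≤ M / 4 ^ (2 * 2 ^ N) := by
    intro z hz
    rw [Metric.mem_closedBall, dist_eq_norm, hc] at hz
    have him : |z.im - d / 5| ≤ r / 4 := by
      have := (abs_im_le_norm (z - ((x0 : ℂ) + ((d / 5 : ℝ) : ℂ) * I))).trans hz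
      simpa using this
    have hre : |z.re - x0| ≤ r / 4 := by
      have := (abs_re_le_norm (z - ((x0 : ℂ) + ((d / 5 : ℝ) : ℂ) * I))).trans hz
      simpa using this
    rw [abs_le] at him
    set t : ℝ := 8 * 2 ^ N * Real.log 4 with ht
    have ht0 : 0 ≤ t := by positivity
    have hb := box_bound h x0 (4 * d) ((2 / 5) * d) M t (by positivity) (by positivity) ht0
      (by
        constructor
        · intro w hw
          rw [mem_reProdIm] at hw
          obtain ⟨⟨hw1, hw2⟩, hw3, hw4⟩ := hw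
          have hb1 := hbox w (by rw [abs_le]; constructor <;> linarith) hw3.le hw4.le
          exact (hdiff w hb1.2.1 hw3 hb1.1 (by linarith)).differentiableWithinAt
        · intro w hw
          rw [closure_reProdIm, closure_Ioo (by linarith), closure_Ioo (by linarith),
            mem_reProdIm] at hw
          obtain ⟨⟨hw1, hw2⟩, hw3, hw4⟩ := hw
          have hb1 := hbox w (by rw [abs_le]; constructor <;> linarith) hw3 hw4
          refine (hcont w hb1.2.1 hw3 hb1.1.le (by linarith)).mono ?_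
          intro u hu
          rw [closure_reProdIm, closure_Ioo (by linarith), closure_Ioo (by linarith),
            mem_reProdIm] at hu
          exact hu.2.1)
      (by
        intro w hw1 hw2 hw3
        have hb1 := hbox w hw1 hw2 hw3
        exact hb1.2.2.le.trans (by linarith))
      (by
        intro x hx
        have h1 : |x - a| ≤ |x - x0| + |x0 - a| := abs_sub_le _ _ _
        exact (hbot x (by linarith)).2)
      z (by linarith) (by linarith) (by linarith)
    refine hb.trans ?_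
    have hv : 1 / 4 ≤ vbox x0 (4 * d) ((2 / 5) * d) z := by
      unfold vbox
      have e1 : ((2 / 5) * d) ^ 2 / (4 * d) ^ 2 = 1 / 100 := by
        field_simp; norm_num
      have e2 : z.im / ((2 / 5) * d) ≤ 5 / 8 := by
        rw [div_le_iff₀ (by positivity)]
        linarith
      have e3 : ((z.re - x0) ^ 2 - z.im ^ 2) / (4 * d) ^ 2 ≤ 1 / 100 := by
        rw [div_le_iff₀ (by positivity)]
        have h1 : (z.re - x0) ^ 2 ≤ (d / 20) ^ 2 := by
          rw [sq_le_sq, abs_of_pos (show 0 < d / 20 by positivity)]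
          linarith
        nlinarith [sq_nonneg z.im]
      rw [e1]
      linarith
    rw [div_eq_mul_inv]
    apply mul_le_mul_of_nonneg_left _ hM.le
    have e4 : ((4 : ℝ) ^ (2 * 2 ^ N))⁻¹ = Real.exp (-((2 * 2 ^ N : ℕ) * Real.log 4)) := by
      rw [Real.exp_neg, Real.exp_nat_mul, Real.exp_log (by norm_num)]
    rw [e4]
    apply Real.exp_le_exp.mpr
    push_cast
    have : t * (1 / 4) ≤ t * vbox x0 (4 * d) ((2 / 5) * d) z := mul_le_mul_of_nonneg_left hv ht0
    rw [ht] at this ⊢
    linarith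
  -- the chain
  have hfin := chain h r M hrpos hM.le N c 2
    (fun k hk w hw => (hdiff w (hball k hk w (Metric.ball_subset_closedBall hw)).1
      (hgeom2 k hk w hw) (hgeom k hk w (Metric.ball_subset_closedBall hw)).2.1
      (hgeom k hk w (Metric.ball_subset_closedBall hw)).2.2).differentiableWithinAt)
    (fun k hk w hw => (hcont w (hball k hk w hw).1 (hgeom k hk w hw).1 (hgeom k hk w hw).2.1.le
      (hgeom k hk w hw).2.2.le).mono (fun u hu => (hgeom k hk u hu).1))
    (fun k hk w hw => (hball k hk w hw).2)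
    hfirst
  have hwsball : ws ∈ Metric.closedBall (c + N * (r / 8 : ℝ) * I) (r / 8) := by
    rw [Metric.mem_closedBall, dist_eq_norm, hck]
    have e : ws - ((x0 : ℂ) + ((d / 5 + N * (r / 8) : ℝ) : ℂ) * I)
        = ((d - (d / 5 + N * (r / 8)) : ℝ) : ℂ) * I := by
      apply Complex.ext
      · simp [hx0]
      · simp [hd]
    rw [e, norm_mul, norm_I, mul_one, Complex.norm_real, Real.norm_eq_abs, abs_of_nonneg]
    · linarith
    · linarith
  have hws1 := hball N le_rfl ws (Metric.closedBall_subset_closedBall (by linarith) hwsball)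
  have hws2 := hfin ws (Metric.closedBall_subset_closedBall (by linarith) hwsball)
  apply hwsK.1.2
  refine ⟨hws1.1, hws2.trans_lt ?_⟩
  linarith

/-- the hyperbolic radius used for a map with constants `A`, chart radius `r0`, chart constant `Λ` -/
noncomputable def rho (A r0 Λ : ℝ) : ℝ := min (1 / 2) (r0 / (4 * Λ ^ 2 * A))

lemma rho_pos {A r0 Λ : ℝ} (hA : 0 < A) (hr0 : 0 < r0) (hΛ : 1 ≤ Λ) : 0 < rho A r0 Λ := by
  unfold rho
  have : 0 < Λ := by linarith
  positivity

/-- **Collar lemma, metric form**: `f` maps the closed upper half plane (near `[a-R,a+R]`) to a metric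
space, with the hyperbolic Lipschitz bound; `ζ` is a chart on the ball `ball p r0`. If `f` maps the
boundary interval to a tiny ball around `p` then it maps the collar to a small ball around `p`. -/
theorem collar_metric {E : Type*} [PseudoMetricSpace E] (A r0 Λ : ℝ) (hA : 0 < A) (hr0 : 0 < r0)
    (hΛ : 1 ≤ Λ) (f : ℂ → E) (ζ : E → V) (p : E) (hζp : ζ p = 0)
    (hζ1 : ∀ q ∈ Metric.ball p r0, ∀ q' ∈ Metric.ball p r0, ‖ζ q - ζ q'‖ ≤ Λ * dist q q')
    (hζ2 : ∀ q ∈ Metric.ball p r0, dist q p ≤ Λ * ‖ζ q‖)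
    (a R : ℝ) (hR : 0 < R)
    (hf : ∀ w : ℂ, 0 ≤ w.im → |w.re - a| ≤ R → w.im ≤ R →
      ContinuousWithinAt f {z : ℂ | 0 ≤ z.im} w)
    (hdiff : ∀ w : ℂ, 0 < w.im → |w.re - a| < R → w.im < R → f w ∈ Metric.ball p r0 →
      DifferentiableAt ℂ (fun z => ζ (f z)) w)
    (hLip : ∀ w : ℂ, 0 < w.im → |w.re - a| < R → w.im < R / 20 → ∀ w' : ℂ,
      ‖w' - w‖ ≤ w.im / 2 → dist (f w') (f w) * w.im ≤ 2 * A * ‖w' - w‖)
    (hbot : ∀ x : ℝ, |x - a| ≤ R → dist (f x) p ≤ r0 / Λ ^ 2 * eps (rho A r0 Λ)) :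
    ∀ w : ℂ, 0 ≤ w.im → w.im ≤ R / 40 → |w.re - a| ≤ R / 2 →
      dist (f w) p < r0 / 2 ∧ ‖ζ (f w)‖ < r0 / Λ / 2 := by
  have hΛ0 : 0 < Λ := by linarith
  have hΛ2 : 1 ≤ Λ ^ 2 := one_le_pow₀ hΛ
  set ρ := rho A r0 Λ with hρ
  have hρ0 : 0 < ρ := rho_pos hA hr0 hΛ
  have hρ2 : ρ ≤ 1 / 2 := min_le_left _ _
  have hρ3 : 2 * A * ρ ≤ r0 / (2 * Λ ^ 2) := by
    have h1 : ρ ≤ r0 / (4 * Λ ^ 2 * A) := min_le_right _ _
    calc 2 * A * ρ ≤ 2 * A * (r0 / (4 * Λ ^ 2 * A)) := by
          apply mul_le_mul_of_nonneg_left h1 (by positivity)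
      _ = r0 / (2 * Λ ^ 2) := by field_simp; ring
  have heps0 := eps_pos ρ
  have heps1 := eps_lt_one ρ
  set G : Set ℂ := {w | f w ∈ Metric.ball p r0} with hG
  have hsmall : r0 / Λ ^ 2 * eps ρ < r0 := by
    have h1 : r0 / Λ ^ 2 ≤ r0 := div_le_self hr0.le hΛ2
    have h2 : 0 < r0 / Λ ^ 2 := by positivity
    nlinarith
  have key := collar ρ hρ0 (by linarith) (fun z => ζ (f z)) G a R (r0 / Λ) hR (by positivity)
    (by
      intro w hw h1 h2 h3
      exact (hf w h1 h2 h3).preimage_mem_nhdsWithin (Metric.isOpen_ball.mem_nhds hw))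
    (by
      intro w hw h1 h2 h3
      have hc := hf w h1 h2 h3
      have hζc : ContinuousAt ζ (f w) := by
        have hnb : Metric.ball p r0 ∈ 𝓝 (f w) := Metric.isOpen_ball.mem_nhds hw
        rw [Metric.continuousAt_iff]
        intro e he
        rw [Metric.mem_nhds_iff] at hnb
        obtain ⟨δ, hδ, hδs⟩ := hnb
        refine ⟨min δ (e / (Λ + 1)), by positivity, ?_⟩
        intro q hq
        have hq1 : q ∈ Metric.ball p r0 := hδs (lt_of_lt_of_le hq (min_le_left _ _))
        have hq2 : dist q (f w) < e / (Λ + 1) := lt_of_lt_of_le hq (min_le_right _ _)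
        rw [dist_eq_norm]
        rw [lt_div_iff₀ (by positivity)] at hq2
        have := hζ1 q hq1 (f w) hw
        have hd := dist_nonneg (x := q) (y := f w)
        nlinarith
      exact hζc.comp_continuousWithinAt hc)
    (by
      intro w hw h1 h2 h3
      exact hdiff w h1 h2 h3 hw)
    (by
      intro w hw h1 h2 h3 h4 w' hw'
      have h5 := hLip w h1 h2 h3 w' (hw'.trans (by nlinarith))
      have h6 : dist (f w') (f w) ≤ 2 * A * ρ := by
        have : dist (f w') (f w) * w.im ≤ (2 * A * ρ) * w.im := by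
          refine h5.trans ?_
          have : 2 * A * ‖w' - w‖ ≤ 2 * A * (ρ * w.im) :=
            mul_le_mul_of_nonneg_left hw' (by positivity)
          linarith
        exact le_of_mul_le_mul_right this h1
      have h7 : dist (f w) p < r0 / 2 := by
        refine (hζ2 _ hw).trans_lt ?_
        have : Λ * ‖ζ (f w)‖ < Λ * (r0 / Λ / 2) := mul_lt_mul_of_pos_left h4 hΛ0
        refine this.trans_le ?_
        field_simp
        exact le_refl _
      have h8 : r0 / (2 * Λ ^ 2) ≤ r0 / 2 := by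
        apply div_le_div_of_nonneg_left hr0.le (by norm_num)
        linarith
      have h9 : f w' ∈ Metric.ball p r0 := by
        rw [Metric.mem_ball]
        have := dist_triangle (f w') (f w) p
        linarith
      refine ⟨h9, ?_⟩
      have h10 := hζ1 _ h9 _ hw
      have h11 : ‖ζ (f w')‖ ≤ ‖ζ (f w') - ζ (f w)‖ + ‖ζ (f w)‖ := by
        have := norm_add_le (ζ (f w') - ζ (f w)) (ζ (f w))
        simpa using this
      have h12 : Λ * dist (f w') (f w) ≤ Λ * (r0 / (2 * Λ ^ 2)) :=
        mul_le_mul_of_nonneg_left (h6.trans hρ3) hΛ0.le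
      have h13 : Λ * (r0 / (2 * Λ ^ 2)) = r0 / Λ / 2 := by
        field_simp
      have h14 : ‖ζ (f w)‖ < r0 / Λ / 2 := h4
      show ‖ζ (f w')‖ ≤ r0 / Λ
      linarith)
    (by
      intro x hx
      have h1 := hbot x hx
      have h2 : f x ∈ Metric.ball p r0 := by
        rw [Metric.mem_ball]; linarith
      refine ⟨h2, ?_⟩
      have h3 := hζ1 _ h2 p (Metric.mem_ball_self hr0)
      rw [hζp, sub_zero] at h3
      refine h3.trans ?_
      calc Λ * dist (f x) p ≤ Λ * (r0 / Λ ^ 2 * eps ρ) := mul_le_mul_of_nonneg_left h1 hΛ0.le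
        _ = r0 / Λ * eps ρ := by field_simp)
  intro w h1 h2 h3
  obtain ⟨h4, h5⟩ := key w h1 h2 h3
  refine ⟨?_, h5⟩
  refine (hζ2 _ h4).trans_lt ?_
  have : Λ * ‖ζ (f w)‖ < Λ * (r0 / Λ / 2) := mul_lt_mul_of_pos_left h5 hΛ0
  refine this.trans_le ?_
  field_simp
  exact le_refl _

end Crest.Agent.R269.Col_67
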