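import Mathlib

/-!
# R269 (S0411), Parts 6 and 11 of Blueprint_646: consequences of the path theorem (helper993)

`PD` : abstract interface = exactly what Parts 1-5 have to deliver (type of discs of class `A`, the
functionals `k`, `T`, `|f'(0)|²`, `avg u`, their Levi sums along the frames `V_i = z b_i` of (3.3), the
growth bounds (4.5), Schwarz (1.1), and the path theorem (5.2)).

The path theorem is stated for finite combinations `θ(s) + ∑ c_j(s) Φ_j(f)` of "good" functionals, and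
in the LOCALISED form: the rate inequality is only required on `Reg η`, where `η` depends only on
`f₀, t, ε, a` and on the growth constant of `Ψ` (this is what (11.2) needs with smooth `b_τ`).

* `k_ge`     : (6.1)  `k(f) ≥ -C₁` for all discs;
* `T_main`   : (6.2)  in the general form (any field `a`, no normalisation of the determinant);
* `kdel_ge`  : (11.2) `k_δ(f) ≥ -C₃` for all discs;
* `T_del`    : (11.3).
-/

set_option autoImplicit false

open Set Filter Topology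

noncomputable section

namespace Crest.Agent.R269.Cons_993

/-- what Parts 1-5 deliver -/
structure PD where
  /-- points of the variety -/
  X : Type
  /-- discs of class `A` -/
  Disc : Type
  /-- smooth positive fields (Hermitian metrics on the cotangent space) -/
  Fld : Type
  n : ℕ
  hn : 0 < n
  /-- `f ↦ f(0)` -/
  ctr : Disc → X
  /-- constant discs -/
  cst : X → Disc
  ctr_cst : ∀ x, ctr (cst x) = x
  /-- continuous functions on `X` -/
  Ct : (X → ℝ) → Prop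
  ct_const : ∀ c : ℝ, Ct fun _ => c
  ct_add : ∀ {u v : X → ℝ}, Ct u → Ct v → Ct fun x => u x + v x
  ct_smul : ∀ {u : X → ℝ} (c : ℝ), Ct u → Ct fun x => c * u x
  ct_bdd : ∀ {u : X → ℝ}, Ct u → ∃ C, ∀ x, |u x| ≤ C
  /-- smooth functions on `X` -/
  Sm : (X → ℝ) → Prop
  ct_sm : ∀ {u : X → ℝ}, Sm u → Ct u
  /-- average over the boundary circle -/
  avg : (X → ℝ) → Disc → ℝ
  avg_const : ∀ (c : ℝ) f, avg (fun _ => c) f = c
  avg_add : ∀ {u v : X → ℝ}, Ct u → Ct v → ∀ f, avg (fun x => u x + v x) f = avg u f + avg v f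
  avg_smul : ∀ {u : X → ℝ} (c : ℝ), Ct u → ∀ f, avg (fun x => c * u x) f = c * avg u f
  avg_mono : ∀ {u v : X → ℝ}, Ct u → Ct v → (∀ x, u x ≤ v x) → ∀ f, avg u f ≤ avg v f
  avg_cst : ∀ {u : X → ℝ}, Ct u → ∀ x, avg u (cst x) = u x
  /-- the functionals of (0.4) and `|f'(0)|²` -/
  k : Disc → ℝ
  T : Disc → ℝ
  spd : Disc → ℝ
  k_cst : ∀ x, k (cst x) = 0
  T_cst : ∀ x, T (cst x) = 0
  spd_nonneg : ∀ f, 0 ≤ spd f
  T_nonneg : ∀ f, 0 ≤ T f
  /-- (1.1) -/
  A : ℝ
  schwarz : ∀ f, spd f ≤ A ^ 2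
  /-- `log det_g a`, `tr(a α)`, `tr(a ω)`, `tr(a L u)` -/
  ldet : Fld → X → ℝ
  trA : Fld → X → ℝ
  trO : Fld → X → ℝ
  trL : Fld → (X → ℝ) → X → ℝ
  ct_ldet : ∀ a, Ct (ldet a)
  ct_trA : ∀ a, Ct (trA a)
  ct_trO : ∀ a, Ct (trO a)
  ct_trL : ∀ a {u}, Sm u → Ct (trL a u)
  /-- the field `g⁻¹` -/
  ginv : Fld
  ldet_ginv : ∀ x, ldet ginv x = 0
  /-- `Good a Φ LΦ` : `Φ` is continuous for uniform convergence (inside the classes `N(K, η)`), and
  `LΦ f = ∑_i Levi_{V_i} Φ (f)` for the frames `V_i = z b_i` attached to the field `a` by (3.3) -/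
  Good : Fld → (Disc → ℝ) → (Disc → ℝ) → Prop
  good_k : ∀ a, Good a k (avg (trA a))
  good_T : ∀ a, Good a T (avg (trO a))
  good_avg : ∀ a {u}, Sm u → Good a (avg u) (avg (trL a u))
  Lspd : Fld → Disc → ℝ
  good_spd : ∀ a, Good a spd (Lspd a)
  /-- (3.3) -/
  Lspd_ge : ∀ a f, n * Real.exp ((avg (ldet a) f - k f) / n) ≤ Lspd a f
  /-- `f ∈ N(K, η)` -/
  Reg : ℝ → Disc → Prop
  /-- growth: `|Φ f| ≤ C (1 + log (1/η))` on `N(K, η)` -/
  grow_k : ∃ C, ∀ η f, 0 < η → η ≤ 1 → Reg η f → |k f| ≤ C * (1 + Real.log (1 / η))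
  grow_T : ∃ C, ∀ η f, 0 < η → η ≤ 1 → Reg η f → |T f| ≤ C * (1 + Real.log (1 / η))
  /-- THE PATH THEOREM (5.2), localised -/
  path : ∀ (a : Fld) (t : ℝ), 0 < t → ∀ (Cb : ℝ) (f₀ : Disc) (ε : ℝ), 0 < ε →
    ∃ ηs, 0 < ηs ∧ ηs ≤ 1 ∧ ∀ (m : ℕ) (Φ LΦ : Fin m → Disc → ℝ), (∀ j, Good a (Φ j) (LΦ j)) →
      ∀ (c : Fin m → ℝ → ℝ) (θ : ℝ → ℝ), (∀ j, ContDiff ℝ 1 (c j)) → ContDiff ℝ 1 θ →
      (∀ s ∈ Icc 0 t, ∀ η f, 0 < η → η ≤ 1 → Reg η f →
        |θ s + ∑ j, c j s * Φ j f| ≤ Cb * (1 + Real.log (1 / η))) →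
      (∀ s ∈ Icc 0 t, ∀ f, ctr f = ctr f₀ → Reg ηs f →
        0 ≤ deriv θ s + ∑ j, (deriv (c j) s * Φ j f + c j s * LΦ j f)) →
      ∃ f, ctr f = ctr f₀ ∧
        θ 0 + (∑ j, c j 0 * Φ j f₀) - ε ≤ θ t + ∑ j, c j t * Φ j f

namespace PD

variable (P : PD)

theorem avg_le {u : P.X → ℝ} (hu : P.Ct u) {C : ℝ} (h : ∀ x, u x ≤ C) (f : P.Disc) :
    P.avg u f ≤ C := by
  have := P.avg_mono hu (P.ct_const C) h f
  rwa [P.avg_const] at this

theorem le_avg {u : P.X → ℝ} (hu : P.Ct u) {C : ℝ} (h : ∀ x, C ≤ u x) (f : P.Disc) :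
    C ≤ P.avg u f := by
  have := P.avg_mono (P.ct_const C) hu h f
  rwa [P.avg_const] at this

theorem abs_avg_le {u : P.X → ℝ} (hu : P.Ct u) {C : ℝ} (h : ∀ x, |u x| ≤ C) (f : P.Disc) :
    |P.avg u f| ≤ C :=
  abs_le.2 ⟨P.le_avg hu (fun x => (abs_le.1 (h x)).1) f, P.avg_le hu (fun x => (abs_le.1 (h x)).2) f⟩

theorem npos : (0 : ℝ) < P.n := by exact_mod_cast P.hn

/-- the logarithmic factor -/
theorem one_le_lf {η : ℝ} (h0 : 0 < η) (h1 : η ≤ 1) : 1 ≤ 1 + Real.log (1 / η) := by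
  have : 0 ≤ Real.log (1 / η) := Real.log_nonneg ((one_le_div h0).2 h1)
  linarith

theorem exp_ge (q y : ℝ) (hq : 0 < q) : q * (1 - Real.log q - y) ≤ Real.exp (-y) := by
  have h1 := Real.add_one_le_exp (-y - Real.log q)
  have h2 : Real.exp (-y) = q * Real.exp (-y - Real.log q) := by
    rw [Real.exp_sub, Real.exp_log hq]
    field_simp
  rw [h2]
  exact mul_le_mul_of_nonneg_left (by linarith) hq.le

/-- (6.1): `k ≥ -C₁` -/
theorem k_ge : ∃ C₁, 0 ≤ C₁ ∧ ∀ f, -C₁ ≤ P.k f := by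
  obtain ⟨C, hC⟩ := P.ct_bdd (P.ct_trA P.ginv)
  have hC0 : 0 ≤ max C 0 := le_max_right _ _
  have hC' : ∀ x, P.trA P.ginv x ≤ max C 0 := fun x =>
    (le_abs_self _).trans ((hC x).trans (le_max_left _ _))
  obtain ⟨K, hK⟩ := P.grow_k
  refine ⟨P.A ^ 2 + max C 0 + 1, by positivity, fun f₀ => ?_⟩
  obtain ⟨ηs, -, -, hp⟩ := P.path P.ginv 1 one_pos (P.A ^ 2 + |K| + max C 0) f₀ 1 one_pos
  have hgood : ∀ j : Fin 2, P.Good P.ginv ((![P.spd, P.k] : Fin 2 → P.Disc → ℝ) j)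
      ((![P.Lspd P.ginv, P.avg (P.trA P.ginv)] : Fin 2 → P.Disc → ℝ) j) := by
    intro j
    fin_cases j
    · exact P.good_spd _
    · exact P.good_k _
  have key := hp 2 ![P.spd, P.k] ![P.Lspd P.ginv, P.avg (P.trA P.ginv)] hgood
    ![fun _ => 1, fun s => s - 1] (fun s => max C 0 * s) ?_ ?_ ?_ ?_
  · obtain ⟨f, -, hf⟩ := key
    simp only [Fin.sum_univ_two, Matrix.cons_val_zero, Matrix.cons_val_one] at hf
    have h1 := P.schwarz f
    have h2 := P.spd_nonneg f₀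
    nlinarith
  · intro j
    fin_cases j
    · exact contDiff_const
    · exact contDiff_id.sub contDiff_const
  · exact contDiff_const.mul contDiff_id
  · intro s hs η f h0 h1 hr
    simp only [Fin.sum_univ_two, Matrix.cons_val_zero, Matrix.cons_val_one]
    have hl := one_le_lf h0 h1
    have hk := hK η f h0 h1 hr
    have hk' : |P.k f| ≤ |K| * (1 + Real.log (1 / η)) :=
      hk.trans (mul_le_mul_of_nonneg_right (le_abs_self K) (by linarith))
    have h3 : |(s - 1) * P.k f| ≤ |K| * (1 + Real.log (1 / η)) := by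
      rw [abs_mul]
      have : |s - 1| ≤ 1 := by
        rw [abs_le]; constructor <;> linarith [hs.1, hs.2]
      calc |s - 1| * |P.k f| ≤ 1 * |P.k f| :=
            mul_le_mul_of_nonneg_right this (abs_nonneg _)
        _ ≤ _ := by rw [one_mul]; exact hk'
    have h4 : |1 * P.spd f| ≤ P.A ^ 2 * (1 + Real.log (1 / η)) := by
      rw [one_mul, abs_of_nonneg (P.spd_nonneg f)]
      exact (P.schwarz f).trans (le_mul_of_one_le_right (sq_nonneg _) hl)
    have h5 : |max C 0 * s| ≤ max C 0 * (1 + Real.log (1 / η)) := by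
      rw [abs_mul, abs_of_nonneg hC0, abs_of_nonneg hs.1]
      exact mul_le_mul_of_nonneg_left (hs.2.trans hl) hC0
    calc |max C 0 * s + (1 * P.spd f + (s - 1) * P.k f)|
        ≤ |max C 0 * s| + (|1 * P.spd f| + |(s - 1) * P.k f|) :=
          (abs_add_le _ _).trans (add_le_add_right (abs_add_le _ _) _)
      _ ≤ _ := by nlinarith
  · intro s hs f _ _
    simp only [Fin.sum_univ_two, Matrix.cons_val_zero, Matrix.cons_val_one]
    have d1 : deriv (fun s : ℝ => max C 0 * s) s = max C 0 := by simp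
    have d2 : deriv (fun _ : ℝ => (1 : ℝ)) s = 0 := deriv_const _ _
    have d3 : deriv (fun s : ℝ => s - 1) s = 1 := by simp
    rw [d1, d2, d3]
    have h1 := P.Lspd_ge P.ginv f
    have h2 : P.avg (P.ldet P.ginv) f = 0 := by
      have : P.ldet P.ginv = fun _ => 0 := funext P.ldet_ginv
      rw [this, P.avg_const]
    have h3 : P.avg (P.trA P.ginv) f ≤ max C 0 := P.avg_le (P.ct_trA _) hC' f
    have hn := P.npos
    have h4 := exp_ge 1 (P.k f / P.n) one_pos
    rw [Real.log_one] at h4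
    have h5 : (P.n : ℝ) * Real.exp (-(P.k f / P.n)) ≤ P.Lspd P.ginv f := by
      refine le_trans (le_of_eq ?_) h1
      rw [h2]; congr 2; ring
    have h6 : (P.n : ℝ) - P.k f ≤ P.Lspd P.ginv f := by
      refine le_trans ?_ h5
      have := mul_le_mul_of_nonneg_left h4 hn.le
      refine le_trans (le_of_eq ?_) this
      field_simp
      ring
    have h7 : (s - 1) * P.avg (P.trA P.ginv) f ≥ (s - 1) * max C 0 :=
      mul_le_mul_of_nonpos_left h3 (by linarith [hs.2])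
    have h8 : (s - 1) * max C 0 ≥ - max C 0 := by nlinarith [hs.1]
    linarith

/-! ### (6.2) -/

/-- the primitive of `κλ(1 - log(κλ))`, `κ = κ₀ e^{-λs}` -/
def prim (κ₀ lam s : ℝ) : ℝ :=
  -(κ₀ * Real.exp (-(lam * s)) * (2 - Real.log (κ₀ * lam) + lam * s))

theorem hasDerivAt_exp (lam s : ℝ) :
    HasDerivAt (fun s : ℝ => Real.exp (-(lam * s))) (-(lam * Real.exp (-(lam * s)))) s := by
  have h1 : HasDerivAt (fun s : ℝ => -(lam * s)) (-(lam * 1)) s :=
    ((hasDerivAt_id s).const_mul lam).neg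
  have h2 := h1.exp
  refine h2.congr_deriv ?_
  ring

theorem hasDerivAt_prim (κ₀ lam s : ℝ) (h : 0 < κ₀ * lam) :
    HasDerivAt (prim κ₀ lam)
      (κ₀ * Real.exp (-(lam * s)) * lam *
        (1 - Real.log (κ₀ * Real.exp (-(lam * s)) * lam))) s := by
  have h1 := hasDerivAt_exp lam s
  have h2 : HasDerivAt (fun s : ℝ => 2 - Real.log (κ₀ * lam) + lam * s) (lam * 1) s :=
    ((hasDerivAt_id s).const_mul lam).const_add _
  have h3 := ((h1.const_mul κ₀).mul h2).neg
  have h4 : Real.log (κ₀ * Real.exp (-(lam * s)) * lam) = Real.log (κ₀ * lam) - lam * s := by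
    have : κ₀ * Real.exp (-(lam * s)) * lam = (κ₀ * lam) * Real.exp (-(lam * s)) := by ring
    rw [this, Real.log_mul h.ne' (Real.exp_ne_zero _), Real.log_exp]
    ring
  rw [h4]
  refine h3.congr_deriv ?_
  ring

/-- (6.2), general field `a`: finite time estimate -/
theorem T_fin {lam κ₀ c₀ e : ℝ} (hlam : 0 < lam) (hκ : 0 < κ₀) (he : 0 ≤ e)
    (a : P.Fld) {u : P.X → ℝ} (hu : P.Sm u)
    (h : ∀ x, P.trA a x + e * P.trO a x + P.trL a u x ≤
      P.n * c₀ + lam * u x + lam * P.ldet a x) {C₁ : ℝ} (hC₁ : ∀ f, -C₁ ≤ P.k f) {Mu : ℝ}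
    (hMu : ∀ x, |u x| ≤ Mu) (x : P.X) {t : ℝ} (ht : 0 < t) {ε : ℝ} (hε : 0 < ε) :
    -(κ₀ * u x) ≤ P.A ^ 2 + κ₀ * Real.exp (-(lam * t)) * (C₁ + Mu) +
      (P.n * c₀ * (κ₀ / lam) * (1 - Real.exp (-(lam * t))) -
        P.n * (prim κ₀ lam t - prim κ₀ lam 0)) + ε := by
  have hq : 0 < κ₀ * lam := mul_pos hκ hlam
  have hn := P.npos
  have hMu0 : 0 ≤ Mu := (abs_nonneg _).trans (hMu x)
  have hcu := P.ct_sm hu
  obtain ⟨K1, hK1⟩ := P.grow_k
  obtain ⟨K2, hK2⟩ := P.grow_T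
  set ke : ℝ → ℝ := fun s => κ₀ * Real.exp (-(lam * s)) with hke
  set th : ℝ → ℝ := fun s => P.n * c₀ * (κ₀ / lam) * (1 - Real.exp (-(lam * s))) -
    P.n * (prim κ₀ lam s - prim κ₀ lam 0) with hth
  have dke : ∀ s, HasDerivAt ke (-(lam * ke s)) s := fun s => by
    refine ((hasDerivAt_exp lam s).const_mul κ₀).congr_deriv ?_
    simp only [hke]; ring
  have dth : ∀ s, HasDerivAt th (P.n * c₀ * ke s -
      P.n * (ke s * lam * (1 - Real.log (ke s * lam)))) s := fun s => by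
    have h1 := ((hasDerivAt_exp lam s).const_sub 1).const_mul (P.n * c₀ * (κ₀ / lam))
    have h2 := ((hasDerivAt_prim κ₀ lam s hq).sub_const (prim κ₀ lam 0)).const_mul (P.n : ℝ)
    refine (h1.sub h2).congr_deriv ?_
    simp only [hke]
    field_simp
  have cke : ContDiff ℝ 1 ke := by
    simp only [hke]
    fun_prop
  have cth : ContDiff ℝ 1 th := by
    simp only [hth, prim]
    fun_prop
  have kepos : ∀ s, 0 < ke s := fun s => mul_pos hκ (Real.exp_pos _)
  have kele : ∀ s ∈ Icc 0 t, ke s ≤ κ₀ := fun s hs => by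
    have : Real.exp (-(lam * s)) ≤ 1 := by
      rw [Real.exp_le_one_iff]
      nlinarith [hs.1]
    simp only [hke]
    nlinarith
  obtain ⟨Ct, hCt⟩ := (isCompact_Icc (a := (0 : ℝ)) (b := t)).exists_bound_of_continuousOn
    (f := th) cth.continuous.continuousOn
  obtain ⟨ηs, -, -, hp⟩ := P.path a t ht
    (|Ct| + (P.A ^ 2 + (κ₀ * |K1| + (κ₀ * e * |K2| + κ₀ * Mu)))) (P.cst x) ε hε
  have key := hp 4 ![P.spd, P.k, P.T, P.avg u]
    ![P.Lspd a, P.avg (P.trA a), P.avg (P.trO a), P.avg (P.trL a u)] ?_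
    ![fun _ => 1, fun s => -ke s, fun s => -(e * ke s), fun s => -ke s] th ?_ cth ?_ ?_
  · obtain ⟨f, -, hf⟩ := key
    simp only [Fin.sum_univ_four, Matrix.cons_val_zero, Matrix.cons_val_one, Matrix.cons_val] at hf
    rw [P.k_cst, P.T_cst, P.avg_cst hcu] at hf
    have e1 : th 0 = 0 := by simp [hth]
    have e2 : ke 0 = κ₀ := by simp [hke]
    rw [e1, e2] at hf
    have h1 := P.schwarz f
    have h2 := P.spd_nonneg (P.cst x)
    have h3 : -(ke t * P.k f) ≤ ke t * C₁ := by nlinarith [hC₁ f, kepos t]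
    have h4 : 0 ≤ e * ke t * P.T f := mul_nonneg (mul_nonneg he (kepos t).le) (P.T_nonneg f)
    have h5 : -(ke t * P.avg u f) ≤ ke t * Mu := by
      have := (abs_le.1 (P.abs_avg_le hcu hMu f)).1
      nlinarith [kepos t]
    have h6 : th t = P.n * c₀ * (κ₀ / lam) * (1 - Real.exp (-(lam * t))) -
        P.n * (prim κ₀ lam t - prim κ₀ lam 0) := rfl
    have h7 : κ₀ * Real.exp (-(lam * t)) = ke t := rfl
    rw [h7, ← h6]
    nlinarith
  · intro j
    fin_cases j
    · exact P.good_spd a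
    · exact P.good_k a
    · exact P.good_T a
    · exact P.good_avg a hu
  · intro j
    fin_cases j
    · exact contDiff_const
    · exact cke.neg
    · exact (contDiff_const.mul cke).neg
    · exact cke.neg
  · intro s hs η f h0 h1 hr
    simp only [Fin.sum_univ_four, Matrix.cons_val_zero, Matrix.cons_val_one, Matrix.cons_val]
    have hl := one_le_lf h0 h1
    set l := 1 + Real.log (1 / η) with hl'
    have hl0 : 0 ≤ l := by linarith
    have b0 : |th s| ≤ |Ct| * l := by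
      have := hCt s hs
      rw [Real.norm_eq_abs] at this
      exact (this.trans (le_abs_self _)).trans (le_mul_of_one_le_right (abs_nonneg _) hl)
    have b1 : |1 * P.spd f| ≤ P.A ^ 2 * l := by
      rw [one_mul, abs_of_nonneg (P.spd_nonneg f)]
      exact (P.schwarz f).trans (le_mul_of_one_le_right (sq_nonneg _) hl)
    have b2 : |-ke s * P.k f| ≤ κ₀ * |K1| * l := by
      rw [abs_mul, abs_neg, abs_of_pos (kepos s)]
      have hk : |P.k f| ≤ |K1| * l :=
        (hK1 η f h0 h1 hr).trans (mul_le_mul_of_nonneg_right (le_abs_self _) hl0)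
      calc ke s * |P.k f| ≤ κ₀ * (|K1| * l) := mul_le_mul (kele s hs) hk (abs_nonneg _) hκ.le
        _ = κ₀ * |K1| * l := by ring
    have b3 : |-(e * ke s) * P.T f| ≤ κ₀ * e * |K2| * l := by
      rw [abs_mul, abs_neg, abs_of_nonneg (mul_nonneg he (kepos s).le)]
      have hk : |P.T f| ≤ |K2| * l :=
        (hK2 η f h0 h1 hr).trans (mul_le_mul_of_nonneg_right (le_abs_self _) hl0)
      calc e * ke s * |P.T f| ≤ (e * κ₀) * (|K2| * l) :=
            mul_le_mul (mul_le_mul_of_nonneg_left (kele s hs) he) hk (abs_nonneg _) (by positivity)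
        _ = κ₀ * e * |K2| * l := by ring
    have b4 : |-ke s * P.avg u f| ≤ κ₀ * Mu * l := by
      rw [abs_mul, abs_neg, abs_of_pos (kepos s)]
      refine (mul_le_mul (kele s hs) (P.abs_avg_le hcu hMu f) (abs_nonneg _) hκ.le).trans ?_
      exact le_mul_of_one_le_right (by positivity) hl
    have t1 := abs_add_le (th s) (1 * P.spd f + -ke s * P.k f + -(e * ke s) * P.T f +
      -ke s * P.avg u f)
    have t2 := abs_add_le (1 * P.spd f + -ke s * P.k f + -(e * ke s) * P.T f) (-ke s * P.avg u f)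
    have t3 := abs_add_le (1 * P.spd f + -ke s * P.k f) (-(e * ke s) * P.T f)
    have t4 := abs_add_le (1 * P.spd f) (-ke s * P.k f)
    nlinarith
  · intro s hs f _ _
    simp only [Fin.sum_univ_four, Matrix.cons_val_zero, Matrix.cons_val_one, Matrix.cons_val]
    have d2 : deriv (fun _ : ℝ => (1 : ℝ)) s = 0 := deriv_const _ _
    have d3 : deriv (fun s : ℝ => -ke s) s = lam * ke s := by
      refine ((dke s).neg.congr_deriv ?_).deriv
      ring
    have d4 : deriv (fun s : ℝ => -(e * ke s)) s = lam * (e * ke s) := by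
      refine (((dke s).const_mul e).neg.congr_deriv ?_).deriv
      ring
    rw [(dth s).deriv, d2, d3, d4]
    have h1 := P.Lspd_ge a f
    have h2 : P.avg (P.trA a) f + e * P.avg (P.trO a) f + P.avg (P.trL a u) f ≤
        P.n * c₀ + lam * P.avg u f + lam * P.avg (P.ldet a) f := by
      have cA := P.ct_trA a
      have cO := P.ct_trO a
      have cL := P.ct_trL a hu
      have cd := P.ct_ldet a
      have e1 : P.avg (fun x => P.trA a x + e * P.trO a x + P.trL a u x) f =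
          P.avg (P.trA a) f + e * P.avg (P.trO a) f + P.avg (P.trL a u) f := by
        rw [P.avg_add (P.ct_add cA (P.ct_smul e cO)) cL, P.avg_add cA (P.ct_smul e cO),
          P.avg_smul e cO]
      have e2 : P.avg (fun x => P.n * c₀ + lam * u x + lam * P.ldet a x) f =
          P.n * c₀ + lam * P.avg u f + lam * P.avg (P.ldet a) f := by
        rw [P.avg_add (P.ct_add (P.ct_const _) (P.ct_smul lam hcu)) (P.ct_smul lam cd),
          P.avg_add (P.ct_const _) (P.ct_smul lam hcu), P.avg_const, P.avg_smul lam hcu,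
          P.avg_smul lam cd]
      rw [← e1, ← e2]
      exact P.avg_mono (P.ct_add (P.ct_add cA (P.ct_smul e cO)) cL)
        (P.ct_add (P.ct_add (P.ct_const _) (P.ct_smul lam hcu)) (P.ct_smul lam cd)) h f
    have h4 := exp_ge (ke s * lam) ((P.k f - P.avg (P.ldet a) f) / P.n)
      (mul_pos (kepos s) hlam)
    have h5 : (P.n : ℝ) * Real.exp (-((P.k f - P.avg (P.ldet a) f) / P.n)) ≤ P.Lspd a f := by
      refine le_trans (le_of_eq ?_) h1
      congr 2; ring
    have h6 : P.n * (ke s * lam * (1 - Real.log (ke s * lam))) -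
        ke s * lam * (P.k f - P.avg (P.ldet a) f) ≤ P.Lspd a f := by
      refine le_trans ?_ h5
      have := mul_le_mul_of_nonneg_left h4 hn.le
      refine le_trans (le_of_eq ?_) this
      field_simp
    have h7 := mul_le_mul_of_nonneg_left h2 (kepos s).le
    have h8 : 0 ≤ lam * (e * ke s) * P.T f :=
      mul_nonneg (mul_nonneg hlam.le (mul_nonneg he (kepos s).le)) (P.T_nonneg f)
    nlinarith

theorem tendsto_exp_neg {lam : ℝ} (hlam : 0 < lam) :
    Tendsto (fun t : ℝ => Real.exp (-(lam * t))) atTop (𝓝 0) :=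
  Real.tendsto_exp_neg_atTop_nhds_zero.comp (tendsto_id.const_mul_atTop hlam)

theorem tendsto_prim {κ₀ lam : ℝ} (hlam : 0 < lam) :
    Tendsto (prim κ₀ lam) atTop (𝓝 0) := by
  have h1 := tendsto_exp_neg hlam
  have h2 : Tendsto (fun t : ℝ => (lam * t) * Real.exp (-(lam * t))) atTop (𝓝 0) := by
    have := (Real.tendsto_pow_mul_exp_neg_atTop_nhds_zero 1).comp
      (tendsto_id.const_mul_atTop hlam)
    refine this.congr fun t => ?_
    simp
  have h3 : Tendsto (fun t : ℝ => -(κ₀ * ((2 - Real.log (κ₀ * lam)) * Real.exp (-(lam * t)) +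
      (lam * t) * Real.exp (-(lam * t))))) atTop
      (𝓝 (-(κ₀ * ((2 - Real.log (κ₀ * lam)) * 0 + 0)))) :=
    (((h1.const_mul _).add h2).const_mul κ₀).neg
  simp only [mul_zero, add_zero, neg_zero] at h3
  refine h3.congr fun t => ?_
  unfold prim
  ring

/-- (6.2), general field `a`, no normalisation: the lower bound of `u` -/
theorem T_gen {lam κ₀ c₀ e : ℝ} (hlam : 0 < lam) (hκ : 0 < κ₀) (he : 0 ≤ e)
    (a : P.Fld) {u : P.X → ℝ} (hu : P.Sm u)
    (h : ∀ x, P.trA a x + e * P.trO a x + P.trL a u x ≤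
      P.n * c₀ + lam * u x + lam * P.ldet a x) (x : P.X) :
    -(P.A ^ 2 / κ₀) + P.n * (2 - Real.log (κ₀ * lam) - c₀ / lam) ≤ u x := by
  obtain ⟨C₁, -, hC₁⟩ := P.k_ge
  obtain ⟨Mu, hMu⟩ := P.ct_bdd (P.ct_sm hu)
  have hq : 0 < κ₀ * lam := mul_pos hκ hlam
  have h1 : ∀ t : ℝ, 0 < t → -(κ₀ * u x) ≤ P.A ^ 2 + κ₀ * Real.exp (-(lam * t)) * (C₁ + Mu) +
      (P.n * c₀ * (κ₀ / lam) * (1 - Real.exp (-(lam * t))) -
        P.n * (prim κ₀ lam t - prim κ₀ lam 0)) := fun t ht => by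
    refine le_of_forall_pos_le_add fun ε hε => ?_
    exact P.T_fin hlam hκ he a hu h hC₁ hMu x ht hε
  have hlim : Tendsto (fun t : ℝ => P.A ^ 2 + κ₀ * Real.exp (-(lam * t)) * (C₁ + Mu) +
      (P.n * c₀ * (κ₀ / lam) * (1 - Real.exp (-(lam * t))) -
        P.n * (prim κ₀ lam t - prim κ₀ lam 0))) atTop
      (𝓝 (P.A ^ 2 + κ₀ * 0 * (C₁ + Mu) +
      (P.n * c₀ * (κ₀ / lam) * (1 - 0) - P.n * (0 - prim κ₀ lam 0)))) := by
    have e1 := tendsto_exp_neg hlam
    have e2 := tendsto_prim (κ₀ := κ₀) hlam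
    exact (tendsto_const_nhds.add ((e1.const_mul κ₀).mul_const _)).add
      (((tendsto_const_nhds.sub e1).const_mul _).sub ((e2.sub_const _).const_mul _))
  have h2 := ge_of_tendsto hlim (eventually_atTop.2 ⟨1, fun t ht => h1 t (by linarith)⟩)
  have h3 : prim κ₀ lam 0 = -(κ₀ * (2 - Real.log (κ₀ * lam))) := by
    simp [prim]
  rw [h3] at h2
  have h4 : -(κ₀ * u x) ≤ κ₀ * (P.A ^ 2 / κ₀ - P.n * (2 - Real.log (κ₀ * lam) - c₀ / lam)) := by
    refine h2.trans (le_of_eq ?_)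
    field_simp
    ring
  have h5 : κ₀ * (-u x) ≤ κ₀ * (P.A ^ 2 / κ₀ - P.n * (2 - Real.log (κ₀ * lam) - c₀ / lam)) := by
    linarith
  have h6 := le_of_mul_le_mul_left h5 hκ
  linarith

/-- the rate `λ = n / (e A²)` -/
def lam : ℝ := P.n / (Real.exp 1 * (P.A ^ 2 + 1))

theorem lam_pos : 0 < P.lam :=
  div_pos P.npos (mul_pos (Real.exp_pos _) (by positivity))

/-- (6.2): `u ≥ 0` (even `u ≥ n` if `c₀ = λ`) for every field `a`, with
`λ = n / (e (A² + 1))` and any `c₀ ≤ 2λ` -/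
theorem T_main {c₀ e : ℝ} (hc : c₀ ≤ 2 * P.lam) (he : 0 ≤ e) (a : P.Fld) {u : P.X → ℝ}
    (hu : P.Sm u)
    (h : ∀ x, P.trA a x + e * P.trO a x + P.trL a u x ≤
      P.n * c₀ + P.lam * u x + P.lam * P.ldet a x) (x : P.X) : 0 ≤ u x := by
  have hn := P.npos
  have hA : 0 < P.A ^ 2 + 1 := by positivity
  have hκ : 0 < (P.A ^ 2 + 1) / P.n := div_pos hA hn
  have h1 := P.T_gen P.lam_pos hκ he a hu h x
  have e1 : (P.A ^ 2 + 1) / P.n * P.lam = Real.exp (-1) := by
    unfold lam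
    rw [Real.exp_neg]
    field_simp
  rw [e1, Real.log_exp] at h1
  have h2 : c₀ / P.lam ≤ 2 := (div_le_iff₀ P.lam_pos).2 hc
  have h3 : P.A ^ 2 / ((P.A ^ 2 + 1) / P.n) ≤ P.n := by
    rw [div_div_eq_mul_div, div_le_iff₀ hA]
    nlinarith
  have h4 : (P.n : ℝ) * 1 ≤ P.n * (2 - -1 - c₀ / P.lam) :=
    mul_le_mul_of_nonneg_left (by linarith) hn.le
  linarith

/-! ### Part 11 -/

/-- `k_δ = (1 + δ m₁) k - δ T` -/
def kd (m₁ δ : ℝ) (f : P.Disc) : ℝ := (1 + δ * m₁) * P.k f - δ * P.T f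

/-- the growth of `k_δ` -/
theorem grow_kd (m₁ δ : ℝ) : ∃ C, 0 ≤ C ∧ ∀ η f, 0 < η → η ≤ 1 → P.Reg η f →
    |P.kd m₁ δ f| ≤ C * (1 + Real.log (1 / η)) := by
  obtain ⟨K1, hK1⟩ := P.grow_k
  obtain ⟨K2, hK2⟩ := P.grow_T
  refine ⟨|1 + δ * m₁| * |K1| + |δ| * |K2|, by positivity, fun η f h0 h1 hr => ?_⟩
  have hl := one_le_lf h0 h1
  set l := 1 + Real.log (1 / η) with hl'
  have hl0 : 0 ≤ l := by linarith
  have hk : |P.k f| ≤ |K1| * l :=
    (hK1 η f h0 h1 hr).trans (mul_le_mul_of_nonneg_right (le_abs_self _) hl0)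
  have hT : |P.T f| ≤ |K2| * l :=
    (hK2 η f h0 h1 hr).trans (mul_le_mul_of_nonneg_right (le_abs_self _) hl0)
  unfold kd
  have t1 := abs_sub ((1 + δ * m₁) * P.k f) (δ * P.T f)
  rw [abs_mul, abs_mul] at t1
  have t2 := mul_le_mul_of_nonneg_left hk (abs_nonneg (1 + δ * m₁))
  have t3 := mul_le_mul_of_nonneg_left hT (abs_nonneg δ)
  nlinarith

/-- (11.2): `k_δ ≥ -C₃`.  `hΘ`: for every regularity `η` there is a good functional `Θ` bounded by
`CΘ` with `∑ Levi Θ ≥ c exp(-k_δ/n)` on `Reg η` (`CΘ`, `c` independent of `η`). -/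
theorem kdel_ge (m₁ δ : ℝ) {CΘ c : ℝ} (hc : 0 < c)
    (hΘ : ∀ η, 0 < η → η ≤ 1 → ∃ Θ LΘ : P.Disc → ℝ, P.Good P.ginv Θ LΘ ∧ (∀ f, |Θ f| ≤ CΘ) ∧
      ∀ f, P.Reg η f → c * Real.exp (-(P.kd m₁ δ f / P.n)) ≤ LΘ f) :
    ∃ C₃, 0 ≤ C₃ ∧ ∀ f, -C₃ ≤ P.kd m₁ δ f := by
  have hn := P.npos
  obtain ⟨Bd, hBd⟩ := P.ct_bdd (P.ct_add (P.ct_smul (1 + δ * m₁) (P.ct_trA P.ginv))
    (P.ct_smul (-δ) (P.ct_trO P.ginv)))
  set B := max Bd 0 with hB
  have hB0 : 0 ≤ B := le_max_right _ _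
  have hB' : ∀ x, (1 + δ * m₁) * P.trA P.ginv x + -δ * P.trO P.ginv x ≤ B := fun x =>
    (le_abs_self _).trans ((hBd x).trans (le_max_left _ _))
  obtain ⟨K, hK0, hK⟩ := P.grow_kd m₁ δ
  set κ₀ := c / P.n with hκ₀
  have hκ : 0 < κ₀ := div_pos hc hn
  have hCΘ0 : 0 ≤ |CΘ| := abs_nonneg _
  refine ⟨(2 * |CΘ| + κ₀ * B + 1) / κ₀, by positivity, fun f₀ => ?_⟩
  obtain ⟨ηs, hη0, hη1, hp⟩ := P.path P.ginv 1 one_pos (|CΘ| + κ₀ * K + κ₀ * B) f₀ 1 one_pos
  obtain ⟨Θ, LΘ, hgood, hbd, hrate⟩ := hΘ ηs hη0 hη1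
  have hbd' : ∀ f, |Θ f| ≤ |CΘ| := fun f => (hbd f).trans (le_abs_self _)
  have key := hp 3 ![Θ, P.k, P.T] ![LΘ, P.avg (P.trA P.ginv), P.avg (P.trO P.ginv)] ?_
    ![fun _ => 1, fun s => κ₀ * (1 + δ * m₁) * (s - 1), fun s => -(κ₀ * δ) * (s - 1)]
    (fun s => κ₀ * B * s) ?_ ?_ ?_ ?_
  · obtain ⟨f, -, hf⟩ := key
    simp only [Fin.sum_univ_three, Matrix.cons_val_zero, Matrix.cons_val_one, Matrix.cons_val]
      at hf
    have h1 := (abs_le.1 (hbd' f)).2
    have h2 := (abs_le.1 (hbd' f₀)).1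
    have h3 : κ₀ * -P.kd m₁ δ f₀ ≤ 2 * |CΘ| + κ₀ * B + 1 := by
      unfold kd
      nlinarith
    rw [neg_le]
    exact (le_div_iff₀ hκ).2 (by linarith)
  · intro j
    fin_cases j
    · exact hgood
    · exact P.good_k _
    · exact P.good_T _
  · intro j
    fin_cases j
    · exact contDiff_const
    · exact contDiff_const.mul (contDiff_id.sub contDiff_const)
    · exact contDiff_const.mul (contDiff_id.sub contDiff_const)
  · exact contDiff_const.mul contDiff_id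
  · intro s hs η f h0 h1 hr
    simp only [Fin.sum_univ_three, Matrix.cons_val_zero, Matrix.cons_val_one, Matrix.cons_val]
    have hl := one_le_lf h0 h1
    have h3 := hK η f h0 h1 hr
    set l := 1 + Real.log (1 / η) with hl'
    have hl0 : 0 ≤ l := by linarith
    have e1 : κ₀ * B * s + (1 * Θ f + κ₀ * (1 + δ * m₁) * (s - 1) * P.k f +
        -(κ₀ * δ) * (s - 1) * P.T f) = κ₀ * B * s + (Θ f + κ₀ * (s - 1) * P.kd m₁ δ f) := by
      unfold kd; ring
    rw [e1]
    have h4 : |κ₀ * (s - 1) * P.kd m₁ δ f| ≤ κ₀ * K * l := by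
      rw [abs_mul, abs_mul, abs_of_pos hκ]
      have : |s - 1| ≤ 1 := by
        rw [abs_le]; constructor <;> linarith [hs.1, hs.2]
      calc κ₀ * |s - 1| * |P.kd m₁ δ f| ≤ (κ₀ * 1) * (K * l) :=
            mul_le_mul (mul_le_mul_of_nonneg_left this hκ.le) h3 (abs_nonneg _) (by positivity)
        _ = κ₀ * K * l := by ring
    have h5 : |κ₀ * B * s| ≤ κ₀ * B * l := by
      rw [abs_mul, abs_of_nonneg (mul_nonneg hκ.le hB0), abs_of_nonneg hs.1]
      exact mul_le_mul_of_nonneg_left (hs.2.trans hl) (mul_nonneg hκ.le hB0)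
    have h6 : |Θ f| ≤ |CΘ| * l := (hbd' f).trans (le_mul_of_one_le_right hCΘ0 hl)
    have t1 := abs_add_le (κ₀ * B * s) (Θ f + κ₀ * (s - 1) * P.kd m₁ δ f)
    have t2 := abs_add_le (Θ f) (κ₀ * (s - 1) * P.kd m₁ δ f)
    nlinarith
  · intro s hs f _ hr
    simp only [Fin.sum_univ_three, Matrix.cons_val_zero, Matrix.cons_val_one, Matrix.cons_val]
    have d1 : deriv (fun s : ℝ => κ₀ * B * s) s = κ₀ * B := by simp
    have d2 : deriv (fun _ : ℝ => (1 : ℝ)) s = 0 := deriv_const _ _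
    have d3 : deriv (fun s : ℝ => κ₀ * (1 + δ * m₁) * (s - 1)) s = κ₀ * (1 + δ * m₁) := by simp
    have d4 : deriv (fun s : ℝ => -(κ₀ * δ) * (s - 1)) s = -(κ₀ * δ) := by simp
    rw [d1, d2, d3, d4]
    have h1 := hrate f hr
    have h2 : (1 + δ * m₁) * P.avg (P.trA P.ginv) f + -δ * P.avg (P.trO P.ginv) f ≤ B := by
      have cA := P.ct_smul (1 + δ * m₁) (P.ct_trA P.ginv)
      have cO := P.ct_smul (-δ) (P.ct_trO P.ginv)
      rw [← P.avg_smul _ (P.ct_trA P.ginv), ← P.avg_smul _ (P.ct_trO P.ginv),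
        ← P.avg_add cA cO]
      exact P.avg_le (P.ct_add cA cO) hB' f
    have h3 := exp_ge 1 (P.kd m₁ δ f / P.n) one_pos
    rw [Real.log_one] at h3
    have h4 : c - κ₀ * P.kd m₁ δ f ≤ LΘ f := by
      refine le_trans (le_of_eq ?_) ((mul_le_mul_of_nonneg_left h3 hc.le).trans h1)
      rw [hκ₀]
      field_simp
      ring
    have h5 : κ₀ * (s - 1) * ((1 + δ * m₁) * P.avg (P.trA P.ginv) f +
        -δ * P.avg (P.trO P.ginv) f) ≥ κ₀ * (s - 1) * B :=
      mul_le_mul_of_nonpos_left h2 (mul_nonpos_of_nonneg_of_nonpos hκ.le (by linarith [hs.2]))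
    have h6 : κ₀ * (s - 1) * B ≥ -(κ₀ * B) := by
      have := mul_nonneg (mul_nonneg hκ.le hB0) hs.1
      nlinarith
    unfold kd at h4
    nlinarith

/-- (11.3): if `tr(a(α_δ + L u)) ≤ u` then `u ≥ -C₃` -/
theorem T_del {m₁ δ C₃ : ℝ} (hC0 : 0 ≤ C₃) (hC₃ : ∀ f, -C₃ ≤ P.kd m₁ δ f) (a : P.Fld)
    {u : P.X → ℝ} (hu : P.Sm u)
    (h : ∀ x, (1 + δ * m₁) * P.trA a x + -δ * P.trO a x + P.trL a u x ≤ u x) (x : P.X) :
    -C₃ ≤ u x := by
  obtain ⟨Mu, hMu⟩ := P.ct_bdd (P.ct_sm hu)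
  have hMu0 : 0 ≤ Mu := (abs_nonneg _).trans (hMu x)
  have hcu := P.ct_sm hu
  obtain ⟨K, hK0, hK⟩ := P.grow_kd m₁ δ
  have key : ∀ t : ℝ, 0 < t → -u x ≤ Real.exp (-(1 * t)) * (C₃ + Mu) +
      C₃ * (1 - Real.exp (-(1 * t))) := fun t ht => by
    refine le_of_forall_pos_le_add fun ε hε => ?_
    set ke : ℝ → ℝ := fun s => Real.exp (-(1 * s)) with hke
    have dke : ∀ s, HasDerivAt ke (-ke s) s := fun s => by
      refine (hasDerivAt_exp 1 s).congr_deriv ?_
      simp only [hke]; ring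
    have cke : ContDiff ℝ 1 ke := by
      simp only [hke]; fun_prop
    have kepos : ∀ s, 0 < ke s := fun s => Real.exp_pos _
    have kele : ∀ s ∈ Icc 0 t, ke s ≤ 1 := fun s hs => by
      simp only [hke]
      rw [Real.exp_le_one_iff]
      linarith [hs.1]
    obtain ⟨ηs, -, -, hp⟩ := P.path a t ht (C₃ + (K + Mu)) (P.cst x) ε hε
    have key := hp 3 ![P.k, P.T, P.avg u] ![P.avg (P.trA a), P.avg (P.trO a), P.avg (P.trL a u)]
      ?_ ![fun s => -((1 + δ * m₁) * ke s), fun s => δ * ke s, fun s => -ke s]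
      (fun s => C₃ * (1 - ke s)) ?_ ?_ ?_ ?_
    · obtain ⟨f, -, hf⟩ := key
      simp only [Fin.sum_univ_three, Matrix.cons_val_zero, Matrix.cons_val_one, Matrix.cons_val]
        at hf
      rw [P.k_cst, P.T_cst, P.avg_cst hcu] at hf
      have e0 : ke 0 = 1 := by simp [hke]
      rw [e0] at hf
      have h1 := hC₃ f
      unfold kd at h1
      have h2 := mul_le_mul_of_nonneg_left h1 (kepos t).le
      have h3 := mul_le_mul_of_nonneg_left (abs_le.1 (P.abs_avg_le hcu hMu f)).1 (kepos t).le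
      have e1 : Real.exp (-(1 * t)) = ke t := rfl
      rw [e1]
      nlinarith
    · intro j
      fin_cases j
      · exact P.good_k a
      · exact P.good_T a
      · exact P.good_avg a hu
    · intro j
      fin_cases j
      · exact (contDiff_const.mul cke).neg
      · exact contDiff_const.mul cke
      · exact cke.neg
    · exact contDiff_const.mul (contDiff_const.sub cke)
    · intro s hs η f h0 h1 hr
      simp only [Fin.sum_univ_three, Matrix.cons_val_zero, Matrix.cons_val_one, Matrix.cons_val]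
      have hl := one_le_lf h0 h1
      have h3 := hK η f h0 h1 hr
      set l := 1 + Real.log (1 / η) with hl'
      have hl0 : 0 ≤ l := by linarith
      have e1 : C₃ * (1 - ke s) + (-((1 + δ * m₁) * ke s) * P.k f + δ * ke s * P.T f +
          -ke s * P.avg u f) = C₃ * (1 - ke s) + (-(ke s * P.kd m₁ δ f) +
          -(ke s * P.avg u f)) := by
        unfold kd; ring
      rw [e1]
      have h4 : |-(ke s * P.kd m₁ δ f)| ≤ K * l := by
        rw [abs_neg, abs_mul, abs_of_pos (kepos s)]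
        calc ke s * |P.kd m₁ δ f| ≤ 1 * (K * l) :=
              mul_le_mul (kele s hs) h3 (abs_nonneg _) zero_le_one
          _ = K * l := one_mul _
      have h5 : |-(ke s * P.avg u f)| ≤ Mu * l := by
        rw [abs_neg, abs_mul, abs_of_pos (kepos s)]
        calc ke s * |P.avg u f| ≤ 1 * Mu :=
              mul_le_mul (kele s hs) (P.abs_avg_le hcu hMu f) (abs_nonneg _) zero_le_one
          _ ≤ Mu * l := by rw [one_mul]; exact le_mul_of_one_le_right hMu0 hl
      have h6 : |C₃ * (1 - ke s)| ≤ C₃ * l := by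
        rw [abs_mul, abs_of_nonneg hC0]
        refine mul_le_mul_of_nonneg_left ?_ hC0
        rw [abs_of_nonneg (by linarith [kele s hs])]
        linarith [kepos s]
      have t1 := abs_add_le (C₃ * (1 - ke s)) (-(ke s * P.kd m₁ δ f) + -(ke s * P.avg u f))
      have t2 := abs_add_le (-(ke s * P.kd m₁ δ f)) (-(ke s * P.avg u f))
      nlinarith
    · intro s hs f _ _
      simp only [Fin.sum_univ_three, Matrix.cons_val_zero, Matrix.cons_val_one, Matrix.cons_val]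
      have d1 : deriv (fun s : ℝ => C₃ * (1 - ke s)) s = C₃ * ke s := by
        refine (((dke s).const_sub 1).const_mul C₃ |>.congr_deriv ?_).deriv
        ring
      have d2 : deriv (fun s : ℝ => -((1 + δ * m₁) * ke s)) s = (1 + δ * m₁) * ke s := by
        refine (((dke s).const_mul (1 + δ * m₁)).neg.congr_deriv ?_).deriv
        ring
      have d3 : deriv (fun s : ℝ => δ * ke s) s = -(δ * ke s) := by
        refine (((dke s).const_mul δ).congr_deriv ?_).deriv
        ring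
      have d4 : deriv (fun s : ℝ => -ke s) s = ke s := by
        refine ((dke s).neg.congr_deriv ?_).deriv
        ring
      rw [d1, d2, d3, d4]
      have h2 : (1 + δ * m₁) * P.avg (P.trA a) f + -δ * P.avg (P.trO a) f +
          P.avg (P.trL a u) f ≤ P.avg u f := by
        have cA := P.ct_smul (1 + δ * m₁) (P.ct_trA a)
        have cO := P.ct_smul (-δ) (P.ct_trO a)
        have cL := P.ct_trL a hu
        rw [← P.avg_smul _ (P.ct_trA a), ← P.avg_smul _ (P.ct_trO a), ← P.avg_add cA cO,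
          ← P.avg_add (P.ct_add cA cO) cL]
        exact P.avg_mono (P.ct_add (P.ct_add cA cO) cL) hcu h f
      have h1 := hC₃ f
      unfold kd at h1
      have h3 := mul_le_mul_of_nonneg_left h1 (kepos s).le
      have h4 := mul_le_mul_of_nonneg_left h2 (kepos s).le
      nlinarith
  have hlim : Tendsto (fun t : ℝ => Real.exp (-(1 * t)) * (C₃ + Mu) +
      C₃ * (1 - Real.exp (-(1 * t)))) atTop (𝓝 (0 * (C₃ + Mu) + C₃ * (1 - 0))) := by
    have e1 := tendsto_exp_neg (lam := 1) one_pos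
    exact (e1.mul_const _).add ((tendsto_const_nhds.sub e1).const_mul _)
  have h2 := ge_of_tendsto hlim (eventually_atTop.2 ⟨1, fun t ht => key t (by linarith)⟩)
  linarith

end PD

end Crest.Agent.R269.Cons_993
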