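import Mathlib

/-!
Row 269 (S0411), leaf L6-CPT, part C1: the LIFT THEOREM.

`Pr p i j = p i * conj (p j) / |p|^2` is the projector picture of the point `[p]` of projective space.
A disc map `q` (entries continuous on the closed unit disc, every `q z` is a projector `Pr p`, the column ratios
`q z i j / q z j j` holomorphic where `q z j j ≠ 0`) which admits a continuous `e` on the circle with
`⟪e, q e⟫ ≠ 0` has a global holomorphic nowhere vanishing lift `H`, given on the circle by an explicit formula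
(polynomials, entries of `q` and their conjugates, one division by a nowhere vanishing function), so that every
star closed, inverse closed function algebra on the circle which contains the entries of `q` contains `H`.
-/

set_option autoImplicit false

open Complex Metric Set Filter Topology ComplexConjugate Polynomial

namespace Crest.Agent.R269.Cpt1_528

noncomputable section

variable {ι : Type*} [Fintype ι]

/-- squared Euclidean norm as a complex number -/
def nsq (p : ι → ℂ) : ℂ := ∑ k, p k * conj (p k)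

/-- bilinear pairing -/
def pair (v p : ι → ℂ) : ℂ := ∑ k, v k * p k

/-- projector picture of `[p]` -/
def Pr (p : ι → ℂ) (i j : ι) : ℂ := p i * conj (p j) / nsq p

lemma nsq_eq (p : ι → ℂ) : nsq p = ((∑ k, ‖p k‖ ^ 2 : ℝ) : ℂ) := by
  unfold nsq
  push_cast
  refine Finset.sum_congr rfl fun k _ => ?_
  rw [Complex.mul_conj, Complex.normSq_eq_norm_sq]
  push_cast
  rfl

lemma nsq_ne_zero {p : ι → ℂ} (hp : p ≠ 0) : nsq p ≠ 0 := by
  rw [nsq_eq]
  have : ∃ k, p k ≠ 0 := by
    by_contra h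
    push Not at h
    exact hp (funext h)
  obtain ⟨k, hk⟩ := this
  have h1 : 0 < ∑ k, ‖p k‖ ^ 2 := by
    refine Finset.sum_pos' (fun i _ => by positivity) ⟨k, Finset.mem_univ k, ?_⟩
    have := norm_pos_iff.mpr hk
    positivity
  exact_mod_cast h1.ne'

lemma nsq_smul (c : ℂ) (p : ι → ℂ) : nsq (c • p) = (c * conj c) * nsq p := by
  unfold nsq
  rw [Finset.mul_sum]
  refine Finset.sum_congr rfl fun k _ => ?_
  simp only [Pi.smul_apply, smul_eq_mul, map_mul]
  ring

lemma Pr_smul {c : ℂ} (hc : c ≠ 0) (p : ι → ℂ) : Pr (c • p) = Pr p := by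
  funext i j
  unfold Pr
  rw [nsq_smul]
  simp only [Pi.smul_apply, smul_eq_mul, map_mul]
  have hc' : conj c ≠ 0 := by simpa using hc
  by_cases h : nsq p = 0
  · simp [h]
  · field_simp

lemma Pr_trace {p : ι → ℂ} (hp : p ≠ 0) : ∑ i, Pr p i i = 1 := by
  unfold Pr
  rw [← Finset.sum_div]
  exact div_self (nsq_ne_zero hp)

lemma Pr_diag_ne_iff {p : ι → ℂ} (hp : p ≠ 0) (j : ι) : Pr p j j ≠ 0 ↔ p j ≠ 0 := by
  unfold Pr
  constructor
  · intro h hj
    exact h (by simp [hj])
  · intro h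
    refine div_ne_zero (mul_ne_zero h (by simpa using h)) (nsq_ne_zero hp)

lemma Pr_ratio {p : ι → ℂ} (hp : p ≠ 0) (i : ι) {j : ι} (hj : p j ≠ 0) :
    Pr p i j / Pr p j j = p i / p j := by
  unfold Pr
  have h1 := nsq_ne_zero hp
  have h2 : conj (p j) ≠ 0 := by simpa using hj
  field_simp

lemma Pr_mulVec (p v : ι → ℂ) (i : ι) :
    ∑ j, Pr p i j * conj (v j) = p i * conj (pair v p) / nsq p := by
  unfold Pr pair
  rw [map_sum, Finset.mul_sum, Finset.sum_div]
  refine Finset.sum_congr rfl fun k _ => ?_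
  simp only [map_mul]
  ring

/-- the Hermitian form `v q v^*` -/
def dd (q : ι → ι → ℂ) (v : ι → ℂ) : ℂ := ∑ k, v k * ∑ j, q k j * conj (v j)

lemma dd_Pr (p v : ι → ℂ) : dd (Pr p) v = pair v p * conj (pair v p) / nsq p := by
  unfold dd
  simp_rw [Pr_mulVec]
  have : ∀ k, v k * (p k * conj (pair v p) / nsq p) = (v k * p k) * (conj (pair v p) / nsq p) := by
    intro k; ring
  simp_rw [this]
  rw [← Finset.sum_mul]
  unfold pair
  ring

lemma dd_Pr_ne_iff {p : ι → ℂ} (hp : p ≠ 0) (v : ι → ℂ) : dd (Pr p) v ≠ 0 ↔ pair v p ≠ 0 := by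
  rw [dd_Pr]
  constructor
  · intro h h0
    exact h (by simp [h0])
  · intro h
    exact div_ne_zero (mul_ne_zero h (by simpa using h)) (nsq_ne_zero hp)

/-- the ratio vector `p / (v·p)` in terms of the projector -/
def RR (q : ι → ι → ℂ) (v : ι → ℂ) (i : ι) : ℂ := (∑ j, q i j * conj (v j)) / dd q v

lemma RR_Pr {p : ι → ℂ} (hp : p ≠ 0) {v : ι → ℂ} (hv : pair v p ≠ 0) (i : ι) :
    RR (Pr p) v i = p i / pair v p := by
  unfold RR
  rw [Pr_mulVec, dd_Pr]
  have h1 := nsq_ne_zero hp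
  have h2 : conj (pair v p) ≠ 0 := by simpa using hv
  field_simp

/-- Structure of a disc map in the projector picture. -/
structure DiscMap (q : ℂ → ι → ι → ℂ) : Prop where
  cont : ∀ i j, ContinuousOn (fun z => q z i j) (closedBall 0 1)
  proj : ∀ z ∈ closedBall (0 : ℂ) 1, ∃ p : ι → ℂ, p ≠ 0 ∧ q z = Pr p
  hol : ∀ i j, DifferentiableOn ℂ (fun z => q z i j / q z j j) (ball 0 1 ∩ {z | q z j j ≠ 0})

lemma dd_smul (q : ι → ι → ℂ) (c : ℂ) (v : ι → ℂ) : dd q (c • v) = (c * conj c) * dd q v := by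
  unfold dd
  rw [Finset.mul_sum]
  refine Finset.sum_congr rfl fun k _ => ?_
  have : ∑ j, q k j * conj ((c • v) j) = conj c * ∑ j, q k j * conj (v j) := by
    rw [Finset.mul_sum]
    refine Finset.sum_congr rfl fun j _ => ?_
    simp only [Pi.smul_apply, smul_eq_mul, map_mul]
    ring
  rw [this]
  simp only [Pi.smul_apply, smul_eq_mul]
  ring

lemma exists_poly_of_starClosure (g : C(sphere (0 : ℂ) 1, ℂ))
    (hg : g ∈ (polynomialFunctions (sphere (0 : ℂ) 1)).starClosure) :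
    ∃ (M : ℕ) (P : ℂ[X]), ∀ z : sphere (0 : ℂ) 1, (z : ℂ) ^ M * g z = P.eval (z : ℂ) := by
  rw [polynomialFunctions.starClosure_eq_adjoin_X] at hg
  induction hg using Algebra.adjoin_induction with
  | mem f hf =>
    push _ ∈ _ at hf
    rw [star_eq_iff_star_eq, eq_comm (b := f)] at hf
    obtain (rfl | rfl) := hf
    · exact ⟨0, X, fun z => by simp⟩
    · refine ⟨1, 1, fun z => ?_⟩
      have hz : ‖(z : ℂ)‖ = 1 := by simp
      simp only [pow_one, ContinuousMap.star_apply, Polynomial.toContinuousMapOnAlgHom_apply,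
        Polynomial.toContinuousMapOn_apply, Polynomial.toContinuousMap_apply, eval_X, eval_one,
        RCLike.star_def]
      rw [Complex.mul_conj, Complex.normSq_eq_norm_sq, hz]
      simp
  | algebraMap r =>
    exact ⟨0, C r, fun z => by simp⟩
  | add x y _ _ hx hy =>
    obtain ⟨M, P, h1⟩ := hx
    obtain ⟨M', P', h2⟩ := hy
    refine ⟨M + M', X ^ M' * P + X ^ M * P', fun z => ?_⟩
    simp only [ContinuousMap.add_apply, eval_add, eval_mul, eval_pow, eval_X, ← h1 z, ← h2 z]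
    ring
  | mul x y _ _ hx hy =>
    obtain ⟨M, P, h1⟩ := hx
    obtain ⟨M', P', h2⟩ := hy
    refine ⟨M + M', P * P', fun z => ?_⟩
    simp only [ContinuousMap.mul_apply, eval_mul, ← h1 z, ← h2 z]
    ring

/-- trigonometric approximation on the circle, cleared of denominators -/
lemma exists_poly_approx (f : C(sphere (0 : ℂ) 1, ℂ)) {ε : ℝ} (hε : 0 < ε) :
    ∃ (M : ℕ) (P : ℂ[X]), ∀ z : sphere (0 : ℂ) 1, ‖(z : ℂ) ^ M * f z - P.eval (z : ℂ)‖ < ε := by
  have h1 : f ∈ closure ((polynomialFunctions (sphere (0 : ℂ) 1)).starClosure :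
      Set C(sphere (0 : ℂ) 1, ℂ)) := by
    rw [← StarSubalgebra.topologicalClosure_coe,
      polynomialFunctions.starClosure_topologicalClosure]
    trivial
  obtain ⟨g, hg, hfg⟩ := Metric.mem_closure_iff.mp h1 ε hε
  obtain ⟨M, P, hP⟩ := exists_poly_of_starClosure g hg
  refine ⟨M, P, fun z => ?_⟩
  have hz : ‖(z : ℂ)‖ = 1 := by simp
  rw [← hP z, ← mul_sub, norm_mul, norm_pow, hz, one_pow, one_mul, ← dist_eq_norm]
  exact lt_of_le_of_lt (ContinuousMap.dist_apply_le_dist z) hfg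

/-- vector version with a common power -/
lemma exists_poly_approx_vec {ι : Type*} [Fintype ι] (f : ι → ℂ → ℂ)
    (hf : ∀ k, ContinuousOn (f k) (sphere 0 1)) {ε : ℝ} (hε : 0 < ε) :
    ∃ (M : ℕ) (P : ι → ℂ[X]), ∀ z ∈ sphere (0 : ℂ) 1, ∀ k, ‖z ^ M * f k z - (P k).eval z‖ < ε := by
  have h1 : ∀ k, ∃ (M : ℕ) (P : ℂ[X]), ∀ z : sphere (0 : ℂ) 1,
      ‖(z : ℂ) ^ M * f k z - P.eval (z : ℂ)‖ < ε := by
    intro k
    exact exists_poly_approx ⟨_, (hf k).domRestrict⟩ hε
  choose M P hP using h1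
  refine ⟨∑ k, M k, fun k => X ^ (∑ j, M j - M k) * P k, fun z hz k => ?_⟩
  have hz' : ‖z‖ = 1 := by simpa using hz
  have hle : M k ≤ ∑ j, M j := Finset.single_le_sum (fun _ _ => Nat.zero_le _) (Finset.mem_univ k)
  have h2 : z ^ (∑ j, M j) * f k z - (X ^ (∑ j, M j - M k) * P k).eval z =
      z ^ (∑ j, M j - M k) * (z ^ (M k) * f k z - (P k).eval z) := by
    simp only [eval_mul, eval_pow, eval_X]
    rw [mul_sub, ← mul_assoc, ← pow_add, Nat.sub_add_cancel hle]
  rw [h2, norm_mul, norm_pow, hz', one_pow, one_mul]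
  exact hP k ⟨z, hz⟩


/-- perturbation: polynomials `P` with nonvanishing `dd (q z) (P z)` on the circle -/
lemma exists_poly_dd_ne {q : ℂ → ι → ι → ℂ} (hq : ∀ i j, ContinuousOn (fun z => q z i j) (sphere 0 1))
    {e : ℂ → ι → ℂ} (he : ∀ k, ContinuousOn (fun z => e z k) (sphere 0 1))
    (hne : ∀ z ∈ sphere (0 : ℂ) 1, dd (q z) (fun k => conj (e z k)) ≠ 0) :
    ∃ P : ι → ℂ[X], ∀ z ∈ sphere (0 : ℂ) 1, dd (q z) (fun k => (P k).eval z) ≠ 0 := by
  classical
  let S := sphere (0 : ℂ) 1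
  let Φ : S × (ι → ℂ) → ℂ := fun x => dd (q x.1) (fun k => conj (e x.1 k) + x.2 k)
  have hqc : ∀ i j, Continuous (fun x : S => q x i j) := fun i j => (hq i j).domRestrict
  have hec : ∀ k, Continuous (fun x : S => e x k) := fun k => (he k).domRestrict
  have hΦ : Continuous Φ := by
    show Continuous fun x : S × (ι → ℂ) => ∑ k, (conj (e x.1 k) + x.2 k) *
      ∑ j, q x.1 k j * conj (conj (e x.1 j) + x.2 j)
    have h1 : ∀ k, Continuous (fun x : S × (ι → ℂ) => conj (e x.1 k) + x.2 k) := fun k =>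
      (continuous_conj.comp ((hec k).comp continuous_fst)).add
        ((continuous_apply k).comp continuous_snd)
    refine continuous_finsetSum _ fun k _ => (h1 k).mul (continuous_finsetSum _ fun j _ => ?_)
    exact ((hqc k j).comp continuous_fst).mul (continuous_conj.comp (h1 j))
  have hopen : IsOpen {x : S × (ι → ℂ) | Φ x ≠ 0} := isOpen_ne_fun hΦ continuous_const
  have hsub : (univ : Set S) ×ˢ ({0} : Set (ι → ℂ)) ⊆ {x | Φ x ≠ 0} := by
    rintro ⟨z, w⟩ ⟨-, hw⟩
    rw [mem_singleton_iff] at hw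
    subst hw
    simpa [Φ] using hne z z.2
  obtain ⟨U, V, hU, hV, hUs, hVs, hUV⟩ :=
    generalized_tube_lemma isCompact_univ isCompact_singleton hopen hsub
  have h0V : (0 : ι → ℂ) ∈ V := hVs (mem_singleton _)
  obtain ⟨ε, hε, hball⟩ := Metric.isOpen_iff.mp hV 0 h0V
  obtain ⟨M, P, hP⟩ := exists_poly_approx_vec (fun k z => conj (e z k))
    (fun k => continuous_conj.comp_continuousOn (he k)) hε
  refine ⟨P, fun z hz => ?_⟩
  have hz' : ‖z‖ = 1 := by simpa using hz
  have hz0 : z ≠ 0 := by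
    rintro rfl
    simp at hz'
  have hzM : z ^ M ≠ 0 := pow_ne_zero _ hz0
  set w : ι → ℂ := fun k => (z ^ M)⁻¹ * ((P k).eval z - z ^ M * conj (e z k)) with hw
  have hwV : w ∈ V := by
    refine hball ?_
    rw [mem_ball_zero_iff, pi_norm_lt_iff hε]
    intro k
    rw [hw]
    simp only [norm_mul, norm_inv, norm_pow, hz', one_pow, inv_one, one_mul]
    rw [norm_sub_rev]
    exact hP z hz k
  have h2 : Φ (⟨z, hz⟩, w) ≠ 0 := hUV ⟨hUs (mem_univ _), hwV⟩
  have h3 : (fun k => (P k).eval z) = (z ^ M) • (fun k => conj (e z k) + w k) := by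
    funext k
    simp only [Pi.smul_apply, smul_eq_mul, hw]
    field_simp
    ring
  rw [h3, dd_smul]
  exact mul_ne_zero (mul_ne_zero hzM (by simpa using hzM)) h2

section local_lift

variable {q : ℂ → ι → ι → ℂ}

/-- the local lift with `j`-th coordinate one -/
def loc (q : ℂ → ι → ι → ℂ) (j : ι) (z : ℂ) (i : ι) : ℂ := q z i j / q z j j

lemma loc_spec (hq : DiscMap q) {j : ι} {z : ℂ} (hz : z ∈ closedBall (0 : ℂ) 1) (hj : q z j j ≠ 0) :
    loc q j z ≠ 0 ∧ Pr (loc q j z) = q z := by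
  obtain ⟨p, hp, hqp⟩ := hq.proj z hz
  have hpj : p j ≠ 0 := by
    rw [hqp] at hj
    exact (Pr_diag_ne_iff hp j).mp hj
  have h1 : loc q j z = (p j)⁻¹ • p := by
    funext i
    simp only [loc, Pi.smul_apply, smul_eq_mul]
    rw [hqp, Pr_ratio hp i hpj]
    rw [div_eq_inv_mul]
  constructor
  · rw [h1]
    exact smul_ne_zero (inv_ne_zero hpj) hp
  · rw [h1, Pr_smul (inv_ne_zero hpj), hqp]

lemma exists_diag_ne (hq : DiscMap q) {z : ℂ} (hz : z ∈ closedBall (0 : ℂ) 1) :
    ∃ j, q z j j ≠ 0 := by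
  obtain ⟨p, hp, hqp⟩ := hq.proj z hz
  by_contra h
  push Not at h
  have h1 := Pr_trace hp
  rw [← hqp] at h1
  simp [h] at h1

lemma isOpen_U (hq : DiscMap q) (j : ι) : IsOpen (ball (0 : ℂ) 1 ∩ {z | q z j j ≠ 0}) := by
  have h1 : ContinuousOn (fun z => q z j j) (ball 0 1) := (hq.cont j j).mono ball_subset_closedBall
  exact h1.isOpen_inter_preimage isOpen_ball isOpen_ne

variable (q) in
/-- pairing of the polynomial vector with the local lift -/
def hh (P : ι → ℂ[X]) (j : ι) (z : ℂ) : ℂ := pair (fun k => (P k).eval z) (loc q j z)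

lemma hh_analyticAt (hq : DiscMap q) (P : ι → ℂ[X]) {j : ι} {z : ℂ}
    (hz : z ∈ ball (0 : ℂ) 1 ∩ {z | q z j j ≠ 0}) : AnalyticAt ℂ (hh q P j) z := by
  have h1 : DifferentiableOn ℂ (hh q P j) (ball (0 : ℂ) 1 ∩ {z | q z j j ≠ 0}) := by
    unfold hh pair loc
    refine DifferentiableOn.fun_sum fun k _ => ?_
    exact (P k).differentiable.differentiableOn.mul (hq.hol k j)
  exact h1.analyticAt ((isOpen_U hq j).mem_nhds hz)

lemma loc_analyticAt (hq : DiscMap q) {j : ι} {z : ℂ}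
    (hz : z ∈ ball (0 : ℂ) 1 ∩ {z | q z j j ≠ 0}) (i : ι) : AnalyticAt ℂ (fun w => loc q j w i) z :=
  (hq.hol i j).analyticAt ((isOpen_U hq j).mem_nhds hz)

lemma dd_ne_iff_hh (hq : DiscMap q) (P : ι → ℂ[X]) {j : ι} {z : ℂ} (hz : z ∈ closedBall (0 : ℂ) 1)
    (hj : q z j j ≠ 0) : dd (q z) (fun k => (P k).eval z) ≠ 0 ↔ hh q P j z ≠ 0 := by
  obtain ⟨h1, h2⟩ := loc_spec hq hz hj
  conv_lhs => rw [← h2]
  exact dd_Pr_ne_iff h1 _

lemma dd_continuousOn (hq : DiscMap q) (P : ι → ℂ[X]) :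
    ContinuousOn (fun z => dd (q z) (fun k => (P k).eval z)) (closedBall 0 1) := by
  unfold dd
  refine continuousOn_finsetSum _ fun k _ => ?_
  refine (P k).continuous.continuousOn.mul (continuousOn_finsetSum _ fun j _ => ?_)
  exact (hq.cont k j).mul (continuous_conj.comp (P j).continuous).continuousOn

/-- the zero set does not accumulate in the open disc -/
lemma eventually_dd_ne (hq : DiscMap q) (P : ι → ℂ[X])
    (hP : ∀ z ∈ sphere (0 : ℂ) 1, dd (q z) (fun k => (P k).eval z) ≠ 0) {z : ℂ}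
    (hz : z ∈ ball (0 : ℂ) 1) :
    ∀ᶠ w in 𝓝[≠] z, dd (q w) (fun k => (P k).eval w) ≠ 0 := by
  classical
  set D : ℂ → ℂ := fun z => dd (q z) (fun k => (P k).eval z) with hD
  have hDc : ContinuousOn D (closedBall 0 1) := dd_continuousOn hq P
  let u : Set ℂ := {z | ∀ᶠ w in 𝓝 z, D w = 0}
  let v : Set ℂ := {z | ∀ᶠ w in 𝓝[≠] z, D w ≠ 0}
  have hu : IsOpen u := isOpen_setOfPred_eventually_nhds
  have hv : IsOpen v := isOpen_setOfPred_eventually_nhdsWithin
  have hcov : ball (0 : ℂ) 1 ⊆ u ∪ v := by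
    intro x hx
    obtain ⟨j, hj⟩ := exists_diag_ne hq (ball_subset_closedBall hx)
    have han := hh_analyticAt hq P ⟨hx, hj⟩
    have hUnhds : ∀ᶠ w in 𝓝 x, w ∈ ball (0 : ℂ) 1 ∩ {z | q z j j ≠ 0} :=
      (isOpen_U hq j).mem_nhds ⟨hx, hj⟩
    rcases han.eventually_eq_zero_or_eventually_ne_zero with h0 | h0
    · left
      filter_upwards [h0, hUnhds] with w hw hwU
      by_contra hne
      exact (dd_ne_iff_hh hq P (ball_subset_closedBall hwU.1) hwU.2).mp hne hw
    · right
      have hU' : ∀ᶠ w in 𝓝[≠] x, w ∈ ball (0 : ℂ) 1 ∩ {z | q z j j ≠ 0} :=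
        hUnhds.filter_mono nhdsWithin_le_nhds
      filter_upwards [h0, hU'] with w hw hwU
      exact (dd_ne_iff_hh hq P (ball_subset_closedBall hwU.1) hwU.2).mpr hw
  have hdisj : ball (0 : ℂ) 1 ∩ (u ∩ v) = ∅ := by
    ext x
    simp only [mem_inter_iff, mem_empty_iff_false, iff_false, not_and]
    intro _ hxu hxv
    have h1 : ∀ᶠ w in 𝓝[≠] x, D w = 0 := hxu.filter_mono nhdsWithin_le_nhds
    obtain ⟨w, hw1, hw2⟩ := (h1.and hxv).exists
    exact hw2 hw1
  have hpre : IsPreconnected (ball (0 : ℂ) 1) := (convex_ball 0 1).isPreconnected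
  rcases (isPreconnected_iff_subset_of_disjoint.mp hpre) u v hu hv hcov hdisj with hsub | hsub
  · exfalso
    -- D vanishes on the ball, hence on the closed ball
    have h1 : ∀ x ∈ ball (0 : ℂ) 1, D x = 0 := fun x hx => (hsub hx).self_of_nhds
    have h2 : D 1 = 0 := by
      have hcl : (1 : ℂ) ∈ closure (ball (0 : ℂ) 1) := by
        rw [closure_ball _ one_ne_zero]
        simp
      have hc1 : ContinuousWithinAt D (ball 0 1) 1 :=
        (hDc 1 (by simp)).mono ball_subset_closedBall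
      have hmem : (𝓝[ball (0 : ℂ) 1] (1 : ℂ)).NeBot := mem_closure_iff_nhdsWithin_neBot.mp hcl
      have h3 : Tendsto D (𝓝[ball (0 : ℂ) 1] 1) (𝓝 0) := by
        refine tendsto_const_nhds.congr' ?_
        filter_upwards [self_mem_nhdsWithin] with x hx
        exact (h1 x hx).symm
      exact tendsto_nhds_unique hc1 h3
    exact hP 1 (by simp) h2
  · exact hsub hz

/-- the zero set of `dd (q z) (P z)` in the closed disc is finite -/
lemma finite_zero_set (hq : DiscMap q) (P : ι → ℂ[X])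
    (hP : ∀ z ∈ sphere (0 : ℂ) 1, dd (q z) (fun k => (P k).eval z) ≠ 0) :
    {z | z ∈ closedBall (0 : ℂ) 1 ∧ dd (q z) (fun k => (P k).eval z) = 0}.Finite := by
  set D : ℂ → ℂ := fun z => dd (q z) (fun k => (P k).eval z) with hD
  set Z := {z | z ∈ closedBall (0 : ℂ) 1 ∧ D z = 0} with hZ
  by_contra hinf
  have hinf' : Z.Infinite := hinf
  have hZc : IsCompact Z := by
    have h1 : Z = closedBall (0 : ℂ) 1 ∩ D ⁻¹' {0} := by
      ext x; simp [hZ]
    rw [h1]
    refine (isCompact_closedBall (0 : ℂ) 1).of_isClosed_subset ?_ inter_subset_left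
    exact (dd_continuousOn hq P).preimage_isClosed_of_isClosed isClosed_closedBall
      isClosed_singleton
  obtain ⟨x, hxZ, hacc⟩ := hinf'.exists_accPt_of_subset_isCompact hZc subset_rfl
  have hxb : x ∈ ball (0 : ℂ) 1 := by
    have h1 : ‖x‖ ≤ 1 := by simpa using hxZ.1
    rcases h1.lt_or_eq with h | h
    · simpa using h
    · exact absurd hxZ.2 (hP x (by simpa using h))
  have h2 := eventually_dd_ne hq P hP hxb
  rw [accPt_iff_frequently_nhdsNE] at hacc
  exact hacc (h2.mono fun w hw hwZ => hw hwZ.2)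

/-- LIFT THEOREM (projector picture to cone picture). -/
theorem exists_lift (hq : DiscMap q)
    {e : ℂ → ι → ℂ} (he : ∀ k, ContinuousOn (fun z => e z k) (sphere 0 1))
    (hne : ∀ z ∈ sphere (0 : ℂ) 1, dd (q z) (fun k => conj (e z k)) ≠ 0) :
    ∃ (H : ℂ → ι → ℂ) (b : ℂ[X]) (P : ι → ℂ[X]),
      (∀ i, ContinuousOn (fun z => H z i) (closedBall 0 1)) ∧
      (∀ i, DifferentiableOn ℂ (fun z => H z i) (ball 0 1)) ∧
      (∀ z ∈ closedBall (0 : ℂ) 1, H z ≠ 0 ∧ Pr (H z) = q z) ∧
      (∀ z ∈ sphere (0 : ℂ) 1, dd (q z) (fun k => (P k).eval z) ≠ 0 ∧ b.eval z ≠ 0 ∧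
        ∀ i, H z i = b.eval z * RR (q z) (fun k => (P k).eval z) i) := by
  classical
  obtain ⟨P, hP⟩ := exists_poly_dd_ne
    (fun i j => (hq.cont i j).mono sphere_subset_closedBall) he hne
  set D : ℂ → ℂ := fun z => dd (q z) (fun k => (P k).eval z) with hD
  have hDc : ContinuousOn D (closedBall 0 1) := dd_continuousOn hq P
  obtain ⟨j0, -⟩ := exists_diag_ne hq (z := 0) (by simp)
  -- local data
  have hdata : ∀ z0 : ℂ, ∃ (j : ι) (n : ℕ) (g : ℂ → ℂ), z0 ∈ ball (0 : ℂ) 1 →
      (q z0 j j ≠ 0 ∧ AnalyticAt ℂ g z0 ∧ g z0 ≠ 0 ∧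
        ∀ᶠ z in 𝓝 z0, hh q P j z = (z - z0) ^ n • g z) := by
    intro z0
    by_cases hz0 : z0 ∈ ball (0 : ℂ) 1
    · obtain ⟨j, hj⟩ := exists_diag_ne hq (ball_subset_closedBall hz0)
      have han := hh_analyticAt hq P ⟨hz0, hj⟩
      have hnz : ¬ ∀ᶠ z in 𝓝 z0, hh q P j z = 0 := by
        intro h0
        have h1 := eventually_dd_ne hq P hP hz0
        have hU0 : ∀ᶠ w in 𝓝 z0, w ∈ ball (0 : ℂ) 1 ∩ {z | q z j j ≠ 0} :=
          (isOpen_U hq j).mem_nhds ⟨hz0, hj⟩
        have hU' : ∀ᶠ w in 𝓝[≠] z0, w ∈ ball (0 : ℂ) 1 ∩ {z | q z j j ≠ 0} :=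
          hU0.filter_mono nhdsWithin_le_nhds
        have h2 : ∀ᶠ w in 𝓝[≠] z0, hh q P j w = 0 := h0.filter_mono nhdsWithin_le_nhds
        obtain ⟨w, ⟨hw1, hw2⟩, hw3⟩ := ((h1.and hU').and h2).exists
        exact (dd_ne_iff_hh hq P (ball_subset_closedBall hw2.1) hw2.2).mp hw1 hw3
      obtain ⟨n, g, hg, hg0, hev⟩ := han.exists_eventuallyEq_pow_smul_nonzero_iff.mpr hnz
      exact ⟨j, n, g, fun _ => ⟨hj, hg, hg0, hev⟩⟩
    · exact ⟨j0, 0, 0, fun h => absurd h hz0⟩
  choose J n g hdat using hdata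
  -- the zero set
  have hfin := finite_zero_set hq P hP
  set Zf : Finset ℂ := hfin.toFinset with hZf
  have hmemZ : ∀ z, z ∈ Zf ↔ z ∈ closedBall (0 : ℂ) 1 ∧ D z = 0 := by
    intro z; rw [hZf, Set.Finite.mem_toFinset]; rfl
  set b : ℂ[X] := ∏ w ∈ Zf, (X - C w) ^ (n w) with hb
  have hbeval : ∀ z, b.eval z = ∏ w ∈ Zf, (z - w) ^ (n w) := by
    intro z; rw [hb, eval_prod]; simp
  have hbne : ∀ z, z ∉ Zf → b.eval z ≠ 0 := by
    intro z hz
    rw [hbeval, Finset.prod_ne_zero_iff]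
    intro w hw
    exact pow_ne_zero _ (sub_ne_zero.mpr (fun h => hz (h ▸ hw)))
  -- the lift
  set H : ℂ → ι → ℂ := fun z i => if z ∈ Zf then
      (∏ w ∈ Zf.erase z, (z - w) ^ (n w)) * loc q (J z) z i / g z z
    else b.eval z * RR (q z) (fun k => (P k).eval z) i with hH
  -- local formula
  have hloc : ∀ z0 ∈ ball (0 : ℂ) 1, ∀ᶠ z in 𝓝 z0, ∀ i, H z i =
      (∏ w ∈ Zf.erase z0, (z - w) ^ (n w)) * loc q (J z0) z i / g z0 z := by
    intro z0 hz0
    obtain ⟨hj, hg, hg0, hev⟩ := hdat z0 hz0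
    have hU : ∀ᶠ w in 𝓝 z0, w ∈ ball (0 : ℂ) 1 ∩ {z | q z (J z0) (J z0) ≠ 0} :=
      (isOpen_U hq (J z0)).mem_nhds ⟨hz0, hj⟩
    have hgne : ∀ᶠ w in 𝓝 z0, g z0 w ≠ 0 := hg.continuousAt.eventually_ne hg0
    have hnotZ : ∀ᶠ z in 𝓝 z0, z ≠ z0 → z ∉ Zf := by
      have h1 := eventually_dd_ne hq P hP hz0
      rw [eventually_nhdsWithin_iff] at h1
      filter_upwards [h1] with z hz hzne hzZ
      exact hz hzne ((hmemZ z).mp hzZ).2
    filter_upwards [hev, hU, hgne, hnotZ] with z hz hzU hgz hnZ i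
    by_cases hzz : z = z0
    · subst hzz
      by_cases hzZ : z ∈ Zf
      · simp only [hH, if_pos hzZ]
      · have hDz : dd (q z) (fun k => (P k).eval z) ≠ 0 := by
          intro h0
          exact hzZ ((hmemZ z).mpr ⟨ball_subset_closedBall hz0, h0⟩)
        have hhz : hh q P (J z) z ≠ 0 :=
          (dd_ne_iff_hh hq P (ball_subset_closedBall hz0) hj).mp hDz
        have hn0 : n z = 0 := by
          by_contra hn
          apply hhz
          rw [hz]
          simp [hn]
        have hgz' : g z z = hh q P (J z) z := by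
          rw [hz]; simp [hn0]
        simp only [hH, if_neg hzZ]
        rw [hbeval, Finset.erase_eq_of_notMem hzZ, hgz']
        obtain ⟨h1, h2⟩ := loc_spec hq (ball_subset_closedBall hz0) hj
        have h3 := RR_Pr h1 (v := fun k => (P k).eval z) hhz i
        rw [h2] at h3
        rw [h3]
        unfold hh
        ring
    · have hzZ := hnZ hzz
      have hDz : dd (q z) (fun k => (P k).eval z) ≠ 0 := by
        intro h0
        exact hzZ ((hmemZ z).mpr ⟨ball_subset_closedBall hzU.1, h0⟩)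
      have hhz : hh q P (J z0) z ≠ 0 :=
        (dd_ne_iff_hh hq P (ball_subset_closedBall hzU.1) hzU.2).mp hDz
      obtain ⟨h1, h2⟩ := loc_spec hq (ball_subset_closedBall hzU.1) hzU.2
      have h3 := RR_Pr h1 (v := fun k => (P k).eval z) hhz i
      rw [h2] at h3
      simp only [hH, if_neg hzZ]
      rw [h3]
      have h4 : pair (fun k => (P k).eval z) (loc q (J z0) z) = (z - z0) ^ (n z0) * g z0 z := by
        have := hz
        unfold hh at this
        rw [this, smul_eq_mul]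
      rw [h4, hbeval]
      have hsub : z - z0 ≠ 0 := sub_ne_zero.mpr hzz
      by_cases hz0Z : z0 ∈ Zf
      · rw [← Finset.mul_prod_erase Zf (fun w => (z - w) ^ (n w)) hz0Z]
        field_simp
      · have hn0 : n z0 = 0 := by
          by_contra hn
          have hDz0 : dd (q z0) (fun k => (P k).eval z0) ≠ 0 := by
            intro h0
            exact hz0Z ((hmemZ z0).mpr ⟨ball_subset_closedBall hz0, h0⟩)
          have hhz0 := (dd_ne_iff_hh hq P (ball_subset_closedBall hz0) hj).mp hDz0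
          apply hhz0
          rw [hev.self_of_nhds]
          simp [hn]
        rw [Finset.erase_eq_of_notMem hz0Z, hn0]
        field_simp
  refine ⟨H, b, P, ?_, ?_, ?_, ?_⟩
  · -- continuity
    have hdiff : ∀ i, ∀ z0 ∈ ball (0 : ℂ) 1, DifferentiableAt ℂ (fun z => H z i) z0 := by
      intro i z0 hz0
      obtain ⟨hj, hg, hg0, hev⟩ := hdat z0 hz0
      have h1 : (fun z => H z i) =ᶠ[𝓝 z0] fun z =>
          (∏ w ∈ Zf.erase z0, (z - w) ^ (n w)) * loc q (J z0) z i / g z0 z := by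
        filter_upwards [hloc z0 hz0] with z hz
        exact hz i
      refine DifferentiableAt.congr_of_eventuallyEq ?_ h1
      refine DifferentiableAt.div (DifferentiableAt.mul ?_
        (loc_analyticAt hq ⟨hz0, hj⟩ i).differentiableAt) hg.differentiableAt hg0
      fun_prop
    intro i z1 hz1
    have hz1' : ‖z1‖ ≤ 1 := by simpa using hz1
    rcases hz1'.lt_or_eq with h | h
    · exact (hdiff i z1 (by simpa using h)).continuousAt.continuousWithinAt
    · have hs : z1 ∈ sphere (0 : ℂ) 1 := by simpa using h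
      have hD1 : D z1 ≠ 0 := hP z1 hs
      have hz1Z : z1 ∉ Zf := fun hh => hD1 ((hmemZ z1).mp hh).2
      have hDw : ∀ᶠ z in 𝓝[closedBall 0 1] z1, D z ≠ 0 := (hDc z1 hz1).eventually_ne hD1
      have hnum : ContinuousWithinAt (fun z => b.eval z * ((∑ j, q z i j * conj ((P j).eval z)) / D z))
          (closedBall 0 1) z1 := by
        refine ContinuousWithinAt.mul b.continuous.continuousWithinAt
          (ContinuousWithinAt.div ?_ (hDc z1 hz1) hD1)
        refine ContinuousWithinAt.congr ?_ (fun _ _ => rfl) rfl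
        have : ContinuousOn (fun z => ∑ j, q z i j * conj ((P j).eval z)) (closedBall 0 1) := by
          refine continuousOn_finsetSum _ fun j _ => ?_
          exact (hq.cont i j).mul (continuous_conj.comp (P j).continuous).continuousOn
        exact this z1 hz1
      refine hnum.congr_of_eventuallyEq ?_ ?_
      · filter_upwards [hDw] with z hz
        have hzZ : z ∉ Zf := fun hh => hz ((hmemZ z).mp hh).2
        simp only [hH, if_neg hzZ]
        rfl
      · simp only [hH, if_neg hz1Z]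
        rfl
  · intro i z0 hz0
    obtain ⟨hj, hg, hg0, hev⟩ := hdat z0 hz0
    have h1 : (fun z => H z i) =ᶠ[𝓝 z0] fun z =>
        (∏ w ∈ Zf.erase z0, (z - w) ^ (n w)) * loc q (J z0) z i / g z0 z := by
      filter_upwards [hloc z0 hz0] with z hz
      exact hz i
    refine (DifferentiableAt.congr_of_eventuallyEq ?_ h1).differentiableWithinAt
    refine DifferentiableAt.div (DifferentiableAt.mul ?_
      (loc_analyticAt hq ⟨hz0, hj⟩ i).differentiableAt) hg.differentiableAt hg0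
    fun_prop
  · intro z0 hz0
    have hz0' : ‖z0‖ ≤ 1 := by simpa using hz0
    rcases hz0'.lt_or_eq with h | h
    · have hzb : z0 ∈ ball (0 : ℂ) 1 := by simpa using h
      obtain ⟨hj, hg, hg0, hev⟩ := hdat z0 hzb
      have h1 := (hloc z0 hzb).self_of_nhds
      set c : ℂ := (∏ w ∈ Zf.erase z0, (z0 - w) ^ (n w)) / g z0 z0 with hc
      have hcne : c ≠ 0 := by
        refine div_ne_zero ?_ hg0
        rw [Finset.prod_ne_zero_iff]
        intro w hw
        exact pow_ne_zero _ (sub_ne_zero.mpr (Ne.symm (Finset.ne_of_mem_erase hw)))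
      have h2 : H z0 = c • loc q (J z0) z0 := by
        funext i
        rw [h1 i, Pi.smul_apply, smul_eq_mul, hc]
        ring
      obtain ⟨h3, h4⟩ := loc_spec hq hz0 hj
      rw [h2]
      exact ⟨smul_ne_zero hcne h3, by rw [Pr_smul hcne, h4]⟩
    · have hs : z0 ∈ sphere (0 : ℂ) 1 := by simpa using h
      have hD1 : dd (q z0) (fun k => (P k).eval z0) ≠ 0 := hP z0 hs
      have hz1Z : z0 ∉ Zf := fun hh => hD1 ((hmemZ z0).mp hh).2
      obtain ⟨p, hp, hqp⟩ := hq.proj z0 hz0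
      have hpair : pair (fun k => (P k).eval z0) p ≠ 0 := by
        rw [hqp] at hD1
        exact (dd_Pr_ne_iff hp _).mp hD1
      have h2 : H z0 = (b.eval z0 / pair (fun k => (P k).eval z0) p) • p := by
        funext i
        simp only [hH, if_neg hz1Z, Pi.smul_apply, smul_eq_mul]
        rw [hqp, RR_Pr hp hpair]
        ring
      have hcne : b.eval z0 / pair (fun k => (P k).eval z0) p ≠ 0 :=
        div_ne_zero (hbne z0 hz1Z) hpair
      rw [h2]
      exact ⟨smul_ne_zero hcne hp, by rw [Pr_smul hcne, hqp]⟩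
  · intro z hz
    have hD1 : dd (q z) (fun k => (P k).eval z) ≠ 0 := hP z hz
    have hz1Z : z ∉ Zf := fun hh => hD1 ((hmemZ z).mp hh).2
    refine ⟨hD1, hbne z hz1Z, fun i => ?_⟩
    simp only [hH, if_neg hz1Z]

end local_lift

end

end Crest.Agent.R269.Cpt1_528
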