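import Crest.Agent.R269.Der_669

set_option autoImplicit false

namespace Crest.Agent.R269.Der_669

open Complex Metric Set Filter Topology
open scoped ComplexConjugate

section algebra

variable {ι : Type*} [Fintype ι]

/-- `|p|²` -/
noncomputable def nsq (p : ι → ℂ) : ℝ := ∑ i, ‖p i‖ ^ 2

/-- `⟨p, q⟩`, conjugate linear in `q` -/
def ip (p q : ι → ℂ) : ℂ := ∑ i, p i * conj (q i)

/-- squared Fubini-Study norm of the tangent vector `v` at `p` -/
noncomputable def fs2 (p v : ι → ℂ) : ℝ := ((∑ i, ‖p i‖ ^ 2) * (∑ i, ‖v i‖ ^ 2) - ‖∑ i, v i * conj (p i)‖ ^ 2) /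
  (∑ i, ‖p i‖ ^ 2) ^ 2

/-- the projector `p p* / |p|²` -/
noncomputable def PP (p : ι → ℂ) : ι → ι → ℂ := fun i j => p i * conj (p j) / ((nsq p : ℝ) : ℂ)

/-- squared Frobenius norm of a matrix -/
noncomputable def fro2 (A : ι → ι → ℂ) : ℝ := ∑ i, ∑ j, ‖A i j‖ ^ 2

theorem nsq_nonneg (p : ι → ℂ) : 0 ≤ nsq p := Finset.sum_nonneg fun i _ => by positivity

theorem nsq_pos {p : ι → ℂ} (hp : p ≠ 0) : 0 < nsq p := by
  obtain ⟨i, hi⟩ : ∃ i, p i ≠ 0 := by
    by_contra h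
    push Not at h
    exact hp (funext h)
  exact Finset.sum_pos' (fun i _ => by positivity) ⟨i, Finset.mem_univ i, by positivity⟩

theorem nsq_smul (c : ℂ) (p : ι → ℂ) : nsq (c • p) = ‖c‖ ^ 2 * nsq p := by
  simp only [nsq, Pi.smul_apply, smul_eq_mul, norm_mul, mul_pow, Finset.mul_sum]

theorem ip_self (p : ι → ℂ) : ip p p = ((nsq p : ℝ) : ℂ) := by
  simp only [ip, nsq, ofReal_sum]
  refine Finset.sum_congr rfl fun i _ => ?_
  rw [mul_conj, normSq_eq_norm_sq]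

theorem ip_smul_left (c : ℂ) (p q : ι → ℂ) : ip (c • p) q = c * ip p q := by
  simp only [ip, Pi.smul_apply, smul_eq_mul, Finset.mul_sum]
  exact Finset.sum_congr rfl fun i _ => by ring

theorem ip_smul_right (c : ℂ) (p q : ι → ℂ) : ip p (c • q) = conj c * ip p q := by
  simp only [ip, Pi.smul_apply, smul_eq_mul, Finset.mul_sum, map_mul]
  exact Finset.sum_congr rfl fun i _ => by ring

theorem ip_add_left (p p' q : ι → ℂ) : ip (p + p') q = ip p q + ip p' q := by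
  simp only [ip, Pi.add_apply, add_mul, Finset.sum_add_distrib]

theorem ip_sub_left (p p' q : ι → ℂ) : ip (p - p') q = ip p q - ip p' q := by
  simp only [ip, Pi.sub_apply, sub_mul, Finset.sum_sub_distrib]

theorem ip_conj (p q : ι → ℂ) : conj (ip p q) = ip q p := by
  simp only [ip, map_sum, map_mul, conj_conj]
  exact Finset.sum_congr rfl fun i _ => by ring

theorem nsq_add (p q : ι → ℂ) : nsq (p + q) = nsq p + nsq q + 2 * (ip p q).re := by
  simp only [nsq, ip, Pi.add_apply, re_sum, Finset.mul_sum, ← Finset.sum_add_distrib]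
  refine Finset.sum_congr rfl fun i _ => ?_
  rw [← normSq_eq_norm_sq, normSq_add, normSq_eq_norm_sq, normSq_eq_norm_sq]

theorem nsq_sub (p q : ι → ℂ) : nsq (p - q) = nsq p + nsq q - 2 * (ip p q).re := by
  have h : p - q = p + (-1 : ℂ) • q := by simp [sub_eq_add_neg]
  rw [h, nsq_add, nsq_smul, ip_smul_right]
  simp; ring

theorem norm_le_sqrt_nsq (p : ι → ℂ) : ‖p‖ ≤ Real.sqrt (nsq p) := by
  rw [pi_norm_le_iff_of_nonneg (Real.sqrt_nonneg _)]
  intro i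
  apply Real.le_sqrt_of_sq_le
  exact Finset.single_le_sum (f := fun i => ‖p i‖ ^ 2) (fun j _ => by positivity) (Finset.mem_univ i)

theorem nsq_le_card (p : ι → ℂ) : nsq p ≤ Fintype.card ι * ‖p‖ ^ 2 := by
  calc nsq p ≤ ∑ _i : ι, ‖p‖ ^ 2 := Finset.sum_le_sum fun i _ => by
        gcongr; exact norm_le_pi_norm p i
    _ = _ := by simp

/-- Cauchy-Schwarz -/
theorem norm_ip_sq_le (p q : ι → ℂ) : ‖ip p q‖ ^ 2 ≤ nsq p * nsq q := by
  have h1 : ‖ip p q‖ ≤ ∑ i, ‖p i‖ * ‖q i‖ := by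
    refine (norm_sum_le _ _).trans (Finset.sum_le_sum fun i _ => ?_)
    rw [norm_mul, RCLike.norm_conj]
  calc ‖ip p q‖ ^ 2 ≤ (∑ i, ‖p i‖ * ‖q i‖) ^ 2 := by gcongr
    _ ≤ _ := Finset.sum_mul_sq_le_sq_mul_sq _ _ _

theorem fs2_eq (p v : ι → ℂ) : fs2 p v = (nsq p * nsq v - ‖ip v p‖ ^ 2) / (nsq p) ^ 2 := rfl

/-- invariance of the Fubini-Study norm -/
theorem fs2_smul {c : ℂ} (hc : c ≠ 0) (b : ℂ) (F F' : ι → ℂ) :
    fs2 (c • F) (c • F' + b • F) = fs2 F F' := by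
  rw [fs2_eq, fs2_eq, nsq_smul, nsq_add, nsq_smul, nsq_smul, ip_add_left, ip_smul_left, ip_smul_left,
    ip_smul_left, ip_smul_right, ip_smul_right, ip_smul_right, ip_self]
  set X := ip F' F
  set n := nsq F
  set n' := nsq F'
  have hc' : ‖c‖ ^ 2 ≠ 0 := by positivity
  have hnum : ‖c‖ ^ 2 * n * (‖c‖ ^ 2 * n' + ‖b‖ ^ 2 * n + 2 * (c * ((starRingEnd ℂ) b * X)).re) -
      ‖c * ((starRingEnd ℂ) c * X) + b * ((starRingEnd ℂ) c * (n : ℂ))‖ ^ 2 =
      (‖c‖ ^ 2) ^ 2 * (n * n' - ‖X‖ ^ 2) := by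
    simp only [← normSq_eq_norm_sq, normSq_apply]
    simp only [mul_re, mul_im, add_re, add_im, conj_re, conj_im, ofReal_re, ofReal_im]
    ring
  rw [hnum]
  rcases eq_or_ne n 0 with hn | hn
  · simp [hn]
  · field_simp

theorem fs2_le_div {F F' : ι → ℂ} (hF : 1 ≤ nsq F) : fs2 F F' ≤ nsq F' := by
  rw [fs2_eq]
  have h0 : 0 < nsq F := by linarith
  rw [div_le_iff₀ (by positivity)]
  have h1 : nsq F * nsq F' ≤ nsq F' * nsq F ^ 2 := by
    nlinarith [nsq_nonneg F', mul_nonneg (nsq_nonneg F') (sub_nonneg.2 hF), h0.le,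
      mul_nonneg (mul_nonneg (nsq_nonneg F') (sub_nonneg.2 hF)) h0.le]
  nlinarith [sq_nonneg (‖ip F' F‖)]

/-- the distance of two rank one projectors -/
theorem fro2_PP_sub {p q : ι → ℂ} (hp : p ≠ 0) (hq : q ≠ 0) :
    fro2 (PP p - PP q) = 2 - 2 * (‖ip p q‖ ^ 2 / (nsq p * nsq q)) := by
  have hp' := nsq_pos hp
  have hq' := nsq_pos hq
  have e1 : ∀ i j, ‖(PP p - PP q) i j‖ ^ 2 = ‖p i‖ ^ 2 * ‖p j‖ ^ 2 / nsq p ^ 2 +
      ‖q i‖ ^ 2 * ‖q j‖ ^ 2 / nsq q ^ 2 -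
      2 * ((p i * conj (q i)) * conj (p j * conj (q j))).re / (nsq p * nsq q) := by
    intro i j
    have : (PP p - PP q) i j = p i * conj (p j) / ((nsq p : ℝ) : ℂ) - q i * conj (q j) / ((nsq q : ℝ) : ℂ) :=
      rfl
    rw [this, ← normSq_eq_norm_sq, normSq_sub, map_div₀, map_div₀, normSq_mul, normSq_mul,
      normSq_conj, normSq_conj, normSq_ofReal, normSq_ofReal, normSq_eq_norm_sq, normSq_eq_norm_sq,
      normSq_eq_norm_sq, normSq_eq_norm_sq]
    have h2 : (p i * conj (p j) / ((nsq p : ℝ) : ℂ) * conj (q i * conj (q j) / ((nsq q : ℝ) : ℂ))) =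
      ((p i * conj (q i)) * conj (p j * conj (q j))) / ((nsq p * nsq q : ℝ) : ℂ) := by
      rw [map_div₀, map_mul, conj_conj, conj_ofReal, map_mul, conj_conj]
      push_cast
      field_simp
    rw [h2, div_ofReal_re]
    ring
  simp only [fro2, e1, Finset.sum_sub_distrib, Finset.sum_add_distrib]
  have s1 : ∀ r : ι → ℂ, r ≠ 0 → ∑ i, ∑ j, ‖r i‖ ^ 2 * ‖r j‖ ^ 2 / nsq r ^ 2 = 1 := by
    intro r hr
    have : ∑ i, ∑ j, ‖r i‖ ^ 2 * ‖r j‖ ^ 2 / nsq r ^ 2 = (nsq r * nsq r) / nsq r ^ 2 := by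
      conv_rhs => rw [nsq, Finset.sum_mul_sum, Finset.sum_div]
      refine Finset.sum_congr rfl fun i _ => ?_
      rw [Finset.sum_div]; rfl
    rw [this]
    have := nsq_pos hr
    field_simp
  have s2 : ∑ i, ∑ j, 2 * ((p i * conj (q i)) * conj (p j * conj (q j))).re / (nsq p * nsq q) =
      2 * (‖ip p q‖ ^ 2 / (nsq p * nsq q)) := by
    have : ‖ip p q‖ ^ 2 = ∑ i, ∑ j, ((p i * conj (q i)) * conj (p j * conj (q j))).re := by
      rw [← normSq_eq_norm_sq]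
      have h3 : (normSq (ip p q) : ℝ) = (ip p q * conj (ip p q)).re := by rw [mul_conj]; simp
      rw [h3]
      conv_lhs => rw [ip, map_sum, Finset.sum_mul_sum]
      simp only [re_sum]
    rw [this, Finset.sum_div, Finset.mul_sum]
    refine Finset.sum_congr rfl fun i _ => ?_
    rw [Finset.sum_div, Finset.mul_sum]
    refine Finset.sum_congr rfl fun j _ => ?_
    ring
  rw [s1 p hp, s1 q hq, s2]; ring

/-- the affine coordinate of `[p]` at the unit vector `u` -/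
noncomputable def aff (u p : ι → ℂ) : ι → ℂ := (ip p u)⁻¹ • p

theorem ip_ne_zero_of_fro2 {p u : ι → ℂ} (hp : p ≠ 0) (hu : nsq u = 1)
    (h : fro2 (PP p - PP u) ≤ 1) : nsq p ≤ 2 * ‖ip p u‖ ^ 2 := by
  have hu0 : u ≠ 0 := by
    rintro rfl
    simp [nsq] at hu
  rw [fro2_PP_sub hp hu0, hu, mul_one] at h
  have hp' := nsq_pos hp
  have : 1 / 2 ≤ ‖ip p u‖ ^ 2 / nsq p := by linarith
  rw [le_div_iff₀ hp'] at this
  linarith

theorem nsq_aff {p u : ι → ℂ} : nsq (aff u p) = nsq p / ‖ip p u‖ ^ 2 := by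
  rw [aff, nsq_smul, norm_inv, inv_pow, div_eq_inv_mul]

theorem one_le_nsq_aff {p u : ι → ℂ} (hu : nsq u = 1) (h : ip p u ≠ 0) : 1 ≤ nsq (aff u p) := by
  rw [nsq_aff, one_le_div (by positivity)]
  have := norm_ip_sq_le p u
  rwa [hu, mul_one] at this

theorem nsq_aff_sub {p u : ι → ℂ} (hu : nsq u = 1) (h : ip p u ≠ 0) :
    nsq (aff u p - u) = nsq p / ‖ip p u‖ ^ 2 - 1 := by
  rw [nsq_sub, nsq_aff, hu]
  have : ip (aff u p) u = 1 := by rw [aff, ip_smul_left]; field_simp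
  rw [this, one_re]; ring

/-- KEY: the affine coordinate is controlled by the projector distance -/
theorem nsq_aff_sub_le {p u : ι → ℂ} (hp : p ≠ 0) (hu : nsq u = 1)
    (h : fro2 (PP p - PP u) ≤ 1) : nsq (aff u p - u) ≤ fro2 (PP p - PP u) := by
  have hu0 : u ≠ 0 := by
    rintro rfl
    simp [nsq] at hu
  have h1 := ip_ne_zero_of_fro2 hp hu h
  have hp' := nsq_pos hp
  have h2 : 0 < ‖ip p u‖ ^ 2 := by nlinarith
  have h3 : ip p u ≠ 0 := by
    intro h0; rw [h0] at h2; simp at h2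
  rw [nsq_aff_sub hu h3, fro2_PP_sub hp hu0, hu, mul_one]
  have h4 := norm_ip_sq_le p u
  rw [hu, mul_one] at h4
  set x := ‖ip p u‖ ^ 2
  set n := nsq p
  rw [div_sub_one h2.ne', div_le_iff₀ h2]
  have : (2 - 2 * (x / n)) * x = 2 * (n - x) * (x / n) := by field_simp
  rw [this]
  have h5 : 1 / 2 ≤ x / n := by rw [le_div_iff₀ hp']; linarith
  nlinarith [mul_nonneg (sub_nonneg.2 h4) (sub_nonneg.2 h5)]

/-- first order expansion of the affine coordinate -/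
theorem aff_eq {p u : ι → ℂ} (hp : p ≠ 0) (h : ip p u ≠ 0) :
    aff u p = ((nsq p / ‖ip p u‖ ^ 2 : ℝ) : ℂ) • (fun i => ∑ j, PP p i j * u j) := by
  have hp' := nsq_pos hp
  have hpC : ((nsq p : ℝ) : ℂ) ≠ 0 := by exact_mod_cast hp'.ne'
  funext i
  have e1 : ∑ j, PP p i j * u j = p i * conj (ip p u) / ((nsq p : ℝ) : ℂ) := by
    rw [ip_conj, ip, Finset.mul_sum, Finset.sum_div]
    refine Finset.sum_congr rfl fun j _ => ?_
    simp only [PP]; ring
  have e2 : ((‖ip p u‖ ^ 2 : ℝ) : ℂ) = ip p u * conj (ip p u) := by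
    rw [mul_conj, normSq_eq_norm_sq]
  have hc : conj (ip p u) ≠ 0 := by simpa using h
  simp only [aff, Pi.smul_apply, smul_eq_mul, e1]
  rw [ofReal_div, e2]
  field_simp

end algebra

end Crest.Agent.R269.Der_669
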