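import Crest.Agent.R269.DerAlg_669

/-!
# R269 (S0411), leaf F44 (helper669): the bound (4.4) for discs in projective space

`fs2_le_H1` : class H¹: `|f'((1-d)ζ)|² ≤ C / (d η)` in the collar;
`fs2_le_H2` : class H²: `|f'((1-d)ζ)|² ≤ C / η²` in the collar;
`f44_H1`, `f44_H2` : the corresponding global bounds, with the Schwarz lemma `(1-|z|)|f'| ≤ A`.
-/

set_option autoImplicit false

namespace Crest.Agent.R269.Der_669

open Complex Metric Set Filter Topology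
open scoped ComplexConjugate

theorem norm_exp_I (t : ℝ) : ‖exp (I * t)‖ = 1 := by
  rw [mul_comm]; exact norm_exp_ofReal_mul_I t

/-- points of the circle near `e^{iθ}` -/
theorem arc_param {z : ℂ} (hz : ‖z‖ = 1) (θ : ℝ) :
    ∃ t : ℝ, z = exp (I * t) ∧ |t - θ| ≤ Real.pi / 2 * ‖z - exp (I * θ)‖ := by
  set ζ := exp (I * θ) with hζ
  have hζ0 : ζ ≠ 0 := exp_ne_zero _
  have hζn : ‖ζ‖ = 1 := norm_exp_I θ
  set w := z / ζ with hw
  have hwn : ‖w‖ = 1 := by rw [hw, norm_div, hz, hζn, div_one]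
  have hwexp : exp (I * (arg w : ℝ)) = w := by
    have := norm_mul_exp_arg_mul_I w
    rw [hwn] at this
    simpa [mul_comm] using this
  have hz' : z = w * ζ := by rw [hw]; field_simp
  refine ⟨θ + arg w, ?_, ?_⟩
  · push_cast
    rw [mul_add, exp_add, hwexp, ← hζ, hz', mul_comm]
  · have h1 : ‖z - ζ‖ = ‖w - 1‖ := by
      have : z - ζ = (w - 1) * ζ := by rw [hz']; ring
      rw [this, norm_mul, hζn, mul_one]
    have h2 : ‖w - 1‖ = 2 * |Real.sin (arg w / 2)| := by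
      have h7 : ‖exp (I * (arg w : ℝ)) - 1‖ = 2 * |Real.sin (arg w / 2)| := by
        rw [norm_exp_I_mul_ofReal_sub_one]
        simp
      rw [hwexp] at h7
      exact h7
    have h3 : |arg w / 2| ≤ Real.pi / 2 := by
      rw [abs_div, abs_of_pos (by norm_num : (0:ℝ) < 2)]
      have := abs_arg_le_pi w
      linarith
    have h4 := Real.mul_abs_le_abs_sin h3
    have h5 : |θ + arg w - θ| = |arg w| := by ring_nf
    rw [h5, h1, h2]
    rw [abs_div, abs_of_pos (by norm_num : (0:ℝ) < 2)] at h4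
    have hpi := Real.pi_pos
    have h6 : |arg w| = Real.pi / 2 * (2 * (2 / Real.pi * (|arg w| / 2))) := by field_simp
    rw [h6]
    gcongr

theorem ip_differentiableAt {ι : Type*} [Fintype ι] {H : ℂ → ι → ℂ} {z : ℂ} (u : ι → ℂ)
    (h : DifferentiableAt ℂ H z) : DifferentiableAt ℂ (fun z => ip (H z) u) z := by
  unfold ip
  apply DifferentiableAt.fun_sum
  intro i _
  exact (differentiableAt_pi.1 h i).mul_const _

theorem ip_continuousOn {ι : Type*} [Fintype ι] {H : ℂ → ι → ℂ} {s : Set ℂ} (u : ι → ℂ)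
    (h : ContinuousOn H s) : ContinuousOn (fun z => ip (H z) u) s := by
  unfold ip
  apply continuousOn_finsetSum
  intro i _
  exact (continuousOn_pi.1 h i).mul continuousOn_const

theorem lens_subset {ζ : ℂ} {r : ℝ} : closure (ball (0:ℂ) 1 ∩ ball ζ r) ⊆
    closedBall 0 1 ∩ closedBall ζ r :=
  subset_inter ((closure_mono inter_subset_left).trans closure_ball_subset_closedBall)
    ((closure_mono inter_subset_right).trans closure_ball_subset_closedBall)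

section disc

variable {ι : Type*} [Fintype ι] {H : ℂ → ι → ℂ}

/-- the normalised value -/
noncomputable def unitv (p : ι → ℂ) : ι → ℂ := (((Real.sqrt (nsq p))⁻¹ : ℝ) : ℂ) • p

theorem nsq_unitv {p : ι → ℂ} (hp : p ≠ 0) : nsq (unitv p) = 1 := by
  have h := nsq_pos hp
  rw [unitv, nsq_smul, Complex.norm_real, Real.norm_of_nonneg (by positivity), inv_pow,
    Real.sq_sqrt h.le]
  field_simp

theorem PP_smul {c : ℂ} (hc : c ≠ 0) (p : ι → ℂ) : PP (c • p) = PP p := by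
  funext i j
  simp only [PP, nsq_smul, Pi.smul_apply, smul_eq_mul, map_mul]
  have e : ((‖c‖ ^ 2 * nsq p : ℝ) : ℂ) = c * conj c * ((nsq p : ℝ) : ℂ) := by
    rw [mul_conj, normSq_eq_norm_sq]; push_cast; ring
  rw [e]
  have hc' : conj c ≠ 0 := by simpa using hc
  rcases eq_or_ne ((nsq p : ℝ) : ℂ) 0 with h | h
  · simp [h]
  · field_simp

theorem PP_unitv {p : ι → ℂ} (hp : p ≠ 0) : PP (unitv p) = PP p := by
  have h := nsq_pos hp
  apply PP_smul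
  have : (Real.sqrt (nsq p))⁻¹ ≠ 0 := by positivity
  exact_mod_cast this

theorem aff_unitv {p : ι → ℂ} (hp : p ≠ 0) : aff (unitv p) p = unitv p := by
  have h := nsq_pos hp
  rw [aff, unitv, ip_smul_right, ip_self, conj_ofReal]
  congr 1
  rw [← ofReal_mul, ← ofReal_inv]
  congr 1
  have h2 : Real.sqrt (nsq p) ≠ 0 := by positivity
  have h3 : nsq p = Real.sqrt (nsq p) * Real.sqrt (nsq p) := (Real.mul_self_sqrt h.le).symm
  field_simp
  rw [pow_two, ← h3]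

/-- the affine coordinate is holomorphic where defined -/
theorem aff_diffContOnCl {u : ι → ℂ} {s : Set ℂ} (hH : DiffContOnCl ℂ H s) (hs : IsOpen s)
    (h : ∀ z ∈ closure s, ip (H z) u ≠ 0) : DiffContOnCl ℂ (fun z => aff u (H z)) s := by
  constructor
  · intro z hz
    have h1 : DifferentiableAt ℂ H z := (hH.differentiableOn z hz).differentiableAt (hs.mem_nhds hz)
    unfold aff
    exact (((ip_differentiableAt u h1).inv (h z (subset_closure hz))).smul h1).differentiableWithinAt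
  · unfold aff
    exact ((ip_continuousOn u hH.continuousOn).inv₀ h).smul hH.continuousOn

/-- the Fubini-Study derivative is bounded by the derivative of the affine coordinate -/
theorem fs2_le_of_aff {u : ι → ℂ} (hu : nsq u = 1) {z : ℂ} (h : DifferentiableAt ℂ H z)
    (hne : ip (H z) u ≠ 0) :
    fs2 (H z) (deriv H z) ≤ Fintype.card ι * ‖deriv (fun z => aff u (H z)) z‖ ^ 2 := by
  set c : ℂ → ℂ := fun z => ip (H z) u with hc
  set F : ℂ → ι → ℂ := fun z => aff u (H z) with hF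
  have hcd : DifferentiableAt ℂ c z := ip_differentiableAt u h
  have hFd : DifferentiableAt ℂ F z := by
    simp only [hF, aff]
    exact (hcd.inv hne).smul h
  have hev : H =ᶠ[𝓝 z] fun w => c w • F w := by
    have : ∀ᶠ w in 𝓝 z, c w ≠ 0 := hcd.continuousAt.eventually_ne hne
    filter_upwards [this] with w hw
    simp only [hF, aff]
    rw [smul_smul, mul_inv_cancel₀ hw, one_smul]
  have hd : deriv H z = c z • deriv F z + deriv c z • F z := by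
    rw [hev.deriv_eq]
    exact deriv_fun_smul hcd hFd
  have hval : H z = c z • F z := hev.eq_of_nhds
  rw [hd]
  nth_rewrite 1 [hval]
  rw [fs2_smul hne]
  exact (fs2_le_div (one_le_nsq_aff hu hne)).trans (nsq_le_card _)

/-- the collar estimate for a boundary point, general exponent -/
theorem fs2_le_aux (hH : DiffContOnCl ℂ H (ball 0 1)) (hne : ∀ z, ‖z‖ ≤ 1 → H z ≠ 0)
    {ζ : ℂ} (hζ : ‖ζ‖ = 1) {r α K M : ℝ} (hr : 0 < r) (hr1 : r ≤ 1) (hα : 0 ≤ α) (hK : 0 ≤ K)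
    (_hM1 : 0 ≤ M)
    (hcol : ∀ z, ‖z‖ ≤ 1 → ‖z - ζ‖ ≤ r → fro2 (PP (H z) - PP (H ζ)) ≤ 1)
    (c : ι → ℂ) (hcM : ‖c‖ * r ≤ M)
    (hq : ∀ z, ‖z‖ = 1 → ‖z - ζ‖ ≤ r →
      ‖aff (unitv (H ζ)) (H z) - unitv (H ζ) - (z - ζ) • c‖ ≤ K * ‖z - ζ‖ ^ α)
    {d : ℝ} (hd : 0 < d) (hd1 : d ≤ r / 2) :
    ‖deriv (fun z => aff (unitv (H ζ)) (H z)) ((1 - d : ℝ) * ζ) - c‖ ≤
      2 * (3 / 2 : ℝ) ^ α * max K ((1 + M) / r ^ α) * d ^ (α - 1) ∧
    fs2 (H ((1 - d : ℝ) * ζ)) (deriv H ((1 - d : ℝ) * ζ)) ≤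
      Fintype.card ι * (2 * (3 / 2 : ℝ) ^ α * max K ((1 + M) / r ^ α) * d ^ (α - 1) + ‖c‖) ^ 2 := by
  set u := unitv (H ζ) with hu
  have hζ1 : ‖ζ‖ ≤ 1 := hζ.le
  have hu1 : nsq u = 1 := nsq_unitv (hne ζ hζ1)
  have hPu : PP u = PP (H ζ) := PP_unitv (hne ζ hζ1)
  have hcol' : ∀ z, ‖z‖ ≤ 1 → ‖z - ζ‖ ≤ r → fro2 (PP (H z) - PP u) ≤ 1 := by
    intro z h1 h2; rw [hPu]; exact hcol z h1 h2
  have hip : ∀ z, ‖z‖ ≤ 1 → ‖z - ζ‖ ≤ r → ip (H z) u ≠ 0 := by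
    intro z h1 h2 h0
    have h3 := ip_ne_zero_of_fro2 (hne z h1) hu1 (hcol' z h1 h2)
    have h4 := nsq_pos (hne z h1)
    rw [h0] at h3; simp at h3; linarith
  have hlens : ∀ z ∈ closure (ball (0:ℂ) 1 ∩ ball ζ r), ‖z‖ ≤ 1 ∧ ‖z - ζ‖ ≤ r := by
    intro z hz
    have := lens_subset hz
    exact ⟨by simpa [dist_eq_norm] using this.1, by simpa [dist_eq_norm] using this.2⟩
  have hopen : IsOpen (ball (0:ℂ) 1 ∩ ball ζ r) := isOpen_ball.inter isOpen_ball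
  have hHl : DiffContOnCl ℂ H (ball 0 1 ∩ ball ζ r) := hH.mono inter_subset_left
  have hF : DiffContOnCl ℂ (fun z => aff u (H z)) (ball 0 1 ∩ ball ζ r) :=
    aff_diffContOnCl hHl hopen (fun z hz => hip z (hlens z hz).1 (hlens z hz).2)
  set G : ℂ → ι → ℂ := fun z => aff u (H z) - u - (z - ζ) • c with hGdef
  have hlin : DiffContOnCl ℂ (fun z : ℂ => (z - ζ) • c) (ball 0 1 ∩ ball ζ r) := by
    apply Differentiable.diffContOnCl
    fun_prop
  have hG : DiffContOnCl ℂ G (ball 0 1 ∩ ball ζ r) :=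
    (hF.sub diffContOnCl_const).sub hlin
  have hGM : ∀ z, ‖z‖ ≤ 1 → ‖z - ζ‖ = r → ‖G z‖ ≤ 1 + M := by
    intro z h1 h2
    have h3 : ‖aff u (H z) - u‖ ≤ 1 := by
      refine (norm_le_sqrt_nsq _).trans ?_
      rw [Real.sqrt_le_one]
      exact (nsq_aff_sub_le (hne z h1) hu1 (hcol' z h1 h2.le)).trans (hcol' z h1 h2.le)
    calc ‖G z‖ ≤ ‖aff u (H z) - u‖ + ‖(z - ζ) • c‖ := norm_sub_le _ _
      _ ≤ 1 + M := by
        rw [norm_smul, h2]
        have : r * ‖c‖ ≤ M := by rw [mul_comm]; exact hcM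
        linarith
  have hmain := norm_deriv_le_rpow hr hr1 hα hK hζ hG hGM hq hd hd1
  set z₀ : ℂ := (1 - d : ℝ) * ζ with hz₀
  have hz₀n : ‖z₀‖ = 1 - d := by
    rw [hz₀, norm_mul, hζ, mul_one, Complex.norm_real, Real.norm_of_nonneg (by linarith)]
  have hz₀ζ : ‖z₀ - ζ‖ = d := by
    have : z₀ - ζ = ((-d : ℝ) : ℂ) * ζ := by rw [hz₀]; push_cast; ring
    rw [this, norm_mul, hζ, mul_one, Complex.norm_real, Real.norm_eq_abs, abs_neg, abs_of_pos hd]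
  have hz₀mem : z₀ ∈ ball (0:ℂ) 1 ∩ ball ζ r :=
    ⟨by rw [mem_ball, dist_zero_right, hz₀n]; linarith,
     by rw [mem_ball, dist_eq_norm, hz₀ζ]; linarith⟩
  have hFd : DifferentiableAt ℂ (fun z => aff u (H z)) z₀ :=
    (hF.differentiableOn z₀ hz₀mem).differentiableAt (hopen.mem_nhds hz₀mem)
  have hHd : DifferentiableAt ℂ H z₀ :=
    (hH.differentiableOn z₀ hz₀mem.1).differentiableAt (isOpen_ball.mem_nhds hz₀mem.1)
  have hdG : deriv G z₀ = deriv (fun z => aff u (H z)) z₀ - c := by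
    have h1 : HasDerivAt (fun z : ℂ => aff u (H z) - u - (z - ζ) • c)
        (deriv (fun z => aff u (H z)) z₀ - (1 : ℂ) • c) z₀ := by
      apply HasDerivAt.sub
      · exact hFd.hasDerivAt.sub_const u
      · exact ((hasDerivAt_id z₀).sub_const ζ).smul_const c
    rw [one_smul] at h1
    exact h1.deriv
  rw [hdG] at hmain
  refine ⟨hmain, ?_⟩
  have hip0 : ip (H z₀) u ≠ 0 := hip z₀ (by rw [hz₀n]; linarith) (by rw [hz₀ζ]; linarith)
  refine (fs2_le_of_aff hu1 hHd hip0).trans ?_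
  have h5 : ‖deriv (fun z => aff u (H z)) z₀‖ ≤
      2 * (3 / 2 : ℝ) ^ α * max K ((1 + M) / r ^ α) * d ^ (α - 1) + ‖c‖ := by
    calc ‖deriv (fun z => aff u (H z)) z₀‖ = ‖(deriv (fun z => aff u (H z)) z₀ - c) + c‖ := by
          rw [sub_add_cancel]
      _ ≤ _ := norm_add_le _ _
      _ ≤ _ := by linarith
  gcongr

/-- class H¹: collar bound `|f'|² ≤ C/(dη)` -/
theorem fs2_le_H1 (hH : DiffContOnCl ℂ H (ball 0 1)) (hne : ∀ z, ‖z‖ ≤ 1 → H z ≠ 0)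
    {c₁ η K θ : ℝ} (hc0 : 0 < c₁) (hc1 : c₁ ≤ 1 / 2) (hη0 : 0 < η) (hη1 : η ≤ 1)
    (hcol : ∀ z, ‖z‖ ≤ 1 → ‖z - exp (I * θ)‖ ≤ c₁ * η →
      fro2 (PP (H z) - PP (H (exp (I * θ)))) ≤ 1)
    (hq : ∀ t : ℝ, |t - θ| ≤ η → fro2 (PP (H (exp (I * t))) - PP (H (exp (I * θ)))) ≤
      K ^ 2 * (|t - θ| / η)) {d : ℝ} (hd : 0 < d) (hd1 : d ≤ c₁ * η / 2) :
    fs2 (H ((1 - d : ℝ) * exp (I * θ))) (deriv H ((1 - d : ℝ) * exp (I * θ))) ≤
      Fintype.card ι * (12 * K ^ 2 + 6 / c₁) / (d * η) := by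
  set ζ := exp (I * θ) with hζdef
  have hζ : ‖ζ‖ = 1 := norm_exp_I θ
  set r := c₁ * η with hr
  have hr0 : 0 < r := by positivity
  have hr1 : r ≤ 1 := by nlinarith
  have hpi := Real.pi_pos
  have hpi4 := Real.pi_le_four
  have hKK : 0 ≤ |K| * (2 / η) ^ (1 / 2 : ℝ) := by positivity
  have hmain := fs2_le_aux (H := H) hH hne hζ (r := r) (α := 1 / 2) (K := |K| * (2 / η) ^ (1 / 2 : ℝ)) (M := 0)
    hr0 hr1 (by norm_num) hKK le_rfl hcol 0 (by simp) (by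
      intro z hz1 hz2
      obtain ⟨t, ht1, ht2⟩ := arc_param hz1 θ
      rw [← hζdef] at ht2
      have ht3 : |t - θ| ≤ η := by
        calc |t - θ| ≤ Real.pi / 2 * ‖z - ζ‖ := ht2
          _ ≤ 2 * (c₁ * η) := by
            gcongr
            linarith
          _ ≤ η := by nlinarith
      have h1 := hq t ht3
      rw [← ht1] at h1
      have hu1 : nsq (unitv (H ζ)) = 1 := nsq_unitv (hne ζ hζ.le)
      have hPu : PP (unitv (H ζ)) = PP (H ζ) := PP_unitv (hne ζ hζ.le)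
      have h2 := nsq_aff_sub_le (hne z hz1.le) hu1 (by rw [hPu]; exact hcol z hz1.le hz2)
      rw [hPu] at h2
      simp only [smul_zero, sub_zero]
      refine (norm_le_sqrt_nsq _).trans ?_
      have h3 : nsq (aff (unitv (H ζ)) (H z) - unitv (H ζ)) ≤ K ^ 2 * (2 / η) * ‖z - ζ‖ := by
        refine (h2.trans h1).trans ?_
        have : |t - θ| / η ≤ 2 / η * ‖z - ζ‖ := by
          rw [div_mul_eq_mul_div]
          gcongr
          refine ht2.trans ?_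
          gcongr
          linarith
        calc K ^ 2 * (|t - θ| / η) ≤ K ^ 2 * (2 / η * ‖z - ζ‖) := by gcongr
          _ = _ := by ring
      calc Real.sqrt (nsq (aff (unitv (H ζ)) (H z) - unitv (H ζ)))
          ≤ Real.sqrt (K ^ 2 * (2 / η) * ‖z - ζ‖) := Real.sqrt_le_sqrt h3
        _ = |K| * (2 / η) ^ (1 / 2 : ℝ) * ‖z - ζ‖ ^ (1 / 2 : ℝ) := by
          rw [Real.sqrt_mul (by positivity), Real.sqrt_mul (by positivity), Real.sqrt_sq_eq_abs,
            Real.sqrt_eq_rpow, Real.sqrt_eq_rpow]) hd (by rw [hr] at *; linarith)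
  refine hmain.2.trans ?_
  rw [norm_zero, add_zero, add_zero]
  have hd' : d ^ ((1:ℝ) / 2 - 1) = (d ^ ((1:ℝ) / 2))⁻¹ := by
    rw [← Real.rpow_neg hd.le]; norm_num
  rw [hd']
  have sq12 : ∀ x : ℝ, 0 ≤ x → (x ^ ((1:ℝ) / 2)) ^ 2 = x := by
    intro x hx
    rw [← Real.sqrt_eq_rpow, Real.sq_sqrt hx]
  have hmax : (max (|K| * (2 / η) ^ ((1:ℝ) / 2)) (1 / r ^ ((1:ℝ) / 2))) ^ 2 ≤
      (2 * K ^ 2 + 1 / c₁) / η := by
    rcases max_choice (|K| * (2 / η) ^ ((1:ℝ) / 2)) (1 / r ^ ((1:ℝ) / 2)) with h | h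
    · rw [h, mul_pow, sq12 _ (by positivity), sq_abs]
      have : 0 ≤ 1 / c₁ / η := by positivity
      calc K ^ 2 * (2 / η) = 2 * K ^ 2 / η := by ring
        _ ≤ 2 * K ^ 2 / η + 1 / c₁ / η := by linarith
        _ = _ := by ring
    · rw [h, div_pow, sq12 _ hr0.le, one_pow, hr]
      have : 0 ≤ 2 * K ^ 2 / η := by positivity
      calc 1 / (c₁ * η) = 1 / c₁ / η := by rw [div_div]
        _ ≤ 2 * K ^ 2 / η + 1 / c₁ / η := by linarith
        _ = _ := by ring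
  calc (Fintype.card ι : ℝ) * (2 * (3 / 2 : ℝ) ^ ((1:ℝ) / 2) *
        max (|K| * (2 / η) ^ ((1:ℝ) / 2)) (1 / r ^ ((1:ℝ) / 2)) * (d ^ ((1:ℝ) / 2))⁻¹) ^ 2
      = Fintype.card ι * (4 * ((3 / 2 : ℝ) ^ ((1:ℝ) / 2)) ^ 2 *
        (max (|K| * (2 / η) ^ ((1:ℝ) / 2)) (1 / r ^ ((1:ℝ) / 2))) ^ 2 *
        ((d ^ ((1:ℝ) / 2)) ^ 2)⁻¹) := by ring
    _ = Fintype.card ι * (6 *
        (max (|K| * (2 / η) ^ ((1:ℝ) / 2)) (1 / r ^ ((1:ℝ) / 2))) ^ 2 * d⁻¹) := by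
        rw [sq12 _ (by norm_num), sq12 _ hd.le]; ring
    _ ≤ Fintype.card ι * (6 * ((2 * K ^ 2 + 1 / c₁) / η) * d⁻¹) := by gcongr
    _ = _ := by field_simp; ring

theorem nsq_mulVec_le (A : ι → ι → ℂ) (u : ι → ℂ) :
    nsq (fun i => ∑ j, A i j * u j) ≤ fro2 A * nsq u := by
  unfold fro2
  rw [Finset.sum_mul]
  refine Finset.sum_le_sum fun i _ => ?_
  have h1 : ‖∑ j, A i j * u j‖ ≤ ∑ j, ‖A i j‖ * ‖u j‖ := by
    refine (norm_sum_le _ _).trans (Finset.sum_le_sum fun j _ => ?_)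
    rw [norm_mul]
  calc ‖∑ j, A i j * u j‖ ^ 2 ≤ (∑ j, ‖A i j‖ * ‖u j‖) ^ 2 := by gcongr
    _ ≤ _ := Finset.sum_mul_sq_le_sq_mul_sq _ _ _

theorem fro2_nonneg (A : ι → ι → ℂ) : 0 ≤ fro2 A :=
  Finset.sum_nonneg fun i _ => Finset.sum_nonneg fun j _ => by positivity

theorem fro2_add_le (A B : ι → ι → ℂ) : fro2 (A + B) ≤ 2 * fro2 A + 2 * fro2 B := by
  unfold fro2
  simp only [Finset.mul_sum, ← Finset.sum_add_distrib]
  refine Finset.sum_le_sum fun i _ => Finset.sum_le_sum fun j _ => ?_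
  have h1 : ‖(A + B) i j‖ ≤ ‖A i j‖ + ‖B i j‖ := norm_add_le _ _
  nlinarith [norm_nonneg ((A + B) i j), sq_nonneg (‖A i j‖ - ‖B i j‖)]

theorem fro2_smul (a : ℝ) (A : ι → ι → ℂ) : fro2 (a • A) = a ^ 2 * fro2 A := by
  unfold fro2
  simp only [Finset.mul_sum, Pi.smul_apply, norm_smul, mul_pow, Real.norm_eq_abs, sq_abs]

theorem fro2_PP {p : ι → ℂ} (hp : p ≠ 0) : fro2 (PP p) = 1 := by
  have h := nsq_pos hp
  have e1 : ∀ i j, ‖PP p i j‖ ^ 2 = ‖p i‖ ^ 2 * ‖p j‖ ^ 2 / nsq p ^ 2 := by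
    intro i j
    simp only [PP]
    rw [norm_div, norm_mul, RCLike.norm_conj, Complex.norm_real, Real.norm_of_nonneg h.le]
    ring
  simp only [fro2, e1]
  have : ∑ i, ∑ j, ‖p i‖ ^ 2 * ‖p j‖ ^ 2 / nsq p ^ 2 = (nsq p * nsq p) / nsq p ^ 2 := by
    conv_rhs => rw [nsq, Finset.sum_mul_sum, Finset.sum_div]
    refine Finset.sum_congr rfl fun i _ => ?_
    rw [Finset.sum_div]; rfl
  rw [this]
  field_simp

theorem PP_mulVec_self {u : ι → ℂ} (hu : nsq u = 1) : (fun i => ∑ j, PP u i j * u j) = u := by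
  funext i
  have : ∑ j, PP u i j * u j = u i * ∑ j, u j * conj (u j) := by
    rw [Finset.mul_sum]
    refine Finset.sum_congr rfl fun j _ => ?_
    simp only [PP, hu, ofReal_one, div_one]; ring
  rw [this]
  have h2 : ∑ j, u j * conj (u j) = 1 := by
    have := ip_self u
    rw [hu, ofReal_one] at this
    exact this
  rw [h2, mul_one]

theorem rpow_three_half {a : ℝ} (ha : 0 ≤ a) : a ^ ((3:ℝ) / 2) = a * Real.sqrt a := by
  rcases eq_or_lt_of_le ha with h | h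
  · rw [← h]; simp
  · rw [show (3:ℝ) / 2 = 1 + 1 / 2 by norm_num, Real.rpow_add h, Real.rpow_one, Real.sqrt_eq_rpow]

/-- Taylor expansion of the affine coordinate along the arc -/
theorem aff_taylor {u p : ι → ℂ} (hu : nsq u = 1) (hp : p ≠ 0)
    (hcol : fro2 (PP p - PP u) ≤ 1) {K x η ψ : ℝ} (hK : 0 ≤ K) (hη0 : 0 < η) (hη1 : η ≤ 1)
    (hx : x = |ψ| / η) (hx1 : x ≤ 1) {Q : ι → ι → ℂ} (hQ0 : fro2 Q ≤ (K / η) ^ 2)
    (hR : fro2 (PP p - PP u - ψ • Q) ≤ K ^ 2 * x ^ 3) {ζ : ℂ} (hζ : ‖ζ‖ = 1) :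
    ‖aff u p - u - (exp (I * ψ) * ζ - ζ) • ((I * ζ)⁻¹ • (fun i => ∑ j, Q i j * u j))‖ ≤
      (2 * K + 4 * K ^ 2) * (x * Real.sqrt x) := by
  have hx0 : 0 ≤ x := by rw [hx]; positivity
  have hsx : Real.sqrt x ≤ 1 := by rw [Real.sqrt_le_one]; exact hx1
  have hss := Real.mul_self_sqrt hx0
  have hs0 := Real.sqrt_nonneg x
  have hxs : x ≤ Real.sqrt x := by nlinarith
  have hζ0 : ζ ≠ 0 := by intro h; rw [h] at hζ; simp at hζ
  set A : ι → ι → ℂ := PP p - PP u with hA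
  have hfA : fro2 A ≤ 4 * K ^ 2 * (x * Real.sqrt x) := by
    have h1 : A = (A - ψ • Q) + ψ • Q := by rw [sub_add_cancel]
    have h2 : fro2 A ≤ 2 * fro2 (A - ψ • Q) + 2 * fro2 (ψ • Q) := by
      conv_lhs => rw [h1]
      exact fro2_add_le _ _
    rw [fro2_smul] at h2
    have h3 : ψ ^ 2 * fro2 Q ≤ K ^ 2 * x ^ 2 := by
      calc ψ ^ 2 * fro2 Q ≤ ψ ^ 2 * (K / η) ^ 2 := by gcongr
        _ = K ^ 2 * x ^ 2 := by rw [hx, div_pow, div_pow, sq_abs]; ring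
    have h4 : x ^ 2 ≤ x * Real.sqrt x := by nlinarith
    have h5 : x ^ 3 ≤ x * Real.sqrt x := by nlinarith [mul_nonneg hx0 hx0]
    nlinarith [mul_le_mul_of_nonneg_left h4 (sq_nonneg K), mul_le_mul_of_nonneg_left h5 (sq_nonneg K)]
  have hu0 : u ≠ 0 := by
    rintro rfl
    simp [nsq] at hu
  have hp' := nsq_pos hp
  have h1 := ip_ne_zero_of_fro2 hp hu hcol
  have hip : ip p u ≠ 0 := by
    intro h0; rw [h0] at h1; simp at h1; linarith
  have T1 : ‖aff u p - (fun i => ∑ j, PP p i j * u j)‖ ≤ 4 * K ^ 2 * (x * Real.sqrt x) := by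
    have e : aff u p - (fun i => ∑ j, PP p i j * u j) =
        ((nsq p / ‖ip p u‖ ^ 2 - 1 : ℝ) : ℂ) • (fun i => ∑ j, PP p i j * u j) := by
      conv_lhs => rw [aff_eq hp hip]
      rw [ofReal_sub, sub_smul, ofReal_one, one_smul]
    have h2 : 0 ≤ nsq p / ‖ip p u‖ ^ 2 - 1 := by
      rw [← nsq_aff_sub hu hip]; exact nsq_nonneg _
    rw [e, norm_smul, Complex.norm_real, Real.norm_of_nonneg h2]
    have h3 : ‖(fun i => ∑ j, PP p i j * u j)‖ ≤ 1 := by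
      refine (norm_le_sqrt_nsq _).trans ?_
      rw [Real.sqrt_le_one]
      refine (nsq_mulVec_le _ _).trans ?_
      rw [fro2_PP hp, hu, mul_one]
    have h4 : nsq p / ‖ip p u‖ ^ 2 - 1 ≤ fro2 A := by
      rw [← nsq_aff_sub hu hip]
      exact nsq_aff_sub_le hp hu hcol
    calc (nsq p / ‖ip p u‖ ^ 2 - 1) * ‖(fun i => ∑ j, PP p i j * u j)‖
        ≤ fro2 A * 1 := by gcongr; exact fro2_nonneg _
      _ ≤ _ := by rw [mul_one]; exact hfA
  have T2 : ‖(fun i => ∑ j, (A - ψ • Q) i j * u j)‖ ≤ K * (x * Real.sqrt x) := by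
    refine (norm_le_sqrt_nsq _).trans ?_
    rw [Real.sqrt_le_left (by positivity)]
    refine (nsq_mulVec_le _ _).trans ?_
    rw [hu, mul_one]
    refine hR.trans (le_of_eq ?_)
    rw [mul_pow, mul_pow, Real.sq_sqrt hx0]; ring
  have T3 : ‖(((ψ : ℝ) : ℂ) - (exp (I * ψ) - 1) / I) • (fun i => ∑ j, Q i j * u j)‖ ≤
      K * (x * Real.sqrt x) := by
    have h2 : ‖(fun i => ∑ j, Q i j * u j)‖ ≤ K / η := by
      refine (norm_le_sqrt_nsq _).trans ?_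
      rw [Real.sqrt_le_left (by positivity)]
      refine (nsq_mulVec_le _ _).trans ?_
      rw [hu, mul_one]
      exact hQ0
    have h3 : ‖((ψ : ℝ) : ℂ) - (exp (I * ψ) - 1) / I‖ ≤ ψ ^ 2 := by
      have e : ((ψ : ℝ) : ℂ) - (exp (I * ψ) - 1) / I = -((exp (I * ψ) - 1 - I * ψ) / I) := by
        field_simp
        ring
      rw [e, norm_neg, norm_div, norm_I, div_one]
      have hψ : |ψ| ≤ 1 := by
        have : |ψ| = x * η := by rw [hx]; field_simp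
        rw [this]; nlinarith
      have := norm_exp_sub_one_sub_id_le (x := I * ψ) (by simpa using hψ)
      simpa using this
    rw [norm_smul]
    have h4 : ψ ^ 2 = x ^ 2 * η ^ 2 := by rw [hx, div_pow, sq_abs]; field_simp
    calc ‖((ψ : ℝ) : ℂ) - (exp (I * ψ) - 1) / I‖ * ‖(fun i => ∑ j, Q i j * u j)‖
        ≤ ψ ^ 2 * (K / η) := by gcongr
      _ = K * (x ^ 2 * η) := by rw [h4]; field_simp
      _ ≤ K * (x * Real.sqrt x) := by
        apply mul_le_mul_of_nonneg_left _ hK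
        have h8 : x ^ 2 * η ≤ x ^ 2 := mul_le_of_le_one_right (sq_nonneg x) hη1
        nlinarith [mul_le_mul_of_nonneg_left hxs hx0]
  have hsum : aff u p - u - (exp (I * ψ) * ζ - ζ) • ((I * ζ)⁻¹ • (fun i => ∑ j, Q i j * u j)) =
      (aff u p - (fun i => ∑ j, PP p i j * u j)) + (fun i => ∑ j, (A - ψ • Q) i j * u j) +
      (((ψ : ℝ) : ℂ) - (exp (I * ψ) - 1) / I) • (fun i => ∑ j, Q i j * u j) := by
    have e1 : (fun i => ∑ j, (A - ψ • Q) i j * u j) =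
        (fun i => ∑ j, PP p i j * u j) - u - ((ψ : ℝ) : ℂ) • (fun i => ∑ j, Q i j * u j) := by
      funext i
      have h5 : u i = ∑ j, PP u i j * u j := (congrFun (PP_mulVec_self hu) i).symm
      have h6 : ∑ j, (A - ψ • Q) i j * u j =
          ∑ j, PP p i j * u j - ∑ j, PP u i j * u j - ∑ j, (ψ : ℂ) * (Q i j * u j) := by
        rw [← Finset.sum_sub_distrib, ← Finset.sum_sub_distrib]
        refine Finset.sum_congr rfl fun j _ => ?_
        simp only [hA, Pi.sub_apply, Pi.smul_apply, Complex.real_smul]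
        ring
      simp only [Pi.sub_apply, Pi.smul_apply, smul_eq_mul]
      rw [Finset.mul_sum, h5, ← h6]
      rfl
    rw [e1, smul_smul]
    have e2 : (exp (I * ψ) * ζ - ζ) * (I * ζ)⁻¹ = (exp (I * ψ) - 1) / I := by
      field_simp
    rw [e2, sub_smul]
    abel
  rw [hsum]
  calc _ ≤ ‖aff u p - (fun i => ∑ j, PP p i j * u j)‖ + ‖(fun i => ∑ j, (A - ψ • Q) i j * u j)‖ +
      ‖(((ψ : ℝ) : ℂ) - (exp (I * ψ) - 1) / I) • (fun i => ∑ j, Q i j * u j)‖ := norm_add₃_le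
    _ ≤ _ := by nlinarith

/-- class H²: collar bound `|f'|² ≤ C/η²` -/
theorem fs2_le_H2 (hH : DiffContOnCl ℂ H (ball 0 1)) (hne : ∀ z, ‖z‖ ≤ 1 → H z ≠ 0)
    {c₁ η K θ : ℝ} (hc0 : 0 < c₁) (hc1 : c₁ ≤ 1 / 2) (hη0 : 0 < η) (hη1 : η ≤ 1) (hK : 0 ≤ K)
    (hcol : ∀ z, ‖z‖ ≤ 1 → ‖z - exp (I * θ)‖ ≤ c₁ * η →
      fro2 (PP (H z) - PP (H (exp (I * θ)))) ≤ 1)
    (Q : ι → ι → ℂ) (hQ0 : fro2 Q ≤ (K / η) ^ 2)
    (hq : ∀ t : ℝ, |t - θ| ≤ η → fro2 (PP (H (exp (I * t))) - PP (H (exp (I * θ))) - (t - θ) • Q) ≤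
      K ^ 2 * (|t - θ| / η) ^ 3) {d : ℝ} (hd : 0 < d) (hd1 : d ≤ c₁ * η / 2) :
    fs2 (H ((1 - d : ℝ) * exp (I * θ))) (deriv H ((1 - d : ℝ) * exp (I * θ))) ≤
      Fintype.card ι * ((32 * (K + K ^ 2) + 4 * (1 + K) / c₁ + K) / η) ^ 2 := by
  set ζ := exp (I * θ) with hζdef
  have hζ : ‖ζ‖ = 1 := norm_exp_I θ
  set r := c₁ * η with hr
  have hr0 : 0 < r := by positivity
  have hr1 : r ≤ 1 := by nlinarith
  have hpi := Real.pi_pos
  have hpi4 := Real.pi_le_four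
  have hu1 : nsq (unitv (H ζ)) = 1 := nsq_unitv (hne ζ hζ.le)
  have hPu : PP (unitv (H ζ)) = PP (H ζ) := PP_unitv (hne ζ hζ.le)
  set u := unitv (H ζ) with hu
  set c : ι → ℂ := (I * ζ)⁻¹ • (fun i => ∑ j, Q i j * u j) with hc
  have hcn : ‖c‖ ≤ K / η := by
    rw [hc, norm_smul, norm_inv, norm_mul, norm_I, hζ, mul_one, inv_one, one_mul]
    refine (norm_le_sqrt_nsq _).trans ?_
    rw [Real.sqrt_le_left (by positivity)]
    refine (nsq_mulVec_le _ _).trans ?_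
    rw [hu1, mul_one]
    exact hQ0
  have hmain := fs2_le_aux (H := H) hH hne hζ (r := r) (α := 3 / 2)
    (K := (2 * K + 4 * K ^ 2) * (2 / η) ^ ((3:ℝ) / 2)) (M := K)
    hr0 hr1 (by norm_num) (by positivity) hK hcol c (by
      calc ‖c‖ * r ≤ K / η * (1 * η) := by rw [hr]; gcongr; linarith
        _ = K := by field_simp) (by
      intro z hz1 hz2
      obtain ⟨t, ht1, ht2⟩ := arc_param hz1 θ
      rw [← hζdef] at ht2
      have ht3 : |t - θ| ≤ η := by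
        calc |t - θ| ≤ Real.pi / 2 * ‖z - ζ‖ := ht2
          _ ≤ 2 * (c₁ * η) := by
            gcongr
            linarith
          _ ≤ η := by nlinarith
      have h1 := hq t ht3
      rw [← ht1, ← hPu] at h1
      have hx1 : |t - θ| / η ≤ 1 := by rw [div_le_one hη0]; exact ht3
      have hcolz : fro2 (PP (H z) - PP u) ≤ 1 := by rw [hPu]; exact hcol z hz1.le hz2
      have h2 := aff_taylor (u := u) (p := H z) hu1 (hne z hz1.le) hcolz (x := |t - θ| / η)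
        (ψ := t - θ) hK hη0 hη1 rfl hx1 hQ0 h1 hζ
      have hz : exp (I * ((t - θ : ℝ) : ℂ)) * ζ = z := by
        rw [ht1, hζdef, ← exp_add]; congr 1; push_cast; ring
      rw [hz] at h2
      refine h2.trans ?_
      rw [mul_assoc, ← rpow_three_half (by positivity), ← Real.mul_rpow (by positivity) (norm_nonneg _)]
      gcongr
      rw [div_mul_eq_mul_div]
      gcongr
      refine ht2.trans ?_
      gcongr
      linarith) hd (by rw [hr] at *; linarith)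
  refine hmain.2.trans ?_
  have h32 : (3 / 2 : ℝ) ^ ((3:ℝ) / 2) ≤ 2 := by
    rw [rpow_three_half (by norm_num)]
    have : Real.sqrt (3 / 2) ≤ 5 / 4 := by
      rw [Real.sqrt_le_left (by norm_num)]; norm_num
    linarith
  have hd' : d ^ ((3:ℝ) / 2 - 1) = Real.sqrt d := by
    rw [Real.sqrt_eq_rpow]; norm_num
  have hmaxb : max ((2 * K + 4 * K ^ 2) * (2 / η) ^ ((3:ℝ) / 2)) ((1 + K) / r ^ ((3:ℝ) / 2)) * Real.sqrt d ≤
      (8 * (K + K ^ 2) + (1 + K) / c₁) / η := by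
    have hsd : Real.sqrt d ≤ Real.sqrt (r / 2) := Real.sqrt_le_sqrt hd1
    rcases max_choice ((2 * K + 4 * K ^ 2) * (2 / η) ^ ((3:ℝ) / 2)) ((1 + K) / r ^ ((3:ℝ) / 2)) with h | h
    · rw [h, rpow_three_half (by positivity)]
      have h5 : Real.sqrt (2 / η) * Real.sqrt d ≤ 1 := by
        rw [← Real.sqrt_mul (by positivity), Real.sqrt_le_one]
        rw [div_mul_eq_mul_div, div_le_one hη0]
        nlinarith
      have h6 : 0 ≤ (1 + K) / c₁ / η := by positivity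
      calc (2 * K + 4 * K ^ 2) * (2 / η * Real.sqrt (2 / η)) * Real.sqrt d
          = (2 * K + 4 * K ^ 2) * (2 / η) * (Real.sqrt (2 / η) * Real.sqrt d) := by ring
        _ ≤ (2 * K + 4 * K ^ 2) * (2 / η) * 1 := by gcongr
        _ ≤ 8 * (K + K ^ 2) / η + (1 + K) / c₁ / η := by
          have : (2 * K + 4 * K ^ 2) * (2 / η) * 1 = (4 * K + 8 * K ^ 2) / η := by ring
          rw [this]
          have : (4 * K + 8 * K ^ 2) / η ≤ 8 * (K + K ^ 2) / η := by gcongr; nlinarith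
          linarith
        _ = _ := by ring
    · rw [h, rpow_three_half hr0.le]
      have h7 : Real.sqrt d ≤ Real.sqrt r := Real.sqrt_le_sqrt (by linarith)
      have h8 : 0 < Real.sqrt r := Real.sqrt_pos.2 hr0
      have h6 : 0 ≤ 8 * (K + K ^ 2) / η := by positivity
      calc (1 + K) / (r * Real.sqrt r) * Real.sqrt d ≤ (1 + K) / (r * Real.sqrt r) * Real.sqrt r := by
            gcongr
        _ = (1 + K) / r := by field_simp
        _ = (1 + K) / c₁ / η := by rw [hr, div_div]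
        _ ≤ 8 * (K + K ^ 2) / η + (1 + K) / c₁ / η := by linarith
        _ = _ := by ring
  have hfin : 2 * (3 / 2 : ℝ) ^ ((3:ℝ) / 2) * max ((2 * K + 4 * K ^ 2) * (2 / η) ^ ((3:ℝ) / 2))
      ((1 + K) / r ^ ((3:ℝ) / 2)) * d ^ ((3:ℝ) / 2 - 1) + ‖c‖ ≤
      (32 * (K + K ^ 2) + 4 * (1 + K) / c₁ + K) / η := by
    rw [hd']
    have hm0 : 0 ≤ max ((2 * K + 4 * K ^ 2) * (2 / η) ^ ((3:ℝ) / 2)) ((1 + K) / r ^ ((3:ℝ) / 2)) *
      Real.sqrt d := by positivity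
    calc _ = 2 * (3 / 2 : ℝ) ^ ((3:ℝ) / 2) * (max ((2 * K + 4 * K ^ 2) * (2 / η) ^ ((3:ℝ) / 2))
          ((1 + K) / r ^ ((3:ℝ) / 2)) * Real.sqrt d) + ‖c‖ := by ring
      _ ≤ 2 * 2 * ((8 * (K + K ^ 2) + (1 + K) / c₁) / η) + K / η := by gcongr
      _ = _ := by ring
  gcongr

/-- the Schwarz lemma and the collar bound, class H¹: `d (d + η) |f'|² ≤ C` -/
theorem f44_H1 (hH : DiffContOnCl ℂ H (ball 0 1)) (hne : ∀ z, ‖z‖ ≤ 1 → H z ≠ 0)
    {c₁ η K A : ℝ} (hc0 : 0 < c₁) (hc1 : c₁ ≤ 1 / 2) (hη0 : 0 < η) (hη1 : η ≤ 1)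
    (hA : ∀ z, ‖z‖ < 1 → (1 - ‖z‖) ^ 2 * fs2 (H z) (deriv H z) ≤ A ^ 2)
    (hcol : ∀ (θ : ℝ) (z : ℂ), ‖z‖ ≤ 1 → ‖z - exp (I * θ)‖ ≤ c₁ * η →
      fro2 (PP (H z) - PP (H (exp (I * θ)))) ≤ 1)
    (hq : ∀ θ t : ℝ, |t - θ| ≤ η → fro2 (PP (H (exp (I * t))) - PP (H (exp (I * θ)))) ≤
      K ^ 2 * (|t - θ| / η)) {z : ℂ} (hz : ‖z‖ < 1) :
    (1 - ‖z‖) * ((1 - ‖z‖) + η) * fs2 (H z) (deriv H z) ≤
      3 / c₁ * A ^ 2 + 2 * (Fintype.card ι * (12 * K ^ 2 + 6 / c₁)) := by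
  set d := 1 - ‖z‖ with hd
  have hd0 : 0 < d := by linarith
  have hB0 : 0 ≤ 2 * (Fintype.card ι * (12 * K ^ 2 + 6 / c₁)) := by positivity
  have hfs : 0 ≤ fs2 (H z) (deriv H z) := by
    rw [fs2_eq]
    apply div_nonneg _ (sq_nonneg _)
    have := norm_ip_sq_le (deriv H z) (H z)
    nlinarith
  by_cases hdc : d ≤ c₁ * η / 2
  · -- collar
    have hz' : z = ((1 - d : ℝ) : ℂ) * exp (I * (arg z : ℝ)) := by
      have := norm_mul_exp_arg_mul_I z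
      rw [hd, sub_sub_cancel, mul_comm I]
      exact this.symm
    have h1 := fs2_le_H1 hH hne hc0 hc1 hη0 hη1 (hcol (arg z)) (hq (arg z)) hd0 hdc
    rw [← hz'] at h1
    rw [le_div_iff₀ (by positivity)] at h1
    have h2 : d + η ≤ 2 * η := by nlinarith
    calc d * (d + η) * fs2 (H z) (deriv H z) ≤ d * (2 * η) * fs2 (H z) (deriv H z) := by gcongr
      _ = 2 * (fs2 (H z) (deriv H z) * (d * η)) := by ring
      _ ≤ 2 * (Fintype.card ι * (12 * K ^ 2 + 6 / c₁)) := by gcongr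
      _ ≤ _ := by
        have : 0 ≤ 3 / c₁ * A ^ 2 := by positivity
        linarith
  · rw [not_le] at hdc
    have h1 := hA z hz
    rw [← hd] at h1
    have h2 : d + η ≤ 3 / c₁ * d := by
      rw [div_mul_eq_mul_div, le_div_iff₀ hc0]
      nlinarith
    calc d * (d + η) * fs2 (H z) (deriv H z) ≤ d * (3 / c₁ * d) * fs2 (H z) (deriv H z) := by gcongr
      _ = 3 / c₁ * (d ^ 2 * fs2 (H z) (deriv H z)) := by ring
      _ ≤ 3 / c₁ * A ^ 2 := by gcongr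
      _ ≤ _ := by linarith

/-- (4.4), class H²: `(d + η)² |f'|² ≤ C` -/
theorem f44_H2 (hH : DiffContOnCl ℂ H (ball 0 1)) (hne : ∀ z, ‖z‖ ≤ 1 → H z ≠ 0)
    {c₁ η K A : ℝ} (hc0 : 0 < c₁) (hc1 : c₁ ≤ 1 / 2) (hη0 : 0 < η) (hη1 : η ≤ 1) (hK : 0 ≤ K)
    (hA : ∀ z, ‖z‖ < 1 → (1 - ‖z‖) ^ 2 * fs2 (H z) (deriv H z) ≤ A ^ 2)
    (hcol : ∀ (θ : ℝ) (z : ℂ), ‖z‖ ≤ 1 → ‖z - exp (I * θ)‖ ≤ c₁ * η →
      fro2 (PP (H z) - PP (H (exp (I * θ)))) ≤ 1)
    (Q : ℝ → ι → ι → ℂ) (hQ0 : ∀ θ, fro2 (Q θ) ≤ (K / η) ^ 2)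
    (hq : ∀ θ t : ℝ, |t - θ| ≤ η →
      fro2 (PP (H (exp (I * t))) - PP (H (exp (I * θ))) - (t - θ) • Q θ) ≤
      K ^ 2 * (|t - θ| / η) ^ 3) {z : ℂ} (hz : ‖z‖ < 1) :
    ((1 - ‖z‖) + η) ^ 2 * fs2 (H z) (deriv H z) ≤
      (3 / c₁) ^ 2 * A ^ 2 +
        4 * (Fintype.card ι * (32 * (K + K ^ 2) + 4 * (1 + K) / c₁ + K) ^ 2) := by
  set d := 1 - ‖z‖ with hd
  have hd0 : 0 < d := by linarith
  have hB0 : 0 ≤ 4 * (Fintype.card ι * (32 * (K + K ^ 2) + 4 * (1 + K) / c₁ + K) ^ 2) := by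
    positivity
  have hfs : 0 ≤ fs2 (H z) (deriv H z) := by
    rw [fs2_eq]
    apply div_nonneg _ (sq_nonneg _)
    have := norm_ip_sq_le (deriv H z) (H z)
    nlinarith
  by_cases hdc : d ≤ c₁ * η / 2
  · have hz' : z = ((1 - d : ℝ) : ℂ) * exp (I * (arg z : ℝ)) := by
      have := norm_mul_exp_arg_mul_I z
      rw [hd, sub_sub_cancel, mul_comm I]
      exact this.symm
    have h1 := fs2_le_H2 hH hne hc0 hc1 hη0 hη1 hK (hcol (arg z)) (Q (arg z)) (hQ0 _)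
      (hq (arg z)) hd0 hdc
    rw [← hz'] at h1
    rw [div_pow, ← mul_div_assoc, le_div_iff₀ (by positivity)] at h1
    have h2 : d + η ≤ 2 * η := by nlinarith
    calc (d + η) ^ 2 * fs2 (H z) (deriv H z) ≤ (2 * η) ^ 2 * fs2 (H z) (deriv H z) := by gcongr
      _ = 4 * (fs2 (H z) (deriv H z) * η ^ 2) := by ring
      _ ≤ 4 * (Fintype.card ι * (32 * (K + K ^ 2) + 4 * (1 + K) / c₁ + K) ^ 2) := by gcongr
      _ ≤ _ := by
        have : 0 ≤ (3 / c₁) ^ 2 * A ^ 2 := by positivity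
        linarith
  · rw [not_le] at hdc
    have h1 := hA z hz
    rw [← hd] at h1
    have h2 : d + η ≤ 3 / c₁ * d := by
      rw [div_mul_eq_mul_div, le_div_iff₀ hc0]
      nlinarith
    calc (d + η) ^ 2 * fs2 (H z) (deriv H z) ≤ (3 / c₁ * d) ^ 2 * fs2 (H z) (deriv H z) := by gcongr
      _ = (3 / c₁) ^ 2 * (d ^ 2 * fs2 (H z) (deriv H z)) := by ring
      _ ≤ (3 / c₁) ^ 2 * A ^ 2 := by gcongr
      _ ≤ _ := by linarith

end disc

end Crest.Agent.R269.Der_669
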