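import Mathlib

/-!
# DER (row 269, Blueprint (4.4)): derivative bound in the collar  (helper499)

`u` is holomorphic on the lens `ball 0 1 ∩ ball z₀ r` (`‖z₀‖ = 1`, `0 < r ≤ 1`), continuous on its
closure, `‖u‖ ≤ M`, and `L`-Lipschitz on the boundary arc.  Then `‖u'‖ ≤ 72 L + 768 M / r` on the
half lens `ball 0 1 ∩ ball z₀ (r/2)`.

The weight `W z = (z - z₀)^2 + ρ^2 z₀ z` has `‖W z‖ = ρ (1 - ‖z‖^2)` exactly on `‖z - z₀‖ = ρ`.
-/

open Metric Set Filter Topology Complex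

namespace Crest.Agent.R269.Der_499

/-- the weight -/
noncomputable def W (z₀ : ℂ) (ρ : ℝ) (z : ℂ) : ℂ := (z - z₀) ^ 2 + (ρ : ℂ) ^ 2 * z₀ * z

lemma differentiable_W (z₀ : ℂ) (ρ : ℝ) : Differentiable ℂ (W z₀ ρ) := by
  unfold W; fun_prop

lemma continuous_W (z₀ : ℂ) (ρ : ℝ) : Continuous (W z₀ ρ) := (differentiable_W z₀ ρ).continuous

lemma norm_W_eq {z₀ : ℂ} (h0 : ‖z₀‖ = 1) {ρ : ℝ} {z : ℂ} (hz1 : ‖z‖ ≤ 1)
    (hz : ‖z - z₀‖ = ρ) : ‖W z₀ ρ z‖ = ρ * (1 - ‖z‖ ^ 2) := by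
  have e0 : z₀ * (starRingEnd ℂ) z₀ = 1 := by
    rw [Complex.mul_conj, Complex.normSq_eq_norm_sq, h0]; norm_num
  have e1 : z * (starRingEnd ℂ) z = ((‖z‖ ^ 2 : ℝ) : ℂ) := by
    rw [Complex.mul_conj, Complex.normSq_eq_norm_sq]
  have e2 : ((ρ : ℂ)) ^ 2 = (z - z₀) * ((starRingEnd ℂ) z - (starRingEnd ℂ) z₀) := by
    rw [← map_sub, Complex.mul_conj, Complex.normSq_eq_norm_sq, hz]; norm_cast
  have key : W z₀ ρ z = -((z - z₀) * z₀ * ((1 - ‖z‖ ^ 2 : ℝ) : ℂ)) := by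
    unfold W
    rw [e2]
    push_cast at e1 ⊢
    linear_combination (-(z - z₀) * z) * e0 + (z - z₀) * z₀ * e1
  rw [key, norm_neg, norm_mul, norm_mul, hz, h0, Complex.norm_real, Real.norm_eq_abs,
    abs_of_nonneg (by nlinarith [norm_nonneg z])]
  ring

lemma norm_W_le {z₀ : ℂ} (h0 : ‖z₀‖ = 1) {ρ : ℝ} (hρ : 0 ≤ ρ) {z : ℂ} (hz1 : ‖z‖ ≤ 1)
    (hz : ‖z - z₀‖ ≤ ρ) : ‖W z₀ ρ z‖ ≤ 2 * ρ ^ 2 := by
  unfold W
  refine (norm_add_le _ _).trans ?_
  rw [norm_pow, norm_mul, norm_mul, norm_pow, h0, Complex.norm_real, Real.norm_eq_abs,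
    abs_of_nonneg hρ]
  have h1 : ‖z - z₀‖ ^ 2 ≤ ρ ^ 2 := by
    exact pow_le_pow_left₀ (norm_nonneg _) hz 2
  have h2 : ρ ^ 2 * 1 * ‖z‖ ≤ ρ ^ 2 := by nlinarith [sq_nonneg ρ]
  linarith

lemma le_norm_W {z₀ : ℂ} (h0 : ‖z₀‖ = 1) {r : ℝ} (hr : 0 < r) (hr1 : r ≤ 1) {z : ℂ}
    (hz : ‖z - z₀‖ ≤ r / 2) : r ^ 2 / 32 ≤ ‖W z₀ (3 / 4 * r) z‖ := by
  have h1 : 1 - r / 2 ≤ ‖z‖ := by
    have := norm_sub_norm_le z₀ (z₀ - z)
    have e : z₀ - (z₀ - z) = z := by ring
    rw [e, h0, norm_sub_rev] at this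
    linarith
  have h2 : ‖(((3 / 4 * r : ℝ)) : ℂ) ^ 2 * z₀ * z‖ - ‖(z - z₀) ^ 2‖ ≤ ‖W z₀ (3 / 4 * r) z‖ := by
    unfold W
    have := norm_sub_norm_le ((((3 / 4 * r : ℝ)) : ℂ) ^ 2 * z₀ * z) (-(z - z₀) ^ 2)
    rw [norm_neg, sub_neg_eq_add, add_comm ((((3 / 4 * r : ℝ)) : ℂ) ^ 2 * z₀ * z)] at this
    exact this
  rw [norm_mul, norm_mul, norm_pow, norm_pow, h0, Complex.norm_real, Real.norm_eq_abs,
    abs_of_nonneg (by positivity)] at h2
  have h3 : ‖z - z₀‖ ^ 2 ≤ (r / 2) ^ 2 := pow_le_pow_left₀ (norm_nonneg _) hz 2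
  have h4 : (3 / 4 * r) ^ 2 * (1 / 2) ≤ (3 / 4 * r) ^ 2 * 1 * ‖z‖ := by
    rw [mul_one]
    apply mul_le_mul_of_nonneg_left _ (by positivity)
    linarith
  nlinarith

/-- the lens -/
def Lens (z₀ : ℂ) (r : ℝ) : Set ℂ := ball (0 : ℂ) 1 ∩ ball z₀ r

lemma isOpen_Lens (z₀ : ℂ) (r : ℝ) : IsOpen (Lens z₀ r) := isOpen_ball.inter isOpen_ball

lemma closure_Lens_subset (z₀ : ℂ) (r : ℝ) :
    closure (Lens z₀ r) ⊆ closedBall 0 1 ∩ closedBall z₀ r :=
  closure_minimal (inter_subset_inter ball_subset_closedBall ball_subset_closedBall)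
    (isClosed_closedBall.inter isClosed_closedBall)

lemma closedBall_inter_subset_closure {z₀ : ℂ} (h0 : ‖z₀‖ = 1) {r : ℝ} (hr : 0 < r)
    (hr1 : r ≤ 1) {z : ℂ} (hz1 : ‖z‖ ≤ 1) (hz : ‖z - z₀‖ ≤ r) : z ∈ closure (Lens z₀ r) := by
  -- move towards the interior point `c = (1 - r/2) z₀`
  have hc : ((1 - r / 2 : ℝ) : ℂ) * z₀ ∈ Lens z₀ r := by
    constructor
    · rw [mem_ball_zero_iff, norm_mul, h0, Complex.norm_real, Real.norm_eq_abs,
        abs_of_nonneg (by linarith)]; linarith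
    · rw [mem_ball, dist_eq_norm]
      have : ((1 - r / 2 : ℝ) : ℂ) * z₀ - z₀ = ((-(r / 2) : ℝ) : ℂ) * z₀ := by push_cast; ring
      rw [this, norm_mul, h0, Complex.norm_real, Real.norm_eq_abs, abs_neg,
        abs_of_nonneg (by linarith)]; linarith
  have hconv : Convex ℝ (closedBall (0 : ℂ) 1 ∩ closedBall z₀ r) :=
    (convex_closedBall _ _).inter (convex_closedBall _ _)
  have hint : interior (closedBall (0 : ℂ) 1 ∩ closedBall z₀ r) = Lens z₀ r := by
    rw [interior_inter, interior_closedBall _ one_ne_zero, interior_closedBall _ hr.ne']; rfl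
  have hcl := hconv.closure_interior_eq_closure_of_nonempty_interior ⟨_, hint ▸ hc⟩
  rw [hint] at hcl
  rw [hcl]
  apply subset_closure
  exact ⟨by simpa using hz1, by simpa [dist_eq_norm] using hz⟩

variable {E : Type*} [NormedAddCommGroup E] [NormedSpace ℂ E]

/-- rotation estimate: `‖e^{ih} - 1‖ ≤ |h|` -/
lemma norm_exp_I_sub_one_le (h : ℝ) : ‖Complex.exp (h * I) - 1‖ ≤ |h| := by
  have := Real.norm_exp_I_mul_ofReal_sub_one_le (x := h)
  rwa [mul_comm I (h : ℂ), Real.norm_eq_abs] at this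

lemma norm_rot (h : ℝ) (z : ℂ) : ‖Complex.exp (h * I) * z‖ = ‖z‖ := by
  rw [norm_mul, Complex.norm_exp_ofReal_mul_I, one_mul]

lemma norm_rot_sub (h : ℝ) {z : ℂ} (hz : ‖z‖ ≤ 1) : ‖Complex.exp (h * I) * z - z‖ ≤ |h| := by
  have : Complex.exp (h * I) * z - z = (Complex.exp (h * I) - 1) * z := by ring
  rw [this, norm_mul]
  calc _ ≤ |h| * 1 := mul_le_mul (norm_exp_I_sub_one_le h) hz (norm_nonneg _) (abs_nonneg _)
    _ = |h| := mul_one _

/-- interior Cauchy estimate in the lens -/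
lemma norm_deriv_le_lens {z₀ : ℂ} {r M : ℝ} {u : ℂ → E}
    (hu : DiffContOnCl ℂ u (Lens z₀ r))
    (hM : ∀ z, ‖z‖ ≤ 1 → ‖z - z₀‖ ≤ r → ‖u z‖ ≤ M) {w : ℂ} {d : ℝ} (hd : 0 < d)
    (hw1 : ‖w‖ + d ≤ 1) (hw2 : ‖w - z₀‖ + d ≤ r) : ‖deriv u w‖ ≤ M / d := by
  have hsub : ball w d ⊆ Lens z₀ r := by
    intro y hy
    rw [mem_ball, dist_eq_norm] at hy
    constructor
    · rw [mem_ball_zero_iff]
      have : ‖y‖ ≤ ‖y - w‖ + ‖w‖ := by simpa using norm_add_le (y - w) w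
      linarith
    · rw [mem_ball, dist_eq_norm]
      have : ‖y - z₀‖ ≤ ‖y - w‖ + ‖w - z₀‖ := by simpa using norm_add_le (y - w) (w - z₀)
      linarith
  apply Complex.norm_deriv_le_of_forall_mem_sphere_norm_le hd (hu.mono hsub)
  intro y hy
  rw [mem_sphere, dist_eq_norm] at hy
  apply hM
  · have : ‖y‖ ≤ ‖y - w‖ + ‖w‖ := by simpa using norm_add_le (y - w) w
    linarith
  · have : ‖y - z₀‖ ≤ ‖y - w‖ + ‖w - z₀‖ := by simpa using norm_add_le (y - w) (w - z₀)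
    linarith

/-- tangential difference quotient, interior bound -/
lemma norm_rot_diff_le {z₀ : ℂ} {r M : ℝ} {u : ℂ → E}
    (hu : DiffContOnCl ℂ u (Lens z₀ r))
    (hM : ∀ z, ‖z‖ ≤ 1 → ‖z - z₀‖ ≤ r → ‖u z‖ ≤ M) {h : ℝ} (hh0 : 0 < h) {z : ℂ}
    {d : ℝ} (hd : 0 < d) (hz1 : ‖z‖ + d ≤ 1) (hz2 : ‖z - z₀‖ + h + d ≤ r) :
    ‖u (Complex.exp (h * I) * z) - u z‖ ≤ h * (M / d) := by
  have hzle : ‖z‖ ≤ 1 := by linarith
  have hM0 : 0 ≤ M / d := by
    have : 0 ≤ M := (norm_nonneg _).trans (hM z hzle (by linarith))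
    positivity
  have key : ∀ s ∈ Icc (0 : ℝ) h,
      HasDerivWithinAt (fun s : ℝ => u (Complex.exp (s * I) * z))
        ((Complex.exp (s * I) * I * z) • deriv u (Complex.exp (s * I) * z)) (Icc 0 h) s := by
    intro s hs
    have hmem : Complex.exp (s * I) * z ∈ Lens z₀ r := by
      constructor
      · rw [mem_ball_zero_iff, norm_rot]; linarith
      · rw [mem_ball, dist_eq_norm]
        have h1 := norm_rot_sub s hzle
        rw [abs_of_nonneg hs.1] at h1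
        have h2 : ‖Complex.exp (s * I) * z - z₀‖ ≤
            ‖Complex.exp (s * I) * z - z‖ + ‖z - z₀‖ := by
          simpa using norm_add_le (Complex.exp (s * I) * z - z) (z - z₀)
        have := hs.2
        linarith
    have hu' : HasDerivAt u (deriv u (Complex.exp (s * I) * z)) (Complex.exp (s * I) * z) :=
      ((hu.differentiableOn.differentiableAt ((isOpen_Lens z₀ r).mem_nhds hmem))).hasDerivAt
    have hg : HasDerivAt (fun s : ℝ => Complex.exp (s * I) * z)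
        (Complex.exp (s * I) * I * z) s := by
      have h1 : HasDerivAt (fun s : ℝ => (s : ℂ) * I) I s := by
        simpa using (Complex.ofRealCLM.hasDerivAt (x := s)).mul_const I
      exact (h1.cexp).mul_const z
    exact (hu'.scomp s hg).hasDerivWithinAt
  have hb : ∀ s ∈ Icc (0 : ℝ) h,
      ‖(Complex.exp (s * I) * I * z) • deriv u (Complex.exp (s * I) * z)‖ ≤ M / d := by
    intro s hs
    have h1 := norm_rot_sub s hzle
    rw [abs_of_nonneg hs.1] at h1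
    have h2 : ‖Complex.exp (s * I) * z - z₀‖ ≤
        ‖Complex.exp (s * I) * z - z‖ + ‖z - z₀‖ := by
      simpa using norm_add_le (Complex.exp (s * I) * z - z) (z - z₀)
    have h3 := hs.2
    have hc := norm_deriv_le_lens hu hM (w := Complex.exp (s * I) * z) hd
      (by rw [norm_rot]; linarith) (by linarith)
    rw [norm_smul, norm_mul, norm_mul, Complex.norm_exp_ofReal_mul_I, Complex.norm_I, one_mul,
      one_mul]
    calc ‖z‖ * ‖deriv u (Complex.exp (s * I) * z)‖ ≤ 1 * (M / d) :=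
          mul_le_mul hzle hc (norm_nonneg _) zero_le_one
      _ = M / d := one_mul _
  have := (convex_Icc (0 : ℝ) h).norm_image_sub_le_of_norm_hasDerivWithin_le key hb
    (left_mem_Icc.2 hh0.le) (right_mem_Icc.2 hh0.le)
  simp only [Complex.ofReal_zero, zero_mul, Complex.exp_zero, one_mul, sub_zero] at this
  rw [Real.norm_eq_abs, abs_of_pos hh0] at this
  linarith

/-- **Key estimate** on the lens of radius `ρ = 3r/4`. -/
lemma norm_W_mul_diff_le {z₀ : ℂ} (h0 : ‖z₀‖ = 1) {r L M : ℝ} (hr : 0 < r) (hr1 : r ≤ 1)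
    {u : ℂ → E} (hu : DiffContOnCl ℂ u (Lens z₀ r))
    (hM : ∀ z, ‖z‖ ≤ 1 → ‖z - z₀‖ ≤ r → ‖u z‖ ≤ M)
    (hL : ∀ z z', ‖z‖ = 1 → ‖z'‖ = 1 → ‖z - z₀‖ ≤ r → ‖z' - z₀‖ ≤ r →
      ‖u z - u z'‖ ≤ L * ‖z - z'‖)
    {h : ℝ} (hh0 : 0 < h) (hh1 : h ≤ r / 8) {z : ℂ} (hz1 : ‖z‖ < 1) (hz2 : ‖z - z₀‖ < 3 / 4 * r) :
    ‖W z₀ (3 / 4 * r) z‖ * ‖u (Complex.exp (h * I) * z) - u z‖ ≤
      h * (9 / 8 * r ^ 2 * L + 9 * r * M) := by
  set ρ : ℝ := 3 / 4 * r with hρ
  have hM0 : 0 ≤ M := (norm_nonneg _).trans (hM z₀ h0.le (by simp [hr.le]))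
  have hz₀L : 0 ≤ L := by
    -- `L ≥ 0`: two different points on the arc
    by_contra hneg
    push Not at hneg
    have hs : ‖Complex.exp (h * I) * z₀ - z₀‖ ≤ h := by
      simpa [abs_of_pos hh0] using norm_rot_sub h h0.le
    have h1 := hL (Complex.exp (h * I) * z₀) z₀ (by rw [norm_rot, h0]) h0
      (by linarith) (by simp [hr.le])
    have h2 : 0 < ‖Complex.exp (h * I) * z₀ - z₀‖ := by
      rw [norm_pos_iff]
      intro h3
      have h4 : Complex.exp (h * I) = 1 := by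
        have : (Complex.exp (h * I) - 1) * z₀ = 0 := by rw [← h3]; ring
        rcases mul_eq_zero.1 this with h5 | h5
        · exact sub_eq_zero.1 h5
        · rw [h5] at h0; simp at h0
      have h5 := congrArg Complex.re h4
      rw [Complex.exp_ofReal_mul_I_re] at h5
      simp only [Complex.one_re] at h5
      have h6 := Real.cos_lt_cos_of_nonneg_of_le_pi (x := 0) (y := h) le_rfl
        (by linarith [Real.pi_gt_three]) hh0
      rw [Real.cos_zero] at h6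
      linarith
    have := norm_nonneg (u (Complex.exp (h * I) * z₀) - u z₀)
    nlinarith
  have hρ0 : 0 < ρ := by positivity
  have hρr : ρ ≤ r := by rw [hρ]; linarith
  have hsub : Lens z₀ ρ ⊆ Lens z₀ r := inter_subset_inter_right _ (ball_subset_ball hρr)
  have hmaps : MapsTo (fun z => Complex.exp (h * I) * z) (Lens z₀ ρ) (Lens z₀ r) := by
    intro y hy
    have hy1 : ‖y‖ < 1 := by simpa using hy.1
    have hy2 : ‖y - z₀‖ < ρ := by simpa [dist_eq_norm] using hy.2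
    constructor
    · rw [mem_ball_zero_iff, norm_rot]; exact hy1
    · rw [mem_ball, dist_eq_norm]
      have h1 := norm_rot_sub h hy1.le
      rw [abs_of_pos hh0] at h1
      have h2 : ‖Complex.exp (h * I) * y - z₀‖ ≤
          ‖Complex.exp (h * I) * y - y‖ + ‖y - z₀‖ := by
        simpa using norm_add_le (Complex.exp (h * I) * y - y) (y - z₀)
      rw [hρ] at hy2
      linarith
  have hdiff : DiffContOnCl ℂ (fun z => W z₀ ρ z • (u (Complex.exp (h * I) * z) - u z))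
      (Lens z₀ ρ) := by
    have h0' : Differentiable ℂ (fun z : ℂ => Complex.exp (h * I) * z) :=
      differentiable_id.const_mul _
    have h1 : DiffContOnCl ℂ (fun z => u (Complex.exp (h * I) * z)) (Lens z₀ ρ) :=
      hu.comp h0'.diffContOnCl hmaps
    exact (differentiable_W z₀ ρ).diffContOnCl.smul (h1.sub (hu.mono hsub))
  have hbd : Bornology.IsBounded (Lens z₀ ρ) := isBounded_ball.subset inter_subset_left
  have hfr : ∀ y ∈ frontier (Lens z₀ ρ),
      ‖W z₀ ρ y • (u (Complex.exp (h * I) * y) - u y)‖ ≤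
        h * (9 / 8 * r ^ 2 * L + 9 * r * M) := by
    intro y hy
    have hycl := closure_Lens_subset z₀ ρ hy.1
    have hy1 : ‖y‖ ≤ 1 := by simpa using hycl.1
    have hy2 : ‖y - z₀‖ ≤ ρ := by simpa [dist_eq_norm] using hycl.2
    rw [norm_smul]
    rcases hy1.eq_or_lt with hy1' | hy1'
    · -- on the unit circle
      have hr1' := norm_rot_sub h hy1
      rw [abs_of_pos hh0] at hr1'
      have h2 : ‖Complex.exp (h * I) * y - z₀‖ ≤
          ‖Complex.exp (h * I) * y - y‖ + ‖y - z₀‖ := by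
        simpa using norm_add_le (Complex.exp (h * I) * y - y) (y - z₀)
      have h3 := hL (Complex.exp (h * I) * y) y (by rw [norm_rot, hy1']) hy1'
        (by rw [hρ] at hy2; linarith) (by linarith)
      have h4 : ‖u (Complex.exp (h * I) * y) - u y‖ ≤ L * h :=
        h3.trans (mul_le_mul_of_nonneg_left hr1' hz₀L)
      have h5 := norm_W_le h0 hρ0.le hy1 hy2
      calc ‖W z₀ ρ y‖ * ‖u (Complex.exp (h * I) * y) - u y‖ ≤ (2 * ρ ^ 2) * (L * h) :=
            mul_le_mul h5 h4 (norm_nonneg _) (by positivity)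
        _ = h * (9 / 8 * r ^ 2 * L) := by rw [hρ]; ring
        _ ≤ h * (9 / 8 * r ^ 2 * L + 9 * r * M) := by
            apply mul_le_mul_of_nonneg_left _ hh0.le
            have : 0 ≤ 9 * r * M := by positivity
            linarith
    · -- on the inner arc
      have hyeq : ‖y - z₀‖ = ρ := by
        rcases hy2.eq_or_lt with h' | h'
        · exact h'
        · exfalso
          have hin : y ∈ Lens z₀ ρ := ⟨by simpa using hy1', by simpa [dist_eq_norm] using h'⟩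
          have := hy.2
          rw [(isOpen_Lens z₀ ρ).interior_eq] at this
          exact this hin
      have hW := norm_W_eq h0 hy1 hyeq
      have hδ0 : 0 < 1 - ‖y‖ := by linarith
      have hδρ : 1 - ‖y‖ ≤ ρ := by
        have := norm_sub_norm_le z₀ y
        rw [norm_sub_rev, hyeq, h0] at this
        linarith
      rw [hW]
      have h1y : 1 - ‖y‖ ^ 2 ≤ 2 * (1 - ‖y‖) := by nlinarith [norm_nonneg y]
      have h1y0 : 0 ≤ 1 - ‖y‖ ^ 2 := by nlinarith [norm_nonneg y]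
      by_cases hcase : 1 - ‖y‖ ≤ r / 8
      · have hD := norm_rot_diff_le hu hM hh0 (z := y) hδ0 (by linarith)
          (by rw [hyeq, hρ]; linarith)
        calc ρ * (1 - ‖y‖ ^ 2) * ‖u (Complex.exp (h * I) * y) - u y‖
            ≤ ρ * (2 * (1 - ‖y‖)) * (h * (M / (1 - ‖y‖))) := by
              apply mul_le_mul _ hD (norm_nonneg _) (by positivity)
              exact mul_le_mul_of_nonneg_left h1y hρ0.le
          _ = h * (2 * ρ * M) := by field_simp
          _ ≤ h * (9 / 8 * r ^ 2 * L + 9 * r * M) := by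
              apply mul_le_mul_of_nonneg_left _ hh0.le
              have h1 : 0 ≤ 9 / 8 * r ^ 2 * L := by positivity
              have h2 : 0 ≤ r * M := by positivity
              rw [hρ]
              nlinarith
      · push Not at hcase
        have hD := norm_rot_diff_le hu hM hh0 (z := y) (d := r / 8) (by positivity)
          (by linarith) (by rw [hyeq, hρ]; linarith)
        calc ρ * (1 - ‖y‖ ^ 2) * ‖u (Complex.exp (h * I) * y) - u y‖
            ≤ ρ * (2 * ρ) * (h * (M / (r / 8))) := by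
              apply mul_le_mul _ hD (norm_nonneg _) (by positivity)
              exact mul_le_mul_of_nonneg_left (by linarith) hρ0.le
          _ = h * (9 * r * M) := by rw [hρ]; field_simp; ring
          _ ≤ h * (9 / 8 * r ^ 2 * L + 9 * r * M) := by
              apply mul_le_mul_of_nonneg_left _ hh0.le
              have h1 : 0 ≤ 9 / 8 * r ^ 2 * L := by positivity
              linarith
  have hz : z ∈ closure (Lens z₀ ρ) :=
    subset_closure ⟨by simpa using hz1, by simpa [dist_eq_norm] using hz2⟩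
  have := Complex.norm_le_of_forall_mem_frontier_norm_le hbd hdiff hfr hz
  rwa [norm_smul] at this

/-- **DER** (Blueprint (4.4)): derivative bound in the half lens. -/
theorem norm_deriv_le {z₀ : ℂ} (h0 : ‖z₀‖ = 1) {r L M : ℝ} (hr : 0 < r) (hr1 : r ≤ 1)
    {u : ℂ → E} (hu : DiffContOnCl ℂ u (ball (0 : ℂ) 1 ∩ ball z₀ r))
    (hM : ∀ z, ‖z‖ ≤ 1 → ‖z - z₀‖ ≤ r → ‖u z‖ ≤ M)
    (hL : ∀ z z', ‖z‖ = 1 → ‖z'‖ = 1 → ‖z - z₀‖ ≤ r → ‖z' - z₀‖ ≤ r →
      ‖u z - u z'‖ ≤ L * ‖z - z'‖)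
    {z : ℂ} (hz1 : ‖z‖ < 1) (hz2 : ‖z - z₀‖ < r / 2) :
    ‖deriv u z‖ ≤ 72 * L + 576 * M / r := by
  have hmem : z ∈ ball (0 : ℂ) 1 ∩ ball z₀ r :=
    ⟨by simpa using hz1, by rw [mem_ball, dist_eq_norm]; linarith⟩
  have hder : HasDerivAt u (deriv u z) z :=
    ((hu.differentiableOn.differentiableAt ((isOpen_Lens z₀ r).mem_nhds hmem))).hasDerivAt
  -- the tangential curve
  have hg : HasDerivAt (fun s : ℝ => Complex.exp (s * I) * z)
      (I * z) 0 := by
    have h1 : HasDerivAt (fun s : ℝ => (s : ℂ) * I) I 0 := by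
      simpa using (Complex.ofRealCLM.hasDerivAt (x := 0)).mul_const I
    have := (h1.cexp).mul_const z
    simpa using this
  have hcomp : HasDerivAt (fun s : ℝ => u (Complex.exp (s * I) * z)) ((I * z) • deriv u z) 0 := by
    have h1 : HasDerivAt u (deriv u z) ((fun s : ℝ => Complex.exp (s * I) * z) 0) := by
      simpa using hder
    exact h1.scomp (0 : ℝ) hg
  have hlim := hcomp.tendsto_slope_zero_right
  simp only [zero_add, Complex.ofReal_zero, zero_mul, Complex.exp_zero, one_mul] at hlim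
  have hlim2 : Tendsto (fun h : ℝ => ‖W z₀ (3 / 4 * r) z‖ *
      ‖h⁻¹ • (u (Complex.exp (h * I) * z) - u z)‖) (𝓝[>] 0)
      (𝓝 (‖W z₀ (3 / 4 * r) z‖ * ‖(I * z) • deriv u z‖)) := hlim.norm.const_mul _
  have hle : ‖W z₀ (3 / 4 * r) z‖ * ‖(I * z) • deriv u z‖ ≤
      9 / 8 * r ^ 2 * L + 9 * r * M := by
    apply le_of_tendsto hlim2
    have hev : Ioo (0 : ℝ) (r / 8) ∈ 𝓝[>] (0 : ℝ) := Ioo_mem_nhdsGT (by positivity)
    filter_upwards [hev] with h hh
    have := norm_W_mul_diff_le h0 hr hr1 hu hM hL hh.1 hh.2.le hz1 (by linarith)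
    rw [norm_smul, norm_inv, Real.norm_eq_abs, abs_of_pos hh.1]
    have h3 : ‖W z₀ (3 / 4 * r) z‖ * (h⁻¹ * ‖u (Complex.exp (h * I) * z) - u z‖) =
        h⁻¹ * (‖W z₀ (3 / 4 * r) z‖ * ‖u (Complex.exp (h * I) * z) - u z‖) := by ring
    rw [h3]
    calc h⁻¹ * (‖W z₀ (3 / 4 * r) z‖ * ‖u (Complex.exp (h * I) * z) - u z‖)
        ≤ h⁻¹ * (h * (9 / 8 * r ^ 2 * L + 9 * r * M)) :=
          mul_le_mul_of_nonneg_left this (inv_nonneg.2 hh.1.le)
      _ = 9 / 8 * r ^ 2 * L + 9 * r * M := by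
          rw [← mul_assoc, inv_mul_cancel₀ hh.1.ne', one_mul]
  have hWlow := le_norm_W h0 hr hr1 hz2.le
  have hzlow : 1 / 2 ≤ ‖z‖ := by
    have := norm_sub_norm_le z₀ (z₀ - z)
    have e : z₀ - (z₀ - z) = z := by ring
    rw [e, h0, norm_sub_rev] at this
    linarith
  rw [norm_smul, norm_mul, Complex.norm_I, one_mul] at hle
  have hd0 := norm_nonneg (deriv u z)
  have h1 : r ^ 2 / 32 * (1 / 2 * ‖deriv u z‖) ≤
      ‖W z₀ (3 / 4 * r) z‖ * (‖z‖ * ‖deriv u z‖) := by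
    apply mul_le_mul hWlow _ (by positivity) (norm_nonneg _)
    exact mul_le_mul_of_nonneg_right hzlow hd0
  have h2 : r ^ 2 / 64 * ‖deriv u z‖ ≤ 9 / 8 * r ^ 2 * L + 9 * r * M := by linarith
  have h3 : r ^ 2 / 64 * (72 * L + 576 * M / r) = 9 / 8 * r ^ 2 * L + 9 * r * M := by
    field_simp; ring
  rw [← h3] at h2
  exact le_of_mul_le_mul_left h2 (by positivity)

end Crest.Agent.R269.Der_499
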