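import Mathlib

/-!
# R269 (S0411), leaf F44 (helper669): derivative bounds near the boundary of the disc

(D1) power barrier at a boundary point and the Cauchy estimate;
(D2) the exponents 1/2 and 3/2.
Mathlib only.
-/

set_option autoImplicit false

namespace Crest.Agent.R269.Der_669

open Complex Metric Set Filter Topology

variable {E : Type*} [NormedAddCommGroup E] [NormedSpace ℂ E]

/-- `Re (1 - z ζ⁻¹) ≥ 0` for `‖z‖ ≤ 1 = ‖ζ‖`. -/
theorem re_one_sub_nonneg {ζ z : ℂ} (hζ : ‖ζ‖ = 1) (hz : ‖z‖ ≤ 1) : 0 ≤ (1 - z * ζ⁻¹).re := by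
  have h1 : (z * ζ⁻¹).re ≤ ‖z * ζ⁻¹‖ := re_le_norm _
  have h2 : ‖z * ζ⁻¹‖ ≤ 1 := by rw [norm_mul, norm_inv, hζ]; simpa using hz
  simp only [sub_re, one_re]
  linarith

theorem norm_one_sub {ζ z : ℂ} (hζ : ‖ζ‖ = 1) : ‖1 - z * ζ⁻¹‖ = ‖z - ζ‖ := by
  have hne : ζ ≠ 0 := by intro h; rw [h] at hζ; simp at hζ
  have : 1 - z * ζ⁻¹ = -((z - ζ) * ζ⁻¹) := by field_simp; ring
  rw [this, norm_neg, norm_mul, norm_inv, hζ]; simp

theorem norm_sub_le_add_eps {ζ z : ℂ} (hζ : ‖ζ‖ = 1) (hz : ‖z‖ ≤ 1) {ε : ℝ} (hε : 0 ≤ ε) :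
    ‖z - ζ‖ ≤ ‖1 - z * ζ⁻¹ + ε‖ := by
  rw [← norm_one_sub hζ]
  have h0 := re_one_sub_nonneg hζ hz
  set w := 1 - z * ζ⁻¹ with hw
  rw [← Real.sqrt_sq (norm_nonneg w), ← Real.sqrt_sq (norm_nonneg (w + ε))]
  apply Real.sqrt_le_sqrt
  rw [← normSq_eq_norm_sq, ← normSq_eq_norm_sq, normSq_apply, normSq_apply]
  simp only [add_re, ofReal_re, add_im, ofReal_im, add_zero]
  nlinarith [mul_nonneg h0 hε, mul_nonneg hε hε]

theorem frontier_lens_subset {ζ : ℂ} {r : ℝ} {z : ℂ}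
    (hz : z ∈ frontier (ball (0:ℂ) 1 ∩ ball ζ r)) :
    ‖z‖ ≤ 1 ∧ ‖z - ζ‖ ≤ r ∧ (‖z‖ = 1 ∨ ‖z - ζ‖ = r) := by
  have ho : IsOpen (ball (0:ℂ) 1 ∩ ball ζ r) := isOpen_ball.inter isOpen_ball
  rw [ho.frontier_eq] at hz
  have h1 : z ∈ closure (ball (0:ℂ) 1) := closure_mono inter_subset_left hz.1
  have h2 : z ∈ closure (ball ζ r) := closure_mono inter_subset_right hz.1
  have h1' : ‖z‖ ≤ 1 := by
    have := closure_ball_subset_closedBall h1
    simpa [mem_closedBall, dist_eq_norm] using this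
  have h2' : ‖z - ζ‖ ≤ r := by
    have := closure_ball_subset_closedBall h2
    simpa [mem_closedBall, dist_eq_norm] using this
  refine ⟨h1', h2', ?_⟩
  by_contra hcon
  rw [not_or] at hcon
  apply hz.2
  constructor
  · simpa [mem_ball, dist_eq_norm] using lt_of_le_of_ne h1' hcon.1
  · simpa [mem_ball, dist_eq_norm] using lt_of_le_of_ne h2' hcon.2

/-- (D1) the power barrier -/
theorem norm_le_rpow {r α M K : ℝ} (hr : 0 < r) (hα : 0 ≤ α) (hK0 : 0 ≤ K) {ζ : ℂ}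
    (hζ : ‖ζ‖ = 1) {G : ℂ → E} (hG : DiffContOnCl ℂ G (ball 0 1 ∩ ball ζ r))
    (hM : ∀ z, ‖z‖ ≤ 1 → ‖z - ζ‖ = r → ‖G z‖ ≤ M)
    (hK : ∀ z, ‖z‖ = 1 → ‖z - ζ‖ ≤ r → ‖G z‖ ≤ K * ‖z - ζ‖ ^ α) {z : ℂ} (hz : ‖z‖ ≤ 1)
    (hzr : ‖z - ζ‖ ≤ r) : ‖G z‖ ≤ max K (M / r ^ α) * ‖z - ζ‖ ^ α := by
  have hrα : 0 < r ^ α := Real.rpow_pos_of_pos hr α
  rcases eq_or_lt_of_le hz with h1 | h1
  · exact (hK z h1 hzr).trans (mul_le_mul_of_nonneg_right (le_max_left _ _)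
      (Real.rpow_nonneg (norm_nonneg _) _))
  rcases eq_or_lt_of_le hzr with h2 | h2
  · have := hM z hz h2
    rw [h2]
    calc ‖G z‖ ≤ M := this
      _ = M / r ^ α * r ^ α := by field_simp
      _ ≤ _ := mul_le_mul_of_nonneg_right (le_max_right _ _) hrα.le
  -- the open lens
  have key : ∀ ε : ℝ, 0 < ε → ‖G z‖ ≤ max K (M / r ^ α) * ‖1 - z * ζ⁻¹ + ε‖ ^ α := by
    intro ε hε
    have hpos : ∀ w : ℂ, ‖w‖ ≤ 1 → 0 < (1 - w * ζ⁻¹ + ε).re := by
      intro w hw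
      have := re_one_sub_nonneg hζ hw
      simp only [add_re, ofReal_re]; linarith
    have hnpos : ∀ w : ℂ, ‖w‖ ≤ 1 → 0 < ‖1 - w * ζ⁻¹ + ε‖ := by
      intro w hw
      have := hpos w hw
      exact lt_of_lt_of_le this (re_le_norm _)
    set g : ℂ → ℂ := fun w => (1 - w * ζ⁻¹ + ε) ^ (-(α:ℂ)) with hg
    have hgn : ∀ w : ℂ, ‖g w‖ = ‖1 - w * ζ⁻¹ + ε‖ ^ (-α) := by
      intro w
      have : (-(α:ℂ)) = ((-α : ℝ) : ℂ) := by push_cast; rfl
      rw [hg]; simp only; rw [this, norm_cpow_real]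
    have hgd : ∀ w : ℂ, ‖w‖ ≤ 1 → DifferentiableAt ℂ g w := by
      intro w hw
      apply DifferentiableAt.cpow_const
      · fun_prop
      · exact Or.inl (hpos w hw)
    have hcl : closure (ball (0:ℂ) 1 ∩ ball ζ r) ⊆ closedBall 0 1 :=
      (closure_mono inter_subset_left).trans closure_ball_subset_closedBall
    have hgc : DiffContOnCl ℂ g (ball 0 1 ∩ ball ζ r) := by
      constructor
      · intro w hw
        exact (hgd w (by simpa [dist_eq_norm] using (mem_ball.1 hw.1).le)).differentiableWithinAt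
      · intro w hw
        exact (hgd w (by simpa [dist_eq_norm] using hcl hw)).continuousAt.continuousWithinAt
    have hGg : DiffContOnCl ℂ (fun w => g w • G w) (ball 0 1 ∩ ball ζ r) := hgc.smul hG
    have hbd : Bornology.IsBounded (ball (0:ℂ) 1 ∩ ball ζ r) :=
      isBounded_ball.subset inter_subset_left
    have hmain : ‖g z • G z‖ ≤ max K (M / r ^ α) := by
      apply Complex.norm_le_of_forall_mem_frontier_norm_le hbd hGg
      · intro w hw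
        obtain ⟨hw1, hw2, hw3⟩ := frontier_lens_subset hw
        rw [norm_smul, hgn]
        have hle := norm_sub_le_add_eps hζ hw1 hε.le
        have hn := hnpos w hw1
        rw [Real.rpow_neg hn.le, inv_mul_le_iff₀ (Real.rpow_pos_of_pos hn α)]
        have hmono : ‖w - ζ‖ ^ α ≤ ‖1 - w * ζ⁻¹ + ε‖ ^ α :=
          Real.rpow_le_rpow (norm_nonneg _) hle hα
        have hmax0 : 0 ≤ max K (M / r ^ α) := hK0.trans (le_max_left _ _)
        rcases hw3 with h | h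
        · calc ‖G w‖ ≤ K * ‖w - ζ‖ ^ α := hK w h hw2
            _ ≤ max K (M / r ^ α) * ‖1 - w * ζ⁻¹ + ε‖ ^ α :=
              mul_le_mul (le_max_left _ _) hmono (Real.rpow_nonneg (norm_nonneg _) _) hmax0
            _ = _ := mul_comm _ _
        · calc ‖G w‖ ≤ M := hM w hw1 h
            _ = M / r ^ α * ‖w - ζ‖ ^ α := by rw [h]; field_simp
            _ ≤ max K (M / r ^ α) * ‖w - ζ‖ ^ α :=
              mul_le_mul_of_nonneg_right (le_max_right _ _) (Real.rpow_nonneg (norm_nonneg _) _)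
            _ ≤ max K (M / r ^ α) * ‖1 - w * ζ⁻¹ + ε‖ ^ α :=
              mul_le_mul_of_nonneg_left hmono hmax0
            _ = _ := mul_comm _ _
      · apply subset_closure
        exact ⟨by simpa [dist_eq_norm] using h1, by simpa [mem_ball, dist_eq_norm] using h2⟩
    have hn := hnpos z hz
    rw [norm_smul, hgn, Real.rpow_neg hn.le, inv_mul_le_iff₀ (Real.rpow_pos_of_pos hn α)] at hmain
    rw [mul_comm]; exact hmain
  -- let ε → 0
  have hlim : Tendsto (fun ε : ℝ => max K (M / r ^ α) * ‖1 - z * ζ⁻¹ + ε‖ ^ α) (𝓝[>] 0)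
      (𝓝 (max K (M / r ^ α) * ‖1 - z * ζ⁻¹ + (0:ℝ)‖ ^ α)) := by
    apply Tendsto.mono_left _ nhdsWithin_le_nhds
    apply Continuous.tendsto
    apply Continuous.mul continuous_const
    apply Continuous.rpow_const
    · fun_prop
    · intro x; right; exact hα
  have := ge_of_tendsto hlim (eventually_mem_nhdsWithin.mono (fun ε hε => key ε hε))
  simpa [norm_one_sub hζ] using this

/-- (D1), second half: Cauchy estimate at the point `(1 - d) ζ`. -/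
theorem norm_deriv_le_rpow {r α M K : ℝ} (hr : 0 < r) (hr1 : r ≤ 1) (hα : 0 ≤ α) (hK0 : 0 ≤ K) {ζ : ℂ}
    (hζ : ‖ζ‖ = 1) {G : ℂ → E} (hG : DiffContOnCl ℂ G (ball 0 1 ∩ ball ζ r))
    (hM : ∀ z, ‖z‖ ≤ 1 → ‖z - ζ‖ = r → ‖G z‖ ≤ M)
    (hK : ∀ z, ‖z‖ = 1 → ‖z - ζ‖ ≤ r → ‖G z‖ ≤ K * ‖z - ζ‖ ^ α) {d : ℝ} (hd : 0 < d)
    (hdr : d ≤ r / 2) :
    ‖deriv G ((1 - d : ℝ) * ζ)‖ ≤ 2 * (3 / 2 : ℝ) ^ α * max K (M / r ^ α) * d ^ (α - 1) := by
  have hmax0 : 0 ≤ max K (M / r ^ α) := hK0.trans (le_max_left _ _)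
  set z₀ : ℂ := (1 - d : ℝ) * ζ with hz₀
  have hz₀n : ‖z₀‖ = 1 - d := by
    rw [hz₀, norm_mul, hζ, mul_one, Complex.norm_real, Real.norm_of_nonneg (by linarith)]
  have hz₀ζ : ‖z₀ - ζ‖ = d := by
    have : z₀ - ζ = ((-d : ℝ) : ℂ) * ζ := by rw [hz₀]; push_cast; ring
    rw [this, norm_mul, hζ, mul_one, Complex.norm_real, Real.norm_eq_abs, abs_neg, abs_of_pos hd]
  have hsub : closedBall z₀ (d / 2) ⊆ ball (0:ℂ) 1 ∩ ball ζ r := by
    intro w hw
    have hw' : ‖w - z₀‖ ≤ d / 2 := by simpa [dist_eq_norm] using hw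
    constructor
    · rw [mem_ball, dist_eq_norm, sub_zero]
      calc ‖w‖ = ‖(w - z₀) + z₀‖ := by ring_nf
        _ ≤ ‖w - z₀‖ + ‖z₀‖ := norm_add_le _ _
        _ ≤ d / 2 + (1 - d) := by rw [hz₀n]; linarith
        _ < 1 := by linarith
    · rw [mem_ball, dist_eq_norm]
      calc ‖w - ζ‖ = ‖(w - z₀) + (z₀ - ζ)‖ := by ring_nf
        _ ≤ ‖w - z₀‖ + ‖z₀ - ζ‖ := norm_add_le _ _
        _ ≤ d / 2 + d := by rw [hz₀ζ]; linarith
        _ < r := by linarith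
  have hdc : DiffContOnCl ℂ G (ball z₀ (d / 2)) := by
    constructor
    · exact hG.differentiableOn.mono (ball_subset_closedBall.trans hsub)
    · exact hG.continuousOn.mono ((closure_ball_subset_closedBall.trans hsub).trans subset_closure)
  have hb : ∀ w ∈ sphere z₀ (d / 2), ‖G w‖ ≤ max K (M / r ^ α) * (3 / 2 * d) ^ α := by
    intro w hw
    have hw' := hsub (sphere_subset_closedBall hw)
    have hw1 : ‖w‖ ≤ 1 := by simpa [dist_eq_norm] using (mem_ball.1 hw'.1).le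
    have hw2 : ‖w - ζ‖ ≤ r := by simpa [dist_eq_norm] using (mem_ball.1 hw'.2).le
    have hw3 : ‖w - ζ‖ ≤ 3 / 2 * d := by
      have : ‖w - z₀‖ = d / 2 := by simpa [dist_eq_norm] using hw
      calc ‖w - ζ‖ = ‖(w - z₀) + (z₀ - ζ)‖ := by ring_nf
        _ ≤ ‖w - z₀‖ + ‖z₀ - ζ‖ := norm_add_le _ _
        _ = 3 / 2 * d := by rw [hz₀ζ, this]; ring
    exact (norm_le_rpow hr hα hK0 hζ hG hM hK hw1 hw2).trans
      (mul_le_mul_of_nonneg_left (Real.rpow_le_rpow (norm_nonneg _) hw3 hα) hmax0)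
  have := Complex.norm_deriv_le_of_forall_mem_sphere_norm_le (by linarith : 0 < d / 2) hdc hb
  refine this.trans (le_of_eq ?_)
  rw [Real.mul_rpow (by norm_num) hd.le, Real.rpow_sub hd, Real.rpow_one]
  field_simp

end Crest.Agent.R269.Der_669
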