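import Crest.Agent.R269.DictA_886
import Crest.Agent.R269.Lev_901

/-!
# R269 (S0411), leaf DICT-FLD, file B (helper886): tangent coordinates and the Levi dictionary

`CA.cd i p v : Cn n` = `D(ζ i)(p) v`, the coordinates of a tangent vector `v` at the cone point `p`.

* `cd_self`      : `cd i p p = 0`;           `cd_smul` : `cd i (c•p) (c•v) = cd i p v`;
* `cd_dσ`        : `cd i (σ z) (dσ_z w) = w`;
* `tan_decomp`   : `v ∈ Tan I p` ⇒ `v = r • p + c • dσ (cd i p v)` if `p = c • σ (ζ p)`;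
* `cd_chg`       : `cd j p v = J_{ij}(x) · cd i p v`;
* `lev_eq_lev`   : `lev u p v = lev (u ∘ σ i) (ζ i p) (cd i p v)` for `v ∈ Tan I p`;
* `lev_eq_hess`  : `= Re ∑ hess f_{ab} w_a conj w_b`, `f = dn u`, `w = cd i p v`.
-/

set_option autoImplicit false
set_option linter.unusedSectionVars false

open MvPolynomial Crest.AlgGeometry.ProjEmb Set Filter Topology
open scoped ContDiff ComplexConjugate

namespace Crest.Agent.R269.DictB_886

open Crest.Agent.R269.Geo_328 Crest.Agent.R275.Geo Crest.Agent.R269.CAtl_886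
open Crest.Agent.R269.DictA_886 Crest.Agent.R275.Core144
open Crest.Agent.R273.Defs_333 (ProjD HM)
open Crest.Agent.R273.Hess_333 Crest.Agent.R273.HessB_333 Crest.Agent.R273.Kah_333

noncomputable section

variable {N n : ℕ} {I : Ideal (HomCoordRing N)}

theorem two_le_infty : (2 : WithTop ℕ∞) ≤ ∞ := WithTop.coe_le_coe.2 le_top

theorem analyticAt_of_diff {E F : Type*} [NormedAddCommGroup E] [NormedSpace ℂ E]
    [FiniteDimensional ℂ E] [NormedAddCommGroup F] [NormedSpace ℂ F] [CompleteSpace F]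
    {f : E → F} {U : Set E} (hU : IsOpen U) (hf : DifferentiableOn ℂ f U) {z : E} (hz : z ∈ U) :
    AnalyticAt ℂ f z :=
  Crest.Agent.R266.SCV.analyticOnNhd_of_differentiableOn hU hf z hz

variable {A : Atl n (XX I)} (CA : CAtl I A)

/-- coordinates of a tangent vector -/
def cd (i : A.ι) (p v : EE N) : Cn n := fderiv ℂ (CA.ζ i) p v

theorem σ_analyticAt {i : A.ι} {z : Cn n} (hz : z ∈ (A.e i).target) : AnalyticAt ℂ (CA.σ i) z :=
  analyticAt_of_diff (A.e i).open_target (CA.F_hol i) hz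

theorem ζ_analyticAt {i : A.ι} {q : EE N} (hq : q ∈ CA.W i) : AnalyticAt ℂ (CA.ζ i) q :=
  analyticAt_of_diff (CA.W_open i) (CA.ζ_hol i) hq

theorem cd_add (i : A.ι) (p v w : EE N) : cd CA i p (v + w) = cd CA i p v + cd CA i p w := by
  unfold cd; rw [map_add]

theorem cd_csmul (i : A.ι) (p : EE N) (c : ℂ) (v : EE N) : cd CA i p (c • v) = c • cd CA i p v := by
  unfold cd; rw [map_smul]

theorem cd_self {i : A.ι} {p : EE N} (hp : p ∈ CA.W i) : cd CA i p p = 0 := by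
  have h1 : HasDerivAt (fun t : ℂ => (1 + t) • p) p 0 := by
    have h2 : HasDerivAt (fun t : ℂ => 1 + t) 1 0 := (hasDerivAt_id (0 : ℂ)).const_add 1
    simpa using h2.smul_const p
  have h2 : HasDerivAt (fun t : ℂ => CA.ζ i ((1 + t) • p)) (cd CA i p p) 0 := by
    have h3 : HasFDerivAt (CA.ζ i) (fderiv ℂ (CA.ζ i) p) ((1 + (0 : ℂ)) • p) := by
      rw [add_zero, one_smul]
      exact (CA.ζ_differentiableAt hp).hasFDerivAt
    exact h3.comp_hasDerivAt (0 : ℂ) h1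
  have h3 : (fun t : ℂ => CA.ζ i ((1 + t) • p)) =ᶠ[𝓝 0] fun _ => CA.ζ i p := by
    have h4 : ∀ᶠ t : ℂ in 𝓝 0, 1 + t ≠ 0 := by
      have h5 : ContinuousAt (fun t : ℂ => 1 + t) 0 := by fun_prop
      exact h5.eventually_ne (by simp)
    filter_upwards [h4] with t ht
    exact CA.ζ_smul i _ ht p hp
  have h4 := (hasDerivAt_const (0 : ℂ) (CA.ζ i p)).congr_of_eventuallyEq h3
  exact h2.unique h4

theorem cd_smul {i : A.ι} {p : EE N} (hp : p ∈ CA.W i) {c : ℂ} (hc : c ≠ 0) (v : EE N) :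
    cd CA i (c • p) (c • v) = cd CA i p v := by
  have hcp := CA.W_smul i c hc p hp
  have h1 : HasFDerivAt (fun q : EE N => CA.ζ i (c • q))
      ((fderiv ℂ (CA.ζ i) (c • p)).comp (c • ContinuousLinearMap.id ℂ (EE N))) p :=
    (CA.ζ_differentiableAt hcp).hasFDerivAt.comp p ((hasFDerivAt_id p).const_smul c)
  have h2 : (fun q : EE N => CA.ζ i (c • q)) =ᶠ[𝓝 p] CA.ζ i := by
    filter_upwards [(CA.W_open i).mem_nhds hp] with q hq
    exact CA.ζ_smul i c hc q hq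
  have h3 := (CA.ζ_differentiableAt hp).hasFDerivAt.congr_of_eventuallyEq h2
  have h4 := h1.unique h3
  have h5 := DFunLike.congr_fun h4 v
  simpa [cd] using h5

theorem cd_dσ {i : A.ι} {z : Cn n} (hz : z ∈ (A.e i).target) (w : Cn n) :
    cd CA i (CA.σ i z) (fderiv ℂ (CA.σ i) z w) = w := by
  have h1 : HasFDerivAt (fun z => CA.ζ i (CA.σ i z))
      ((fderiv ℂ (CA.ζ i) (CA.σ i z)).comp (fderiv ℂ (CA.σ i) z)) z :=
    (CA.ζ_differentiableAt (CA.σ_mem_W hz)).hasFDerivAt.comp z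
      (CA.σ_differentiableAt hz).hasFDerivAt
  have h2 : (fun z => CA.ζ i (CA.σ i z)) =ᶠ[𝓝 z] id := by
    filter_upwards [(A.e i).open_target.mem_nhds hz] with y hy
    exact CA.ζ_σ hy
  have h3 := (hasFDerivAt_id (𝕜 := ℂ) z).congr_of_eventuallyEq h2
  have h5 := DFunLike.congr_fun (h1.unique h3) w
  simpa [cd] using h5

theorem dσ_mem_Tan {i : A.ι} {z : Cn n} (hz : z ∈ (A.e i).target) (w : Cn n) :
    fderiv ℂ (CA.σ i) z w ∈ Tan I (CA.σ i z) :=
  (CA.F_tan i z hz _).2 ⟨0, w, by rw [zero_smul, zero_add]; rfl⟩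

/-- decomposition of a tangent vector -/
theorem tan_decomp (hX : IsSmoothProjective I n) {i : A.ι} {p v : EE N} (hW : p ∈ CA.W i)
    {c : ℂ} (hc : c ≠ 0) (hpc : p = c • CA.σ i (CA.ζ i p)) (hv : v ∈ Tan I p) :
    ∃ r : ℂ, v = r • p + c • fderiv ℂ (CA.σ i) (CA.ζ i p) (cd CA i p v) := by
  set z := CA.ζ i p with hz
  have hzt : z ∈ (A.e i).target := CA.ζ_mem i p hW
  have hv' : c⁻¹ • v ∈ Tan I (CA.σ i z) := by
    have h1 : Tan I p = Tan I (CA.σ i z) := by
      conv_lhs => rw [hpc]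
      exact Geo_328.Tan_smul hX _ hc
    exact Submodule.smul_mem _ _ (h1 ▸ hv)
  obtain ⟨r, w, hrw⟩ := (CA.F_tan i z hzt _).1 hv'
  change c⁻¹ • v = r • CA.σ i z + fderiv ℂ (CA.σ i) z w at hrw
  have hcd : cd CA i p v = w := by
    have h1 : cd CA i (c • CA.σ i z) (c • (c⁻¹ • v)) = cd CA i (CA.σ i z) (c⁻¹ • v) :=
      cd_smul CA (CA.σ_mem_W hzt) hc _
    rw [← hpc, smul_smul, mul_inv_cancel₀ hc, one_smul] at h1
    rw [h1, hrw, cd_add, cd_csmul, cd_self CA (CA.σ_mem_W hzt), smul_zero, zero_add,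
      cd_dσ CA hzt]
  refine ⟨r, ?_⟩
  rw [hcd]
  have h2 : v = c • (c⁻¹ • v) := by rw [smul_smul, mul_inv_cancel₀ hc, one_smul]
  rw [h2, hrw, smul_add, smul_smul, mul_comm c r, ← smul_smul, ← hpc]

theorem tan_eq_zero (hX : IsSmoothProjective I n) {i : A.ι} {p v : EE N} (hp : p ∈ Cone I)
    (hW : p ∈ CA.W i) (hv : v ∈ Tan I p) (h0 : cd CA i p v = 0) : ∃ r : ℂ, v = r • p := by
  obtain ⟨c, hc, hpc⟩ := CA.eq_smul hp hW
  obtain ⟨r, hr⟩ := tan_decomp CA hX hW hc hpc hv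
  exact ⟨r, by rw [hr, h0, map_zero, smul_zero, add_zero]⟩

/-- change of chart -/
theorem cd_chg (hX : IsSmoothProjective I n) {i j : A.ι} {p v : EE N} (hp : p ∈ Cone I)
    (hi : p ∈ CA.W i) (hj : p ∈ CA.W j) (hv : v ∈ Tan I p) :
    (cd CA j p v : Fin n → ℂ) = (Jm A i j (pt p hp)).mulVec (cd CA i p v) := by
  obtain ⟨c, hc, hpc⟩ := CA.eq_smul hp hi
  obtain ⟨r, hr⟩ := tan_decomp CA hX hi hc hpc hv
  set z := CA.ζ i p with hz
  have hzt : z ∈ (A.e i).target := CA.ζ_mem i p hi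
  have hzp : (A.e i).symm z = pt p hp := CA.symm_ζ hp hi
  have hez : A.e i (pt p hp) = z := CA.ζ_e i p hp hi
  have hov : z ∈ A.ov i j := ⟨hzt, by rw [hzp]; exact (CA.mem_W j p hp).1 hj⟩
  have hσj : CA.σ i z ∈ CA.W j := by
    rw [CA.mem_W j _ (CA.σ_cone hzt), CA.pt_σ hzt]
    exact hov.2
  set w := cd CA i p v with hw
  have h1 : cd CA j p v = cd CA j (CA.σ i z) (fderiv ℂ (CA.σ i) z w) := by
    have h2 : cd CA j p v = c • cd CA j p (fderiv ℂ (CA.σ i) z w) := by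
      conv_lhs => rw [hr]
      rw [cd_add, cd_csmul, cd_self CA hj, smul_zero, zero_add, cd_csmul]
    rw [h2, ← cd_csmul]
    conv_lhs => rw [hpc]
    exact cd_smul CA hσj hc _
  have h2 : HasFDerivAt (fun z => CA.ζ j (CA.σ i z))
      ((fderiv ℂ (CA.ζ j) (CA.σ i z)).comp (fderiv ℂ (CA.σ i) z)) z :=
    (CA.ζ_differentiableAt hσj).hasFDerivAt.comp z (CA.σ_differentiableAt hzt).hasFDerivAt
  have h3 : (fun z => A.e j ((A.e i).symm z)) =ᶠ[𝓝 z] fun z => CA.ζ j (CA.σ i z) := by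
    have ho : IsOpen (A.ov i j) := isOpen_ov i j
    filter_upwards [ho.mem_nhds hov] with y hy
    rw [← CA.ζ_e j _ (CA.σ_cone hy.1) ((CA.mem_W j _ (CA.σ_cone hy.1)).2 (by
      rw [CA.pt_σ hy.1]; exact hy.2)), CA.pt_σ hy.1]
  have h4 := h2.congr_of_eventuallyEq h3
  funext b
  rw [h1]
  have h5 : w = ∑ a, w a • (EuclideanSpace.single a (1 : ℂ) : Cn n) := by
    ext d
    simp [Finset.sum_apply, Pi.single_apply]
  have h6 : cd CA j (CA.σ i z) (fderiv ℂ (CA.σ i) z w) =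
      fderiv ℂ (fun z => A.e j ((A.e i).symm z)) z w := by
    rw [h4.fderiv]; rfl
  rw [h6]
  conv_lhs => rw [h5, map_sum]
  simp only [Matrix.mulVec, dotProduct, Jm, Matrix.of_apply, Atl.J, hez]
  simp [mul_comm]

/-! ### the Levi dictionary -/

theorem lev_eq_levC {u : Cn n → ℝ} (z v : Cn n) :
    Crest.Agent.R273.Defs_333.lev u z v = 4 * Crest.Agent.R269.LevC_653.lev u z v := by
  unfold Crest.Agent.R273.Defs_333.lev Crest.Agent.R269.LevC_653.lev
  rw [iteratedFDeriv_two_apply, iteratedFDeriv_two_apply]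
  simp
  ring

open Crest.Agent.R269.LevC_653 (lev)

/-- Levi form on the cone = Levi form in the chart -/
theorem lev_eq_lev (hX : IsSmoothProjective I n) {u : EE N → ℝ}
    (hs : ∀ p ∈ Cone I, ContDiffAt ℝ ∞ u p)
    (hu : ∀ c : ℂ, c ≠ 0 → ∀ p ∈ Cone I, u (c • p) = u p)
    {i : A.ι} {p v : EE N} (hp : p ∈ Cone I) (hi : p ∈ CA.W i) (hv : v ∈ Tan I p) :
    lev u p v = lev (fun z => u (CA.σ i z)) (CA.ζ i p) (cd CA i p v) := by
  obtain ⟨c, hc, hpc⟩ := CA.eq_smul hp hi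
  obtain ⟨r, hr⟩ := tan_decomp CA hX hi hc hpc hv
  set z := CA.ζ i p with hz
  have hzt : z ∈ (A.e i).target := CA.ζ_mem i p hi
  set w := cd CA i p v with hw
  -- a holomorphic curve in the cone with derivative `v`
  set γ : ℂ → EE N := fun t => (c * Complex.exp (r * t)) • CA.σ i (z + t • w) with hγ
  set δ : ℂ → Cn n := fun t => z + t • w with hδ
  have hδa : AnalyticAt ℂ δ 0 := analyticAt_const.add (analyticAt_id.smul analyticAt_const)
  have hδ0 : δ 0 = z := by simp [hδ]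
  have hσa : AnalyticAt ℂ (CA.σ i) (δ 0) := by rw [hδ0]; exact σ_analyticAt CA hzt
  have hσδ : AnalyticAt ℂ (fun t => CA.σ i (δ t)) 0 := hσa.comp hδa
  have hexp : AnalyticAt ℂ (fun t : ℂ => c * Complex.exp (r * t)) 0 := by
    have : Differentiable ℂ (fun t : ℂ => c * Complex.exp (r * t)) := by fun_prop
    exact this.analyticAt 0
  have hγa : AnalyticAt ℂ γ 0 := hexp.smul hσδ
  have hγ0 : γ 0 = p := by
    simp only [hγ]
    rw [mul_zero, Complex.exp_zero, mul_one, zero_smul, add_zero, ← hpc]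
  have hδd : HasDerivAt δ w 0 := by
    have := ((hasDerivAt_id (0 : ℂ)).smul_const w).const_add z
    simpa [hδ] using this
  have hσd : HasDerivAt (fun t => CA.σ i (δ t)) (fderiv ℂ (CA.σ i) z w) 0 := by
    have h1 : HasFDerivAt (CA.σ i) (fderiv ℂ (CA.σ i) z) (δ 0) := by
      rw [hδ0]; exact (CA.σ_differentiableAt hzt).hasFDerivAt
    exact h1.comp_hasDerivAt (0 : ℂ) hδd
  have hed : HasDerivAt (fun t : ℂ => c * Complex.exp (r * t)) (c * r) 0 := by
    have h1 : HasDerivAt (fun t : ℂ => r * t) r 0 := by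
      simpa using (hasDerivAt_id (0 : ℂ)).const_mul r
    have h2 := h1.cexp.const_mul c
    simpa using h2
  have hγd : deriv γ 0 = v := by
    have h1 := hed.smul hσd
    have h2 : deriv γ 0 = _ := h1.deriv
    rw [h2]
    rw [mul_zero, Complex.exp_zero, mul_one, hδ0]
    conv_rhs => rw [hr]
    rw [add_comm, mul_comm c r, mul_smul, ← hpc]
  have h1 : lev (fun t => u (γ t)) 0 1 = lev u p v := by
    rw [Lev_901.lev_comp_curve (by rw [hγ0]; exact (hs p hp).of_le two_le_infty) hγa,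
      hγ0, hγd, one_smul]
  have h2 : (fun t => u (γ t)) =ᶠ[𝓝 0] fun t => (fun z => u (CA.σ i z)) (δ t) := by
    have h3 : ∀ᶠ t in 𝓝 (0 : ℂ), δ t ∈ (A.e i).target := by
      have := hδa.continuousAt
      exact this.eventually ((A.e i).open_target.mem_nhds (by rw [hδ0]; exact hzt))
    filter_upwards [h3] with t ht
    exact hu _ (mul_ne_zero hc (Complex.exp_ne_zero _)) _ (CA.σ_cone ht)
  have h3 : lev (fun t => u (γ t)) 0 1 = lev (fun t => (fun z => u (CA.σ i z)) (δ t)) 0 1 := by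
    unfold lev
    have h4 := h2.fderiv (𝕜 := ℝ)
    rw [h4.fderiv_eq]
  have hc2 : ContDiffAt ℝ 2 (fun z => u (CA.σ i z)) (δ 0) := by
    rw [hδ0]
    exact ((hs _ (CA.σ_cone hzt)).comp z (CA.σ_contDiffAt hzt)).of_le two_le_infty
  rw [← h1, h3, Lev_901.lev_comp_curve hc2 hδa, hδ0, hδd.deriv, one_smul]

/-- Levi form on the cone = complex Hessian in the chart -/
theorem lev_eq_hess (hX : IsSmoothProjective I n) {u : EE N → ℝ}
    (hs : ∀ p ∈ Cone I, ContDiffAt ℝ ∞ u p)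
    (hu : ∀ c : ℂ, c ≠ 0 → ∀ p ∈ Cone I, u (c • p) = u p)
    {i : A.ι} {p v : EE N} (hp : p ∈ Cone I) (hi : p ∈ CA.W i) (hv : v ∈ Tan I p) :
    ((lev u p v : ℝ) : ℂ) = ∑ a, ∑ b, hsf A (dn u) i (pt p hp) a b * cd CA i p v a *
      conj (cd CA i p v b) := by
  have hzt := CA.ζ_mem i p hi
  have hf := dn_sm CA hs hu
  have h1 : ContDiffAt ℝ ∞ (fun z => dn u ((A.e i).symm z)) (CA.ζ i p) := sm_contDiffAt hf i hzt
  have h2 : (fun z => u (CA.σ i z)) =ᶠ[𝓝 (CA.ζ i p)] fun z => dn u ((A.e i).symm z) := by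
    filter_upwards [(A.e i).open_target.mem_nhds hzt] with z hz
    exact (dn_σ CA hu hz).symm
  have h3 : lev (fun z => u (CA.σ i z)) (CA.ζ i p) (cd CA i p v) =
      lev (fun z => dn u ((A.e i).symm z)) (CA.ζ i p) (cd CA i p v) := by
    unfold lev
    rw [(h2.fderiv (𝕜 := ℝ)).fderiv_eq]
  have h4 := lev_eq h1 (cd CA i p v)
  rw [lev_eq_levC] at h4
  rw [lev_eq_lev CA hX hs hu hp hi hv, h3]
  have h5 : (4 : ℂ) * ((lev (fun z => dn u ((A.e i).symm z)) (CA.ζ i p) (cd CA i p v) : ℝ) : ℂ) =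
      4 * hq (fun z => dn u ((A.e i).symm z)) (CA.ζ i p) (cd CA i p v) := by
    rw [← h4]; push_cast; ring
  have h6 := mul_left_cancel₀ (by norm_num : (4 : ℂ) ≠ 0) h5
  rw [h6]
  unfold hq hsf
  rw [CA.ζ_e i p hp hi]

end

end Crest.Agent.R269.DictB_886
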