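import Crest.Agent.R273.GreenM_5

/-!
# R269 (S0411), leaf GEO-ADJ, part 1 (helper851): fields of Hermitian forms on the cotangent spaces

Over any `(M, A : Atl n M)` with a Kaehler metric `K : Kah A` (R273).
* `Tc A s`       : `s : A.ι → M → Matrix` transforms contravariantly, `s_j = J s_i Jᴴ`
                   (so `s = ∑ v vᴴ` for vector fields `v`)
* `Fld A`        : real vector space of smooth Hermitian fields of this type, `0` off the charts
* `trF s β`      : `tr (s β) = ∑_{ab} s_{ab} β_{ab}` for a covariant `β` (`Tn A β`),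
                   `trF_eq`, `sm_trF`, `trF_add_left`, `trF_nonneg`
* `dtF K s`      : `det_g s = det s * det g`; `rtF K s = (det_g s) ^ (1/n)`
* `gI K`         : the field `g⁻¹`; `trF_gI`, `dtF_gI`
* `PosF`, `PsdF`
-/

set_option autoImplicit false
set_option linter.unusedSectionVars false

open Set Filter Topology Complex MeasureTheory
open scoped ContDiff Matrix ComplexConjugate ComplexOrder

namespace Crest.Agent.R269.Fld_851

open Crest.Agent.R275 Crest.Agent.R275.Geo Crest.Agent.R275.Core144 Crest.Agent.R275.EDR890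
open Crest.Agent.R275.Pai323 Crest.Agent.R275.C1d194
open Crest.Agent.R275.SerG398 (lint dens OffZ)
open Crest.Agent.R275.OmT75 (dj dl dl_chain dl_mul db_chain dj_sum dj_congr)
open Crest.Agent.R273.Defs_333 Crest.Agent.R273.Hess_333 Crest.Agent.R273.HessB_333
open Crest.Agent.R273.HM_333 Crest.Agent.R273.Kah_333 Crest.Agent.R273.Vol_333
open Crest.Agent.R273.Vm_333
open Crest.Agent.R273.StV_37 Crest.Agent.R273.Piola_5 Crest.Agent.R273.Green_5
open Crest.Agent.R273.VolInv_5 Crest.Agent.R273.GreenM_5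

noncomputable section

variable {n : ℕ} {M : Type} [TopologicalSpace M] {A : Atl n M}

/-- transformation law of contravariant tensors of type `(1,1)` -/
def Tc (A : Atl n M) (s : A.ι → M → Matrix (Fin n) (Fin n) ℂ) : Prop :=
  ∀ i j, ∀ x ∈ (A.e i).source ∩ (A.e j).source,
    s j x = Jm A i j x * s i x * (Jm A i j x)ᴴ

/-- the pairing of a contravariant and a covariant tensor in the chart `i` -/
def prF (s β : A.ι → M → Matrix (Fin n) (Fin n) ℂ) (i : A.ι) (x : M) : ℂ :=
  ∑ a, ∑ b, s i x a b * β i x a b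

theorem prF_eq_trace (s β : A.ι → M → Matrix (Fin n) (Fin n) ℂ) (i : A.ι) (x : M) :
    prF s β i x = (s i x * (β i x)ᵀ).trace := by
  unfold prF
  simp only [Matrix.trace, Matrix.diag, Matrix.mul_apply, Matrix.transpose_apply]

theorem prF_tr {s β : A.ι → M → Matrix (Fin n) (Fin n) ℂ} (hs : Tc A s) (hβ : Tn A β)
    {i j : A.ι} {x : M} (hx : x ∈ (A.e i).source ∩ (A.e j).source) :
    prF s β i x = prF s β j x := by
  rw [prF_eq_trace, prF_eq_trace, hs i j x hx, hβ i j x hx]
  set J := Jm A i j x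
  have h1 : (Jᵀ * β j x * J.map conj)ᵀ = Jᴴ * (β j x)ᵀ * J := by
    rw [Matrix.transpose_mul, Matrix.transpose_mul, Matrix.transpose_transpose, ← Matrix.mul_assoc]
    rfl
  rw [h1, ← Matrix.mul_assoc, ← Matrix.mul_assoc, Matrix.trace_mul_comm, ← Matrix.mul_assoc,
    ← Matrix.mul_assoc]

/-- smooth Hermitian contravariant fields -/
structure IsFld (A : Atl n M) (s : A.ι → M → Matrix (Fin n) (Fin n) ℂ) : Prop where
  sm : ∀ i a b, A.SmAt i (fun x => s i x a b)
  herm : ∀ i x, (s i x).IsHermitian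
  tc : Tc A s
  off : ∀ i, ∀ x ∉ (A.e i).source, s i x = 0

/-- the real vector space of smooth Hermitian contravariant fields -/
def Fld (A : Atl n M) : Submodule ℝ (A.ι → M → Matrix (Fin n) (Fin n) ℂ) where
  carrier := {s | IsFld A s}
  add_mem' := by
    rintro s t hs ht
    refine ⟨fun i a b => (hs.sm i a b).add (ht.sm i a b), fun i x => (hs.herm i x).add (ht.herm i x),
      fun i j x hx => ?_, fun i x hx => ?_⟩
    · change s j x + t j x = Jm A i j x * (s i x + t i x) * (Jm A i j x)ᴴ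
      rw [hs.tc i j x hx, ht.tc i j x hx, Matrix.mul_add, Matrix.add_mul]
    · change s i x + t i x = 0
      rw [hs.off i x hx, ht.off i x hx, add_zero]
  zero_mem' := ⟨fun i a b => contDiffOn_const, fun i x => Matrix.isHermitian_zero,
    fun i j x hx => by
      change (0 : Matrix (Fin n) (Fin n) ℂ) = Jm A i j x * 0 * (Jm A i j x)ᴴ
      rw [Matrix.mul_zero, Matrix.zero_mul], fun i x hx => rfl⟩
  smul_mem' := by
    rintro c s hs
    refine ⟨fun i a b => ?_, fun i x => ?_, fun i j x hx => ?_, fun i x hx => ?_⟩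
    · have h1 : ContDiffOn ℝ ∞ (fun z => c • s i ((A.e i).symm z) a b) (A.e i).target :=
        ContDiffOn.const_smul c (hs.sm i a b)
      exact h1
    · change (c • s i x)ᴴ = c • s i x
      rw [Matrix.conjTranspose_smul, (hs.herm i x).eq, star_trivial]
    · change c • s j x = Jm A i j x * (c • s i x) * (Jm A i j x)ᴴ
      rw [hs.tc i j x hx, Matrix.mul_smul, Matrix.smul_mul]
    · change c • s i x = 0
      rw [hs.off i x hx, smul_zero]

theorem Fld.isFld (s : Fld A) : IsFld A s.1 := s.2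

theorem mem_Fld {s : A.ι → M → Matrix (Fin n) (Fin n) ℂ} : s ∈ Fld A ↔ IsFld A s := Iff.rfl

/-! ### the trace `tr (s β)` -/

/-- `tr (s β)` -/
def trF (s β : A.ι → M → Matrix (Fin n) (Fin n) ℂ) (x : M) : ℝ := (prF s β (ci A x) x).re

theorem trF_eq {s β : A.ι → M → Matrix (Fin n) (Fin n) ℂ} (hs : Tc A s) (hβ : Tn A β)
    {i : A.ι} {x : M} (hx : x ∈ (A.e i).source) : trF s β x = (prF s β i x).re := by
  unfold trF
  rw [prF_tr hs hβ ⟨mem_ci x, hx⟩]

theorem smAt_prF {s β : A.ι → M → Matrix (Fin n) (Fin n) ℂ} {i : A.ι}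
    (hs : ∀ a b, A.SmAt i (fun x => s i x a b)) (hβ : ∀ a b, A.SmAt i (fun x => β i x a b)) :
    A.SmAt i (prF s β i) := by
  have h1 : ContDiffOn ℝ ∞ (fun z => ∑ a, ∑ b, s i ((A.e i).symm z) a b * β i ((A.e i).symm z) a b)
      (A.e i).target :=
    ContDiffOn.sum fun a _ => ContDiffOn.sum fun b _ => (hs a b).mul (hβ a b)
  exact h1

theorem sm_trF {s β : A.ι → M → Matrix (Fin n) (Fin n) ℂ} (hs : Tc A s) (hβ : Tn A β)
    (hs' : ∀ i a b, A.SmAt i (fun x => s i x a b)) (hβ' : ∀ i a b, A.SmAt i (fun x => β i x a b)) :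
    A.Sm (trF s β) := by
  intro i
  have h1 : ContDiffOn ℝ ∞ (fun z => (prF s β i ((A.e i).symm z)).re) (A.e i).target :=
    Complex.reCLM.contDiff.comp_contDiffOn (smAt_prF (hs' i) (hβ' i))
  refine h1.congr fun z hz => ?_
  exact trF_eq hs hβ ((A.e i).map_target hz)

theorem prF_add_left (s t β : A.ι → M → Matrix (Fin n) (Fin n) ℂ) (i : A.ι) (x : M) :
    prF (s + t) β i x = prF s β i x + prF t β i x := by
  unfold prF
  rw [← Finset.sum_add_distrib]
  refine Finset.sum_congr rfl fun a _ => ?_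
  rw [← Finset.sum_add_distrib]
  refine Finset.sum_congr rfl fun b _ => ?_
  change (s i x a b + t i x a b) * _ = _
  ring

theorem prF_smul_left (c : ℝ) (s β : A.ι → M → Matrix (Fin n) (Fin n) ℂ) (i : A.ι) (x : M) :
    prF (c • s) β i x = c * prF s β i x := by
  unfold prF
  rw [Finset.mul_sum]
  refine Finset.sum_congr rfl fun a _ => ?_
  rw [Finset.mul_sum]
  refine Finset.sum_congr rfl fun b _ => ?_
  change (c • s i x a b) * _ = _
  rw [Complex.real_smul]
  ring

theorem trF_add_left (s t β : A.ι → M → Matrix (Fin n) (Fin n) ℂ) (x : M) :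
    trF (s + t) β x = trF s β x + trF t β x := by
  unfold trF
  rw [prF_add_left, Complex.add_re]

theorem trF_smul_left (c : ℝ) (s β : A.ι → M → Matrix (Fin n) (Fin n) ℂ) (x : M) :
    trF (c • s) β x = c * trF s β x := by
  unfold trF
  rw [prF_smul_left, Complex.re_ofReal_mul]

theorem prF_add_right (s β γ : A.ι → M → Matrix (Fin n) (Fin n) ℂ) (i : A.ι) (x : M) :
    prF s (β + γ) i x = prF s β i x + prF s γ i x := by
  unfold prF
  rw [← Finset.sum_add_distrib]
  refine Finset.sum_congr rfl fun a _ => ?_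
  rw [← Finset.sum_add_distrib]
  refine Finset.sum_congr rfl fun b _ => ?_
  change _ * (β i x a b + γ i x a b) = _
  ring

theorem trF_add_right (s β γ : A.ι → M → Matrix (Fin n) (Fin n) ℂ) (x : M) :
    trF s (β + γ) x = trF s β x + trF s γ x := by
  unfold trF
  rw [prF_add_right, Complex.add_re]

/-- `∑ s_{ab} β_{ab} ≥ 0` for positive semidefinite matrices -/
theorem sum_nonneg_of_psd {S B : Matrix (Fin n) (Fin n) ℂ} (hS : S.PosSemidef)
    (hB : B.PosSemidef) : 0 ≤ (S * Bᵀ).trace := by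
  obtain ⟨C, rfl⟩ := exists_msqrt hS
  rw [Matrix.mul_assoc, Matrix.trace_mul_comm]
  exact (hB.transpose.mul_mul_conjTranspose_same C).trace_nonneg

theorem trF_nonneg {s β : A.ι → M → Matrix (Fin n) (Fin n) ℂ} {x : M}
    (hs : (s (ci A x) x).PosSemidef) (hβ : (β (ci A x) x).PosSemidef) : 0 ≤ trF s β x := by
  unfold trF
  rw [prF_eq_trace]
  exact (Complex.le_def.1 (sum_nonneg_of_psd hs hβ)).1

theorem prF_real {s β : A.ι → M → Matrix (Fin n) (Fin n) ℂ} {i : A.ι} {x : M}
    (hs : (s i x).IsHermitian) (hβ : (β i x).IsHermitian) :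
    (((prF s β i x).re : ℝ) : ℂ) = prF s β i x := by
  have h1 : conj (prF s β i x) = prF s β i x := by
    rw [prF_eq_trace]
    have h2 := Matrix.trace_conjTranspose (s i x * (β i x)ᵀ)
    have h3 : (β i x)ᵀ.IsHermitian := hβ.transpose
    rw [Matrix.conjTranspose_mul, hs.eq, h3.eq, Matrix.trace_mul_comm] at h2
    exact h2.symm
  exact Complex.conj_eq_iff_re.1 h1

theorem trF_ofReal {s β : A.ι → M → Matrix (Fin n) (Fin n) ℂ} (hs : Tc A s) (hβ : Tn A β)
    {i : A.ι} {x : M} (hx : x ∈ (A.e i).source) (hs' : (s i x).IsHermitian)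
    (hβ' : (β i x).IsHermitian) : ((trF s β x : ℝ) : ℂ) = prF s β i x := by
  rw [trF_eq hs hβ hx, prF_real hs' hβ']

/-! ### determinants -/

theorem det_dn {s : A.ι → M → Matrix (Fin n) (Fin n) ℂ} (hs : Tc A s) (K : Kah A)
    {i j : A.ι} {x : M} (hx : x ∈ (A.e i).source ∩ (A.e j).source) :
    (s i x).det * (K.g i x).det = (s j x).det * (K.g j x).det := by
  have h1 : (K.g i x).det = dens A i j x * (K.g j x).det := (K_tn K).det i j x hx
  rw [h1, hs i j x hx, Matrix.det_mul, Matrix.det_mul, Matrix.det_conjTranspose, dens_Jm]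
  simp only [RCLike.star_def]
  ring

/-- `det_g s` -/
def dtF (K : Kah A) (s : A.ι → M → Matrix (Fin n) (Fin n) ℂ) (x : M) : ℝ :=
  ((s (ci A x) x).det * (K.g (ci A x) x).det).re

theorem dtF_eq (K : Kah A) {s : A.ι → M → Matrix (Fin n) (Fin n) ℂ} (hs : Tc A s) {i : A.ι} {x : M}
    (hx : x ∈ (A.e i).source) : dtF K s x = ((s i x).det * (K.g i x).det).re := by
  unfold dtF
  rw [det_dn hs K ⟨mem_ci x, hx⟩]

theorem herm_det_real {S : Matrix (Fin n) (Fin n) ℂ} (h : S.IsHermitian) :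
    ((S.det.re : ℝ) : ℂ) = S.det := det_real h

theorem dtF_mul (K : Kah A) {s : A.ι → M → Matrix (Fin n) (Fin n) ℂ} (hs : Tc A s)
    {i : A.ι} {x : M} (hx : x ∈ (A.e i).source) (hh : (s i x).IsHermitian) :
    dtF K s x = (s i x).det.re * (K.g i x).det.re := by
  rw [dtF_eq K hs hx, ← herm_det_real hh, ← det_real (K.pos i x hx).1, ← Complex.ofReal_mul,
    Complex.ofReal_re, Complex.ofReal_re, Complex.ofReal_re]

theorem sm_dtF (K : Kah A) {s : A.ι → M → Matrix (Fin n) (Fin n) ℂ} (hs : Tc A s)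
    (hs' : ∀ i a b, A.SmAt i (fun x => s i x a b)) : A.Sm (dtF K s) := by
  intro i
  have h1 : ContDiffOn ℝ ∞ (fun z => ((s i ((A.e i).symm z)).det *
      (K.g i ((A.e i).symm z)).det).re) (A.e i).target :=
    Complex.reCLM.contDiff.comp_contDiffOn
      (ContDiffOn.mul (smAt_det (fun a b => hs' i a b)) (smAt_det (K.sm i)))
  exact h1.congr fun z hz => dtF_eq K hs ((A.e i).map_target hz)

theorem dtF_nonneg (K : Kah A) {s : A.ι → M → Matrix (Fin n) (Fin n) ℂ} (hs : Tc A s)
    {i : A.ι} {x : M} (hx : x ∈ (A.e i).source) (h : (s i x).PosSemidef) : 0 ≤ dtF K s x := by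
  rw [dtF_mul K hs hx h.1]
  exact mul_nonneg (Complex.le_def.1 h.det_nonneg).1 (det_re_pos (K.pos i x hx)).le

theorem dtF_pos (K : Kah A) {s : A.ι → M → Matrix (Fin n) (Fin n) ℂ} (hs : Tc A s)
    {i : A.ι} {x : M} (hx : x ∈ (A.e i).source) (h : (s i x).PosDef) : 0 < dtF K s x := by
  rw [dtF_mul K hs hx h.1]
  exact mul_pos (det_re_pos h) (det_re_pos (K.pos i x hx))

/-- `(det_g s) ^ (1/n)` -/
def rtF (K : Kah A) (s : A.ι → M → Matrix (Fin n) (Fin n) ℂ) (x : M) : ℝ :=
  (dtF K s x) ^ ((1 : ℝ) / n)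

theorem dtF_smul (K : Kah A) (c : ℝ) (s : A.ι → M → Matrix (Fin n) (Fin n) ℂ) (x : M) :
    dtF K (c • s) x = c ^ n * dtF K s x := by
  unfold dtF
  change ((c • s (ci A x) x).det * _).re = _
  have h1 : (c • s (ci A x) x) = (c : ℂ) • s (ci A x) x := by
    ext a b
    simp [Complex.real_smul]
  rw [h1, Matrix.det_smul, Fintype.card_fin, mul_assoc, ← Complex.ofReal_pow, Complex.re_ofReal_mul]

/-! ### the field `g⁻¹` -/

open Classical in
/-- the field `g⁻¹` -/
def gI (K : Kah A) (i : A.ι) (x : M) : Matrix (Fin n) (Fin n) ℂ :=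
  if x ∈ (A.e i).source then ((K.g i x)⁻¹)ᵀ else 0

theorem gI_of_mem (K : Kah A) {i : A.ι} {x : M} (hx : x ∈ (A.e i).source) :
    gI K i x = ((K.g i x)⁻¹)ᵀ := if_pos hx

theorem gI_off (K : Kah A) {i : A.ι} {x : M} (hx : x ∉ (A.e i).source) : gI K i x = 0 := if_neg hx

theorem gI_tc (K : Kah A) : Tc A (gI K) := by
  intro i j x hx
  rw [gI_of_mem K hx.1, gI_of_mem K hx.2]
  set J := Jm A i j x with hJ
  have hJd : J.det ≠ 0 := Jm_det_ne hx
  have hJt : IsUnit Jᵀ.det := by rw [Matrix.det_transpose]; exact isUnit_iff_ne_zero.2 hJd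
  have hJc : IsUnit (J.map conj).det := by
    rw [det_map_conj, isUnit_iff_ne_zero]
    exact (map_ne_zero _).2 hJd
  have h1 : (K.g i x)⁻¹ = (J.map conj)⁻¹ * (K.g j x)⁻¹ * Jᵀ⁻¹ := by
    rw [K.tr i j x hx, ← hJ, Matrix.mul_inv_rev, Matrix.mul_inv_rev, Matrix.mul_assoc]
  have h2 : (J.map conj) * (K.g i x)⁻¹ * Jᵀ = (K.g j x)⁻¹ := by
    rw [h1]
    calc (J.map conj) * ((J.map conj)⁻¹ * (K.g j x)⁻¹ * Jᵀ⁻¹) * Jᵀ
        = ((J.map conj) * (J.map conj)⁻¹) * (K.g j x)⁻¹ * (Jᵀ⁻¹ * Jᵀ) := by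
          simp only [Matrix.mul_assoc]
      _ = _ := by
          rw [Matrix.mul_nonsing_inv _ hJc, Matrix.nonsing_inv_mul _ hJt, Matrix.one_mul,
            Matrix.mul_one]
  rw [← h2, Matrix.transpose_mul, Matrix.transpose_mul, Matrix.transpose_transpose,
    ← Matrix.mul_assoc]
  rfl

theorem gI_posDef (K : Kah A) {i : A.ι} {x : M} (hx : x ∈ (A.e i).source) :
    (gI K i x).PosDef := by
  rw [gI_of_mem K hx]
  exact (K.pos i x hx).inv.transpose

theorem smAt_inv (K : Kah A) (i : A.ι) (a b : Fin n) : A.SmAt i (fun x => (K.g i x)⁻¹ a b) := by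
  have h1 : ContDiffOn ℝ ∞ (fun z => ((K.g i ((A.e i).symm z)).det)⁻¹ *
      (K.g i ((A.e i).symm z)).adjugate a b) (A.e i).target :=
    ContDiffOn.mul ((smAt_det (K.sm i)).inv fun z hz => K_det_ne K ((A.e i).map_target hz))
      (smAt_adj (kah_cf K) i b a)
  refine h1.congr fun z hz => ?_
  change (K.g i ((A.e i).symm z))⁻¹ a b = _
  rw [Matrix.inv_def, Matrix.smul_apply, smul_eq_mul, Ring.inverse_eq_inv']

theorem gI_isFld (K : Kah A) : IsFld A (gI K) where
  sm i a b := (smAt_inv K i b a).congr fun z hz => by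
    change gI K i ((A.e i).symm z) a b = (K.g i ((A.e i).symm z))⁻¹ b a
    rw [gI_of_mem K ((A.e i).map_target hz)]
    rfl
  herm i x := by
    by_cases hx : x ∈ (A.e i).source
    · exact (gI_posDef K hx).1
    · rw [gI_off K hx]
      exact Matrix.isHermitian_zero
  tc := gI_tc K
  off i x hx := gI_off K hx

/-- `g⁻¹` as an element of `Fld A` -/
def gIF (K : Kah A) : Fld A := ⟨gI K, gI_isFld K⟩

theorem trF_gI (K : Kah A) (β : A.ι → M → Matrix (Fin n) (Fin n) ℂ) (x : M) :
    trF (gI K) β x = (trK K β x).re := by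
  unfold trF trK
  rw [prF_eq_trace, gI_of_mem K (mem_ci x), ← Matrix.transpose_mul, Matrix.trace_transpose,
    Matrix.trace_mul_comm]

theorem trF_gI_hsf (K : Kah A) (u : M → ℝ) (x : M) : trF (gI K) (hsf A u) x = lapK K u x :=
  trF_gI K _ x

theorem dtF_gI (K : Kah A) (x : M) : dtF K (gI K) x = 1 := by
  unfold dtF
  rw [gI_of_mem K (mem_ci x), Matrix.det_transpose, ← Matrix.det_mul,
    Matrix.nonsing_inv_mul _ (isUnit_iff_ne_zero.2 (K_det_ne K (mem_ci x))), Matrix.det_one,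
    Complex.one_re]

theorem rtF_gI (K : Kah A) (x : M) : rtF K (gI K) x = 1 := by
  unfold rtF
  rw [dtF_gI, Real.one_rpow]

end

end Crest.Agent.R269.Fld_851
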