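import Crest.Agent.R269.DictB_886
import Crest.Agent.R269.Fld_851

/-!
# R269 (S0411), leaf DICT-FLD, file C (helper886): metric, horizontal lifts, representing frames

* `hip v w = ∑ v_k conj w_k`, `omB p v w = (|p|² ⟨v,w⟩ - ⟨v,p⟩⟨p,w⟩) / |p|⁴` (Fubini-Study, sesquilinear);
* `K_eq`        : `(fsKah CA.projD).g i x a b = omB (σ z) (∂_a σ) (∂_b σ)`;
* `omB_eq_K`    : `omB p v w = ∑ K_ab (cd v)_a conj (cd w)_b` for `v w ∈ Tan I p`;
* `hl i p w`    : the horizontal lift, `hl ∈ Tan I p`, `⟨hl, p⟩ = 0`, `cd i p (hl i p w) = w`, unique;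
* `Rp s i p b`  : the frame `b` represents the chart field `s` at `p`;
* `sum_lev_eq_trF`, `sum_eq_prF`, `det_omB_eq_dtF`.
-/

set_option autoImplicit false
set_option linter.unusedSectionVars false

open MvPolynomial Crest.AlgGeometry.ProjEmb Set Filter Topology
open scoped ContDiff ComplexConjugate Matrix

namespace Crest.Agent.R269.DictC_886

open Crest.Agent.R269.Geo_328 Crest.Agent.R275.Geo Crest.Agent.R269.CAtl_886
open Crest.Agent.R269.DictA_886 Crest.Agent.R269.DictB_886 Crest.Agent.R275.Core144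
open Crest.Agent.R273.Hess_333 Crest.Agent.R273.HessB_333 Crest.Agent.R273.Kah_333
open Crest.Agent.R273.FS_333 (fsKah sq)
open Crest.Agent.R269.Fld_851
open Crest.Agent.R273.GreenM_5 (Tn)

noncomputable section

variable {N n : ℕ} {I : Ideal (HomCoordRing N)}

/-! ### the Hermitian product and the Fubini-Study form -/

/-- Hermitian product, linear in the first variable -/
def hip (v w : EE N) : ℂ := ∑ k, v k * conj (w k)

theorem hip_add_left (v v' w : EE N) : hip (v + v') w = hip v w + hip v' w := by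
  simp [hip, add_mul, Finset.sum_add_distrib]

theorem hip_smul_left (c : ℂ) (v w : EE N) : hip (c • v) w = c * hip v w := by
  simp [hip, Finset.mul_sum, mul_assoc]

theorem hip_conj (v w : EE N) : conj (hip v w) = hip w v := by
  simp only [hip, map_sum, map_mul, Complex.conj_conj]
  exact Finset.sum_congr rfl fun k _ => mul_comm _ _

theorem hip_add_right (v w w' : EE N) : hip v (w + w') = hip v w + hip v w' := by
  rw [← hip_conj, hip_add_left, map_add, hip_conj, hip_conj]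

theorem hip_smul_right (c : ℂ) (v w : EE N) : hip v (c • w) = conj c * hip v w := by
  rw [← hip_conj, hip_smul_left, map_mul, hip_conj]

theorem hip_sum_left {ι : Type*} (s : Finset ι) (v : ι → EE N) (w : EE N) :
    hip (∑ i ∈ s, v i) w = ∑ i ∈ s, hip (v i) w := by
  simp only [hip, Finset.sum_apply, Finset.sum_mul]
  exact Finset.sum_comm

theorem hip_sum_right {ι : Type*} (s : Finset ι) (v : EE N) (w : ι → EE N) :
    hip v (∑ i ∈ s, w i) = ∑ i ∈ s, hip v (w i) := by
  rw [← hip_conj, hip_sum_left, map_sum]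
  exact Finset.sum_congr rfl fun i _ => hip_conj _ _

theorem hip_self (v : EE N) : hip v v = (nsq v : ℂ) := by
  simp only [hip, nsq, Complex.ofReal_sum]
  exact Finset.sum_congr rfl fun k _ => by rw [Complex.mul_conj, Complex.normSq_eq_norm_sq]

/-- the Fubini-Study form at `p` (sesquilinear, linear in the first variable) -/
def omB (p v w : EE N) : ℂ := (nsq p * hip v w - hip v p * hip p w) / (nsq p : ℂ) ^ 2

theorem omB_add_left (p v v' w : EE N) : omB p (v + v') w = omB p v w + omB p v' w := by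
  unfold omB
  rw [hip_add_left, hip_add_left, ← add_div]
  ring

theorem omB_smul_left (c : ℂ) (p v w : EE N) : omB p (c • v) w = c * omB p v w := by
  unfold omB
  rw [hip_smul_left, hip_smul_left]
  ring

theorem omB_conj (p v w : EE N) : conj (omB p v w) = omB p w v := by
  unfold omB
  rw [map_div₀, map_sub, map_mul, map_mul, hip_conj, hip_conj, hip_conj, map_pow,
    Complex.conj_ofReal]
  ring

theorem omB_add_right (p v w w' : EE N) : omB p v (w + w') = omB p v w + omB p v w' := by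
  rw [← omB_conj, omB_add_left, map_add, omB_conj, omB_conj]

theorem omB_smul_right (c : ℂ) (p v w : EE N) : omB p v (c • w) = conj c * omB p v w := by
  rw [← omB_conj, omB_smul_left, map_mul, omB_conj]

theorem omB_self_left (p w : EE N) : omB p p w = 0 := by
  unfold omB
  rw [hip_self, sub_self, zero_div]

theorem omB_self_right (p v : EE N) : omB p v p = 0 := by
  rw [← omB_conj, omB_self_left, map_zero]

theorem omB_smul {c : ℂ} (hc : c ≠ 0) (p v w : EE N) : omB (c • p) (c • v) (c • w) = omB p v w := by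
  unfold omB
  rw [nsq_smul, hip_smul_left, hip_smul_right, hip_smul_left, hip_smul_right, hip_smul_left,
    hip_smul_right]
  have h : (((‖c‖ ^ 2 * nsq p : ℝ)) : ℂ) = (c * conj c) * nsq p := by
    rw [Complex.mul_conj, Complex.normSq_eq_norm_sq]; push_cast; ring
  rw [h]
  have h0 : c * conj c ≠ 0 := mul_ne_zero hc (by simpa using hc)
  have e : (c * conj c * (nsq p : ℂ) * (c * (conj c * hip v w)) -
      c * (conj c * hip v p) * (c * (conj c * hip p w))) =
      (c * conj c) ^ 2 * ((nsq p : ℂ) * hip v w - hip v p * hip p w) := by ring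
  rw [e, mul_pow (c * conj c) (nsq p : ℂ) 2, mul_div_mul_left _ _ (pow_ne_zero 2 h0)]

theorem omB_sum_left {ι : Type*} (s : Finset ι) (p : EE N) (v : ι → EE N) (w : EE N) :
    omB p (∑ i ∈ s, v i) w = ∑ i ∈ s, omB p (v i) w := by
  unfold omB
  rw [hip_sum_left, hip_sum_left, ← Finset.sum_div, Finset.mul_sum, Finset.sum_mul,
    ← Finset.sum_sub_distrib]

theorem omB_sum_right {ι : Type*} (s : Finset ι) (p v : EE N) (w : ι → EE N) :
    omB p v (∑ i ∈ s, w i) = ∑ i ∈ s, omB p v (w i) := by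
  rw [← omB_conj, omB_sum_left, map_sum]
  exact Finset.sum_congr rfl fun i _ => omB_conj _ _ _

variable {A : Atl n (XX I)} (CA : CAtl I A)

/-! ### partial derivatives of the section -/

/-- `∂_a σ` -/
def dσ (i : A.ι) (z : Cn n) (a : Fin n) : EE N :=
  fderiv ℂ (CA.σ i) z (EuclideanSpace.single a 1)

theorem fderiv_σ_eq (i : A.ι) (z w : Cn n) :
    fderiv ℂ (CA.σ i) z w = ∑ a, w a • dσ CA i z a := by
  have h5 : w = ∑ a, w a • (EuclideanSpace.single a (1 : ℂ) : Cn n) := by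
    ext d
    simp [Finset.sum_apply, Pi.single_apply]
  conv_lhs => rw [h5, map_sum]
  simp [dσ]

theorem dσ_apply {i : A.ι} {z : Cn n} (hz : z ∈ (A.e i).target) (a : Fin n) (k : Fin (N + 1)) :
    dσ CA i z a k = fderiv ℂ (fun z => CA.σ i z k) z (EuclideanSpace.single a 1) := by
  have h := fderiv_pi (𝕜 := ℂ) (φ := fun k z => CA.σ i z k) (x := z)
    (fun k => differentiableAt_pi.1 (CA.σ_differentiableAt hz) k)
  unfold dσ
  have h2 : (fun x i_1 => CA.σ i x i_1) = CA.σ i := rfl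
  rw [h2] at h
  rw [h]
  rfl

/-- the Kaehler metric of the embedding, in the chart -/
theorem K_eq {i : A.ι} {x : XX I} (hx : x ∈ (A.e i).source) (a b : Fin n) :
    (fsKah CA.projD).g i x a b =
      omB (CA.F i x) (dσ CA i (A.e i x) a) (dσ CA i (A.e i x) b) := by
  set z := A.e i x with hz
  have hzt : z ∈ (A.e i).target := (A.e i).map_source hx
  have hF : ∀ k, DifferentiableOn ℂ (fun z => CA.σ i z k) (A.e i).target := fun k z hz =>
    differentiableWithinAt_pi.1 (CA.F_hol i z hz) k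
  have h0 : CA.σ i z ≠ 0 := (CA.σ_cone hzt).2
  have hw : (Crest.Agent.R273.FS_333.fs CA.projD).wt i =
      fun w => Real.log (sq (fun w => CA.σ i w) w) := by
    funext w
    change -Real.log ((∑ k, ‖CA.F i ((A.e i).symm w) k‖ ^ 2)⁻¹) = _
    rw [Real.log_inv, neg_neg]
    rfl
  have h1 : (fsKah CA.projD).g i x a b =
      hess (fun w => Real.log (sq (fun w => CA.σ i w) w)) z a b := by
    change cur (Crest.Agent.R273.FS_333.fs CA.projD) i x a b = _
    unfold cur
    rw [hw]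
  have hs : ContDiffAt ℝ ∞ (sq (fun w => CA.σ i w)) z := by
    refine ContDiffAt.sum fun k _ => ?_
    exact (Crest.Agent.R273.FS_333.contDiffAt_of_hol (A.e i).open_target (hF k) hzt).norm_sq ℝ
  have hp : 0 < sq (fun w => CA.σ i w) z := Crest.Agent.R273.FS_333.sq_pos h0
  rw [h1, Crest.Agent.R273.FS_333.hess_log hs hp,
    Crest.Agent.R273.FS_333.hess_sq (A.e i).open_target hF hzt,
    Crest.Agent.R273.FS_333.wd_sq (A.e i).open_target hF hzt,
    Crest.Agent.R273.FS_333.wd_sq' (A.e i).open_target hF hzt]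
  have e1 : (∑ k, fderiv ℂ (fun z => CA.σ i z k) z (EuclideanSpace.single a 1) *
      conj (fderiv ℂ (fun z => CA.σ i z k) z (EuclideanSpace.single b 1))) =
      hip (dσ CA i z a) (dσ CA i z b) := by
    unfold hip
    exact Finset.sum_congr rfl fun k _ => by rw [dσ_apply CA hzt, dσ_apply CA hzt]
  have e2 : (∑ k, fderiv ℂ (fun z => CA.σ i z k) z (EuclideanSpace.single a 1) *
      conj (CA.σ i z k)) = hip (dσ CA i z a) (CA.σ i z) := by
    unfold hip
    exact Finset.sum_congr rfl fun k _ => by rw [dσ_apply CA hzt]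
  have e3 : (∑ k, CA.σ i z k * conj (fderiv ℂ (fun z => CA.σ i z k) z
      (EuclideanSpace.single b 1))) = hip (CA.σ i z) (dσ CA i z b) := by
    unfold hip
    exact Finset.sum_congr rfl fun k _ => by rw [dσ_apply CA hzt]
  rw [e1, e2, e3]
  have e4 : sq (fun w => CA.σ i w) z = nsq (CA.F i x) := by
    rw [← CA.σ_e hx]; rfl
  rw [← CA.σ_e hx, ← hz]
  rw [← CA.σ_e hx, ← hz] at e4
  rw [e4]
  unfold omB
  have h3 : (nsq (CA.σ i z) : ℂ) ≠ 0 := by exact_mod_cast (nsq_pos h0).ne'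
  field_simp

/-- the Fubini-Study form of two tangent vectors in the chart -/
theorem omB_eq_K (hX : IsSmoothProjective I n) {i : A.ι} {p v w : EE N} (hp : p ∈ Cone I)
    (hi : p ∈ CA.W i) (hv : v ∈ Tan I p) (hw : w ∈ Tan I p) :
    omB p v w = ∑ a, ∑ b, (fsKah CA.projD).g i (pt p hp) a b * cd CA i p v a *
      conj (cd CA i p w b) := by
  obtain ⟨c, hc, hpc⟩ := CA.eq_smul hp hi
  obtain ⟨r, hr⟩ := tan_decomp CA hX hi hc hpc hv
  obtain ⟨r', hr'⟩ := tan_decomp CA hX hi hc hpc hw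
  have hx := (CA.mem_W i p hp).1 hi
  have hzt : CA.ζ i p ∈ (A.e i).target := CA.ζ_mem i p hi
  have h1 : omB p v w = omB (CA.σ i (CA.ζ i p)) (fderiv ℂ (CA.σ i) (CA.ζ i p) (cd CA i p v))
      (fderiv ℂ (CA.σ i) (CA.ζ i p) (cd CA i p w)) := by
    conv_lhs => rw [hr, hr']
    rw [omB_add_left, omB_smul_left, omB_self_left, mul_zero, zero_add,
      omB_add_right, omB_smul_right, omB_self_right, mul_zero, zero_add]
    have key : ∀ (q v' w' : EE N), p = c • q → omB p (c • v') (c • w') = omB q v' w' := by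
      intro q v' w' h
      rw [h, omB_smul hc]
    exact key _ _ _ hpc
  have h2 : CA.F i (pt p hp) = CA.σ i (CA.ζ i p) := by
    rw [← CA.ζ_e i p hp hi, CA.σ_e hx]
  rw [h1, fderiv_σ_eq, fderiv_σ_eq, omB_sum_left]
  refine Finset.sum_congr rfl fun a _ => ?_
  rw [omB_sum_right]
  refine Finset.sum_congr rfl fun b _ => ?_
  rw [omB_smul_left, omB_smul_right, K_eq CA hx, h2, CA.ζ_e i p hp hi]
  ring

/-! ### horizontal lifts -/

/-- the scalar `c` with `p = c • σ (ζ p)` on the cone -/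
def sc (i : A.ι) (p : EE N) : ℂ := hip p (CA.σ i (CA.ζ i p)) / nsq (CA.σ i (CA.ζ i p))

theorem sc_eq {i : A.ι} {p : EE N} {c : ℂ} (hW : p ∈ CA.W i)
    (hpc : p = c • CA.σ i (CA.ζ i p)) : sc CA i p = c := by
  have h0 : CA.σ i (CA.ζ i p) ≠ 0 := (CA.σ_cone (CA.ζ_mem i p hW)).2
  have h3 : (nsq (CA.σ i (CA.ζ i p)) : ℂ) ≠ 0 := by exact_mod_cast (nsq_pos h0).ne'
  unfold sc
  have key : ∀ q : EE N, p = c • q → hip p q = c * nsq q := by
    intro q h
    rw [h, hip_smul_left, hip_self]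
  rw [key _ hpc, mul_div_assoc, div_self h3, mul_one]

theorem eq_sc_smul {i : A.ι} {p : EE N} (hp : p ∈ Cone I) (hW : p ∈ CA.W i) :
    p = sc CA i p • CA.σ i (CA.ζ i p) := by
  obtain ⟨c, hc, hpc⟩ := CA.eq_smul hp hW
  rw [sc_eq CA hW hpc]
  exact hpc

theorem sc_ne {i : A.ι} {p : EE N} (hp : p ∈ Cone I) (hW : p ∈ CA.W i) : sc CA i p ≠ 0 := by
  obtain ⟨c, hc, hpc⟩ := CA.eq_smul hp hW
  rwa [sc_eq CA hW hpc]

theorem sc_smul {i : A.ι} {p : EE N} (hW : p ∈ CA.W i) {c : ℂ} (hc : c ≠ 0) :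
    sc CA i (c • p) = c * sc CA i p := by
  unfold sc
  rw [CA.ζ_smul i c hc p hW, hip_smul_left, mul_div_assoc]

/-- the part of `v` orthogonal to `p` -/
def hor (p v : EE N) : EE N := v - (hip v p / nsq p) • p

theorem hor_orth {p : EE N} (hp : p ≠ 0) (v : EE N) : hip (hor p v) p = 0 := by
  have h3 : (nsq p : ℂ) ≠ 0 := by exact_mod_cast (nsq_pos hp).ne'
  unfold hor
  rw [sub_eq_add_neg, ← neg_smul, hip_add_left, hip_smul_left, hip_self]
  field_simp
  ring

theorem hor_mem {p v : EE N} (hpT : p ∈ Tan I p) (hv : v ∈ Tan I p) : hor p v ∈ Tan I p :=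
  (Tan I p).sub_mem hv ((Tan I p).smul_mem _ hpT)

/-- horizontal lift of `w` at `p` -/
def hl (i : A.ι) (p : EE N) (w : Cn n) : EE N :=
  sc CA i p • hor (CA.σ i (CA.ζ i p)) (fderiv ℂ (CA.σ i) (CA.ζ i p) w)

theorem hor_smul_right (p : EE N) (c : ℂ) (v : EE N) : hor p (c • v) = c • hor p v := by
  unfold hor
  rw [hip_smul_left, smul_sub, smul_smul, mul_div_assoc]

theorem hor_add (p v w : EE N) : hor p (v + w) = hor p v + hor p w := by
  unfold hor
  rw [hip_add_left, add_div, add_smul]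
  abel

theorem hl_add (i : A.ι) (p : EE N) (v w : Cn n) : hl CA i p (v + w) = hl CA i p v + hl CA i p w := by
  unfold hl
  rw [map_add, hor_add, smul_add]

theorem hl_csmul (i : A.ι) (p : EE N) (c : ℂ) (w : Cn n) : hl CA i p (c • w) = c • hl CA i p w := by
  unfold hl
  rw [map_smul, hor_smul_right, smul_comm]

theorem hl_sum (i : A.ι) (p : EE N) {ι : Type*} (s : Finset ι) (w : ι → Cn n) :
    hl CA i p (∑ j ∈ s, w j) = ∑ j ∈ s, hl CA i p (w j) := by
  classical
  induction s using Finset.induction_on with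
  | empty =>
    have h := hl_csmul CA i p 0 (0 : Cn n)
    simpa using h
  | insert a s ha ih => rw [Finset.sum_insert ha, Finset.sum_insert ha, hl_add, ih]

theorem hl_smul {i : A.ι} {p : EE N} (hW : p ∈ CA.W i) {c : ℂ} (hc : c ≠ 0) (w : Cn n) :
    hl CA i (c • p) w = c • hl CA i p w := by
  unfold hl
  rw [CA.ζ_smul i c hc p hW, sc_smul CA hW hc, mul_smul]

theorem self_mem_Tan' (hX : IsSmoothProjective I n) {p : EE N} (hp : p ∈ Cone I) : p ∈ Tan I p :=
  Geo_328.self_mem_Tan hX hp.1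

theorem hl_mem (hX : IsSmoothProjective I n) {i : A.ι} {p : EE N} (hp : p ∈ Cone I)
    (hW : p ∈ CA.W i) (w : Cn n) : hl CA i p w ∈ Tan I p := by
  have h1 : Tan I p = Tan I (CA.σ i (CA.ζ i p)) := by
    conv_lhs => rw [eq_sc_smul CA hp hW]
    exact Geo_328.Tan_smul hX _ (sc_ne CA hp hW)
  rw [h1]
  refine Submodule.smul_mem _ _ (hor_mem ?_ (dσ_mem_Tan CA (CA.ζ_mem i p hW) w))
  exact self_mem_Tan' hX (CA.σ_cone (CA.ζ_mem i p hW))

theorem hl_orth {i : A.ι} {p : EE N} (hp : p ∈ Cone I) (hW : p ∈ CA.W i) (w : Cn n) :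
    hip (hl CA i p w) p = 0 := by
  have key : ∀ (c : ℂ) (p' q : EE N), q ≠ 0 → ∀ v, p' = c • q → hip (c • hor q v) p' = 0 := by
    intro c p' q hq v h
    rw [h, hip_smul_left, hip_smul_right, hor_orth hq, mul_zero, mul_zero]
  exact key _ _ _ (CA.σ_cone (CA.ζ_mem i p hW)).2 _ (eq_sc_smul CA hp hW)

theorem cd_hl {i : A.ι} {p : EE N} (hp : p ∈ Cone I) (hW : p ∈ CA.W i) (w : Cn n) :
    cd CA i p (hl CA i p w) = w := by
  have hzt := CA.ζ_mem i p hW
  have key : ∀ q v : EE N, q ∈ CA.W i → p = sc CA i p • q →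
      cd CA i p (sc CA i p • v) = cd CA i q v := by
    intro q v hq h
    have h2 := cd_smul CA hq (sc_ne CA hp hW) v
    rwa [← h] at h2
  unfold hl
  rw [key _ _ (CA.σ_mem_W hzt) (eq_sc_smul CA hp hW)]
  unfold hor
  rw [sub_eq_add_neg, ← neg_smul, cd_add, cd_csmul, cd_self CA (CA.σ_mem_W hzt), smul_zero,
    add_zero, cd_dσ CA hzt]

theorem eq_hl (hX : IsSmoothProjective I n) {i : A.ι} {p v : EE N} (hp : p ∈ Cone I)
    (hW : p ∈ CA.W i) (hv : v ∈ Tan I p) (ho : hip v p = 0) : v = hl CA i p (cd CA i p v) := by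
  have h1 : v - hl CA i p (cd CA i p v) ∈ Tan I p := (Tan I p).sub_mem hv (hl_mem CA hX hp hW _)
  have h2 : cd CA i p (v - hl CA i p (cd CA i p v)) = 0 := by
    have h3 := cd_hl CA hp hW (cd CA i p v)
    unfold cd at h3 ⊢
    rw [map_sub, h3, sub_self]
  obtain ⟨r, hr⟩ := tan_eq_zero CA hX hp hW h1 h2
  have h3 : hip (v - hl CA i p (cd CA i p v)) p = 0 := by
    rw [sub_eq_add_neg, ← neg_one_smul ℂ (hl CA i p (cd CA i p v)), hip_add_left, hip_smul_left,
      ho, hl_orth CA hp hW, mul_zero, add_zero]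
  rw [hr, hip_smul_left, hip_self] at h3
  have h4 : (nsq p : ℂ) ≠ 0 := by exact_mod_cast (nsq_pos hp.2).ne'
  have h5 : r = 0 := (mul_eq_zero.1 h3).resolve_right h4
  rw [h5, zero_smul] at hr
  exact sub_eq_zero.1 hr

theorem hl_chg (hX : IsSmoothProjective I n) {i j : A.ι} {p : EE N} (hp : p ∈ Cone I)
    (hi : p ∈ CA.W i) (hj : p ∈ CA.W j) (w w' : Cn n)
    (h : (w' : Fin n → ℂ) = (Jm A i j (pt p hp)).mulVec w) : hl CA i p w = hl CA j p w' := by
  have h1 := eq_hl CA hX hp hj (hl_mem CA hX hp hi w) (hl_orth CA hp hi w)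
  have h2 := cd_chg CA hX hp hi hj (hl_mem CA hX hp hi w)
  rw [cd_hl CA hp hi] at h2
  have h3 : cd CA j p (hl CA i p w) = w' := by
    ext b
    rw [congrFun h2 b, ← congrFun h b]
  rw [h1, h3]

/-! ### frames representing a chart field -/

/-- the frame `b` represents the contravariant tensor `s` at `p` -/
def Rp {κ : Type*} [Fintype κ] (s : A.ι → XX I → Matrix (Fin n) (Fin n) ℂ) (p : EE N)
    (hp : p ∈ Cone I) (b : κ → EE N) : Prop :=
  ∀ i, p ∈ CA.W i → ∀ a c, s i (pt p hp) a c = ∑ m, cd CA i p (b m) a * conj (cd CA i p (b m) c)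

theorem sum_eq_prF {κ : Type*} [Fintype κ] {s : A.ι → XX I → Matrix (Fin n) (Fin n) ℂ} {p : EE N}
    {hp : p ∈ Cone I} {b : κ → EE N} (hb : Rp CA s p hp b) {i : A.ι} (hi : p ∈ CA.W i)
    (β : A.ι → XX I → Matrix (Fin n) (Fin n) ℂ) :
    ∑ m, ∑ a, ∑ c, β i (pt p hp) a c * cd CA i p (b m) a * conj (cd CA i p (b m) c) =
      prF s β i (pt p hp) := by
  unfold prF
  rw [Finset.sum_comm]
  refine Finset.sum_congr rfl fun a _ => ?_
  rw [Finset.sum_comm]
  refine Finset.sum_congr rfl fun c _ => ?_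
  rw [hb i hi, Finset.sum_mul]
  exact Finset.sum_congr rfl fun m _ => by ring

open Crest.Agent.R269.LevC_653 (lev)

/-- `∑ lev u p b_m = tr (s · ∂∂̄ u)` -/
theorem sum_lev_eq_trF (hX : IsSmoothProjective I n) {κ : Type*} [Fintype κ]
    {s : A.ι → XX I → Matrix (Fin n) (Fin n) ℂ} (hs : Tc A s) {p : EE N} {hp : p ∈ Cone I}
    {b : κ → EE N} (hb : Rp CA s p hp b) (hbT : ∀ m, b m ∈ Tan I p) {u : EE N → ℝ}
    (hu1 : ∀ p ∈ Cone I, ContDiffAt ℝ ∞ u p)
    (hu2 : ∀ c : ℂ, c ≠ 0 → ∀ p ∈ Cone I, u (c • p) = u p) :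
    ∑ m, lev u p (b m) = trF s (hsf A (dn u)) (pt p hp) := by
  obtain ⟨i, hi⟩ := CA.exists_mem_W hp
  have hx := (CA.mem_W i p hp).1 hi
  have hβ : Tn A (hsf A (dn (I := I) u)) := fun i j x hx => hsf_tr (dn_sm CA hu1 hu2) hx
  rw [trF_eq hs hβ hx, ← sum_eq_prF CA hb hi, Complex.re_sum]
  refine Finset.sum_congr rfl fun m _ => ?_
  rw [← lev_eq_hess CA hX hu1 hu2 hp hi (hbT m), Complex.ofReal_re]

/-- Gram determinant of a representing frame -/
theorem det_omB_eq (hX : IsSmoothProjective I n)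
    {s : A.ι → XX I → Matrix (Fin n) (Fin n) ℂ} {p : EE N} {hp : p ∈ Cone I}
    {b : Fin n → EE N} (hb : Rp CA s p hp b) (hbT : ∀ m, b m ∈ Tan I p) {i : A.ι}
    (hi : p ∈ CA.W i) :
    (Matrix.of fun l m => omB p (b l) (b m)).det =
      (s i (pt p hp)).det * ((fsKah CA.projD).g i (pt p hp)).det := by
  set V : Matrix (Fin n) (Fin n) ℂ := Matrix.of fun a m => cd CA i p (b m) a with hV
  have h1 : (Matrix.of fun l m => omB p (b l) (b m)) =
      Vᵀ * (fsKah CA.projD).g i (pt p hp) * V.map conj := by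
    ext l m
    rw [Matrix.of_apply, omB_eq_K CA hX hp hi (hbT l) (hbT m)]
    simp only [Matrix.mul_apply, Matrix.transpose_apply, Matrix.map_apply, hV, Matrix.of_apply,
      Finset.sum_mul]
    rw [Finset.sum_comm]
    exact Finset.sum_congr rfl fun a _ => Finset.sum_congr rfl fun c _ => by ring
  have h2 : s i (pt p hp) = V * Vᴴ := by
    ext a c
    rw [hb i hi]
    simp only [Matrix.mul_apply, Matrix.conjTranspose_apply, hV, Matrix.of_apply, RCLike.star_def]
  have h3 : (V.map conj).det = (Vᴴ).det := by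
    rw [← Matrix.det_transpose (V.map conj)]
    rfl
  rw [h1, h2, Matrix.det_mul, Matrix.det_mul, Matrix.det_mul, Matrix.det_transpose, h3]
  ring

theorem det_omB_eq_dtF (hX : IsSmoothProjective I n)
    {s : A.ι → XX I → Matrix (Fin n) (Fin n) ℂ} (hs : Tc A s) {p : EE N} {hp : p ∈ Cone I}
    {b : Fin n → EE N} (hb : Rp CA s p hp b) (hbT : ∀ m, b m ∈ Tan I p) :
    ((Matrix.of fun l m => omB p (b l) (b m)).det).re = dtF (fsKah CA.projD) s (pt p hp) := by
  obtain ⟨i, hi⟩ := CA.exists_mem_W hp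
  rw [det_omB_eq CA hX hb hbT hi, dtF_eq _ hs ((CA.mem_W i p hp).1 hi)]

end

end Crest.Agent.R269.DictC_886
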