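import Crest.Agent.R269.DictC_886
import Crest.Agent.R269.Defs_58

/-!
# R269 (S0411), leaf DICT-FLD, file D (helper886): ambient fields and chart fields

* `DD_eq`      : `DD p b = det (omB p (b l) (b m))` for ALL frames;  `omB_self : omB p v v = omg p v`;
* `upM`, `dnM` : transport of a Hermitian tensor between the chart and the ambient space;
* `exists_up_field` : a positive chart field `s` comes from a `PosField`;
* `dnF`        : the chart field of a `PosField`; `dnF_isFld`, `dnF_posDef`, `dnF_rp`.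
-/

set_option autoImplicit false
set_option linter.unusedSectionVars false

open MvPolynomial Crest.AlgGeometry.ProjEmb Set Filter Topology
open scoped ContDiff ComplexConjugate Matrix ComplexOrder MatrixOrder

namespace Crest.Agent.R269.DictD_886

open Crest.Agent.R269.Geo_328 Crest.Agent.R275.Geo Crest.Agent.R269.CAtl_886
open Crest.Agent.R269.DictA_886 Crest.Agent.R269.DictB_886 Crest.Agent.R269.DictC_886
open Crest.Agent.R275.Core144
open Crest.Agent.R273.Hess_333 Crest.Agent.R273.HessB_333 Crest.Agent.R273.Kah_333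
open Crest.Agent.R273.FS_333 (fsKah sq)
open Crest.Agent.R269.Fld_851
open Crest.Agent.R273.GreenM_5 (Tn ci mem_ci)
open Crest.Agent.R269.Defs_58 (omg wedgeSq DD SmX TanFam Rep PosField)

noncomputable section

variable {N n : ℕ} {I : Ideal (HomCoordRing N)}

/-! ### `DD` and `omg` -/

theorem omB_self (p v : EE N) : omB p v v = ((omg p v : ℝ) : ℂ) := by
  unfold omB omg
  have h1 : hip v p * hip p v = ((‖∑ k, v k * conj (p k)‖ ^ 2 : ℝ) : ℂ) := by
    rw [← hip_conj v p, Complex.mul_conj, Complex.normSq_eq_norm_sq]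
    rfl
  rw [hip_self, h1]
  push_cast [nsq]
  rfl

/-- Gram determinant of `(p, b)` (Schur complement) -/
theorem gram_det {p : EE N} (hp : p ≠ 0) (b : Fin n → EE N) :
    (Matrix.of fun i j : Fin (n + 1) => hip ((Fin.cons p b : Fin (n + 1) → EE N) i)
      ((Fin.cons p b : Fin (n + 1) → EE N) j)).det =
      (nsq p : ℂ) ^ (n + 1) * (Matrix.of fun l m => omB p (b l) (b m)).det := by
  have h3 : (nsq p : ℂ) ≠ 0 := by exact_mod_cast (nsq_pos hp).ne'
  set e : Fin (n + 1) ≃ Fin n ⊕ PUnit.{1} :=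
    (finSuccEquiv n).trans (Equiv.optionEquivSumPUnit _) with he
  have he1 : ∀ l, e.symm (Sum.inl l) = l.succ := fun l => by simp [he]
  have he2 : ∀ u, e.symm (Sum.inr u) = 0 := fun u => by simp [he]
  set D : Matrix PUnit.{1} PUnit.{1} ℂ := Matrix.of fun _ _ => (nsq p : ℂ) with hDd
  have hD : D * (Matrix.of fun _ _ => (nsq p : ℂ)⁻¹) = 1 := by
    ext i j
    simp [hDd, Matrix.mul_apply, h3]
  let iD : Invertible D := invertibleOfRightInverse _ _ hD
  have hDi : ⅟D = Matrix.of fun _ _ => (nsq p : ℂ)⁻¹ := invOf_eq_right_inv hD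
  set Am : Matrix (Fin n) (Fin n) ℂ := Matrix.of fun l m => hip (b l) (b m) with hAm
  set Bm : Matrix (Fin n) PUnit.{1} ℂ := Matrix.of fun l _ => hip (b l) p with hBm
  set Cm : Matrix PUnit.{1} (Fin n) ℂ := Matrix.of fun _ m => hip p (b m) with hCm
  rw [← Matrix.det_submatrix_equiv_self e.symm]
  have h4 : ((Matrix.of fun i j : Fin (n + 1) => hip ((Fin.cons p b : Fin (n + 1) → EE N) i)
      ((Fin.cons p b : Fin (n + 1) → EE N) j)).submatrix e.symm e.symm) =
      Matrix.fromBlocks Am Bm Cm D := by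
    ext (l | l) (m | m)
    · simp [he1, hAm]
    · simp [he1, he2, hBm]
    · simp [he1, he2, hCm]
    · simp [he2, hDd, hip_self]
  rw [h4, Matrix.det_fromBlocks₂₂]
  have h5 : Am - Bm * ⅟D * Cm = (nsq p : ℂ) • Matrix.of fun l m => omB p (b l) (b m) := by
    rw [hDi]
    ext l m
    simp only [Matrix.sub_apply, Matrix.of_apply, Matrix.mul_apply, Matrix.smul_apply,
      Finset.univ_unique, Finset.sum_singleton, smul_eq_mul, omB, hAm, hBm, hCm]
    field_simp
  have h6 : D.det = (nsq p : ℂ) := by rw [Matrix.det_unique]; rfl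
  rw [h5, Matrix.det_smul, Fintype.card_fin, h6]
  ring

theorem DD_eq {p : EE N} (hp : p ≠ 0) (b : Fin n → EE N) :
    DD p b = ((Matrix.of fun l m => omB p (b l) (b m)).det).re := by
  unfold DD wedgeSq
  have h1 : (Matrix.of fun i j : Fin (n + 1) => ∑ k, (Fin.cons p b : Fin (n + 1) → EE N) i k *
      conj ((Fin.cons p b : Fin (n + 1) → EE N) j k)) =
      (Matrix.of fun i j : Fin (n + 1) => hip ((Fin.cons p b : Fin (n + 1) → EE N) i)
      ((Fin.cons p b : Fin (n + 1) → EE N) j)) := rfl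
  rw [h1, gram_det hp]
  have h2 := nsq_pos hp
  have h3 : ((nsq p : ℂ) ^ (n + 1) * (Matrix.of fun l m => omB p (b l) (b m)).det).re =
      nsq p ^ (n + 1) * ((Matrix.of fun l m => omB p (b l) (b m)).det).re := by
    rw [← Complex.ofReal_pow, Complex.re_ofReal_mul]
  rw [h3]
  field_simp

/-! ### transport of tensors -/

variable {A : Atl n (XX I)} (CA : CAtl I A)

/-- basis vector of the chart -/
abbrev ee (a : Fin n) : Cn n := EuclideanSpace.single a (1 : ℂ)

/-- basis vector of the ambient space -/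
abbrev es (k : Fin (N + 1)) : EE N := Pi.single k (1 : ℂ)

/-- `D T D^*`, `D = Dζ_i(p)` -/
def dnM (i : A.ι) (p : EE N) (T : VV N) : Matrix (Fin n) (Fin n) ℂ :=
  Matrix.of fun a c => ∑ k, ∑ l, cd CA i p (es k) a * T k l * conj (cd CA i p (es l) c)

theorem cd_eq_sum (i : A.ι) (p v : EE N) (a : Fin n) :
    cd CA i p v a = ∑ k, v k * cd CA i p (es k) a := by
  have h1 : v = ∑ k, v k • (es k : EE N) := by
    ext l
    simp [Finset.sum_apply, Pi.single_apply]
  conv_lhs => rw [h1]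
  unfold cd
  rw [map_sum]
  simp

theorem dnM_sum {κ : Type*} [Fintype κ] (i : A.ι) (p : EE N) (r : κ → ℂ) (b b' : κ → EE N)
    (T : VV N) (hT : ∀ k l, T k l = ∑ m, r m * (b m k * conj (b' m l))) (a c : Fin n) :
    dnM CA i p T a c = ∑ m, r m * (cd CA i p (b m) a * conj (cd CA i p (b' m) c)) := by
  have h1 : dnM CA i p T a c = ∑ k, ∑ l, ∑ m, cd CA i p (es k) a * (r m * (b m k * conj (b' m l))) *
      conj (cd CA i p (es l) c) := by
    simp only [dnM, Matrix.of_apply, hT, Finset.mul_sum, Finset.sum_mul]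
  have h2 : (∑ m, r m * (cd CA i p (b m) a * conj (cd CA i p (b' m) c))) =
      ∑ m, ∑ k, ∑ l, cd CA i p (es k) a * (r m * (b m k * conj (b' m l))) *
      conj (cd CA i p (es l) c) := by
    refine Finset.sum_congr rfl fun m _ => ?_
    rw [cd_eq_sum CA i p (b m) a, cd_eq_sum CA i p (b' m) c, map_sum, Finset.sum_mul_sum,
      Finset.mul_sum]
    refine Finset.sum_congr rfl fun k _ => ?_
    rw [Finset.mul_sum]
    refine Finset.sum_congr rfl fun l _ => ?_
    rw [map_mul]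
    ring
  rw [h1, h2]
  calc (∑ k, ∑ l, ∑ m, cd CA i p (es k) a * (r m * (b m k * conj (b' m l))) *
      conj (cd CA i p (es l) c)) = ∑ k, ∑ m, ∑ l, cd CA i p (es k) a *
        (r m * (b m k * conj (b' m l))) * conj (cd CA i p (es l) c) :=
        Finset.sum_congr rfl fun k _ => Finset.sum_comm
    _ = _ := Finset.sum_comm

theorem dnM_rank {κ : Type*} [Fintype κ] (i : A.ι) (p : EE N) (b : κ → EE N)
    (T : VV N) (hT : ∀ k l, T k l = ∑ m, b m k * conj (b m l)) (a c : Fin n) :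
    dnM CA i p T a c = ∑ m, cd CA i p (b m) a * conj (cd CA i p (b m) c) := by
  rw [dnM_sum CA i p (fun _ => 1) b b T fun k l => by rw [hT]; simp]
  simp

theorem dnM_smul {i : A.ι} {p : EE N} (hW : p ∈ CA.W i) {c : ℂ} (hc : c ≠ 0) (T : VV N) :
    dnM CA i (c • p) (((‖c‖ ^ 2 : ℝ) : ℂ) • T) = dnM CA i p T := by
  have h1 : ∀ v, cd CA i (c • p) v = c⁻¹ • cd CA i p v := by
    intro v
    have h2 := cd_smul CA hW hc (c⁻¹ • v)
    rwa [smul_smul, mul_inv_cancel₀ hc, one_smul, cd_csmul] at h2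
  ext a d
  simp only [dnM, Matrix.of_apply, h1, Pi.smul_apply, smul_eq_mul, PiLp.smul_apply, map_mul]
  refine Finset.sum_congr rfl fun k _ => Finset.sum_congr rfl fun l _ => ?_
  have h3 : ((‖c‖ ^ 2 : ℝ) : ℂ) = c * conj c := by
    rw [Complex.mul_conj, Complex.normSq_eq_norm_sq]
  have h4 : conj c ≠ 0 := by simpa using hc
  rw [h3, map_inv₀]
  field_simp

/-- the horizontal lift of a contravariant tensor -/
def upM (i : A.ι) (p : EE N) (S : Matrix (Fin n) (Fin n) ℂ) : VV N := fun k l =>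
  ∑ a, ∑ b, S a b * (hl CA i p (ee a) k * conj (hl CA i p (ee b) l))

/-- the same on the section -/
def upE (i : A.ι) (z : Cn n) (S : Matrix (Fin n) (Fin n) ℂ) : VV N := fun k l =>
  ∑ a, ∑ b, S a b * (hor (CA.σ i z) (dσ CA i z a) k * conj (hor (CA.σ i z) (dσ CA i z b) l))

theorem upM_eq (i : A.ι) (p : EE N) (S : Matrix (Fin n) (Fin n) ℂ) :
    upM CA i p S = (‖sc CA i p‖ ^ 2 : ℝ) • upE CA i (CA.ζ i p) S := by
  funext k l
  simp only [upM, upE, Pi.smul_apply, hl, smul_eq_mul, map_mul, Complex.real_smul, Finset.mul_sum]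
  refine Finset.sum_congr rfl fun a _ => Finset.sum_congr rfl fun b _ => ?_
  have h3 : ((‖sc CA i p‖ ^ 2 : ℝ) : ℂ) = sc CA i p * conj (sc CA i p) := by
    rw [Complex.mul_conj, Complex.normSq_eq_norm_sq]
  rw [h3]
  simp only [dσ]
  ring

theorem upM_eq' {i : A.ι} {p : EE N} (hp : p ∈ Cone I) (hW : p ∈ CA.W i)
    (S : Matrix (Fin n) (Fin n) ℂ) :
    (nsq p)⁻¹ • upM CA i p S = (nsq (CA.σ i (CA.ζ i p)))⁻¹ • upE CA i (CA.ζ i p) S := by
  have h0 := nsq_pos (CA.σ_cone (CA.ζ_mem i p hW)).2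
  have h1 : nsq p = ‖sc CA i p‖ ^ 2 * nsq (CA.σ i (CA.ζ i p)) := by
    conv_lhs => rw [eq_sc_smul CA hp hW]
    exact nsq_smul _ _
  have h2 : ‖sc CA i p‖ ≠ 0 := norm_ne_zero_iff.2 (sc_ne CA hp hW)
  rw [h1, upM_eq, smul_smul]
  congr 1
  field_simp

/-- sum form of `upM` over pairs -/
theorem upM_apply (i : A.ι) (p : EE N) (S : Matrix (Fin n) (Fin n) ℂ) (k l : Fin (N + 1)) :
    upM CA i p S k l = ∑ m : Fin n × Fin n, S m.1 m.2 * (hl CA i p (ee m.1) k *
      conj (hl CA i p (ee m.2) l)) := by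
  rw [Fintype.sum_prod_type]
  rfl

theorem dnM_upM {i : A.ι} {p : EE N} (hp : p ∈ Cone I) (hW : p ∈ CA.W i)
    (S : Matrix (Fin n) (Fin n) ℂ) : dnM CA i p (upM CA i p S) = S := by
  ext a c
  rw [dnM_sum CA i p (fun m : Fin n × Fin n => S m.1 m.2) (fun m => hl CA i p (ee m.1))
    (fun m => hl CA i p (ee m.2)) _ (upM_apply CA i p S)]
  rw [Fintype.sum_prod_type]
  simp only [cd_hl CA hp hW]
  simp

/-- `upM` of `V Vᴴ` -/
theorem upM_mul (i : A.ι) (p : EE N) {κ : Type*} [Fintype κ] (V : Matrix (Fin n) κ ℂ)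
    (k l : Fin (N + 1)) : upM CA i p (V * Vᴴ) k l =
      ∑ m, hl CA i p (WithLp.toLp 2 fun a => V a m) k *
        conj (hl CA i p (WithLp.toLp 2 fun a => V a m) l) := by
  have h1 : ∀ m, hl CA i p (WithLp.toLp 2 fun a => V a m) = ∑ a, V a m • hl CA i p (ee a) := by
    intro m
    have h2 : (WithLp.toLp 2 fun a => V a m : Cn n) = ∑ a, V a m • ee a := by
      ext d
      simp [Pi.single_apply]
    rw [h2, hl_sum]
    exact Finset.sum_congr rfl fun a _ => hl_csmul CA i p _ _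
  have h3 : (∑ m, hl CA i p (WithLp.toLp 2 fun a => V a m) k *
        conj (hl CA i p (WithLp.toLp 2 fun a => V a m) l)) = ∑ m, ∑ a, ∑ b, (V a m * conj (V b m)) *
          (hl CA i p (ee a) k * conj (hl CA i p (ee b) l)) := by
    refine Finset.sum_congr rfl fun m _ => ?_
    rw [h1]
    simp only [Finset.sum_apply, Pi.smul_apply, smul_eq_mul, map_sum, map_mul]
    rw [Finset.sum_mul_sum]
    exact Finset.sum_congr rfl fun a _ => Finset.sum_congr rfl fun b _ => by ring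
  rw [h3, Finset.sum_comm]
  unfold upM
  refine Finset.sum_congr rfl fun a _ => ?_
  rw [Finset.sum_comm]
  refine Finset.sum_congr rfl fun b _ => ?_
  rw [Matrix.mul_apply, Finset.sum_mul]
  rfl

/-- the lift of a contravariant field does not depend on the chart -/
theorem upM_chg (hX : IsSmoothProjective I n) {s : A.ι → XX I → Matrix (Fin n) (Fin n) ℂ}
    (hs : Tc A s) {i j : A.ι} {p : EE N} (hp : p ∈ Cone I) (hi : p ∈ CA.W i) (hj : p ∈ CA.W j) :
    upM CA i p (s i (pt p hp)) = upM CA j p (s j (pt p hp)) := by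
  have hxi := (CA.mem_W i p hp).1 hi
  have hxj := (CA.mem_W j p hp).1 hj
  set J := Jm A i j (pt p hp) with hJ
  have h1 : ∀ a, hl CA i p (ee a) = ∑ c, J c a • hl CA j p (ee c) := by
    intro a
    have h2 : hl CA i p (ee a) = hl CA j p (∑ c, J c a • ee c) := by
      refine hl_chg CA hX hp hi hj _ _ ?_
      ext d
      rw [← hJ]
      simp [Matrix.mulVec, dotProduct, Pi.single_apply]
    rw [h2, hl_sum]
    exact Finset.sum_congr rfl fun c _ => hl_csmul CA j p _ _
  rw [hs i j _ ⟨hxi, hxj⟩, ← hJ]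
  funext k l
  unfold upM
  have h3 : ∀ c d, (J * s i (pt p hp) * Jᴴ) c d =
      ∑ a, ∑ b, J c a * s i (pt p hp) a b * conj (J d b) := by
    intro c d
    rw [Matrix.mul_apply, Finset.sum_comm]
    refine Finset.sum_congr rfl fun b _ => ?_
    rw [Matrix.mul_apply, Finset.sum_mul]
    rfl
  have e1 : (∑ a, ∑ b, s i (pt p hp) a b * (hl CA i p (ee a) k * conj (hl CA i p (ee b) l))) =
      ∑ a, ∑ b, ∑ c, ∑ d, (J c a * s i (pt p hp) a b * conj (J d b)) *
        (hl CA j p (ee c) k * conj (hl CA j p (ee d) l)) := by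
    refine Finset.sum_congr rfl fun a _ => Finset.sum_congr rfl fun b _ => ?_
    rw [h1 a, h1 b]
    simp only [Finset.sum_apply, Pi.smul_apply, smul_eq_mul, map_sum, map_mul]
    rw [Finset.sum_mul_sum, Finset.mul_sum]
    refine Finset.sum_congr rfl fun c _ => ?_
    rw [Finset.mul_sum]
    exact Finset.sum_congr rfl fun d _ => by ring
  have e2 : (∑ c, ∑ d, (J * s i (pt p hp) * Jᴴ) c d *
      (hl CA j p (ee c) k * conj (hl CA j p (ee d) l))) =
      ∑ c, ∑ d, ∑ a, ∑ b, (J c a * s i (pt p hp) a b * conj (J d b)) *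
        (hl CA j p (ee c) k * conj (hl CA j p (ee d) l)) := by
    refine Finset.sum_congr rfl fun c _ => Finset.sum_congr rfl fun d _ => ?_
    rw [h3, Finset.sum_mul]
    exact Finset.sum_congr rfl fun a _ => Finset.sum_mul _ _ _
  rw [e1, e2]
  calc (∑ a, ∑ b, ∑ c, ∑ d, (J c a * s i (pt p hp) a b * conj (J d b)) *
        (hl CA j p (ee c) k * conj (hl CA j p (ee d) l))) =
      ∑ a, ∑ c, ∑ b, ∑ d, (J c a * s i (pt p hp) a b * conj (J d b)) *
        (hl CA j p (ee c) k * conj (hl CA j p (ee d) l)) :=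
        Finset.sum_congr rfl fun a _ => Finset.sum_comm
    _ = ∑ c, ∑ a, ∑ b, ∑ d, (J c a * s i (pt p hp) a b * conj (J d b)) *
        (hl CA j p (ee c) k * conj (hl CA j p (ee d) l)) := Finset.sum_comm
    _ = ∑ c, ∑ a, ∑ d, ∑ b, (J c a * s i (pt p hp) a b * conj (J d b)) *
        (hl CA j p (ee c) k * conj (hl CA j p (ee d) l)) :=
        Finset.sum_congr rfl fun c _ => Finset.sum_congr rfl fun a _ => Finset.sum_comm
    _ = ∑ c, ∑ d, ∑ a, ∑ b, (J c a * s i (pt p hp) a b * conj (J d b)) *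
        (hl CA j p (ee c) k * conj (hl CA j p (ee d) l)) :=
        Finset.sum_congr rfl fun c _ => Finset.sum_comm

/-! ### smoothness -/

theorem coe_smooth {F : Type*} [NormedAddCommGroup F] [NormedSpace ℂ F] [NormedSpace ℝ F]
    [IsScalarTower ℝ ℂ F] [CompleteSpace F] {f : Cn n → F} {z : Cn n} (h : AnalyticAt ℂ f z) :
    ContDiffAt ℝ ∞ f z :=
  (h.contDiffAt (n := ∞)).restrict_scalars ℝ

theorem contDiffAt_conj {f : Cn n → ℂ} {z : Cn n} (h : ContDiffAt ℝ ∞ f z) :
    ContDiffAt ℝ ∞ (fun z => conj (f z)) z :=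
  Complex.conjCLE.contDiff.contDiffAt.comp z h

theorem contDiffAt_σ {i : A.ι} {z : Cn n} (hz : z ∈ (A.e i).target) (k : Fin (N + 1)) :
    ContDiffAt ℝ ∞ (fun z => CA.σ i z k) z :=
  contDiffAt_pi.1 (CA.σ_contDiffAt hz) k

theorem contDiffAt_dσ {i : A.ι} {z : Cn n} (hz : z ∈ (A.e i).target) (a : Fin n)
    (k : Fin (N + 1)) : ContDiffAt ℝ ∞ (fun z => dσ CA i z a k) z := by
  have h1 : AnalyticAt ℂ (fun z => dσ CA i z a) z := by
    have h2 := (σ_analyticAt CA hz).fderiv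
    exact ((ContinuousLinearMap.apply ℂ (EE N) (EuclideanSpace.single a (1 : ℂ) : Cn n)).analyticAt
      _).comp h2
  exact contDiffAt_pi.1 (coe_smooth h1) k

theorem contDiffAt_hip {f g : Cn n → EE N} {z : Cn n} (hf : ∀ k, ContDiffAt ℝ ∞ (fun z => f z k) z)
    (hg : ∀ k, ContDiffAt ℝ ∞ (fun z => g z k) z) :
    ContDiffAt ℝ ∞ (fun z => hip (f z) (g z)) z :=
  ContDiffAt.sum fun k _ => (hf k).mul (contDiffAt_conj (hg k))

theorem contDiffAt_nsqσ {i : A.ι} {z : Cn n} (hz : z ∈ (A.e i).target) :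
    ContDiffAt ℝ ∞ (fun z => nsq (CA.σ i z)) z :=
  ((contDiffOn_nsq univ).contDiffAt univ_mem).comp z (CA.σ_contDiffAt hz)

theorem contDiffAt_hor {i : A.ι} {z : Cn n} (hz : z ∈ (A.e i).target) (a : Fin n)
    (k : Fin (N + 1)) :
    ContDiffAt ℝ ∞ (fun z => hor (CA.σ i z) (dσ CA i z a) k) z := by
  have h1 := contDiffAt_dσ CA hz a
  have h2 := contDiffAt_σ CA hz
  have h3 : ContDiffAt ℝ ∞ (fun z => (nsq (CA.σ i z) : ℂ)) z :=
    Complex.ofRealCLM.contDiff.contDiffAt.comp z (contDiffAt_nsqσ CA hz)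
  have h0 : (nsq (CA.σ i z) : ℂ) ≠ 0 := by exact_mod_cast (nsq_pos (CA.σ_cone hz).2).ne'
  have h4 := (h1 k).sub (((contDiffAt_hip h1 h2).mul (h3.inv h0)).mul (h2 k))
  exact h4

theorem contDiffAt_upE {i : A.ι} {z : Cn n} (hz : z ∈ (A.e i).target)
    {S : Cn n → Matrix (Fin n) (Fin n) ℂ} (hS : ∀ a b, ContDiffAt ℝ ∞ (fun z => S z a b) z) :
    ContDiffAt ℝ ∞ (fun z => upE CA i z (S z)) z := by
  refine contDiffAt_pi.2 fun k => contDiffAt_pi.2 fun l => ?_
  exact ContDiffAt.sum fun a _ => ContDiffAt.sum fun b _ =>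
    (hS a b).mul ((contDiffAt_hor CA hz a k).mul (contDiffAt_conj (contDiffAt_hor CA hz b l)))

theorem contDiffAt_cd {i : A.ι} {z : Cn n} (hz : z ∈ (A.e i).target) (v : EE N) (a : Fin n) :
    ContDiffAt ℝ ∞ (fun z => cd CA i (CA.σ i z) v a) z := by
  have h2 : AnalyticAt ℂ (fun z => fderiv ℂ (CA.ζ i) (CA.σ i z)) z :=
    ((ζ_analyticAt CA (CA.σ_mem_W hz)).fderiv).comp (σ_analyticAt CA hz)
  have h3 : AnalyticAt ℂ (fun z => cd CA i (CA.σ i z) v) z :=
    ((ContinuousLinearMap.apply ℂ (Cn n) v).analyticAt _).comp h2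
  have h4 : AnalyticAt ℂ (fun z => cd CA i (CA.σ i z) v a) z :=
    ((EuclideanSpace.proj (𝕜 := ℂ) a).analyticAt _).comp h3
  exact coe_smooth h4

/-! ### from chart fields to ambient fields -/

/-- the lift of the field, divided by `|p|²`, as a function on `X^` -/
def gx (s : A.ι → XX I → Matrix (Fin n) (Fin n) ℂ) (x : XX I) : VV N :=
  (nsq (lift x))⁻¹ • upM CA (ci A x) (lift x) (s (ci A x) x)

theorem gx_eq (hX : IsSmoothProjective I n) {s : A.ι → XX I → Matrix (Fin n) (Fin n) ℂ}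
    (hs : Tc A s) {i : A.ι} {x : XX I} (hx : x ∈ (A.e i).source) :
    gx CA s x = (nsq (CA.σ i (A.e i x)))⁻¹ • upE CA i (A.e i x) (s i x) := by
  have hp := lift_cone x
  have hi : lift x ∈ CA.W i := (CA.mem_W i _ hp).2 (by rw [pt_lift]; exact hx)
  have hc : lift x ∈ CA.W (ci A x) := (CA.mem_W _ _ hp).2 (by rw [pt_lift]; exact mem_ci x)
  have h1 := upM_chg CA hX hs hp hc hi
  rw [pt_lift] at h1
  have h2 := CA.ζ_e i _ hp hi
  rw [pt_lift] at h2
  unfold gx
  rw [h1, upM_eq' CA hp hi, h2]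

theorem gx_sm (hX : IsSmoothProjective I n) {s : A.ι → XX I → Matrix (Fin n) (Fin n) ℂ}
    (hs : IsFld A s) : A.Sm (gx CA s) := by
  intro i
  have h1 : ContDiffOn ℝ ∞ (fun z => (nsq (CA.σ i z))⁻¹ • upE CA i z (s i ((A.e i).symm z)))
      (A.e i).target := by
    intro z hz
    have h0 : nsq (CA.σ i z) ≠ 0 := (nsq_pos (CA.σ_cone hz).2).ne'
    refine (((contDiffAt_nsqσ CA hz).inv h0).smul (contDiffAt_upE CA hz fun a b => ?_)
      ).contDiffWithinAt
    exact (hs.sm i a b z hz).contDiffAt ((A.e i).open_target.mem_nhds hz)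
  refine h1.congr fun z hz => ?_
  rw [gx_eq CA hX hs.tc ((A.e i).map_target hz), (A.e i).right_inv hz]

theorem gx_pt (hX : IsSmoothProjective I n) {s : A.ι → XX I → Matrix (Fin n) (Fin n) ℂ}
    (hs : Tc A s) {i : A.ι} {p : EE N} (hp : p ∈ Cone I) (hi : p ∈ CA.W i) :
    gx CA s (pt p hp) = (nsq p)⁻¹ • upM CA i p (s i (pt p hp)) := by
  rw [gx_eq CA hX hs ((CA.mem_W i p hp).1 hi), upM_eq' CA hp hi, CA.ζ_e i p hp hi]

theorem exists_mul_conjTranspose {S : Matrix (Fin n) (Fin n) ℂ} (hS : S.PosDef) :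
    ∃ V : Matrix (Fin n) (Fin n) ℂ, S = V * Vᴴ := by
  obtain ⟨B, hB⟩ := CStarAlgebra.nonneg_iff_eq_star_mul_self.mp hS.posSemidef.nonneg
  exact ⟨Bᴴ, by rw [Matrix.conjTranspose_conjTranspose]; exact hB⟩

include CA in
/-- every positive chart field is the chart field of an ambient `PosField` -/
theorem exists_up_field [Finite A.ι] (P : Part A) (hX : IsSmoothProjective I n)
    {s : A.ι → XX I → Matrix (Fin n) (Fin n) ℂ} (hs : IsFld A s)
    (hpos : ∀ i, ∀ x ∈ (A.e i).source, (s i x).PosDef) :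
    ∃ a : EE N → VV N, PosField I n a ∧
      (∀ p (hp : p ∈ Cone I) i, p ∈ CA.W i → a p = upM CA i p (s i (pt p hp))) ∧
      ∀ (κ : Type) [Fintype κ] p (hp : p ∈ Cone I) (b : κ → EE N),
        (∀ j k, a p j k = ∑ m, b m j * conj (b m k)) → Rp CA s p hp b := by
  obtain ⟨u, hu1, hu2, hu3⟩ := exists_up CA P (gx_sm CA hX hs)
  have key : ∀ p (hp : p ∈ Cone I) i, p ∈ CA.W i →
      (nsq p) • u p = upM CA i p (s i (pt p hp)) := by
    intro p hp i hi
    rw [hu3 p hp, gx_pt CA hX hs.tc hp hi, smul_smul, mul_inv_cancel₀ (nsq_pos hp.2).ne',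
      one_smul]
  have hRp : ∀ (κ : Type) [Fintype κ] p (hp : p ∈ Cone I) (b : κ → EE N),
      (∀ j k, ((nsq p) • u p) j k = ∑ m, b m j * conj (b m k)) → Rp CA s p hp b := by
    intro κ _ p hp b hb i hi a c
    have h1 : s i (pt p hp) = dnM CA i p ((nsq p) • u p) := by
      rw [key p hp i hi, dnM_upM CA hp hi]
    conv_lhs => rw [h1]
    exact dnM_rank CA i p b _ hb a c
  refine ⟨fun p => (nsq p) • u p, ⟨fun p hp => ?_, fun p hp c hc => ?_, fun p hp => ?_⟩, key, hRp⟩
  · exact (((contDiffOn_nsq univ).contDiffAt univ_mem)).smul (hu1 p hp)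
  · beta_reduce
    rw [hu2 c hc p, nsq_smul, mul_smul]
    funext k l
    simp [Pi.smul_apply]
  · obtain ⟨i, hi⟩ := CA.exists_mem_W hp
    have hx := (CA.mem_W i p hp).1 hi
    obtain ⟨V, hV⟩ := exists_mul_conjTranspose (hpos i _ hx)
    set b : Fin n → EE N := fun m => hl CA i p (WithLp.toLp 2 fun a => V a m) with hb
    have hbT : ∀ m, b m ∈ Tan I p := fun m => hl_mem CA hX hp hi _
    have hrep : ∀ j k, ((nsq p) • u p) j k = ∑ m, b m j * conj (b m k) := by
      intro j k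
      rw [key p hp i hi, hV, upM_mul]
    refine ⟨b, ⟨hbT, fun m => hl_orth CA hp hi _, hrep⟩, ?_⟩
    rw [DD_eq hp.2, det_omB_eq_dtF CA hX hs.tc (hRp _ p hp b hrep) hbT]
    exact dtF_pos _ hs.tc hx (hpos i _ hx)

/-! ### from ambient fields to chart fields -/

open Classical in
/-- the chart field of an ambient field -/
def dnF (a : EE N → VV N) (i : A.ι) (x : XX I) : Matrix (Fin n) (Fin n) ℂ :=
  if x ∈ (A.e i).source then dnM CA i (CA.F i x) (a (CA.F i x)) else 0

theorem dnF_of (a : EE N → VV N) {i : A.ι} {x : XX I} (hx : x ∈ (A.e i).source) :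
    dnF CA a i x = dnM CA i (CA.F i x) (a (CA.F i x)) := if_pos hx

theorem dnF_pt {a : EE N → VV N}
    (ha : ∀ p ∈ Cone I, ∀ c : ℂ, c ≠ 0 → a (c • p) = ((‖c‖ ^ 2 : ℝ) : ℂ) • a p)
    {i : A.ι} {p : EE N} (hp : p ∈ Cone I) (hi : p ∈ CA.W i) :
    dnF CA a i (pt p hp) = dnM CA i p (a p) := by
  have hx := (CA.mem_W i p hp).1 hi
  obtain ⟨c, hc, hpc⟩ := CA.eq_smul_F hp hx
  unfold dnF
  rw [if_pos hx]
  have key : ∀ q ∈ Cone I, q ∈ CA.W i → p = c • q → dnM CA i q (a q) = dnM CA i p (a p) := by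
    intro q hq hqW h
    rw [h, ha q hq c hc, dnM_smul CA hqW hc]
  exact key _ (CA.F_cone i _ hx) (CA.F_mem_W hx) hpc

theorem dnF_rp {a : EE N → VV N}
    (ha : ∀ p ∈ Cone I, ∀ c : ℂ, c ≠ 0 → a (c • p) = ((‖c‖ ^ 2 : ℝ) : ℂ) • a p)
    {κ : Type*} [Fintype κ] {p : EE N} (hp : p ∈ Cone I) {b : κ → EE N}
    (hb : ∀ j k, a p j k = ∑ m, b m j * conj (b m k)) : Rp CA (dnF CA a) p hp b := by
  intro i hi a' c
  rw [dnF_pt CA ha hp hi]
  exact dnM_rank CA i p b _ hb a' c

theorem dnF_isFld (hX : IsSmoothProjective I n) {a : EE N → VV N} (ha : PosField I n a) :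
    IsFld A (dnF CA a) where
  sm i c d := by
    have h1 : ContDiffOn ℝ ∞ (fun z => dnM CA i (CA.σ i z) (a (CA.σ i z)) c d)
        (A.e i).target := by
      intro z hz
      refine ContDiffAt.contDiffWithinAt ?_
      have h2 : ContDiffAt ℝ ∞ (fun z => a (CA.σ i z)) z :=
        (ha.smooth _ (CA.σ_cone hz)).comp z (CA.σ_contDiffAt hz)
      have h3 : ∀ k l, ContDiffAt ℝ ∞ (fun z => a (CA.σ i z) k l) z := fun k l =>
        contDiffAt_pi.1 (contDiffAt_pi.1 h2 k) l
      exact ContDiffAt.sum (s := Finset.univ) fun k _ => ContDiffAt.sum (s := Finset.univ) fun l _ =>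
        ((contDiffAt_cd CA hz (es k) c).mul (h3 k l)).mul
          (contDiffAt_conj (contDiffAt_cd CA hz (es l) d))
    refine h1.congr fun z hz => ?_
    change dnF CA a i ((A.e i).symm z) c d = _
    rw [dnF_of CA a ((A.e i).map_target hz)]
    rfl
  herm i x := by
    by_cases hx : x ∈ (A.e i).source
    · obtain ⟨b, ⟨-, -, hb⟩, -⟩ := ha.rep _ (CA.F_cone i x hx)
      rw [dnF_of CA a hx]
      ext c d
      rw [Matrix.conjTranspose_apply, dnM_rank CA i _ b _ hb, dnM_rank CA i _ b _ hb,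
        RCLike.star_def, map_sum]
      refine Finset.sum_congr rfl fun m _ => ?_
      rw [map_mul, Complex.conj_conj, mul_comm]
    · rw [dnF, if_neg hx]
      exact Matrix.isHermitian_zero
  tc i j x hx := by
    have hp := CA.F_cone i x hx.1
    have hpt : pt (CA.F i x) hp = x := CA.pt_F hx.1
    have hi : CA.F i x ∈ CA.W i := CA.F_mem_W hx.1
    have hj : CA.F i x ∈ CA.W j := (CA.mem_W j _ hp).2 (by rw [hpt]; exact hx.2)
    obtain ⟨b, ⟨hbT, -, hb⟩, -⟩ := ha.rep _ hp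
    have h1 := dnF_rp CA ha.hom hp hb
    have h2 := h1 i hi
    have h3 := h1 j hj
    have h4 : ∀ m c, cd CA j (CA.F i x) (b m) c =
        ∑ d, Jm A i j x c d * cd CA i (CA.F i x) (b m) d := by
      intro m c
      have h5 := congrFun (cd_chg CA hX hp hi hj (hbT m)) c
      rw [hpt] at h5
      exact h5
    rw [hpt] at h2 h3
    ext c d
    rw [h3, Matrix.mul_apply]
    have h6 : ∀ e, (Jm A i j x * dnF CA a i x) c e * (Jm A i j x)ᴴ e d =
        ∑ m, (∑ f, Jm A i j x c f * cd CA i (CA.F i x) (b m) f) *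
          (conj (Jm A i j x d e) * conj (cd CA i (CA.F i x) (b m) e)) := by
      intro e
      rw [Matrix.mul_apply, Finset.sum_mul]
      simp only [h2, Finset.mul_sum, Finset.sum_mul]
      rw [Finset.sum_comm]
      refine Finset.sum_congr rfl fun m _ => Finset.sum_congr rfl fun f _ => ?_
      rw [Matrix.conjTranspose_apply, RCLike.star_def]
      ring
    simp only [h6]
    rw [Finset.sum_comm]
    refine Finset.sum_congr rfl fun m _ => ?_
    rw [← Finset.mul_sum, h4 m c, h4 m d, map_sum]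
    congr 1
    exact Finset.sum_congr rfl fun e _ => by rw [map_mul]
  off i x hx := by
    unfold dnF
    rw [if_neg hx]

theorem dnF_posDef (hX : IsSmoothProjective I n) {a : EE N → VV N} (ha : PosField I n a)
    (i : A.ι) (x : XX I) (hx : x ∈ (A.e i).source) : (dnF CA a i x).PosDef := by
  have hp := CA.F_cone i x hx
  have hpt : pt (CA.F i x) hp = x := CA.pt_F hx
  have hi : CA.F i x ∈ CA.W i := CA.F_mem_W hx
  obtain ⟨b, ⟨hbT, -, hb⟩, hpos⟩ := ha.rep _ hp
  have hR := dnF_rp CA ha.hom hp hb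
  have h1 := hR i hi
  rw [hpt] at h1
  set V : Matrix (Fin n) (Fin n) ℂ := Matrix.of fun c m => cd CA i (CA.F i x) (b m) c with hV
  have h2 : dnF CA a i x = V * Vᴴ := by
    ext c d
    rw [h1]
    simp only [Matrix.mul_apply, Matrix.conjTranspose_apply, hV, Matrix.of_apply, RCLike.star_def]
  have h3 : V.det ≠ 0 := by
    intro h0
    rw [DD_eq hp.2, det_omB_eq CA hX hR hbT hi, hpt, h2, Matrix.det_mul, h0, zero_mul, zero_mul,
      Complex.zero_re] at hpos
    exact lt_irrefl _ hpos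
  rw [h2]
  exact Matrix.PosDef.mul_conjTranspose_self V
    (Matrix.vecMul_injective_of_isUnit ((Matrix.isUnit_iff_isUnit_det V).2 (isUnit_iff_ne_zero.2 h3)))

end

end Crest.Agent.R269.DictD_886
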