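import Crest.Agent.R269.RegPot_848
import Crest.Agent.R269.Defs_58
import Crest.Agent.R269.DictA_886
import Crest.Agent.R269.Lev_901
import Crest.Agent.R269.Chart_632

/-!
# R269 (S0411), task REG-POT (helper848): from `Smooth` (Part 9, atlas) to the ambient `MAP`, `PosP`

`wedgeSq_lin`, `DD_frame`, `DD_eq_det` : algebra of the Gram determinants `wedgeSq`, `DD`;
`Pt CA i p`      : a cone point over the chart `i`;
`exists_vec`, `lev_dict`, `omg_dict`, `alpha_dict`, `DD_dict` : the dictionary at a cone point;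
`amb_of_smooth`  : `Smooth` gives the ambient inequality and positivity;
`map_of_smooth`, `pos_of_smooth` : `MAP I n`, `PosP I n`.
-/

set_option autoImplicit false
set_option linter.unusedSectionVars false

open MvPolynomial Crest.AlgGeometry.ProjEmb Set Filter Topology
open scoped ContDiff ComplexConjugate Matrix

namespace Crest.Agent.R269.RegAmb_848

open Crest.Agent.R269.Geo_328 Crest.Agent.R275.Geo Crest.Agent.R269.CAtl_886
  Crest.Agent.R269.DictA_886 Crest.Agent.R269.Defs_58 Crest.Agent.R269.RegStmt_848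
  Crest.Agent.R273.C0d_390 Crest.Agent.R273.Kah_333 Crest.Agent.R273.FS_333

noncomputable section

variable {N n : ℕ}

/-! ### Gram determinants -/

/-- the Gram matrix of a family -/
def gram {m : ℕ} (w : Fin m → EE N) : Matrix (Fin m) (Fin m) ℂ :=
  Matrix.of fun i j => ∑ k, w i k * conj (w j k)

theorem wedgeSq_eq {m : ℕ} (w : Fin m → EE N) : wedgeSq w = (gram w).det.re := rfl

theorem gram_eq {m : ℕ} (w : Fin m → EE N) : gram w = Matrix.of w * (Matrix.of w)ᴴ := by
  ext i j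
  simp [gram, Matrix.mul_apply]

theorem gram_lin {m m' : ℕ} (T : Matrix (Fin m') (Fin m) ℂ) (w : Fin m → EE N) :
    gram (fun i => ∑ j, T i j • w j) = T * gram w * Tᴴ := by
  have h : (Matrix.of fun i => ∑ j, T i j • w j : Matrix (Fin m') (Fin (N + 1)) ℂ) =
      T * Matrix.of w := by
    ext i k
    simp [Matrix.mul_apply, Finset.sum_apply]
  rw [gram_eq, h, gram_eq, Matrix.conjTranspose_mul]
  simp only [Matrix.mul_assoc]

theorem gram_herm {m : ℕ} (w : Fin m → EE N) : (gram w).IsHermitian := by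
  rw [gram_eq]
  exact Matrix.isHermitian_mul_conjTranspose_self _

theorem det_gram {m : ℕ} (w : Fin m → EE N) : (gram w).det = (wedgeSq w : ℂ) := by
  have h := (gram_herm w).eq
  have h1 : conj (gram w).det = (gram w).det := by
    conv_rhs => rw [← h]
    rw [Matrix.det_conjTranspose]
    rfl
  rw [wedgeSq_eq]
  exact (Complex.conj_eq_iff_re.1 h1).symm

theorem wedgeSq_lin {m : ℕ} (T : Matrix (Fin m) (Fin m) ℂ) (w : Fin m → EE N) :
    wedgeSq (fun i => ∑ j, T i j • w j) = ‖T.det‖ ^ 2 * wedgeSq w := by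
  have h : ((wedgeSq (fun i => ∑ j, T i j • w j) : ℝ) : ℂ) = ((‖T.det‖ ^ 2 * wedgeSq w : ℝ) : ℂ) := by
    rw [← det_gram, gram_lin, Matrix.det_mul, Matrix.det_mul, Matrix.det_conjTranspose, det_gram]
    push_cast
    rw [show (‖T.det‖ : ℂ) ^ 2 = T.det * conj T.det by
      rw [Complex.mul_conj, Complex.normSq_eq_norm_sq]; push_cast; rfl]
    rw [Complex.star_def]
    ring
  exact_mod_cast h

/-- determinant of a matrix with a single nonzero entry in the first row -/
theorem det_row_zero {m : ℕ} (T : Matrix (Fin (m + 1)) (Fin (m + 1)) ℂ)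
    (h : ∀ j : Fin m, T 0 j.succ = 0) :
    T.det = T 0 0 * (Matrix.of fun i j : Fin m => T i.succ j.succ).det := by
  rw [Matrix.det_succ_row_zero, Fin.sum_univ_succ]
  have h1 : ∑ x : Fin m, (-1 : ℂ) ^ (x.succ : ℕ) * T 0 x.succ *
      (T.submatrix Fin.succ (x.succ).succAbove).det = 0 :=
    Finset.sum_eq_zero fun x _ => by rw [h x, mul_zero, zero_mul]
  rw [h1, add_zero]
  simp only [Fin.val_zero, pow_zero, one_mul]
  congr 1

theorem wedgeSq_cons {m : ℕ} {p p' : EE N} {b b' : Fin m → EE N} (c : ℂ) (r : Fin m → ℂ)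
    (x : Matrix (Fin m) (Fin m) ℂ) (hp : p' = c • p)
    (hb : ∀ k, b' k = (∑ a, x k a • b a) + r k • p) :
    wedgeSq (Fin.cons p' b' : Fin (m + 1) → EE N) =
      ‖c * x.det‖ ^ 2 * wedgeSq (Fin.cons p b : Fin (m + 1) → EE N) := by
  set T : Matrix (Fin (m + 1)) (Fin (m + 1)) ℂ :=
    Matrix.of (Fin.cons (Fin.cons c 0) fun k => Fin.cons (r k) (x k)) with hT
  have h1 : (Fin.cons p' b' : Fin (m + 1) → EE N) =
      fun i => ∑ j, T i j • (Fin.cons p b : Fin (m + 1) → EE N) j := by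
    funext i
    refine Fin.cases ?_ (fun k => ?_) i
    · rw [Fin.sum_univ_succ]
      simp [hT, hp]
    · rw [Fin.sum_univ_succ]
      simp only [Fin.cons_succ, Fin.cons_zero, hb k, hT, Matrix.of_apply]
      rw [add_comm]
  have h2 : T.det = c * x.det := by
    rw [det_row_zero T (fun j => by simp [hT])]
    congr 1
  rw [h1, wedgeSq_lin, h2]

theorem DD_frame {p q : EE N} {c : ℂ} (hc : c ≠ 0) (hp : p = c • q) (x : Matrix (Fin n) (Fin n) ℂ)
    (r : Fin n → ℂ) {e b : Fin n → EE N}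
    (hb : ∀ k, b k = c • (∑ a, x a k • e a) + r k • p) :
    DD p b = ‖x.det‖ ^ 2 * DD q e := by
  have h1 := wedgeSq_cons (p := q) (p' := p) (b := e) (b' := b) c (fun k => r k * c) (c • xᵀ) hp
    (fun k => by
      rw [hb k, hp, smul_smul, Finset.smul_sum]
      simp [smul_smul])
  have h2 : (c • xᵀ).det = c ^ n * x.det := by
    rw [Matrix.det_smul, Matrix.det_transpose, Fintype.card_fin]
  unfold DD
  rw [h1, h2, hp, CAtl_886.nsq_smul, norm_mul, norm_mul, norm_pow, mul_pow (‖c‖ ^ 2)]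
  have h3 : ‖c‖ ≠ 0 := norm_ne_zero_iff.2 hc
  rw [show (‖c‖ * (‖c‖ ^ n * ‖x.det‖)) ^ 2 = (‖c‖ ^ 2) ^ (n + 1) * ‖x.det‖ ^ 2 by ring, mul_assoc,
    mul_div_mul_left _ _ (by positivity), mul_div_assoc]

theorem nsq_cast (q : EE N) : ((nsq q : ℝ) : ℂ) = ∑ k, q k * conj (q k) := by
  rw [nsq, Complex.ofReal_sum]
  exact Finset.sum_congr rfl fun k _ => by rw [Complex.mul_conj, Complex.normSq_eq_norm_sq]

/-- `DD` as the determinant of the Fubini-Study Gram matrix -/
theorem DD_eq_det {q : EE N} (hq : q ≠ 0) (e : Fin n → EE N) :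
    DD q e = (Matrix.of fun a b : Fin n => (nsq q : ℂ)⁻¹ * (∑ k, e a k * conj (e b k)) -
      ((nsq q : ℂ)⁻¹) ^ 2 * ((∑ k, e a k * conj (q k)) * (∑ k, q k * conj (e b k)))).det.re := by
  set S : ℂ := (nsq q : ℂ) with hS
  have hS0 : S ≠ 0 := by
    rw [hS]
    exact_mod_cast (nsq_pos hq).ne'
  set f : Fin n → EE N := fun a => e a - (S⁻¹ * ∑ k, e a k * conj (q k)) • q with hf
  have h1 := wedgeSq_cons (p := q) (p' := q) (b := e) (b' := f) 1
    (fun a => -(S⁻¹ * ∑ k, e a k * conj (q k))) 1 (one_smul _ _).symm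
    (fun k => by
      rw [hf]
      simp only [Matrix.one_apply, ite_smul, one_smul, zero_smul, Finset.sum_ite_eq,
        Finset.mem_univ, if_true, neg_smul]
      rw [sub_eq_add_neg])
  rw [Matrix.det_one, mul_one, norm_one, one_pow, one_mul] at h1
  have hperp : ∀ a, ∑ k, q k * conj (f a k) = 0 := by
    intro a
    have h2 : ∀ k, q k * conj (f a k) = q k * conj (e a k) -
        conj (S⁻¹ * ∑ k, e a k * conj (q k)) * (q k * conj (q k)) := by
      intro k
      simp only [hf, Pi.sub_apply, Pi.smul_apply, smul_eq_mul, map_sub, map_mul]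
      ring
    rw [Finset.sum_congr rfl fun k _ => h2 k, Finset.sum_sub_distrib, ← Finset.mul_sum,
      ← nsq_cast, ← hS]
    have h3 : conj S = S := by rw [hS]; exact Complex.conj_ofReal _
    rw [map_mul, map_inv₀, h3, map_sum, mul_comm (S⁻¹), mul_assoc, inv_mul_cancel₀ hS0, mul_one]
    rw [sub_eq_zero]
    refine Finset.sum_congr rfl fun k _ => ?_
    rw [map_mul, Complex.conj_conj]
    ring
  have hg : (gram (Fin.cons q f : Fin (n + 1) → EE N)).det = S * (gram f).det := by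
    rw [det_row_zero]
    · congr 1
      show ∑ k, q k * conj (q k) = S
      rw [hS, nsq_cast]
    · intro j
      exact hperp j
  have hM : gram f = S • (Matrix.of fun a b : Fin n => S⁻¹ * (∑ k, e a k * conj (e b k)) -
      (S⁻¹) ^ 2 * ((∑ k, e a k * conj (q k)) * (∑ k, q k * conj (e b k)))) := by
    ext a b
    have h4 : ∑ k, f a k * conj (f b k) = ∑ k, e a k * conj (f b k) := by
      have h5 : ∀ k, f a k * conj (f b k) = e a k * conj (f b k) -
          (S⁻¹ * ∑ k, e a k * conj (q k)) * (q k * conj (f b k)) := by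
        intro k
        simp only [hf, Pi.sub_apply, Pi.smul_apply, smul_eq_mul]
        ring
      rw [Finset.sum_congr rfl fun k _ => h5 k, Finset.sum_sub_distrib, ← Finset.mul_sum, hperp b,
        mul_zero, sub_zero]
    have h6 : ∑ k, e a k * conj (f b k) = ∑ k, e a k * conj (e b k) -
        S⁻¹ * ((∑ k, e a k * conj (q k)) * (∑ k, q k * conj (e b k))) := by
      have h7 : ∀ k, e a k * conj (f b k) = e a k * conj (e b k) -
          conj (S⁻¹ * ∑ k, e b k * conj (q k)) * (e a k * conj (q k)) := by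
        intro k
        simp only [hf, Pi.sub_apply, Pi.smul_apply, smul_eq_mul, map_sub, map_mul]
        ring
      have h3 : conj S = S := by rw [hS]; exact Complex.conj_ofReal _
      have h8 : conj (∑ k, e b k * conj (q k)) = ∑ k, q k * conj (e b k) := by
        rw [map_sum]
        refine Finset.sum_congr rfl fun k _ => ?_
        rw [map_mul, Complex.conj_conj]
        ring
      rw [Finset.sum_congr rfl fun k _ => h7 k, Finset.sum_sub_distrib, ← Finset.mul_sum, map_mul,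
        map_inv₀, h3, h8]
      ring
    show ∑ k, f a k * conj (f b k) = _
    rw [h4, h6]
    simp only [Matrix.smul_apply, Matrix.of_apply, smul_eq_mul]
    field_simp
  have h9 : (wedgeSq (Fin.cons q e : Fin (n + 1) → EE N) : ℂ) = S ^ (n + 1) *
      (Matrix.of fun a b : Fin n => S⁻¹ * (∑ k, e a k * conj (e b k)) -
      (S⁻¹) ^ 2 * ((∑ k, e a k * conj (q k)) * (∑ k, q k * conj (e b k)))).det := by
    rw [← h1, ← det_gram, hg, hM, Matrix.det_smul, Fintype.card_fin]
    ring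
  have h10 : ((DD q e : ℝ) : ℂ) = (Matrix.of fun a b : Fin n => S⁻¹ * (∑ k, e a k * conj (e b k)) -
      (S⁻¹) ^ 2 * ((∑ k, e a k * conj (q k)) * (∑ k, q k * conj (e b k)))).det := by
    unfold DD
    push_cast
    rw [h9, ← hS, mul_div_cancel_left₀ _ (pow_ne_zero _ hS0)]
  rw [← h10, Complex.ofReal_re]

/-! ### the dictionary at a cone point -/

/-- the captain's `lev` is helper653's `lev` -/
theorem lev58_eq {ι : Type} [Fintype ι] (u : (ι → ℂ) → ℝ) (p v : ι → ℂ) :
    Defs_58.lev u p v = LevC_653.lev u p v := by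
  unfold Defs_58.lev LevC_653.lev
  rw [iteratedFDeriv_two_apply, iteratedFDeriv_two_apply]
  rfl

theorem lv_eq_lev (u : Cn n → ℝ) (z v : Cn n) : lv u z v / 4 = LevC_653.lev u z v := rfl

section Dict

variable {I : Ideal (HomCoordRing N)} {A : Atl n (XX I)} (CA : CAtl I A)

theorem σ_analyticAt {i : A.ι} {z : Cn n} (hz : z ∈ (A.e i).target) : AnalyticAt ℂ (CA.σ i) z :=
  Crest.Agent.R266.SCV.analyticOnNhd_of_differentiableOn (A.e i).open_target (CA.F_hol i) z hz

/-- a line in the chart -/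
def lin (z w : Cn n) (t : Fin 1 → ℂ) : Cn n := z + t 0 • w

theorem lin_analyticAt (z w : Cn n) (t : Fin 1 → ℂ) : AnalyticAt ℂ (lin z w) t := by
  unfold lin
  have h1 : AnalyticAt ℂ (fun t : Fin 1 → ℂ => t 0) t :=
    (ContinuousLinearMap.proj (R := ℂ) (φ := fun _ : Fin 1 => ℂ) 0).analyticAt t
  exact analyticAt_const.add (h1.smul analyticAt_const)

theorem lin_hasFDerivAt (z w : Cn n) (t : Fin 1 → ℂ) :
    HasFDerivAt (lin z w) ((ContinuousLinearMap.proj (R := ℂ) (φ := fun _ : Fin 1 => ℂ) 0).smulRight w) t := by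
  have h1 : HasFDerivAt (fun t : Fin 1 → ℂ => t 0)
      (ContinuousLinearMap.proj (R := ℂ) (φ := fun _ : Fin 1 => ℂ) 0) t :=
    (ContinuousLinearMap.proj (R := ℂ) (φ := fun _ : Fin 1 => ℂ) 0).hasFDerivAt
  exact (h1.smul_const w).const_add z

theorem lin_zero (z w : Cn n) : lin z w 0 = z := by simp [lin]

/-- the Levi form along a line -/
theorem lev_lin {g : Cn n → ℝ} {z : Cn n} (hg : ContDiffAt ℝ 2 g z) (w : Cn n) :
    LevC_653.lev (fun t => g (lin z w t)) 0 (fun _ => 1) = LevC_653.lev g z w := by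
  have h := Lev_901.lev_comp_hol (u := g) (F := lin z w) (x := 0) (by rwa [lin_zero])
    (lin_analyticAt z w 0) (fun _ => 1)
  rw [lin_zero, (lin_hasFDerivAt z w 0).fderiv] at h
  simpa using h

/-- the test curve through `c • σ z` with velocity `c • dσ w + s • σ z` -/
def crv (i : A.ι) (c s : ℂ) (z w : Cn n) (t : Fin 1 → ℂ) : EE N :=
  (c + t 0 * s) • CA.σ i (lin z w t)

theorem crv_zero (i : A.ι) (c s : ℂ) (z w : Cn n) : crv CA i c s z w 0 = c • CA.σ i z := by
  simp [crv, lin_zero]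

theorem scal_hasFDerivAt (c s : ℂ) (t : Fin 1 → ℂ) : HasFDerivAt (fun t : Fin 1 → ℂ => c + t 0 * s)
    (s • ContinuousLinearMap.proj (R := ℂ) (φ := fun _ : Fin 1 => ℂ) 0) t := by
  have h1 : HasFDerivAt (fun t : Fin 1 → ℂ => t 0)
      (ContinuousLinearMap.proj (R := ℂ) (φ := fun _ : Fin 1 => ℂ) 0) t :=
    (ContinuousLinearMap.proj (R := ℂ) (φ := fun _ : Fin 1 => ℂ) 0).hasFDerivAt
  exact (h1.mul_const s).const_add c

theorem scal_analyticAt (c s : ℂ) (t : Fin 1 → ℂ) :
    AnalyticAt ℂ (fun t : Fin 1 → ℂ => c + t 0 * s) t := by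
  have h1 : AnalyticAt ℂ (fun t : Fin 1 → ℂ => t 0) t :=
    (ContinuousLinearMap.proj (R := ℂ) (φ := fun _ : Fin 1 => ℂ) 0).analyticAt t
  exact analyticAt_const.add (h1.mul analyticAt_const)

theorem crv_analyticAt {i : A.ι} (c s : ℂ) {z : Cn n} (hz : z ∈ (A.e i).target) (w : Cn n) :
    AnalyticAt ℂ (crv CA i c s z w) 0 := by
  refine (scal_analyticAt c s 0).smul ?_
  refine AnalyticAt.fun_comp ?_ (lin_analyticAt z w 0)
  rw [lin_zero]
  exact σ_analyticAt CA hz

theorem crv_fderiv {i : A.ι} (c s : ℂ) {z : Cn n} (hz : z ∈ (A.e i).target) (w : Cn n) :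
    fderiv ℂ (crv CA i c s z w) 0 (fun _ => 1) = c • fderiv ℂ (CA.σ i) z w + s • CA.σ i z := by
  have h1 : HasFDerivAt (fun t => CA.σ i (lin z w t)) ((fderiv ℂ (CA.σ i) z).comp
      ((ContinuousLinearMap.proj (R := ℂ) (φ := fun _ : Fin 1 => ℂ) 0).smulRight w)) 0 := by
    refine HasFDerivAt.comp (g := CA.σ i) 0 ?_ (lin_hasFDerivAt z w 0)
    rw [lin_zero]
    exact (σ_analyticAt CA hz).differentiableAt.hasFDerivAt
  have h2 := (scal_hasFDerivAt c s 0).smul h1
  have h3 : fderiv ℂ (crv CA i c s z w) 0 = _ := h2.fderiv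
  rw [h3]
  simp [lin_zero]

theorem lin_tendsto (z w : Cn n) : Tendsto (lin z w) (𝓝 0) (𝓝 z) := by
  have h := (lin_analyticAt z w 0).continuousAt.tendsto
  rwa [lin_zero] at h

theorem crv_eventually {i : A.ι} {c : ℂ} (hc : c ≠ 0) (s : ℂ) {z : Cn n} (hz : z ∈ (A.e i).target)
    (w : Cn n) : ∀ᶠ t in 𝓝 (0 : Fin 1 → ℂ), c + t 0 * s ≠ 0 ∧ lin z w t ∈ (A.e i).target := by
  have h1 : ∀ᶠ t in 𝓝 (0 : Fin 1 → ℂ), c + t 0 * s ≠ 0 := by
    apply (scal_analyticAt c s 0).continuousAt.eventually_ne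
    simpa using hc
  have h2 : ∀ᶠ t in 𝓝 (0 : Fin 1 → ℂ), lin z w t ∈ (A.e i).target :=
    lin_tendsto z w ((A.e i).open_target.mem_nhds hz)
  exact h1.and h2

theorem smul_cone (hX : IsSmoothProjective I n) {p : EE N} (hp : p ∈ Cone I) {c : ℂ} (hc : c ≠ 0) :
    c • p ∈ Cone I :=
  ⟨Geo0_632.smul_mem_cone hX hp.1 c, smul_ne_zero hc hp.2⟩

/-- `v = c • dσ w + r • p` -/
structure Vec (i : A.ι) (c : ℂ) (z : Cn n) (p v : EE N) (w : Cn n) (r : ℂ) : Prop where
  hc : c ≠ 0
  hz : z ∈ (A.e i).target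
  hp : p = c • CA.σ i z
  hv : v = c • fderiv ℂ (CA.σ i) z w + r • p

theorem fs_wt (i : A.ι) : (fs CA.projD).wt i = fun y => Real.log (sq (CA.σ i) y) := by
  funext y
  simp only [Crest.Agent.R273.Defs_333.HM.wt, fs, Real.log_inv, neg_neg]
  rfl

variable {CA}

theorem Vec.vel {i : A.ι} {c : ℂ} {z : Cn n} {p v : EE N} {w : Cn n} {r : ℂ}
    (h : Vec CA i c z p v w r) : fderiv ℂ (crv CA i c (r * c) z w) 0 (fun _ => 1) = v := by
  rw [crv_fderiv CA c (r * c) h.hz w, h.hv, h.hp, smul_smul]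

theorem Vec.zero {i : A.ι} {c : ℂ} {z : Cn n} {p v : EE N} {w : Cn n} {r : ℂ}
    (h : Vec CA i c z p v w r) : crv CA i c (r * c) z w 0 = p := by
  rw [crv_zero, h.hp]

/-- Levi form of an ambient function along the test curve -/
theorem Vec.lev_crv {i : A.ι} {c : ℂ} {z : Cn n} {p v : EE N} {w : Cn n} {r : ℂ}
    (h : Vec CA i c z p v w r) {u : EE N → ℝ} (hu : ContDiffAt ℝ 2 u p) :
    LevC_653.lev (fun t => u (crv CA i c (r * c) z w t)) 0 (fun _ => 1) = LevC_653.lev u p v := by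
  have h1 := Lev_901.lev_comp_hol (u := u) (F := crv CA i c (r * c) z w) (x := 0)
    (by rwa [h.zero]) (crv_analyticAt CA c (r * c) h.hz w) (fun _ => 1)
  rw [h1, h.vel, h.zero]

theorem contDiffAt_two' {E : Type*} [NormedAddCommGroup E] [NormedSpace ℝ E] {u : E → ℝ} {z : E}
    (h : ContDiffAt ℝ ∞ u z) : ContDiffAt ℝ 2 u z :=
  h.of_le (WithTop.coe_le_coe.2 le_top)

/-- (D1) Levi forms of functions -/
theorem Vec.lev_dict {i : A.ι} {c : ℂ} {z : Cn n} {p v : EE N} {w : Cn n} {r : ℂ}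
    (h : Vec CA i c z p v w r) {u : EE N → ℝ} (hu : SmX I u) (hp : p ∈ Cone I) {φ : XX I → ℝ}
    (hφ : ∀ q (hq : q ∈ Cone I), u q = φ (pt q hq)) :
    Defs_58.lev u p v = lv (fun y => φ ((A.e i).symm y)) z w / 4 := by
  have hs : ContDiffAt ℝ 2 (fun y => u (CA.σ i y)) z := by
    refine contDiffAt_two' ((hu.1 _ (CA.σ_cone h.hz)).comp z (CA.σ_contDiffAt h.hz))
  rw [lev58_eq, ← h.lev_crv (contDiffAt_two' (hu.1 p hp)), lv_eq_lev]
  have h1 : (fun t => u (crv CA i c (r * c) z w t)) =ᶠ[𝓝 0] fun t => u (CA.σ i (lin z w t)) := by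
    filter_upwards [crv_eventually (A := A) h.hc (r * c) h.hz w] with t ht
    exact hu.2 _ (CA.σ_cone ht.2) _ ht.1
  have h2 : (fun y => φ ((A.e i).symm y)) =ᶠ[𝓝 z] fun y => u (CA.σ i y) := by
    filter_upwards [(A.e i).open_target.mem_nhds h.hz] with y hy
    rw [hφ _ (CA.σ_cone hy), CA.pt_σ hy]
  rw [LevC_653.lev_congr h1, LevC_653.lev_congr h2]
  exact lev_lin hs w

/-- (D2) the Fubini-Study form -/
theorem Vec.omg_dict {i : A.ι} {c : ℂ} {z : Cn n} {p v : EE N} {w : Cn n} {r : ℂ}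
    (h : Vec CA i c z p v w r) : omg p v = om (fsKah CA.projD) i z w := by
  have hσ0 : CA.σ i z ≠ 0 := (CA.σ_cone h.hz).2
  have hp0 : p ≠ 0 := by rw [h.hp]; exact smul_ne_zero h.hc hσ0
  have e1 : LevC_653.lev (fun p : EE N => Real.log (∑ i, ‖p i‖ ^ 2)) p v = omg p v :=
    Lev_901.lev_log_sum_nsq hp0 v
  have hl : ∀ {q : EE N}, q ≠ 0 → ContDiffAt ℝ 2 (fun p : EE N => Real.log (∑ i, ‖p i‖ ^ 2)) q := by
    intro q hq
    exact contDiffAt_two' (((contDiffOn_nsq univ).contDiffAt univ_mem).log (nsq_pos hq).ne')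
  rw [← e1, ← h.lev_crv (hl hp0)]
  have h1 : (fun t => Real.log (∑ k, ‖crv CA i c (r * c) z w t k‖ ^ 2)) =ᶠ[𝓝 0] fun t =>
      Real.log (‖c + t 0 * (r * c)‖ ^ 2) + Real.log (∑ k, ‖CA.σ i (lin z w t) k‖ ^ 2) := by
    filter_upwards [crv_eventually (A := A) h.hc (r * c) h.hz w] with t ht
    have h2 : nsq (crv CA i c (r * c) z w t) = ‖c + t 0 * (r * c)‖ ^ 2 * nsq (CA.σ i (lin z w t)) :=
      CAtl_886.nsq_smul _ _
    have h3 : ‖c + t 0 * (r * c)‖ ^ 2 ≠ 0 := by
      have := norm_ne_zero_iff.2 ht.1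
      positivity
    have h4 := Real.log_mul h3 (nsq_pos (CA.σ_cone ht.2).2).ne'
    rw [← h2] at h4
    exact h4
  have hs : ContDiffAt ℝ 2 (fun y => Real.log (∑ k, ‖CA.σ i y k‖ ^ 2)) z :=
    ContDiffAt.comp (g := fun p : EE N => Real.log (∑ i, ‖p i‖ ^ 2)) z (hl hσ0)
      (CA.σ_contDiffAt h.hz |>.of_le (WithTop.coe_le_coe.2 le_top))
  have hs' : ContDiffAt ℝ 2 (fun t => Real.log (∑ k, ‖CA.σ i (lin z w t) k‖ ^ 2)) 0 := by
    refine ContDiffAt.comp (g := fun y => Real.log (∑ k, ‖CA.σ i y k‖ ^ 2)) 0 ?_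
      (((lin_analyticAt z w 0).contDiffAt (n := 2)).restrict_scalars ℝ)
    rw [lin_zero]
    exact hs
  have ha : AnalyticAt ℂ (fun t : Fin 1 → ℂ => c + t 0 * (r * c)) 0 := scal_analyticAt c (r * c) 0
  have ha0 : (fun t : Fin 1 → ℂ => c + t 0 * (r * c)) 0 ≠ 0 := by simpa using h.hc
  have hl2 : ContDiffAt ℝ 2 (fun t : Fin 1 → ℂ => Real.log (‖c + t 0 * (r * c)‖ ^ 2)) 0 := by
    have h5 : ContDiffAt ℝ 2 (fun t : Fin 1 → ℂ => c + t 0 * (r * c)) 0 :=
      (ha.contDiffAt (n := 2)).restrict_scalars ℝ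
    refine (h5.norm_sq ℝ).log ?_
    have := norm_ne_zero_iff.2 ha0
    positivity
  rw [LevC_653.lev_congr h1, LevC_653.lev_add hl2 hs', Lev_901.lev_log_nsq_hol ha ha0, zero_add,
    lev_lin hs w, ← lv_eq_lev]
  have h6 : om (fsKah CA.projD) i z w = lv ((fs CA.projD).wt i) z w / 4 := by
    rw [om_eq_qf, ← Pot.ofHM_w (fs CA.projD) i, Pot.lv_eq _ h.hz, Pot.mat_ofHM]
    rfl
  rw [h6, fs_wt]
  rfl

/-- `DD` of the coordinate frame -/
theorem DD_σ {i : A.ι} {z : Cn n} (hz : z ∈ (A.e i).target) :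
    DD (CA.σ i z) (fun a => fderiv ℂ (CA.σ i) z (EuclideanSpace.single a 1)) =
      dg (fsKah CA.projD) i z := by
  rw [DD_eq_det (CA.σ_cone hz).2]
  unfold dg
  congr 2
  ext a b
  have hF : ∀ k, DifferentiableOn ℂ (fun z => CA.σ i z k) (A.e i).target := fun k =>
    differentiableOn_pi.1 (CA.F_hol i) k
  have hs : ContDiffAt ℝ ∞ (sq (CA.σ i)) z := by
    refine ContDiffAt.sum fun k _ => ?_
    exact (contDiffAt_of_hol (A.e i).open_target (hF k) hz).norm_sq ℝ
  have hp : 0 < sq (CA.σ i) z := sq_pos (CA.σ_cone hz).2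
  have hd : ∀ (k : Fin (N + 1)) (v : Cn n), fderiv ℂ (fun z => CA.σ i z k) z v =
      fderiv ℂ (CA.σ i) z v k := by
    intro k v
    have h1 := hasFDerivAt_pi'.1 (CA.σ_differentiableAt hz).hasFDerivAt k
    rw [h1.fderiv]
    rfl
  show _ = Crest.Agent.R273.Hess_333.hess ((fs CA.projD).wt i) (A.e i ((A.e i).symm z)) a b
  rw [(A.e i).right_inv hz, fs_wt, hess_log hs hp, hess_sq (A.e i).open_target hF hz,
    wd_sq' (A.e i).open_target hF hz, wd_sq (A.e i).open_target hF hz]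
  simp only [Matrix.of_apply, hd]
  rfl

/-- (D4) determinants -/
theorem Vec.DD_dict {i : A.ι} {c : ℂ} {z : Cn n} {p : EE N} {b : Fin n → EE N} {w : Fin n → Cn n}
    {r : Fin n → ℂ} (hc : c ≠ 0) (hz : z ∈ (A.e i).target) (hp : p = c • CA.σ i z)
    (h : ∀ k, Vec CA i c z p (b k) (w k) (r k)) :
    DD p b = ‖(Matrix.of fun a k => w k a : Matrix (Fin n) (Fin n) ℂ).det‖ ^ 2 *
      dg (fsKah CA.projD) i z := by
  rw [← DD_σ hz]
  refine DD_frame hc hp _ r fun k => ?_
  rw [(h k).hv]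
  congr 2
  have hv : w k = ∑ a, w k a • (EuclideanSpace.single a (1 : ℂ) : Cn n) := by
    ext d
    simp [Finset.sum_apply, Pi.single_apply]
  conv_lhs => rw [hv, map_sum]
  simp

/-- (D3) the curvature of the canonical bundle -/
theorem Vec.alpha_dict (hα : AlphaFamStmt) (hI : I.IsPrime) (hX : IsSmoothProjective I n)
    {i : A.ι} {c : ℂ} {z : Cn n} {p v : EE N} {w : Cn n} {r : ℂ}
    (h : Vec CA i c z p v w r) :
    alpha I n p v = lv ((Pot.can (fsKah CA.projD)).w i) z w / 4 := by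
  set K := fsKah CA.projD with hK
  have hσa : ∀ a : Fin n, AnalyticAt ℂ (fun y => fderiv ℂ (CA.σ i) y (EuclideanSpace.single a 1)) z :=
    fun a => ((ContinuousLinearMap.apply ℂ (EE N)
      (EuclideanSpace.single a (1 : ℂ) : Cn n)).analyticAt _).comp (σ_analyticAt CA h.hz).fderiv
  have h1 := hα N n I hI hX 1 (crv CA i c (r * c) z w)
    (fun a t => (c + t 0 * (r * c)) • fderiv ℂ (CA.σ i) (lin z w t) (EuclideanSpace.single a 1))
    0 (fun _ => 1)
    ⟨crv_analyticAt CA c (r * c) h.hz w, by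
      filter_upwards [crv_eventually (A := A) h.hc (r * c) h.hz w] with t ht
      exact smul_cone hX (CA.σ_cone ht.2) ht.1⟩
    (fun a => by
      refine (scal_analyticAt c (r * c) 0).smul ?_
      refine AnalyticAt.fun_comp (g := fun y => fderiv ℂ (CA.σ i) y (EuclideanSpace.single a 1)) ?_
        (lin_analyticAt z w 0)
      rw [lin_zero]
      exact hσa a)
    (by
      filter_upwards [crv_eventually (A := A) h.hc (r * c) h.hz w] with t ht
      intro a
      have h2 : fderiv ℂ (CA.σ i) (lin z w t) (EuclideanSpace.single a 1) ∈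
          Tan I (CA.σ i (lin z w t)) :=
        (CA.F_tan i _ ht.2 _).2 ⟨0, EuclideanSpace.single a 1, by rw [zero_smul, zero_add]; rfl⟩
      have h3 := (tanStmt N n I hI hX _ (CA.σ_cone ht.2)).2.2 _ ht.1
      show (c + t 0 * (r * c)) • _ ∈ Tan I ((c + t 0 * (r * c)) • CA.σ i (lin z w t))
      rw [h3]
      exact Submodule.smul_mem _ _ h2)
    (by
      have h4 := Vec.DD_dict (CA := CA) (i := i) (c := c) (z := z) (p := p)
        (b := fun a => c • fderiv ℂ (CA.σ i) z (EuclideanSpace.single a 1) + (0 : ℂ) • p)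
        (w := fun a => EuclideanSpace.single a 1) (r := 0) h.hc h.hz h.hp
        (fun k => ⟨h.hc, h.hz, h.hp, rfl⟩)
      have h5 : (Matrix.of fun a k => (EuclideanSpace.single k (1 : ℂ) : Cn n) a :
          Matrix (Fin n) (Fin n) ℂ) = 1 := by
        ext a k
        simp [Matrix.one_apply]
      rw [h5, Matrix.det_one, norm_one, one_pow, one_mul] at h4
      have h6 : (fun a => c • fderiv ℂ (CA.σ i) z (EuclideanSpace.single a 1) + (0 : ℂ) • p) =
          fun a => (c + (0 : Fin 1 → ℂ) 0 * (r * c)) •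
            fderiv ℂ (CA.σ i) (lin z w 0) (EuclideanSpace.single a 1) := by
        funext a
        rw [zero_smul, add_zero, lin_zero, Pi.zero_apply, zero_mul, add_zero]
      rw [h6] at h4
      have h7 := dg_pos K h.hz
      rw [← h4] at h7
      have h8 : crv CA i c (r * c) z w 0 = p := h.zero
      rw [h8]
      exact h7)
  have h9 : crv CA i c (r * c) z w 0 = p := h.zero
  rw [h.vel, h9, lev58_eq] at h1
  rw [← h1]
  have h10 : (fun t => Real.log (DD (crv CA i c (r * c) z w t) fun a =>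
      (c + t 0 * (r * c)) • fderiv ℂ (CA.σ i) (lin z w t) (EuclideanSpace.single a 1))) =ᶠ[𝓝 0]
      fun t => (Pot.can K).w i (lin z w t) := by
    filter_upwards [crv_eventually (A := A) h.hc (r * c) h.hz w] with t ht
    have h11 := DD_frame (n := n) (p := crv CA i c (r * c) z w t) (q := CA.σ i (lin z w t)) ht.1 rfl
      1 0 (e := fun a => fderiv ℂ (CA.σ i) (lin z w t) (EuclideanSpace.single a 1))
      (b := fun a => (c + t 0 * (r * c)) •
        fderiv ℂ (CA.σ i) (lin z w t) (EuclideanSpace.single a 1)) (fun k => by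
          simp [Matrix.one_apply])
    rw [Matrix.det_one, norm_one, one_pow, one_mul, DD_σ ht.2] at h11
    rw [h11, Pot.can_w]
  rw [LevC_653.lev_congr h10, lv_eq_lev]
  exact lev_lin (contDiffAt_two' ((Pot.can K).contDiffAt h.hz)) w

/-! ### `Smooth` in ambient form -/

/-- every tangent vector at a cone point is of the form `Vec` -/
theorem exists_vec (hI : I.IsPrime) (hX : IsSmoothProjective I n) {i : A.ι} {p v : EE N}
    (hp : p ∈ Cone I) (hx : pt p hp ∈ (A.e i).source) (hv : v ∈ Tan I p) {c : ℂ} (hc : c ≠ 0)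
    (hpc : p = c • CA.σ i (A.e i (pt p hp))) :
    ∃ (w : Cn n) (r : ℂ), Vec CA i c (A.e i (pt p hp)) p v w r := by
  set z := A.e i (pt p hp) with hz'
  have hz : z ∈ (A.e i).target := (A.e i).map_source hx
  have h3 := (tanStmt N n I hI hX _ (CA.σ_cone hz)).2.2 _ hc
  rw [← hpc] at h3
  rw [h3] at hv
  obtain ⟨c1, w1, h4⟩ := (CA.F_tan i z hz v).1 hv
  refine ⟨c⁻¹ • w1, c1 * c⁻¹, hc, hz, hpc, ?_⟩
  rw [map_smul, smul_smul, mul_inv_cancel₀ hc, one_smul, h4, hpc, smul_smul, mul_assoc,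
    inv_mul_cancel₀ hc, mul_one, add_comm]
  rfl

variable (CA) in
/-- `Smooth` (atlas) gives the ambient inequality and the ambient positivity, for the form
`r · K_X + s · ω` -/
theorem amb_of_smooth [Finite A.ι] (P : Part A) (hα : AlphaFamStmt) (hI : I.IsPrime)
    (hX : IsSmoothProjective I n) {r s c e : ℝ} {φ : XX I → ℝ}
    (h : Smooth (fsKah CA.projD) (((Pot.can (fsKah CA.projD)).smul r).add
      ((Pot.ofHM (fs CA.projD)).smul s)) c e φ) :
    ∃ u, SmX I u ∧ (∀ p (hp : p ∈ Cone I), u p = φ (pt p hp)) ∧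
      (∀ p ∈ Cone I, ∀ b : Fin n → EE N, TanFam I p b → n * c * DD p b ^ ((n : ℝ)⁻¹) ≤
        ∑ i, (r * alpha I n p (b i) + (s + e) * omg p (b i) + Defs_58.lev u p (b i))) ∧
      ∀ p ∈ Cone I, ∀ v ∈ Tan I p, (∀ c : ℂ, v ≠ c • p) →
        0 < r * alpha I n p v + (s + e) * omg p v + Defs_58.lev u p v := by
  set K := fsKah CA.projD with hK
  obtain ⟨u, hu1, hu2, hu3⟩ := exists_up CA P h.sm
  have hu : SmX I u := ⟨hu1, fun p _ c hc => hu2 c hc p⟩
  -- the potential of `r K_X + s ω + dd^c φ`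
  have hlv : ∀ i, ∀ z ∈ (A.e i).target, ∀ w : Cn n,
      lv (fun y => (((Pot.can K).smul r).add ((Pot.ofHM (fs CA.projD)).smul s)).w i y +
        φ ((A.e i).symm y)) z w / 4 =
      r * (lv ((Pot.can K).w i) z w / 4) + s * om K i z w +
        lv (fun y => φ ((A.e i).symm y)) z w / 4 := by
    intro i z hz w
    have h1 : ContDiffAt ℝ 2 ((Pot.can K).w i) z := contDiffAt_two' ((Pot.can K).contDiffAt hz)
    have h2 : ContDiffAt ℝ 2 ((Pot.ofHM (fs CA.projD)).w i) z :=
      contDiffAt_two' ((Pot.ofHM (fs CA.projD)).contDiffAt hz)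
    have h3 : ContDiffAt ℝ 2 (fun y => φ ((A.e i).symm y)) z :=
      contDiffAt_two' ((h.sm i).contDiffAt ((A.e i).open_target.mem_nhds hz))
    have h4 : om K i z w = lv ((Pot.ofHM (fs CA.projD)).w i) z w / 4 := by
      rw [om_eq_qf, Pot.lv_eq _ hz, Pot.mat_ofHM]
      rfl
    have e1 : ContDiffAt ℝ 2 (fun y => r * (Pot.can K).w i y) z := contDiffAt_const.mul h1
    have e2 : ContDiffAt ℝ 2 (fun y => s * (Pot.ofHM (fs CA.projD)).w i y) z :=
      contDiffAt_const.mul h2
    rw [h4]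
    simp only [Pot.add_w, Pot.smul_w]
    rw [GlueB_390.lv_add (e1.add e2) h3, GlueB_390.lv_add e1 e2, GlueB_390.lv_const_mul h1,
      GlueB_390.lv_const_mul h2]
    ring
  refine ⟨u, hu, hu3, ?_, ?_⟩
  · intro p hp b hb
    obtain ⟨i, hx⟩ := A.cover (pt p hp)
    obtain ⟨c0, hc0, hpc⟩ := CA.eq_smul_F hp hx
    rw [← CA.σ_e hx] at hpc
    have hz := (A.e i).map_source hx
    choose w r' hw using fun k => exists_vec hI hX hp hx (hb k) hc0 hpc
    have h1 := h.ma i _ hz (Matrix.of fun a k => w k a)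
    rw [Vec.DD_dict hc0 hz hpc hw]
    rw [one_div] at h1
    refine h1.trans (le_of_eq ?_)
    unfold trb
    rw [Finset.mul_sum, ← Finset.sum_add_distrib]
    refine Finset.sum_congr rfl fun k _ => ?_
    have h2 : col (Matrix.of fun a k => w k a) k = w k := rfl
    rw [h2, hlv i _ hz, (hw k).alpha_dict hα hI hX, (hw k).omg_dict, (hw k).lev_dict hu hp hu3]
    ring
  · intro p hp v hv hvp
    obtain ⟨i, hx⟩ := A.cover (pt p hp)
    obtain ⟨c0, hc0, hpc⟩ := CA.eq_smul_F hp hx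
    rw [← CA.σ_e hx] at hpc
    have hz := (A.e i).map_source hx
    obtain ⟨w, r', hw⟩ := exists_vec hI hX hp hx hv hc0 hpc
    have hw0 : w ≠ 0 := by
      rintro rfl
      have h1 := hw.hv
      rw [map_zero, smul_zero, zero_add] at h1
      exact hvp _ h1
    have h1 := h.pos i _ hz w hw0
    rw [hlv i _ hz] at h1
    rw [hw.alpha_dict hα hI hX, hw.omg_dict, hw.lev_dict hu hp hu3]
    linarith

theorem omg_nonneg {p : EE N} (v : EE N) : 0 ≤ omg p v := by
  unfold omg
  refine div_nonneg ?_ (sq_nonneg _)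
  rcases lagrange (N := N + 1) p v with h | h
  · rw [h]
    exact div_nonneg (Finset.sum_nonneg fun _ _ => by positivity)
      (Finset.sum_nonneg fun _ _ => by positivity)
  · have h1 : ∀ k, p k = 0 := by
      intro k
      have h2 := (Finset.sum_eq_zero_iff_of_nonneg fun k _ => by positivity).1 h k (Finset.mem_univ k)
      simpa using h2
    simp [h1]

open scoped ComplexOrder in
theorem DD_nonneg (p : EE N) (b : Fin n → EE N) : 0 ≤ DD p b := by
  unfold DD
  refine div_nonneg ?_ (pow_nonneg (Finset.sum_nonneg fun _ _ => by positivity) _)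
  have h := (Matrix.posSemidef_self_mul_conjTranspose
    (Matrix.of (Fin.cons p b : Fin (n + 1) → EE N) : Matrix (Fin (n + 1)) (Fin (N + 1)) ℂ)).det_nonneg
  rw [← gram_eq, det_gram] at h
  exact_mod_cast h

variable (CA) in
/-- the output of Part 9 for `K_X + s ω` (all small `s`) gives `MAP` -/
theorem map_of_smooth [Finite A.ι] (P : Part A) (hα : AlphaFamStmt) (hI : I.IsPrime)
    (hX : IsSmoothProjective I n) {c : ℝ} (hc : 0 < c)
    (h : ∀ s e : ℝ, 0 < s → 0 < e → ∃ φ, Smooth (fsKah CA.projD)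
      ((Pot.can (fsKah CA.projD)).add ((Pot.ofHM (fs CA.projD)).smul s)) (c - e) e φ) :
    MAP I n := by
  refine ⟨c / 2, by positivity, fun e he => ?_⟩
  obtain ⟨φ, hφ⟩ := h (e / 2) (min (e / 2) (c / 2)) (by positivity) (by positivity)
  have hφ' : Smooth (fsKah CA.projD) (((Pot.can (fsKah CA.projD)).smul 1).add
      ((Pot.ofHM (fs CA.projD)).smul (e / 2))) (c - min (e / 2) (c / 2)) (min (e / 2) (c / 2)) φ := by
    refine ⟨hφ.sm, fun i z hz b => ?_, fun i z hz v hv => ?_⟩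
    · have h1 := hφ.ma i z hz b
      simp only [Pot.add_w, Pot.smul_w, one_mul] at h1 ⊢
      exact h1
    · have h1 := hφ.pos i z hz v hv
      simp only [Pot.add_w, Pot.smul_w, one_mul] at h1 ⊢
      exact h1
  obtain ⟨u, hu, -, hma, -⟩ := amb_of_smooth CA P hα hI hX hφ'
  refine ⟨u, hu, fun p hp b hb => ?_⟩
  refine le_trans ?_ ((hma p hp b hb).trans ?_)
  · refine mul_le_mul_of_nonneg_right ?_ (Real.rpow_nonneg (DD_nonneg p b) _)
    refine mul_le_mul_of_nonneg_left ?_ (by positivity)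
    have := min_le_right (e / 2) (c / 2)
    linarith
  · refine Finset.sum_le_sum fun k _ => ?_
    have h1 := omg_nonneg (p := p) (b k)
    have h2 : (e / 2 + min (e / 2) (c / 2)) * omg p (b k) ≤ e * omg p (b k) := by
      refine mul_le_mul_of_nonneg_right ?_ h1
      have := min_le_left (e / 2) (c / 2)
      linarith
    linarith

variable (CA) in
/-- the output of Part 9 for `t K_X - δ ω` with an error `e < δ` gives `PosP` -/
theorem pos_of_smooth [Finite A.ι] (P : Part A) (hα : AlphaFamStmt) (hI : I.IsPrime)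
    (hX : IsSmoothProjective I n) {t δ c e : ℝ} (ht : 0 < t) (he : e ≤ δ) {φ : XX I → ℝ}
    (h : Smooth (fsKah CA.projD) (((Pot.can (fsKah CA.projD)).smul t).add
      ((Pot.ofHM (fs CA.projD)).smul (-δ))) c e φ) : PosP I n := by
  obtain ⟨u, hu, -, -, hpos⟩ := amb_of_smooth CA P hα hI hX h
  refine ⟨fun q => t⁻¹ * u q, ⟨fun p hp => contDiffAt_const.mul (hu.1 p hp), fun p hp c hc => ?_⟩,
    fun p hp v hv hvp => ?_⟩
  · show t⁻¹ * u (c • p) = t⁻¹ * u p
    rw [hu.2 p hp c hc]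
  · have h1 := hpos p hp v hv hvp
    have h2 := omg_nonneg (p := p) v
    have h3 : Defs_58.lev (fun q => t⁻¹ * u q) p v = t⁻¹ * Defs_58.lev u p v := by
      rw [lev58_eq, lev58_eq]
      exact LevC_653.lev_const_mul _ (contDiffAt_two' (hu.1 p hp)) v
    rw [h3]
    have h4 : (-δ + e) * omg p v ≤ 0 := mul_nonpos_of_nonpos_of_nonneg (by linarith) h2
    have h5 : 0 < t * alpha I n p v + Defs_58.lev u p v := by linarith
    have h6 : alpha I n p v + t⁻¹ * Defs_58.lev u p v =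
        t⁻¹ * (t * alpha I n p v + Defs_58.lev u p v) := by
      field_simp
    rw [h6]
    positivity

end Dict

end

end Crest.Agent.R269.RegAmb_848
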