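import Crest.Agent.R273.C0d_390

/-!
# R269 (S0411), leaf L8, part G3 (helper390): smooth plurisubharmonic functions on balls

`shell`   : Hadamard's three spheres theorem;
`harnack` : the average over a ball against the maximum over a ball.
-/

set_option autoImplicit false
set_option linter.unusedSectionVars false

open MeasureTheory Set Metric Filter Topology

namespace Crest.Agent.R269.GlueB_390

open Crest.Agent.R273.C0d_390

noncomputable section

variable {n : ℕ}

/-- second derivative in a direction at a local maximum -/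
theorem snd_nonpos {E : Type*} [NormedAddCommGroup E] [NormedSpace ℝ E] {u : E → ℝ} {x : E}
    (hu : ContDiffAt ℝ 2 u x) (hm : IsLocalMax u x) (v : E) :
    fderiv ℝ (fderiv ℝ u) x v v ≤ 0 := by
  by_contra hcon
  push Not at hcon
  -- restrict to the line
  have hline : ContDiffAt ℝ 2 (fun t : ℝ => u (x + t • v)) 0 := by
    have h1 : ContDiffAt ℝ 2 (fun t : ℝ => x + t • v) 0 := by fun_prop
    have h2 : ContDiffAt ℝ 2 u (x + (0 : ℝ) • v) := by simpa using hu
    exact h2.comp (0 : ℝ) h1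
  have hev : ∀ᶠ y in 𝓝 x, DifferentiableAt ℝ u y := by
    filter_upwards [hu.eventually (by simp)] with y hy
    exact hy.differentiableAt (by norm_num)
  have ht : Tendsto (fun t : ℝ => x + t • v) (𝓝 0) (𝓝 x) := by
    have : ContinuousAt (fun t : ℝ => x + t • v) 0 := by fun_prop
    simpa [ContinuousAt] using this
  have hd : ∀ᶠ t in 𝓝 (0 : ℝ), deriv (fun t : ℝ => u (x + t • v)) t = fderiv ℝ u (x + t • v) v := by
    filter_upwards [ht.eventually hev] with t h1
    have h2 : HasDerivAt (fun t : ℝ => x + t • v) v t := by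
      simpa using ((hasDerivAt_id t).smul_const v).const_add x
    exact (h1.hasFDerivAt.comp_hasDerivAt t h2).deriv
  have hdd : deriv (deriv (fun t : ℝ => u (x + t • v))) 0 = fderiv ℝ (fderiv ℝ u) x v v := by
    rw [Filter.EventuallyEq.deriv_eq hd]
    have h3 : DifferentiableAt ℝ (fderiv ℝ u) x :=
      (hu.fderiv_right (m := 1) (by norm_num)).differentiableAt (by norm_num)
    have h2 : HasDerivAt (fun t : ℝ => x + t • v) v 0 := by
      simpa using ((hasDerivAt_id (0 : ℝ)).smul_const v).const_add x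
    have h3' : HasFDerivAt (fderiv ℝ u) (fderiv ℝ (fderiv ℝ u) x) (x + (0 : ℝ) • v) := by
      simpa using h3.hasFDerivAt
    have h4 := h3'.comp_hasDerivAt (0 : ℝ) h2
    have h5 := h4.clm_apply (hasDerivAt_const (0 : ℝ) v)
    simpa using h5.deriv
  have hmax : IsLocalMax (fun t : ℝ => u (x + t • v)) 0 := by
    have h1 : ∀ᶠ y in 𝓝 x, u y ≤ u x := hm
    have := ht.eventually h1
    simpa [IsLocalMax, IsMaxFilter] using this
  have h0 : deriv (fun t : ℝ => u (x + t • v)) 0 = 0 := hmax.deriv_eq_zero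
  -- strict local minimum from positive second derivative
  have hmin := isLocalMin_of_deriv_deriv_pos (f := fun t : ℝ => u (x + t • v)) (x₀ := 0)
    (by rw [hdd]; exact hcon) h0 hline.continuousAt
  have hconst : (fun t : ℝ => u (x + t • v)) =ᶠ[𝓝 0] fun _ => u (x + (0 : ℝ) • v) := by
    filter_upwards [hmax, hmin] with t h1 h2
    exact le_antisymm h1 h2
  have hzero : deriv (deriv (fun t : ℝ => u (x + t • v))) 0 = 0 := by
    have h6 : deriv (fun t : ℝ => u (x + t • v)) =ᶠ[𝓝 0] fun _ => 0 := by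
      filter_upwards [hconst.eventuallyEq_nhds] with t ht
      rw [ht.deriv_eq]
      simp
    rw [h6.deriv_eq]
    simp
  rw [hdd] at hzero
  linarith

theorem lv_nonpos {u : V n → ℝ} {x : V n} (hu : ContDiffAt ℝ 2 u x) (hm : IsLocalMax u x)
    (v : V n) : lv u x v ≤ 0 :=
  add_nonpos (snd_nonpos hu hm v) (snd_nonpos hu hm _)

theorem fderiv2_add {E : Type*} [NormedAddCommGroup E] [NormedSpace ℝ E] {u w : E → ℝ} {x : E}
    (hu : ContDiffAt ℝ 2 u x) (hw : ContDiffAt ℝ 2 w x) (v : E) :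
    fderiv ℝ (fderiv ℝ (fun y => u y + w y)) x v v
      = fderiv ℝ (fderiv ℝ u) x v v + fderiv ℝ (fderiv ℝ w) x v v := by
  have h1 : fderiv ℝ (fun y => u y + w y) =ᶠ[𝓝 x] fun y => fderiv ℝ u y + fderiv ℝ w y := by
    filter_upwards [hu.eventually (by simp), hw.eventually (by simp)] with y hy hy'
    exact fderiv_add (hy.differentiableAt (by norm_num)) (hy'.differentiableAt (by norm_num))
  rw [h1.fderiv_eq]
  have e := fderiv_add ((hu.fderiv_right (m := 1) (by norm_num)).differentiableAt (by norm_num))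
    ((hw.fderiv_right (m := 1) (by norm_num)).differentiableAt (by norm_num))
  have e2 : fderiv ℝ (fun y => fderiv ℝ u y + fderiv ℝ w y) x
      = fderiv ℝ (fderiv ℝ u) x + fderiv ℝ (fderiv ℝ w) x := e
  rw [e2]
  rfl

theorem fderiv2_const_mul {E : Type*} [NormedAddCommGroup E] [NormedSpace ℝ E] {u : E → ℝ} {x : E}
    (hu : ContDiffAt ℝ 2 u x) (c : ℝ) (v : E) :
    fderiv ℝ (fderiv ℝ (fun y => c * u y)) x v v = c * fderiv ℝ (fderiv ℝ u) x v v := by
  have h1 : fderiv ℝ (fun y => c * u y) =ᶠ[𝓝 x] fun y => c • fderiv ℝ u y := by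
    filter_upwards [hu.eventually (by simp)] with y hy
    exact fderiv_const_mul (hy.differentiableAt (by norm_num)) c
  rw [h1.fderiv_eq]
  have e : fderiv ℝ (fun y => c • fderiv ℝ u y) x = c • fderiv ℝ (fderiv ℝ u) x :=
    fderiv_const_smul ((hu.fderiv_right (m := 1) (by norm_num)).differentiableAt (by norm_num)) c
  rw [e]
  rfl

theorem lv_add {u w : V n → ℝ} {x : V n} (hu : ContDiffAt ℝ 2 u x) (hw : ContDiffAt ℝ 2 w x)
    (v : V n) : lv (fun y => u y + w y) x v = lv u x v + lv w x v := by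
  unfold lv
  rw [fderiv2_add hu hw, fderiv2_add hu hw]
  ring

theorem lv_const_mul {u : V n → ℝ} {x : V n} (hu : ContDiffAt ℝ 2 u x) (c : ℝ) (v : V n) :
    lv (fun y => c * u y) x v = c * lv u x v := by
  unfold lv
  rw [fderiv2_const_mul hu, fderiv2_const_mul hu]
  ring

/-- `lv` of the squared norm -/
theorem lv_normSq (x0 x v : V n) : lv (fun y => ‖y - x0‖ ^ 2) x v = 4 * ‖v‖ ^ 2 := by
  have h0 : ∀ y : V n, HasFDerivAt (fun y : V n => ‖y - x0‖ ^ 2)
      ((2 : ℝ) • (innerSL ℝ (y - x0))) y := by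
    intro y
    have h1 : HasFDerivAt (fun y : V n => y - x0) (ContinuousLinearMap.id ℝ (V n)) y :=
      (hasFDerivAt_id y).sub_const x0
    have h2 := h1.norm_sq
    refine h2.congr_fderiv ?_
    ext w
    simp
  have h1 : fderiv ℝ (fun y : V n => ‖y - x0‖ ^ 2) = fun y => (2 : ℝ) • (innerSL ℝ (y - x0)) := by
    funext y
    exact (h0 y).fderiv
  have h2 : ∀ w, fderiv ℝ (fderiv ℝ (fun y : V n => ‖y - x0‖ ^ 2)) x w w = 2 * ‖w‖ ^ 2 := by
    intro w
    rw [h1]
    have h3 : HasFDerivAt (fun y : V n => (2 : ℝ) • (innerSL ℝ (y - x0)))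
        ((2 : ℝ) • (innerSL ℝ : V n →L[ℝ] V n →L[ℝ] ℝ)) x := by
      have h4 : HasFDerivAt (fun y : V n => y - x0) (ContinuousLinearMap.id ℝ (V n)) x :=
        (hasFDerivAt_id x).sub_const x0
      have h5 := ((innerSL ℝ : V n →L[ℝ] V n →L[ℝ] ℝ).hasFDerivAt (x := x - x0)).comp x h4
      have h6 := h5.const_smul (2 : ℝ)
      exact h6
    rw [h3.fderiv]
    show (2 : ℝ) * inner ℝ w w = 2 * ‖w‖ ^ 2
    rw [real_inner_self_eq_norm_sq]
  unfold lv
  rw [h2, h2, norm_smul, Complex.norm_I, one_mul]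
  ring

/-- `|Du(v)|² + |Du(iv)|²` -/
def gn (u : V n → ℝ) (x v : V n) : ℝ :=
  fderiv ℝ u x v ^ 2 + fderiv ℝ u x (Complex.I • v) ^ 2

theorem fderiv2_comp {E : Type*} [NormedAddCommGroup E] [NormedSpace ℝ E] {φ : ℝ → ℝ} {u : E → ℝ}
    {x : E} (hφ : ContDiffAt ℝ 2 φ (u x)) (hu : ContDiffAt ℝ 2 u x) (v : E) :
    fderiv ℝ (fderiv ℝ (fun y => φ (u y))) x v v
      = deriv φ (u x) * fderiv ℝ (fderiv ℝ u) x v v + deriv (deriv φ) (u x) * (fderiv ℝ u x v) ^ 2 := by
  have hc : Tendsto u (𝓝 x) (𝓝 (u x)) := hu.continuousAt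
  have h1 : fderiv ℝ (fun y => φ (u y)) =ᶠ[𝓝 x] fun y => deriv φ (u y) • fderiv ℝ u y := by
    filter_upwards [hu.eventually (by simp), hc.eventually (hφ.eventually (by simp))] with y hy hy'
    have := (hy'.differentiableAt (by norm_num)).hasDerivAt.comp_hasFDerivAt y
      (hy.differentiableAt (by norm_num)).hasFDerivAt
    exact this.fderiv
  rw [h1.fderiv_eq]
  have hdφ : ContDiffAt ℝ 1 (deriv φ) (u x) := by
    have h2 := hφ.fderiv_right (m := 1) (by norm_num)
    have h3 : deriv φ = fun t => fderiv ℝ φ t 1 := by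
      funext t
      simp
    rw [h3]
    exact h2.clm_apply contDiffAt_const
  have h4 : HasFDerivAt (fun y => deriv φ (u y)) (deriv (deriv φ) (u x) • fderiv ℝ u x) x :=
    (hdφ.differentiableAt (by norm_num)).hasDerivAt.comp_hasFDerivAt x
      (hu.differentiableAt (by norm_num)).hasFDerivAt
  have h5 : HasFDerivAt (fderiv ℝ u) (fderiv ℝ (fderiv ℝ u) x) x :=
    ((hu.fderiv_right (m := 1) (by norm_num)).differentiableAt (by norm_num)).hasFDerivAt
  have h6 : HasFDerivAt (fun y => deriv φ (u y) • fderiv ℝ u y) _ x := h4.smul h5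
  rw [h6.fderiv]
  simp only [_root_.add_apply, _root_.smul_apply, smul_eq_mul,
    ContinuousLinearMap.smulRight_apply]
  ring

theorem lv_comp {φ : ℝ → ℝ} {u : V n → ℝ} {x : V n} (hφ : ContDiffAt ℝ 2 φ (u x))
    (hu : ContDiffAt ℝ 2 u x) (v : V n) :
    lv (fun y => φ (u y)) x v = deriv φ (u x) * lv u x v + deriv (deriv φ) (u x) * gn u x v := by
  unfold lv gn
  rw [fderiv2_comp hφ hu, fderiv2_comp hφ hu]
  ring

theorem lv_log {u : V n → ℝ} {x : V n} (h0 : u x ≠ 0) (hu : ContDiffAt ℝ 2 u x) (v : V n) :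
    lv (fun y => Real.log (u y)) x v = lv u x v / u x - gn u x v / u x ^ 2 := by
  rw [lv_comp (Real.contDiffAt_log.2 h0) hu]
  have h1 : deriv Real.log = fun t => t⁻¹ := Real.deriv_log'
  rw [h1]
  have h2 : deriv (fun t : ℝ => t⁻¹) (u x) = -(u x ^ 2)⁻¹ := deriv_inv
  rw [h2]
  simp only [div_eq_mul_inv]
  ring

theorem lv_exp {u : V n → ℝ} {x : V n} (hu : ContDiffAt ℝ 2 u x) (v : V n) :
    lv (fun y => Real.exp (u y)) x v = Real.exp (u x) * (lv u x v + gn u x v) := by
  rw [lv_comp Real.contDiff_exp.contDiffAt hu]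
  simp only [Real.deriv_exp]
  ring

theorem fderiv_normSq (x0 x v : V n) : fderiv ℝ (fun y => ‖y - x0‖ ^ 2) x v
    = 2 * inner ℝ (x - x0) v := by
  have h1 : HasFDerivAt (fun y : V n => y - x0) (ContinuousLinearMap.id ℝ (V n)) x :=
    (hasFDerivAt_id x).sub_const x0
  rw [h1.norm_sq.fderiv]
  simp [inner_sub_left]

theorem inner_I_smul_self (v : V n) : inner ℝ v (Complex.I • v) = 0 := by
  have h : ∀ z : ℂ, (inner ℝ z (Complex.I * z) : ℝ) = 0 := by
    intro z
    rw [Complex.inner]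
    simp [Complex.mul_re, Complex.mul_im]
    ring
  rw [PiLp.inner_apply]
  exact Finset.sum_eq_zero fun i _ => by simpa using h (v i)

theorem contDiff_normSq (x0 : V n) : ContDiff ℝ 2 (fun y : V n => ‖y - x0‖ ^ 2) :=
  (contDiff_id.sub contDiff_const).norm_sq ℝ

/-- `log ‖y - x0‖` is harmonic along the radial complex line -/
theorem lv_log_norm {x0 x : V n} (hx : x ≠ x0) :
    lv (fun y => Real.log (‖y - x0‖ ^ 2)) x (x - x0) = 0 := by
  have hq : ‖x - x0‖ ^ 2 ≠ 0 := pow_ne_zero _ (norm_ne_zero_iff.2 (sub_ne_zero.2 hx))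
  rw [lv_log (u := fun y => ‖y - x0‖ ^ 2) hq (contDiff_normSq x0).contDiffAt, lv_normSq]
  unfold gn
  rw [fderiv_normSq, fderiv_normSq, inner_I_smul_self, real_inner_self_eq_norm_sq]
  field_simp
  ring

/-- **three spheres theorem** -/
theorem shell {v : V n → ℝ} {x0 : V n} {r R a b : ℝ} (hr : 0 < r) (hrR : r < R)
    (hv : ∀ x ∈ closedBall x0 R, ContDiffAt ℝ 2 v x)
    (hp : ∀ x ∈ closedBall x0 R, ∀ ξ, 0 ≤ lv v x ξ)
    (ha : ∀ x ∈ sphere x0 r, v x ≤ a) (hb : ∀ x ∈ sphere x0 R, v x ≤ b) {y : V n}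
    (hy : r ≤ ‖y - x0‖) (hy' : ‖y - x0‖ ≤ R) :
    v y ≤ a + (b - a) * (Real.log (‖y - x0‖ / r) / Real.log (R / r)) := by
  have hR : 0 < R := hr.trans hrR
  have hlog : 0 < Real.log (R / r) := Real.log_pos ((one_lt_div hr).2 hrR)
  set κ : ℝ := (b - a) / (2 * Real.log (R / r)) with hκ
  have hκ1 : κ * (2 * Real.log (R / r)) = b - a := by
    rw [hκ]
    field_simp
  have hdiv : ∀ t : ℝ, 0 < t → Real.log (t / r) = Real.log t - Real.log r := fun t ht =>
    Real.log_div ht.ne' hr.ne'
  rw [hdiv R hR] at hκ1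
  have key : ∀ ε : ℝ, 0 < ε → v y ≤ a + κ * (2 * Real.log (‖y - x0‖ / r)) + ε * R ^ 2 := by
    intro ε hε
    let S : Set (V n) := closedBall x0 R \ ball x0 r
    have hS : IsCompact S := (isCompact_closedBall x0 R).diff isOpen_ball
    have hySet : y ∈ S := by
      refine ⟨?_, ?_⟩
      · rw [mem_closedBall, dist_eq_norm]; exact hy'
      · rw [mem_ball, dist_eq_norm]; exact not_lt.2 hy
    let g : V n → ℝ := fun z => v z + (ε * ‖z - x0‖ ^ 2 + -κ * Real.log (‖z - x0‖ ^ 2))
    have hSn : ∀ z ∈ S, r ≤ ‖z - x0‖ ∧ ‖z - x0‖ ≤ R := by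
      intro z hz
      have h1 := hz.1
      have h2 := hz.2
      rw [mem_closedBall, dist_eq_norm] at h1
      rw [mem_ball, dist_eq_norm, not_lt] at h2
      exact ⟨h2, h1⟩
    have hlogd : ∀ z ∈ S, ContDiffAt ℝ 2 (fun z => Real.log (‖z - x0‖ ^ 2)) z := by
      intro z hz
      have h1 := (hSn z hz).1
      have hne : ‖z - x0‖ ^ 2 ≠ 0 := pow_ne_zero _ (by linarith)
      exact (contDiff_normSq x0).contDiffAt.log hne
    have hq : ∀ z, ContDiffAt ℝ 2 (fun z : V n => ε * ‖z - x0‖ ^ 2) z := fun z =>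
      contDiffAt_const.mul (contDiff_normSq x0).contDiffAt
    have hl : ∀ z ∈ S, ContDiffAt ℝ 2 (fun z : V n => -κ * Real.log (‖z - x0‖ ^ 2)) z := fun z hz =>
      contDiffAt_const.mul (hlogd z hz)
    have hg : ∀ z ∈ S, ContDiffAt ℝ 2 g z := fun z hz =>
      (hv z hz.1).add ((hq z).add (hl z hz))
    obtain ⟨z, hz, hzmax⟩ := hS.exists_isMaxOn ⟨y, hySet⟩
      (fun z hz => (hg z hz).continuousAt.continuousWithinAt)
    have hgy : g y ≤ g z := hzmax hySet
    have hzn := hSn z hz
    have hzb : g z ≤ a - κ * (2 * Real.log r) + ε * R ^ 2 := by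
      rcases eq_or_lt_of_le hzn.1 with h1 | h1
      · have h2 := ha z (by rw [mem_sphere, dist_eq_norm, ← h1])
        have : g z = v z + (ε * r ^ 2 + -κ * (2 * Real.log r)) := by
          show v z + (ε * ‖z - x0‖ ^ 2 + -κ * Real.log (‖z - x0‖ ^ 2)) = _
          rw [← h1, Real.log_pow]
          norm_num
        rw [this]
        have : ε * r ^ 2 ≤ ε * R ^ 2 := by gcongr
        linarith
      · rcases eq_or_lt_of_le hzn.2 with h2 | h2
        · have h3 := hb z (by rw [mem_sphere, dist_eq_norm, h2])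
          have : g z = v z + (ε * R ^ 2 + -κ * (2 * Real.log R)) := by
            show v z + (ε * ‖z - x0‖ ^ 2 + -κ * Real.log (‖z - x0‖ ^ 2)) = _
            rw [h2, Real.log_pow]
            norm_num
          rw [this]
          nlinarith
        · exfalso
          have hzx : z ≠ x0 := by
            rintro rfl
            rw [sub_self, norm_zero] at h1
            linarith
          have hnhds : S ∈ 𝓝 z := by
            have e1 : ball x0 R ∩ (closedBall x0 r)ᶜ ∈ 𝓝 z := by
              refine (isOpen_ball.inter isClosed_closedBall.isOpen_compl).mem_nhds ⟨?_, ?_⟩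
              · rw [mem_ball, dist_eq_norm]; exact h2
              · rw [mem_compl_iff, mem_closedBall, dist_eq_norm, not_le]; exact h1
            refine mem_of_superset e1 fun w hw => ⟨ball_subset_closedBall hw.1, fun h => hw.2
              (ball_subset_closedBall h)⟩
          have hloc : IsLocalMax g z := hzmax.isLocalMax hnhds
          have h3 := lv_nonpos (hg z hz) hloc (z - x0)
          have h4 : lv g z (z - x0) = lv v z (z - x0) + (ε * (4 * ‖z - x0‖ ^ 2) + -κ * 0) := by
            rw [lv_add (hv z hz.1) ((hq z).add (hl z hz)), lv_add (hq z) (hl z hz),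
              lv_const_mul (contDiff_normSq x0).contDiffAt, lv_normSq,
              lv_const_mul (hlogd z hz), lv_log_norm hzx]
          have h5 := hp z hz.1 (z - x0)
          have h6 : 0 < ε * (4 * ‖z - x0‖ ^ 2) := by
            have : 0 < ‖z - x0‖ := by linarith
            positivity
          linarith
    have h7 : g y = v y + (ε * ‖y - x0‖ ^ 2 + -κ * (2 * Real.log ‖y - x0‖)) := by
      show v y + (ε * ‖y - x0‖ ^ 2 + -κ * Real.log (‖y - x0‖ ^ 2)) = _
      rw [Real.log_pow]
      norm_num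
    have h8 : 0 ≤ ε * ‖y - x0‖ ^ 2 := by positivity
    rw [hdiv _ (by linarith : 0 < ‖y - x0‖)]
    linarith [h7 ▸ hgy]
  have hlim : v y ≤ a + κ * (2 * Real.log (‖y - x0‖ / r)) := by
    refine le_of_forall_pos_le_add fun η hη => ?_
    have h1 := key (η / R ^ 2) (by positivity)
    have h2 : η / R ^ 2 * R ^ 2 = η := by field_simp
    linarith
  calc v y ≤ a + κ * (2 * Real.log (‖y - x0‖ / r)) := hlim
    _ = a + (b - a) * (Real.log (‖y - x0‖ / r) / Real.log (R / r)) := by
      rw [hκ]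
      field_simp

/-- average against a value of the function -/
theorem harnack (μ : Measure (V n)) [μ.IsAddHaarMeasure] {v : V n → ℝ} {x y : V n} {δ b : ℝ}
    (hδ : 0 < δ) (hv : ∀ z ∈ closedBall x (3 * δ), ContDiffAt ℝ 2 v z)
    (hp : ∀ z ∈ closedBall x (3 * δ), ∀ ξ, 0 ≤ lv v z ξ)
    (hb : ∀ z ∈ closedBall x (3 * δ), v z ≤ b) (hy : y ∈ closedBall x δ) :
    ∫ z in ball x δ, (b - v z) ∂μ ≤ (b - v y) * μ.real (ball y (2 * δ)) := by
  have hsub : closedBall y (2 * δ) ⊆ closedBall x (3 * δ) := by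
    refine closedBall_subset_closedBall' ?_
    rw [mem_closedBall] at hy
    linarith
  have hsub2 : ball x δ ⊆ ball y (2 * δ) := by
    refine ball_subset_ball' ?_
    rw [mem_closedBall'] at hy
    linarith
  have h1 := submean μ (u := v) (z := y) (R := 2 * δ) (Λ := 0) (by positivity) le_rfl
    (fun z hz => hv z (hsub hz)) (fun z hz ξ => by
      have := hp z (hsub hz) ξ
      linarith)
  have hcont : ContinuousOn v (closedBall y (2 * δ)) := fun z hz =>
    (hv z (hsub hz)).continuousAt.continuousWithinAt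
  have hint : IntegrableOn v (ball y (2 * δ)) μ :=
    (hcont.integrableOn_compact (isCompact_closedBall _ _)).mono_set ball_subset_closedBall
  have hint2 : IntegrableOn (fun z => b - v z) (ball y (2 * δ)) μ :=
    (integrableOn_const measure_ball_lt_top.ne).sub hint
  have h2 : ∫ z in ball x δ, (b - v z) ∂μ ≤ ∫ z in ball y (2 * δ), (b - v z) ∂μ := by
    refine setIntegral_mono_set hint2 ?_ (Eventually.of_forall hsub2)
    refine (ae_restrict_iff' measurableSet_ball).2 (Eventually.of_forall fun z hz => ?_)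
    have := hb z (hsub (ball_subset_closedBall hz))
    simp only [Pi.zero_apply]
    linarith
  have h3 : ∫ z in ball y (2 * δ), (b - v z) ∂μ
      = b * μ.real (ball y (2 * δ)) - ∫ z in ball y (2 * δ), v z ∂μ := by
    have hci : IntegrableOn (fun _ : V n => b) (ball y (2 * δ)) μ :=
      integrableOn_const measure_ball_lt_top.ne
    rw [integral_sub hci hint, setIntegral_const, smul_eq_mul, mul_comm]
  rw [h3] at h2
  linarith

end

end Crest.Agent.R269.GlueB_390
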