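import Crest.Agent.R269.RegStmt_848
import Crest.Agent.R273.C0e_390
import Crest.Agent.R273.Vol_333
import Crest.Agent.R269.GlueB_390

/-!
# R269 (S0411), task REG-POT (helper848): the algebra of potentials

`om_tr`, `dg_tr`     : transformation of the Kaehler form and of `det g`;
`Pot.add`, `Pot.smul`, `Pot.ofHM` : sums, real multiples, curvature of a Hermitian metric;
`lv_ofHM`            : `lv w z v / 4 = ∑ cur a b v_a conj v_b`.
-/

set_option autoImplicit false
set_option linter.unusedSectionVars false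

open MeasureTheory Set Filter Topology
open scoped ContDiff ComplexConjugate Matrix

namespace Crest.Agent.R269.RegStmt_848

open Crest.Agent.R275.Geo Crest.Agent.R275.Core144 Crest.Agent.R273.C0d_390
  Crest.Agent.R273.Kah_333 Crest.Agent.R273.Defs_333 Crest.Agent.R273.Hess_333
  Crest.Agent.R273.HessB_333 Crest.Agent.R273.HM_333 Crest.Agent.R273.Vol_333

noncomputable section

variable {n : ℕ} {M : Type} [TopologicalSpace M] {A : Atl n M}

/-- Hermitian form of a matrix -/
def qf (H : Matrix (Fin n) (Fin n) ℂ) (v : Cn n) : ℂ := ∑ a, ∑ b, H a b * v a * conj (v b)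

theorem qf_hess (u : Cn n → ℝ) (z v : Cn n) : qf (hess u z) v = hq u z v := rfl

theorem lv_eq_qf {u : Cn n → ℝ} {z : Cn n} (hu : ContDiffAt ℝ ∞ u z) (v : Cn n) :
    lv u z v / 4 = (qf (hess u z) v).re := by
  rw [Crest.Agent.R273.C0e_390.lv_eq_lev, qf_hess, hq_re hu]

theorem om_eq_qf (K : Kah A) (i : A.ι) (z v : Cn n) :
    om K i z v = (qf (K.g i ((A.e i).symm z)) v).re := rfl

/-- the chart transition applied to a tangent vector -/
theorem fderiv_trans (i j : A.ι) {z : Cn n} (hz : z ∈ A.ov i j) (v : Cn n) (b : Fin n) :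
    (fderiv ℂ (fun y => A.e j ((A.e i).symm y)) z v) b
      = ∑ a, Jm A i j ((A.e i).symm z) b a * v a := by
  have hv : v = ∑ a, v a • (EuclideanSpace.single a (1 : ℂ) : Cn n) := by
    ext c
    simp [Finset.sum_apply, Pi.single_apply]
  conv_lhs => rw [hv]
  rw [map_sum]
  simp only [map_smul]
  rw [WithLp.ofLp_sum, Finset.sum_apply]
  refine Finset.sum_congr rfl fun a _ => ?_
  simp only [Jm, Matrix.of_apply, Atl.J, (A.e i).right_inv hz.1, WithLp.ofLp_smul, Pi.smul_apply,
    smul_eq_mul]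
  ring

theorem qf_eq_dot (H : Matrix (Fin n) (Fin n) ℂ) (v : Cn n) :
    qf H v = (fun a => v a) ⬝ᵥ (H *ᵥ fun b => conj (v b)) := by
  unfold qf
  simp only [dotProduct, Matrix.mulVec, Finset.mul_sum]
  refine Finset.sum_congr rfl fun a _ => Finset.sum_congr rfl fun b _ => ?_
  ring

theorem qf_tr (H : Matrix (Fin n) (Fin n) ℂ) (J : Matrix (Fin n) (Fin n) ℂ) {v w : Cn n}
    (hw : ∀ b, w b = ∑ a, J b a * v a) : qf (Jᵀ * H * J.map conj) v = qf H w := by
  have h1 : (fun b => w b) = J *ᵥ fun a => v a := funext hw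
  have h2 : (fun b => conj (w b)) = J.map conj *ᵥ fun a => conj (v a) := by
    funext b
    rw [hw b]
    simp [Matrix.mulVec, dotProduct]
  rw [qf_eq_dot, qf_eq_dot, h1, h2, ← Matrix.mulVec_mulVec, ← Matrix.mulVec_mulVec,
    Matrix.dotProduct_mulVec, Matrix.vecMul_transpose]

theorem qf_add (H H' : Matrix (Fin n) (Fin n) ℂ) (v : Cn n) : qf (H + H') v = qf H v + qf H' v := by
  simp only [qf, Matrix.add_apply, add_mul, Finset.sum_add_distrib]

theorem qf_smul (r : ℝ) (H : Matrix (Fin n) (Fin n) ℂ) (v : Cn n) :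
    qf (r • H) v = r * qf H v := by
  simp only [qf, Matrix.smul_apply, Complex.real_smul, Finset.mul_sum]
  refine Finset.sum_congr rfl fun a _ => Finset.sum_congr rfl fun b _ => ?_
  ring

/-- transformation of the Levi form from the transformation of the Hessian matrix -/
theorem lv_tr_of_hess {u v : Cn n → ℝ} {i j : A.ι} {z : Cn n} (hz : z ∈ A.ov i j)
    (hu : ContDiffAt ℝ ∞ u z) (hv : ContDiffAt ℝ ∞ v (A.e j ((A.e i).symm z)))
    (h : hess u z = (Jm A i j ((A.e i).symm z))ᵀ * hess v (A.e j ((A.e i).symm z)) *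
      (Jm A i j ((A.e i).symm z)).map conj) (x : Cn n) :
    lv u z x = lv v (A.e j ((A.e i).symm z))
      (fderiv ℂ (fun y => A.e j ((A.e i).symm y)) z x) := by
  have h1 := lv_eq_qf hu x
  have h2 := lv_eq_qf hv (fderiv ℂ (fun y => A.e j ((A.e i).symm y)) z x)
  rw [h, qf_tr _ _ (fderiv_trans i j hz x)] at h1
  linarith

theorem om_tr (K : Kah A) {i j : A.ι} {z : Cn n} (hz : z ∈ A.ov i j) (x : Cn n) :
    om K i z x = om K j (A.e j ((A.e i).symm z))
      (fderiv ℂ (fun y => A.e j ((A.e i).symm y)) z x) := by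
  have h0 : (A.e i).symm z ∈ (A.e i).source ∩ (A.e j).source := ⟨(A.e i).map_target hz.1, hz.2⟩
  rw [om_eq_qf, om_eq_qf, K.tr i j _ h0, qf_tr _ _ (fderiv_trans i j hz x),
    (A.e j).left_inv hz.2]

/-- the curvature form of a Hermitian metric -/
def Pot.ofHM {L : LB A} (h : HM L) : Pot A where
  w := h.wt
  sm := wt_smooth h
  tr := by
    intro i j z hz x
    have hx : (A.e i).symm z ∈ (A.e i).source ∩ (A.e j).source := ⟨(A.e i).map_target hz.1, hz.2⟩
    have h1 := cur_tr h hx
    unfold cur at h1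
    rw [(A.e i).right_inv hz.1] at h1
    exact lv_tr_of_hess hz (wt_contDiffAt h i hz.1)
      (wt_contDiffAt h j ((A.e j).map_source hz.2)) h1 x

theorem Pot.contDiffAt (γ : Pot A) {i : A.ι} {z : Cn n} (hz : z ∈ (A.e i).target) :
    ContDiffAt ℝ ∞ (γ.w i) z := (γ.sm i).contDiffAt ((A.e i).open_target.mem_nhds hz)

theorem contDiffAt_two {u : Cn n → ℝ} {z : Cn n} (h : ContDiffAt ℝ ∞ u z) : ContDiffAt ℝ 2 u z :=
  h.of_le (WithTop.coe_le_coe.2 le_top)

theorem mem_target_of_ov {i j : A.ι} {z : Cn n} (hz : z ∈ A.ov i j) :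
    A.e j ((A.e i).symm z) ∈ (A.e j).target := (A.e j).map_source hz.2

/-- sum of two forms -/
def Pot.add (γ γ' : Pot A) : Pot A where
  w i z := γ.w i z + γ'.w i z
  sm i := (γ.sm i).add (γ'.sm i)
  tr i j z hz x := by
    have h1 := contDiffAt_two (γ.contDiffAt hz.1)
    have h2 := contDiffAt_two (γ'.contDiffAt hz.1)
    have h3 := contDiffAt_two (γ.contDiffAt (mem_target_of_ov hz))
    have h4 := contDiffAt_two (γ'.contDiffAt (mem_target_of_ov hz))
    rw [Crest.Agent.R269.GlueB_390.lv_add h1 h2, Crest.Agent.R269.GlueB_390.lv_add h3 h4,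
      γ.tr i j z hz, γ'.tr i j z hz]

/-- real multiple of a form -/
def Pot.smul (r : ℝ) (γ : Pot A) : Pot A where
  w i z := r * γ.w i z
  sm i := contDiffOn_const.mul (γ.sm i)
  tr i j z hz x := by
    have h1 := contDiffAt_two (γ.contDiffAt hz.1)
    have h3 := contDiffAt_two (γ.contDiffAt (mem_target_of_ov hz))
    rw [Crest.Agent.R269.GlueB_390.lv_const_mul h1, Crest.Agent.R269.GlueB_390.lv_const_mul h3,
      γ.tr i j z hz]

/-- the curvature form of the canonical bundle with the metric induced by `K`: `w = log det g` -/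
def Pot.can (K : Kah A) : Pot A := (Pot.ofHM (volK K)).smul (-1)

theorem Pot.can_w (K : Kah A) (i : A.ι) (z : Cn n) : (Pot.can K).w i z = Real.log (dg K i z) := by
  simp only [Pot.can, Pot.smul, Pot.ofHM, HM.wt, volK, dg]
  ring

@[simp] theorem Pot.add_w (γ γ' : Pot A) (i : A.ι) (z : Cn n) :
    (γ.add γ').w i z = γ.w i z + γ'.w i z := rfl

@[simp] theorem Pot.smul_w (r : ℝ) (γ : Pot A) (i : A.ι) (z : Cn n) :
    (γ.smul r).w i z = r * γ.w i z := rfl

@[simp] theorem Pot.ofHM_w {L : LB A} (h : HM L) (i : A.ι) : (Pot.ofHM h).w i = h.wt i := rfl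

/-- the matrix of a form in the chart `i` -/
def Pot.mat (γ : Pot A) (i : A.ι) (x : M) : Matrix (Fin n) (Fin n) ℂ := hess (γ.w i) (A.e i x)

theorem Pot.lv_eq (γ : Pot A) {i : A.ι} {z : Cn n} (hz : z ∈ (A.e i).target) (v : Cn n) :
    lv (γ.w i) z v / 4 = (qf (γ.mat i ((A.e i).symm z)) v).re := by
  rw [lv_eq_qf (γ.contDiffAt hz), Pot.mat, (A.e i).right_inv hz]

theorem Pot.mat_add (γ γ' : Pot A) {i : A.ι} {x : M} (hx : x ∈ (A.e i).source) :
    (γ.add γ').mat i x = γ.mat i x + γ'.mat i x := by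
  have hz := (A.e i).map_source hx
  exact hess_add (γ.contDiffAt hz) (γ'.contDiffAt hz)

theorem Pot.mat_ofHM {L : LB A} (h : HM L) (i : A.ι) (x : M) : (Pot.ofHM h).mat i x = cur h i x := rfl

theorem trb_add {u w : Cn n → ℝ} {z : Cn n} (hu : ContDiffAt ℝ 2 u z) (hw : ContDiffAt ℝ 2 w z)
    (b : Matrix (Fin n) (Fin n) ℂ) : trb (fun y => u y + w y) z b = trb u z b + trb w z b := by
  simp only [trb, Crest.Agent.R269.GlueB_390.lv_add hu hw, add_div, Finset.sum_add_distrib]

theorem trb_const_mul {u : Cn n → ℝ} {z : Cn n} (hu : ContDiffAt ℝ 2 u z) (r : ℝ)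
    (b : Matrix (Fin n) (Fin n) ℂ) : trb (fun y => r * u y) z b = r * trb u z b := by
  simp only [trb, Crest.Agent.R269.GlueB_390.lv_const_mul hu, Finset.mul_sum]
  exact Finset.sum_congr rfl fun k _ => by ring

/-- `e ω` can be absorbed when `γ` contains a multiple of `ω` -/
theorem Smooth.mono {K : Kah A} {γ : Pot A} {c c' e : ℝ} {φ : M → ℝ} (h : Smooth K γ c e φ)
    (hc : c' ≤ c) (hK : ∀ i, ∀ z ∈ (A.e i).target, 0 ≤ dg K i z) : Smooth K γ c' e φ where
  sm := h.sm
  pos := h.pos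
  ma i z hz b := by
    refine le_trans ?_ (h.ma i z hz b)
    have h1 : (0 : ℝ) ≤ (‖b.det‖ ^ 2 * dg K i z) ^ ((1 : ℝ) / n) :=
      Real.rpow_nonneg (mul_nonneg (by positivity) (hK i z hz)) _
    have h2 : (n : ℝ) * c' ≤ n * c := mul_le_mul_of_nonneg_left hc (by positivity)
    exact mul_le_mul_of_nonneg_right h2 h1

theorem dg_pos (K : Kah A) {i : A.ι} {z : Cn n} (hz : z ∈ (A.e i).target) : 0 < dg K i z :=
  det_re_pos (K.pos i _ ((A.e i).map_target hz))

/-- the Kaehler form is given by the potentials of a form `κ`: then the error term can be moved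
into the form -/
theorem Smooth.absorb {K : Kah A} {γ κ : Pot A} {c e : ℝ} {φ : M → ℝ} (h : Smooth K γ c e φ)
    (hκ : ∀ i, ∀ z ∈ (A.e i).target, ∀ v, lv (κ.w i) z v / 4 = om K i z v) :
    Smooth K (γ.add (κ.smul e)) c 0 φ where
  sm := h.sm
  ma i z hz b := by
    refine le_trans (h.ma i z hz b) (le_of_eq ?_)
    have hφ : ContDiffAt ℝ 2 (fun y => φ ((A.e i).symm y)) z :=
      contDiffAt_two ((h.sm i).contDiffAt ((A.e i).open_target.mem_nhds hz))
    have hγ := contDiffAt_two (γ.contDiffAt hz)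
    have hk := contDiffAt_two (κ.contDiffAt hz)
    have e1 : (fun y => (γ.add (κ.smul e)).w i y + φ ((A.e i).symm y)) =
        fun y => (γ.w i y + φ ((A.e i).symm y)) + e * κ.w i y := by
      funext y
      simp only [Pot.add_w, Pot.smul_w]
      ring
    rw [e1, trb_add (hγ.add hφ) (contDiffAt_const.mul hk), trb_const_mul hk]
    simp only [trb, hκ i z hz, zero_mul, add_zero]
  pos i z hz v hv := by
    have hφ : ContDiffAt ℝ 2 (fun y => φ ((A.e i).symm y)) z :=
      contDiffAt_two ((h.sm i).contDiffAt ((A.e i).open_target.mem_nhds hz))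
    have hγ := contDiffAt_two (γ.contDiffAt hz)
    have hk := contDiffAt_two (κ.contDiffAt hz)
    have e1 : (fun y => (γ.add (κ.smul e)).w i y + φ ((A.e i).symm y)) =
        fun y => (γ.w i y + φ ((A.e i).symm y)) + e * κ.w i y := by
      funext y
      simp only [Pot.add_w, Pot.smul_w]
      ring
    have h1 := h.pos i z hz v hv
    rw [e1, Crest.Agent.R269.GlueB_390.lv_add (hγ.add hφ) (contDiffAt_const.mul hk),
      Crest.Agent.R269.GlueB_390.lv_const_mul hk]
    rw [← hκ i z hz v] at h1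
    refine lt_of_lt_of_eq h1 ?_
    ring

end

end Crest.Agent.R269.RegStmt_848
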