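import Crest.Agent.R269.AdjLoc_851
import Crest.Agent.R269.RegPot_848
import Crest.Agent.R269.DetIneq_271
import Crest.Agent.R273.Vm_333

/-!
# R269 (S0411), task WEAK84 (helper411): (8.4) of Blueprint_646

From the dual measure of Parts 8 / 12 (inequality for all positive smooth fields) to the weak
inequality `RegStmt_848.Weak` in charts.

* `mp_cc`          : `cc : (RI n → ℝ) → Cn n` preserves the volume;
* `integral_vmK`   : integrals over a chart domain for `vm (volK K)`;
* `mat_tn`         : the matrix of a potential form is a covariant field of matrices;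
* `psd_of_pos`     : from positive definite to positive semidefinite fields (`s + δ g⁻¹`);
* `weak_of_psd`    : (8.4) from the inequality for semidefinite fields, by the chart fields
  `χ b bᴴ / det g` (`exists_chF`, from `AdjLoc_851.chF`);
* **`weak_of_pos`** : (8.4) from the inequality for positive definite fields.
-/

set_option autoImplicit false
set_option linter.unusedSectionVars false

open Set Filter Topology Complex MeasureTheory
open scoped ContDiff Matrix ComplexConjugate ComplexOrder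

namespace Crest.Agent.R269.Weak_411

open Crest.Agent.R275 Crest.Agent.R275.Geo Crest.Agent.R275.Core144 Crest.Agent.R275.EDR890
open Crest.Agent.R275.C1d194
open Crest.Agent.R273.Defs_333 Crest.Agent.R273.Hess_333 Crest.Agent.R273.HessB_333
open Crest.Agent.R273.HM_333 Crest.Agent.R273.Kah_333 Crest.Agent.R273.Vol_333
open Crest.Agent.R273.Vm_333 Crest.Agent.R269.Fld_851 Crest.Agent.R269.RegStmt_848
open Crest.Agent.R269.Adj_851
open Crest.Agent.R273.C0d_390 (lv)
open Crest.Agent.R273.GreenM_5 (mem_ci ci)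

noncomputable section

/-! ### real coordinates preserve the volume -/

/-- `cc` as a linear isometry from the Euclidean space of real coordinates -/
def ccI (n : ℕ) : EuclideanSpace ℝ (RI n) ≃ₗᵢ[ℝ] Cn n where
  toFun x := cc (WithLp.ofLp x)
  invFun z := WithLp.toLp 2 (rc z)
  left_inv x := by
    apply (WithLp.ofLp_injective 2)
    exact rc_cc _
  right_inv z := by
    exact cc_rc z
  map_add' x y := by
    ext a
    simp only [cc_apply, WithLp.ofLp_add, Pi.add_apply, PiLp.add_apply]
    push_cast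
    ring
  map_smul' c x := by
    ext a
    simp only [cc_apply, WithLp.ofLp_smul, Pi.smul_apply, PiLp.smul_apply, smul_eq_mul,
      RingHom.id_apply, Complex.real_smul]
    push_cast
    ring
  norm_map' x := by
    change ‖cc (WithLp.ofLp x)‖ = ‖x‖
    rw [EuclideanSpace.norm_eq, EuclideanSpace.norm_eq]
    congr 1
    rw [Fintype.sum_prod_type]
    refine Finset.sum_congr rfl fun a _ => ?_
    rw [Fin.sum_univ_two, cc_apply, ← Complex.normSq_eq_norm_sq, Complex.normSq_apply]
    simp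
    ring

theorem mp_cc (n : ℕ) : MeasurePreserving (cc : (RI n → ℝ) → Cn n) volume volume := by
  have h1 := (ccI n).measurePreserving
  have h2 := h1.comp (PiLp.volume_preserving_toLp (RI n))
  exact h2

theorem me_cc (n : ℕ) : MeasurableEmbedding (cc : (RI n → ℝ) → Cn n) := by
  let e : (RI n → ℝ) ≃ₜ Cn n :=
    { toFun := cc
      invFun := rc
      left_inv := rc_cc
      right_inv := cc_rc
      continuous_toFun := continuous_cc
      continuous_invFun := by
        rw [rc_eq]
        exact (rcL n).continuous }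
  exact e.measurableEmbedding

variable {n : ℕ} {M : Type} [TopologicalSpace M] {A : Atl n M}

theorem setIntegral_cc (S : Set (Cn n)) (f : Cn n → ℝ) :
    ∫ y in (cc : (RI n → ℝ) → Cn n) ⁻¹' S, f (cc y) = ∫ z in S, f z :=
  (mp_cc n).setIntegral_preimage_emb (me_cc n) f S

theorem setIntegral_Ui (i : A.ι) (f : Cn n → ℝ) :
    ∫ y in Ui A i, f (cc y) = ∫ z in (A.e i).target, f z :=
  setIntegral_cc (A.e i).target f

/-! ### the matrix of a potential form -/

/-- polarisation -/
theorem eq_zero_of_qf {H : Matrix (Fin n) (Fin n) ℂ} (h : ∀ v, qf H v = 0) : H = 0 := by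
  have hs : ∀ (a b : Fin n) (s : ℂ), qf H (EuclideanSpace.single a 1 + s • EuclideanSpace.single b 1)
      = H a a + conj s * H a b + s * H b a + s * conj s * H b b := by
    intro a b s
    have h1 : ∀ v : Cn n, qf H v = (fun a => v a) ⬝ᵥ (H *ᵥ fun b => conj (v b)) := qf_eq_dot H
    rw [h1]
    have e1 : (fun c => (EuclideanSpace.single a (1 : ℂ) + s • EuclideanSpace.single b (1 : ℂ) :
        Cn n) c) = Pi.single a 1 + s • Pi.single b 1 := by
      funext c
      simp [Pi.single_apply]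
    have e2 : (fun c => conj ((EuclideanSpace.single a (1 : ℂ) + s • EuclideanSpace.single b (1 : ℂ) :
        Cn n) c)) = Pi.single a 1 + conj s • Pi.single b 1 := by
      funext c
      simp [Pi.single_apply, apply_ite conj]
    rw [e1, e2]
    simp only [Matrix.mulVec_add, Matrix.mulVec_smul, Matrix.mulVec_single_one, dotProduct_add,
      add_dotProduct, smul_dotProduct, dotProduct_smul, single_one_dotProduct, smul_eq_mul,
      Matrix.col_apply]
    ring
  have hd : ∀ a, H a a = 0 := by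
    intro a
    have := hs a a 0
    rw [h] at this
    simpa using this.symm
  ext a b
  have h1 := hs a b 1
  have h2 := hs a b I
  rw [h] at h1 h2
  simp only [map_one, one_mul, hd, Complex.conj_I] at h1 h2
  have h3 : H b a = - H a b := by linear_combination -h1
  rw [h3] at h2
  have h4 : I * H a b = 0 := by linear_combination (1 / 2) * h2
  have h5 := (mul_eq_zero.1 h4).resolve_left Complex.I_ne_zero
  simpa using h5

/-- a Hermitian matrix is determined by the real part of its quadratic form -/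
theorem eq_of_qf_re {H H' : Matrix (Fin n) (Fin n) ℂ} (hH : H.IsHermitian) (hH' : H'.IsHermitian)
    (h : ∀ v, (qf H v).re = (qf H' v).re) : H = H' := by
  have hr : ∀ (G : Matrix (Fin n) (Fin n) ℂ), G.IsHermitian → ∀ v, (qf G v).im = 0 := by
    intro G hG v
    have h1 : conj (qf G v) = qf G v := by
      unfold qf
      simp only [map_sum, map_mul, Complex.conj_conj]
      rw [Finset.sum_comm]
      refine Finset.sum_congr rfl fun a _ => Finset.sum_congr rfl fun b _ => ?_
      have h2 : conj (G b a) = G a b := hG.apply a b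
      rw [h2]
      ring
    have h2 := congrArg Complex.im h1
    rw [Complex.conj_im] at h2
    linarith
  have h1 : H - H' = 0 := by
    refine eq_zero_of_qf fun v => ?_
    have h2 : qf (H - H') v = qf H v - qf H' v := by
      unfold qf
      rw [← Finset.sum_sub_distrib]
      refine Finset.sum_congr rfl fun a _ => ?_
      rw [← Finset.sum_sub_distrib]
      refine Finset.sum_congr rfl fun b _ => ?_
      rw [Matrix.sub_apply]
      ring
    rw [h2]
    apply Complex.ext
    · simp [h v]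
    · simp [hr H hH v, hr H' hH' v]
  exact sub_eq_zero.1 h1

theorem mat_herm (γ : Pot A) {i : A.ι} {x : M} (hx : x ∈ (A.e i).source) :
    (γ.mat i x).IsHermitian := hess_herm (γ.contDiffAt ((A.e i).map_source hx))

theorem mat_tn (γ : Pot A) : Crest.Agent.R273.GreenM_5.Tn A γ.mat := by
  intro i j x hx
  have hz : A.e i x ∈ A.ov i j := mem_ov hx
  have hxe : (A.e i).symm (A.e i x) = x := (A.e i).left_inv hx.1
  have hh : ((Jm A i j x)ᵀ * γ.mat j x * (Jm A i j x).map conj).IsHermitian := by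
    have h1 : (Jm A i j x).map conj = ((Jm A i j x)ᵀ)ᴴ := rfl
    rw [h1]
    exact Matrix.isHermitian_mul_mul_conjTranspose _ (mat_herm γ hx.2)
  refine eq_of_qf_re (mat_herm γ hx.1) hh fun v => ?_
  have h1 := γ.lv_eq hz.1 v
  have h2 := γ.lv_eq (mem_target_of_ov hz) (fderiv ℂ (fun y => A.e j ((A.e i).symm y)) (A.e i x) v)
  have h3 := γ.tr i j (A.e i x) hz v
  have h4 := qf_tr (γ.mat j x) (Jm A i j x) (v := v)
    (w := fderiv ℂ (fun y => A.e j ((A.e i).symm y)) (A.e i x) v)
    (by
      intro b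
      have h5 := fderiv_trans i j hz v b
      rw [hxe] at h5
      exact h5)
  rw [hxe] at h1
  rw [hxe, (A.e j).left_inv hx.2] at h2
  rw [hxe] at h3
  rw [h4, ← h1, ← h2, h3]

theorem mat_smAt (γ : Pot A) (i : A.ι) (a b : Fin n) : A.SmAt i (fun x => γ.mat i x a b) := by
  refine (contDiffOn_hess (A.e i).open_target (γ.sm i) a b).congr fun z hz => ?_
  simp only [Pot.mat, (A.e i).right_inv hz]

variable [MeasurableSpace M] [BorelSpace M]

/-- integral over a chart domain -/
theorem setIntegral_vmK [Countable A.ι] (K : Kah A) (i : A.ι) {f : M → ℝ}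
    (hf : AEStronglyMeasurable f (vm (volK K))) :
    ∫ x in (A.e i).source, f x ∂(vm (volK K)) =
      ∫ z in (A.e i).target, dg K i z * f ((A.e i).symm z) := by
  rw [setIntegral_vm (volK K) i hf, ← setIntegral_Ui i]
  rfl

/-- integral of a function which vanishes off a chart domain -/
theorem integral_vmK [Countable A.ι] (K : Kah A) (i : A.ι) {f : M → ℝ}
    (hf : AEStronglyMeasurable f (vm (volK K))) (h0 : ∀ x ∉ (A.e i).source, f x = 0) :
    ∫ x, f x ∂(vm (volK K)) = ∫ z in (A.e i).target, dg K i z * f ((A.e i).symm z) := by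
  rw [← setIntegral_vmK K i hf]
  exact (setIntegral_eq_integral_of_forall_compl_eq_zero h0).symm

/-! ### chart fields -/

/-- `s` is the chart field `χ b bᴴ / det g` of the chart `i` -/
structure ChF (K : Kah A) (i : A.ι) (χ : Cn n → ℝ) (b : Matrix (Fin n) (Fin n) ℂ) (s : Fld A) :
    Prop where
  on : ∀ x ∈ (A.e i).source, s.1 i x = (χ (A.e i x) / dg K i (A.e i x)) • (b * bᴴ)
  off : ∀ j, ∀ x ∈ (A.e j).source, x ∉ (A.e i).source → s.1 j x = 0

section ChF

variable {K : Kah A} {i : A.ι} {χ : Cn n → ℝ} {b : Matrix (Fin n) (Fin n) ℂ} {s : Fld A}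

theorem ChF.psd (h : ChF K i χ b s) (hχ : ∀ z, 0 ≤ χ z) :
    ∀ j, ∀ x ∈ (A.e j).source, (s.1 j x).PosSemidef := by
  intro j x hx
  by_cases hi : x ∈ (A.e i).source
  · rw [s.2.tc i j x ⟨hi, hx⟩, h.on x hi]
    have h1 : 0 ≤ χ (A.e i x) / dg K i (A.e i x) :=
      div_nonneg (hχ _) (dg_pos K ((A.e i).map_source hi)).le
    have h2 : ((χ (A.e i x) / dg K i (A.e i x)) • (b * bᴴ)).PosSemidef :=
      (Matrix.posSemidef_self_mul_conjTranspose b).smul h1
    exact h2.mul_mul_conjTranspose_same _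
  · rw [h.off j x hx hi]
    exact Matrix.PosSemidef.zero

theorem prF_bb (t : ℝ) (b β : Matrix (Fin n) (Fin n) ℂ) :
    (∑ a, ∑ c, (t • (b * bᴴ)) a c * β a c) = t * ∑ k, qf β (col b k) := by
  have h1 : ∀ a c, (t • (b * bᴴ)) a c * β a c =
      ∑ k, (t : ℂ) * (β a c * (col b k) a * conj ((col b k) c)) := by
    intro a c
    rw [Matrix.smul_apply, Matrix.mul_apply, Complex.real_smul, Finset.mul_sum, Finset.sum_mul]
    refine Finset.sum_congr rfl fun k _ => ?_
    simp only [col, Matrix.conjTranspose_apply, RCLike.star_def]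
    ring
  simp only [h1]
  rw [Finset.sum_congr rfl fun a _ => Finset.sum_comm, Finset.sum_comm]
  rw [Finset.mul_sum]
  refine Finset.sum_congr rfl fun k _ => ?_
  unfold qf
  rw [Finset.mul_sum]
  refine Finset.sum_congr rfl fun a _ => ?_
  rw [Finset.mul_sum]

theorem ChF.tr_on (h : ChF K i χ b s) (γ : Pot A) {x : M} (hx : x ∈ (A.e i).source) :
    dg K i (A.e i x) * trF s.1 γ.mat x = χ (A.e i x) * trb (γ.w i) (A.e i x) b := by
  rw [trF_eq s.2.tc (mat_tn γ) hx]
  have h1 : prF s.1 γ.mat i x = ((χ (A.e i x) / dg K i (A.e i x) : ℝ) : ℂ) *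
      ∑ k, qf (γ.mat i x) (col b k) := by
    unfold prF
    rw [h.on x hx]
    exact prF_bb _ b (γ.mat i x)
  rw [h1, Complex.re_ofReal_mul, Complex.re_sum]
  have h2 : ∀ k, (qf (γ.mat i x) (col b k)).re = lv (γ.w i) (A.e i x) (col b k) / 4 := by
    intro k
    have h3 := γ.lv_eq ((A.e i).map_source hx) (col b k)
    rw [(A.e i).left_inv hx] at h3
    exact h3.symm
  simp only [h2]
  have h3 := dg_pos K ((A.e i).map_source hx)
  unfold trb
  field_simp

theorem ChF.tr_off (h : ChF K i χ b s) (γ : Pot A) {x : M} (hx : x ∉ (A.e i).source) :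
    trF s.1 γ.mat x = 0 := by
  unfold trF prF
  rw [h.off _ x (mem_ci x) hx]
  simp

theorem ChF.rt_on [NeZero n] (h : ChF K i χ b s) (hχ : ∀ z, 0 ≤ χ z) {x : M}
    (hx : x ∈ (A.e i).source) :
    dg K i (A.e i x) * rtF K s.1 x =
      χ (A.e i x) * (‖b.det‖ ^ 2 * dg K i (A.e i x)) ^ ((1 : ℝ) / n) := by
  have h3 := dg_pos K ((A.e i).map_source hx)
  have h0 := hχ (A.e i x)
  unfold rtF
  rw [dtF_mul K s.2.tc hx (s.2.herm i x), h.on x hx]
  have h1 : ((χ (A.e i x) / dg K i (A.e i x)) • (b * bᴴ)).det.re =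
      (χ (A.e i x) / dg K i (A.e i x)) ^ n * ‖b.det‖ ^ 2 := by
    have h2 : ((χ (A.e i x) / dg K i (A.e i x)) • (b * bᴴ)) =
        ((χ (A.e i x) / dg K i (A.e i x) : ℝ) : ℂ) • (b * bᴴ) := by
      ext a c
      simp only [Matrix.smul_apply, Complex.real_smul, smul_eq_mul]
    rw [h2, Matrix.det_smul, Matrix.det_mul, Matrix.det_conjTranspose, Fintype.card_fin,
      RCLike.star_def, Complex.mul_conj, Complex.normSq_eq_norm_sq, ← Complex.ofReal_pow,
      ← Complex.ofReal_mul, Complex.ofReal_re]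
  have h4 : (K.g i x).det.re = dg K i (A.e i x) := by
    unfold dg
    rw [(A.e i).left_inv hx]
  rw [h1, h4, mul_assoc, Real.mul_rpow (by positivity) (by positivity)]
  have h5 : ((χ (A.e i x) / dg K i (A.e i x)) ^ n) ^ ((1 : ℝ) / n) =
      χ (A.e i x) / dg K i (A.e i x) := by
    rw [one_div]
    exact Real.pow_rpow_inv_natCast (div_nonneg h0 h3.le) (NeZero.ne n)
  rw [h5]
  field_simp

theorem ChF.rt_off [NeZero n] (h : ChF K i χ b s) {x : M} (hx : x ∉ (A.e i).source) :
    rtF K s.1 x = 0 := by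
  unfold rtF dtF
  rw [h.off _ x (mem_ci x) hx]
  have : Nonempty (Fin n) := ⟨0⟩
  have h1 : (0 : Matrix (Fin n) (Fin n) ℂ).det = 0 := Matrix.det_zero
  rw [h1, zero_mul, Complex.zero_re, Real.zero_rpow]
  have : (n : ℝ) ≠ 0 := by exact_mod_cast NeZero.ne n
  positivity

end ChF

/-! ### from positive definite to positive semidefinite fields -/

section Meas

variable [T2Space M] [CompactSpace M] [Finite A.ι]

theorem continuous_trF {s : Fld A} (γ : Pot A) : Continuous (trF s.1 γ.mat) :=
  sm_continuous (sm_trF s.2.tc (mat_tn γ) s.2.sm (mat_smAt γ))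

theorem continuous_dtF (K : Kah A) {s : Fld A} : Continuous (dtF K s.1) :=
  sm_continuous (sm_dtF K s.2.tc s.2.sm)

theorem continuous_rtF (K : Kah A) {s : Fld A} : Continuous (rtF K s.1) := by
  unfold rtF
  exact (continuous_dtF K).rpow_const fun x => Or.inr (by positivity)

theorem det_mono {S G : Matrix (Fin n) (Fin n) ℂ} (hS : S.PosSemidef) (hG : G.PosSemidef) :
    S.det.re ≤ (S + G).det.re := by
  rcases n.eq_zero_or_pos with hn | hn
  · subst hn
    simp
  have hne : Nonempty (Fin n) := ⟨⟨0, hn⟩⟩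
  have h1 := Crest.Agent.R269.DetIneq271.dn_mono hS (by rw [add_sub_cancel_left]; exact hG :
    (S + G - S).PosSemidef)
  have h2 : 0 ≤ S.det.re := (Complex.le_def.1 hS.det_nonneg).1
  have h3 : 0 ≤ (S + G).det.re := (Complex.le_def.1 (hS.add hG).det_nonneg).1
  unfold Crest.Agent.R269.DetIneq271.dn at h1
  exact (Real.rpow_le_rpow_iff h2 h3 (by positivity)).1 h1

theorem posDef_add_gI (K : Kah A) {s : Fld A}
    (hs : ∀ i, ∀ x ∈ (A.e i).source, (s.1 i x).PosSemidef) {δ : ℝ} (hδ : 0 < δ) :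
    ∀ i, ∀ x ∈ (A.e i).source, ((s + δ • gIF K).1 i x).PosDef := by
  intro i x hx
  have h1 : (δ • gI K i x).PosDef := (gI_posDef K hx).smul hδ
  exact Matrix.PosDef.posSemidef_add (hs i x hx) h1

theorem rtF_mono (K : Kah A) {s : Fld A}
    (hs : ∀ i, ∀ x ∈ (A.e i).source, (s.1 i x).PosSemidef) {δ : ℝ} (hδ : 0 < δ) (x : M) :
    rtF K s.1 x ≤ rtF K (s + δ • gIF K).1 x := by
  have hx := mem_ci (A := A) x
  have h1 := dtF_nonneg K s.2.tc hx (hs _ x hx)
  unfold rtF
  refine Real.rpow_le_rpow h1 ?_ (by positivity)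
  rw [dtF_mul K s.2.tc hx (s.2.herm _ x), dtF_mul K (s + δ • gIF K).2.tc hx
    ((s + δ • gIF K).2.herm _ x)]
  refine mul_le_mul_of_nonneg_right ?_ (det_re_pos (K.pos _ x hx)).le
  exact det_mono (hs _ x hx) ((gI_posDef K hx).smul hδ).posSemidef

/-- the inequality for positive definite fields implies the one for semidefinite fields -/
theorem psd_of_pos (K : Kah A) (P : Part A) (γ : Pot A) {c : ℝ} (hc : 0 ≤ c) (μ : Measure M)
    [IsFiniteMeasure μ]
    (hU : ∀ s : Fld A, (∀ i, ∀ x ∈ (A.e i).source, (s.1 i x).PosDef) →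
      c * ∫ x, rtF K s.1 x ∂(vm (volK K)) ≤
        ∫ x, trF s.1 γ.mat x ∂(vm (volK K)) + ∫ x, rho K P s.1 x ∂μ)
    (s : Fld A) (hs : ∀ i, ∀ x ∈ (A.e i).source, (s.1 i x).PosSemidef) :
    c * ∫ x, rtF K s.1 x ∂(vm (volK K)) ≤
        ∫ x, trF s.1 γ.mat x ∂(vm (volK K)) + ∫ x, rho K P s.1 x ∂μ := by
  have hint : ∀ {F : M → ℝ}, Continuous F → Integrable F (vm (volK K)) :=
    fun hF => integrable_cont _ hF
  refine le_of_forall_pos_le_add fun e he => ?_
  set T : ℝ := ∫ x, trF (gIF K).1 γ.mat x ∂(vm (volK K)) with hT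
  set δ : ℝ := e / (|T| + 1) with hδ
  have hδ0 : 0 < δ := by positivity
  have h1 := hU (s + δ • gIF K) (posDef_add_gI K hs hδ0)
  have h2 : ∫ x, rtF K s.1 x ∂(vm (volK K)) ≤ ∫ x, rtF K (s + δ • gIF K).1 x ∂(vm (volK K)) :=
    integral_mono (hint (continuous_rtF K)) (hint (continuous_rtF K)) (rtF_mono K hs hδ0)
  have h3 : ∫ x, trF (s + δ • gIF K).1 γ.mat x ∂(vm (volK K)) =
      ∫ x, trF s.1 γ.mat x ∂(vm (volK K)) + δ * T := by
    rw [hT, ← integral_const_mul, ← integral_add (hint (continuous_trF γ))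
      ((hint (continuous_trF γ)).const_mul δ)]
    refine integral_congr_ae (Eventually.of_forall fun x => ?_)
    change trF (s.1 + δ • (gIF K).1) γ.mat x = _
    rw [trF_add_left, trF_smul_left]
  have h4 : ∀ x, rho K P (s + δ • gIF K).1 x = rho K P s.1 x := by
    intro x
    have e1 : rho K P (s.1 + δ • (gIF K).1) x = rho K P s.1 x + rho K P (δ • (gIF K).1) x :=
      rho_add K P s.2 (δ • gIF K).2 x
    have e2 : rho K P (δ • (gIF K).1) x = δ * rho K P (gIF K).1 x := rho_smul K P δ (gIF K).2 x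
    have e3 : rho K P (gIF K).1 x = 0 := rho_gI K P x
    change rho K P (s.1 + δ • (gIF K).1) x = _
    rw [e1, e2, e3, mul_zero, add_zero]
  simp only [h3, h4] at h1
  have h5 : δ * T ≤ e := by
    have h6 : T ≤ |T| + 1 := by linarith [le_abs_self T]
    calc δ * T ≤ δ * (|T| + 1) := mul_le_mul_of_nonneg_left h6 hδ0.le
      _ = e := by rw [hδ]; field_simp
  have h6 := mul_le_mul_of_nonneg_left h2 hc
  linarith

/-- **(8.4)**, from the inequality for semidefinite fields -/
theorem weak_of_psd [NeZero n] (K : Kah A) (P : Part A) (γ : Pot A) (c : ℝ) (μ : Measure M)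
    [IsFiniteMeasure μ]
    (hU : ∀ s : Fld A, (∀ i, ∀ x ∈ (A.e i).source, (s.1 i x).PosSemidef) →
      n * c * ∫ x, rtF K s.1 x ∂(vm (volK K)) ≤
        ∫ x, trF s.1 γ.mat x ∂(vm (volK K)) + ∫ x, rho K P s.1 x ∂μ)
    (hcf : ∀ (i : A.ι) (χ : Cn n → ℝ), ContDiff ℝ ∞ χ → HasCompactSupport χ →
      tsupport χ ⊆ (A.e i).target → ∀ b : Matrix (Fin n) (Fin n) ℂ, ∃ s : Fld A, ChF K i χ b s ∧
        (∀ x ∈ (A.e i).source, rho K P s.1 x = trb χ (A.e i x) b / dg K i (A.e i x)) ∧
        ∀ x ∉ (A.e i).source, rho K P s.1 x = 0) :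
    Weak K γ c μ := by
  intro i χ hχ hχc hχs hχ0 b
  obtain ⟨s, hs, hρ, hρ0⟩ := hcf i χ hχ hχc hχs b
  have h1 := hU s (hs.psd hχ0)
  have hout : ∀ z ∉ (A.e i).target, χ z = 0 := fun z hz =>
    image_eq_zero_of_notMem_tsupport fun h => hz (hχs h)
  have e1 : ∫ x, rtF K s.1 x ∂(vm (volK K)) =
      ∫ z, χ z * (‖b.det‖ ^ 2 * dg K i z) ^ ((1 : ℝ) / n) := by
    have hR : ∫ z in (A.e i).target, χ z * (‖b.det‖ ^ 2 * dg K i z) ^ ((1 : ℝ) / n) =
        ∫ z, χ z * (‖b.det‖ ^ 2 * dg K i z) ^ ((1 : ℝ) / n) :=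
      setIntegral_eq_integral_of_forall_compl_eq_zero fun z hz => by rw [hout z hz, zero_mul]
    rw [integral_vmK K i (continuous_rtF K).aestronglyMeasurable fun x hx => hs.rt_off hx, ← hR]
    refine setIntegral_congr_fun (A.e i).open_target.measurableSet fun z hz => ?_
    have h2 := hs.rt_on hχ0 ((A.e i).map_target hz)
    rw [(A.e i).right_inv hz] at h2
    exact h2
  have e2 : ∫ x, trF s.1 γ.mat x ∂(vm (volK K)) = ∫ z, χ z * trb (γ.w i) z b := by
    have hR : ∫ z in (A.e i).target, χ z * trb (γ.w i) z b = ∫ z, χ z * trb (γ.w i) z b :=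
      setIntegral_eq_integral_of_forall_compl_eq_zero fun z hz => by rw [hout z hz, zero_mul]
    rw [integral_vmK K i (continuous_trF γ).aestronglyMeasurable fun x hx => hs.tr_off γ hx, ← hR]
    refine setIntegral_congr_fun (A.e i).open_target.measurableSet fun z hz => ?_
    have h2 := hs.tr_on γ ((A.e i).map_target hz)
    rw [(A.e i).right_inv hz] at h2
    exact h2
  have e3 : ∫ x, rho K P s.1 x ∂μ =
      ∫ x in (A.e i).source, trb χ (A.e i x) b / dg K i (A.e i x) ∂μ := by
    rw [← setIntegral_eq_integral_of_forall_compl_eq_zero (s := (A.e i).source) hρ0]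
    exact setIntegral_congr_fun (A.e i).open_source.measurableSet fun x hx => hρ x hx
  rw [e1, e2, e3] at h1
  linarith

theorem exists_chF (K : Kah A) (P : Part A) (i : A.ι) {χ : Cn n → ℝ} (hχ : ContDiff ℝ ∞ χ)
    (hc : HasCompactSupport χ) (ht : tsupport χ ⊆ (A.e i).target)
    (b : Matrix (Fin n) (Fin n) ℂ) : ∃ s : Fld A, ChF K i χ b s ∧
      (∀ x ∈ (A.e i).source, rho K P s.1 x = trb χ (A.e i x) b / dg K i (A.e i x)) ∧
      ∀ x ∉ (A.e i).source, rho K P s.1 x = 0 := by
  have hB : (b * bᴴ).IsHermitian := Matrix.isHermitian_mul_conjTranspose_self b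
  have hd : ∀ x ∈ (A.e i).source, dg K i (A.e i x) = (K.g i x).det.re := by
    intro x hx
    unfold dg
    rw [(A.e i).left_inv hx]
  refine ⟨⟨AdjLoc_851.chF K i χ (b * bᴴ), AdjLoc_851.isFld_chF K hχ hc ht hB⟩, ⟨?_, ?_⟩, ?_, ?_⟩
  · intro x hx
    change AdjLoc_851.chF K i χ (b * bᴴ) i x = _
    rw [AdjLoc_851.chF_self K χ _ hx, hd x hx]
    ext a c
    simp only [Matrix.smul_apply, Complex.real_smul, smul_eq_mul]
  · intro j x _ hx
    exact AdjLoc_851.chF_off K _ fun h => hx (AdjLoc_851.cs_sub ht h)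
  · intro x hx
    change rho K P (AdjLoc_851.chF K i χ (b * bᴴ)) x = _
    rw [AdjLoc_851.rho_chF K P hχ hc ht hB hx, hd x hx]
    congr 1
    have h1 := prF_bb 1 b (hess χ (A.e i x))
    rw [one_smul, Complex.ofReal_one, one_mul] at h1
    rw [h1, Complex.re_sum]
    unfold trb
    exact Finset.sum_congr rfl fun k _ => (lv_eq_qf hχ.contDiffAt (col b k)).symm
  · intro x hx
    exact AdjLoc_851.rho_chF_not K P hc ht _ hx

/-- **(8.4)**, from the inequality for positive definite fields -/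
theorem weak_of_pos [NeZero n] (K : Kah A) (P : Part A) (γ : Pot A) {c : ℝ} (hc : 0 ≤ c)
    (μ : Measure M) [IsFiniteMeasure μ]
    (hU : ∀ s : Fld A, (∀ i, ∀ x ∈ (A.e i).source, (s.1 i x).PosDef) →
      n * c * ∫ x, rtF K s.1 x ∂(vm (volK K)) ≤
        ∫ x, trF s.1 γ.mat x ∂(vm (volK K)) + ∫ x, rho K P s.1 x ∂μ) :
    Weak K γ c μ :=
  weak_of_psd K P γ c μ (psd_of_pos K P γ (by positivity) μ hU)
    fun i _ hχ hχc hχs b => exists_chF K P i hχ hχc hχs b

end Meas

end

end Crest.Agent.R269.Weak_411
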