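import Crest.Agent.R269.DictD_886
import Crest.Agent.R269.RegAmb_848
import Crest.Agent.R269.Alp5_927
import Crest.Agent.R269.Adj_851
import Crest.Agent.R269.Weak_411

/-!
# R269 (S0411), leaf DICT-FLD, file E (helper886): the identities (F1)

`K = fsKah CA.projD`.
* `sum_eq_trF`    : `∑ q (b m) = tr (s β)` for any covariant form `β` with `q v = β(cd v)`;
* `Ids CA s p hp b` : the four identities of (F1) for the frame `b` and the chart field `s`;
* `ids_of_rp`     : they hold for every tangent frame representing `s`;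
* `F1_up`         : positive chart field ⇒ `PosField` with `Ids` for ALL representing frames;
* `F1_dn`         : `PosField` ⇒ positive chart field `dnF CA a` with `Ids`.
-/

set_option autoImplicit false
set_option linter.unusedSectionVars false

open MvPolynomial Crest.AlgGeometry.ProjEmb Set Filter Topology
open scoped ContDiff ComplexConjugate Matrix ComplexOrder

namespace Crest.Agent.R269.DictE_886

open Crest.Agent.R269.Geo_328 Crest.Agent.R275.Geo Crest.Agent.R269.CAtl_886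
open Crest.Agent.R269.DictA_886 Crest.Agent.R269.DictB_886 Crest.Agent.R269.DictC_886
open Crest.Agent.R269.DictD_886
open Crest.Agent.R275.Core144
open Crest.Agent.R273.Hess_333 Crest.Agent.R273.HessB_333 Crest.Agent.R273.Kah_333
open Crest.Agent.R273.FS_333 (fsKah sq fs)
open Crest.Agent.R269.Fld_851
open Crest.Agent.R269.Adj_851 (Lop)
open Crest.Agent.R273.GreenM_5 (Tn ci mem_ci)
open Crest.Agent.R269.Defs_58 (omg wedgeSq DD SmX TanFam Rep PosField alpha)
open Crest.Agent.R269.RegStmt_848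

noncomputable section

variable {N n : ℕ} {I : Ideal (HomCoordRing N)} {A : Atl n (XX I)} (CA : CAtl I A)

/-- sum of a Hermitian form over a representing frame -/
theorem sum_eq_trF {κ : Type*} [Fintype κ] {s β : A.ι → XX I → Matrix (Fin n) (Fin n) ℂ}
    (hs : Tc A s) (hβ : Tn A β) {p : EE N} {hp : p ∈ Cone I} {b : κ → EE N}
    (hb : Rp CA s p hp b) {i : A.ι} (hi : p ∈ CA.W i) {q : EE N → ℝ}
    (hq : ∀ m, q (b m) = (qf (β i (pt p hp)) (cd CA i p (b m))).re) :
    ∑ m, q (b m) = trF s β (pt p hp) := by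
  rw [trF_eq hs hβ ((CA.mem_W i p hp).1 hi), ← sum_eq_prF CA hb hi, Complex.re_sum]
  exact Finset.sum_congr rfl fun m _ => hq m

theorem omg_eq_qf (hX : IsSmoothProjective I n) {i : A.ι} {p v : EE N} (hp : p ∈ Cone I)
    (hi : p ∈ CA.W i) (hv : v ∈ Tan I p) :
    omg p v = (qf ((fsKah CA.projD).g i (pt p hp)) (cd CA i p v)).re := by
  have h1 := omB_eq_K CA hX hp hi hv hv
  rw [omB_self] at h1
  have h2 := congrArg Complex.re h1
  rw [Complex.ofReal_re] at h2
  exact h2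

/-- the vector `v` in the chart: 848's `Vec` with `w = cd CA i p v` -/
theorem vec_cd (hX : IsSmoothProjective I n) {i : A.ι} {p v : EE N} (hp : p ∈ Cone I)
    (hi : p ∈ CA.W i) (hv : v ∈ Tan I p) :
    ∃ c r : ℂ, RegAmb_848.Vec CA i c (CA.ζ i p) p v (cd CA i p v) r := by
  obtain ⟨c, hc, hpc⟩ := CA.eq_smul hp hi
  obtain ⟨r, hr⟩ := tan_decomp CA hX hi hc hpc hv
  refine ⟨c, r, hc, CA.ζ_mem i p hi, hpc, ?_⟩
  conv_lhs => rw [hr]
  rw [add_comm]

theorem alpha_eq_qf (hI : I.IsPrime) (hX : IsSmoothProjective I n) {i : A.ι} {p v : EE N}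
    (hp : p ∈ Cone I) (hi : p ∈ CA.W i) (hv : v ∈ Tan I p) :
    alpha I n p v = (qf ((Pot.can (fsKah CA.projD)).mat i (pt p hp)) (cd CA i p v)).re := by
  obtain ⟨c, r, h⟩ := vec_cd CA hX hp hi hv
  have hx := (CA.mem_W i p hp).1 hi
  rw [h.alpha_dict Alp_927.alphaFamStmt hI hX, Pot.lv_eq _ (CA.ζ_mem i p hi)]
  rw [← CA.ζ_e i p hp hi, (A.e i).left_inv hx]

theorem lev_eq_qf (hX : IsSmoothProjective I n) {u : EE N → ℝ} (hu : SmX I u)
    {i : A.ι} {p v : EE N} (hp : p ∈ Cone I) (hi : p ∈ CA.W i) (hv : v ∈ Tan I p) :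
    Defs_58.lev u p v = (qf (hsf A (dn u) i (pt p hp)) (cd CA i p v)).re := by
  have h1 := lev_eq_hess CA hX hu.1 (fun c hc p hp => hu.2 p hp c hc) hp hi hv
  have h2 := congrArg Complex.re h1
  rw [Complex.ofReal_re] at h2
  rw [RegAmb_848.lev58_eq]
  exact h2

/-- the identities of (F1) -/
structure Ids (s : A.ι → XX I → Matrix (Fin n) (Fin n) ℂ) (p : EE N) (hp : p ∈ Cone I)
    (b : Fin n → EE N) : Prop where
  dd : DD p b = dtF (fsKah CA.projD) s (pt p hp)
  rt : DD p b ^ ((n : ℝ)⁻¹) = rtF (fsKah CA.projD) s (pt p hp)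
  lev : ∀ u, SmX I u → ∑ m, Defs_58.lev u p (b m) = Lop s (dn u) (pt p hp)
  omg : ∑ m, omg p (b m) = trF s (fsKah CA.projD).g (pt p hp)
  alpha : ∑ m, alpha I n p (b m) = trF s (Pot.can (fsKah CA.projD)).mat (pt p hp)

theorem ids_of_rp (hI : I.IsPrime) (hX : IsSmoothProjective I n)
    {s : A.ι → XX I → Matrix (Fin n) (Fin n) ℂ} (hs : Tc A s) {p : EE N} {hp : p ∈ Cone I}
    {b : Fin n → EE N} (hb : Rp CA s p hp b) (hbT : ∀ m, b m ∈ Tan I p) : Ids CA s p hp b := by
  obtain ⟨i, hi⟩ := CA.exists_mem_W hp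
  have hdd : DD p b = dtF (fsKah CA.projD) s (pt p hp) := by
    rw [DictD_886.DD_eq hp.2, det_omB_eq_dtF CA hX hs hb hbT]
  refine ⟨hdd, ?_, fun u hu => ?_, ?_, ?_⟩
  · rw [hdd, rtF, one_div]
  · have hβ : Tn A (hsf A (dn (I := I) u)) := fun i j x hx =>
      hsf_tr (dn_sm CA hu.1 fun c hc p hp => hu.2 p hp c hc) hx
    exact sum_eq_trF CA hs hβ hb hi fun m => lev_eq_qf CA hX hu hp hi (hbT m)
  · exact sum_eq_trF CA hs (fun i j x hx => (fsKah CA.projD).tr i j x hx) hb hi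
      fun m => omg_eq_qf CA hX hp hi (hbT m)
  · exact sum_eq_trF CA hs (Weak_411.mat_tn _) hb hi fun m => alpha_eq_qf CA hI hX hp hi (hbT m)

include CA in
/-- (F1), from the charts to the ambient space -/
theorem F1_up [Finite A.ι] (P : Part A) (hI : I.IsPrime) (hX : IsSmoothProjective I n)
    {s : A.ι → XX I → Matrix (Fin n) (Fin n) ℂ} (hs : IsFld A s)
    (hpos : ∀ i, ∀ x ∈ (A.e i).source, (s i x).PosDef) :
    ∃ a : EE N → VV N, PosField I n a ∧
      (∀ p (hp : p ∈ Cone I) (b : Fin n → EE N), Rep I a p b → Ids CA s p hp b) ∧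
      (∀ p (hp : p ∈ Cone I) i, p ∈ CA.W i → a p = upM CA i p (s i (pt p hp))) ∧
      dnF CA a = s := by
  obtain ⟨a, ha, h1, h2⟩ := exists_up_field CA P hX hs hpos
  refine ⟨a, ha, fun p hp b hb => ids_of_rp CA hI hX hs.tc (h2 _ p hp b hb.2.2) hb.1, h1, ?_⟩
  funext i x
  by_cases hx : x ∈ (A.e i).source
  · have hp := CA.F_cone i x hx
    have hpt : pt (CA.F i x) hp = x := CA.pt_F hx
    rw [dnF_of CA a hx, h1 _ hp i (CA.F_mem_W hx), dnM_upM CA hp (CA.F_mem_W hx), hpt]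
  · rw [hs.off i x hx, (dnF_isFld CA hX ha).off i x hx]

/-- (F1), from the ambient space to the charts -/
theorem F1_dn (hI : I.IsPrime) (hX : IsSmoothProjective I n) {a : EE N → VV N}
    (ha : PosField I n a) : IsFld A (dnF CA a) ∧
      (∀ i, ∀ x ∈ (A.e i).source, (dnF CA a i x).PosDef) ∧
      ∀ p (hp : p ∈ Cone I) (b : Fin n → EE N), Rep I a p b → Ids CA (dnF CA a) p hp b :=
  ⟨dnF_isFld CA hX ha, dnF_posDef CA hX ha, fun _p hp _b hb =>
    ids_of_rp CA hI hX (dnF_isFld CA hX ha).tc (dnF_rp CA ha.hom hp hb.2.2) hb.1⟩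

include CA in
/-- smooth functions: from the charts to the ambient space -/
theorem exists_smX [Finite A.ι] (P : Part A) {f : XX I → ℝ} (hf : A.Sm f) :
    ∃ u, SmX I u ∧ (∀ p (hp : p ∈ Cone I), u p = f (pt p hp)) ∧ dn (I := I) u = f := by
  obtain ⟨u, h1, h2, h3⟩ := exists_up CA P hf
  refine ⟨u, ⟨h1, fun p _ c hc => h2 c hc p⟩, h3, ?_⟩
  funext x
  unfold dn
  rw [h3 _ (lift_cone x), pt_lift]

include CA in
/-- smooth functions: from the ambient space to the charts -/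
theorem dn_smX {u : EE N → ℝ} (hu : SmX I u) : A.Sm (dn (I := I) u) ∧
    ∀ p (hp : p ∈ Cone I), dn u (pt p hp) = u p :=
  ⟨dn_sm CA hu.1 fun c hc p hp => hu.2 p hp c hc,
    fun p hp => dn_pt (fun c hc p hp => hu.2 p hp c hc) p hp⟩

end

end Crest.Agent.R269.DictE_886
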