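import Mathlib

/-!
Leaf L10 of row 269: duality (Hahn-Banach + Riesz-Markov) producing a measure from a family of
inequalities.
-/

set_option autoImplicit false
noncomputable section

open MeasureTheory Set CompactlySupported CompactlySupportedContinuousMap

namespace Crest.Agent.R269.Dual271

section Functional

variable {X : Type*} [TopologicalSpace X] [CompactSpace X]
variable {V : Type*} [AddCommGroup V] [Module ℝ V]

/-- The admissible set whose infimum is the sublinear functional. -/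
def admSet (C : Set V) (D : V →ₗ[ℝ] C(X, ℝ)) (p : V → ℝ) (B : ℝ) (f : C(X, ℝ)) : Set ℝ :=
  {r | ∃ A ∈ C, ∃ M : ℝ, 0 ≤ M ∧ (∀ x, f x + D A x ≤ M) ∧ r = p A + B * M}

/-- Duality, functional form. -/
theorem exists_functional (C : Set V) (hne : C.Nonempty)
    (hadd : ∀ a ∈ C, ∀ b ∈ C, a + b ∈ C) (hsmul : ∀ t : ℝ, 0 < t → ∀ a ∈ C, t • a ∈ C)
    (D : V →ₗ[ℝ] C(X, ℝ)) (p : V → ℝ)
    (hpadd : ∀ a ∈ C, ∀ b ∈ C, p (a + b) ≤ p a + p b)
    (hpsmul : ∀ t : ℝ, 0 < t → ∀ a ∈ C, p (t • a) = t * p a)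
    (B : ℝ) (hB : 0 ≤ B)
    (h : ∀ A ∈ C, ∀ M : ℝ, 0 ≤ M → (∀ x, D A x ≤ M) → 0 ≤ p A + B * M) :
    ∃ l : C(X, ℝ) →ₗ[ℝ] ℝ, (∀ f : C(X, ℝ), 0 ≤ f → 0 ≤ l f) ∧ l 1 ≤ B ∧
      ∀ A ∈ C, 0 ≤ p A + l (D A) := by
  classical
  set q : C(X, ℝ) → ℝ := fun f => sInf (admSet C D p B f) with hq
  -- lower bound
  have hlow : ∀ f : C(X, ℝ), ∀ r ∈ admSet C D p B f, -(B * ‖f‖) ≤ r := by
    rintro f r ⟨A, hA, M, hM, hfM, rfl⟩
    have h1 : ∀ x, D A x ≤ M + ‖f‖ := by
      intro x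
      have h2 := hfM x
      have h3 : -‖f‖ ≤ f x := (abs_le.mp (f.norm_coe_le_norm x)).1
      linarith
    have := h A hA (M + ‖f‖) (by positivity) h1
    nlinarith
  have hbdd : ∀ f : C(X, ℝ), BddBelow (admSet C D p B f) := fun f => ⟨_, hlow f⟩
  obtain ⟨A₀, hA₀⟩ := hne
  have hnonempty : ∀ f : C(X, ℝ), (admSet C D p B f).Nonempty := by
    intro f
    refine ⟨p A₀ + B * (‖f‖ + ‖D A₀‖), A₀, hA₀, ‖f‖ + ‖D A₀‖, by positivity, ?_, rfl⟩
    intro x
    exact add_le_add ((le_abs_self _).trans (f.norm_coe_le_norm x))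
      ((le_abs_self _).trans ((D A₀).norm_coe_le_norm x))
  -- subadditivity
  have hqadd : ∀ f g : C(X, ℝ), q (f + g) ≤ q f + q g := by
    intro f g
    have key : ∀ r ∈ admSet C D p B f, ∀ s ∈ admSet C D p B g, q (f + g) ≤ r + s := by
      rintro r ⟨A, hA, M, hM, hfM, rfl⟩ s ⟨A', hA', M', hM', hgM, rfl⟩
      have hmem : p (A + A') + B * (M + M') ∈ admSet C D p B (f + g) := by
        refine ⟨A + A', hadd A hA A' hA', M + M', by positivity, ?_, rfl⟩
        intro x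
        have h1 := hfM x
        have h2 := hgM x
        simp only [map_add, ContinuousMap.add_apply]
        linarith
      have h1 : q (f + g) ≤ p (A + A') + B * (M + M') := csInf_le (hbdd _) hmem
      have h2 := hpadd A hA A' hA'
      linarith
    have h1 : ∀ r ∈ admSet C D p B f, q (f + g) - r ≤ q g := by
      intro r hr
      refine le_csInf (hnonempty g) ?_
      intro s hs
      have := key r hr s hs
      linarith
    have h2 : q (f + g) - q g ≤ q f := by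
      refine le_csInf (hnonempty f) ?_
      intro r hr
      have := h1 r hr
      linarith
    linarith
  -- homogeneity
  have hqhom_le : ∀ c : ℝ, 0 < c → ∀ f : C(X, ℝ), q (c • f) ≤ c * q f := by
    intro c hc f
    have h1 : ∀ r ∈ admSet C D p B f, q (c • f) / c ≤ r := by
      rintro r ⟨A, hA, M, hM, hfM, rfl⟩
      have hmem : p (c • A) + B * (c * M) ∈ admSet C D p B (c • f) := by
        refine ⟨c • A, hsmul c hc A hA, c * M, by positivity, ?_, rfl⟩
        intro x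
        have h1 := hfM x
        simp only [map_smul, ContinuousMap.smul_apply, smul_eq_mul]
        nlinarith
      have h2 : q (c • f) ≤ p (c • A) + B * (c * M) := csInf_le (hbdd _) hmem
      rw [hpsmul c hc A hA] at h2
      rw [div_le_iff₀ hc]
      nlinarith
    have h2 : q (c • f) / c ≤ q f := le_csInf (hnonempty f) h1
    rw [div_le_iff₀ hc] at h2
    linarith
  have hqhom : ∀ c : ℝ, 0 < c → ∀ f : C(X, ℝ), q (c • f) = c * q f := by
    intro c hc f
    refine le_antisymm (hqhom_le c hc f) ?_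
    have h1 := hqhom_le c⁻¹ (inv_pos.mpr hc) (c • f)
    rw [smul_smul, inv_mul_cancel₀ hc.ne', one_smul] at h1
    calc c * q f ≤ c * (c⁻¹ * q (c • f)) := mul_le_mul_of_nonneg_left h1 hc.le
      _ = q (c • f) := by field_simp
  -- upper bound
  have hqup : ∀ f : C(X, ℝ), ∀ M : ℝ, 0 ≤ M → (∀ x, f x ≤ M) → q f ≤ B * M := by
    intro f M hM hfM
    refine le_of_forall_pos_le_add ?_
    intro ε hε
    set K : ℝ := |p A₀| + B * ‖D A₀‖ + 1 with hK
    have hKpos : 0 < K := by positivity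
    have hmem : p ((ε / K) • A₀) + B * (M + (ε / K) * ‖D A₀‖) ∈ admSet C D p B f := by
      refine ⟨(ε / K) • A₀, hsmul _ (by positivity) A₀ hA₀, M + (ε / K) * ‖D A₀‖,
        by positivity, ?_, rfl⟩
      intro x
      simp only [map_smul, ContinuousMap.smul_apply, smul_eq_mul]
      have h1 : D A₀ x ≤ ‖D A₀‖ := (le_abs_self _).trans ((D A₀).norm_coe_le_norm x)
      have h2 : ε / K * D A₀ x ≤ ε / K * ‖D A₀‖ :=
        mul_le_mul_of_nonneg_left h1 (by positivity)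
      linarith [hfM x]
    have h1 : q f ≤ p ((ε / K) • A₀) + B * (M + (ε / K) * ‖D A₀‖) := csInf_le (hbdd _) hmem
    rw [hpsmul _ (by positivity) A₀ hA₀] at h1
    have h2 : ε / K * p A₀ ≤ ε / K * |p A₀| :=
      mul_le_mul_of_nonneg_left (le_abs_self _) (by positivity)
    have h3 : ε / K * |p A₀| + B * (ε / K * ‖D A₀‖) ≤ ε := by
      have : ε / K * |p A₀| + B * (ε / K * ‖D A₀‖) = ε / K * (K - 1) := by
        rw [hK]; ring
      rw [this, div_mul_eq_mul_div, div_le_iff₀ hKpos]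
      nlinarith
    linarith
  -- Hahn-Banach
  have hq0 : 0 ≤ q 0 := by
    have := hlow 0
    refine le_csInf (hnonempty 0) ?_
    intro r hr
    simpa using this r hr
  obtain ⟨l, -, hl⟩ := exists_extension_of_le_sublinear
    (E := C(X, ℝ)) (⟨⊥, 0⟩ : C(X, ℝ) →ₗ.[ℝ] ℝ) q hqhom hqadd (by
      rintro ⟨x, hx⟩
      rw [Submodule.mem_bot] at hx
      subst hx
      simpa using hq0)
  refine ⟨l, ?_, ?_, ?_⟩
  · intro f hf
    have h1 : l (-f) ≤ B * 0 := (hl _).trans (hqup (-f) 0 le_rfl (by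
      intro x
      have := hf x
      simpa using this))
    rw [map_neg] at h1
    linarith
  · have h1 : l 1 ≤ B * 1 := (hl _).trans (hqup 1 1 zero_le_one (by intro x; simp))
    linarith
  · intro A hA
    have h1 : l (-(D A)) ≤ p A + B * 0 := by
      refine (hl _).trans (csInf_le (hbdd _) ⟨A, hA, 0, le_rfl, ?_, rfl⟩)
      intro x
      simp
    rw [map_neg] at h1
    linarith

/-- The admissible set of the Slater (Lagrange multiplier) version. -/
def slaterSet (C : Set V) (F : V → C(X, ℝ)) (J : V → ℝ) (f : C(X, ℝ)) : Set ℝ :=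
  {r | ∃ A ∈ C, (∀ x, f x + F A x ≤ 0) ∧ r = J A}

/-- Lagrange multipliers under a Slater condition, functional form.  `J` and `F` are sublinear
on the cone `C`; `A₀` is a Slater point. -/
theorem exists_functional_slater (C : Set V)
    (hadd : ∀ a ∈ C, ∀ b ∈ C, a + b ∈ C) (hsmul : ∀ t : ℝ, 0 < t → ∀ a ∈ C, t • a ∈ C)
    (F : V → C(X, ℝ)) (J : V → ℝ)
    (hJadd : ∀ a ∈ C, ∀ b ∈ C, J (a + b) ≤ J a + J b)
    (hJsmul : ∀ t : ℝ, 0 < t → ∀ a ∈ C, J (t • a) = t * J a)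
    (hFadd : ∀ a ∈ C, ∀ b ∈ C, ∀ x, F (a + b) x ≤ F a x + F b x)
    (hFsmul : ∀ t : ℝ, 0 < t → ∀ a ∈ C, ∀ x, F (t • a) x = t * F a x)
    (A₀ : V) (hA₀ : A₀ ∈ C) (m : ℝ) (hm : 0 < m) (hslater : ∀ x, F A₀ x ≤ -m)
    (h : ∀ A ∈ C, (∀ x, F A x ≤ 0) → 0 ≤ J A) :
    ∃ l : C(X, ℝ) →ₗ[ℝ] ℝ, (∀ f : C(X, ℝ), 0 ≤ f → 0 ≤ l f) ∧ l 1 ≤ J A₀ / m ∧
      ∀ A ∈ C, 0 ≤ J A + l (F A) := by
  classical
  set q : C(X, ℝ) → ℝ := fun f => sInf (slaterSet C F J f) with hq
  have hJ₀ : 0 ≤ J A₀ := h A₀ hA₀ fun x => (hslater x).trans (by linarith)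
  -- lower bound
  have hlow : ∀ f : C(X, ℝ), ∀ r ∈ slaterSet C F J f, -((‖f‖ + 1) / m * J A₀) ≤ r := by
    rintro f r ⟨A, hA, hfA, rfl⟩
    have hpos : 0 < (‖f‖ + 1) / m := by positivity
    have h1 : ∀ x, F (A + ((‖f‖ + 1) / m) • A₀) x ≤ 0 := by
      intro x
      have h2 := hfA x
      have h3 : -‖f‖ ≤ f x := (abs_le.mp (f.norm_coe_le_norm x)).1
      have h4 := hFadd A hA _ (hsmul _ hpos A₀ hA₀) x
      have h5 := hFsmul _ hpos A₀ hA₀ x
      have h6 : (‖f‖ + 1) / m * F A₀ x ≤ (‖f‖ + 1) / m * (-m) :=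
        mul_le_mul_of_nonneg_left (hslater x) hpos.le
      have h7 : (‖f‖ + 1) / m * (-m) = -(‖f‖ + 1) := by field_simp
      linarith
    have h2 := h _ (hadd A hA _ (hsmul _ hpos A₀ hA₀)) h1
    have h3 := hJadd A hA _ (hsmul _ hpos A₀ hA₀)
    have h4 := hJsmul _ hpos A₀ hA₀
    linarith
  have hbdd : ∀ f : C(X, ℝ), BddBelow (slaterSet C F J f) := fun f => ⟨_, hlow f⟩
  -- upper bound
  have hmem : ∀ f : C(X, ℝ), ∀ M : ℝ, 0 < M → (∀ x, f x ≤ M) →
      M / m * J A₀ ∈ slaterSet C F J f := by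
    intro f M hM hfM
    have hpos : 0 < M / m := by positivity
    refine ⟨(M / m) • A₀, hsmul _ hpos A₀ hA₀, ?_, (hJsmul _ hpos A₀ hA₀).symm⟩
    intro x
    have h5 := hFsmul _ hpos A₀ hA₀ x
    have h6 : M / m * F A₀ x ≤ M / m * (-m) :=
      mul_le_mul_of_nonneg_left (hslater x) hpos.le
    have h7 : M / m * (-m) = -M := by field_simp
    have h8 := hfM x
    linarith
  have hnonempty : ∀ f : C(X, ℝ), (slaterSet C F J f).Nonempty := by
    intro f
    refine ⟨_, hmem f (‖f‖ + 1) (by positivity) fun x => ?_⟩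
    have := (le_abs_self _).trans (f.norm_coe_le_norm x)
    linarith
  -- subadditivity
  have hqadd : ∀ f g : C(X, ℝ), q (f + g) ≤ q f + q g := by
    intro f g
    have key : ∀ r ∈ slaterSet C F J f, ∀ s ∈ slaterSet C F J g, q (f + g) ≤ r + s := by
      rintro r ⟨A, hA, hfM, rfl⟩ s ⟨A', hA', hgM, rfl⟩
      have hmem : J (A + A') ∈ slaterSet C F J (f + g) := by
        refine ⟨A + A', hadd A hA A' hA', ?_, rfl⟩
        intro x
        have h1 := hfM x
        have h2 := hgM x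
        have h3 := hFadd A hA A' hA' x
        simp only [ContinuousMap.add_apply]
        linarith
      have h1 : q (f + g) ≤ J (A + A') := csInf_le (hbdd _) hmem
      have h2 := hJadd A hA A' hA'
      linarith
    have h1 : ∀ r ∈ slaterSet C F J f, q (f + g) - r ≤ q g := by
      intro r hr
      refine le_csInf (hnonempty g) ?_
      intro s hs
      have := key r hr s hs
      linarith
    have h2 : q (f + g) - q g ≤ q f := by
      refine le_csInf (hnonempty f) ?_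
      intro r hr
      have := h1 r hr
      linarith
    linarith
  -- homogeneity
  have hqhom_le : ∀ c : ℝ, 0 < c → ∀ f : C(X, ℝ), q (c • f) ≤ c * q f := by
    intro c hc f
    have h1 : ∀ r ∈ slaterSet C F J f, q (c • f) / c ≤ r := by
      rintro r ⟨A, hA, hfM, rfl⟩
      have hmem : J (c • A) ∈ slaterSet C F J (c • f) := by
        refine ⟨c • A, hsmul c hc A hA, ?_, rfl⟩
        intro x
        have h1 := hfM x
        have h2 := hFsmul c hc A hA x
        simp only [ContinuousMap.smul_apply, smul_eq_mul]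
        nlinarith
      have h2 : q (c • f) ≤ J (c • A) := csInf_le (hbdd _) hmem
      rw [hJsmul c hc A hA] at h2
      rw [div_le_iff₀ hc]
      linarith
    have h2 : q (c • f) / c ≤ q f := le_csInf (hnonempty f) h1
    rw [div_le_iff₀ hc] at h2
    linarith
  have hqhom : ∀ c : ℝ, 0 < c → ∀ f : C(X, ℝ), q (c • f) = c * q f := by
    intro c hc f
    refine le_antisymm (hqhom_le c hc f) ?_
    have h1 := hqhom_le c⁻¹ (inv_pos.mpr hc) (c • f)
    rw [smul_smul, inv_mul_cancel₀ hc.ne', one_smul] at h1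
    calc c * q f ≤ c * (c⁻¹ * q (c • f)) := mul_le_mul_of_nonneg_left h1 hc.le
      _ = q (c • f) := by field_simp
  have hq0 : 0 ≤ q 0 := by
    have h1 := hqhom 2 two_pos 0
    rw [smul_zero] at h1
    linarith
  obtain ⟨l, -, hl⟩ := exists_extension_of_le_sublinear
    (E := C(X, ℝ)) (⟨⊥, 0⟩ : C(X, ℝ) →ₗ.[ℝ] ℝ) q hqhom hqadd (by
      rintro ⟨x, hx⟩
      rw [Submodule.mem_bot] at hx
      subst hx
      simpa using hq0)
  have hl' : ∀ f : C(X, ℝ), ∀ M : ℝ, 0 < M → (∀ x, f x ≤ M) → l f ≤ M / m * J A₀ :=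
    fun f M hM hfM => (hl f).trans (csInf_le (hbdd _) (hmem f M hM hfM))
  refine ⟨l, ?_, ?_, ?_⟩
  · intro f hf
    have h1 : ∀ ε : ℝ, 0 < ε → -(l f) ≤ 0 + ε := by
      intro ε hε
      have hK : 0 < m * ε / (J A₀ + 1) := by positivity
      have h2 := hl' (-f) (m * ε / (J A₀ + 1)) hK (by
        intro x
        have h3 : 0 ≤ f x := hf x
        simp only [ContinuousMap.neg_apply]
        linarith)
      rw [map_neg] at h2
      have h3 : m * ε / (J A₀ + 1) / m * J A₀ ≤ ε := by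
        rw [div_div, div_mul_eq_mul_div, div_le_iff₀ (by positivity)]
        nlinarith [mul_pos hm hε]
      linarith
    have h2 := le_of_forall_pos_le_add h1
    linarith
  · have h1 := hl' 1 1 one_pos (by intro x; simp)
    calc l 1 ≤ 1 / m * J A₀ := h1
      _ = J A₀ / m := by ring
  · intro A hA
    have h1 : l (-(F A)) ≤ J A := by
      refine (hl _).trans (csInf_le (hbdd _) ⟨A, hA, ?_, rfl⟩)
      intro x
      simp
    rw [map_neg] at h1
    linarith

end Functional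

section Measure

variable {X : Type*} [TopologicalSpace X] [CompactSpace X] [T2Space X] [MeasurableSpace X]
  [BorelSpace X]
variable {V : Type*} [AddCommGroup V] [Module ℝ V]

/-- A positive functional on `C(X, ℝ)`, `X` compact, is given by a finite regular measure. -/
theorem exists_measure_of_positive (l : C(X, ℝ) →ₗ[ℝ] ℝ) (hl : ∀ f : C(X, ℝ), 0 ≤ f → 0 ≤ l f) :
    ∃ μ : Measure X, μ.Regular ∧ IsFiniteMeasure μ ∧ (∀ f : C(X, ℝ), ∫ x, f x ∂μ = l f) ∧
      μ.real univ = l 1 := by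
  let Λ : C_c(X, ℝ) →ₚ[ℝ] ℝ :=
  { toFun g := l g.toContinuousMap
    map_add' g g' := by
      rw [← map_add]
      congr 1
    map_smul' c g := by
      rw [RingHom.id_apply, ← map_smul]
      congr 1
    monotone' g g' hgg' := by
      have h1 : 0 ≤ l (g'.toContinuousMap - g.toContinuousMap) := by
        apply hl
        intro x
        have h2 : g x ≤ g' x := hgg' x
        change (0 : ℝ) ≤ g' x - g x
        linarith
      rw [map_sub] at h1
      simpa using h1 }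
  have hint : ∀ f : C(X, ℝ), ∫ x, f x ∂(RealRMK.rieszMeasure Λ) = l f := by
    intro f
    exact RealRMK.integral_rieszMeasure Λ (continuousMapEquiv f)
  refine ⟨RealRMK.rieszMeasure Λ, inferInstance, inferInstance, hint, ?_⟩
  have h1 := hint 1
  simpa using h1

/-- **Duality with measures** (leaf L10). -/
theorem exists_measure (C : Set V) (hne : C.Nonempty)
    (hadd : ∀ a ∈ C, ∀ b ∈ C, a + b ∈ C) (hsmul : ∀ t : ℝ, 0 < t → ∀ a ∈ C, t • a ∈ C)
    (D : V →ₗ[ℝ] C(X, ℝ)) (p : V → ℝ)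
    (hpadd : ∀ a ∈ C, ∀ b ∈ C, p (a + b) ≤ p a + p b)
    (hpsmul : ∀ t : ℝ, 0 < t → ∀ a ∈ C, p (t • a) = t * p a)
    (B : ℝ) (hB : 0 ≤ B)
    (h : ∀ A ∈ C, ∀ M : ℝ, 0 ≤ M → (∀ x, D A x ≤ M) → 0 ≤ p A + B * M) :
    ∃ μ : Measure X, μ.Regular ∧ IsFiniteMeasure μ ∧ μ.real univ ≤ B ∧
      ∀ A ∈ C, 0 ≤ p A + ∫ x, D A x ∂μ := by
  obtain ⟨l, hl0, hl1, hl⟩ := exists_functional C hne hadd hsmul D p hpadd hpsmul B hB h
  obtain ⟨μ, hreg, hfin, hint, huniv⟩ := exists_measure_of_positive l hl0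
  refine ⟨μ, hreg, hfin, huniv.trans_le hl1, fun A hA => ?_⟩
  rw [hint]
  exact hl A hA

/-- **Lagrange multipliers under a Slater condition, measure form** (leaf L10 in the form asked
for by 795, 79, 653): `J : C → ℝ` and `F : C → C(X, ℝ)` sublinear on the cone `C`, `F A ≤ 0`
implies `J A ≥ 0`, `F A₀ ≤ -m < 0`.  Then there is a finite regular measure `μ ≥ 0` of mass at
most `J A₀ / m` with `J A + ∫ F A dμ ≥ 0` for all `A ∈ C`. -/
theorem exists_measure_slater (C : Set V)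
    (hadd : ∀ a ∈ C, ∀ b ∈ C, a + b ∈ C) (hsmul : ∀ t : ℝ, 0 < t → ∀ a ∈ C, t • a ∈ C)
    (F : V → C(X, ℝ)) (J : V → ℝ)
    (hJadd : ∀ a ∈ C, ∀ b ∈ C, J (a + b) ≤ J a + J b)
    (hJsmul : ∀ t : ℝ, 0 < t → ∀ a ∈ C, J (t • a) = t * J a)
    (hFadd : ∀ a ∈ C, ∀ b ∈ C, ∀ x, F (a + b) x ≤ F a x + F b x)
    (hFsmul : ∀ t : ℝ, 0 < t → ∀ a ∈ C, ∀ x, F (t • a) x = t * F a x)
    (A₀ : V) (hA₀ : A₀ ∈ C) (m : ℝ) (hm : 0 < m) (hslater : ∀ x, F A₀ x ≤ -m)
    (h : ∀ A ∈ C, (∀ x, F A x ≤ 0) → 0 ≤ J A) :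
    ∃ μ : Measure X, μ.Regular ∧ IsFiniteMeasure μ ∧ μ.real univ ≤ J A₀ / m ∧
      ∀ A ∈ C, 0 ≤ J A + ∫ x, F A x ∂μ := by
  obtain ⟨l, hl0, hl1, hl⟩ := exists_functional_slater C hadd hsmul F J hJadd hJsmul hFadd hFsmul
    A₀ hA₀ m hm hslater h
  obtain ⟨μ, hreg, hfin, hint, huniv⟩ := exists_measure_of_positive l hl0
  refine ⟨μ, hreg, hfin, huniv.trans_le hl1, fun A hA => ?_⟩
  rw [hint]
  exact hl A hA

end Measure

end Crest.Agent.R269.Dual271
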