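import Mathlib
import Crest.Agent.R269.Dual_271

/-!
Row 269, Blueprint Parts 8 and 12: assembly of the duality argument over an abstract interface.

* `Pack` : compact space with a finite measure `dV`, real vector space `Fld` of (smooth Hermitian)
  fields, cone `Pos` of positive fields, the operators `Lop s u = tr (s L u)`, their adjoints
  `rho s`, the density `rt s = (det_g s)^{1/n}`, smooth functions `Fun`.
* `Pack.exists_measure_MA` : Blueprint (8.2) + (8.3).
* `Pack.exists_measure_pos` : Blueprint (12.1).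
-/

set_option autoImplicit false
noncomputable section

open MeasureTheory Set

namespace Crest.Agent.R269.DualAsm_128

/-- The abstract interface: a compact Kaehler manifold seen through its smooth functions and
smooth Hermitian fields. -/
structure Pack (X : Type*) [TopologicalSpace X] [MeasurableSpace X]
    (Fld : Type*) [AddCommGroup Fld] [Module ℝ Fld] where
  /-- the volume measure -/
  dV : Measure X
  /-- the smooth functions -/
  Fun : Submodule ℝ C(X, ℝ)
  /-- the cone of positive fields -/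
  Pos : Set Fld
  /-- the field `g⁻¹` -/
  s0 : Fld
  /-- `(det_g s)^{1/n}` -/
  rt : Fld → C(X, ℝ)
  /-- `tr (s L u)` -/
  Lop : Fld → C(X, ℝ) → C(X, ℝ)
  /-- the adjoint `L_s^* 1` -/
  rho : Fld →ₗ[ℝ] C(X, ℝ)
  fin : IsFiniteMeasure dV
  one_mem : (1 : C(X, ℝ)) ∈ Fun
  s0_mem : s0 ∈ Pos
  add_mem : ∀ a ∈ Pos, ∀ b ∈ Pos, a + b ∈ Pos
  smul_mem : ∀ t : ℝ, 0 < t → ∀ a ∈ Pos, t • a ∈ Pos
  rt_mem : ∀ a ∈ Pos, rt a ∈ Fun
  rt_smul : ∀ t : ℝ, 0 < t → ∀ a ∈ Pos, rt (t • a) = t • rt a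
  rt_add : ∀ a ∈ Pos, ∀ b ∈ Pos, ∀ x, rt a x + rt b x ≤ rt (a + b) x
  rt_s0 : rt s0 = 1
  rho_s0 : rho s0 = 0
  Lop_one : ∀ a ∈ Pos, Lop a 1 = 0
  adj : ∀ a ∈ Pos, ∀ u ∈ Fun, ∫ x, Lop a u x ∂dV = ∫ x, u x * rho a x ∂dV

variable {X : Type*} [TopologicalSpace X] [CompactSpace X] [T2Space X] [MeasurableSpace X]
  [BorelSpace X] {Fld : Type*} [AddCommGroup Fld] [Module ℝ Fld]

omit [T2Space X] in
/-- continuous functions are integrable for a finite measure on a compact space -/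
theorem integrable_cont (μ : Measure X) [IsFiniteMeasure μ] (f : C(X, ℝ)) :
    Integrable (fun x => f x) μ := by
  refine Integrable.mono' (integrable_const ‖f‖) ?_ (Filter.Eventually.of_forall fun x => f.norm_coe_le_norm x)
  exact f.continuous.stronglyMeasurable_of_hasCompactSupport
    (HasCompactSupport.of_compactSpace _) |>.aestronglyMeasurable

namespace Pack

variable (P : Pack X Fld)

omit [T2Space X] in
/-- The key integral inequality, for the resolvent of the density `rt`. -/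
theorem key_MA (tr : Fld →ₗ[ℝ] C(X, ℝ)) (htr : ∀ a ∈ P.Pos, tr a ∈ P.Fun)
    {lam c : ℝ}
    (hres : ∀ a ∈ P.Pos, ∀ h ∈ P.Fun, ∀ δ : ℝ, 0 < δ → ∃ u ∈ P.Fun, ∀ x,
      |lam * P.rt a x * u x - P.Lop a u x - h x| ≤ δ)
    (hcomp : ∀ a ∈ P.Pos, ∀ u ∈ P.Fun,
      (∀ x, tr a x + P.Lop a u x ≤ (c + lam * u x) * P.rt a x) → ∀ x, 0 ≤ u x)
    (a : Fld) (ha : a ∈ P.Pos) (hF : ∀ x, P.rho a x ≤ lam * P.rt a x) :
    0 ≤ ∫ x, tr a x ∂P.dV - c * ∫ x, P.rt a x ∂P.dV := by
  have hfin := P.fin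
  refine le_of_forall_pos_le_add ?_
  intro ε hε
  set vol : ℝ := P.dV.real univ with hvol
  have hvol0 : 0 ≤ vol := measureReal_nonneg
  set δ : ℝ := ε / (2 * (vol + 1)) with hδ
  have hδ0 : 0 < δ := by positivity
  set h : C(X, ℝ) := tr a - c • P.rt a + δ • 1 with hh
  have hmem : h ∈ P.Fun :=
    P.Fun.add_mem (P.Fun.sub_mem (htr a ha) (P.Fun.smul_mem _ (P.rt_mem a ha)))
      (P.Fun.smul_mem _ P.one_mem)
  obtain ⟨u, hu, hud⟩ := hres a ha h hmem δ hδ0
  have hhx : ∀ x, h x = tr a x - c * P.rt a x + δ := by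
    intro x
    simp [hh]
  have hu0 : ∀ x, 0 ≤ u x := by
    apply hcomp a ha u hu
    intro x
    have h1 := (abs_le.mp (hud x)).1
    rw [hhx] at h1
    linarith
  have hup : ∀ x, lam * P.rt a x * u x - P.Lop a u x ≤ tr a x - c * P.rt a x + 2 * δ := by
    intro x
    have h1 := (abs_le.mp (hud x)).2
    rw [hhx] at h1
    linarith
  have i1 := integrable_cont P.dV (lam • (P.rt a * u))
  have i2 := integrable_cont P.dV (P.Lop a u)
  have i3 := integrable_cont P.dV (tr a)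
  have i4 := integrable_cont P.dV (P.rt a)
  have i5 := integrable_cont P.dV (u * P.rho a)
  have e1 : ∫ x, (lam * P.rt a x * u x - P.Lop a u x) ∂P.dV
      = ∫ x, u x * (lam * P.rt a x - P.rho a x) ∂P.dV := by
    have h1 : ∫ x, (lam * P.rt a x * u x - P.Lop a u x) ∂P.dV
        = ∫ x, (lam • (P.rt a * u)) x ∂P.dV - ∫ x, P.Lop a u x ∂P.dV := by
      rw [← integral_sub i1 i2]
      congr 1
      ext x
      simp [mul_assoc]
    have h2 : ∫ x, u x * (lam * P.rt a x - P.rho a x) ∂P.dV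
        = ∫ x, (lam • (P.rt a * u)) x ∂P.dV - ∫ x, (u * P.rho a) x ∂P.dV := by
      rw [← integral_sub i1 i5]
      congr 1
      ext x
      simp only [ContinuousMap.smul_apply, ContinuousMap.mul_apply, smul_eq_mul]
      ring
    rw [h1, h2, P.adj a ha u hu]
    rfl
  have e2 : 0 ≤ ∫ x, u x * (lam * P.rt a x - P.rho a x) ∂P.dV := by
    apply integral_nonneg
    intro x
    exact mul_nonneg (hu0 x) (by have := hF x; linarith)
  have e3 : ∫ x, (lam * P.rt a x * u x - P.Lop a u x) ∂P.dV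
      ≤ ∫ x, (tr a x - c * P.rt a x + 2 * δ) ∂P.dV := by
    apply integral_mono
    · have := i1.sub i2
      refine this.congr (Filter.Eventually.of_forall fun x => ?_)
      simp [mul_assoc]
    · exact (i3.sub (i4.const_mul c)).add (integrable_const _)
    · exact hup
  have e4 : ∫ x, (tr a x - c * P.rt a x + 2 * δ) ∂P.dV
      = ∫ x, tr a x ∂P.dV - c * ∫ x, P.rt a x ∂P.dV + 2 * δ * vol := by
    have h1 : ∫ x, (tr a x - c * P.rt a x) ∂P.dV
        = ∫ x, tr a x ∂P.dV - c * ∫ x, P.rt a x ∂P.dV := by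
      rw [← integral_const_mul]
      exact integral_sub i3 (i4.const_mul c)
    have h2 : ∫ x, (tr a x - c * P.rt a x + 2 * δ) ∂P.dV
        = ∫ x, (tr a x - c * P.rt a x) ∂P.dV + ∫ _x, (2 * δ) ∂P.dV :=
      integral_add (i3.sub (i4.const_mul c)) (integrable_const _)
    rw [h2, h1]
    simp [hvol, mul_comm]
  have e5 : 2 * δ * vol ≤ ε := by
    rw [hδ]
    have : 2 * (ε / (2 * (vol + 1))) * vol = ε * (vol / (vol + 1)) := by field_simp
    rw [this]
    have h7 : vol / (vol + 1) ≤ 1 := by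
      rw [div_le_one (by positivity)]
      linarith
    nlinarith
  rw [e1, e4] at e3
  linarith

/-- **Blueprint (8.2) + (8.3)**: the dual measure. -/
theorem exists_measure_MA (tr : Fld →ₗ[ℝ] C(X, ℝ)) (htr : ∀ a ∈ P.Pos, tr a ∈ P.Fun)
    {lam c : ℝ} (hlam : 0 < lam) (hc : 0 ≤ c)
    (hres : ∀ a ∈ P.Pos, ∀ h ∈ P.Fun, ∀ δ : ℝ, 0 < δ → ∃ u ∈ P.Fun, ∀ x,
      |lam * P.rt a x * u x - P.Lop a u x - h x| ≤ δ)
    (hcomp : ∀ a ∈ P.Pos, ∀ u ∈ P.Fun,
      (∀ x, tr a x + P.Lop a u x ≤ (c + lam * u x) * P.rt a x) → ∀ x, 0 ≤ u x) :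
    ∃ μ : Measure X, μ.Regular ∧ IsFiniteMeasure μ ∧
      μ.real univ ≤ (∫ x, tr P.s0 x ∂P.dV - c * P.dV.real univ) / lam ∧
      ∀ a ∈ P.Pos, c * ∫ x, P.rt a x ∂P.dV + lam * ∫ x, P.rt a x ∂μ
        ≤ ∫ x, tr a x ∂P.dV + ∫ x, P.rho a x ∂μ := by
  have := P.fin
  obtain ⟨μ, hreg, hfin, hmass, hμ⟩ := Dual271.exists_measure_slater (X := X) (V := Fld) P.Pos
    P.add_mem P.smul_mem (fun a => P.rho a - lam • P.rt a)
    (fun a => ∫ x, tr a x ∂P.dV - c * ∫ x, P.rt a x ∂P.dV)
    (by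
      intro a ha b hb
      have i1 := integrable_cont P.dV (tr a)
      have i2 := integrable_cont P.dV (tr b)
      have i3 := integrable_cont P.dV (P.rt a)
      have i4 := integrable_cont P.dV (P.rt b)
      have i5 := integrable_cont P.dV (P.rt (a + b))
      have e1 : ∫ x, tr (a + b) x ∂P.dV = ∫ x, tr a x ∂P.dV + ∫ x, tr b x ∂P.dV := by
        rw [map_add, ← integral_add i1 i2]
        rfl
      have e2 : ∫ x, P.rt a x ∂P.dV + ∫ x, P.rt b x ∂P.dV ≤ ∫ x, P.rt (a + b) x ∂P.dV := by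
        rw [← integral_add i3 i4]
        exact integral_mono (i3.add i4) i5 (P.rt_add a ha b hb)
      have := mul_le_mul_of_nonneg_left e2 hc
      linarith)
    (by
      intro t ht a ha
      have e1 : ∫ x, tr (t • a) x ∂P.dV = t * ∫ x, tr a x ∂P.dV := by
        rw [map_smul, ← integral_const_mul]
        rfl
      have e2 : ∫ x, P.rt (t • a) x ∂P.dV = t * ∫ x, P.rt a x ∂P.dV := by
        rw [P.rt_smul t ht a ha, ← integral_const_mul]
        rfl
      rw [e1, e2]
      ring)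
    (by
      intro a ha b hb x
      have := mul_le_mul_of_nonneg_left (P.rt_add a ha b hb x) hlam.le
      simp only [ContinuousMap.sub_apply, ContinuousMap.smul_apply, map_add,
        ContinuousMap.add_apply, smul_eq_mul]
      linarith)
    (by
      intro t ht a ha x
      simp only [ContinuousMap.sub_apply, ContinuousMap.smul_apply, map_smul, smul_eq_mul,
        P.rt_smul t ht a ha]
      ring)
    P.s0 P.s0_mem lam hlam
    (by
      intro x
      simp [P.rho_s0, P.rt_s0])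
    (by
      intro a ha hF
      refine P.key_MA tr htr hres hcomp a ha ?_
      intro x
      have := hF x
      simp only [ContinuousMap.sub_apply, ContinuousMap.smul_apply, smul_eq_mul] at this
      linarith)
  have := hfin
  refine ⟨μ, hreg, hfin, ?_, ?_⟩
  · have e : ∫ x, P.rt P.s0 x ∂P.dV = P.dV.real univ := by
      rw [P.rt_s0]
      simp
    rw [e] at hmass
    exact hmass
  · intro a ha
    have h1 := hμ a ha
    have i1 := integrable_cont μ (P.rho a)
    have i2 := integrable_cont μ (P.rt a)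
    have e : ∫ x, (P.rho a - lam • P.rt a) x ∂μ
        = ∫ x, P.rho a x ∂μ - lam * ∫ x, P.rt a x ∂μ := by
      rw [← integral_const_mul, ← integral_sub i1 (i2.const_mul lam)]
      rfl
    rw [e] at h1
    linarith

omit [T2Space X] in
/-- The total mass of the adjoint density vanishes. -/
theorem integral_rho (a : Fld) (ha : a ∈ P.Pos) : ∫ x, P.rho a x ∂P.dV = 0 := by
  have h1 := P.adj a ha 1 P.one_mem
  rw [P.Lop_one a ha] at h1
  simpa using h1.symm

omit [T2Space X] in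
/-- The key integral inequality of Part 12, `M > 0`. -/
theorem key_pos (tr : Fld →ₗ[ℝ] C(X, ℝ)) (htr : ∀ a ∈ P.Pos, tr a ∈ P.Fun) {C3 : ℝ}
    (hres : ∀ a ∈ P.Pos, ∀ m : ℝ, 0 < m → ∀ h ∈ P.Fun, ∀ δ : ℝ, 0 < δ → ∃ u ∈ P.Fun, ∀ x,
      |m * u x - P.Lop a u x - h x| ≤ δ)
    (hcomp : ∀ a ∈ P.Pos, ∀ m : ℝ, 0 < m → ∀ u ∈ P.Fun,
      (∀ x, tr a x + P.Lop a u x ≤ m * u x) → ∀ x, -C3 ≤ u x)
    (a : Fld) (ha : a ∈ P.Pos) (m : ℝ) (hm : 0 < m) (hF : ∀ x, P.rho a x ≤ m) :
    0 ≤ ∫ x, tr a x ∂P.dV + C3 * P.dV.real univ * m := by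
  have hfin := P.fin
  refine le_of_forall_pos_le_add ?_
  intro ε hε
  set vol : ℝ := P.dV.real univ with hvol
  have hvol0 : 0 ≤ vol := measureReal_nonneg
  set δ : ℝ := ε / (2 * (vol + 1)) with hδ
  have hδ0 : 0 < δ := by positivity
  set h : C(X, ℝ) := tr a + δ • 1 with hh
  have hmem : h ∈ P.Fun :=
    P.Fun.add_mem (htr a ha) (P.Fun.smul_mem _ P.one_mem)
  obtain ⟨u, hu, hud⟩ := hres a ha m hm h hmem δ hδ0
  have hhx : ∀ x, h x = tr a x + δ := by
    intro x
    simp [hh]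
  have hu0 : ∀ x, -C3 ≤ u x := by
    apply hcomp a ha m hm u hu
    intro x
    have h1 := (abs_le.mp (hud x)).1
    rw [hhx] at h1
    linarith
  have hup : ∀ x, m * u x - P.Lop a u x ≤ tr a x + 2 * δ := by
    intro x
    have h1 := (abs_le.mp (hud x)).2
    rw [hhx] at h1
    linarith
  have i1 := integrable_cont P.dV (m • u)
  have i2 := integrable_cont P.dV (P.Lop a u)
  have i3 := integrable_cont P.dV (tr a)
  have i4 := integrable_cont P.dV (P.rho a)
  have i5 := integrable_cont P.dV (u * P.rho a)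
  have e1 : ∫ x, (m * u x - P.Lop a u x) ∂P.dV
      = ∫ x, u x * (m - P.rho a x) ∂P.dV := by
    have h1 : ∫ x, (m * u x - P.Lop a u x) ∂P.dV
        = ∫ x, (m • u) x ∂P.dV - ∫ x, P.Lop a u x ∂P.dV := by
      rw [← integral_sub i1 i2]
      rfl
    have h2 : ∫ x, u x * (m - P.rho a x) ∂P.dV
        = ∫ x, (m • u) x ∂P.dV - ∫ x, (u * P.rho a) x ∂P.dV := by
      rw [← integral_sub i1 i5]
      congr 1
      ext x
      simp only [ContinuousMap.smul_apply, ContinuousMap.mul_apply, smul_eq_mul]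
      ring
    rw [h1, h2, P.adj a ha u hu]
    rfl
  have e2 : ∫ x, (-C3) * (m - P.rho a x) ∂P.dV ≤ ∫ x, u x * (m - P.rho a x) ∂P.dV := by
    apply integral_mono
    · exact ((integrable_const m).sub i4).const_mul _
    · have := i1.sub i5
      refine this.congr (Filter.Eventually.of_forall fun x => ?_)
      simp only [Pi.sub_apply, ContinuousMap.smul_apply, ContinuousMap.mul_apply, smul_eq_mul]
      ring
    · intro x
      exact mul_le_mul_of_nonneg_right (hu0 x) (by have := hF x; linarith)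
  have e2' : ∫ x, (-C3) * (m - P.rho a x) ∂P.dV = -(C3 * vol * m) := by
    rw [integral_const_mul, integral_sub (integrable_const m) i4, P.integral_rho a ha]
    simp [hvol]
    ring
  have e3 : ∫ x, (m * u x - P.Lop a u x) ∂P.dV ≤ ∫ x, (tr a x + 2 * δ) ∂P.dV := by
    apply integral_mono
    · exact i1.sub i2
    · exact i3.add (integrable_const _)
    · exact hup
  have e4 : ∫ x, (tr a x + 2 * δ) ∂P.dV = ∫ x, tr a x ∂P.dV + 2 * δ * vol := by
    have h2 : ∫ x, (tr a x + 2 * δ) ∂P.dV = ∫ x, tr a x ∂P.dV + ∫ _x, (2 * δ) ∂P.dV :=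
      integral_add i3 (integrable_const _)
    rw [h2]
    simp [hvol, mul_comm]
  have e5 : 2 * δ * vol ≤ ε := by
    rw [hδ]
    have : 2 * (ε / (2 * (vol + 1))) * vol = ε * (vol / (vol + 1)) := by field_simp
    rw [this]
    have h7 : vol / (vol + 1) ≤ 1 := by
      rw [div_le_one (by positivity)]
      linarith
    nlinarith
  rw [e1, e4] at e3
  rw [e2'] at e2
  linarith

/-- **Blueprint (12.1)**: the dual measure for the positivity of `K_X`. -/
theorem exists_measure_pos (tr : Fld →ₗ[ℝ] C(X, ℝ)) (htr : ∀ a ∈ P.Pos, tr a ∈ P.Fun) {C3 : ℝ}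
    (hC3 : 0 ≤ C3)
    (hres : ∀ a ∈ P.Pos, ∀ m : ℝ, 0 < m → ∀ h ∈ P.Fun, ∀ δ : ℝ, 0 < δ → ∃ u ∈ P.Fun, ∀ x,
      |m * u x - P.Lop a u x - h x| ≤ δ)
    (hcomp : ∀ a ∈ P.Pos, ∀ m : ℝ, 0 < m → ∀ u ∈ P.Fun,
      (∀ x, tr a x + P.Lop a u x ≤ m * u x) → ∀ x, -C3 ≤ u x) :
    ∃ μ : Measure X, μ.Regular ∧ IsFiniteMeasure μ ∧ μ.real univ ≤ C3 * P.dV.real univ ∧
      ∀ a ∈ P.Pos, 0 ≤ ∫ x, tr a x ∂P.dV + ∫ x, P.rho a x ∂μ := by
  have := P.fin
  have hB : 0 ≤ C3 * P.dV.real univ := mul_nonneg hC3 measureReal_nonneg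
  obtain ⟨μ, hreg, hfin, hmass, hμ⟩ := Dual271.exists_measure (X := X) (V := Fld) P.Pos
    ⟨P.s0, P.s0_mem⟩ P.add_mem P.smul_mem P.rho (fun a => ∫ x, tr a x ∂P.dV)
    (by
      intro a _ b _
      rw [map_add, ← integral_add (integrable_cont P.dV (tr a)) (integrable_cont P.dV (tr b))]
      exact le_rfl)
    (by
      intro t _ a _
      rw [map_smul, ← integral_const_mul]
      rfl)
    (C3 * P.dV.real univ) hB
    (by
      intro a ha M hM hF
      refine le_of_forall_pos_le_add ?_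
      intro ε hε
      set m : ℝ := M + ε / (C3 * P.dV.real univ + 1) with hm
      have hm0 : 0 < ε / (C3 * P.dV.real univ + 1) := by positivity
      have h1 := P.key_pos tr htr hres hcomp a ha m (by positivity) (fun x => by
        have := hF x
        linarith)
      have h2 : C3 * P.dV.real univ * (ε / (C3 * P.dV.real univ + 1)) ≤ ε := by
        have h3 : C3 * P.dV.real univ * (ε / (C3 * P.dV.real univ + 1))
            = ε * (C3 * P.dV.real univ / (C3 * P.dV.real univ + 1)) := by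
          ring
        rw [h3]
        have h7 : C3 * P.dV.real univ / (C3 * P.dV.real univ + 1) ≤ 1 := by
          rw [div_le_one (by positivity)]
          linarith
        nlinarith
      rw [hm, mul_add] at h1
      linarith)
  exact ⟨μ, hreg, hfin, hmass, hμ⟩

end Pack

end Crest.Agent.R269.DualAsm_128
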