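import Mathlib
import Crest.Agent.R269.Dual_271

/-!
Row 269, leaf DUALASM: the assembly of (8.2), (8.3) and of (12.1) of `Blueprint_646` over an abstract
interface.

* `X` compact Hausdorff (Borel), `μ` a finite measure (`= dV`);
* `V` a real vector space (smooth Hermitian fields), `S ⊆ V` the cone of smooth positive fields;
* `m s = (det_g s)^{1/n}`, `A s = tr (s (α + ε ω))`, `ρ s = L_s^* 1`;
* `Sm` the set of smooth functions, `L s u = tr (s L u)`.
-/

set_option autoImplicit false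
noncomputable section

open MeasureTheory Set

namespace Crest.Agent.R269.DualAsm_411

variable {X : Type*} [TopologicalSpace X] [CompactSpace X] [T2Space X] [MeasurableSpace X]
  [BorelSpace X]
variable {V : Type*} [AddCommGroup V] [Module ℝ V]

omit [T2Space X] in
/-- Continuous functions on a compact space are integrable for a finite measure. -/
theorem integrable_coe (μ : Measure X) [IsFiniteMeasure μ] (f : C(X, ℝ)) :
    Integrable (fun x => f x) μ :=
  Integrable.of_bound f.continuous.aestronglyMeasurable ‖f‖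
    (Filter.Eventually.of_forall fun x => f.norm_coe_le_norm x)

/-- **(8.2)+(8.3).**  From the `T`-statement (6.3), the approximate resolvent (7.1) and the adjoint
identity (8.1) to a single measure `U`. -/
theorem dual8 (μ : Measure X) [IsFiniteMeasure μ]
    (S : Set V) (hadd : ∀ a ∈ S, ∀ b ∈ S, a + b ∈ S)
    (hsmul : ∀ t : ℝ, 0 < t → ∀ a ∈ S, t • a ∈ S)
    (m A ρ : V → C(X, ℝ))
    (m_add : ∀ a ∈ S, ∀ b ∈ S, ∀ x, m a x + m b x ≤ m (a + b) x)
    (m_smul : ∀ t : ℝ, 0 < t → ∀ a ∈ S, ∀ x, m (t • a) x = t * m a x)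
    (A_add : ∀ a ∈ S, ∀ b ∈ S, ∀ x, A (a + b) x = A a x + A b x)
    (A_smul : ∀ t : ℝ, 0 < t → ∀ a ∈ S, ∀ x, A (t • a) x = t * A a x)
    (ρ_add : ∀ a ∈ S, ∀ b ∈ S, ∀ x, ρ (a + b) x = ρ a x + ρ b x)
    (ρ_smul : ∀ t : ℝ, 0 < t → ∀ a ∈ S, ∀ x, ρ (t • a) x = t * ρ a x)
    (Sm : Set C(X, ℝ)) (L : V → C(X, ℝ) → C(X, ℝ))
    (adj : ∀ s ∈ S, ∀ u ∈ Sm, ∫ x, L s u x ∂μ = ∫ x, u x * ρ s x ∂μ)
    (s₀ : V) (hs₀ : s₀ ∈ S) (ρs₀ : ∀ x, ρ s₀ x ≤ 0) (ms₀ : ∀ x, 1 ≤ m s₀ x)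
    (c lam : ℝ) (hc : 0 ≤ c) (hlam : 0 < lam)
    (res : ∀ s ∈ S, ∀ δ : ℝ, 0 < δ → ∃ u ∈ Sm, (∀ x, 0 ≤ u x) ∧
      ∀ x, lam * m s x * u x - L s u x ≤ (A s x - c * m s x) + δ) :
    ∃ U : Measure X, U.Regular ∧ IsFiniteMeasure U ∧
      U.real univ ≤ (∫ x, (A s₀ x - c * m s₀ x) ∂μ) / lam ∧
      ∀ s ∈ S, 0 ≤ (∫ x, (A s x - c * m s x) ∂μ) + ∫ x, (ρ s x - lam * m s x) ∂U := by
  have hJint : ∀ s, Integrable (fun x => A s x - c * m s x) μ := fun s =>
    (integrable_coe μ (A s)).sub ((integrable_coe μ (m s)).const_mul c)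
  obtain ⟨U, hU1, hU2, hU3, hU4⟩ := Dual271.exists_measure_slater S hadd hsmul
    (fun s => ρ s - lam • m s) (fun s => ∫ x, (A s x - c * m s x) ∂μ)
    (by
      intro a ha b hb
      rw [← integral_add (hJint a) (hJint b)]
      refine integral_mono (hJint _) ((hJint a).add (hJint b)) fun x => ?_
      have h1 := m_add a ha b hb x
      have h2 := A_add a ha b hb x
      have h3 : c * (m a x + m b x) ≤ c * m (a + b) x := mul_le_mul_of_nonneg_left h1 hc
      simp only [h2]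
      linarith)
    (by
      intro t ht a ha
      rw [← integral_const_mul]
      refine integral_congr_ae (Filter.Eventually.of_forall fun x => ?_)
      simp only [A_smul t ht a ha x, m_smul t ht a ha x]
      ring)
    (by
      intro a ha b hb x
      have h1 := m_add a ha b hb x
      have h2 := ρ_add a ha b hb x
      have h3 : lam * (m a x + m b x) ≤ lam * m (a + b) x := mul_le_mul_of_nonneg_left h1 hlam.le
      simp only [ContinuousMap.sub_apply, ContinuousMap.smul_apply, smul_eq_mul, h2]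
      linarith)
    (by
      intro t ht a ha x
      simp only [ContinuousMap.sub_apply, ContinuousMap.smul_apply, smul_eq_mul,
        ρ_smul t ht a ha x, m_smul t ht a ha x]
      ring)
    s₀ hs₀ lam hlam
    (by
      intro x
      have h1 := mul_le_mul_of_nonneg_left (ms₀ x) hlam.le
      simp only [ContinuousMap.sub_apply, ContinuousMap.smul_apply, smul_eq_mul]
      linarith [ρs₀ x])
    (by
      intro s hs hF
      -- `0 ≤ ∫ (A s - c m s)`
      refine le_of_forall_pos_le_add fun δ hδ => ?_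
      have hK : 0 < δ / (μ.real univ + 1) := by positivity
      obtain ⟨u, hu, hu0, hu1⟩ := res s hs _ hK
      have hint1 : Integrable (fun x => lam * m s x * u x - L s u x) μ := by
        refine Integrable.sub ?_ (integrable_coe μ (L s u))
        exact integrable_coe μ ((lam • m s) * u)
      have h1 : ∫ x, (lam * m s x * u x - L s u x) ∂μ ≤
          ∫ x, ((A s x - c * m s x) + δ / (μ.real univ + 1)) ∂μ :=
        integral_mono hint1 ((hJint s).add (integrable_const _)) hu1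
      have h2 : ∫ x, (lam * m s x * u x - L s u x) ∂μ =
          ∫ x, u x * (lam * m s x - ρ s x) ∂μ := by
        have e1 : ∫ x, (lam * m s x * u x - L s u x) ∂μ =
            ∫ x, lam * m s x * u x ∂μ - ∫ x, L s u x ∂μ :=
          integral_sub (integrable_coe μ ((lam • m s) * u)) (integrable_coe μ (L s u))
        have e2 : ∫ x, (lam * m s x * u x - u x * ρ s x) ∂μ =
            ∫ x, lam * m s x * u x ∂μ - ∫ x, u x * ρ s x ∂μ :=
          integral_sub (integrable_coe μ ((lam • m s) * u)) (integrable_coe μ (u * ρ s))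
        rw [e1, adj s hs u hu, ← e2]
        refine integral_congr_ae (Filter.Eventually.of_forall fun x => ?_)
        simp only
        ring
      have h3 : 0 ≤ ∫ x, u x * (lam * m s x - ρ s x) ∂μ := by
        refine integral_nonneg fun x => ?_
        have h4 := hF x
        simp only [ContinuousMap.sub_apply, ContinuousMap.smul_apply, smul_eq_mul] at h4
        exact mul_nonneg (hu0 x) (by linarith)
      have h4 : ∫ x, ((A s x - c * m s x) + δ / (μ.real univ + 1)) ∂μ =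
          ∫ x, (A s x - c * m s x) ∂μ + μ.real univ * (δ / (μ.real univ + 1)) := by
        rw [integral_add (hJint s) (integrable_const _)]
        simp
      have h5 : μ.real univ * (δ / (μ.real univ + 1)) ≤ δ := by
        have h6 : (0 : ℝ) ≤ μ.real univ := measureReal_nonneg
        rw [mul_div_assoc', div_le_iff₀ (by positivity)]
        nlinarith
      linarith)
  exact ⟨U, hU1, hU2, hU3, hU4⟩

/-- **(8.2)+(8.3)**, with the `T`-statement (6.3) and the two-sided approximate resolvent (7.1) as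
hypotheses in their original shape. -/
theorem dual8' (μ : Measure X) [IsFiniteMeasure μ]
    (S : Set V) (hadd : ∀ a ∈ S, ∀ b ∈ S, a + b ∈ S)
    (hsmul : ∀ t : ℝ, 0 < t → ∀ a ∈ S, t • a ∈ S)
    (m A ρ : V → C(X, ℝ))
    (m_pos : ∀ s ∈ S, ∀ x, 0 < m s x)
    (m_add : ∀ a ∈ S, ∀ b ∈ S, ∀ x, m a x + m b x ≤ m (a + b) x)
    (m_smul : ∀ t : ℝ, 0 < t → ∀ a ∈ S, ∀ x, m (t • a) x = t * m a x)
    (A_add : ∀ a ∈ S, ∀ b ∈ S, ∀ x, A (a + b) x = A a x + A b x)
    (A_smul : ∀ t : ℝ, 0 < t → ∀ a ∈ S, ∀ x, A (t • a) x = t * A a x)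
    (ρ_add : ∀ a ∈ S, ∀ b ∈ S, ∀ x, ρ (a + b) x = ρ a x + ρ b x)
    (ρ_smul : ∀ t : ℝ, 0 < t → ∀ a ∈ S, ∀ x, ρ (t • a) x = t * ρ a x)
    (Sm : Set C(X, ℝ)) (Sm_add_const : ∀ u ∈ Sm, ∀ t : ℝ, u + ContinuousMap.const X t ∈ Sm)
    (L : V → C(X, ℝ) → C(X, ℝ))
    (L_add_const : ∀ s ∈ S, ∀ u ∈ Sm, ∀ t : ℝ, L s (u + ContinuousMap.const X t) = L s u)
    (adj : ∀ s ∈ S, ∀ u ∈ Sm, ∫ x, L s u x ∂μ = ∫ x, u x * ρ s x ∂μ)
    (s₀ : V) (hs₀ : s₀ ∈ S) (ρs₀ : ∀ x, ρ s₀ x ≤ 0) (ms₀ : ∀ x, 1 ≤ m s₀ x)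
    (c lam : ℝ) (hc : 0 ≤ c) (hlam : 0 < lam)
    (RES : ∀ s ∈ S, ∀ δ : ℝ, 0 < δ → ∃ u ∈ Sm,
      ∀ x, |lam * m s x * u x - L s u x - (A s x - c * m s x)| ≤ δ)
    (T : ∀ s ∈ S, ∀ u ∈ Sm, (∀ x, A s x + L s u x ≤ (c + lam * u x) * m s x) → ∀ x, 0 ≤ u x) :
    ∃ U : Measure X, U.Regular ∧ IsFiniteMeasure U ∧
      U.real univ ≤ (∫ x, (A s₀ x - c * m s₀ x) ∂μ) / lam ∧
      ∀ s ∈ S, 0 ≤ (∫ x, (A s x - c * m s x) ∂μ) + ∫ x, (ρ s x - lam * m s x) ∂U := by
  refine dual8 μ S hadd hsmul m A ρ m_add m_smul A_add A_smul ρ_add ρ_smul Sm L adj s₀ hs₀ ρs₀ ms₀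
    c lam hc hlam ?_
  intro s hs δ hδ
  rcases isEmpty_or_nonempty X with hX | hX
  · obtain ⟨u, hu, -⟩ := RES s hs δ hδ
    exact ⟨u, hu, fun x => (hX.false x).elim, fun x => (hX.false x).elim⟩
  -- bounds for `m s`
  obtain ⟨x₀, -, hx₀⟩ := isCompact_univ.exists_isMinOn (univ_nonempty (α := X))
    (m s).continuous.continuousOn
  obtain ⟨x₁, -, hx₁⟩ := isCompact_univ.exists_isMaxOn (univ_nonempty (α := X))
    (m s).continuous.continuousOn
  have hmin : ∀ x, m s x₀ ≤ m s x := fun x => hx₀ (mem_univ x)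
  have hmax : ∀ x, m s x ≤ m s x₁ := fun x => hx₁ (mem_univ x)
  have h0 : 0 < m s x₀ := m_pos s hs x₀
  have h1 : 0 < m s x₁ := m_pos s hs x₁
  -- approximate solution with error `δ'`, shifted up by `t`, `lam m t ≥ δ'`
  set t : ℝ := δ / (2 * lam * m s x₁) with ht
  have ht0 : 0 < t := by positivity
  set δ' : ℝ := min (δ / 2) (lam * m s x₀ * t) with hδ'
  have hδ'0 : 0 < δ' := by positivity
  obtain ⟨u, hu, hu1⟩ := RES s hs δ' hδ'0
  refine ⟨u + ContinuousMap.const X t, Sm_add_const u hu t, ?_, ?_⟩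
  · refine T s hs _ (Sm_add_const u hu t) fun x => ?_
    rw [L_add_const s hs u hu t]
    have h2 := (abs_le.mp (hu1 x)).1
    have h3 : δ' ≤ lam * m s x₀ * t := min_le_right _ _
    have h4 : lam * m s x₀ * t ≤ lam * m s x * t := by
      have := hmin x
      gcongr
    simp only [ContinuousMap.add_apply, ContinuousMap.const_apply]
    nlinarith
  · intro x
    rw [L_add_const s hs u hu t]
    have h2 := (abs_le.mp (hu1 x)).2
    have h3 : δ' ≤ δ / 2 := min_le_left _ _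
    have h4 : lam * m s x * t ≤ δ / 2 := by
      have h5 : lam * m s x * t ≤ lam * m s x₁ * t := by
        have := hmax x
        gcongr
      have h6 : lam * m s x₁ * t = δ / 2 := by
        rw [ht]
        field_simp
      linarith
    simp only [ContinuousMap.add_apply, ContinuousMap.const_apply]
    nlinarith

/-- **(12.1).**  From `T_δ` (11.3) and the resolvent with density one to a positive measure `l`. -/
theorem dual12 (μ : Measure X) [IsFiniteMeasure μ]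
    (S : Set V) (hne : S.Nonempty) (hadd : ∀ a ∈ S, ∀ b ∈ S, a + b ∈ S)
    (hsmul : ∀ t : ℝ, 0 < t → ∀ a ∈ S, t • a ∈ S)
    (A : V → C(X, ℝ)) (ρ : V →ₗ[ℝ] C(X, ℝ))
    (A_add : ∀ a ∈ S, ∀ b ∈ S, ∀ x, A (a + b) x = A a x + A b x)
    (A_smul : ∀ t : ℝ, 0 < t → ∀ a ∈ S, ∀ x, A (t • a) x = t * A a x)
    (Sm : Set C(X, ℝ)) (L : V → C(X, ℝ) → C(X, ℝ))
    (ρ_mean : ∀ s ∈ S, ∫ x, ρ s x ∂μ = 0)
    (adj : ∀ s ∈ S, ∀ u ∈ Sm, ∫ x, L s u x ∂μ = ∫ x, u x * ρ s x ∂μ)
    (C₃ : ℝ) (hC₃ : 0 ≤ C₃)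
    (RES : ∀ s ∈ S, ∀ δ : ℝ, 0 < δ → ∃ u ∈ Sm, (∀ x, -C₃ - δ ≤ u x) ∧
      ∀ x, u x - L s u x ≤ A s x + δ) :
    ∃ l : Measure X, l.Regular ∧ IsFiniteMeasure l ∧ l.real univ ≤ C₃ * μ.real univ ∧
      ∀ s ∈ S, 0 ≤ (∫ x, A s x ∂μ) + ∫ x, ρ s x ∂l := by
  have hμ : (0 : ℝ) ≤ μ.real univ := measureReal_nonneg
  -- the case of a bound `M > 0`
  have key : ∀ s ∈ S, ∀ M : ℝ, 0 < M → (∀ x, ρ s x ≤ M) →
      0 ≤ (∫ x, A s x ∂μ) + C₃ * μ.real univ * M := by
    intro s hs M hM hρ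
    -- `a = s / M`
    have ha : M⁻¹ • s ∈ S := hsmul _ (inv_pos.mpr hM) s hs
    have hA : ∀ x, A s x = M * A (M⁻¹ • s) x := by
      intro x
      rw [A_smul _ (inv_pos.mpr hM) s hs x, mul_inv_cancel_left₀ hM.ne']
    have hρ' : ∀ x, ρ (M⁻¹ • s) x ≤ 1 := by
      intro x
      rw [map_smul, ContinuousMap.smul_apply, smul_eq_mul, inv_mul_le_iff₀ hM]
      linarith [hρ x]
    have main : 0 ≤ (∫ x, A (M⁻¹ • s) x ∂μ) + C₃ * μ.real univ := by
      refine le_of_forall_pos_le_add fun δ hδ => ?_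
      set δ' : ℝ := δ / (2 * μ.real univ + 1) with hδ'
      have hδ'0 : 0 < δ' := by positivity
      obtain ⟨u, hu, hu0, hu1⟩ := RES _ ha δ' hδ'0
      have i1 : Integrable (fun x => u x - L (M⁻¹ • s) u x) μ :=
        (integrable_coe μ u).sub (integrable_coe μ _)
      have h1 : ∫ x, (u x - L (M⁻¹ • s) u x) ∂μ ≤ ∫ x, (A (M⁻¹ • s) x + δ') ∂μ :=
        integral_mono i1 ((integrable_coe μ _).add (integrable_const _)) hu1
      have h2 : ∫ x, (u x - L (M⁻¹ • s) u x) ∂μ = ∫ x, u x * (1 - ρ (M⁻¹ • s) x) ∂μ := by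
        have e2 : ∫ x, (u x - u x * ρ (M⁻¹ • s) x) ∂μ =
            ∫ x, u x ∂μ - ∫ x, u x * ρ (M⁻¹ • s) x ∂μ :=
          integral_sub (integrable_coe μ u) (integrable_coe μ (u * ρ (M⁻¹ • s)))
        rw [integral_sub (integrable_coe μ u) (integrable_coe μ _), adj _ ha u hu, ← e2]
        refine integral_congr_ae (Filter.Eventually.of_forall fun x => ?_)
        simp only
        ring
      have i2 : Integrable (fun x => (-C₃ - δ') * (1 - ρ (M⁻¹ • s) x)) μ :=
        ((integrable_const (1 : ℝ)).sub (integrable_coe μ (ρ (M⁻¹ • s)))).const_mul _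
      have i3 : Integrable (fun x => u x * (1 - ρ (M⁻¹ • s) x)) μ :=
        integrable_coe μ (u * (1 - ρ (M⁻¹ • s)))
      have h3 : ∫ x, (-C₃ - δ') * (1 - ρ (M⁻¹ • s) x) ∂μ ≤ ∫ x, u x * (1 - ρ (M⁻¹ • s) x) ∂μ := by
        refine integral_mono i2 i3 fun x => ?_
        have h4 : 0 ≤ 1 - ρ (M⁻¹ • s) x := by linarith [hρ' x]
        exact mul_le_mul_of_nonneg_right (hu0 x) h4
      have h4 : ∫ x, (-C₃ - δ') * (1 - ρ (M⁻¹ • s) x) ∂μ = (-C₃ - δ') * μ.real univ := by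
        rw [integral_const_mul, integral_sub (integrable_const _) (integrable_coe μ _),
          ρ_mean _ ha]
        simp
      have h5 : ∫ x, (A (M⁻¹ • s) x + δ') ∂μ = ∫ x, A (M⁻¹ • s) x ∂μ + μ.real univ * δ' := by
        rw [integral_add (integrable_coe μ _) (integrable_const _)]
        simp
      have h6 : 2 * μ.real univ * δ' ≤ δ := by
        rw [hδ', mul_div_assoc', div_le_iff₀ (by positivity)]
        nlinarith
      nlinarith
    have e1 : ∫ x, A s x ∂μ = M * ∫ x, A (M⁻¹ • s) x ∂μ := by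
      rw [← integral_const_mul]
      exact integral_congr_ae (Filter.Eventually.of_forall fun x => hA x)
    rw [e1]
    have := mul_nonneg hM.le main
    nlinarith
  refine Dual271.exists_measure S hne hadd hsmul ρ (fun s => ∫ x, A s x ∂μ) ?_ ?_
    (C₃ * μ.real univ) (by positivity) ?_
  · intro a ha b hb
    rw [← integral_add (integrable_coe μ (A a)) (integrable_coe μ (A b))]
    exact (integral_congr_ae (Filter.Eventually.of_forall fun x => A_add a ha b hb x)).le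
  · intro t ht a ha
    rw [← integral_const_mul]
    exact integral_congr_ae (Filter.Eventually.of_forall fun x => A_smul t ht a ha x)
  · intro s hs M hM hρ
    refine le_of_forall_pos_le_add fun δ hδ => ?_
    have hK : 0 < δ / (C₃ * μ.real univ + 1) := by positivity
    have h1 := key s hs (M + δ / (C₃ * μ.real univ + 1)) (by positivity)
      (fun x => (hρ x).trans (by linarith))
    have h2 : C₃ * μ.real univ * (δ / (C₃ * μ.real univ + 1)) ≤ δ := by
      rw [mul_div_assoc', div_le_iff₀ (by positivity)]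
      have : 0 ≤ C₃ * μ.real univ := by positivity
      nlinarith
    linarith [mul_add (C₃ * μ.real univ) M (δ / (C₃ * μ.real univ + 1))]

/-- **(12.1)** with the hypotheses in their original shape. -/
theorem dual12' (μ : Measure X) [IsFiniteMeasure μ]
    (S : Set V) (hne : S.Nonempty) (hadd : ∀ a ∈ S, ∀ b ∈ S, a + b ∈ S)
    (hsmul : ∀ t : ℝ, 0 < t → ∀ a ∈ S, t • a ∈ S)
    (A : V → C(X, ℝ)) (ρ : V →ₗ[ℝ] C(X, ℝ))
    (A_add : ∀ a ∈ S, ∀ b ∈ S, ∀ x, A (a + b) x = A a x + A b x)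
    (A_smul : ∀ t : ℝ, 0 < t → ∀ a ∈ S, ∀ x, A (t • a) x = t * A a x)
    (Sm : Set C(X, ℝ)) (one_mem : (1 : C(X, ℝ)) ∈ Sm)
    (Sm_add_const : ∀ u ∈ Sm, ∀ t : ℝ, u + ContinuousMap.const X t ∈ Sm)
    (L : V → C(X, ℝ) → C(X, ℝ))
    (L_one : ∀ s ∈ S, L s 1 = 0)
    (L_add_const : ∀ s ∈ S, ∀ u ∈ Sm, ∀ t : ℝ, L s (u + ContinuousMap.const X t) = L s u)
    (adj : ∀ s ∈ S, ∀ u ∈ Sm, ∫ x, L s u x ∂μ = ∫ x, u x * ρ s x ∂μ)
    (C₃ : ℝ) (hC₃ : 0 ≤ C₃)
    (RES : ∀ s ∈ S, ∀ δ : ℝ, 0 < δ → ∃ u ∈ Sm, ∀ x, |u x - L s u x - A s x| ≤ δ)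
    (T : ∀ s ∈ S, ∀ u ∈ Sm, (∀ x, A s x + L s u x ≤ u x) → ∀ x, -C₃ ≤ u x) :
    ∃ l : Measure X, l.Regular ∧ IsFiniteMeasure l ∧ l.real univ ≤ C₃ * μ.real univ ∧
      ∀ s ∈ S, 0 ≤ (∫ x, A s x ∂μ) + ∫ x, ρ s x ∂l := by
  refine dual12 μ S hne hadd hsmul A ρ A_add A_smul Sm L ?_ adj C₃ hC₃ ?_
  · intro s hs
    have h1 := adj s hs 1 one_mem
    rw [L_one s hs] at h1
    simpa using h1.symm
  · intro s hs δ hδ
    obtain ⟨u, hu, hu1⟩ := RES s hs δ hδ
    refine ⟨u, hu, fun x => ?_, fun x => ?_⟩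
    · have h2 := T s hs _ (Sm_add_const u hu δ) (fun y => by
        rw [L_add_const s hs u hu δ]
        have h3 := (abs_le.mp (hu1 y)).1
        simp only [ContinuousMap.add_apply, ContinuousMap.const_apply]
        linarith) x
      simp only [ContinuousMap.add_apply, ContinuousMap.const_apply] at h2
      linarith
    · have h3 := (abs_le.mp (hu1 x)).2
      linarith

section Resolvent

variable {Y : Type*} [TopologicalSpace Y] [CompactSpace Y]

/-- **(7.4)**, abstract form.  If the approximate resolvent equation `Λ u - L u ≈ g` is solvable in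
`Sm` for every `g ∈ Sm`, then so is `lam u - L u ≈ g` for `0 < lam ≤ Λ`, by the maximum principle. -/
theorem res74 (Sm : Submodule ℝ C(Y, ℝ)) (L : Sm →ₗ[ℝ] C(Y, ℝ)) (Λ : ℝ)
    (MP : ∀ v : Sm, ∀ M : ℝ, 0 ≤ M → (∀ x, Λ * (v : C(Y, ℝ)) x - L v x ≤ M) →
      ∀ x, Λ * (v : C(Y, ℝ)) x ≤ M)
    (hsolve : ∀ g : Sm, ∀ δ : ℝ, 0 < δ → ∃ u : Sm,
      ∀ x, |Λ * (u : C(Y, ℝ)) x - L u x - (g : C(Y, ℝ)) x| ≤ δ)
    (lam : ℝ) (h0 : 0 < lam) (h1 : lam ≤ Λ) (g : Sm) (δ : ℝ) (hδ : 0 < δ) :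
    ∃ u : Sm, ∀ x, |lam * (u : C(Y, ℝ)) x - L u x - (g : C(Y, ℝ)) x| ≤ δ := by
  have hΛ : 0 < Λ := h0.trans_le h1
  -- two-sided maximum principle
  have MP2 : ∀ v : Sm, ∀ M : ℝ, 0 ≤ M → (∀ x, |Λ * (v : C(Y, ℝ)) x - L v x| ≤ M) →
      ∀ x, |Λ * (v : C(Y, ℝ)) x| ≤ M := by
    intro v M hM hv x
    rw [abs_le]
    constructor
    · have h2 := MP (-v) M hM (fun y => by
        have := (abs_le.mp (hv y)).1
        simp only [map_neg, Submodule.coe_neg, ContinuousMap.neg_apply]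
        linarith) x
      simp only [Submodule.coe_neg, ContinuousMap.neg_apply] at h2
      linarith
    · exact MP v M hM (fun y => (abs_le.mp (hv y)).2) x
  -- the ratio
  set q : ℝ := (Λ - lam) / Λ with hq
  have hq0 : 0 ≤ q := div_nonneg (by linarith) hΛ.le
  have hq1 : q < 1 := by
    rw [hq, div_lt_one hΛ]
    linarith
  have hqΛ : q * Λ = Λ - lam := by
    rw [hq]
    field_simp
  -- the error
  set e : ℝ := δ * lam / (4 * Λ) with he
  have he0 : 0 < e := by positivity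
  choose R hR using fun g' : Sm => hsolve g' e he0
  -- the iteration
  obtain ⟨u, huS⟩ : ∃ u : ℕ → Sm, ∀ j, u (j + 1) = R (g + (Λ - lam) • u j) :=
    ⟨fun j => Nat.rec (0 : Sm) (fun _ v => R (g + (Λ - lam) • v)) j, fun j => rfl⟩
  have hu : ∀ j x, |Λ * (u (j + 1) : C(Y, ℝ)) x - L (u (j + 1)) x -
      ((g : C(Y, ℝ)) x + (Λ - lam) * (u j : C(Y, ℝ)) x)| ≤ e := by
    intro j x
    have h2 := hR (g + (Λ - lam) • u j) x
    rw [← huS] at h2
    simp only [Submodule.coe_add, Submodule.coe_smul, ContinuousMap.add_apply,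
      ContinuousMap.smul_apply, smul_eq_mul] at h2
    exact h2
  -- bound of the first step
  obtain ⟨K, hK0, hK⟩ : ∃ K : ℝ, 0 ≤ K ∧ ∀ x, |Λ * ((u 1 : C(Y, ℝ)) x - (u 0 : C(Y, ℝ)) x)| ≤ K := by
    refine ⟨‖Λ • ((u 1 : C(Y, ℝ)) - (u 0 : C(Y, ℝ)))‖, norm_nonneg _, fun x => ?_⟩
    exact (Λ • ((u 1 : C(Y, ℝ)) - (u 0 : C(Y, ℝ)))).norm_coe_le_norm x
  -- contraction
  have hcon : ∀ j x, |Λ * ((u (j + 1) : C(Y, ℝ)) x - (u j : C(Y, ℝ)) x)| ≤
      q ^ j * K + 2 * e / (1 - q) := by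
    have h1q : 0 < 1 - q := by linarith
    intro j
    induction j with
    | zero =>
      intro x
      have := hK x
      have h3 : 0 ≤ 2 * e / (1 - q) := by positivity
      simp only [pow_zero, one_mul]
      linarith
    | succ j ih =>
      intro x
      have hM : 0 ≤ q * (q ^ j * K + 2 * e / (1 - q)) + 2 * e := by positivity
      have h2 := MP2 (u (j + 2) - u (j + 1)) _ hM (fun y => by
        have h3 := hu (j + 1) y
        have h4 := hu j y
        have h5 := ih y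
        have h6 : |(Λ - lam) * ((u (j + 1) : C(Y, ℝ)) y - (u j : C(Y, ℝ)) y)| ≤
            q * (q ^ j * K + 2 * e / (1 - q)) := by
          rw [← hqΛ, mul_assoc, abs_mul, abs_of_nonneg hq0]
          exact mul_le_mul_of_nonneg_left h5 hq0
        simp only [map_sub, AddSubgroupClass.coe_sub, ContinuousMap.sub_apply]
        rw [abs_le] at h3 h4 h6 ⊢
        constructor <;> nlinarith) x
      simp only [AddSubgroupClass.coe_sub, ContinuousMap.sub_apply] at h2
      refine h2.trans (le_of_eq ?_)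
      rw [pow_succ]
      field_simp
      ring
  -- choose `j` large
  obtain ⟨j, hj⟩ : ∃ j : ℕ, q ^ j * K ≤ δ / 4 := by
    rcases eq_or_lt_of_le hK0 with hK0' | hK0'
    · exact ⟨0, by rw [← hK0']; simp; linarith⟩
    · obtain ⟨j, hj⟩ := exists_pow_lt_of_lt_one (show 0 < δ / (4 * K) by positivity) hq1
      refine ⟨j, ?_⟩
      have := (lt_div_iff₀ (show 0 < 4 * K by positivity)).mp hj
      nlinarith
  refine ⟨u (j + 1), fun x => ?_⟩
  have h3 := hu j x
  have h4 := hcon j x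
  have h5 : |(Λ - lam) * ((u (j + 1) : C(Y, ℝ)) x - (u j : C(Y, ℝ)) x)| ≤
      q * (q ^ j * K + 2 * e / (1 - q)) := by
    rw [← hqΛ, mul_assoc, abs_mul, abs_of_nonneg hq0]
    exact mul_le_mul_of_nonneg_left h4 hq0
  have h1q : 1 - q = lam / Λ := by
    rw [hq]
    field_simp
    ring
  have h6 : 2 * e / (1 - q) = δ / 2 := by
    rw [h1q, he]
    field_simp
    ring
  have h7 : q * (q ^ j * K + 2 * e / (1 - q)) ≤ δ / 4 + δ / 2 := by
    rw [h6]
    have : 0 ≤ q ^ j * K + δ / 2 := by positivity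
    nlinarith
  have h8 : e ≤ δ / 4 := by
    rw [he, div_le_div_iff₀ (by positivity) (by positivity)]
    nlinarith
  rw [abs_le] at h3 h5 ⊢
  constructor <;> nlinarith

end Resolvent

end Crest.Agent.R269.DualAsm_411
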