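import Crest.Agent.R269.Defs_58
import Crest.Agent.R269.Chart_632
import Crest.Agent.R269.GeoT_328
import Crest.Agent.R269.Atl2_932

/-!
# R269 (S0411), leaf EXT (helper346), file 1: extension of smooth functions on the cone

`Y` = any real normed space, `u : EE N → Y`.

* `InvX I u`          : `u (c • p) = u p` for `p ∈ Cone I`, `c ≠ 0`;
* `LocSm I u`         : near every cone point `u` agrees ON THE CONE with an ambient function smooth at the point;
* `locSm_of_chart`    : smoothness of `u ∘ C.σ` at `0` for one chart centred at each cone point ⇒ `LocSm`;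
* `contDiffOn_chart`  : `LocSm` ⇒ `u ∘ C.σ` is smooth on the whole ball, for every chart;
* `exists_mat_ext`    : `InvX`, `LocSm` ⇒ there is a smooth `g : VV N → Y` with `g (PP p) = u p` on the cone
                        (with values in a given nonempty convex set);
* `exists_ext`        : hence an ambient `w`, smooth at EVERY `p ≠ 0`, `w (c • p) = w p` for ALL `p`,
                        `w = u` on the cone.
-/

set_option autoImplicit false
set_option linter.unusedSectionVars false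

open MvPolynomial Crest.AlgGeometry.ProjEmb Set Filter Topology
open scoped ContDiff ComplexConjugate Manifold

namespace Crest.Agent.R269.Ext1_346

open Crest.Agent.R269.Geo_328 Crest.Agent.R269.Defs_58

noncomputable section

variable {N n : ℕ} {I : Ideal (HomCoordRing N)}
variable {Y : Type*} [NormedAddCommGroup Y] [NormedSpace ℝ Y]

/-- `ℂ*`-invariance on the cone -/
def InvX (I : Ideal (HomCoordRing N)) (u : EE N → Y) : Prop :=
  ∀ p ∈ Cone I, ∀ c : ℂ, c ≠ 0 → u (c • p) = u p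

/-- near every cone point, `u` agrees on the cone with an ambient smooth function -/
def LocSm (I : Ideal (HomCoordRing N)) (u : EE N → Y) : Prop :=
  ∀ p ∈ Cone I, ∃ v : EE N → Y, ContDiffAt ℝ ∞ v p ∧ ∀ᶠ q in 𝓝 p, q ∈ Cone I → u q = v q

theorem LocSm.of_contDiffAt {u : EE N → Y} (h : ∀ p ∈ Cone I, ContDiffAt ℝ ∞ u p) : LocSm I u :=
  fun p hp => ⟨u, h p hp, Eventually.of_forall fun _ _ => rfl⟩

/-! ### charts -/

theorem contDiffAt_σ {p₀ : EE N} (C : ConeChart I n p₀) {z : CC n}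
    (hz : z ∈ Metric.ball (0 : CC n) C.R) : ContDiffAt ℝ ∞ C.σ z :=
  ((C.an z hz).contDiffAt (n := ∞)).restrict_scalars ℝ

theorem contDiffAt_ratio (i : Fin (N + 1)) (J : Fin n → Fin (N + 1)) (p₀ : EE N) {q : EE N}
    (hq : q i ≠ 0) : ContDiffAt ℝ ∞ (ratio i J p₀) q := by
  refine contDiffAt_pi.2 fun k => ?_
  have h : ∀ j, ContDiffAt ℝ ∞ (fun q : EE N => q j) q := fun j =>
    ((ContinuousLinearMap.proj (R := ℝ) (φ := fun _ : Fin (N + 1) => ℂ) j).contDiff).contDiffAt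
  have h2 : ContDiffAt ℝ ∞ (fun q : EE N => q (J k) * (q i)⁻¹) q := (h (J k)).mul ((h i).inv hq)
  simpa only [ratio, div_eq_mul_inv] using h2.sub contDiffAt_const

theorem ratio_self {i : Fin (N + 1)} (J : Fin n → Fin (N + 1)) (p₀ : EE N) :
    ratio i J p₀ p₀ = 0 := by
  funext k; simp [ratio]

theorem ratio_smul {i : Fin (N + 1)} (J : Fin n → Fin (N + 1)) (p₀ q : EE N) {c : ℂ}
    (hc : c ≠ 0) : ratio i J p₀ (c • q) = ratio i J p₀ q := by
  funext k
  simp only [ratio, Pi.smul_apply, smul_eq_mul]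
  rw [mul_div_mul_left _ _ hc]

/-- an invariant function at a cone point of `W` is the chart function -/
theorem eq_chart {u : EE N → Y} (hu : InvX I u) {p₀ : EE N} (C : ConeChart I n p₀) {q : EE N}
    (hq : q ∈ Cone I) (hW : q ∈ C.W) : u q = u (C.σ (ratio C.i C.J p₀ q)) := by
  obtain ⟨h1, h2⟩ := C.surj q hq hW
  conv_lhs => rw [h2]
  exact hu _ (C.σ_cone _ h1) _ (C.W_ne q hW)

theorem locSm_of_chart {u : EE N → Y} (hu : InvX I u)
    (h : ∀ p ∈ Cone I, ∃ C : ConeChart I n p, ContDiffAt ℝ ∞ (fun z => u (C.σ z)) 0) :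
    LocSm I u := by
  intro p hp
  obtain ⟨C, hC⟩ := h p hp
  refine ⟨fun q => u (C.σ (ratio C.i C.J p q)), ?_, ?_⟩
  · have h1 : ContDiffAt ℝ ∞ (ratio C.i C.J p) p := contDiffAt_ratio _ _ _ C.p₀_ne
    have h2 : ContDiffAt ℝ ∞ (fun z => u (C.σ z)) (ratio C.i C.J p p) := by
      rw [ratio_self]; exact hC
    exact h2.comp p h1
  · filter_upwards [C.W_open.mem_nhds C.mem_W] with q hqW hq
    exact eq_chart hu C hq hqW

theorem contDiffOn_chart {u : EE N → Y} (hs : LocSm I u) {p₀ : EE N} (C : ConeChart I n p₀) :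
    ContDiffOn ℝ ∞ (fun z => u (C.σ z)) (Metric.ball 0 C.R) := by
  intro z hz
  obtain ⟨v, hv, he⟩ := hs _ (C.σ_cone z hz)
  have h1 : ContDiffAt ℝ ∞ (fun z => v (C.σ z)) z := hv.comp z (contDiffAt_σ C hz)
  refine (h1.congr_of_eventuallyEq ?_).contDiffWithinAt
  have h2 : ∀ᶠ z' in 𝓝 z, C.σ z' ∈ Cone I → u (C.σ z') = v (C.σ z') :=
    (contDiffAt_σ C hz).continuousAt.eventually he
  filter_upwards [h2, Metric.isOpen_ball.mem_nhds hz] with z' h3 h4
  exact h3 (C.σ_cone z' h4)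

/-! ### extension to the space of matrices -/

/-- column of a matrix -/
def col (i : Fin (N + 1)) (P : VV N) : EE N := fun j => P j i

theorem contDiff_col (i : Fin (N + 1)) : ContDiff ℝ ∞ (col (N := N) i) := by
  refine contDiff_pi.2 fun j => ?_
  exact ((ContinuousLinearMap.proj (R := ℝ) (φ := fun _ : Fin (N + 1) => ℂ) i).comp
    (ContinuousLinearMap.proj (R := ℝ) (φ := fun _ : Fin (N + 1) => Fin (N + 1) → ℂ) j)).contDiff

theorem col_PP (p : EE N) (i : Fin (N + 1)) :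
    col i (PP p) = (conj (p i) / (nsq p : ℂ)) • p := by
  funext j
  simp only [col, PP, Pi.smul_apply, smul_eq_mul]
  ring

/-- MAIN EXTENSION THEOREM (matrix form) -/
theorem exists_mat_ext (hI : I.IsPrime) (hX : IsSmoothProjective I n) {u : EE N → Y}
    (hu : InvX I u) (hs : LocSm I u) {S : Set Y} (hS : Convex ℝ S) (hS0 : S.Nonempty)
    (huS : ∀ p ∈ Cone I, u p ∈ S) :
    ∃ g : VV N → Y, ContDiff ℝ ∞ g ∧ (∀ P, g P ∈ S) ∧ ∀ p ∈ Cone I, g (PP p) = u p := by
  classical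
  obtain ⟨s₀, hs₀⟩ := hS0
  have key : ∃ g : C^(⊤ : ℕ∞)⟮𝓘(ℝ, VV N), VV N; 𝓘(ℝ, Y), Y⟯,
      ∀ P, g P ∈ {y : Y | y ∈ S ∧ ∀ p ∈ Cone I, PP p = P → y = u p} := by
    refine exists_contMDiffMap_forall_mem_convex_of_local (𝓘(ℝ, VV N))
      (t := fun P => {y : Y | y ∈ S ∧ ∀ p ∈ Cone I, PP p = P → y = u p}) ?_ ?_
    · rintro P y ⟨hy1, hy2⟩ z ⟨hz1, hz2⟩ a b ha hb hab
      refine ⟨hS hy1 hz1 ha hb hab, fun p hp hpP => ?_⟩
      rw [hy2 p hp hpP, hz2 p hp hpP, ← add_smul, hab, one_smul]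
    · intro P
      by_cases hP : P ∈ XX I
      · obtain ⟨p₀, hp₀, rfl⟩ := hP
        obtain ⟨C⟩ := Chart_632.chartStmt N n I hI hX p₀ hp₀
        set f : VV N → CC n := fun Q => ratio C.i C.J p₀ (col C.i Q) with hf
        have hc₀ : (conj (p₀ C.i) / (nsq p₀ : ℂ)) ≠ 0 :=
          div_ne_zero (by simpa using C.p₀_ne) (Atl_932.nsq_ne hp₀.2)
        have hfP : f (PP p₀) = 0 := by
          simp only [hf]
          rw [col_PP, ratio_smul _ _ _ hc₀, ratio_self]
        have hfs : ∀ Q : VV N, Q C.i C.i ≠ 0 → ContDiffAt ℝ ∞ f Q := fun Q hQ =>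
          (contDiffAt_ratio C.i C.J p₀ (q := col C.i Q) hQ).comp Q (contDiff_col C.i).contDiffAt
        have hQi : PP p₀ C.i C.i ≠ 0 := Atl_932.PP_diag_ne C.p₀_ne
        refine ⟨{Q | Q C.i C.i ≠ 0 ∧ col C.i Q ∈ C.W ∧ f Q ∈ Metric.ball (0 : CC n) C.R},
          ?_, fun Q => u (C.σ (f Q)), ?_, ?_⟩
        · have h1 : ∀ᶠ Q in 𝓝 (PP p₀), Q C.i C.i ≠ 0 := by
            have : Continuous fun Q : VV N => Q C.i C.i := by fun_prop
            exact this.continuousAt.eventually_ne hQi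
          have h2 : ∀ᶠ Q in 𝓝 (PP p₀), col C.i Q ∈ C.W := by
            refine (contDiff_col C.i).continuous.continuousAt.eventually
              (C.W_open.mem_nhds ?_)
            rw [col_PP]
            exact C.W_smul _ hc₀ _ C.mem_W
          have h3 : ∀ᶠ Q in 𝓝 (PP p₀), f Q ∈ Metric.ball (0 : CC n) C.R := by
            refine (hfs _ hQi).continuousAt.eventually (Metric.isOpen_ball.mem_nhds ?_)
            rw [hfP]
            exact Metric.mem_ball_self C.R_pos
          filter_upwards [h1, h2, h3] with Q h4 h5 h6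
          exact ⟨h4, h5, h6⟩
        · intro Q hQ
          have h1 : ContDiffAt ℝ ∞ (fun z => u (C.σ z)) (f Q) :=
            (contDiffOn_chart hs C _ hQ.2.2).contDiffAt (Metric.isOpen_ball.mem_nhds hQ.2.2)
          exact (h1.comp Q (hfs Q hQ.1)).contMDiffAt.contMDiffWithinAt
        · rintro Q ⟨hQ1, hQ2, hQ3⟩
          refine ⟨huS _ (C.σ_cone _ hQ3), fun p hp hpQ => ?_⟩
          subst hpQ
          have hpi : p C.i ≠ 0 := by
            intro h0
            apply hQ1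
            rw [Atl_932.PP_diag, h0]
            simp
          have hc : (conj (p C.i) / (nsq p : ℂ)) ≠ 0 :=
            div_ne_zero (by simpa using hpi) (Atl_932.nsq_ne hp.2)
          rw [col_PP] at hQ2
          have h1 := eq_chart hu C (smul_mem_Cone hX hp hc) hQ2
          rw [hu p hp _ hc] at h1
          rw [h1, hf]
          simp only
          rw [col_PP]
      · refine ⟨(XX I)ᶜ, (Atl_932.isCompact_XX hX).isClosed.isOpen_compl.mem_nhds hP,
          fun _ => s₀, contMDiffOn_const, fun Q hQ => ⟨hs₀, fun p hp hpQ => ?_⟩⟩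
        exact absurd ⟨p, hp, hpQ⟩ hQ
  obtain ⟨g, hg⟩ := key
  exact ⟨g, g.contMDiff.contDiff, fun P => (hg P).1, fun p hp => (hg (PP p)).2 p hp rfl⟩

/-- MAIN EXTENSION THEOREM (ambient form, with values in a convex set) -/
theorem exists_ext_mem (hI : I.IsPrime) (hX : IsSmoothProjective I n) {u : EE N → Y}
    (hu : InvX I u) (hs : LocSm I u) {S : Set Y} (hS : Convex ℝ S) (hS0 : S.Nonempty)
    (huS : ∀ p ∈ Cone I, u p ∈ S) :
    ∃ w : EE N → Y, (∀ p, p ≠ 0 → ContDiffAt ℝ ∞ w p) ∧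
      (∀ p, ∀ c : ℂ, c ≠ 0 → w (c • p) = w p) ∧ (∀ p, w p ∈ S) ∧ ∀ p ∈ Cone I, w p = u p := by
  obtain ⟨g, hg1, hg2, hg3⟩ := exists_mat_ext hI hX hu hs hS hS0 huS
  refine ⟨fun p => g (PP p), fun p hp => hg1.contDiffAt.comp p (Atl_932.contDiffAt_PP hp),
    fun p c hc => ?_, fun p => hg2 _, hg3⟩
  show g (PP (c • p)) = g (PP p)
  rw [Atl_932.PP_smul hc]

/-- EXTENSION THEOREM (ambient form) -/
theorem exists_ext (hI : I.IsPrime) (hX : IsSmoothProjective I n) {u : EE N → Y}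
    (hu : InvX I u) (hs : LocSm I u) :
    ∃ w : EE N → Y, (∀ p, p ≠ 0 → ContDiffAt ℝ ∞ w p) ∧
      (∀ p, ∀ c : ℂ, c ≠ 0 → w (c • p) = w p) ∧ ∀ p ∈ Cone I, w p = u p := by
  obtain ⟨w, h1, h2, -, h3⟩ := exists_ext_mem hI hX hu hs convex_univ univ_nonempty
    (fun _ _ => mem_univ _)
  exact ⟨w, h1, h2, h3⟩

/-- extension to an `SmX` function -/
theorem exists_smX (hI : I.IsPrime) (hX : IsSmoothProjective I n) {u : EE N → ℝ}
    (hu : InvX I u) (hs : LocSm I u) : ∃ w, SmX I w ∧ ∀ p ∈ Cone I, w p = u p := by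
  obtain ⟨w, h1, h2, h3⟩ := exists_ext hI hX hu hs
  exact ⟨w, ⟨fun p hp => h1 p hp.2, fun p _ c hc => h2 p c hc⟩, h3⟩

/-- extension to an `SmX` function from the charts -/
theorem exists_smX_chart (hI : I.IsPrime) (hX : IsSmoothProjective I n) {u : EE N → ℝ}
    (hu : InvX I u)
    (h : ∀ p ∈ Cone I, ∃ C : ConeChart I n p, ContDiffAt ℝ ∞ (fun z => u (C.σ z)) 0) :
    ∃ w, SmX I w ∧ ∀ p ∈ Cone I, w p = u p :=
  exists_smX hI hX hu (locSm_of_chart hu h)

end

end Crest.Agent.R269.Ext1_346
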