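import Crest.Agent.R269.Ext1_346

/-!
# R269 (S0411), leaf EXT (helper346), file 2: algebra of `SmX`, compactness

* `smX_const, smX_add, smX_neg, smX_sub, smX_mul, smX_pow, smX_smul, smX_sum, smX_prod`;
* `smX_comp` (smooth `f : ℝ → ℝ` at the values), `smX_inv, smX_div, smX_exp, smX_log, smX_sqrt, smX_rpow`;
* `smX_mat` : `g (PP p)` for smooth `g : VV N → ℝ`;
* `exists_bound, exists_max, exists_min, exists_pos_le` : continuous invariant functions on the cone;
(cut-offs and the partition of unity: `Ext3_346`; fields: `Ext4_346`.)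
-/

set_option autoImplicit false
set_option linter.unusedSectionVars false

open MvPolynomial Crest.AlgGeometry.ProjEmb Set Filter Topology
open scoped ContDiff ComplexConjugate Manifold

namespace Crest.Agent.R269.Ext2_346

open Crest.Agent.R269.Geo_328 Crest.Agent.R269.Defs_58 Crest.Agent.R269.Ext1_346

noncomputable section

variable {N n : ℕ} {I : Ideal (HomCoordRing N)}

/-! ### algebra of `SmX` -/

section Algebra

variable {u v : EE N → ℝ}

theorem smX_const (c : ℝ) : SmX I (fun _ => c) :=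
  ⟨fun _ _ => contDiffAt_const, fun _ _ _ _ => rfl⟩

theorem smX_add (hu : SmX I u) (hv : SmX I v) : SmX I (fun p => u p + v p) :=
  ⟨fun p hp => (hu.1 p hp).add (hv.1 p hp), fun p hp c hc => by
    show u (c • p) + v (c • p) = u p + v p
    rw [hu.2 p hp c hc, hv.2 p hp c hc]⟩

theorem smX_neg (hu : SmX I u) : SmX I (fun p => - u p) :=
  ⟨fun p hp => (hu.1 p hp).neg, fun p hp c hc => by
    show - u (c • p) = - u p
    rw [hu.2 p hp c hc]⟩

theorem smX_sub (hu : SmX I u) (hv : SmX I v) : SmX I (fun p => u p - v p) :=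
  ⟨fun p hp => (hu.1 p hp).sub (hv.1 p hp), fun p hp c hc => by
    show u (c • p) - v (c • p) = u p - v p
    rw [hu.2 p hp c hc, hv.2 p hp c hc]⟩

theorem smX_mul (hu : SmX I u) (hv : SmX I v) : SmX I (fun p => u p * v p) :=
  ⟨fun p hp => (hu.1 p hp).mul (hv.1 p hp), fun p hp c hc => by
    show u (c • p) * v (c • p) = u p * v p
    rw [hu.2 p hp c hc, hv.2 p hp c hc]⟩

theorem smX_smul (a : ℝ) (hu : SmX I u) : SmX I (fun p => a * u p) := smX_mul (smX_const a) hu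

theorem smX_comp {f : ℝ → ℝ} (hu : SmX I u) (hf : ∀ p ∈ Cone I, ContDiffAt ℝ ∞ f (u p)) :
    SmX I (fun p => f (u p)) :=
  ⟨fun p hp => (hf p hp).comp p (hu.1 p hp), fun p hp c hc => by
    show f (u (c • p)) = f (u p)
    rw [hu.2 p hp c hc]⟩

theorem smX_pow (hu : SmX I u) (k : ℕ) : SmX I (fun p => u p ^ k) :=
  smX_comp hu fun _ _ => (contDiff_id.pow k).contDiffAt

theorem smX_inv (hu : SmX I u) (h : ∀ p ∈ Cone I, u p ≠ 0) : SmX I (fun p => (u p)⁻¹) :=
  smX_comp hu fun p hp => contDiffAt_inv ℝ (h p hp)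

theorem smX_div (hu : SmX I u) (hv : SmX I v) (h : ∀ p ∈ Cone I, v p ≠ 0) :
    SmX I (fun p => u p / v p) := by
  simpa only [div_eq_mul_inv] using smX_mul hu (smX_inv hv h)

theorem smX_exp (hu : SmX I u) : SmX I (fun p => Real.exp (u p)) :=
  smX_comp hu fun _ _ => Real.contDiff_exp.contDiffAt

theorem smX_log (hu : SmX I u) (h : ∀ p ∈ Cone I, u p ≠ 0) : SmX I (fun p => Real.log (u p)) :=
  smX_comp hu fun p hp => Real.contDiffAt_log.2 (h p hp)

theorem smX_sqrt (hu : SmX I u) (h : ∀ p ∈ Cone I, u p ≠ 0) : SmX I (fun p => Real.sqrt (u p)) :=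
  smX_comp hu fun p hp => Real.contDiffAt_sqrt (h p hp)

theorem smX_rpow (hu : SmX I u) (h : ∀ p ∈ Cone I, u p ≠ 0) (s : ℝ) :
    SmX I (fun p => u p ^ s) :=
  smX_comp hu fun p hp => Real.contDiffAt_rpow_const_of_ne (h p hp)

theorem smX_sum {ι : Type*} {s : Finset ι} {f : ι → EE N → ℝ} (h : ∀ i ∈ s, SmX I (f i)) :
    SmX I (fun p => ∑ i ∈ s, f i p) :=
  ⟨fun p hp => ContDiffAt.sum fun i hi => (h i hi).1 p hp, fun p hp c hc => by
    show ∑ i ∈ s, f i (c • p) = ∑ i ∈ s, f i p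
    exact Finset.sum_congr rfl fun i hi => (h i hi).2 p hp c hc⟩

theorem smX_prod {ι : Type*} {s : Finset ι} {f : ι → EE N → ℝ} (h : ∀ i ∈ s, SmX I (f i)) :
    SmX I (fun p => ∏ i ∈ s, f i p) := by
  refine ⟨fun p hp => ?_, fun p hp c hc => ?_⟩
  · exact contDiffAt_prod fun i hi => (h i hi).1 p hp
  · show ∏ i ∈ s, f i (c • p) = ∏ i ∈ s, f i p
    exact Finset.prod_congr rfl fun i hi => (h i hi).2 p hp c hc

theorem smX_mat {g : VV N → ℝ} (hg : ContDiff ℝ ∞ g) : SmX I (fun p => g (PP p)) :=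
  ⟨fun p hp => hg.contDiffAt.comp p (Atl_932.contDiffAt_PP hp.2), fun p _ c hc => by
    show g (PP (c • p)) = g (PP p)
    rw [Atl_932.PP_smul hc]⟩

/-- an `SmX` function may be changed off the cone -/
theorem smX_congr (hu : SmX I u) (hv : ∀ p ∈ Cone I, ContDiffAt ℝ ∞ v p)
    (h : ∀ p ∈ Cone I, v p = u p) (hX : IsSmoothProjective I n) : SmX I v :=
  ⟨hv, fun p hp c hc => by rw [h p hp, h _ (smul_mem_Cone hX hp hc), hu.2 p hp c hc]⟩

end Algebra

/-! ### compactness -/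

section Compact

variable {Y : Type*} [NormedAddCommGroup Y] [NormedSpace ℝ Y]

theorem SmX_continuousOn {u : EE N → ℝ} (hu : SmX I u) : ContinuousOn u (Cone I) :=
  fun p hp => (hu.1 p hp).continuousAt.continuousWithinAt

/-- values of an invariant function are values on the sphere -/
theorem exists_sph (hX : IsSmoothProjective I n) {u : EE N → Y} (hu : InvX I u) {p : EE N}
    (hp : p ∈ Cone I) : ∃ q ∈ Atl_932.Sph I, u q = u p := by
  obtain ⟨c, hc, h⟩ := Atl_932.exists_normalise hX hp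
  exact ⟨c • p, h, hu p hp c hc⟩

theorem exists_bound (hX : IsSmoothProjective I n) {u : EE N → Y}
    (hc : ContinuousOn u (Cone I)) (hu : InvX I u) :
    ∃ C : ℝ, 0 ≤ C ∧ ∀ p ∈ Cone I, ‖u p‖ ≤ C := by
  obtain ⟨C, hC⟩ := (Atl_932.isCompact_Sph I).exists_bound_of_continuousOn
    (hc.mono Atl_932.Sph_sub)
  refine ⟨max C 0, le_max_right _ _, fun p hp => ?_⟩
  obtain ⟨q, hq, h⟩ := exists_sph hX hu hp
  rw [← h]
  exact (hC q hq).trans (le_max_left _ _)

theorem Sph_nonempty (hI : I.IsPrime) (hX : IsSmoothProjective I n) :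
    (Atl_932.Sph I).Nonempty := by
  have := hI
  obtain ⟨p, hp⟩ := Cone_nonempty hX
  obtain ⟨c, hc, h⟩ := Atl_932.exists_normalise hX hp
  exact ⟨_, h⟩

theorem exists_max (hI : I.IsPrime) (hX : IsSmoothProjective I n) {u : EE N → ℝ}
    (hc : ContinuousOn u (Cone I)) (hu : InvX I u) :
    ∃ p ∈ Cone I, nsq p = 1 ∧ ∀ q ∈ Cone I, u q ≤ u p := by
  obtain ⟨p, hp, h⟩ := (Atl_932.isCompact_Sph I).exists_isMaxOn (Sph_nonempty hI hX)
    (hc.mono Atl_932.Sph_sub)
  refine ⟨p, Atl_932.Sph_sub hp, hp.2, fun q hq => ?_⟩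
  obtain ⟨q', hq', h'⟩ := exists_sph hX hu hq
  rw [← h']
  exact h hq'

theorem exists_min (hI : I.IsPrime) (hX : IsSmoothProjective I n) {u : EE N → ℝ}
    (hc : ContinuousOn u (Cone I)) (hu : InvX I u) :
    ∃ p ∈ Cone I, nsq p = 1 ∧ ∀ q ∈ Cone I, u p ≤ u q := by
  obtain ⟨p, hp, h⟩ := (Atl_932.isCompact_Sph I).exists_isMinOn (Sph_nonempty hI hX)
    (hc.mono Atl_932.Sph_sub)
  refine ⟨p, Atl_932.Sph_sub hp, hp.2, fun q hq => ?_⟩
  obtain ⟨q', hq', h'⟩ := exists_sph hX hu hq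
  rw [← h']
  exact h hq'

theorem exists_pos_le (hX : IsSmoothProjective I n) {u : EE N → ℝ}
    (hc : ContinuousOn u (Cone I)) (hu : InvX I u) (h0 : ∀ p ∈ Cone I, 0 < u p) :
    ∃ c : ℝ, 0 < c ∧ ∀ p ∈ Cone I, c ≤ u p := by
  rcases (Atl_932.Sph I).eq_empty_or_nonempty with he | hne
  · refine ⟨1, one_pos, fun p hp => ?_⟩
    obtain ⟨q, hq, -⟩ := exists_sph hX hu hp
    rw [he] at hq
    exact hq.elim
  · obtain ⟨p, hp, h⟩ := (Atl_932.isCompact_Sph I).exists_isMinOn hne (hc.mono Atl_932.Sph_sub)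
    refine ⟨u p, h0 p (Atl_932.Sph_sub hp), fun q hq => ?_⟩
    obtain ⟨q', hq', h'⟩ := exists_sph hX hu hq
    rw [← h']
    exact h hq'

theorem smX_bound (hX : IsSmoothProjective I n) {u : EE N → ℝ} (hu : SmX I u) :
    ∃ C : ℝ, 0 ≤ C ∧ ∀ p ∈ Cone I, |u p| ≤ C := exists_bound hX (SmX_continuousOn hu) hu.2

theorem smX_pos_le (hX : IsSmoothProjective I n) {u : EE N → ℝ} (hu : SmX I u)
    (h0 : ∀ p ∈ Cone I, 0 < u p) : ∃ c : ℝ, 0 < c ∧ ∀ p ∈ Cone I, c ≤ u p :=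
  exists_pos_le hX (SmX_continuousOn hu) hu.2 h0

end Compact

end

end Crest.Agent.R269.Ext2_346
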