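import Crest.Agent.R269.Ext2_346
import Crest.Agent.R269.Atl4_932

/-!
# R269 (S0411), leaf EXT (helper346), file 3: cut-offs, partition of unity, forms on the unit sphere bundle

* `exists_cutoff`     : smooth `ℂ*`-invariant cut-off between an invariant closed set `K` and the complement of an
                        invariant open set `W ⊇ K`;  `exists_bump` : the case of one point;
* `exists_partition`  : smooth invariant partition of unity on the cone subordinate to invariant open sets;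
* `exists_chart_partition` : the same for finitely many charts (supports over the half balls);
* `STan`, `isCompact_STan`, `exists_form_bound`, `exists_form_pos` : homogeneous functions of `(p, v)`,
  `v ∈ Tan I p`: `|F p v| ≤ C * omg p v`, and `c * omg p v ≤ F p v` when `F > 0` off `ℂ p`.
-/

set_option autoImplicit false
set_option linter.unusedSectionVars false

open MvPolynomial Crest.AlgGeometry.ProjEmb Set Filter Topology
open scoped ContDiff ComplexConjugate Manifold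

namespace Crest.Agent.R269.Ext3_346

open Crest.Agent.R269.Geo_328 Crest.Agent.R269.Defs_58 Crest.Agent.R269.Ext1_346
open Crest.Agent.R269.Ext2_346

noncomputable section

variable {N n : ℕ} {I : Ideal (HomCoordRing N)}

/-- invariant subset -/
def InvSet (W : Set (EE N)) : Prop := ∀ c : ℂ, c ≠ 0 → ∀ q ∈ W, c • q ∈ W

theorem InvSet.smul_iff {W : Set (EE N)} (h : InvSet W) {c : ℂ} (hc : c ≠ 0) {q : EE N} :
    c • q ∈ W ↔ q ∈ W := by
  refine ⟨fun hq => ?_, h c hc q⟩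
  have := h c⁻¹ (inv_ne_zero hc) _ hq
  rwa [smul_smul, inv_mul_cancel₀ hc, one_smul] at this

/-- smooth and `ℂ*`-invariant on all of `EE N \ {0}` -/
structure GSm (u : EE N → ℝ) : Prop where
  sm : ∀ p, p ≠ 0 → ContDiffAt ℝ ∞ u p
  inv : ∀ p, ∀ c : ℂ, c ≠ 0 → u (c • p) = u p

theorem GSm.smX {u : EE N → ℝ} (h : GSm u) : SmX I u :=
  ⟨fun p hp => h.sm p hp.2, fun p _ c hc => h.inv p c hc⟩

theorem gSm_mat {g : VV N → ℝ} (hg : ContDiff ℝ ∞ g) : GSm (fun p => g (PP p)) :=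
  ⟨fun _ hp => hg.contDiffAt.comp _ (Atl_932.contDiffAt_PP hp), fun p c hc => by
    show g (PP (c • p)) = g (PP p)
    rw [Atl_932.PP_smul hc]⟩

/-- the unit sphere of `EE N` -/
def S1 (N : ℕ) : Set (EE N) := {p | nsq p = 1}

theorem isCompact_S1 : IsCompact (S1 N) := by
  refine Metric.isCompact_of_isClosed_isBounded
    (isClosed_eq Atl_932.continuous_nsq continuous_const) ?_
  refine (Metric.isBounded_closedBall (x := (0 : EE N)) (r := 1)).subset fun p hp => ?_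
  rw [mem_closedBall_zero_iff, pi_norm_le_iff_of_nonneg zero_le_one]
  intro k
  have h1 : ‖p k‖ ^ 2 ≤ nsq p :=
    Finset.single_le_sum (f := fun k => ‖p k‖ ^ 2) (fun _ _ => by positivity) (Finset.mem_univ k)
  have h2 : nsq p = 1 := hp
  rw [h2] at h1
  nlinarith [norm_nonneg (p k)]

theorem S1_ne {p : EE N} (hp : p ∈ S1 N) : p ≠ 0 := by
  rintro rfl
  have h : nsq (0 : EE N) = 1 := hp
  simp [nsq] at h

theorem exists_smul_S1 {p : EE N} (hp : p ≠ 0) : ∃ c : ℂ, c ≠ 0 ∧ c • p ∈ S1 N := by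
  have h := Atl_932.nsq_pos hp
  have h1 : 0 < Real.sqrt (nsq p) := Real.sqrt_pos.2 h
  refine ⟨((Real.sqrt (nsq p))⁻¹ : ℝ), by exact_mod_cast (inv_pos.2 h1).ne', ?_⟩
  show nsq _ = 1
  rw [Atl_932.nsq_smul, Complex.norm_real, norm_inv, Real.norm_of_nonneg h1.le, inv_pow,
    Real.sq_sqrt h.le, inv_mul_cancel₀ h.ne']

/-- the image in matrix space of an invariant set, closed in `EE N \ {0}` -/
def img (K : Set (EE N)) : Set (VV N) := PP '' (S1 N ∩ K)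

theorem isCompact_img {K : Set (EE N)} (hK : IsClosed (S1 N ∩ K)) : IsCompact (img K) := by
  have h : IsCompact (S1 N ∩ K) := isCompact_S1.of_isClosed_subset hK inter_subset_left
  refine h.image_of_continuousOn ?_
  exact fun p hp => (Atl_932.continuousAt_PP (S1_ne hp.1)).continuousWithinAt

theorem PP_mem_img {K : Set (EE N)} (hKs : InvSet K) {q : EE N} (hq : q ≠ 0) :
    PP q ∈ img K ↔ q ∈ K := by
  constructor
  · rintro ⟨p, ⟨hp1, hp2⟩, hpq⟩
    obtain ⟨c, h⟩ := Atl_932.eq_smul_of_PP_eq hq (S1_ne hp1) hpq.symm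
    have hc : c ≠ 0 := by
      rintro rfl
      rw [zero_smul] at h
      exact (S1_ne hp1) h.2
    exact (hKs.smul_iff hc).1 (h.2 ▸ hp2)
  · intro hqK
    obtain ⟨c, hc, h⟩ := exists_smul_S1 hq
    exact ⟨c • q, ⟨h, hKs c hc q hqK⟩, Atl_932.PP_smul hc q⟩

/-! ### cut-offs -/

theorem exists_cutoff {W K : Set (EE N)} (hW : IsOpen W) (hWs : InvSet W)
    (hK : IsClosed (S1 N ∩ K)) (hKs : InvSet K) (hKW : ∀ q ∈ K, q ≠ 0 → q ∈ W) :
    ∃ χ : EE N → ℝ, GSm χ ∧ (∀ p, 0 ≤ χ p ∧ χ p ≤ 1) ∧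
      (∀ q, q ≠ 0 → q ∈ K → ∀ᶠ q' in 𝓝 q, χ q' = 1) ∧
      ∀ q, q ≠ 0 → q ∉ W → ∀ᶠ q' in 𝓝 q, χ q' = 0 := by
  have hB : IsClosed (S1 N ∩ Wᶜ) := isCompact_S1.isClosed.inter hW.isClosed_compl
  have hWc : InvSet (Wᶜ) := fun c hc q hq h => hq ((hWs.smul_iff hc).1 h)
  have h1 := (isCompact_img hB).isClosed
  have h2 := (isCompact_img hK).isClosed
  have hd : Disjoint (img (N := N) Wᶜ) (img K) := by
    refine Set.disjoint_left.2 ?_
    rintro _ ⟨p, ⟨hp1, hp2⟩, rfl⟩ h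
    exact hp2 (hKW p ((PP_mem_img hKs (S1_ne hp1)).1 h) (S1_ne hp1))
  obtain ⟨f, hf0, hf1, hf2⟩ := exists_contMDiffMap_zero_one_nhds_of_isClosed (n := ⊤)
    𝓘(ℝ, VV N) h1 h2 hd
  refine ⟨fun p => f (PP p), gSm_mat f.contMDiff.contDiff, fun p => hf2 _, fun q hq hqK => ?_,
    fun q hq hqW => ?_⟩
  · have h3 : ∀ᶠ x in 𝓝 (PP q), f x = 1 :=
      (mem_nhdsSet_iff_forall.1 hf1) _ ((PP_mem_img hKs hq).2 hqK)
    exact (Atl_932.continuousAt_PP hq).eventually h3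
  · have h3 : ∀ᶠ x in 𝓝 (PP q), f x = 0 :=
      (mem_nhdsSet_iff_forall.1 hf0) _ ((PP_mem_img hWc hq).2 hqW)
    exact (Atl_932.continuousAt_PP hq).eventually h3

/-- the line through `p₀`, without `0` -/
theorem exists_bump {W : Set (EE N)} (hW : IsOpen W) (hWs : InvSet W) {p₀ : EE N}
    (h0 : p₀ ≠ 0) (hp₀ : p₀ ∈ W) :
    ∃ χ : EE N → ℝ, GSm χ ∧ (∀ p, 0 ≤ χ p ∧ χ p ≤ 1) ∧ (∀ᶠ q in 𝓝 p₀, χ q = 1) ∧
      ∀ q, q ≠ 0 → q ∉ W → ∀ᶠ q' in 𝓝 q, χ q' = 0 := by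
  have hK : IsClosed (S1 N ∩ {q | ∃ c : ℂ, c ≠ 0 ∧ q = c • p₀}) := by
    have h1 : S1 N ∩ {q | ∃ c : ℂ, c ≠ 0 ∧ q = c • p₀} =
        S1 N ∩ (ℂ ∙ p₀ : Submodule ℂ (EE N)) := by
      ext q
      simp only [mem_inter_iff, mem_ofPred_eq, SetLike.mem_coe, Submodule.mem_span_singleton]
      constructor
      · rintro ⟨h1, c, -, h2⟩
        exact ⟨h1, c, h2.symm⟩
      · rintro ⟨h1, c, h2⟩
        refine ⟨h1, c, ?_, h2.symm⟩
        rintro rfl
        rw [zero_smul] at h2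
        exact S1_ne h1 h2.symm
    rw [h1]
    exact isCompact_S1.isClosed.inter (Submodule.closed_of_finiteDimensional _)
  obtain ⟨χ, h1, h2, h3, h4⟩ := exists_cutoff hW hWs hK
    (by
      rintro c hc q ⟨d, hd, rfl⟩
      exact ⟨c * d, mul_ne_zero hc hd, by rw [smul_smul]⟩)
    (by
      rintro q ⟨d, hd, rfl⟩ -
      exact hWs d hd _ hp₀)
  exact ⟨χ, h1, h2, h3 p₀ h0 ⟨1, one_ne_zero, (one_smul _ _).symm⟩, h4⟩

/-! ### partition of unity -/

theorem exists_partition (hX : IsSmoothProjective I n) {ι : Type*} (W : ι → Set (EE N))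
    (hW : ∀ i, IsOpen (W i)) (hWs : ∀ i, InvSet (W i)) (hcov : ∀ p ∈ Cone I, ∃ i, p ∈ W i) :
    ∃ (t : Finset ι) (χ : ι → EE N → ℝ), (∀ i, GSm (χ i)) ∧ (∀ i p, 0 ≤ χ i p) ∧
      (∀ p ∈ Cone I, ∑ i ∈ t, χ i p = 1) ∧
      ∀ i, ∀ q, q ≠ 0 → q ∉ W i → ∀ᶠ q' in 𝓝 q, χ i q' = 0 := by
  classical
  obtain ⟨t, ht⟩ := (Atl_932.isCompact_Sph I).elim_finite_subcover W hW (fun p hp => by
    obtain ⟨i, hi⟩ := hcov p (Atl_932.Sph_sub hp)
    exact mem_iUnion.2 ⟨i, hi⟩)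
  have hWc : ∀ i, InvSet ((W i)ᶜ) := fun i c hc q hq h => hq (((hWs i).smul_iff hc).1 h)
  set V : t → Set (VV N) := fun i => (img ((W i.1)ᶜ))ᶜ with hV
  have hVo : ∀ i, IsOpen (V i) := fun i =>
    (isCompact_img (isCompact_S1.isClosed.inter (hW i.1).isClosed_compl)).isClosed.isOpen_compl
  have hVi : ∀ (i : t) (q : EE N), q ≠ 0 → (PP q ∈ V i ↔ q ∈ W i.1) := by
    intro i q hq
    rw [hV]
    simp only [mem_compl_iff]
    rw [PP_mem_img (hWc i.1) hq, mem_compl_iff, not_not]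
  have hcv : XX I ⊆ ⋃ i, V i := by
    rw [Atl_932.XX_eq_image_Sph hX]
    rintro _ ⟨q, hq, rfl⟩
    obtain ⟨i, hi, hqi⟩ := mem_iUnion₂.1 (ht hq)
    exact mem_iUnion.2 ⟨⟨i, hi⟩, (hVi ⟨i, hi⟩ q (Atl_932.Sph_sub hq).2).2 hqi⟩
  obtain ⟨ρ, hρ⟩ := SmoothPartitionOfUnity.exists_isSubordinate 𝓘(ℝ, VV N)
    (Atl_932.isCompact_XX hX).isClosed V hVo hcv
  refine ⟨t, fun i p => if h : i ∈ t then ρ ⟨i, h⟩ (PP p) else 0, fun i => ?_, fun i p => ?_,
    fun p hp => ?_, fun i q hq hqW => ?_⟩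
  · by_cases h : i ∈ t
    · simp only [h, dif_pos]
      exact gSm_mat (g := ρ ⟨i, h⟩) (ρ ⟨i, h⟩).contMDiff.contDiff
    · simp only [h, dif_neg, not_false_eq_true]
      exact ⟨fun _ _ => contDiffAt_const, fun _ _ _ => rfl⟩
  · by_cases h : i ∈ t
    · simp only [h, dif_pos]
      exact ρ.nonneg _ _
    · simp only [h, dif_neg, not_false_eq_true, le_refl]
  · have h1 : ∑ᶠ i, ρ i (PP p) = 1 := ρ.sum_eq_one (Atl_932.PP_mem_XX hp)
    rw [finsum_eq_sum_of_fintype] at h1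
    rw [← h1, ← Finset.sum_coe_sort t]
    refine Finset.sum_congr rfl fun i _ => ?_
    simp
  · by_cases h : i ∈ t
    · simp only [h, dif_pos]
      have h1 : PP q ∉ tsupport (ρ ⟨i, h⟩) := fun h2 =>
        hqW ((hVi ⟨i, h⟩ q hq).1 (hρ ⟨i, h⟩ h2))
      have h2 : ∀ᶠ x in 𝓝 (PP q), ρ ⟨i, h⟩ x = 0 := notMem_tsupport_iff_eventuallyEq.1 h1
      exact (Atl_932.continuousAt_PP hq).eventually h2
    · simp only [h, dif_neg, not_false_eq_true, Filter.eventually_true]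

/-- the open cone over the ball of radius `r` of a chart -/
def CW {p₀ : EE N} (C : ConeChart I n p₀) (r : ℝ) : Set (EE N) :=
  {q | q ∈ C.W ∧ ratio C.i C.J p₀ q ∈ Metric.ball (0 : CC n) r}

theorem isOpen_CW {p₀ : EE N} (C : ConeChart I n p₀) (r : ℝ) : IsOpen (CW C r) := by
  rw [isOpen_iff_mem_nhds]
  rintro q ⟨h1, h2⟩
  have h3 := (contDiffAt_ratio C.i C.J p₀ (C.W_ne q h1)).continuousAt.eventually
    (Metric.isOpen_ball.mem_nhds h2)
  filter_upwards [C.W_open.mem_nhds h1, h3] with q' h4 h5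
  exact ⟨h4, h5⟩

theorem invSet_CW {p₀ : EE N} (C : ConeChart I n p₀) (r : ℝ) : InvSet (CW C r) :=
  fun c hc q hq => ⟨C.W_smul c hc q hq.1, by rw [ratio_smul _ _ _ hc]; exact hq.2⟩

theorem self_mem_CW {p₀ : EE N} (C : ConeChart I n p₀) {r : ℝ} (hr : 0 < r) : p₀ ∈ CW C r :=
  ⟨C.mem_W, by rw [ratio_self]; exact Metric.mem_ball_self hr⟩

/-- partition of unity subordinate to finitely many charts; `r p C` may be any positive radius -/
theorem exists_chart_partition (hI : I.IsPrime) (hX : IsSmoothProjective I n)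
    (r : ∀ p : EE N, ConeChart I n p → ℝ) (hr : ∀ p C, 0 < r p C) :
    ∃ (m : ℕ) (p : Fin m → EE N) (C : ∀ i, ConeChart I n (p i)) (χ : Fin m → EE N → ℝ),
      (∀ i, p i ∈ Cone I) ∧ (∀ i, GSm (χ i)) ∧ (∀ i q, 0 ≤ χ i q) ∧
      (∀ q ∈ Cone I, ∑ i, χ i q = 1) ∧
      ∀ i, ∀ q, q ≠ 0 → q ∉ CW (C i) (r (p i) (C i)) → ∀ᶠ q' in 𝓝 q, χ i q' = 0 := by
  classical
  have hch : ∀ p : Cone I, Nonempty (ConeChart I n p.1) := fun p =>
    Chart_632.chartStmt N n I hI hX p.1 p.2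
  let C : ∀ p : Cone I, ConeChart I n p.1 := fun p => (hch p).some
  obtain ⟨t, χ, h1, h2, h3, h4⟩ := exists_partition hX
    (fun p : Cone I => CW (C p) (r p.1 (C p))) (fun p => isOpen_CW _ _) (fun p => invSet_CW _ _)
    (fun p hp => ⟨⟨p, hp⟩, self_mem_CW _ (hr _ _)⟩)
  let e := t.equivFin
  refine ⟨t.card, fun i => (e.symm i).1.1, fun i => C (e.symm i).1, fun i => χ (e.symm i).1,
    fun i => (e.symm i).1.2, fun i => h1 _, fun i q => h2 _ q, fun q hq => ?_,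
    fun i q hq hqW => h4 _ q hq hqW⟩
  rw [← h3 q hq, ← Finset.sum_coe_sort t]
  exact Equiv.sum_comp e.symm (fun x : t => χ x.1 q)

end

end Crest.Agent.R269.Ext3_346
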