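import Crest.Agent.R269.Ext3_346

/-!
# R269 (S0411), leaf EXT (helper346), file 4: extension of fields, forms on the unit sphere bundle

* `exists_field_ext`      : a tensor field `a : EE N → VV N`, homogeneous on the cone and locally smooth ON THE CONE,
                            has an ambient extension, smooth and homogeneous on all of `EE N \ {0}`;
* `exists_posField_ext`   : the same with conclusion `PosField`;
* `posField_congr`        : a `PosField` may be changed off the cone;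
* `locSm_*`               : calculus of `LocSm` (local smoothness on the cone);
* `STan`, `isCompact_STan`, `IsForm`, `exists_form_bound`, `exists_form_pos` : homogeneous functions of
  `(p, v)`, `v ∈ Tan I p`: `|F p v| ≤ C * omg p v`, and `c * omg p v ≤ F p v` when `F > 0` off `ℂ p`.
-/

set_option autoImplicit false
set_option linter.unusedSectionVars false

open MvPolynomial Crest.AlgGeometry.ProjEmb Set Filter Topology
open scoped ContDiff ComplexConjugate Manifold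

namespace Crest.Agent.R269.Ext4_346

open Crest.Agent.R269.Geo_328 Crest.Agent.R269.Defs_58 Crest.Agent.R269.Ext1_346
open Crest.Agent.R269.Ext2_346 Crest.Agent.R269.Ext3_346

noncomputable section

variable {N n : ℕ} {I : Ideal (HomCoordRing N)}

/-! ### calculus of `LocSm` -/

section Loc

variable {Y Z W : Type*} [NormedAddCommGroup Y] [NormedSpace ℝ Y] [NormedAddCommGroup Z]
  [NormedSpace ℝ Z] [NormedAddCommGroup W] [NormedSpace ℝ W]

theorem locSm_comp {u : EE N → Y} (hu : LocSm I u) {f : Y → Z}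
    (hf : ∀ p ∈ Cone I, ContDiffAt ℝ ∞ f (u p)) : LocSm I (fun p => f (u p)) := by
  intro p hp
  obtain ⟨v, hv, he⟩ := hu p hp
  have h0 : u p = v p := he.self_of_nhds hp
  refine ⟨fun q => f (v q), (h0 ▸ hf p hp : ContDiffAt ℝ ∞ f (v p)).comp p hv, ?_⟩
  filter_upwards [he] with q hq hqc
  rw [hq hqc]

theorem locSm_prodMk {u : EE N → Y} {v : EE N → Z} (hu : LocSm I u) (hv : LocSm I v) :
    LocSm I (fun p => (u p, v p)) := by
  intro p hp
  obtain ⟨u', hu', he⟩ := hu p hp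
  obtain ⟨v', hv', he'⟩ := hv p hp
  refine ⟨fun q => (u' q, v' q), hu'.prodMk hv', ?_⟩
  filter_upwards [he, he'] with q h1 h2 hqc
  rw [h1 hqc, h2 hqc]

/-- smooth functions of two locally smooth functions -/
theorem locSm_comp₂ {u : EE N → Y} {v : EE N → Z} (hu : LocSm I u) (hv : LocSm I v)
    {f : Y × Z → W} (hf : ∀ p ∈ Cone I, ContDiffAt ℝ ∞ f (u p, v p)) :
    LocSm I (fun p => f (u p, v p)) := locSm_comp (locSm_prodMk hu hv) hf

theorem locSm_pi {ι : Type*} [Fintype ι] {F : ι → Type*} [∀ i, NormedAddCommGroup (F i)]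
    [∀ i, NormedSpace ℝ (F i)] {u : EE N → ∀ i, F i} (h : ∀ i, LocSm I (fun p => u p i)) :
    LocSm I u := by
  intro p hp
  choose v hv he using fun i => h i p hp
  refine ⟨fun q i => v i q, contDiffAt_pi.2 hv, ?_⟩
  filter_upwards [eventually_all.2 he] with q hq hqc
  funext i
  exact hq i hqc

theorem locSm_congr {u v : EE N → Y} (hu : LocSm I u) (h : ∀ p ∈ Cone I, v p = u p) :
    LocSm I v := by
  intro p hp
  obtain ⟨u', hu', he⟩ := hu p hp
  refine ⟨u', hu', ?_⟩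
  filter_upwards [he] with q hq hqc
  rw [h q hqc, hq hqc]

end Loc

/-! ### extension of fields -/

/-- extension of a homogeneous tensor field -/
theorem exists_field_ext (hI : I.IsPrime) (hX : IsSmoothProjective I n) {a : EE N → VV N}
    (hh : ∀ p ∈ Cone I, ∀ c : ℂ, c ≠ 0 → a (c • p) = ((‖c‖ ^ 2 : ℝ) : ℂ) • a p)
    (hs : LocSm I a) :
    ∃ b : EE N → VV N, (∀ p, p ≠ 0 → ContDiffAt ℝ ∞ b p) ∧
      (∀ p, ∀ c : ℂ, c ≠ 0 → b (c • p) = ((‖c‖ ^ 2 : ℝ) : ℂ) • b p) ∧
      ∀ p ∈ Cone I, b p = a p := by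
  have hn : ∀ p : EE N, ContDiffAt ℝ ∞ (nsq : EE N → ℝ) p := fun p =>
    Atl_932.contDiff_nsq.contDiffAt
  have hu : InvX I (fun p => (nsq p)⁻¹ • a p) := by
    intro p hp c hc
    show (nsq (c • p))⁻¹ • a (c • p) = (nsq p)⁻¹ • a p
    rw [hh p hp c hc, Atl_932.nsq_smul, Complex.coe_smul, smul_smul]
    congr 1
    have h1 : ‖c‖ ^ 2 ≠ 0 := by
      have := norm_pos_iff.2 hc
      positivity
    have h2 := (Atl_932.nsq_pos hp.2).ne'
    field_simp
  have hl : LocSm I (fun p => (nsq p)⁻¹ • a p) := by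
    intro p hp
    obtain ⟨v, hv, he⟩ := hs p hp
    refine ⟨fun q => (nsq q)⁻¹ • v q, ((hn p).inv (Atl_932.nsq_pos hp.2).ne').smul hv, ?_⟩
    filter_upwards [he] with q hq hqc
    rw [hq hqc]
  obtain ⟨w, h1, h2, h3⟩ := exists_ext hI hX hu hl
  refine ⟨fun p => nsq p • w p, fun p hp => (hn p).smul (h1 p hp), fun p c hc => ?_,
    fun p hp => ?_⟩
  · show nsq (c • p) • w (c • p) = ((‖c‖ ^ 2 : ℝ) : ℂ) • nsq p • w p
    rw [h2 p c hc, Atl_932.nsq_smul, Complex.coe_smul, smul_smul]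
  · show nsq p • w p = a p
    rw [h3 p hp, smul_smul, mul_inv_cancel₀ (Atl_932.nsq_pos hp.2).ne', one_smul]

/-- `Rep` only depends on the value of the field at the point -/
theorem rep_congr {a a' : EE N → VV N} {p : EE N} (h : a p = a' p) {b : Fin n → EE N} :
    Rep I a p b ↔ Rep I a' p b := by
  unfold Defs_58.Rep
  rw [h]

theorem exists_posField_ext (hI : I.IsPrime) (hX : IsSmoothProjective I n) {a : EE N → VV N}
    (hh : ∀ p ∈ Cone I, ∀ c : ℂ, c ≠ 0 → a (c • p) = ((‖c‖ ^ 2 : ℝ) : ℂ) • a p)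
    (hs : LocSm I a) (hr : ∀ p ∈ Cone I, ∃ b : Fin n → EE N, Rep I a p b ∧ 0 < DD p b) :
    ∃ a' : EE N → VV N, PosField I n a' ∧ (∀ p ∈ Cone I, a' p = a p) ∧
      (∀ p, p ≠ 0 → ContDiffAt ℝ ∞ a' p) := by
  obtain ⟨b, h1, h2, h3⟩ := exists_field_ext hI hX hh hs
  refine ⟨b, ⟨fun p hp => h1 p hp.2, fun p _ c hc => h2 p c hc, fun p hp => ?_⟩, h3, h1⟩
  obtain ⟨e, he, hd⟩ := hr p hp
  exact ⟨e, (rep_congr (h3 p hp)).2 he, hd⟩

theorem posField_congr (hX : IsSmoothProjective I n) {a a' : EE N → VV N} (ha : PosField I n a)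
    (hs : ∀ p ∈ Cone I, ContDiffAt ℝ ∞ a' p) (h : ∀ p ∈ Cone I, a' p = a p) :
    PosField I n a' :=
  ⟨hs, fun p hp c hc => by rw [h p hp, h _ (smul_mem_Cone hX hp hc), ha.hom p hp c hc],
    fun p hp => by
      obtain ⟨b, hb, hd⟩ := ha.rep p hp
      exact ⟨b, (rep_congr (h p hp)).2 hb, hd⟩⟩

/-! ### forms on the unit sphere bundle -/

theorem omg_eq_fs (p v : EE N) : omg p v = Atl_932.fs p v := rfl

/-- unit tangent vectors orthogonal to the (unit) cone point -/
def STan (I : Ideal (HomCoordRing N)) : Set (EE N × EE N) :=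
  {x | x.1 ∈ Atl_932.Sph I ∧ x.2 ∈ Tan I x.1 ∧ Atl_932.ip x.1 x.2 = 0 ∧ nsq x.2 = 1}

/-- the tangent bundle of the cone -/
def TanB (I : Ideal (HomCoordRing N)) : Set (EE N × EE N) :=
  {x | x.1 ∈ Cone I ∧ x.2 ∈ Tan I x.1}

theorem STan_sub : STan I ⊆ TanB I := fun _ hx => ⟨Atl_932.Sph_sub hx.1, hx.2.1⟩

theorem continuous_dP (F : HomCoordRing N) : Continuous fun x : EE N × EE N => dP F x.1 x.2 := by
  unfold dP gradP
  refine continuous_finsetSum _ fun j _ => ?_
  exact ((MvPolynomial.continuous_eval _).comp continuous_fst).mul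
    ((continuous_apply j).comp continuous_snd)

theorem isClosed_Tan : IsClosed {x : EE N × EE N | x.2 ∈ Tan I x.1} := by
  have h : {x : EE N × EE N | x.2 ∈ Tan I x.1} = ⋂ F ∈ I, {x | dP F x.1 x.2 = 0} := by
    ext x
    simp only [mem_ofPred_eq, mem_iInter]
    exact Iff.rfl
  rw [h]
  exact isClosed_biInter fun F _ => isClosed_eq (continuous_dP F) continuous_const

theorem continuous_ip : Continuous fun x : EE N × EE N => Atl_932.ip x.1 x.2 := by
  unfold Atl_932.ip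
  fun_prop

theorem isCompact_STan : IsCompact (STan I) := by
  have h1 : STan I ⊆ (Atl_932.Sph I) ×ˢ (S1 N) := fun x hx => ⟨hx.1, hx.2.2.2⟩
  refine ((Atl_932.isCompact_Sph I).prod isCompact_S1).of_isClosed_subset ?_ h1
  have h2 : STan I = ((Atl_932.Sph I) ×ˢ (S1 N)) ∩ ({x | x.2 ∈ Tan I x.1} ∩
      {x | Atl_932.ip x.1 x.2 = 0}) := by
    ext x
    constructor
    · rintro ⟨a, b, c, d⟩
      exact ⟨⟨a, d⟩, b, c⟩
    · rintro ⟨⟨a, d⟩, b, c⟩
      exact ⟨a, b, c, d⟩
  rw [h2]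
  exact ((Atl_932.isCompact_Sph I).isClosed.prod isCompact_S1.isClosed).inter
    (isClosed_Tan.inter (isClosed_eq continuous_ip continuous_const))

/-- real-valued forms on the tangent spaces of `X`, as functions of lifts -/
structure IsForm (I : Ideal (HomCoordRing N)) (F : EE N → EE N → ℝ) : Prop where
  smul : ∀ p ∈ Cone I, ∀ v ∈ Tan I p, ∀ c : ℂ, c ≠ 0 → F (c • p) (c • v) = F p v
  add : ∀ p ∈ Cone I, ∀ v ∈ Tan I p, ∀ c : ℂ, F p (v + c • p) = F p v
  sq : ∀ p ∈ Cone I, ∀ v ∈ Tan I p, ∀ t : ℝ, 0 ≤ t → F p ((t : ℂ) • v) = t ^ 2 * F p v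

theorem IsForm.zero {F : EE N → EE N → ℝ} (hF : IsForm I F) {p : EE N} (hp : p ∈ Cone I) :
    F p 0 = 0 := by
  have h := hF.sq p hp 0 (Submodule.zero_mem _) 0 le_rfl
  simpa using h

theorem ip_perp {p : EE N} (hp : p ≠ 0) (v : EE N) :
    Atl_932.ip p (Atl_932.perp p v) = 0 := by
  rw [Atl_932.perp, sub_eq_add_neg, ← neg_smul, Atl_932.ip_add, Atl_932.ip_smul,
    Atl_932.ip_self, neg_mul, div_mul_cancel₀ _ (Atl_932.nsq_ne hp), add_neg_cancel]

/-- every tangent vector is a multiple of a unit one -/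
theorem exists_STan (hX : IsSmoothProjective I n) {p v : EE N} (hp : p ∈ Cone I)
    (hv : v ∈ Tan I p) :
    (omg p v = 0 ∧ ∃ c : ℂ, v = c • p) ∨ (0 < omg p v ∧ ∃ x ∈ STan I,
      ∀ F : EE N → EE N → ℝ, IsForm I F → F p v = omg p v * F x.1 x.2) := by
  obtain ⟨c, hc, hn1⟩ := Atl_932.exists_normalise hX hp
  rcases eq_or_lt_of_le (Atl_932.fs_nonneg p v) with h0 | h0
  · exact Or.inl ⟨h0.symm, (Atl_932.fs_eq_zero_iff hp.2).1 h0.symm⟩
  · right
    refine ⟨h0, ?_⟩
    have hcp : c • p ∈ Cone I := Atl_932.Sph_sub hn1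
    have hT : Tan I (c • p) = Tan I p := Geo_328.Tan_smul hX p hc
    have hpT : p ∈ Tan I p := self_mem_Tan hX hp.1
    set s : ℝ := Real.sqrt (omg p v) with hs
    have hs0 : 0 < s := Real.sqrt_pos.2 h0
    have hs2 : s ^ 2 = omg p v := Real.sq_sqrt h0.le
    set w : EE N := Atl_932.perp (c • p) (c • v) with hw
    have hwT : w ∈ Tan I (c • p) := by
      rw [hw, Atl_932.perp, hT]
      exact Submodule.sub_mem _ (Submodule.smul_mem _ _ hv)
        (Submodule.smul_mem _ _ (Submodule.smul_mem _ _ hpT))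
    have hfs : Atl_932.fs (c • p) (c • v) = omg p v := by
      have := Atl_932.fs_smul_smul hp.2 hc 0 v
      rw [zero_smul, add_zero] at this
      exact this
    have hnw : nsq w = omg p v := by
      rw [hw, Atl_932.nsq_perp hcp.2, hfs, hn1.2, one_mul]
    have hipw : Atl_932.ip (c • p) w = 0 := ip_perp hcp.2 _
    refine ⟨(c • p, ((s⁻¹ : ℝ) : ℂ) • w), ⟨hn1, Submodule.smul_mem _ _ hwT, ?_, ?_⟩, ?_⟩
    · show Atl_932.ip (c • p) _ = 0
      rw [Atl_932.ip_smul, hipw, mul_zero]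
    · show nsq _ = 1
      rw [Atl_932.nsq_smul, hnw, Complex.norm_real, norm_inv, Real.norm_of_nonneg hs0.le, ← hs2]
      field_simp
    · intro F hF
      have h1 : F p v = F (c • p) (c • v) := (hF.smul p hp v hv c hc).symm
      have hcv : c • v ∈ Tan I (c • p) := by rw [hT]; exact Submodule.smul_mem _ _ hv
      have h2 : F (c • p) w = F (c • p) (c • v) := by
        have h3 : w = c • v + (-(Atl_932.ip (c • p) (c • v) / (nsq (c • p) : ℂ))) • (c • p) := by
          rw [hw, Atl_932.perp, neg_smul, sub_eq_add_neg]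
        rw [h3, hF.add _ hcp _ hcv]
      have h4 : F (c • p) w = s ^ 2 * F (c • p) (((s⁻¹ : ℝ) : ℂ) • w) := by
        rw [← hF.sq _ hcp _ (Submodule.smul_mem _ _ hwT) s hs0.le, smul_smul,
          ← Complex.ofReal_mul, mul_inv_cancel₀ hs0.ne', Complex.ofReal_one, one_smul]
      rw [h1, ← h2, h4, hs2]

theorem exists_form_bound (hX : IsSmoothProjective I n) {F : EE N → EE N → ℝ}
    (hF : IsForm I F) (hc : ContinuousOn (fun x : EE N × EE N => F x.1 x.2) (TanB I)) :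
    ∃ C : ℝ, 0 ≤ C ∧ ∀ p ∈ Cone I, ∀ v ∈ Tan I p, |F p v| ≤ C * omg p v := by
  obtain ⟨C, hC⟩ := (isCompact_STan (I := I)).exists_bound_of_continuousOn (hc.mono STan_sub)
  refine ⟨max C 0, le_max_right _ _, fun p hp v hv => ?_⟩
  rcases exists_STan hX hp hv with ⟨h0, c, hvc⟩ | ⟨h0, x, hx, h⟩
  · have h1 : F p v = 0 := by
      have := hF.add p hp 0 (Submodule.zero_mem _) c
      rw [zero_add, hF.zero hp, ← hvc] at this
      exact this
    rw [h1, h0]
    simp
  · rw [h F hF, abs_mul, abs_of_pos h0, mul_comm]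
    exact mul_le_mul_of_nonneg_right ((hC x hx).trans (le_max_left _ _)) h0.le

theorem exists_form_pos (hX : IsSmoothProjective I n) {F : EE N → EE N → ℝ}
    (hF : IsForm I F) (hc : ContinuousOn (fun x : EE N × EE N => F x.1 x.2) (TanB I))
    (hpos : ∀ p ∈ Cone I, ∀ v ∈ Tan I p, (∀ c : ℂ, v ≠ c • p) → 0 < F p v) :
    ∃ c : ℝ, 0 < c ∧ ∀ p ∈ Cone I, ∀ v ∈ Tan I p, c * omg p v ≤ F p v := by
  have hne : ∀ x ∈ STan I, ∀ c : ℂ, x.2 ≠ c • x.1 := by
    rintro x ⟨h1, h2, h3, h4⟩ c hcx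
    rw [hcx, Atl_932.ip_smul, Atl_932.ip_self, h1.2] at h3
    have hc0 : c = 0 := by simpa using h3
    rw [hcx, hc0, zero_smul] at h4
    simp [nsq] at h4
  have hz : ∀ p ∈ Cone I, ∀ v ∈ Tan I p, omg p v = 0 → (∃ c : ℂ, v = c • p) → F p v = 0 := by
    rintro p hp v hv h0 ⟨c, hvc⟩
    have := hF.add p hp 0 (Submodule.zero_mem _) c
    rw [zero_add, hF.zero hp, ← hvc] at this
    exact this
  rcases (STan I).eq_empty_or_nonempty with he | hne'
  · refine ⟨1, one_pos, fun p hp v hv => ?_⟩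
    rcases exists_STan hX hp hv with ⟨h0, h1⟩ | ⟨h0, x, hx, h⟩
    · rw [h0, hz p hp v hv h0 h1]
      simp
    · rw [he] at hx
      exact hx.elim
  · obtain ⟨x₀, hx₀, hmin⟩ := (isCompact_STan (I := I)).exists_isMinOn hne' (hc.mono STan_sub)
    refine ⟨F x₀.1 x₀.2, hpos _ (STan_sub hx₀).1 _ (STan_sub hx₀).2 (hne x₀ hx₀),
      fun p hp v hv => ?_⟩
    rcases exists_STan hX hp hv with ⟨h0, h1⟩ | ⟨h0, x, hx, h⟩
    · rw [h0, hz p hp v hv h0 h1]
      simp
    · rw [h F hF, mul_comm]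
      exact mul_le_mul_of_nonneg_left (hmin hx) h0.le

end

end Crest.Agent.R269.Ext4_346
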