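import Crest.Agent.R269.Half4_993
import Crest.Agent.R269.BGl3_653

/-!
# R269 (S0411), LINE B: `HintStmt` (helper993)
-/

set_option autoImplicit false

namespace Crest.Agent.R269.Half5_993

theorem ebStmt : Half4_993.EBStmt := fun _ _ _ hI hX hn _ _ h0 hinv hloc =>
  BGl3_653.exists_b hI hX hn h0 hinv hloc

theorem hintStmt : WF_731.HintStmt := Half4_993.hint_of ebStmt

end Crest.Agent.R269.Half5_993
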