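import Mathlib
import Crest.Agent.R269.DetIneq_271

/-!
# R269 (S0411), LINE B, leaf STAT-KER (helper430, post #1576): Lemma K and its consequences

Formalism independent part (Mathlib only).

* `taylor_compact` : uniform second order Taylor inequality on a compact (non convex) set.
* `poisson_taylor` : `∫ Φ(Hs) dμ ≤ Φ(∫ Hs dμ) + C ∫ ‖Hs - p‖² dμ`.
* `kernel_functional`, `kernel_det` : the linear algebra of the reproducing kernel inequality.
-/

set_option autoImplicit false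

open MeasureTheory Filter Topology
open scoped ComplexOrder

namespace Crest.Agent.R269.Ker430

/-- Uniform second order Taylor inequality on a compact set. No convexity is needed: far away points
are handled by boundedness. -/
theorem taylor_compact {E G : Type*} [NormedAddCommGroup E] [NormedSpace ℝ E]
    [NormedAddCommGroup G] [NormedSpace ℝ G] {K : Set E} (hK : IsCompact K) {Φ : E → G}
    (hΦ : ∀ p ∈ K, ContDiffAt ℝ 2 Φ p) :
    ∃ C : ℝ, 0 ≤ C ∧ ∀ p ∈ K, ∀ y ∈ K, ‖Φ y - Φ p - fderiv ℝ Φ p (y - p)‖ ≤ C * ‖y - p‖ ^ 2 := by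
  -- local statement
  have hloc : ∀ p ∈ K, ∃ (r : ℝ) (M : ℝ), 0 < r ∧ 0 ≤ M ∧ ∀ x ∈ Metric.ball p r,
      ∀ y ∈ Metric.ball p r, ‖Φ y - Φ x - fderiv ℝ Φ x (y - x)‖ ≤ M * ‖y - x‖ ^ 2 := by
    intro p hp
    have h2 : ContDiffAt ℝ 1 (fderiv ℝ Φ) p := (hΦ p hp).fderiv_right (by norm_num)
    obtain ⟨M, t, ht, hM⟩ := h2.exists_lipschitzOnWith
    have hd : ∀ᶠ x in 𝓝 p, DifferentiableAt ℝ Φ x := by
      have h1 := (hΦ p hp).eventually (by simp)
      filter_upwards [h1] with x hx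
      exact hx.differentiableAt (by norm_num)
    obtain ⟨r, hr, hrt⟩ := Metric.mem_nhds_iff.1 (Filter.inter_mem ht hd)
    refine ⟨r, M, hr, M.2, ?_⟩
    intro x hx y hy
    have hconv : Convex ℝ (Metric.ball p r ∩ Metric.closedBall x ‖y - x‖) :=
      (convex_ball p r).inter (convex_closedBall x _)
    have hb := hconv.norm_image_sub_le_of_norm_hasFDerivWithin_le
      (f := fun z => Φ z - fderiv ℝ Φ x z) (f' := fun z => fderiv ℝ Φ z - fderiv ℝ Φ x)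
      (C := M * ‖y - x‖) (x := x) (y := y)
      (fun z hz => ((hrt hz.1).2.hasFDerivAt.sub (fderiv ℝ Φ x).hasFDerivAt).hasFDerivWithinAt)
      (fun z hz => by
        have h3 := hM.norm_sub_le (hrt hz.1).1 (hrt hx).1
        refine h3.trans ?_
        have h4 : ‖z - x‖ ≤ ‖y - x‖ := by simpa [dist_eq_norm] using hz.2
        exact mul_le_mul_of_nonneg_left h4 M.2)
      ⟨hx, by simp⟩ ⟨hy, by simp [dist_eq_norm]⟩
    have h5 : Φ y - Φ x - fderiv ℝ Φ x (y - x)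
        = (Φ y - fderiv ℝ Φ x y) - (Φ x - fderiv ℝ Φ x x) := by
      rw [map_sub]; abel
    rw [h5]
    calc _ ≤ (M : ℝ) * ‖y - x‖ * ‖y - x‖ := hb
      _ = M * ‖y - x‖ ^ 2 := by ring
  choose! r M hr hM hloc using hloc
  by_cases hne : K.Nonempty
  swap
  · refine ⟨0, le_rfl, ?_⟩
    intro p hp
    exact absurd ⟨p, hp⟩ hne
  -- finite subcover by balls of radius r/2
  obtain ⟨s, hsK, hs⟩ := hK.elim_nhds_subcover (fun p => Metric.ball p (r p / 2))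
    (fun p hp => Metric.ball_mem_nhds p (half_pos (hr p hp)))
  have hsne : s.Nonempty := by
    obtain ⟨x, hx⟩ := hne
    obtain ⟨p, hp, -⟩ := Set.mem_iUnion₂.1 (hs hx)
    exact ⟨p, hp⟩
  obtain ⟨p₁, hp₁, hmin⟩ := s.exists_min_image r hsne
  obtain ⟨p₂, hp₂, hmax⟩ := s.exists_max_image M hsne
  set δ := r p₁ / 2 with hδ
  have hδ0 : 0 < δ := half_pos (hr p₁ (hsK p₁ hp₁))
  -- bounds on K
  have hcont : ContinuousOn Φ K := fun p hp => (hΦ p hp).continuousAt.continuousWithinAt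
  have hcont' : ContinuousOn (fderiv ℝ Φ) K := fun p hp =>
    (((hΦ p hp).fderiv_right (m := 1) (by norm_num)).continuousAt).continuousWithinAt
  obtain ⟨B₀, hB₀⟩ := (hK.image_of_continuousOn hcont).isBounded.exists_norm_le
  obtain ⟨B₁, hB₁⟩ := (hK.image_of_continuousOn hcont').isBounded.exists_norm_le
  have hB₀' : 0 ≤ B₀ := by
    obtain ⟨x, hx⟩ := hne
    exact (norm_nonneg _).trans (hB₀ _ ⟨x, hx, rfl⟩)
  have hB₁' : 0 ≤ B₁ := by
    obtain ⟨x, hx⟩ := hne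
    exact (norm_nonneg _).trans (hB₁ _ ⟨x, hx, rfl⟩)
  refine ⟨max (M p₂) (2 * B₀ / δ ^ 2 + B₁ / δ), ?_, ?_⟩
  · exact le_max_of_le_left (hM p₂ (hsK p₂ hp₂))
  intro p hp y hy
  by_cases hd : ‖y - p‖ < δ
  · obtain ⟨q, hq, hpq⟩ := Set.mem_iUnion₂.1 (hs hp)
    have hqr : δ ≤ r q / 2 := by
      have := hmin q hq
      simp only [hδ]; linarith
    have hp' : p ∈ Metric.ball q (r q) :=
      Metric.ball_subset_ball (by linarith [hr q (hsK q hq)]) hpq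
    have hy' : y ∈ Metric.ball q (r q) := by
      rw [Metric.mem_ball] at hpq ⊢
      calc dist y q ≤ dist y p + dist p q := dist_triangle _ _ _
        _ < δ + r q / 2 := by
            rw [dist_eq_norm]; exact add_lt_add hd hpq
        _ ≤ r q := by linarith
    refine (hloc q (hsK q hq) p hp' y hy').trans ?_
    exact mul_le_mul_of_nonneg_right ((hmax q hq).trans (le_max_left _ _)) (by positivity)
  · push Not at hd
    have h1 : ‖Φ y - Φ p - fderiv ℝ Φ p (y - p)‖ ≤ B₀ + B₀ + B₁ * ‖y - p‖ := by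
      refine (norm_sub_le _ _).trans (add_le_add ((norm_sub_le _ _).trans
        (add_le_add (hB₀ _ ⟨y, hy, rfl⟩) (hB₀ _ ⟨p, hp, rfl⟩))) ?_)
      exact (ContinuousLinearMap.le_opNorm _ _).trans
        (mul_le_mul_of_nonneg_right (hB₁ _ ⟨p, hp, rfl⟩) (norm_nonneg _))
    refine h1.trans ?_
    have h2 : B₀ + B₀ + B₁ * ‖y - p‖ ≤ (2 * B₀ / δ ^ 2 + B₁ / δ) * ‖y - p‖ ^ 2 := by
      have hx : 0 ≤ ‖y - p‖ := norm_nonneg _
      have h3 : 1 ≤ ‖y - p‖ / δ := by rwa [one_le_div hδ0]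
      have h4 : 1 ≤ (‖y - p‖ / δ) ^ 2 := one_le_pow₀ h3
      have e1 : 2 * B₀ / δ ^ 2 * ‖y - p‖ ^ 2 = 2 * B₀ * (‖y - p‖ / δ) ^ 2 := by
        field_simp
      have e2 : B₁ / δ * ‖y - p‖ ^ 2 = B₁ * ‖y - p‖ * (‖y - p‖ / δ) := by
        field_simp
      rw [add_mul, e1, e2]
      have h5 : 2 * B₀ ≤ 2 * B₀ * (‖y - p‖ / δ) ^ 2 := by nlinarith
      have h6 : B₁ * ‖y - p‖ ≤ B₁ * ‖y - p‖ * (‖y - p‖ / δ) :=
        le_mul_of_one_le_right (mul_nonneg hB₁' hx) h3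
      linarith
    refine h2.trans (mul_le_mul_of_nonneg_right (le_max_right _ _) (by positivity))

/-- Poisson/Taylor: for a probability measure `μ` and a map `Hs` with values a.e. in the compact set and
mean `p`, `∫ Φ(Hs) ≤ Φ(p) + C ∫ ‖Hs - p‖²`. -/
theorem poisson_taylor {E : Type*} [NormedAddCommGroup E] [NormedSpace ℝ E] [CompleteSpace E]
    {K : Set E} {Φ : E → ℝ} {C : ℝ}
    (hC : ∀ p ∈ K, ∀ y ∈ K, ‖Φ y - Φ p - fderiv ℝ Φ p (y - p)‖ ≤ C * ‖y - p‖ ^ 2)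
    {Ω : Type*} [MeasurableSpace Ω] {μ : Measure Ω} [IsProbabilityMeasure μ] {Hs : Ω → E}
    (hHs : Integrable Hs μ) (hHK : ∀ᵐ ω ∂μ, Hs ω ∈ K) {p : E} (hp : p ∈ K) (hmean : ∫ ω, Hs ω ∂μ = p)
    (hΦi : Integrable (fun ω => Φ (Hs ω)) μ) (hsq : Integrable (fun ω => ‖Hs ω - p‖ ^ 2) μ) :
    ∫ ω, Φ (Hs ω) ∂μ ≤ Φ p + C * ∫ ω, ‖Hs ω - p‖ ^ 2 ∂μ := by
  have h1 : ∀ᵐ ω ∂μ, Φ (Hs ω) ≤ Φ p + fderiv ℝ Φ p (Hs ω - p) + C * ‖Hs ω - p‖ ^ 2 := by
    filter_upwards [hHK] with ω hω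
    have := (abs_le.1 (hC p hp (Hs ω) hω)).2
    linarith
  have hsub : Integrable (fun ω => Hs ω - p) μ := hHs.sub (integrable_const p)
  have hlin : Integrable (fun ω => fderiv ℝ Φ p (Hs ω - p)) μ :=
    (fderiv ℝ Φ p).integrable_comp hsub
  have h2 : ∫ ω, fderiv ℝ Φ p (Hs ω - p) ∂μ = 0 := by
    rw [ContinuousLinearMap.integral_comp_comm _ hsub, integral_sub hHs (integrable_const p), hmean]
    simp
  calc ∫ ω, Φ (Hs ω) ∂μ ≤ ∫ ω, (Φ p + fderiv ℝ Φ p (Hs ω - p) + C * ‖Hs ω - p‖ ^ 2) ∂μ := by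
        refine integral_mono_ae hΦi ?_ h1
        exact ((integrable_const _).add hlin).add (hsq.const_mul C)
    _ = Φ p + C * ∫ ω, ‖Hs ω - p‖ ^ 2 ∂μ := by
        have e1 : ∫ ω, (Φ p + fderiv ℝ Φ p (Hs ω - p) + C * ‖Hs ω - p‖ ^ 2) ∂μ
            = ∫ ω, (Φ p + fderiv ℝ Φ p (Hs ω - p)) ∂μ + ∫ ω, C * ‖Hs ω - p‖ ^ 2 ∂μ :=
          integral_add ((integrable_const _).add hlin) (hsq.const_mul C)
        have e2 : ∫ ω, (Φ p + fderiv ℝ Φ p (Hs ω - p)) ∂μ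
            = ∫ _ω, Φ p ∂μ + ∫ ω, fderiv ℝ Φ p (Hs ω - p) ∂μ :=
          integral_add (integrable_const _) hlin
        rw [e1, e2, h2, integral_const_mul]
        simp

/-- The reproducing kernel inequality, functional form: if the vector `∑ conj(L b_k) b_k` is
`∑ q_i v_i` with `∑|q_i|² ≤ A ∑ |L b_k|²`, then `∑_k |L b_k|² ≤ A ∑_i |L v_i|²`. -/
theorem kernel_functional {F : Type*} [AddCommGroup F] [Module ℂ F] {ι κ : Type*} [Fintype ι]
    [Fintype κ] (b : κ → F) (v : ι → F) (L : F →ₗ[ℂ] ℂ) {A : ℝ} (hA : 0 ≤ A)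
    (h : ∀ x : κ → ℂ, ∃ q : ι → ℂ, ∑ i, q i • v i = ∑ k, x k • b k ∧
      ∑ i, ‖q i‖ ^ 2 ≤ A * ∑ k, ‖x k‖ ^ 2) :
    ∑ k, ‖L (b k)‖ ^ 2 ≤ A * ∑ i, ‖L (v i)‖ ^ 2 := by
  obtain ⟨q, hq, hqA⟩ := h (fun k => (starRingEnd ℂ) (L (b k)))
  set S := ∑ k, ‖L (b k)‖ ^ 2 with hS
  set T := ∑ i, ‖L (v i)‖ ^ 2 with hT
  have hS0 : 0 ≤ S := Finset.sum_nonneg fun _ _ => by positivity
  have hT0 : 0 ≤ T := Finset.sum_nonneg fun _ _ => by positivity
  have h1 : ∑ i, q i * L (v i) = (S : ℂ) := by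
    have := congrArg L hq
    simp only [map_sum, map_smul, smul_eq_mul] at this
    rw [this, hS]
    push_cast
    refine Finset.sum_congr rfl fun k _ => ?_
    rw [← Complex.ofReal_pow, ← Complex.normSq_eq_norm_sq, Complex.normSq_eq_conj_mul_self]
  have h2 : S ≤ ∑ i, ‖q i‖ * ‖L (v i)‖ := by
    have : ‖(S : ℂ)‖ = S := by rw [Complex.norm_real, Real.norm_of_nonneg hS0]
    rw [← this, ← h1]
    refine (norm_sum_le _ _).trans (Finset.sum_le_sum fun i _ => ?_)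
    rw [norm_mul]
  have h3 : (∑ i, ‖q i‖ * ‖L (v i)‖) ^ 2 ≤ (∑ i, ‖q i‖ ^ 2) * T :=
    Finset.sum_mul_sq_le_sq_mul_sq _ _ _
  have h4 : ∑ i, ‖q i‖ ^ 2 ≤ A * S := by
    refine hqA.trans (le_of_eq ?_)
    congr 1
    exact Finset.sum_congr rfl fun k _ => by rw [RCLike.norm_conj]
  have h5 : S ^ 2 ≤ A * S * T := by
    calc S ^ 2 ≤ (∑ i, ‖q i‖ * ‖L (v i)‖) ^ 2 := pow_le_pow_left₀ hS0 h2 2
      _ ≤ (∑ i, ‖q i‖ ^ 2) * T := h3
      _ ≤ A * S * T := mul_le_mul_of_nonneg_right h4 hT0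
  rcases hS0.eq_or_lt with h6 | h6
  · rw [← h6]; positivity
  · have : S * S ≤ S * (A * T) := by nlinarith
    exact le_of_mul_le_mul_left this h6

/-- Determinant form: if `v_i = ∑_k T_ik b_k` with `b` linearly independent and every combination of the
`b_k` is a controlled combination of the `v_i`, then `|det T|² ≥ A^{-n}`. -/
theorem kernel_det {F : Type*} [AddCommGroup F] [Module ℂ F] {κ : Type*} [Fintype κ] [DecidableEq κ]
    (b v : κ → F) (hb : LinearIndependent ℂ b) (T : Matrix κ κ ℂ) (hT : ∀ i, v i = ∑ k, T i k • b k)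
    {A : ℝ}
    (h : ∀ x : κ → ℂ, ∃ q : κ → ℂ, ∑ i, q i • v i = ∑ k, x k • b k ∧
      ∑ i, ‖q i‖ ^ 2 ≤ A * ∑ k, ‖x k‖ ^ 2) :
    1 ≤ A ^ (Fintype.card κ) * ‖T.det‖ ^ 2 := by
  -- for every x: x = qᵀ T
  have hx : ∀ x : κ → ℂ, ∃ q : κ → ℂ, Matrix.vecMul q T = x ∧ ∑ i, ‖q i‖ ^ 2 ≤ A * ∑ k, ‖x k‖ ^ 2 := by
    intro x
    obtain ⟨q, hq, hqA⟩ := h x
    refine ⟨q, ?_, hqA⟩
    have h1 : ∑ k, (Matrix.vecMul q T k - x k) • b k = 0 := by
      simp only [sub_smul, Finset.sum_sub_distrib]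
      rw [sub_eq_zero, ← hq]
      simp only [hT, Finset.smul_sum, smul_smul, Matrix.vecMul, dotProduct, Finset.sum_smul]
      rw [Finset.sum_comm]
    have h2 := Fintype.linearIndependent_iff.1 hb _ h1
    ext k
    exact sub_eq_zero.1 (h2 k)
  -- T is invertible
  have hdet : T.det ≠ 0 := by
    intro h0
    obtain ⟨w, hw, hw0⟩ := Matrix.exists_mulVec_eq_zero_iff.2 h0
    obtain ⟨q, hq, -⟩ := hx (fun k => (starRingEnd ℂ) (w k))
    have h3 : dotProduct (Matrix.vecMul q T) w = 0 := by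
      rw [← Matrix.dotProduct_mulVec, hw0, dotProduct_zero]
    rw [hq] at h3
    apply hw
    have h4 : dotProduct (star w) w = 0 := h3
    exact dotProduct_star_self_eq_zero.1 h4
  -- the Hermitian matrix S = T⁻¹ ; rows of T⁻¹ are the q's of basis vectors
  have hinv : T⁻¹ * T = 1 := Matrix.nonsing_inv_mul T (isUnit_iff_ne_zero.2 hdet)
  have hinv' : T * T⁻¹ = 1 := Matrix.mul_nonsing_inv T (isUnit_iff_ne_zero.2 hdet)
  have hq : ∀ x : κ → ℂ, ∑ i, ‖Matrix.vecMul x T⁻¹ i‖ ^ 2 ≤ A * ∑ k, ‖x k‖ ^ 2 := by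
    intro x
    obtain ⟨q, hq, hqA⟩ := hx x
    have : Matrix.vecMul x T⁻¹ = q := by
      rw [← hq, Matrix.vecMul_vecMul, hinv', Matrix.vecMul_one]
    rw [this]; exact hqA
  rcases isEmpty_or_nonempty κ with hκ | hκ
  · simp
  -- trace bound and AM-GM
  have hM : (T⁻¹ * (T⁻¹).conjTranspose).PosSemidef := Matrix.posSemidef_self_mul_conjTranspose _
  have htr : (T⁻¹ * (T⁻¹).conjTranspose).trace.re ≤ Fintype.card κ * A := by
    have h1 : (T⁻¹ * (T⁻¹).conjTranspose).trace.re = ∑ k, ∑ i, ‖T⁻¹ k i‖ ^ 2 := by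
      simp only [Matrix.trace, Matrix.diag, Matrix.mul_apply, Matrix.conjTranspose_apply,
        Complex.re_sum]
      refine Finset.sum_congr rfl fun k _ => Finset.sum_congr rfl fun i _ => ?_
      rw [Complex.star_def, Complex.mul_conj, Complex.ofReal_re, Complex.normSq_eq_norm_sq]
    rw [h1]
    have h2 : ∀ k : κ, ∑ i, ‖T⁻¹ k i‖ ^ 2 ≤ A := by
      intro k
      have h3 := hq (Pi.single k 1)
      rw [Matrix.single_one_vecMul] at h3
      have h4 : ∑ j, ‖(Pi.single k (1 : ℂ) : κ → ℂ) j‖ ^ 2 = 1 := by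
        rw [Finset.sum_eq_single k]
        · simp
        · intro j _ hj; simp [Pi.single_eq_of_ne hj]
        · intro h; exact absurd (Finset.mem_univ k) h
      rw [h4, mul_one] at h3
      exact h3
    calc ∑ k, ∑ i, ‖T⁻¹ k i‖ ^ 2 ≤ ∑ _k : κ, A := Finset.sum_le_sum fun k _ => h2 k
      _ = Fintype.card κ * A := by simp
  have h5 := DetIneq271.card_mul_dn_le_trace hM
  have hcard : (0 : ℝ) < Fintype.card κ := by exact_mod_cast Fintype.card_pos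
  have h6 : DetIneq271.dn (T⁻¹ * (T⁻¹).conjTranspose) ≤ A := by
    have := h5.trans htr
    exact le_of_mul_le_mul_left this hcard
  have h7 : (T⁻¹ * (T⁻¹).conjTranspose).det.re = (‖T.det‖ ^ 2)⁻¹ := by
    rw [Matrix.det_mul, Matrix.det_conjTranspose, Complex.star_def, Complex.mul_conj,
      Complex.ofReal_re, Complex.normSq_eq_norm_sq, Matrix.det_nonsing_inv, Ring.inverse_eq_inv',
      norm_inv, inv_pow]
  have h8 : (‖T.det‖ ^ 2)⁻¹ ≤ A ^ (Fintype.card κ) := by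
    have h9 : 0 ≤ (‖T.det‖ ^ 2)⁻¹ := by positivity
    have h10 : ((‖T.det‖ ^ 2)⁻¹) ^ ((Fintype.card κ : ℝ)⁻¹) ≤ A := by
      rw [← h7]; exact h6
    have h11 := Real.rpow_le_rpow (by positivity) h10 hcard.le
    rw [← Real.rpow_mul h9, inv_mul_cancel₀ hcard.ne', Real.rpow_one, Real.rpow_natCast] at h11
    exact h11
  have h12 : 0 < ‖T.det‖ ^ 2 := by positivity
  rwa [inv_le_iff_one_le_mul₀ h12] at h8

end Crest.Agent.R269.Ker430
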