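import Mathlib
import Crest.Agent.R269.Ker_430
import Crest.Agent.R269.Alp5_927
import Crest.Agent.R269.DefsS_731
import Crest.Agent.R269.GeoT_328

/-!
# R269 (S0411), LINE B, leaf B8 KER (helper430, posts 1576, 1830): the kernel inequality at a point of the cone

* `wdgL p` : `V ↦ V ∧ p` as a linear map; `sum_wdg_sq : ∑ |V ∧ p|² = 2 |p|⁴ ω_p(V)`;
* `omg_le`, `DD_le` : from the coefficient inequality `∑|q|² ≤ A ∑|x|²` to (K1), (K2) with the constant `A`;
* `frame_span` : the spanning bound for the fields `Y : Flds I`;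
* `ker` : the final statement (K1), (K2).
-/

set_option autoImplicit false

open MeasureTheory MvPolynomial Crest.AlgGeometry.ProjEmb Crest.Agent.R269.Geo_328
open Crest.Agent.R269.Defs_58 Crest.Agent.R269.DefsS_731 Crest.Agent.R269.Alp_927
open scoped Topology ComplexConjugate

noncomputable section

namespace Crest.Agent.R269.Ker2_430

variable {N n : ℕ} {I : Ideal (HomCoordRing N)}

/-- `V ↦ V ∧ p` -/
def wdgL (p : EE N) : EE N →ₗ[ℂ] VV N where
  toFun V := wdg V p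
  map_add' a b := by
    ext i j
    simp only [wdg, Pi.add_apply]; ring
  map_smul' c a := by
    ext i j
    simp only [wdg, Pi.smul_apply, smul_eq_mul, RingHom.id_apply]; ring

@[simp] theorem wdgL_apply (p V : EE N) : wdgL p V = wdg V p := rfl

theorem wdg_self (p : EE N) : wdg p p = 0 := by
  ext i j
  simp only [wdg, Pi.zero_apply]; ring

/-- Lagrange identity -/
theorem sum_wdg_sq {p : EE N} (hp : p ≠ 0) (V : EE N) :
    ∑ i, ∑ j, ‖wdg V p i j‖ ^ 2 = 2 * nsq p ^ 2 * omg p V := by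
  have h0 := nsq_pos hp
  have h1 : 2 * nsq p ^ 2 * omg p V
      = 2 * (nsq p * nsq V - ‖∑ i, V i * conj (p i)‖ ^ 2) := by
    unfold omg nsq
    unfold nsq at h0
    field_simp
  rw [h1]
  have h2 : ∀ i j, ((‖wdg V p i j‖ ^ 2 : ℝ) : ℂ)
      = (V i * conj (V i)) * (p j * conj (p j)) + (V j * conj (V j)) * (p i * conj (p i))
        - (V i * conj (p i)) * (p j * conj (V j)) - (V j * conj (p j)) * (p i * conj (V i)) := by
    intro i j
    rw [← Complex.normSq_eq_norm_sq, ← Complex.mul_conj]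
    simp only [wdg, map_sub, map_mul]
    ring
  have h3 : ∀ x : ℂ, ((‖x‖ ^ 2 : ℝ) : ℂ) = x * conj x := by
    intro x
    rw [← Complex.normSq_eq_norm_sq, ← Complex.mul_conj]
  apply Complex.ofReal_injective
  rw [Complex.ofReal_sum]
  simp only [Complex.ofReal_sum, h2]
  rw [Complex.ofReal_mul, Complex.ofReal_sub, Complex.ofReal_mul, h3]
  unfold nsq
  simp only [Complex.ofReal_sum, h3, map_sum, map_mul, Complex.conj_conj]
  have e1 : ∑ i, ∑ j, ((V i * conj (V i)) * (p j * conj (p j)) + (V j * conj (V j)) * (p i * conj (p i))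
        - (V i * conj (p i)) * (p j * conj (V j)) - (V j * conj (p j)) * (p i * conj (V i)))
      = (∑ i, V i * conj (V i)) * (∑ j, p j * conj (p j))
        + (∑ i, p i * conj (p i)) * (∑ j, V j * conj (V j))
        - (∑ i, V i * conj (p i)) * (∑ j, p j * conj (V j))
        - (∑ i, p i * conj (V i)) * (∑ j, V j * conj (p j)) := by
    simp only [Finset.sum_mul_sum, ← Finset.sum_add_distrib, ← Finset.sum_sub_distrib]
    refine Finset.sum_congr rfl fun i _ => Finset.sum_congr rfl fun j _ => ?_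
    ring
  rw [e1]
  have e2 : ∑ i, conj (V i) * p i = ∑ i, p i * conj (V i) :=
    Finset.sum_congr rfl fun i _ => mul_comm _ _
  rw [e2]
  push_cast
  ring

/-- coordinates on `VV N` -/
def coordL (i j : Fin (N + 1)) : VV N →ₗ[ℂ] ℂ where
  toFun w := w i j
  map_add' _ _ := rfl
  map_smul' _ _ := rfl

@[simp] theorem coordL_apply (i j : Fin (N + 1)) (w : VV N) : coordL i j w = w i j := rfl

/-- (K1) with the constant `A` -/
theorem omg_le {κ ι : Type} [Fintype κ] [Fintype ι] {p : EE N} (hp : p ≠ 0) (b : κ → EE N)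
    (V : ι → EE N) {A : ℝ} (hA : 0 ≤ A)
    (h : ∀ x : κ → ℂ, ∃ q : ι → ℂ, ∑ i, q i • wdg (V i) p = ∑ k, x k • wdg (b k) p ∧
      ∑ i, ‖q i‖ ^ 2 ≤ A * ∑ k, ‖x k‖ ^ 2) :
    ∑ k, omg p (b k) ≤ A * ∑ i, omg p (V i) := by
  have h0 := nsq_pos hp
  have key : ∀ i j : Fin (N + 1), ∑ k, ‖wdg (b k) p i j‖ ^ 2 ≤ A * ∑ l, ‖wdg (V l) p i j‖ ^ 2 := by
    intro i j
    have := Ker430.kernel_functional (F := VV N) (fun k => wdg (b k) p) (fun l => wdg (V l) p)
      (coordL i j) hA h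
    simpa only [coordL_apply] using this
  have h1 : ∑ k, ∑ i, ∑ j, ‖wdg (b k) p i j‖ ^ 2 ≤ A * ∑ l, ∑ i, ∑ j, ‖wdg (V l) p i j‖ ^ 2 := by
    calc ∑ k, ∑ i, ∑ j, ‖wdg (b k) p i j‖ ^ 2 = ∑ i, ∑ j, ∑ k, ‖wdg (b k) p i j‖ ^ 2 := by
          rw [Finset.sum_comm]
          exact Finset.sum_congr rfl fun i _ => Finset.sum_comm
      _ ≤ ∑ i, ∑ j, A * ∑ l, ‖wdg (V l) p i j‖ ^ 2 :=
          Finset.sum_le_sum fun i _ => Finset.sum_le_sum fun j _ => key i j
      _ = A * ∑ i, ∑ j, ∑ l, ‖wdg (V l) p i j‖ ^ 2 := by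
          simp only [Finset.mul_sum]
      _ = A * ∑ l, ∑ i, ∑ j, ‖wdg (V l) p i j‖ ^ 2 := by
          congr 1
          exact (Finset.sum_congr rfl fun i _ => Finset.sum_comm).trans Finset.sum_comm
  simp only [sum_wdg_sq hp, ← Finset.mul_sum] at h1
  have h2 : (2 * nsq p ^ 2) * ∑ k, omg p (b k) ≤ (2 * nsq p ^ 2) * (A * ∑ i, omg p (V i)) := by
    calc _ ≤ _ := h1
      _ = _ := by ring
  exact le_of_mul_le_mul_left h2 (by positivity)

/-- change of frame -/
theorem DD_comb (p : EE N) (b V : Fin n → EE N) (T : Matrix (Fin n) (Fin n) ℂ) (r : Fin n → ℂ)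
    (h : ∀ i, V i = (∑ k, T i k • b k) + r i • p) : DD p V = ‖T.det‖ ^ 2 * DD p b := by
  let T' : Matrix (Fin (n + 1)) (Fin (n + 1)) ℂ :=
    Matrix.of (Fin.cons (Fin.cons 1 0 : Fin (n + 1) → ℂ) fun i => Fin.cons (r i) (T i))
  have h1 : rows p V = T' * rows p b := by
    ext i j
    rw [Matrix.mul_apply, Fin.sum_univ_succ]
    refine Fin.cases ?_ (fun l => ?_) i
    · simp [rows, T']
    · simp only [rows, T', Matrix.of_apply, Fin.cons_succ, Fin.cons_zero, h, Pi.add_apply,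
        Finset.sum_apply, Pi.smul_apply, smul_eq_mul]
      ring
  have h2 : T'.det = T.det := by
    rw [Matrix.det_succ_row_zero, Fin.sum_univ_succ]
    have : T'.submatrix Fin.succ (Fin.succAbove 0) = T := by
      ext i j
      simp [T']
    rw [this]
    simp [T']
  rw [DD_eq, DD_eq, h1, WS_mul_left, h2, Complex.normSq_eq_norm_sq, mul_div_assoc]

theorem DD_nonneg (p : EE N) (b : Fin n → EE N) : 0 ≤ DD p b := by
  rw [DD_eq]
  have h1 : 0 ≤ WS (rows p b) := WS_nonneg _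
  have h2 : 0 ≤ nsq p := Finset.sum_nonneg fun _ _ => by positivity
  positivity

/-- (K2) with the constant `A` -/
theorem DD_le (hX : IsSmoothProjective I n) {p : EE N} (hp : p ∈ Cone I) {b V : Fin n → EE N}
    (hb : TanFam I p b) (hV : TanFam I p V) {A : ℝ} (hA : 0 ≤ A)
    (h : ∀ x : Fin n → ℂ, ∃ q : Fin n → ℂ, ∑ i, q i • wdg (V i) p = ∑ k, x k • wdg (b k) p ∧
      ∑ i, ‖q i‖ ^ 2 ≤ A * ∑ k, ‖x k‖ ^ 2) :
    DD p b ≤ A ^ n * DD p V := by
  rcases (DD_nonneg p b).eq_or_lt with h0 | h0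
  · rw [← h0]
    have := DD_nonneg p V
    positivity
  -- `p, b` is a basis of the tangent space of the cone
  have hp0 := nsq_pos hp.2
  have hW : WS (rows p b) ≠ 0 := by
    intro h
    rw [DD_eq, h, zero_div] at h0
    exact lt_irrefl _ h0
  have hli : LinearIndependent ℂ (Fin.cons p b : Fin (n + 1) → EE N) :=
    linearIndependent_of_WS hW
  have hfr := finrank_Tan hX hp
  have hpT := self_mem_Tan hX hp.1
  have hspan : Submodule.span ℂ (Set.range (Fin.cons p b : Fin (n + 1) → EE N)) = Tan I p := by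
    apply Submodule.eq_of_le_of_finrank_eq
    · rw [Submodule.span_le]
      rintro _ ⟨i, rfl⟩
      refine Fin.cases ?_ (fun l => ?_) i
      · simpa using hpT
      · simpa using hb l
    · rw [finrank_span_eq_card hli, hfr, Fintype.card_fin]
  have hex : ∀ i, ∃ c : Fin (n + 1) → ℂ, ∑ k, c k • (Fin.cons p b : Fin (n + 1) → EE N) k = V i := by
    intro i
    have : V i ∈ Submodule.span ℂ (Set.range (Fin.cons p b : Fin (n + 1) → EE N)) := by
      rw [hspan]; exact hV i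
    exact (Submodule.mem_span_range_iff_exists_fun ℂ).1 this
  choose c hc using hex
  have hVb : ∀ i, V i = (∑ k, (Matrix.of fun i (k : Fin n) => c i k.succ) i k • b k)
      + c i 0 • p := by
    intro i
    rw [← hc i, Fin.sum_univ_succ]
    simp [add_comm]
  have hTw : ∀ i, wdg (V i) p
      = ∑ k, (Matrix.of fun i (k : Fin n) => c i k.succ) i k • wdg (b k) p := by
    intro i
    rw [← wdgL_apply, hVb i, map_add, map_smul, map_sum]
    simp only [map_smul, wdgL_apply, wdg_self, smul_zero, add_zero]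
  have hbw : LinearIndependent ℂ (fun k => wdg (b k) p) := by
    rw [Fintype.linearIndependent_iff]
    intro g hg
    -- `(∑ g_k b_k) ∧ p = 0` implies `∑ g_k b_k = c p`
    set W : EE N := ∑ k, g k • b k with hWdef
    have h1 : wdg W p = 0 := by
      rw [← wdgL_apply, hWdef, map_sum]
      simpa only [map_smul, wdgL_apply] using hg
    obtain ⟨i₀, hi₀⟩ := Function.ne_iff.1 hp.2
    have hi₀' : p i₀ ≠ 0 := hi₀
    have h2 : W = (W i₀ / p i₀) • p := by
      ext j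
      have h3 : wdg W p j i₀ = 0 := by rw [h1]; rfl
      simp only [wdg] at h3
      simp only [Pi.smul_apply, smul_eq_mul]
      field_simp
      linear_combination h3
    have h4 := Fintype.linearIndependent_iff.1 hli (Fin.cons (-(W i₀ / p i₀)) g) (by
      rw [Fin.sum_univ_succ]
      simp only [Fin.cons_zero, Fin.cons_succ]
      rw [← hWdef]
      nth_rewrite 2 [h2]
      rw [neg_smul, neg_add_cancel])
    intro k
    have := h4 k.succ
    simpa using this
  have hdet := Ker430.kernel_det (fun k => wdg (b k) p) (fun i => wdg (V i) p) hbw _ hTw h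
  rw [DD_comb p b V _ _ hVb, Fintype.card_fin] at *
  calc DD p b = 1 * DD p b := (one_mul _).symm
    _ ≤ (A ^ n * ‖(Matrix.of fun i (k : Fin n) => c i k.succ).det‖ ^ 2) * DD p b :=
        mul_le_mul_of_nonneg_right hdet h0.le
    _ = _ := by ring

/-! ### compactness -/

theorem nsq_continuous : Continuous (nsq : EE N → ℝ) := by
  unfold nsq
  exact continuous_finsetSum _ fun i _ => ((continuous_apply i).norm).pow 2

theorem norm_apply_sq_le (p : EE N) (i : Fin (N + 1)) : ‖p i‖ ^ 2 ≤ nsq p :=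
  Finset.single_le_sum (f := fun i => ‖p i‖ ^ 2) (fun _ _ => by positivity) (Finset.mem_univ i)

theorem nsq_nonneg (p : EE N) : 0 ≤ nsq p := Finset.sum_nonneg fun _ _ => by positivity

theorem norm_sq_le (p : EE N) : ‖p‖ ^ 2 ≤ nsq p := by
  have h : ‖p‖ ≤ Real.sqrt (nsq p) := by
    rw [pi_norm_le_iff_of_nonneg (Real.sqrt_nonneg _)]
    intro i
    exact Real.le_sqrt_of_sq_le (norm_apply_sq_le p i)
  calc ‖p‖ ^ 2 ≤ Real.sqrt (nsq p) ^ 2 := pow_le_pow_left₀ (norm_nonneg _) h 2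
    _ = nsq p := Real.sq_sqrt (nsq_nonneg p)

theorem norm_le_one {p : EE N} (hp : nsq p = 1) : ‖p‖ ≤ 1 := by
  have := norm_sq_le p
  rw [hp] at this
  nlinarith [norm_nonneg p]

theorem isClosed_affineCone (I : Ideal (HomCoordRing N)) : IsClosed (affineCone I) := by
  have h : affineCone I = ⋂ F ∈ I, {p : EE N | MvPolynomial.eval p F = 0} := by
    ext p; simp [affineCone]
  rw [h]
  exact isClosed_biInter fun F _ => isClosed_eq (MvPolynomial.continuous_eval F) continuous_const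

/-- the unit sphere of the cone -/
def Sph (I : Ideal (HomCoordRing N)) : Set (EE N) := {p | p ∈ affineCone I ∧ nsq p = 1}

theorem Sph_sub {p : EE N} (hp : p ∈ Sph I) : p ∈ Cone I := by
  refine ⟨hp.1, ?_⟩
  rintro rfl
  have := hp.2
  simp [nsq] at this

theorem isCompact_Sph (I : Ideal (HomCoordRing N)) : IsCompact (Sph I) := by
  refine Metric.isCompact_of_isClosed_isBounded ?_ ?_
  · exact (isClosed_affineCone I).inter (isClosed_eq nsq_continuous continuous_const)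
  · refine (Metric.isBounded_closedBall (x := (0 : EE N)) (r := 1)).subset ?_
    rintro p ⟨-, hp⟩
    rw [mem_closedBall_zero_iff]
    exact norm_le_one hp

/-- the unit sphere bundle -/
def Sph2 (I : Ideal (HomCoordRing N)) : Set (EE N × EE N) :=
  {x | x.1 ∈ Sph I ∧ x.2 ∈ Tan I x.1 ∧ nsq x.2 = 1}

theorem isCompact_Sph2 (I : Ideal (HomCoordRing N)) : IsCompact (Sph2 I) := by
  refine Metric.isCompact_of_isClosed_isBounded ?_ ?_
  · refine ((isCompact_Sph I).isClosed.preimage continuous_fst).inter (IsClosed.inter ?_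
      (isClosed_eq (nsq_continuous.comp continuous_snd) continuous_const))
    have h : {x : EE N × EE N | x.2 ∈ Tan I x.1} = ⋂ F ∈ I, {x : EE N × EE N | dP F x.1 x.2 = 0} := by
      ext x; simp [mem_Tan]
    show IsClosed {x : EE N × EE N | x.2 ∈ Tan I x.1}
    rw [h]
    refine isClosed_biInter fun F _ => isClosed_eq ?_ continuous_const
    unfold dP gradP
    exact continuous_finsetSum _ fun j _ =>
      ((MvPolynomial.continuous_eval _).comp continuous_fst).mul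
        ((continuous_apply j).comp continuous_snd)
  · refine (Metric.isBounded_closedBall (x := (0 : EE N × EE N)) (r := 1)).subset ?_
    rintro x ⟨h1, -, h2⟩
    rw [mem_closedBall_zero_iff, Prod.norm_def]
    exact max_le (norm_le_one h1.2) (norm_le_one h2)

/-- normalisation -/
theorem exists_unit (hX : IsSmoothProjective I n) {p : EE N} (hp : p ∈ Cone I) :
    ∃ (t : ℝ) (p' : EE N), 0 < t ∧ p' ∈ Sph I ∧ p = (t : ℂ) • p' ∧ t ^ 2 = nsq p := by
  have h0 := nsq_pos hp.2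
  have ht : 0 < Real.sqrt (nsq p) := Real.sqrt_pos.2 h0
  have htc : ((Real.sqrt (nsq p) : ℝ) : ℂ) ≠ 0 := by exact_mod_cast ht.ne'
  refine ⟨Real.sqrt (nsq p), ((Real.sqrt (nsq p) : ℝ) : ℂ)⁻¹ • p, ht, ⟨?_, ?_⟩, ?_, Real.sq_sqrt h0.le⟩
  · exact (smul_mem_Cone hX hp (inv_ne_zero htc)).1
  · rw [nsq_smul, map_inv₀, Complex.normSq_ofReal, Real.mul_self_sqrt h0.le, inv_mul_cancel₀ h0.ne']
  · rw [smul_smul, mul_inv_cancel₀ htc, one_smul]

/-- `∑ |b_k|² ≤ C |p|²` for representing frames -/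
theorem trace_bound (hX : IsSmoothProjective I n) {a : EE N → VV N} (ha : PosField I n a) :
    ∃ C : ℝ, 0 ≤ C ∧ ∀ p ∈ Cone I, ∀ b : Fin n → EE N, Rep I a p b → ∑ k, nsq (b k) ≤ C * nsq p := by
  have hc : ContinuousOn (fun p => ∑ j, (a p j j).re) (Sph I) := by
    intro p hp
    apply ContinuousAt.continuousWithinAt
    have h1 := (ha.smooth p (Sph_sub hp)).continuousAt
    refine tendsto_finsetSum _ fun j _ => ?_
    have h2 : ContinuousAt (fun q => a q j j) p :=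
      ((continuous_apply j).continuousAt.comp ((continuous_apply j).continuousAt.comp h1))
    exact Complex.continuous_re.continuousAt.comp h2
  obtain ⟨B, hB⟩ := ((isCompact_Sph I).image_of_continuousOn hc).isBounded.exists_norm_le
  refine ⟨|B|, abs_nonneg _, ?_⟩
  intro p hp b hb
  obtain ⟨t, p', ht, hp', rfl, htp⟩ := exists_unit hX hp
  have htc : (t : ℂ) ≠ 0 := by exact_mod_cast ht.ne'
  have h1 : ∑ k, nsq (b k) = ∑ j, (a ((t : ℂ) • p') j j).re := by
    unfold nsq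
    rw [Finset.sum_comm]
    refine Finset.sum_congr rfl fun j _ => ?_
    rw [hb.2.2 j j, Complex.re_sum]
    refine Finset.sum_congr rfl fun k _ => ?_
    rw [Complex.mul_conj, Complex.ofReal_re, Complex.normSq_eq_norm_sq]
  rw [h1, ← htp, ha.hom p' (Sph_sub hp') _ htc]
  have h2 : ∑ j, ((((‖(t : ℂ)‖ ^ 2 : ℝ) : ℂ) • a p') j j).re = t ^ 2 * ∑ j, (a p' j j).re := by
    rw [Finset.mul_sum]
    refine Finset.sum_congr rfl fun j _ => ?_
    simp only [Pi.smul_apply, smul_eq_mul]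
    rw [Complex.re_ofReal_mul, Complex.norm_real, Real.norm_eq_abs, sq_abs]
  rw [h2, mul_comm]
  have h3 := hB _ ⟨p', hp', rfl⟩
  have h4 : ∑ j, (a p' j j).re ≤ |B| := (le_abs_self _).trans ((Real.norm_eq_abs _ ▸ h3).trans (le_abs_self B))
  exact mul_le_mul_of_nonneg_right h4 (by positivity)

/-! ### the spanning bound -/

theorem at_smul (Y : Flds I) (j : Fin Y.M) (c : ℂ) (p : EE N) :
    Y.at j (c • p) = c ^ Y.D • Y.at j p := by
  ext k
  simp only [Flds.at, Pi.smul_apply, smul_eq_mul]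
  exact eval_smul_hom (Y.homog j k) c p

theorem at_continuous (Y : Flds I) (j : Fin Y.M) : Continuous (Y.at j) :=
  continuous_pi fun k => MvPolynomial.continuous_eval (Y.X j k)

theorem at_mem (Y : Flds I) (j : Fin Y.M) {p : EE N} (hp : p ∈ Cone I) : Y.at j p ∈ Tan I p := by
  rw [← Y.span p hp]
  exact Submodule.subset_span ⟨j, rfl⟩

/-- `⟨w, v⟩ = ∑ w_k conj(v_k)` -/
def ip (w v : EE N) : ℂ := ∑ k, w k * conj (v k)

theorem ip_self (w : EE N) : ip w w = (nsq w : ℂ) := by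
  unfold ip nsq
  rw [Complex.ofReal_sum]
  refine Finset.sum_congr rfl fun k _ => ?_
  rw [Complex.mul_conj, Complex.normSq_eq_norm_sq]

theorem ip_conj (w v : EE N) : conj (ip w v) = ip v w := by
  unfold ip
  rw [map_sum]
  refine Finset.sum_congr rfl fun k _ => ?_
  rw [map_mul, Complex.conj_conj, mul_comm]

theorem ip_cs (w v : EE N) : ‖ip w v‖ ^ 2 ≤ nsq w * nsq v := by
  have h1 : ‖ip w v‖ ≤ ∑ k, ‖w k‖ * ‖v k‖ := by
    refine (norm_sum_le _ _).trans (Finset.sum_le_sum fun k _ => ?_)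
    rw [norm_mul, RCLike.norm_conj]
  calc ‖ip w v‖ ^ 2 ≤ (∑ k, ‖w k‖ * ‖v k‖) ^ 2 := pow_le_pow_left₀ (norm_nonneg _) h1 2
    _ ≤ _ := Finset.sum_mul_sq_le_sq_mul_sq _ _ _

theorem ip_smul_left (c : ℂ) (w v : EE N) : ip (c • w) v = c * ip w v := by
  unfold ip
  rw [Finset.mul_sum]
  exact Finset.sum_congr rfl fun k _ => by simp only [Pi.smul_apply, smul_eq_mul]; ring

theorem ip_smul_right (c : ℂ) (w v : EE N) : ip w (c • v) = conj c * ip w v := by
  unfold ip
  rw [Finset.mul_sum]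
  exact Finset.sum_congr rfl fun k _ => by simp only [Pi.smul_apply, smul_eq_mul, map_mul]; ring

theorem ip_add_left (w w' v : EE N) : ip (w + w') v = ip w v + ip w' v := by
  unfold ip
  rw [← Finset.sum_add_distrib]
  exact Finset.sum_congr rfl fun k _ => by simp only [Pi.add_apply]; ring

theorem ip_sum_left {ι : Type} (s : Finset ι) (w : ι → EE N) (v : EE N) :
    ip (∑ j ∈ s, w j) v = ∑ j ∈ s, ip (w j) v := by
  unfold ip
  simp only [Finset.sum_apply, Finset.sum_mul]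
  exact Finset.sum_comm

theorem ip_sum_right {ι : Type} (s : Finset ι) (w : ι → EE N) (v : EE N) :
    ip v (∑ j ∈ s, w j) = ∑ j ∈ s, ip v (w j) := by
  unfold ip
  simp only [Finset.sum_apply, map_sum, Finset.mul_sum]
  exact Finset.sum_comm

theorem ip_continuous : Continuous (fun x : EE N × EE N => ip x.1 x.2) := by
  unfold ip
  exact continuous_finsetSum _ fun k _ => ((continuous_apply k).comp continuous_fst).mul
    (Complex.continuous_conj.comp ((continuous_apply k).comp continuous_snd))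

/-- lower bound `∑_j |⟨w, X_j(p)⟩|² ≥ m |p|^(2D) |w|²` on tangent vectors -/
theorem exists_lower (hX : IsSmoothProjective I n) (Y : Flds I) : ∃ m : ℝ, 0 < m ∧
    ∀ p ∈ Cone I, ∀ w ∈ Tan I p, m * nsq p ^ Y.D * nsq w ≤ ∑ j, ‖ip w (Y.at j p)‖ ^ 2 := by
  let f : EE N × EE N → ℝ := fun x => ∑ j, ‖ip x.2 (Y.at j x.1)‖ ^ 2
  have hf : Continuous f := by
    refine continuous_finsetSum _ fun j _ => Continuous.pow (Continuous.norm ?_) 2
    exact ip_continuous.comp (continuous_snd.prodMk ((at_continuous Y j).comp continuous_fst))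
  have hpos : ∀ x ∈ Sph2 I, 0 < f x := by
    intro x hx
    have h0 : 0 ≤ f x := Finset.sum_nonneg fun _ _ => by positivity
    rcases h0.eq_or_lt with h | h
    swap
    · exact h
    exfalso
    have h1 : ∀ j, ip x.2 (Y.at j x.1) = 0 := by
      intro j
      have := (Finset.sum_eq_zero_iff_of_nonneg (fun j _ => by positivity)).1 h.symm j (Finset.mem_univ j)
      simpa using this
    have h2 : x.2 ∈ Submodule.span ℂ (Set.range fun j => fun k => MvPolynomial.eval x.1 (Y.X j k)) := by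
      rw [Y.span x.1 (Sph_sub hx.1)]; exact hx.2.1
    obtain ⟨c, hc⟩ := (Submodule.mem_span_range_iff_exists_fun ℂ).1 h2
    have h3 : ip x.2 x.2 = 0 := by
      nth_rewrite 2 [← hc]
      rw [ip_sum_right]
      refine Finset.sum_eq_zero fun j _ => ?_
      rw [ip_smul_right]
      have : ip x.2 (fun k => MvPolynomial.eval x.1 (Y.X j k)) = 0 := h1 j
      rw [this, mul_zero]
    rw [ip_self, hx.2.2] at h3
    simp at h3
  obtain ⟨m, hm, hmf⟩ : ∃ m : ℝ, 0 < m ∧ ∀ x ∈ Sph2 I, m ≤ f x := by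
    rcases (Sph2 I).eq_empty_or_nonempty with h | h
    · exact ⟨1, one_pos, by simp [h]⟩
    · obtain ⟨x, hx, hmin⟩ := (isCompact_Sph2 I).exists_isMinOn h hf.continuousOn
      exact ⟨f x, hpos x hx, fun y hy => hmin hy⟩
  refine ⟨m, hm, ?_⟩
  intro p hp w hw
  obtain ⟨t, p', ht, hp', rfl, htp⟩ := exists_unit hX hp
  have htc : (t : ℂ) ≠ 0 := by exact_mod_cast ht.ne'
  rcases eq_or_ne w 0 with rfl | hw0
  · have : nsq (0 : EE N) = 0 := by simp [nsq]
    rw [this, mul_zero]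
    exact Finset.sum_nonneg fun _ _ => by positivity
  have hw1 := nsq_pos hw0
  set s := Real.sqrt (nsq w) with hs
  have hs0 : 0 < s := Real.sqrt_pos.2 hw1
  have hsc : (s : ℂ) ≠ 0 := by exact_mod_cast hs0.ne'
  have hs2 : s ^ 2 = nsq w := Real.sq_sqrt hw1.le
  have hw' : w ∈ Tan I p' := by rwa [Tan_smul hX p' htc] at hw
  have h1 : ((p', (s : ℂ)⁻¹ • w) : EE N × EE N) ∈ Sph2 I := by
    refine ⟨hp', Submodule.smul_mem _ _ hw', ?_⟩
    show nsq ((s : ℂ)⁻¹ • w) = 1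
    rw [nsq_smul, map_inv₀, Complex.normSq_ofReal, ← pow_two, hs2, inv_mul_cancel₀ hw1.ne']
  have h2 := hmf _ h1
  have h3 : f ((p', (s : ℂ)⁻¹ • w) : EE N × EE N) = (s ^ 2)⁻¹ * ∑ j, ‖ip w (Y.at j p')‖ ^ 2 := by
    simp only [f]
    rw [Finset.mul_sum]
    refine Finset.sum_congr rfl fun j _ => ?_
    rw [ip_smul_left, norm_mul, mul_pow, norm_inv, Complex.norm_real, Real.norm_eq_abs, inv_pow, sq_abs]
  have h4 : ∑ j, ‖ip w (Y.at j ((t : ℂ) • p'))‖ ^ 2 = (t ^ 2) ^ Y.D * ∑ j, ‖ip w (Y.at j p')‖ ^ 2 := by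
    rw [Finset.mul_sum]
    refine Finset.sum_congr rfl fun j _ => ?_
    rw [at_smul, ip_smul_right, norm_mul, mul_pow, RCLike.norm_conj, norm_pow, Complex.norm_real,
      Real.norm_eq_abs, ← pow_mul, mul_comm Y.D 2, pow_mul, sq_abs]
  rw [h4, ← htp, ← hs2]
  rw [h3] at h2
  have h5 : m * s ^ 2 ≤ ∑ j, ‖ip w (Y.at j p')‖ ^ 2 := by
    have h6 : 0 < s ^ 2 := by positivity
    rw [← div_eq_inv_mul, le_div_iff₀ h6] at h2
    exact h2
  have h7 : 0 ≤ (t ^ 2) ^ Y.D := by positivity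
  calc m * (t ^ 2) ^ Y.D * s ^ 2 = (t ^ 2) ^ Y.D * (m * s ^ 2) := by ring
    _ ≤ _ := mul_le_mul_of_nonneg_left h5 h7

/-- THE SPANNING BOUND -/
theorem frame_span (hX : IsSmoothProjective I n) (Y : Flds I) : ∃ C : ℝ, 0 < C ∧
    ∀ p ∈ Cone I, ∀ V ∈ Tan I p, ∃ c : Fin Y.M → ℂ, ∑ j, c j • Y.at j p = V ∧
      nsq p ^ Y.D * ∑ j, ‖c j‖ ^ 2 ≤ C * nsq V := by
  obtain ⟨m, hm, hlow⟩ := exists_lower hX Y
  refine ⟨m⁻¹, inv_pos.2 hm, ?_⟩
  intro p hp V hV
  have h0 := nsq_pos hp.2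
  -- the operator `w ↦ ∑ ⟨w, X_j⟩ X_j`
  have hmem : ∀ w : EE N, ∑ j, ip w (Y.at j p) • Y.at j p ∈ Tan I p := fun w =>
    Submodule.sum_mem _ fun j _ => Submodule.smul_mem _ _ (at_mem Y j hp)
  let S : Tan I p →ₗ[ℂ] Tan I p :=
    { toFun := fun w => ⟨∑ j, ip (w : EE N) (Y.at j p) • Y.at j p, hmem w⟩
      map_add' := fun w w' => by
        ext1
        simp only [Submodule.coe_add, ip_add_left, add_smul, Finset.sum_add_distrib]
      map_smul' := fun c w => by
        ext1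
        simp only [Submodule.coe_smul, ip_smul_left, mul_smul, Finset.smul_sum, RingHom.id_apply] }
  have hkey : ∀ w : EE N, ip (∑ j, ip w (Y.at j p) • Y.at j p) w
      = ((∑ j, ‖ip w (Y.at j p)‖ ^ 2 : ℝ) : ℂ) := by
    intro w
    rw [ip_sum_left, Complex.ofReal_sum]
    refine Finset.sum_congr rfl fun j _ => ?_
    rw [ip_smul_left, ← ip_conj w, Complex.mul_conj, Complex.normSq_eq_norm_sq]
  have hinj : Function.Injective S := by
    rw [injective_iff_map_eq_zero]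
    intro w hw
    have h1 : ∑ j, ip (w : EE N) (Y.at j p) • Y.at j p = 0 := congrArg Subtype.val hw
    have h2 := hkey (w : EE N)
    rw [h1] at h2
    have h3 : ip (0 : EE N) (w : EE N) = 0 := by simp [ip]
    rw [h3] at h2
    have h4 : ∑ j, ‖ip (w : EE N) (Y.at j p)‖ ^ 2 = 0 := by exact_mod_cast h2.symm
    have h5 := hlow p hp w w.2
    rw [h4] at h5
    have h6 : nsq (w : EE N) ≤ 0 := by
      by_contra h7
      push Not at h7
      have : 0 < m * nsq p ^ Y.D * nsq (w : EE N) := by positivity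
      linarith
    by_contra h7
    have h8 : (w : EE N) ≠ 0 := fun h => h7 (Subtype.ext h)
    have := nsq_pos h8
    linarith
  have hsurj : Function.Surjective S := LinearMap.injective_iff_surjective.1 hinj
  obtain ⟨w, hw⟩ := hsurj ⟨V, hV⟩
  have hwV : ∑ j, ip (w : EE N) (Y.at j p) • Y.at j p = V := congrArg Subtype.val hw
  refine ⟨fun j => ip (w : EE N) (Y.at j p), hwV, ?_⟩
  set E := ∑ j, ‖ip (w : EE N) (Y.at j p)‖ ^ 2 with hE
  have hE0 : 0 ≤ E := Finset.sum_nonneg fun _ _ => by positivity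
  have h1 : ip V (w : EE N) = (E : ℂ) := by rw [← hwV, hkey]
  have h2 : E ^ 2 ≤ nsq V * nsq (w : EE N) := by
    have := ip_cs V (w : EE N)
    rwa [h1, Complex.norm_real, Real.norm_eq_abs, sq_abs] at this
  have h3 := hlow p hp w w.2
  have hP : 0 < nsq p ^ Y.D := by positivity
  rcases hE0.eq_or_lt with h4 | h4
  · rw [← h4, mul_zero]
    have := nsq_nonneg V
    positivity
  have h5 : (nsq p ^ Y.D * m * E) * E ≤ nsq V * E := by
    calc (nsq p ^ Y.D * m * E) * E = nsq p ^ Y.D * m * E ^ 2 := by ring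
      _ ≤ nsq p ^ Y.D * m * (nsq V * nsq (w : EE N)) := mul_le_mul_of_nonneg_left h2 (by positivity)
      _ = nsq V * (m * nsq p ^ Y.D * nsq (w : EE N)) := by ring
      _ ≤ nsq V * E := mul_le_mul_of_nonneg_left h3 (nsq_nonneg V)
  have h6 : nsq p ^ Y.D * m * E ≤ nsq V := le_of_mul_le_mul_right h5 h4
  rw [← div_eq_inv_mul, le_div_iff₀ hm]
  linarith

/-! ### the final statement -/

theorem nsq_comb_le {κ : Type} [Fintype κ] (x : κ → ℂ) (b : κ → EE N) :
    nsq (∑ k, x k • b k) ≤ (∑ k, ‖x k‖ ^ 2) * ∑ k, nsq (b k) := by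
  unfold nsq
  rw [Finset.sum_comm (f := fun k i => ‖b k i‖ ^ 2), Finset.mul_sum]
  refine Finset.sum_le_sum fun i _ => ?_
  rw [Finset.sum_apply]
  have h1 : ‖∑ k, (x k • b k) i‖ ≤ ∑ k, ‖x k‖ * ‖b k i‖ := by
    refine (norm_sum_le _ _).trans (Finset.sum_le_sum fun k _ => ?_)
    rw [Pi.smul_apply, smul_eq_mul, norm_mul]
  calc ‖∑ k, (x k • b k) i‖ ^ 2 ≤ (∑ k, ‖x k‖ * ‖b k i‖) ^ 2 := pow_le_pow_left₀ (norm_nonneg _) h1 2
    _ ≤ _ := Finset.sum_mul_sq_le_sq_mul_sq _ _ _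

/-- `y ↦ Re ⟨y, p⟩` -/
def reipL (p : EE N) : EE N →L[ℝ] ℝ :=
  LinearMap.toContinuousLinearMap
    { toFun := fun y => (ip y p).re
      map_add' := fun y y' => by rw [ip_add_left, Complex.add_re]
      map_smul' := fun c y => by
        have : c • y = (c : ℂ) • y := by
          ext i
          simp
        rw [this, ip_smul_left, Complex.re_ofReal_mul]
        rfl }

theorem reipL_apply (p y : EE N) : reipL p y = (ip y p).re := rfl

theorem nsq_sub (y p : EE N) : nsq (y - p) = nsq y + nsq p - 2 * (ip y p).re := by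
  have h : ((nsq (y - p) : ℝ) : ℂ) = nsq y + nsq p - (ip y p + conj (ip y p)) := by
    rw [← ip_self, ← ip_self, ← ip_self, ip_conj]
    unfold ip
    simp only [← Finset.sum_add_distrib, ← Finset.sum_sub_distrib]
    refine Finset.sum_congr rfl fun k _ => ?_
    simp only [Pi.sub_apply, map_sub]
    ring
  rw [Complex.add_conj] at h
  have := congrArg Complex.re h
  simpa using this

/-- mean square deviation of the boundary values: `∫ |H* - p|² = 1 - |p|²` -/
theorem integral_nsq_sub {Ω : Type*} [MeasurableSpace Ω] {μ : Measure Ω} [IsProbabilityMeasure μ]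
    {Hs : Ω → EE N} (hHs : Integrable Hs μ) (h1 : ∀ᵐ ω ∂μ, nsq (Hs ω) = 1) {p : EE N}
    (hmean : ∫ ω, Hs ω ∂μ = p) :
    Integrable (fun ω => nsq (Hs ω - p)) μ ∧ ∫ ω, nsq (Hs ω - p) ∂μ = 1 - nsq p := by
  have hlin : Integrable (fun ω => reipL p (Hs ω)) μ := (reipL p).integrable_comp hHs
  have hae : (fun ω => nsq (Hs ω - p)) =ᵐ[μ] fun ω => (1 + nsq p) - 2 * reipL p (Hs ω) := by
    filter_upwards [h1] with ω hω
    rw [nsq_sub, hω, reipL_apply]
  have hI : Integrable (fun ω => (1 + nsq p) - 2 * reipL p (Hs ω)) μ :=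
    (integrable_const _).sub (hlin.const_mul 2)
  refine ⟨hI.congr hae.symm, ?_⟩
  rw [integral_congr_ae hae, integral_sub (integrable_const _) (hlin.const_mul 2),
    integral_const_mul, ContinuousLinearMap.integral_comp_comm _ hHs, hmean, reipL_apply, ip_self]
  simp
  ring

theorem integral_le_of_ae_le {Ω : Type*} [MeasurableSpace Ω] {μ : Measure Ω} {f g : Ω → ℝ}
    (hg : Integrable g μ) (h : ∀ᵐ ω ∂μ, f ω ≤ g ω) (h0 : 0 ≤ ∫ ω, g ω ∂μ) :
    ∫ ω, f ω ∂μ ≤ ∫ ω, g ω ∂μ := by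
  by_cases hf : Integrable f μ
  · exact integral_mono_ae hf hg h
  · rw [integral_undef hf]; exact h0

/-- B8 KER. (K1) and (K2) at a point `p` of a maximal disc; `Hs` are the boundary values,
`(Ω, μ)` = (circle, Poisson kernel at `z`). -/
theorem ker (hX : IsSmoothProjective I n) {a : EE N → VV N} (ha : PosField I n a) (Y : Flds I)
    {Q : EE N → (Fin Y.M → ℂ) → ℝ}
    (h1 : ∀ p ∈ Cone I, ∀ b : Fin n → EE N, Rep I a p b → ∀ (c : Fin Y.M → ℂ) (x : Fin n → ℂ) (r : ℂ),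
      ∑ j, c j • Y.at j p = ∑ k, x k • b k + r • p → Q p c = nsq p ^ 2 * ∑ k, ‖x k‖ ^ 2)
    (h2 : ∃ C₂ : ℝ, ∀ p ∈ Cone I, 1 / 2 ≤ nsq p → nsq p ≤ 1 → ∀ c : Fin Y.M → ℂ,
      ∃ D : EE N →L[ℝ] ℝ, ∀ y ∈ Cone I, nsq y = 1 →
        Q y c ≤ Q p c + D (y - p) + C₂ * (∑ j, ‖c j‖ ^ 2) * nsq (y - p))
    (h3 : ∃ C₃ : ℝ, ∀ y ∈ Cone I, nsq y = 1 → ∀ c : Fin Y.M → ℂ, Q y c ≤ C₃ * ∑ j, ‖c j‖ ^ 2) :
    ∃ (C : ℝ) (K : ℕ), 0 < C ∧ ∀ (Ω : Type) [MeasurableSpace Ω] (μ : Measure Ω)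
      [IsProbabilityMeasure μ] (Hs : Ω → EE N), Integrable Hs μ →
      (∀ᵐ ω ∂μ, Hs ω ∈ Cone I ∧ nsq (Hs ω) = 1) → ∀ p ∈ Cone I, ∫ ω, Hs ω ∂μ = p →
      ∀ V : Fin n → EE N, TanFam I p V →
      (∀ c : Fin Y.M → ℂ, ∃ q : Fin n → ℂ, ∑ i, q i • wdg (V i) p = wdg (∑ j, c j • Y.at j p) p ∧
        ∑ i, ‖q i‖ ^ 2 ≤ ∫ ω, Q (Hs ω) c ∂μ) →
      ∀ b : Fin n → EE N, Rep I a p b →
        (1 - C * (1 - nsq p)) * ∑ k, omg p (b k) ≤ ∑ i, omg p (V i) ∧
        nsq p ^ K * DD p b ≤ C * DD p V := by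
  obtain ⟨C₂, h2⟩ := h2
  obtain ⟨C₃, h3⟩ := h3
  obtain ⟨C₄, hC₄, h4⟩ := frame_span hX Y
  obtain ⟨C₅, hC₅, h5⟩ := trace_bound hX ha
  set D' := Y.D - 1 with hD'
  have hD : Y.D = D' + 1 := by have := Y.one_le; omega
  set C₆ := C₄ * C₅ with hC₆
  have hC₆0 : 0 ≤ C₆ := by positivity
  set C₇ := |C₂| * (2 ^ D' * C₆) with hC₇
  have hC₇0 : 0 ≤ C₇ := by positivity
  set C₈ := |C₃| * C₆ with hC₈
  have hC₈0 : 0 ≤ C₈ := by positivity
  refine ⟨2 + C₇ + C₈ ^ n, D' * n, by positivity, ?_⟩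
  intro Ω _ μ _ Hs hHs hae p hp hmean V hV hrep b hb
  have hae1 : ∀ᵐ ω ∂μ, nsq (Hs ω) = 1 := by
    filter_upwards [hae] with ω h using h.2
  obtain ⟨hI, hint⟩ := integral_nsq_sub hHs hae1 hmean
  have hp0 := nsq_pos hp.2
  have hp1 : nsq p ≤ 1 := by
    have : 0 ≤ ∫ ω, nsq (Hs ω - p) ∂μ := integral_nonneg fun ω => nsq_nonneg _
    linarith
  set G := nsq p ^ D' with hG
  have hG0 : 0 < G := by positivity
  -- the coefficients
  have hcoef : ∀ x : Fin n → ℂ, ∃ c : Fin Y.M → ℂ, ∑ j, c j • Y.at j p = ∑ k, x k • b k ∧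
      G * ∑ j, ‖c j‖ ^ 2 ≤ C₆ * ∑ k, ‖x k‖ ^ 2 := by
    intro x
    obtain ⟨c, hc, hcb⟩ := h4 p hp (∑ k, x k • b k)
      (Submodule.sum_mem _ fun k _ => Submodule.smul_mem _ _ (hb.1 k))
    refine ⟨c, hc, ?_⟩
    have e1 : nsq p ^ Y.D * ∑ j, ‖c j‖ ^ 2 ≤ C₄ * ((∑ k, ‖x k‖ ^ 2) * (C₅ * nsq p)) := by
      refine hcb.trans (mul_le_mul_of_nonneg_left ?_ hC₄.le)
      refine (nsq_comb_le x b).trans (mul_le_mul_of_nonneg_left (h5 p hp b hb) ?_)
      exact Finset.sum_nonneg fun _ _ => by positivity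
    have e2 : nsq p * (G * ∑ j, ‖c j‖ ^ 2) ≤ nsq p * (C₆ * ∑ k, ‖x k‖ ^ 2) := by
      calc nsq p * (G * ∑ j, ‖c j‖ ^ 2) = nsq p ^ Y.D * ∑ j, ‖c j‖ ^ 2 := by
            rw [hD, hG]; ring
        _ ≤ _ := e1
        _ = _ := by rw [hC₆]; ring
    exact le_of_mul_le_mul_left e2 hp0
  have hwb : ∀ x : Fin n → ℂ, wdg (∑ k, x k • b k) p = ∑ k, x k • wdg (b k) p := by
    intro x
    rw [← wdgL_apply, map_sum]
    simp only [map_smul, wdgL_apply]
  constructor
  · -- (K1)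
    have hS0 : ∀ {m : ℕ} (W : Fin m → EE N), 0 ≤ ∑ k, omg p (W k) := by
      intro m W
      refine Finset.sum_nonneg fun k _ => ?_
      have e1 := sum_wdg_sq hp.2 (W k)
      have e2 : 0 ≤ ∑ i, ∑ j, ‖wdg (W k) p i j‖ ^ 2 :=
        Finset.sum_nonneg fun _ _ => Finset.sum_nonneg fun _ _ => by positivity
      rw [e1] at e2
      have e3 : 0 < 2 * nsq p ^ 2 := by positivity
      exact (mul_nonneg_iff_of_pos_left e3).1 e2
    rcases lt_or_ge (nsq p) (1 / 2) with hs | hs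
    · have e1 : 1 - (2 + C₇ + C₈ ^ n) * (1 - nsq p) ≤ 0 := by
        have : 0 ≤ C₈ ^ n := by positivity
        nlinarith
      exact (mul_nonpos_of_nonpos_of_nonneg e1 (hS0 b)).trans (hS0 V)
    · have hA : 0 ≤ 1 + C₇ * (1 - nsq p) := by nlinarith
      have key := omg_le hp.2 b V hA (by
        intro x
        obtain ⟨c, hc, hcb⟩ := hcoef x
        obtain ⟨q, hq, hqA⟩ := hrep c
        refine ⟨q, by rw [hq, hc, hwb], hqA.trans ?_⟩
        have hx0 : 0 ≤ ∑ k, ‖x k‖ ^ 2 := Finset.sum_nonneg fun _ _ => by positivity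
        have hc0 : 0 ≤ ∑ j, ‖c j‖ ^ 2 := Finset.sum_nonneg fun _ _ => by positivity
        have hQp : Q p c = nsq p ^ 2 * ∑ k, ‖x k‖ ^ 2 := h1 p hp b hb c x 0 (by rw [hc]; simp)
        obtain ⟨D, hD2⟩ := h2 p hp hs hp1 c
        have hsub : Integrable (fun ω => Hs ω - p) μ := hHs.sub (integrable_const p)
        have hlin : Integrable (fun ω => D (Hs ω - p)) μ := D.integrable_comp hsub
        have hlin0 : ∫ ω, D (Hs ω - p) ∂μ = 0 := by
          rw [ContinuousLinearMap.integral_comp_comm _ hsub, integral_sub hHs (integrable_const p),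
            hmean]
          simp
        have hgI : Integrable (fun ω => Q p c + D (Hs ω - p)
            + |C₂| * (∑ j, ‖c j‖ ^ 2) * nsq (Hs ω - p)) μ :=
          ((integrable_const _).add hlin).add (hI.const_mul _)
        have hgint : ∫ ω, (Q p c + D (Hs ω - p) + |C₂| * (∑ j, ‖c j‖ ^ 2) * nsq (Hs ω - p)) ∂μ
            = Q p c + |C₂| * (∑ j, ‖c j‖ ^ 2) * (1 - nsq p) := by
          have e1 : ∫ ω, (Q p c + D (Hs ω - p) + |C₂| * (∑ j, ‖c j‖ ^ 2) * nsq (Hs ω - p)) ∂μ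
              = ∫ ω, (Q p c + D (Hs ω - p)) ∂μ + ∫ ω, |C₂| * (∑ j, ‖c j‖ ^ 2) * nsq (Hs ω - p) ∂μ :=
            integral_add ((integrable_const _).add hlin) (hI.const_mul _)
          have e2 : ∫ ω, (Q p c + D (Hs ω - p)) ∂μ = ∫ _ω, Q p c ∂μ + ∫ ω, D (Hs ω - p) ∂μ :=
            integral_add (integrable_const _) hlin
          rw [e1, e2, hlin0, integral_const_mul, hint]
          simp
        have hgae : ∀ᵐ ω ∂μ, Q (Hs ω) c ≤ Q p c + D (Hs ω - p)
            + |C₂| * (∑ j, ‖c j‖ ^ 2) * nsq (Hs ω - p) := by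
          filter_upwards [hae] with ω hω
          refine (hD2 (Hs ω) hω.1 hω.2).trans ?_
          have e1 : C₂ * (∑ j, ‖c j‖ ^ 2) * nsq (Hs ω - p)
              ≤ |C₂| * (∑ j, ‖c j‖ ^ 2) * nsq (Hs ω - p) :=
            mul_le_mul_of_nonneg_right (mul_le_mul_of_nonneg_right (le_abs_self _) hc0)
              (nsq_nonneg _)
          linarith
        have hgnn : 0 ≤ Q p c + |C₂| * (∑ j, ‖c j‖ ^ 2) * (1 - nsq p) := by
          have e1 : 0 ≤ 1 - nsq p := by linarith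
          rw [hQp]; positivity
        have hle := integral_le_of_ae_le hgI hgae (by rw [hgint]; exact hgnn)
        rw [hgint] at hle
        refine hle.trans ?_
        -- numerical part
        have e1 : (2 : ℝ)⁻¹ ^ D' * ∑ j, ‖c j‖ ^ 2 ≤ C₆ * ∑ k, ‖x k‖ ^ 2 := by
          refine (mul_le_mul_of_nonneg_right ?_ hc0).trans hcb
          rw [hG]
          exact pow_le_pow_left₀ (by norm_num) (by linarith) _
        have e2 : ∑ j, ‖c j‖ ^ 2 ≤ 2 ^ D' * (C₆ * ∑ k, ‖x k‖ ^ 2) := by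
          rw [inv_pow, ← div_eq_inv_mul, div_le_iff₀ (by positivity)] at e1
          linarith
        have e3 : |C₂| * (∑ j, ‖c j‖ ^ 2) * (1 - nsq p)
            ≤ |C₂| * (2 ^ D' * (C₆ * ∑ k, ‖x k‖ ^ 2)) * (1 - nsq p) :=
          mul_le_mul_of_nonneg_right (mul_le_mul_of_nonneg_left e2 (abs_nonneg _)) (by linarith)
        have e4 : nsq p ^ 2 ≤ 1 := pow_le_one₀ hp0.le hp1
        rw [hQp]
        calc nsq p ^ 2 * ∑ k, ‖x k‖ ^ 2 + |C₂| * (∑ j, ‖c j‖ ^ 2) * (1 - nsq p)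
            ≤ 1 * ∑ k, ‖x k‖ ^ 2 + |C₂| * (2 ^ D' * (C₆ * ∑ k, ‖x k‖ ^ 2)) * (1 - nsq p) :=
              add_le_add (mul_le_mul_of_nonneg_right e4 hx0) e3
          _ = (1 + C₇ * (1 - nsq p)) * ∑ k, ‖x k‖ ^ 2 := by rw [hC₇]; ring)
      set C := 2 + C₇ + C₈ ^ n with hC
      have hCC : C₇ ≤ C := by
        have : 0 ≤ C₈ ^ n := by positivity
        linarith
      set t := 1 - nsq p with ht
      have ht0 : 0 ≤ t := by linarith
      rcases le_total (1 - C * t) 0 with h6 | h6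
      · exact (mul_nonpos_of_nonpos_of_nonneg h6 (hS0 b)).trans (hS0 V)
      · have h7 : (1 - C * t) * (1 + C₇ * t) ≤ 1 := by
          have : C₇ * t ≤ C * t := mul_le_mul_of_nonneg_right hCC ht0
          have h8 : 0 ≤ C * t := mul_nonneg (hC₇0.trans hCC) ht0
          have h9 : 0 ≤ C₇ * t := mul_nonneg hC₇0 ht0
          nlinarith [mul_nonneg h8 h9]
        calc (1 - C * t) * ∑ k, omg p (b k)
            ≤ (1 - C * t) * ((1 + C₇ * t) * ∑ i, omg p (V i)) := mul_le_mul_of_nonneg_left key h6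
          _ = ((1 - C * t) * (1 + C₇ * t)) * ∑ i, omg p (V i) := by ring
          _ ≤ 1 * ∑ i, omg p (V i) := mul_le_mul_of_nonneg_right h7 (hS0 V)
          _ = _ := one_mul _
  · -- (K2)
    have hA : 0 ≤ C₈ / G := by positivity
    have key := DD_le hX hp hb.1 hV hA (by
      intro x
      obtain ⟨c, hc, hcb⟩ := hcoef x
      obtain ⟨q, hq, hqA⟩ := hrep c
      refine ⟨q, by rw [hq, hc, hwb], hqA.trans ?_⟩
      have hc0 : 0 ≤ ∑ j, ‖c j‖ ^ 2 := Finset.sum_nonneg fun _ _ => by positivity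
      have hcst : ∫ _ω, (|C₃| * ∑ j, ‖c j‖ ^ 2) ∂μ = |C₃| * ∑ j, ‖c j‖ ^ 2 := by simp
      have hle := integral_le_of_ae_le (μ := μ) (f := fun ω => Q (Hs ω) c)
        (g := fun _ => |C₃| * ∑ j, ‖c j‖ ^ 2) (integrable_const _) (by
          filter_upwards [hae] with ω hω
          exact (h3 (Hs ω) hω.1 hω.2 c).trans
            (mul_le_mul_of_nonneg_right (le_abs_self _) hc0)) (by rw [hcst]; positivity)
      rw [hcst] at hle
      refine hle.trans ?_
      rw [div_mul_eq_mul_div, le_div_iff₀ hG0]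
      calc |C₃| * (∑ j, ‖c j‖ ^ 2) * G = |C₃| * (G * ∑ j, ‖c j‖ ^ 2) := by ring
        _ ≤ |C₃| * (C₆ * ∑ k, ‖x k‖ ^ 2) := mul_le_mul_of_nonneg_left hcb (abs_nonneg _)
        _ = C₈ * ∑ k, ‖x k‖ ^ 2 := by rw [hC₈]; ring)
    have hV0 := DD_nonneg p V
    have e1 : nsq p ^ (D' * n) * DD p b ≤ C₈ ^ n * DD p V := by
      rw [pow_mul, ← hG]
      have : G ^ n * DD p b ≤ G ^ n * ((C₈ / G) ^ n * DD p V) :=
        mul_le_mul_of_nonneg_left key (by positivity)
      refine this.trans (le_of_eq ?_)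
      rw [div_pow]
      field_simp
    refine e1.trans (mul_le_mul_of_nonneg_right ?_ hV0)
    linarith

end Crest.Agent.R269.Ker2_430
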