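import Crest.Agent.R269.GeoC_328

/-! # R269, leaf GEO: proof of `ChartStmt` (helper328) -/

set_option autoImplicit false

open MvPolynomial Crest.AlgGeometry.ProjEmb
open scoped ContDiff Topology ComplexConjugate

namespace Crest.Agent.R269.Geo_328

noncomputable section

theorem chartStmt : ChartStmt := by
  intro N n I hI hX p₀ hp₀
  classical
  have := hI
  obtain ⟨i, hi⟩ : ∃ i, p₀ i ≠ 0 := by
    by_contra h; push Not at h; exact hp₀.2 (funext h)
  set q₀ : EE N := (p₀ i)⁻¹ • p₀ with hq₀
  have hq₀C : q₀ ∈ Cone I := smul_mem_Cone hX hp₀ (inv_ne_zero hi)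
  have hq₀i : q₀ i = 1 := by simp [hq₀, hi]
  obtain ⟨F, J, hF, hJ, hJi, hker, hinj⟩ :=
    exists_frame hX hq₀C (i := i) (by rw [hq₀i]; exact one_ne_zero)
  have hle := hX.dim_le
  -- the local homeomorphism
  have hinjL : Function.Injective (PhiL i J F q₀) := by
    rw [injective_iff_map_eq_zero]
    intro v hv
    rw [PhiL_apply] at hv
    exact hinj v (congrFun hv none) (fun k => congrFun hv (some (Sum.inl k)))
      (fun s => congrFun hv (some (Sum.inr s)))
  have hfr : Module.finrank ℂ (EE N) = Module.finrank ℂ (RI N n → ℂ) := by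
    rw [Module.finrank_fintype_fun_eq_card, Module.finrank_fintype_fun_eq_card, card_RI hle,
      Fintype.card_fin]
  set e : EE N ≃L[ℂ] (RI N n → ℂ) :=
    (LinearMap.linearEquivOfInjective (PhiL i J F q₀ : EE N →ₗ[ℂ] (RI N n → ℂ))
      hinjL hfr).toContinuousLinearEquiv with he0
  have he : (e : EE N →L[ℂ] (RI N n → ℂ)) = PhiL i J F q₀ := by
    ext v; rfl
  have hf' : HasFDerivAt (PhiC i J F) (e : EE N →L[ℂ] (RI N n → ℂ)) q₀ := by
    rw [he]; exact hasFDerivAt_PhiC i J F q₀
  have hcd : ContDiffAt ℂ ω (PhiC i J F) q₀ := (contDiff_PhiC i J F).contDiffAt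
  have hω : (ω : WithTop ℕ∞) ≠ 0 := by simp
  set P := hcd.toOpenPartialHomeomorph (PhiC i J F) hf' hω with hP
  have hPcoe : ∀ q, P q = PhiC i J F q := fun q => by
    rw [hP, ContDiffAt.toOpenPartialHomeomorph_coe]
  have hsrc : q₀ ∈ P.source := hcd.mem_toOpenPartialHomeomorph_source hf' hω
  set y₀ : RI N n → ℂ := PhiC i J F q₀ with hy₀
  have htgt : y₀ ∈ P.target := hcd.image_mem_toOpenPartialHomeomorph_target hf' hω
  have hsy : P.symm y₀ = q₀ := by
    have := P.left_inv hsrc
    rwa [hPcoe] at this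
  have han0 : AnalyticAt ℂ P.symm y₀ := by
    have h1 : ContDiffAt ℂ ω P.symm y₀ := hcd.to_localInverse hf' hω
    exact h1.analyticAt
  have hev : ∀ᶠ y in 𝓝 y₀, y ∈ P.target ∧ AnalyticAt ℂ P.symm y ∧
      MvPolynomial.eval (P.symm y) (DelP hle i J F) ≠ 0 := by
    refine Filter.Eventually.and (P.open_target.mem_nhds htgt)
      (han0.eventually_analyticAt.and ?_)
    have h1 : ContinuousAt (fun y => MvPolynomial.eval (P.symm y) (DelP hle i J F)) y₀ :=
      (continuous_eval _).continuousAt.comp han0.continuousAt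
    refine h1.eventually_ne ?_
    rw [hsy]
    exact DelP_ne_zero hle hinj
  have hcont : Continuous fun z : CC n => y₀ + embL N n z := by fun_prop
  have hev2 : ∀ᶠ z : CC n in 𝓝 0, y₀ + embL N n z ∈ P.target ∧
      AnalyticAt ℂ P.symm (y₀ + embL N n z) ∧
      MvPolynomial.eval (P.symm (y₀ + embL N n z)) (DelP hle i J F) ≠ 0 := by
    have h1 := hcont.tendsto 0
    simp only [map_zero, add_zero] at h1
    exact h1.eventually hev
  obtain ⟨R, hR, hball⟩ := Metric.eventually_nhds_iff_ball.1 hev2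
  set σ : CC n → EE N := fun z => P.symm (y₀ + embL N n z) with hσ
  have hσan : ∀ z ∈ Metric.ball (0 : CC n) R, AnalyticAt ℂ σ z := by
    intro z hz
    have h1 : AnalyticAt ℂ (fun z : CC n => y₀ + embL N n z) z :=
      analyticAt_const.add ((embL N n).analyticAt z)
    exact AnalyticAt.fun_comp (g := P.symm) (f := fun z : CC n => y₀ + embL N n z)
      (hball z hz).2.1 h1
  have hσΦ : ∀ z ∈ Metric.ball (0 : CC n) R, PhiC i J F (σ z) = y₀ + embL N n z := by
    intro z hz
    have := P.right_inv (hball z hz).1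
    rwa [hPcoe] at this
  have hσD : ∀ z ∈ Metric.ball (0 : CC n) R, ∀ x : CC n,
      compL i J F (σ z) (fderiv ℂ σ z x) = embL N n x := by
    intro z hz x
    have h1 : HasFDerivAt σ (fderiv ℂ σ z) z := (hσan z hz).differentiableAt.hasFDerivAt
    have h2 : HasFDerivAt (PhiC i J F ∘ σ) ((PhiL i J F (σ z)).comp (fderiv ℂ σ z)) z :=
      (hasFDerivAt_PhiC i J F (σ z)).comp z h1
    have h3 : HasFDerivAt (fun z : CC n => y₀ + embL N n z) (embL N n) z := by
      simpa using (embL N n).hasFDerivAt.const_add y₀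
    have h4 : (PhiC i J F ∘ σ) =ᶠ[𝓝 z] fun z : CC n => y₀ + embL N n z := by
      filter_upwards [Metric.isOpen_ball.mem_nhds hz] with w hw using hσΦ w hw
    have h5 := h2.unique (h3.congr_of_eventuallyEq h4)
    have h6 := congrArg (fun L => L x) h5
    simp only [ContinuousLinearMap.comp_apply, PhiL_apply] at h6
    exact h6
  have hσi : ∀ z ∈ Metric.ball (0 : CC n) R, σ z i = 1 := by
    intro z hz
    have := congrFun (hσΦ z hz) none
    simp only [PhiC, Pi.add_apply, embL_none, add_zero, hy₀, hq₀i] at this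
    exact this
  have hσJ : ∀ z ∈ Metric.ball (0 : CC n) R, ∀ k, σ z (J k) = p₀ (J k) / p₀ i + z k := by
    intro z hz k
    have := congrFun (hσΦ z hz) (some (Sum.inl k))
    simp only [PhiC, Pi.add_apply, embL_inl, hy₀] at this
    rw [this, hq₀]
    simp [div_eq_inv_mul]
  have hσaff : ∀ z ∈ Metric.ball (0 : CC n) R, σ z ∈ affineCone I := by
    intro z hz
    have hz' : ∀ t ∈ Set.Icc (0 : ℝ) 1, t • z ∈ Metric.ball (0 : CC n) R := by
      intro t ht
      rw [mem_ball_zero_iff] at hz ⊢
      calc ‖t • z‖ = |t| * ‖z‖ := by rw [norm_smul, Real.norm_eq_abs]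
        _ ≤ 1 * ‖z‖ := by
          refine mul_le_mul_of_nonneg_right ?_ (norm_nonneg _)
          rw [abs_of_nonneg ht.1]; exact ht.2
        _ < R := by rwa [one_mul]
    have h1 := path_in_cone hX i J hF (fun t => σ (t • z)) (fun t => fderiv ℂ σ (t • z) z)
      (fun t ht => ?_) (fun t ht => ?_) ?_ (fun t ht => ?_) (fun t ht s => ?_) (fun t ht => ?_)
    · simpa using h1
    · have h2 : HasDerivAt (fun t : ℝ => t • z) z t := by
        simpa using (hasDerivAt_id t).smul_const z
      have h3 : HasFDerivAt σ ((fderiv ℂ σ (t • z)).restrictScalars ℝ) (t • z) :=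
        (hσan _ (hz' t ht)).differentiableAt.hasFDerivAt.restrictScalars ℝ
      exact h3.comp_hasDerivAt t h2
    · have h2 : ContinuousAt (fun w => fderiv ℂ σ w z) (t • z) := by
        have := (hσan _ (hz' t ht)).fderiv.continuousAt
        exact this.clm_apply continuousAt_const
      have h3 : ContinuousAt (fun t : ℝ => t • z) t := by fun_prop
      exact (ContinuousAt.comp (f := fun t : ℝ => t • z) (g := fun w => fderiv ℂ σ w z) h2
        h3).continuousWithinAt
    · simp only [zero_smul, hσ, map_zero, add_zero, hsy]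
      exact hq₀C.1
    · exact congrFun (hσD _ (hz' t ht) z) none
    · exact congrFun (hσD _ (hz' t ht) z) (some (Sum.inr s))
    · exact (hball _ (hz' t ht)).2.2
  have hσcone : ∀ z ∈ Metric.ball (0 : CC n) R, σ z ∈ Cone I := by
    intro z hz
    refine ⟨hσaff z hz, fun h0 => ?_⟩
    have := hσi z hz
    rw [h0] at this
    simp at this
  have hσsrc : ∀ z ∈ Metric.ball (0 : CC n) R, σ z ∈ P.source := fun z hz =>
    P.map_target (hball z hz).1
  -- the domain `W`
  set U : Set (EE N) := P.source ∩ {x | ‖(fun k => x (J k) - p₀ (J k) / p₀ i : CC n)‖ < R}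
    with hU
  have hUo : IsOpen U := by
    refine P.open_source.inter (isOpen_lt ?_ continuous_const)
    fun_prop
  set W : Set (EE N) := {q | q i ≠ 0} ∩ (fun q : EE N => (q i)⁻¹ • q) ⁻¹' U with hW
  have hWo : IsOpen W := by
    have h1 : IsOpen {q : EE N | q i ≠ 0} := isOpen_ne_fun (by fun_prop) continuous_const
    refine ContinuousOn.isOpen_inter_preimage ?_ h1 hUo
    intro q hq
    have h2 : ContinuousAt (fun q : EE N => (q i)⁻¹ • q) q :=
      ((continuous_apply i).continuousAt.inv₀ hq).smul continuousAt_id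
    exact h2.continuousWithinAt
  have hratio : ∀ q : EE N, (fun k => ((q i)⁻¹ • q) (J k) - p₀ (J k) / p₀ i : CC n) =
      ratio i J p₀ q := by
    intro q
    funext k
    simp [ratio, div_eq_inv_mul]
  refine ⟨{ i := i, J := J, J_inj := hJ, J_ne := hJi, p₀_ne := hi, R := R, R_pos := hR, σ := σ,
            W := W, W_open := hWo, W_smul := ?_, W_ne := fun q hq => hq.1, mem_W := ?_,
            an := hσan, σ_cone := hσcone, σ_W := ?_, σ_zero := ?_, σ_i := hσi, σ_J := hσJ,
            surj := ?_, tan := ?_ }⟩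
  · intro c hc q hq
    refine ⟨mul_ne_zero hc hq.1, ?_⟩
    have : ((c • q) i)⁻¹ • (c • q) = (q i)⁻¹ • q := by
      rw [Pi.smul_apply, smul_eq_mul, mul_inv, smul_smul]
      congr 1
      field_simp
    change ((c • q) i)⁻¹ • (c • q) ∈ U
    rw [this]
    exact hq.2
  · refine ⟨hi, hsrc, ?_⟩
    change ‖(fun k => ((p₀ i)⁻¹ • p₀) (J k) - p₀ (J k) / p₀ i : CC n)‖ < R
    rw [hratio]
    have : ratio i J p₀ p₀ = 0 := by funext k; simp [ratio]
    rw [this, norm_zero]
    exact hR
  · intro z hz
    have h1 := hσi z hz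
    refine ⟨by rw [Set.mem_ofPred_eq, h1]; exact one_ne_zero, ?_⟩
    change ((σ z) i)⁻¹ • σ z ∈ U
    rw [h1, inv_one, one_smul]
    refine ⟨hσsrc z hz, ?_⟩
    have : (fun k => σ z (J k) - p₀ (J k) / p₀ i : CC n) = z := by
      funext k; rw [hσJ z hz k]; ring
    change ‖(fun k => σ z (J k) - p₀ (J k) / p₀ i : CC n)‖ < R
    rw [this]
    simpa using hz
  · simp only [hσ, map_zero, add_zero, hsy, hq₀]
  · intro q hqC hqW
    obtain ⟨hqi, hqs, hqn⟩ := hqW
    have hζ : ratio i J p₀ q ∈ Metric.ball (0 : CC n) R := by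
      rw [mem_ball_zero_iff, ← hratio]
      exact hqn
    refine ⟨hζ, ?_⟩
    have hq'C : (q i)⁻¹ • q ∈ affineCone I := smul_mem_affineCone hX hqC.1 _
    have h1 : PhiC i J F ((q i)⁻¹ • q) = y₀ + embL N n (ratio i J p₀ q) := by
      funext a
      rcases a with _ | (k | s)
      · simp only [PhiC, hy₀, Pi.add_apply, embL_none, hq₀i, add_zero, Pi.smul_apply, smul_eq_mul]
        exact inv_mul_cancel₀ hqi
      · simp only [PhiC, hy₀, Pi.add_apply, embL_inl, ratio, hq₀, Pi.smul_apply, smul_eq_mul]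
        ring
      · simp only [PhiC, hy₀, Pi.add_apply, embL_inr, add_zero]
        rw [hq'C _ (hF s), hq₀C.1 _ (hF s)]
    have h2 : σ (ratio i J p₀ q) = (q i)⁻¹ • q := by
      rw [hσ]
      simp only
      rw [← h1, ← hPcoe]
      exact P.left_inv hqs
    rw [h2, smul_smul, mul_inv_cancel₀ hqi, one_smul]
  · -- tangent spaces
    intro z hz
    have hD := hσD z hz
    have hTan1 : ∀ x : CC n, fderiv ℂ σ z x ∈ Tan I (σ z) := by
      intro x G hG
      have h1 : HasFDerivAt σ (fderiv ℂ σ z) z := (hσan z hz).differentiableAt.hasFDerivAt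
      have h2 : HasFDerivAt (fun w => MvPolynomial.eval (σ w) G)
          ((dPL G (σ z)).comp (fderiv ℂ σ z)) z := (hasFDerivAt_eval G (σ z)).comp z h1
      have h3 : (fun w => MvPolynomial.eval (σ w) G) =ᶠ[𝓝 z] fun _ => (0 : ℂ) := by
        filter_upwards [Metric.isOpen_ball.mem_nhds hz] with w hw using hσaff w hw G hG
      have h4 := h2.unique ((hasFDerivAt_const (0 : ℂ) z).congr_of_eventuallyEq h3)
      have h5 := congrArg (fun L => L x) h4
      simpa using h5
    have hTan0 : σ z ∈ Tan I (σ z) := self_mem_Tan hX (hσaff z hz)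
    -- the parametrisation
    set T : ℂ × CC n →ₗ[ℂ] EE N :=
      (LinearMap.toSpanSingleton ℂ (EE N) (σ z)).coprod (fderiv ℂ σ z : CC n →ₗ[ℂ] EE N) with hT
    have hTapp : ∀ c x, T (c, x) = c • σ z + fderiv ℂ σ z x := by
      intro c x; simp [hT]
    have hTinj : Function.Injective T := by
      rw [injective_iff_map_eq_zero]
      rintro ⟨c, x⟩ hcx
      rw [hTapp] at hcx
      have hc0 : c = 0 := by
        have h1 := congrFun hcx i
        have h2 : (fderiv ℂ σ z x) i = 0 := congrFun (hD x) none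
        simp only [Pi.add_apply, Pi.smul_apply, smul_eq_mul, hσi z hz, mul_one, h2, add_zero,
          Pi.zero_apply] at h1
        exact h1
      subst hc0
      have hx0 : x = 0 := by
        funext k
        have h1 := congrFun hcx (J k)
        have h2 : (fderiv ℂ σ z x) (J k) = x k := congrFun (hD x) (some (Sum.inl k))
        simp only [Pi.add_apply, Pi.smul_apply, smul_eq_mul, zero_mul, zero_add, h2,
          Pi.zero_apply] at h1
        exact h1
      rw [hx0]
      rfl
    have hrange : LinearMap.range T = Tan I (σ z) := by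
      refine Submodule.eq_of_le_of_finrank_eq ?_ ?_
      · rintro _ ⟨⟨c, x⟩, rfl⟩
        rw [hTapp]
        exact (Tan I (σ z)).add_mem ((Tan I (σ z)).smul_mem c hTan0) (hTan1 x)
      · rw [LinearMap.finrank_range_of_inj hTinj, finrank_Tan hX (hσcone z hz)]
        simp [Module.finrank_prod]
        ring
    intro v
    constructor
    · intro hv
      rw [← hrange] at hv
      obtain ⟨⟨c, x⟩, hcx⟩ := hv
      exact ⟨c, x, by rw [← hcx, hTapp]⟩
    · rintro ⟨c, x, rfl⟩
      exact (Tan I (σ z)).add_mem ((Tan I (σ z)).smul_mem c hTan0) (hTan1 x)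

end

end Crest.Agent.R269.Geo_328
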