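import Mathlib
import Crest.Agent.R269.Defs_58
import Crest.Agent.R269.LevCone_901
import Crest.Agent.R269.GeoChart_328

/-!
# R269 (S0411), leaf LEV, part 3 (helper901): bridge to `Defs_58`

* `lev_eq`    : `Defs_58.lev = LevC_653.lev` (so all lemmas of `LevC_653`, `Lev_901`, `LevCone_901` apply);
* `omg_eq`    : `omg p v = lev (log nsq) p v` (`p ≠ 0`), `omg_nonneg`, `omg_smul`, `omg_smul_vec`,
                `omg_add_self`, `omg_self`, `omg_pos`, `omg_horiz`;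
* `levChain : LevChainStmt`, `levCone : LevConeStmt`;
* `SmX` calculus (`smX_add`, `smX_mul`, `smX_comp`, ...), Levi form of `SmX` functions: homogeneity,
  invariance (`smX_lev_smul_point`, `smX_lev_add_smul`), extrema (`smX_lev_nonneg`, `smX_lev_nonpos`);
* `bdd_by_omg` : a continuous, `ℂ*`-invariant, basic quadratic form on the tangent spaces of the cone
  is bounded by `C * omg`; `smX_lev_bdd` : `|lev u p v| ≤ C * omg p v`.
-/

set_option autoImplicit false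
set_option linter.unusedSectionVars false

open Filter Topology MvPolynomial Crest.AlgGeometry.ProjEmb
open scoped ContDiff ComplexConjugate

namespace Crest.Agent.R269.LevBr_901

open Crest.Agent.R269.Geo_328 Crest.Agent.R269.Defs_58

noncomputable section

/-! ### `Defs_58.lev` is `LevC_653.lev` -/

section bridge

variable {ι : Type} [Fintype ι]

theorem lev_eq (φ : (ι → ℂ) → ℝ) (p v : ι → ℂ) :
    lev φ p v = LevC_653.lev φ p v := by
  unfold lev LevC_653.lev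
  rw [iteratedFDeriv_two_apply, iteratedFDeriv_two_apply]
  rfl

theorem omg_eq {p : ι → ℂ} (hp : p ≠ 0) (v : ι → ℂ) :
    omg p v = lev (fun q => Real.log (∑ i, ‖q i‖ ^ 2)) p v := by
  rw [lev_eq, Lev_901.lev_log_sum_nsq hp]
  rfl

theorem sum_nsq_pos {p : ι → ℂ} (hp : p ≠ 0) : 0 < ∑ i, ‖p i‖ ^ 2 := by
  obtain ⟨i, hi⟩ := Function.ne_iff.1 hp
  have h1 : 0 < ‖p i‖ ^ 2 := by
    have : p i ≠ 0 := hi
    positivity
  exact lt_of_lt_of_le h1 (Finset.single_le_sum (f := fun i => ‖p i‖ ^ 2)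
    (fun j _ => by positivity) (Finset.mem_univ i))

theorem sum_nsq_sub (p v : ι → ℂ) (c : ℂ) :
    ∑ i, ‖v i - c * p i‖ ^ 2 = ∑ i, ‖v i‖ ^ 2 - 2 * (conj c * ∑ i, v i * conj (p i)).re
      + ‖c‖ ^ 2 * ∑ i, ‖p i‖ ^ 2 := by
  rw [Finset.mul_sum, Complex.re_sum, Finset.mul_sum, Finset.mul_sum, ← Finset.sum_sub_distrib,
    ← Finset.sum_add_distrib]
  refine Finset.sum_congr rfl fun i _ => ?_
  simp only [Complex.sq_norm, Complex.normSq_apply, Complex.sub_re, Complex.sub_im, Complex.mul_re,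
    Complex.mul_im, Complex.conj_re, Complex.conj_im]
  ring

/-- `omg p v |p|²` is the squared distance of `v` to `ℂ p` -/
theorem omg_decomp {p : ι → ℂ} (hp : p ≠ 0) (v : ι → ℂ) :
    omg p v = (∑ i, ‖v i - ((∑ k, v k * conj (p k)) / ((∑ k, ‖p k‖ ^ 2 : ℝ) : ℂ)) * p i‖ ^ 2)
      / ∑ i, ‖p i‖ ^ 2 := by
  have hP := sum_nsq_pos hp
  rw [sum_nsq_sub]
  unfold omg
  set P : ℝ := ∑ i, ‖p i‖ ^ 2 with hPdef
  set s : ℂ := ∑ k, v k * conj (p k) with hs
  have e1 : (conj (s / (P : ℂ)) * s).re = ‖s‖ ^ 2 / P := by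
    rw [map_div₀, Complex.conj_ofReal, div_mul_eq_mul_div, mul_comm (conj s) s, Complex.mul_conj,
      Complex.normSq_eq_norm_sq, ← Complex.ofReal_div, Complex.ofReal_re]
  have e2 : ‖s / (P : ℂ)‖ ^ 2 = ‖s‖ ^ 2 / P ^ 2 := by
    rw [norm_div, Complex.norm_real, Real.norm_of_nonneg hP.le, div_pow]
  rw [e1, e2]
  field_simp
  ring

theorem omg_nonneg (p v : ι → ℂ) : 0 ≤ omg p v := by
  by_cases hp : p = 0
  · subst hp
    simp [omg]
  · rw [omg_decomp hp]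
    exact div_nonneg (Finset.sum_nonneg fun i _ => by positivity) (sum_nsq_pos hp).le

theorem omg_smul_vec (p v : ι → ℂ) (c : ℂ) : omg p (c • v) = ‖c‖ ^ 2 * omg p v := by
  unfold omg
  have e1 : ∑ i, ‖(c • v) i‖ ^ 2 = ‖c‖ ^ 2 * ∑ i, ‖v i‖ ^ 2 := by
    rw [Finset.mul_sum]
    refine Finset.sum_congr rfl fun i _ => ?_
    rw [Pi.smul_apply, smul_eq_mul, norm_mul, mul_pow]
  have e2 : ∑ i, (c • v) i * conj (p i) = c * ∑ i, v i * conj (p i) := by
    rw [Finset.mul_sum]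
    refine Finset.sum_congr rfl fun i _ => ?_
    rw [Pi.smul_apply, smul_eq_mul, mul_assoc]
  rw [e1, e2, norm_mul, mul_pow]
  ring

theorem omg_smul (p v : ι → ℂ) {c : ℂ} (hc : c ≠ 0) : omg (c • p) (c • v) = omg p v := by
  rw [omg_smul_vec]
  unfold omg
  have e1 : ∑ i, ‖(c • p) i‖ ^ 2 = ‖c‖ ^ 2 * ∑ i, ‖p i‖ ^ 2 := by
    rw [Finset.mul_sum]
    refine Finset.sum_congr rfl fun i _ => ?_
    rw [Pi.smul_apply, smul_eq_mul, norm_mul, mul_pow]
  have e2 : ∑ i, v i * conj ((c • p) i) = conj c * ∑ i, v i * conj (p i) := by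
    rw [Finset.mul_sum]
    refine Finset.sum_congr rfl fun i _ => ?_
    rw [Pi.smul_apply, smul_eq_mul, map_mul]; ring
  rw [e1, e2, norm_mul, mul_pow, Complex.norm_conj]
  have h0 : (‖c‖ ^ 2 : ℝ) ≠ 0 := by
    have := norm_ne_zero_iff.2 hc
    positivity
  by_cases hp : p = 0
  · subst hp; simp
  · have hP := sum_nsq_pos hp
    field_simp

theorem omg_add_self (p v : ι → ℂ) (r : ℂ) : omg p (v + r • p) = omg p v := by
  by_cases hp : p = 0
  · subst hp; simp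
  have hP := sum_nsq_pos hp
  have hP' : ((∑ k, ‖p k‖ ^ 2 : ℝ) : ℂ) ≠ 0 := by exact_mod_cast hP.ne'
  rw [omg_decomp hp, omg_decomp hp]
  congr 1
  refine Finset.sum_congr rfl fun i _ => ?_
  congr 2
  have e1 : ∑ k, (v + r • p) k * conj (p k)
      = ∑ k, v k * conj (p k) + r * ((∑ k, ‖p k‖ ^ 2 : ℝ) : ℂ) := by
    push_cast
    rw [Finset.mul_sum, ← Finset.sum_add_distrib]
    refine Finset.sum_congr rfl fun k _ => ?_
    rw [Pi.add_apply, Pi.smul_apply, smul_eq_mul, add_mul, mul_assoc, Complex.mul_conj,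
      Complex.normSq_eq_norm_sq]
    push_cast; ring
  rw [e1, Pi.add_apply, Pi.smul_apply, smul_eq_mul]
  field_simp
  ring

theorem omg_self (p : ι → ℂ) : omg p p = 0 := by
  have := omg_add_self p 0 1
  rw [zero_add, one_smul] at this
  rw [this]
  simp [omg]

theorem omg_zero (p : ι → ℂ) : omg p 0 = 0 := by simp [omg]

theorem omg_eq_zero {p v : ι → ℂ} (hp : p ≠ 0) (h : omg p v = 0) : ∃ c : ℂ, v = c • p := by
  have hP := sum_nsq_pos hp
  rw [omg_decomp hp, div_eq_zero_iff] at h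
  rcases h with h | h
  · rw [Finset.sum_eq_zero_iff_of_nonneg fun i _ => by positivity] at h
    refine ⟨(∑ k, v k * conj (p k)) / ((∑ k, ‖p k‖ ^ 2 : ℝ) : ℂ), ?_⟩
    funext i
    have h1 := h i (Finset.mem_univ i)
    rw [pow_eq_zero_iff two_ne_zero, norm_eq_zero] at h1
    rw [Pi.smul_apply, smul_eq_mul]
    exact sub_eq_zero.1 h1
  · exact absurd h hP.ne'

theorem omg_pos {p v : ι → ℂ} (hp : p ≠ 0) (h : ∀ c : ℂ, v ≠ c • p) : 0 < omg p v := by
  refine lt_of_le_of_ne (omg_nonneg p v) fun h1 => ?_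
  obtain ⟨c, hc⟩ := omg_eq_zero hp h1.symm
  exact h c hc

/-- on horizontal vectors -/
theorem omg_horiz {p v : ι → ℂ} (h : ∑ k, v k * conj (p k) = 0) :
    omg p v = (∑ i, ‖v i‖ ^ 2) / ∑ i, ‖p i‖ ^ 2 := by
  unfold omg
  rw [h, norm_zero]
  by_cases hp : p = 0
  · subst hp; simp
  have hP := sum_nsq_pos hp
  field_simp
  ring

theorem omg_le (p v : ι → ℂ) : omg p v ≤ (∑ i, ‖v i‖ ^ 2) / ∑ i, ‖p i‖ ^ 2 := by
  by_cases hp : p = 0
  · subst hp; simp [omg]
  have hP := sum_nsq_pos hp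
  unfold omg
  rw [div_le_div_iff₀ (by positivity) hP]
  have h1 : 0 ≤ ‖∑ i, v i * conj (p i)‖ ^ 2 := by positivity
  nlinarith [mul_nonneg h1 hP.le]

theorem contDiffAt_omg {p : ι → ℂ} (hp : p ≠ 0) (v : ι → ℂ) :
    ContDiffAt ℝ ∞ (fun q : (ι → ℂ) × (ι → ℂ) => omg q.1 q.2) (p, v) := by
  have hP := sum_nsq_pos hp
  have hc : ∀ i : ι, ContDiff ℝ ∞ (fun q : ι → ℂ => q i) := fun i =>
    ((ContinuousLinearMap.proj (R := ℂ) (φ := fun _ : ι => ℂ) i).contDiff.restrict_scalars ℝ)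
  have h1 : ∀ i : ι, ContDiff ℝ ∞ (fun q : (ι → ℂ) × (ι → ℂ) => q.1 i) := fun i =>
    (hc i).comp contDiff_fst
  have h2 : ∀ i : ι, ContDiff ℝ ∞ (fun q : (ι → ℂ) × (ι → ℂ) => q.2 i) := fun i =>
    (hc i).comp contDiff_snd
  have hconj : ContDiff ℝ ∞ (fun z : ℂ => conj z) := Complex.conjCLE.contDiff
  have h3 : ContDiff ℝ ∞ (fun q : (ι → ℂ) × (ι → ℂ) => ∑ i, ‖q.1 i‖ ^ 2) :=
    ContDiff.sum fun i _ => (h1 i).norm_sq ℝ
  have h4 : ContDiff ℝ ∞ (fun q : (ι → ℂ) × (ι → ℂ) => ∑ i, ‖q.2 i‖ ^ 2) :=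
    ContDiff.sum fun i _ => (h2 i).norm_sq ℝ
  have h5 : ContDiff ℝ ∞ (fun q : (ι → ℂ) × (ι → ℂ) => ∑ i, q.2 i * conj (q.1 i)) :=
    ContDiff.sum fun i _ => (h2 i).mul (hconj.comp (h1 i))
  have h6 : ContDiff ℝ ∞ (fun q : (ι → ℂ) × (ι → ℂ) => ‖∑ i, q.2 i * conj (q.1 i)‖ ^ 2) :=
    h5.norm_sq ℝ
  unfold omg
  exact ((h3.mul h4).sub h6).contDiffAt.div (h3.pow 2).contDiffAt (by positivity)

end bridge

/-! ### the two dictionary statements -/

theorem two_le_infty : (2 : WithTop ℕ∞) ≤ ∞ := WithTop.coe_le_coe.2 le_top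

theorem levChain : LevChainStmt := by
  intro N n I _ _ u d F z₀ x hF hu
  rw [lev_eq, lev_eq]
  exact Lev_901.lev_comp_hol (hu.of_le two_le_infty) hF.1 x

theorem levCone : LevConeStmt := by
  intro N n I hI hX u u' p hp hu hu' h v hv
  obtain ⟨C⟩ := chartStmt N n I hI hX p hp
  rw [lev_eq, lev_eq]
  refine LevCone_901.lev_congr_cone hX hp C (hu.of_le two_le_infty)
    (hu'.of_le two_le_infty) ?_ hv
  rw [eventually_nhdsWithin_iff]
  exact h

/-! ### the algebra of `SmX` -/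

section smx

variable {N n : ℕ} {I : Ideal (HomCoordRing N)} {u w : EE N → ℝ}

theorem smX_const (I : Ideal (HomCoordRing N)) (c : ℝ) : SmX I (fun _ => c) :=
  ⟨fun _ _ => contDiffAt_const, fun _ _ _ _ => rfl⟩

theorem smX_add (hu : SmX I u) (hw : SmX I w) : SmX I (fun q => u q + w q) :=
  ⟨fun p hp => (hu.1 p hp).add (hw.1 p hp), fun p hp c hc => by
    simp only [hu.2 p hp c hc, hw.2 p hp c hc]⟩

theorem smX_sub (hu : SmX I u) (hw : SmX I w) : SmX I (fun q => u q - w q) :=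
  ⟨fun p hp => (hu.1 p hp).sub (hw.1 p hp), fun p hp c hc => by
    simp only [hu.2 p hp c hc, hw.2 p hp c hc]⟩

theorem smX_neg (hu : SmX I u) : SmX I (fun q => - u q) :=
  ⟨fun p hp => (hu.1 p hp).neg, fun p hp c hc => by simp only [hu.2 p hp c hc]⟩

theorem smX_mul (hu : SmX I u) (hw : SmX I w) : SmX I (fun q => u q * w q) :=
  ⟨fun p hp => (hu.1 p hp).mul (hw.1 p hp), fun p hp c hc => by
    simp only [hu.2 p hp c hc, hw.2 p hp c hc]⟩

theorem smX_const_mul (c : ℝ) (hu : SmX I u) : SmX I (fun q => c * u q) :=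
  smX_mul (smX_const I c) hu

theorem smX_add_const (hu : SmX I u) (c : ℝ) : SmX I (fun q => u q + c) :=
  smX_add hu (smX_const I c)

theorem smX_sum {κ : Type*} (s : Finset κ) {f : κ → EE N → ℝ} (h : ∀ k ∈ s, SmX I (f k)) :
    SmX I (fun q => ∑ k ∈ s, f k q) :=
  ⟨fun p hp => ContDiffAt.sum fun k hk => (h k hk).1 p hp, fun p hp c hc =>
    Finset.sum_congr rfl fun k hk => (h k hk).2 p hp c hc⟩

theorem smX_comp {g : ℝ → ℝ} (hu : SmX I u) (hg : ∀ p ∈ Cone I, ContDiffAt ℝ ∞ g (u p)) :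
    SmX I (fun q => g (u q)) :=
  ⟨fun p hp => (hg p hp).comp p (hu.1 p hp), fun p hp c hc => by simp only [hu.2 p hp c hc]⟩

theorem smX_exp (hu : SmX I u) : SmX I (fun q => Real.exp (u q)) :=
  smX_comp hu fun _ _ => Real.contDiff_exp.contDiffAt

theorem smX_log (hu : SmX I u) (h0 : ∀ p ∈ Cone I, u p ≠ 0) : SmX I (fun q => Real.log (u q)) :=
  smX_comp hu fun p hp => Real.contDiffAt_log.2 (h0 p hp)

theorem smX_inv (hu : SmX I u) (h0 : ∀ p ∈ Cone I, u p ≠ 0) : SmX I (fun q => (u q)⁻¹) :=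
  smX_comp hu fun p hp => contDiffAt_inv ℝ (h0 p hp)

theorem smX_pow (hu : SmX I u) (k : ℕ) : SmX I (fun q => u q ^ k) :=
  ⟨fun p hp => (hu.1 p hp).pow k, fun p hp c hc => by simp only [hu.2 p hp c hc]⟩

/-! ### the Levi form of smooth functions -/

theorem smX_two (hu : SmX I u) {p : EE N} (hp : p ∈ Cone I) : ContDiffAt ℝ 2 u p :=
  (hu.1 p hp).of_le two_le_infty

theorem lev_smul_vec (u : EE N → ℝ) (p v : EE N) (c : ℂ) : lev u p (c • v) = ‖c‖ ^ 2 * lev u p v := by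
  rw [lev_eq, lev_eq, Lev_901.lev_smul]

theorem lev_zero_vec (u : EE N → ℝ) (p : EE N) : lev u p 0 = 0 := by
  rw [lev_eq, Lev_901.lev_zero]

theorem smX_lev_add (hu : SmX I u) (hw : SmX I w) {p : EE N} (hp : p ∈ Cone I) (v : EE N) :
    lev (fun q => u q + w q) p v = lev u p v + lev w p v := by
  simp only [lev_eq]; exact LevC_653.lev_add (smX_two hu hp) (smX_two hw hp) v

theorem smX_lev_sub (hu : SmX I u) (hw : SmX I w) {p : EE N} (hp : p ∈ Cone I) (v : EE N) :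
    lev (fun q => u q - w q) p v = lev u p v - lev w p v := by
  simp only [lev_eq]; exact Lev_901.lev_sub (smX_two hu hp) (smX_two hw hp) v

theorem smX_lev_neg (hu : SmX I u) {p : EE N} (hp : p ∈ Cone I) (v : EE N) :
    lev (fun q => - u q) p v = - lev u p v := by
  simp only [lev_eq]; exact Lev_901.lev_neg (smX_two hu hp) v

theorem smX_lev_const_mul (c : ℝ) (hu : SmX I u) {p : EE N} (hp : p ∈ Cone I) (v : EE N) :
    lev (fun q => c * u q) p v = c * lev u p v := by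
  simp only [lev_eq]; exact LevC_653.lev_const_mul c (smX_two hu hp) v

theorem lev_const (c : ℝ) (p v : EE N) : lev (fun _ : EE N => c) p v = 0 := by
  rw [lev_eq, LevC_653.lev_const]

theorem smX_lev_add_const (hu : SmX I u) (c : ℝ) {p : EE N} (hp : p ∈ Cone I) (v : EE N) :
    lev (fun q => u q + c) p v = lev u p v := by
  simp only [lev_eq]; exact Lev_901.lev_add_const c (smX_two hu hp) v

/-- the Levi form descends to `X` -/
theorem smX_lev_smul_point (hI : I.IsPrime) (hX : IsSmoothProjective I n) (hu : SmX I u) {p : EE N}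
    (hp : p ∈ Cone I) {v : EE N} (hv : v ∈ Tan I p) {c : ℂ} (hc : c ≠ 0) :
    lev u (c • p) (c • v) = lev u p v := by
  obtain ⟨C⟩ := chartStmt N n I hI hX p hp
  rw [lev_eq, lev_eq]
  exact LevCone_901.lev_smul_point hX hp C hu.2 hc (smX_two hu hp) (smX_two hu (smul_mem_Cone hX hp hc)) hv

theorem smX_lev_add_smul (hI : I.IsPrime) (hX : IsSmoothProjective I n) (hu : SmX I u) {p : EE N}
    (hp : p ∈ Cone I) {v : EE N} (hv : v ∈ Tan I p) (r : ℂ) :
    lev u p (v + r • p) = lev u p v := by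
  obtain ⟨C⟩ := chartStmt N n I hI hX p hp
  rw [lev_eq, lev_eq]
  exact LevCone_901.lev_add_smul_self hX hp C hu.2 (smX_two hu hp) hv r

theorem smX_lev_nonneg (hI : I.IsPrime) (hX : IsSmoothProjective I n) (hu : SmX I u) {p : EE N}
    (hp : p ∈ Cone I) (hm : ∀ᶠ q in 𝓝[Cone I] p, u p ≤ u q) {v : EE N} (hv : v ∈ Tan I p) :
    0 ≤ lev u p v := by
  obtain ⟨C⟩ := chartStmt N n I hI hX p hp
  rw [lev_eq]
  exact LevCone_901.lev_nonneg_cone hX hp C (smX_two hu hp) hm hv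

theorem smX_lev_nonpos (hI : I.IsPrime) (hX : IsSmoothProjective I n) (hu : SmX I u) {p : EE N}
    (hp : p ∈ Cone I) (hm : ∀ᶠ q in 𝓝[Cone I] p, u q ≤ u p) {v : EE N} (hv : v ∈ Tan I p) :
    lev u p v ≤ 0 := by
  obtain ⟨C⟩ := chartStmt N n I hI hX p hp
  rw [lev_eq]
  exact LevCone_901.lev_nonpos_cone hX hp C (smX_two hu hp) hm hv

/-- joint smoothness of the Levi form in the point and the vector -/
theorem contDiffAt_lev {p : EE N} (hu : ContDiffAt ℝ ∞ u p) (v : EE N) :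
    ContDiffAt ℝ ∞ (fun q : EE N × EE N => lev u q.1 q.2) (p, v) := by
  have e : (fun q : EE N × EE N => lev u q.1 q.2) = fun q => LevC_653.lev u q.1 q.2 := by
    funext q; rw [lev_eq]
  rw [e]; exact Lev_901.contDiffAt_lev hu v

end smx

/-! ### bounds by compactness -/

section bdd

variable {N n : ℕ} {I : Ideal (HomCoordRing N)}

theorem isClosed_affineCone (I : Ideal (HomCoordRing N)) : IsClosed (affineCone I) := by
  have : affineCone I = ⋂ F ∈ I, {p : EE N | MvPolynomial.eval p F = 0} := by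
    ext p; simp [affineCone]
  rw [this]
  refine isClosed_biInter fun F _ => ?_
  exact isClosed_eq (MvPolynomial.continuous_eval F) continuous_const

theorem isClosed_tan (I : Ideal (HomCoordRing N)) :
    IsClosed {q : EE N × EE N | q.2 ∈ Tan I q.1} := by
  have : {q : EE N × EE N | q.2 ∈ Tan I q.1} = ⋂ F ∈ I, {q : EE N × EE N | dP F q.1 q.2 = 0} := by
    ext q; simp [mem_Tan]
  rw [this]
  refine isClosed_biInter fun F _ => isClosed_eq ?_ continuous_const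
  unfold dP gradP
  refine continuous_finsetSum _ fun j _ => ?_
  exact ((MvPolynomial.continuous_eval _).comp continuous_fst).mul
    ((continuous_apply j).comp continuous_snd)

/-- unit points and unit horizontal tangent vectors -/
def unitTan (I : Ideal (HomCoordRing N)) : Set (EE N × EE N) :=
  {q | q.1 ∈ Cone I ∧ q.2 ∈ Tan I q.1 ∧ nsq q.1 = 1 ∧ nsq q.2 = 1 ∧
    ∑ k, q.2 k * conj (q.1 k) = 0}

theorem continuous_nsq : Continuous (nsq : EE N → ℝ) := by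
  unfold nsq; fun_prop

theorem isCompact_unitTan (I : Ideal (HomCoordRing N)) : IsCompact (unitTan I) := by
  have e : unitTan I = {q : EE N × EE N | q.1 ∈ affineCone I} ∩ {q | q.2 ∈ Tan I q.1} ∩
      {q | nsq q.1 = 1} ∩ {q | nsq q.2 = 1} ∩ {q | ∑ k, q.2 k * conj (q.1 k) = 0} := by
    ext q
    simp only [unitTan, Cone, Set.mem_ofPred_eq, Set.mem_inter_iff]
    constructor
    · rintro ⟨⟨h1, _⟩, h2, h3, h4, h5⟩; exact ⟨⟨⟨⟨h1, h2⟩, h3⟩, h4⟩, h5⟩
    · rintro ⟨⟨⟨⟨h1, h2⟩, h3⟩, h4⟩, h5⟩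
      refine ⟨⟨h1, ?_⟩, h2, h3, h4, h5⟩
      intro h0
      rw [h0] at h3
      simp [nsq] at h3
  have hcl : IsClosed (unitTan I) := by
    rw [e]
    refine ((((isClosed_affineCone I).preimage continuous_fst).inter (isClosed_tan I)).inter
      (isClosed_eq (continuous_nsq.comp continuous_fst) continuous_const)).inter
      (isClosed_eq (continuous_nsq.comp continuous_snd) continuous_const) |>.inter
      (isClosed_eq (by fun_prop) continuous_const)
  refine Metric.isCompact_of_isClosed_isBounded hcl ?_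
  refine (Metric.isBounded_closedBall (x := (0 : EE N × EE N)) (r := 1)).subset ?_
  rintro q ⟨_, _, h3, h4, _⟩
  have key : ∀ p : EE N, nsq p = 1 → ‖p‖ ≤ 1 := by
    intro p hp
    rw [pi_norm_le_iff_of_nonneg zero_le_one]
    intro i
    have h1 : ‖p i‖ ^ 2 ≤ nsq p := Finset.single_le_sum (f := fun i => ‖p i‖ ^ 2)
      (fun j _ => by positivity) (Finset.mem_univ i)
    rw [hp] at h1
    nlinarith [norm_nonneg (p i)]
  rw [mem_closedBall_zero_iff, Prod.norm_def]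
  exact max_le (key _ h3) (key _ h4)

/-- A continuous basic quadratic form on the tangent spaces of the cone is bounded by `C * omg`. -/
theorem bdd_by_omg (hX : IsSmoothProjective I n) {Q : EE N → EE N → ℝ}
    (hcont : ContinuousOn (fun q : EE N × EE N => Q q.1 q.2) {q | q.1 ∈ Cone I ∧ q.2 ∈ Tan I q.1})
    (hsc : ∀ p ∈ Cone I, ∀ v ∈ Tan I p, ∀ c : ℂ, c ≠ 0 → Q (c • p) (c • v) = Q p v)
    (hq : ∀ p ∈ Cone I, ∀ v ∈ Tan I p, ∀ c : ℂ, Q p (c • v) = ‖c‖ ^ 2 * Q p v)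
    (hb : ∀ p ∈ Cone I, ∀ v ∈ Tan I p, ∀ r : ℂ, Q p (v + r • p) = Q p v) :
    ∃ C : ℝ, 0 ≤ C ∧ ∀ p ∈ Cone I, ∀ v ∈ Tan I p, |Q p v| ≤ C * omg p v := by
  have hsub : unitTan I ⊆ {q | q.1 ∈ Cone I ∧ q.2 ∈ Tan I q.1} := fun q hq => ⟨hq.1, hq.2.1⟩
  obtain ⟨C, hC⟩ := (isCompact_unitTan I).exists_bound_of_continuousOn (hcont.mono hsub)
  refine ⟨max C 0, le_max_right _ _, fun p hp v hv => ?_⟩
  -- normalise `p`
  have hp0 : p ≠ 0 := hp.2
  have hP : 0 < nsq p := sum_nsq_pos hp0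
  set r : ℝ := Real.sqrt (nsq p) with hr
  have hr0 : 0 < r := Real.sqrt_pos.2 hP
  have hrc : ((r⁻¹ : ℝ) : ℂ) ≠ 0 := by exact_mod_cast (inv_pos.2 hr0).ne'
  have hpT : p ∈ Tan I p := self_mem_Tan hX hp.1
  -- horizontal part of `v`
  set s : ℂ := (∑ k, v k * conj (p k)) / ((nsq p : ℝ) : ℂ) with hs
  set w : EE N := v - s • p with hw
  have hwT : w ∈ Tan I p := (Tan I p).sub_mem hv ((Tan I p).smul_mem s hpT)
  have hwo : ∑ k, w k * conj (p k) = 0 := by
    have e1 : ∑ k, w k * conj (p k) = ∑ k, v k * conj (p k) - s * ((nsq p : ℝ) : ℂ) := by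
      rw [hw]
      unfold nsq
      push_cast
      rw [Finset.mul_sum, ← Finset.sum_sub_distrib]
      refine Finset.sum_congr rfl fun k _ => ?_
      rw [Pi.sub_apply, Pi.smul_apply, smul_eq_mul, sub_mul, mul_assoc, Complex.mul_conj,
        Complex.normSq_eq_norm_sq]
      push_cast; ring
    rw [e1, hs]
    have : ((nsq p : ℝ) : ℂ) ≠ 0 := by exact_mod_cast hP.ne'
    field_simp
    ring
  have hvw : v = w + s • p := by rw [hw]; abel
  have hQ : Q p v = Q p w := by rw [hvw]; exact hb p hp w hwT s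
  have hO : omg p v = omg p w := by rw [hvw]; exact omg_add_self p w s
  rw [hQ, hO]
  by_cases hw0 : w = 0
  · have h1 := hq p hp w hwT 0
    rw [zero_smul, norm_zero] at h1
    rw [hw0, h1]
    simp [omg_zero]
  have hW : 0 < nsq w := sum_nsq_pos hw0
  set t : ℝ := Real.sqrt (nsq w) with ht
  have ht0 : 0 < t := Real.sqrt_pos.2 hW
  -- unit vectors
  have hnsq : ∀ (c : ℂ) (q : EE N), nsq (c • q) = ‖c‖ ^ 2 * nsq q := by
    intro c q
    unfold nsq
    rw [Finset.mul_sum]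
    refine Finset.sum_congr rfl fun i _ => ?_
    rw [Pi.smul_apply, smul_eq_mul, norm_mul, mul_pow]
  have hmem : (((r⁻¹ : ℝ) : ℂ) • p, ((t⁻¹ : ℝ) : ℂ) • w) ∈ unitTan I := by
    refine ⟨smul_mem_Cone hX hp hrc, ?_, ?_, ?_, ?_⟩
    · show _ ∈ Tan I (((r⁻¹ : ℝ) : ℂ) • p)
      rw [Tan_smul hX p hrc]
      exact (Tan I p).smul_mem _ hwT
    · show nsq (((r⁻¹ : ℝ) : ℂ) • p) = 1
      rw [hnsq, Complex.norm_real, Real.norm_of_nonneg (inv_pos.2 hr0).le, inv_pow, hr,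
        Real.sq_sqrt hP.le, inv_mul_cancel₀ hP.ne']
    · show nsq (((t⁻¹ : ℝ) : ℂ) • w) = 1
      rw [hnsq, Complex.norm_real, Real.norm_of_nonneg (inv_pos.2 ht0).le, inv_pow, ht,
        Real.sq_sqrt hW.le, inv_mul_cancel₀ hW.ne']
    · show ∑ k, (((t⁻¹ : ℝ) : ℂ) • w) k * conj ((((r⁻¹ : ℝ) : ℂ) • p) k) = 0
      have : ∀ k, (((t⁻¹ : ℝ) : ℂ) • w) k * conj ((((r⁻¹ : ℝ) : ℂ) • p) k)
          = ((t⁻¹ : ℝ) : ℂ) * ((r⁻¹ : ℝ) : ℂ) * (w k * conj (p k)) := by
        intro k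
        rw [Pi.smul_apply, Pi.smul_apply, smul_eq_mul, smul_eq_mul, map_mul, Complex.conj_ofReal]
        ring
      rw [Finset.sum_congr rfl fun k _ => this k, ← Finset.mul_sum, hwo, mul_zero]
  have h1 := hC _ hmem
  rw [Real.norm_eq_abs] at h1
  -- rewrite in terms of the unit vectors
  have e1 : w = ((t * r⁻¹ : ℝ) : ℂ) • (((r : ℝ) : ℂ) • (((t⁻¹ : ℝ) : ℂ) • w)) := by
    rw [smul_smul, smul_smul, ← Complex.ofReal_mul, ← Complex.ofReal_mul]
    have h5 : t * r⁻¹ * r * t⁻¹ = 1 := by field_simp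
    rw [h5]
    simp
  have e2 : p = ((r : ℝ) : ℂ) • (((r⁻¹ : ℝ) : ℂ) • p) := by
    rw [smul_smul, ← Complex.ofReal_mul, mul_inv_cancel₀ hr0.ne', Complex.ofReal_one, one_smul]
  have hrc' : ((r : ℝ) : ℂ) ≠ 0 := by exact_mod_cast hr0.ne'
  have e3 : Q p w = (t * r⁻¹) ^ 2 * Q (((r⁻¹ : ℝ) : ℂ) • p) (((t⁻¹ : ℝ) : ℂ) • w) := by
    have h2 : Q p w = Q p (((t * r⁻¹ : ℝ) : ℂ) • (((r : ℝ) : ℂ) • (((t⁻¹ : ℝ) : ℂ) • w))) := by
      rw [← e1]
    have hT2 : ((r : ℝ) : ℂ) • (((t⁻¹ : ℝ) : ℂ) • w) ∈ Tan I p :=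
      (Tan I p).smul_mem _ ((Tan I p).smul_mem _ hwT)
    have hpos : 0 ≤ t * r⁻¹ := by positivity
    rw [h2, hq p hp _ hT2, Complex.norm_real, Real.norm_of_nonneg hpos]
    congr 1
    have h3 := hsc (((r⁻¹ : ℝ) : ℂ) • p) hmem.1 (((t⁻¹ : ℝ) : ℂ) • w) hmem.2.1 _ hrc'
    rw [← h3, ← e2]
  have e4 : omg p w = (t * r⁻¹) ^ 2 := by
    rw [omg_horiz hwo]
    show nsq w / nsq p = _
    rw [mul_pow, inv_pow, ht, hr, Real.sq_sqrt hW.le, Real.sq_sqrt hP.le]
    rfl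
  rw [e3, e4, abs_mul, abs_of_nonneg (by positivity : (0 : ℝ) ≤ (t * r⁻¹) ^ 2), mul_comm]
  exact mul_le_mul_of_nonneg_right (h1.trans (le_max_left _ _)) (by positivity)

theorem smX_lev_bdd (hI : I.IsPrime) (hX : IsSmoothProjective I n) {u : EE N → ℝ} (hu : SmX I u) :
    ∃ C : ℝ, 0 ≤ C ∧ ∀ p ∈ Cone I, ∀ v ∈ Tan I p, |lev u p v| ≤ C * omg p v := by
  refine bdd_by_omg hX (Q := fun p v => lev u p v) ?_ ?_ ?_ ?_
  · intro q hq
    exact (contDiffAt_lev (hu.1 q.1 hq.1) q.2).continuousAt.continuousWithinAt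
  · exact fun p hp v hv c hc => smX_lev_smul_point hI hX hu hp hv hc
  · exact fun p _ v _ c => lev_smul_vec u p v c
  · exact fun p hp v hv r => smX_lev_add_smul hI hX hu hp hv r

/-- smooth functions are bounded -/
theorem smX_bdd (hX : IsSmoothProjective I n) {u : EE N → ℝ} (hu : SmX I u) :
    ∃ C : ℝ, 0 ≤ C ∧ ∀ p ∈ Cone I, |u p| ≤ C := by
  have hK : IsCompact {p : EE N | p ∈ Cone I ∧ nsq p = 1} := by
    have e : {p : EE N | p ∈ Cone I ∧ nsq p = 1} = affineCone I ∩ {p | nsq p = 1} := by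
      ext p
      simp only [Cone, Set.mem_ofPred_eq, Set.mem_inter_iff]
      constructor
      · rintro ⟨⟨h1, _⟩, h2⟩; exact ⟨h1, h2⟩
      · rintro ⟨h1, h2⟩
        refine ⟨⟨h1, ?_⟩, h2⟩
        intro h0; rw [h0] at h2; simp [nsq] at h2
    rw [e]
    refine Metric.isCompact_of_isClosed_isBounded
      ((isClosed_affineCone I).inter (isClosed_eq continuous_nsq continuous_const)) ?_
    refine (Metric.isBounded_closedBall (x := (0 : EE N)) (r := 1)).subset ?_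
    rintro p ⟨_, hp⟩
    rw [mem_closedBall_zero_iff, pi_norm_le_iff_of_nonneg zero_le_one]
    intro i
    have h1 : ‖p i‖ ^ 2 ≤ nsq p := Finset.single_le_sum (f := fun i => ‖p i‖ ^ 2)
      (fun j _ => by positivity) (Finset.mem_univ i)
    have hp' : nsq p = 1 := hp
    rw [hp'] at h1
    nlinarith [norm_nonneg (p i)]
  have hc : ContinuousOn u {p : EE N | p ∈ Cone I ∧ nsq p = 1} := fun p hp =>
    (hu.1 p hp.1).continuousAt.continuousWithinAt
  obtain ⟨C, hC⟩ := hK.exists_bound_of_continuousOn hc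
  refine ⟨max C 0, le_max_right _ _, fun p hp => ?_⟩
  have hP : 0 < nsq p := sum_nsq_pos hp.2
  have hr0 : 0 < (Real.sqrt (nsq p))⁻¹ := inv_pos.2 (Real.sqrt_pos.2 hP)
  have hrc : (((Real.sqrt (nsq p))⁻¹ : ℝ) : ℂ) ≠ 0 := by exact_mod_cast hr0.ne'
  have h1 : (((Real.sqrt (nsq p))⁻¹ : ℝ) : ℂ) • p ∈ {p : EE N | p ∈ Cone I ∧ nsq p = 1} := by
    refine ⟨smul_mem_Cone hX hp hrc, ?_⟩
    have : nsq ((((Real.sqrt (nsq p))⁻¹ : ℝ) : ℂ) • p)
        = ‖(((Real.sqrt (nsq p))⁻¹ : ℝ) : ℂ)‖ ^ 2 * nsq p := by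
      unfold nsq
      rw [Finset.mul_sum]
      refine Finset.sum_congr rfl fun i _ => ?_
      rw [Pi.smul_apply, smul_eq_mul, norm_mul, mul_pow]
    rw [this, Complex.norm_real, Real.norm_of_nonneg hr0.le, inv_pow, Real.sq_sqrt hP.le,
      inv_mul_cancel₀ hP.ne']
  have h2 := hC _ h1
  rw [Real.norm_eq_abs, hu.2 p hp _ hrc] at h2
  exact h2.trans (le_max_left _ _)

end bdd

end

end Crest.Agent.R269.LevBr_901
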