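import Crest.Agent.R269.FldE_620
import Crest.Agent.R269.LevBr_901

/-!
# R269 (S0411), leaf FLD, part F (helper620): operations on positive fields

* `rep_scale` : frames of `r • a`;  `posField_smul` : `ρ a` is a positive field
* `rep_exists_isRep`, `posField_add`, `DD_superadd`
* `posField_gInv` : `g⁻¹ = |p|² (projection on Tan ∩ pᗮ)`, `DD_gInv = 1`, `sum_omg_gInv = n`
* `posField_conj` : `|p|² Q M Q` for smooth invariant positive definite `M`
* `exists_posField_frame` : a positive field with a prescribed frame at one point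
* `exists_posField_unimod` : normalised field with `DD = 1`
* `rep_sum_lev_congr`, `rep_sum_omg_congr`, `rep_sum_alpha_congr`
-/

set_option autoImplicit false
set_option linter.unusedSectionVars false

open Matrix Crest.AlgGeometry.ProjEmb
open scoped ComplexConjugate ComplexOrder MatrixOrder ContDiff

namespace Crest.Agent.R269.FldF_620

open Crest.Agent.R269.Geo_328 Crest.Agent.R269.FldA_620 Crest.Agent.R269.FldB_620
open Crest.Agent.R269.FldC_620 Crest.Agent.R269.FldD_620 Crest.Agent.R269.FldE_620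
open Crest.Agent.R269.Defs_58
open Crest.Agent.R269

noncomputable section

variable {N n : ℕ} {I : Ideal (HomCoordRing N)}

/-! ### sums over frames -/

section sums

variable {a : EE N → VV N} {p : EE N} {b b' : Fin n → EE N}

theorem rep_sum_eq (h : Rep I a p b) (h' : Rep I a p b') (j k : Fin (N + 1)) :
    ∑ i, b i j * conj (b i k) = ∑ i, b' i j * conj (b' i k) := by
  rw [← h.2.2 j k, ← h'.2.2 j k]

/-- `∑ lev u p (b i)` does not depend on the representing frame (any function `u`) -/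
theorem rep_sum_lev_congr (u : EE N → ℝ) (h : Rep I a p b) (h' : Rep I a p b') :
    ∑ i, lev u p (b i) = ∑ i, lev u p (b' i) := by
  simp only [LevBr_901.lev_eq]
  exact Lev_901.sum_lev_congr u p b b' (rep_sum_eq h h')

theorem rep_sum_omg_congr (hp : p ≠ 0) (h : Rep I a p b) (h' : Rep I a p b') :
    ∑ i, omg p (b i) = ∑ i, omg p (b' i) := by
  simp only [LevBr_901.omg_eq hp]
  exact rep_sum_lev_congr _ h h'

theorem rep_sum_alpha_congr (hp : p ≠ 0) (h : Rep I a p b) (h' : Rep I a p b') :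
    ∑ i, alpha I n p (b i) = ∑ i, alpha I n p (b' i) := by
  unfold alpha
  split_ifs with hG
  · rw [Finset.sum_sub_distrib, Finset.sum_sub_distrib, ← Finset.mul_sum, ← Finset.mul_sum,
      rep_sum_lev_congr _ h h', rep_sum_omg_congr hp h h']
  · rfl

/-- the sum over a frame of a Hermitian form is the trace against the field -/
theorem rep_sum_form (h : Rep I a p b) (H : Matrix (Fin (N + 1)) (Fin (N + 1)) ℂ) :
    ∑ i, star (b i) ⬝ᵥ (H *ᵥ b i) = (H * toM (a p)).trace := by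
  rw [rep_toM_eq h, ← Matrix.mul_assoc, Matrix.trace_mul_comm, Matrix.trace]
  refine Finset.sum_congr rfl fun i _ => ?_
  simp only [Matrix.diag_apply, Matrix.mul_apply, Matrix.conjTranspose_apply, colM_apply,
    dotProduct, Matrix.mulVec, Pi.star_apply]

theorem alpha_smul_vec (p v : EE N) (c : ℂ) : alpha I n p (c • v) = ‖c‖ ^ 2 * alpha I n p v := by
  unfold alpha
  split_ifs with hG
  · rw [LevBr_901.lev_smul_vec, omg_smul_vec]
    ring
  · rw [mul_zero]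

end sums

/-! ### scaling -/

/-- frames of `r • a` are `√r` times the frames of `a` -/
theorem rep_scale {a a' : EE N → VV N} {p : EE N} {b : Fin n → EE N} {r : ℝ} (hr : 0 ≤ r)
    (h : Rep I a p b) (ha : a' p = (r : ℂ) • a p) :
    Rep I a' p (fun i => ((Real.sqrt r : ℝ) : ℂ) • b i) := by
  refine ⟨fun i => (Tan I p).smul_mem _ (h.1 i), fun i => ?_, fun j k => ?_⟩
  · have h2 : ∑ k, (((Real.sqrt r : ℝ) : ℂ) • b i) k * conj (p k) =
        ((Real.sqrt r : ℝ) : ℂ) * ∑ k, b i k * conj (p k) := by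
      simp only [Pi.smul_apply, smul_eq_mul, Finset.mul_sum, mul_assoc]
    rw [h2, h.2.1 i, mul_zero]
  · rw [ha, Pi.smul_apply, Pi.smul_apply, smul_eq_mul, h.2.2 j k, Finset.mul_sum]
    refine Finset.sum_congr rfl fun i _ => ?_
    simp only [Pi.smul_apply, smul_eq_mul, map_mul, Complex.conj_ofReal]
    have : (r : ℂ) = ((Real.sqrt r : ℝ) : ℂ) * ((Real.sqrt r : ℝ) : ℂ) := by
      rw [← Complex.ofReal_mul, Real.mul_self_sqrt hr]
    rw [this]
    ring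

theorem rep_scale_inv {a a' : EE N → VV N} {p : EE N} {b' : Fin n → EE N} {r : ℝ} (hr : 0 < r)
    (h : Rep I a' p b') (ha : a' p = (r : ℂ) • a p) :
    ∃ b : Fin n → EE N, Rep I a p b ∧ b' = fun i => ((Real.sqrt r : ℝ) : ℂ) • b i := by
  have hs : Real.sqrt r ≠ 0 := (Real.sqrt_pos.2 hr).ne'
  refine ⟨_, rep_scale (inv_nonneg.2 hr.le) h (a' := a) ?_, ?_⟩
  · rw [ha, smul_smul, ← Complex.ofReal_mul, inv_mul_cancel₀ hr.ne', Complex.ofReal_one, one_smul]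
  · funext i
    rw [smul_smul, ← Complex.ofReal_mul, Real.sqrt_inv, mul_inv_cancel₀ hs, Complex.ofReal_one,
      one_smul]

theorem norm_sqrt_sq {r : ℝ} (hr : 0 ≤ r) : ‖((Real.sqrt r : ℝ) : ℂ)‖ ^ 2 = r := by
  rw [Complex.norm_real, Real.norm_of_nonneg (Real.sqrt_nonneg r), Real.sq_sqrt hr]

theorem DD_scale {p : EE N} (hp : p ≠ 0) {r : ℝ} (hr : 0 ≤ r) (b : Fin n → EE N) :
    DD p (fun i => ((Real.sqrt r : ℝ) : ℂ) • b i) = r ^ n * DD p b := by
  rw [DD_real_smul hp, norm_sqrt_sq hr]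

theorem sum_quad_scale {β : EE N → ℝ} (hβ : ∀ (c : ℂ) v, β (c • v) = ‖c‖ ^ 2 * β v) {r : ℝ}
    (hr : 0 ≤ r) (b : Fin n → EE N) :
    ∑ i, β (((Real.sqrt r : ℝ) : ℂ) • b i) = r * ∑ i, β (b i) := by
  rw [Finset.mul_sum]
  exact Finset.sum_congr rfl fun i _ => by rw [hβ, norm_sqrt_sq hr]

theorem posField_smul {a : EE N → VV N} (ha : PosField I n a) {ρ : EE N → ℝ} (hρ : SmX I ρ)
    (h0 : ∀ p ∈ Cone I, 0 < ρ p) : PosField I n (fun p => (ρ p : ℂ) • a p) := by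
  refine ⟨fun p hp => ?_, fun p hp c hc => ?_, fun p hp => ?_⟩
  · have h1 : ContDiffAt ℝ ∞ (fun q => (ρ q : ℂ)) p :=
      Complex.ofRealCLM.contDiff.contDiffAt.comp p (hρ.1 p hp)
    refine contDiffAt_pi.2 fun i => contDiffAt_pi.2 fun j => ?_
    exact h1.mul (contDiffAt_apply_apply (ha.smooth p hp) i j)
  · show (ρ (c • p) : ℂ) • a (c • p) = ((‖c‖ ^ 2 : ℝ) : ℂ) • ((ρ p : ℂ) • a p)
    rw [hρ.2 p hp c hc, ha.hom p hp c hc, smul_comm]
  · obtain ⟨b, hb, hd⟩ := ha.rep p hp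
    refine ⟨_, rep_scale (h0 p hp).le hb rfl, ?_⟩
    rw [DD_scale hp.2 (h0 p hp).le]
    exact mul_pos (pow_pos (h0 p hp) n) hd

/-! ### sums -/

theorem isRep_of_posField {a : EE N → VV N} (ha : PosField I n a) {p : EE N} (hp : p ∈ Cone I) :
    ∃ b : Fin n → EE N, IsRep I p (a p) b := by
  obtain ⟨b, hb⟩ := ha.rep p hp
  exact ⟨b, (isRep_iff hp.2).2 hb⟩

/-- independence of the frame only depends on the value of the field at `p` -/
theorem rep_congr {a a' : EE N → VV N} {p : EE N} {b : Fin n → EE N} (h : Rep I a p b)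
    (ha : a' p = a p) : Rep I a' p b := ⟨h.1, h.2.1, by rw [ha]; exact h.2.2⟩

theorem rep_of_isRep {A : VV N} {a : EE N → VV N} {p : EE N} {b : Fin n → EE N} (hp : p ≠ 0)
    (h : IsRep I p A b) (ha : a p = A) : Rep I a p b ∧ 0 < DD p b := by
  subst ha
  exact (isRep_iff hp).1 h

theorem posField_add (hX : IsSmoothProjective I n) {a₁ a₂ : EE N → VV N} (h₁ : PosField I n a₁)
    (h₂ : PosField I n a₂) : PosField I n (fun p => a₁ p + a₂ p) := by
  refine ⟨fun p hp => (h₁.smooth p hp).add (h₂.smooth p hp), fun p hp c hc => ?_, fun p hp => ?_⟩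
  · simp only [h₁.hom p hp c hc, h₂.hom p hp c hc, smul_add]
  · obtain ⟨b₁, hb₁⟩ := isRep_of_posField h₁ hp
    obtain ⟨b₂, hb₂⟩ := isRep_of_posField h₂ hp
    obtain ⟨E, hE⟩ := exists_isOnb hX hp
    obtain ⟨S₁, hS₁, hA₁, -⟩ := hb₁.exists_conj hp.2 hE
    obtain ⟨S₂, hS₂, hA₂, -⟩ := hb₂.exists_conj hp.2 hE
    obtain ⟨b, hb⟩ := exists_isRep (A := a₁ p + a₂ p) hp.2 hE (hS₁.add hS₂) (by
      change toM (a₁ p) + toM (a₂ p) = _
      rw [hA₁, hA₂, Matrix.mul_add, Matrix.add_mul])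
    exact ⟨b, rep_of_isRep hp.2 hb rfl⟩

/-- superadditivity of `det_g^{1/n}` -/
theorem DD_superadd (hn : 0 < n) (hX : IsSmoothProjective I n) {a₁ a₂ a₃ : EE N → VV N}
    (h₁ : PosField I n a₁) (h₂ : PosField I n a₂) (h₃ : PosField I n a₃) {p : EE N}
    (hp : p ∈ Cone I) (h : a₃ p = a₁ p + a₂ p) {b₁ b₂ b₃ : Fin n → EE N} (hb₁ : Rep I a₁ p b₁)
    (hb₂ : Rep I a₂ p b₂) (hb₃ : Rep I a₃ p b₃) :
    DD p b₁ ^ ((n : ℝ)⁻¹) + DD p b₂ ^ ((n : ℝ)⁻¹) ≤ DD p b₃ ^ ((n : ℝ)⁻¹) := by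
  have k₁ := (isRep_iff hp.2).2 ⟨hb₁, rep_DD_pos h₁ hp hb₁⟩
  have k₂ := (isRep_iff hp.2).2 ⟨hb₂, rep_DD_pos h₂ hp hb₂⟩
  have k₃ := (isRep_iff hp.2).2 ⟨hb₃, rep_DD_pos h₃ hp hb₃⟩
  have := IsRep.superadd hn hX hp k₁ k₂ k₃ h
  rwa [← DD_eq_D hp.2, ← DD_eq_D hp.2, ← DD_eq_D hp.2] at this

/-! ### fields from smooth positive definite matrices -/

theorem toM_smul (c : ℂ) (A : VV N) : toM (c • A) = c • toM A := rfl

theorem QQ_inv {Pi : EE N → VV N} (h : PiD I Pi) {p : EE N} (hp : p ∈ Cone I) {c : ℂ} (hc : c ≠ 0) :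
    QQ Pi (c • p) = QQ Pi p := by
  have h1 : PP (c • p) = PP p := by
    funext i j
    have h2 : (((‖c‖ ^ 2 : ℝ)) : ℂ) = c * conj c := by
      rw [Complex.mul_conj, Complex.normSq_eq_norm_sq]
    have hcc : conj c ≠ 0 := by simpa using hc
    have hpc : (nsq p : ℂ) ≠ 0 := by exact_mod_cast (nsq_pos' hp.2).ne'
    simp only [PP, nsq_smul, _root_.Pi.smul_apply, smul_eq_mul, map_mul]
    rw [Complex.ofReal_mul, h2]
    field_simp
  funext i j
  simp only [QQ, h.inv p hp c hc, h1]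

/-- `|p|² Q M Q` -/
def conjF (Pi : EE N → VV N) (M : EE N → VV N) (p : EE N) : VV N :=
  (nsq p : ℂ) • (toM (QQ Pi p) * toM (M p) * toM (QQ Pi p) :
    Matrix (Fin (N + 1)) (Fin (N + 1)) ℂ)

theorem conjF_isRep (hX : IsSmoothProjective I n) {Pi M : EE N → VV N} (h : PiD I Pi) {p : EE N}
    (hp : p ∈ Cone I) (hM : (toM (M p)).PosDef) : ∃ b : Fin n → EE N,
      IsRep I p (conjF Pi M p) b := by
  obtain ⟨E, hE⟩ := exists_isOnb hX hp
  have h1 : (0 : ℂ) < (nsq p : ℂ) := by exact_mod_cast nsq_pos' hp.2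
  refine exists_isRep_of_posDef hp.2 hE (M := (nsq p : ℂ) • toM (M p)) (hM.smul h1) ?_
  change (nsq p : ℂ) • (toM (QQ Pi p) * toM (M p) * toM (QQ Pi p)) = _
  rw [QQ_eq hX h hp hE]
  simp only [Matrix.mul_smul, Matrix.smul_mul]

theorem contDiffAt_mul {W : Type*} [NormedAddCommGroup W] [NormedSpace ℝ W] {ι : Type*} [Fintype ι]
    {A B : W → Matrix ι ι ℂ} {x : W} {k : WithTop ℕ∞}
    (hA : ∀ a b, ContDiffAt ℝ k (fun w => A w a b) x)
    (hB : ∀ a b, ContDiffAt ℝ k (fun w => B w a b) x) (a b : ι) :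
    ContDiffAt ℝ k (fun w => (A w * B w) a b) x := by
  simp only [Matrix.mul_apply]
  exact ContDiffAt.sum fun c _ => (hA a c).mul (hB c b)

theorem posField_conj (hX : IsSmoothProjective I n) {Pi M : EE N → VV N} (h : PiD I Pi)
    (hs : ∀ p ∈ Cone I, ContDiffAt ℝ ∞ M p) (hinv : ∀ p ∈ Cone I, ∀ c : ℂ, c ≠ 0 → M (c • p) = M p)
    (hM : ∀ p ∈ Cone I, (toM (M p)).PosDef) : PosField I n (conjF Pi M) := by
  refine ⟨fun p hp => ?_, fun p hp c hc => ?_, fun p hp => ?_⟩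
  · refine contDiffAt_pi.2 fun i => contDiffAt_pi.2 fun j => ?_
    have hQ : ∀ a b, ContDiffAt ℝ ∞ (fun w => toM (QQ Pi w) a b) p :=
      contDiffAt_apply_apply (contDiffAt_QQ h hp)
    have hM' : ∀ a b, ContDiffAt ℝ ∞ (fun w => toM (M w) a b) p :=
      contDiffAt_apply_apply (hs p hp)
    exact (contDiffAt_nsqC p).mul (contDiffAt_mul (contDiffAt_mul hQ hM') hQ i j)
  · change (nsq (c • p) : ℂ) • (toM (QQ Pi (c • p)) * toM (M (c • p)) * toM (QQ Pi (c • p))) =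
      ((‖c‖ ^ 2 : ℝ) : ℂ) • ((nsq p : ℂ) • (toM (QQ Pi p) * toM (M p) * toM (QQ Pi p)))
    rw [QQ_inv h hp hc, hinv p hp c hc, nsq_smul, Complex.ofReal_mul, smul_smul]
  · obtain ⟨b, hb⟩ := conjF_isRep hX h hp (hM p hp)
    exact ⟨b, rep_of_isRep hp.2 hb rfl⟩

/-! ### the metric field -/

/-- `g⁻¹ = |p|² Q`, `Q` = orthogonal projection onto `Tan I p ∩ pᗮ` -/
def gInv (Pi : EE N → VV N) (p : EE N) : VV N := (nsq p : ℂ) • QQ Pi p

theorem gInv_eq (hX : IsSmoothProjective I n) {Pi : EE N → VV N} (h : PiD I Pi) {p : EE N}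
    (hp : p ∈ Cone I) : gInv Pi p = conjF Pi (fun _ => (1 : Matrix (Fin (N + 1)) (Fin (N + 1)) ℂ)) p := by
  obtain ⟨E, hE⟩ := exists_isOnb hX hp
  change (nsq p : ℂ) • toM (QQ Pi p) = (nsq p : ℂ) • (toM (QQ Pi p) *
    (1 : Matrix (Fin (N + 1)) (Fin (N + 1)) ℂ) * toM (QQ Pi p))
  rw [Matrix.mul_one, QQ_eq hX h hp hE]
  congr 1
  calc E * Eᴴ = E * (Eᴴ * E) * Eᴴ := by rw [hE.one, Matrix.mul_one]
    _ = _ := by simp only [Matrix.mul_assoc]

theorem posField_congr {a a' : EE N → VV N} (ha : PosField I n a) (hs : ∀ p ∈ Cone I,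
    ContDiffAt ℝ ∞ a' p) (hX : IsSmoothProjective I n) (h : ∀ p ∈ Cone I, a' p = a p) :
    PosField I n a' := by
  refine ⟨hs, fun p hp c hc => ?_, fun p hp => ?_⟩
  · rw [h _ (smul_mem_Cone hX hp hc), h p hp, ha.hom p hp c hc]
  · obtain ⟨b, hb, h0⟩ := ha.rep p hp
    exact ⟨b, rep_congr hb (h p hp), h0⟩

theorem contDiffAt_gInv {Pi : EE N → VV N} (h : PiD I Pi) {p : EE N} (hp : p ∈ Cone I) :
    ContDiffAt ℝ ∞ (gInv Pi) p := by
  refine contDiffAt_pi.2 fun i => contDiffAt_pi.2 fun j => ?_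
  exact (contDiffAt_nsqC p).mul (contDiffAt_apply_apply (contDiffAt_QQ h hp) i j)

theorem posField_gInv (hX : IsSmoothProjective I n) {Pi : EE N → VV N} (h : PiD I Pi) :
    PosField I n (gInv Pi) :=
  posField_congr (posField_conj hX h (M := fun _ => (1 : Matrix (Fin (N + 1)) (Fin (N + 1)) ℂ))
    (fun _ _ => contDiffAt_const) (fun _ _ _ _ => rfl) (fun _ _ => Matrix.PosDef.one))
    (fun _ hp => contDiffAt_gInv h hp) hX (fun _ hp => gInv_eq hX h hp)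

theorem DD_gInv (hX : IsSmoothProjective I n) {Pi : EE N → VV N} (h : PiD I Pi) {p : EE N}
    (hp : p ∈ Cone I) {b : Fin n → EE N} (hb : Rep I (gInv Pi) p b) : DD p b = 1 := by
  obtain ⟨E, hE⟩ := exists_isOnb hX hp
  have k := (isRep_iff hp.2).2 ⟨hb, rep_DD_pos (posField_gInv hX h) hp hb⟩
  have h1 := k.det_add hp.2 hE
  have h2 : toM (gInv Pi p) = E * ((nsq p : ℂ) • (1 : Matrix (Fin n) (Fin n) ℂ)) * Eᴴ := by
    change (nsq p : ℂ) • toM (QQ Pi p) = _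
    rw [QQ_eq hX h hp hE, Matrix.mul_smul, Matrix.mul_one, Matrix.smul_mul]
  rw [h2, det_add_one_sub hE.one, Matrix.det_smul, Matrix.det_one, mul_one, Fintype.card_fin,
    ← Complex.ofReal_pow, Complex.ofReal_inj, ← DD_eq_D hp.2] at h1
  have h3 := pow_ne_zero n (nsq_pos' hp.2).ne'
  exact (mul_left_cancel₀ h3 (by rw [mul_one]; exact h1)).symm

theorem sum_omg_eq {a : EE N → VV N} {p : EE N} (hp : p ≠ 0) {b : Fin n → EE N}
    (hb : Rep I a p b) : ((∑ i, omg p (b i) : ℝ) : ℂ) = (nsq p : ℂ)⁻¹ * (toM (a p)).trace := by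
  have hpc : (nsq p : ℂ) ≠ 0 := by exact_mod_cast (nsq_pos' hp).ne'
  have h1 : ∀ i, omg p (b i) = nsq (b i) / nsq p := fun i => by
    rw [omg_eq hp, hor_of_hor (rep_mem_HTan hb i).2]
  have h2 := rep_sum_form hb 1
  simp only [Matrix.one_mulVec, star_dot_self', Matrix.one_mul] at h2
  rw [← h2]
  push_cast [h1]
  rw [Finset.mul_sum]
  exact Finset.sum_congr rfl fun i _ => by field_simp

theorem sum_omg_gInv (hX : IsSmoothProjective I n) {Pi : EE N → VV N} (h : PiD I Pi) {p : EE N}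
    (hp : p ∈ Cone I) {b : Fin n → EE N} (hb : Rep I (gInv Pi) p b) :
    ∑ i, omg p (b i) = n := by
  obtain ⟨E, hE⟩ := exists_isOnb hX hp
  have hpc : (nsq p : ℂ) ≠ 0 := by exact_mod_cast (nsq_pos' hp.2).ne'
  have h1 := sum_omg_eq hp.2 hb
  have h2 : toM (gInv Pi p) = (nsq p : ℂ) • (E * Eᴴ) := by
    change (nsq p : ℂ) • toM (QQ Pi p) = _
    rw [QQ_eq hX h hp hE]
  rw [h2, Matrix.trace_smul, Matrix.trace_mul_comm, hE.one, Matrix.trace_one, Fintype.card_fin,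
    smul_eq_mul, ← mul_assoc, inv_mul_cancel₀ hpc, one_mul] at h1
  exact_mod_cast h1

/-- the metric field as an existence statement -/
theorem exists_gInv (hI : I.IsPrime) (hX : IsSmoothProjective I n) :
    ∃ a : EE N → VV N, PosField I n a ∧ ∀ p ∈ Cone I, ∀ b : Fin n → EE N, Rep I a p b →
      DD p b = 1 ∧ ∑ i, omg p (b i) = n := by
  obtain ⟨Pi, h⟩ := exists_PiD hI hX
  exact ⟨gInv Pi, posField_gInv hX h, fun p hp b hb => ⟨DD_gInv hX h hp hb, sum_omg_gInv hX h hp hb⟩⟩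

/-! ### prescribed frame at a point -/

/-- **a positive field with a prescribed frame at `p₀`** -/
theorem exists_posField_frame (hI : I.IsPrime) (hX : IsSmoothProjective I n) {p₀ : EE N}
    (hp₀ : p₀ ∈ Cone I) {b₀ : Fin n → EE N} (ht : TanFam I p₀ b₀)
    (hh : ∀ i, ∑ k, b₀ i k * conj (p₀ k) = 0) (hd : 0 < DD p₀ b₀) :
    ∃ a : EE N → VV N, PosField I n a ∧ Rep I a p₀ b₀ := by
  obtain ⟨Pi, h⟩ := exists_PiD hI hX
  obtain ⟨E, hE⟩ := exists_isOnb hX hp₀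
  have hn0 : (0 : ℝ) < nsq p₀ := nsq_pos' hp₀.2
  have hpc : (nsq p₀ : ℂ) ≠ 0 := by exact_mod_cast hn0.ne'
  set A₀ : VV N := fun j k => ∑ i, b₀ i j * conj (b₀ i k) with hA₀
  have hrep : Rep I (fun _ => A₀) p₀ b₀ := ⟨ht, hh, fun j k => rfl⟩
  have hk : IsRep I p₀ A₀ b₀ := (isRep_iff (a := fun _ => A₀) hp₀.2).2 ⟨hrep, hd⟩
  obtain ⟨S, hS, hAS, -⟩ := hk.exists_conj hp₀.2 hE
  set M : Matrix (Fin (N + 1)) (Fin (N + 1)) ℂ :=
    (nsq p₀ : ℂ)⁻¹ • toM A₀ + (1 - E * Eᴴ) with hMdef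
  have hEE : E * Eᴴ * (E * Eᴴ) = E * Eᴴ := by
    calc E * Eᴴ * (E * Eᴴ) = E * (Eᴴ * E) * Eᴴ := by simp only [Matrix.mul_assoc]
      _ = _ := by rw [hE.one, Matrix.mul_one]
  have hEE' : (1 - E * Eᴴ) * (E * Eᴴ) = 0 := by rw [Matrix.sub_mul, hEE, Matrix.one_mul, sub_self]
  have hherm : (1 - E * Eᴴ)ᴴ = 1 - E * Eᴴ := by
    rw [Matrix.conjTranspose_sub, Matrix.conjTranspose_one, Matrix.conjTranspose_mul,
      Matrix.conjTranspose_conjTranspose]
  have hidem : (1 - E * Eᴴ) * (1 - E * Eᴴ)ᴴ = 1 - E * Eᴴ := by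
    rw [hherm, Matrix.mul_sub, Matrix.mul_one, hEE', sub_zero]
  have hPSD : (1 - E * Eᴴ).PosSemidef := by
    rw [← hidem]
    exact Matrix.posSemidef_self_mul_conjTranspose _
  have hM : M.PosDef := by
    have hPS : M.PosSemidef := by
      refine Matrix.PosSemidef.add ?_ hPSD
      rw [hAS]
      refine Matrix.PosSemidef.smul (hS.posSemidef.mul_mul_conjTranspose_same E) ?_
      rw [← Complex.ofReal_inv, Complex.zero_le_real]
      exact inv_nonneg.2 hn0.le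
    refine hPS.posDef_iff_det_ne_zero.2 ?_
    have e1 : M = E * ((nsq p₀ : ℂ)⁻¹ • S) * Eᴴ + (1 - E * Eᴴ) := by
      rw [hMdef, hAS, Matrix.mul_smul, Matrix.smul_mul]
    rw [e1, det_add_one_sub hE.one, Matrix.det_smul]
    exact mul_ne_zero (pow_ne_zero _ (inv_ne_zero hpc)) hS.det_pos.ne'
  refine ⟨conjF Pi (fun _ => M), posField_conj hX h (fun _ _ => contDiffAt_const)
    (fun _ _ _ _ => rfl) (fun _ _ => hM), rep_congr hrep ?_⟩
  change (nsq p₀ : ℂ) • (toM (QQ Pi p₀) * M * toM (QQ Pi p₀)) = toM A₀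
  have hsupp1 : E * Eᴴ * toM A₀ = toM A₀ := by
    rw [hk.eq, ← Matrix.mul_assoc, hE.mul_colM fun i => hk.mem_HTan i]
  have hsupp2 : toM A₀ * (E * Eᴴ) = toM A₀ := by
    have h3 := congrArg Matrix.conjTranspose hsupp1
    have h4 : (toM A₀)ᴴ = toM A₀ := by
      rw [hk.eq, Matrix.conjTranspose_mul, Matrix.conjTranspose_conjTranspose]
    rwa [Matrix.conjTranspose_mul, Matrix.conjTranspose_mul, Matrix.conjTranspose_conjTranspose,
      h4] at h3
  rw [QQ_eq hX h hp₀ hE, hMdef, Matrix.mul_add, Matrix.add_mul, Matrix.mul_assoc _ (1 - E * Eᴴ),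
    hEE', Matrix.mul_zero, add_zero, Matrix.mul_smul, Matrix.smul_mul, smul_smul,
    mul_inv_cancel₀ hpc, one_smul, hsupp1, hsupp2]

/-! ### normalisation -/

/-- `a = ρ a'` with `det_g a' = 1` -/
theorem exists_posField_unimod (hn : 0 < n) (hI : I.IsPrime) (hX : IsSmoothProjective I n)
    {a : EE N → VV N} (ha : PosField I n a) : ∃ (a' : EE N → VV N) (ρ : EE N → ℝ),
      PosField I n a' ∧ SmX I ρ ∧ (∀ p ∈ Cone I, 0 < ρ p) ∧
      (∀ p, a' p = ((ρ p : ℝ) : ℂ) • a p) ∧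
      (∀ p ∈ Cone I, ∀ b : Fin n → EE N, Rep I a p b → DD p b ^ ((n : ℝ)⁻¹) = (ρ p)⁻¹) ∧
      ∀ p ∈ Cone I, ∀ b : Fin n → EE N, Rep I a' p b → DD p b = 1 := by
  obtain ⟨D, hD, hD0, hDD⟩ := exists_detF hI hX ha
  have hn' : (n : ℝ) ≠ 0 := by exact_mod_cast hn.ne'
  have hρ : SmX I (fun p => D p ^ (-(n : ℝ)⁻¹)) := smX_rpow hD hD0 _
  have hρ0 : ∀ p ∈ Cone I, 0 < D p ^ (-(n : ℝ)⁻¹) := fun p hp => Real.rpow_pos_of_pos (hD0 p hp) _
  refine ⟨_, _, posField_smul ha hρ hρ0, hρ, hρ0, fun p => rfl, fun p hp b hb => ?_,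
    fun p hp b hb => ?_⟩
  · rw [hDD p hp b hb, Real.rpow_neg (hD0 p hp).le, inv_inv]
  · obtain ⟨b₁, hb₁, rfl⟩ := rep_scale_inv (a := a) (hρ0 p hp) hb rfl
    rw [DD_scale hp.2 (hρ0 p hp).le, hDD p hp b₁ hb₁, ← Real.rpow_natCast,
      ← Real.rpow_mul (hD0 p hp).le, neg_mul, inv_mul_cancel₀ hn', Real.rpow_neg (hD0 p hp).le,
      Real.rpow_one, inv_mul_cancel₀ (hD0 p hp).ne']

end

end Crest.Agent.R269.FldF_620
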