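import Crest.Agent.R269.StMax_528
import Crest.Agent.R269.PosC_632

/-!
# R269, Line B: densities from `PosC_632.Frm`; the density of `α`; the maximiser for
`E = cθ α + cω ω + L u` (helper528)
-/

set_option autoImplicit false

open Set Filter Topology Metric Complex

noncomputable section

namespace Crest.Agent.R269.StDens_528

open Crest.Agent.R269.Geo_328 (EE VV Cone Tan nsq)
open Crest.Agent.R269.Defs_58 (omg SmX alpha)
open Crest.Agent.R269.StFun_528
open Crest.AlgGeometry.ProjEmb

variable {N n : ℕ} {I : Ideal (HomCoordRing N)}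

theorem dens_of_frm {f : EE N → EE N → ℝ} (hf : PosC_632.Frm I f) : Dens I f where
  cont := by
    rintro ⟨p, v⟩ ⟨hp, hv⟩
    exact hf.cont p hp v hv
  inv := fun p hp v hv c hc r => by
    have h := hf.inv p hp v hv c hc (c⁻¹ * r)
    rw [smul_add, smul_smul, mul_inv_cancel_left₀ hc] at h
    exact h

theorem dens_alpha (hI : I.IsPrime) (hX : IsSmoothProjective I n) :
    Dens I (fun p v => alpha I n p v) :=
  dens_of_frm (PosC_632.frm_alpha hI hX)

/-- the form `cθ α + cω ω + L u` -/
def Efo (I : Ideal (HomCoordRing N)) (n : ℕ) (cθ cω : ℝ) (u : EE N → ℝ) (p v : EE N) : ℝ :=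
  cθ * alpha I n p v + cω * omg p v + Defs_58.lev u p v

theorem dens_Efo (hI : I.IsPrime) (hX : IsSmoothProjective I n) (cθ cω : ℝ) {u : EE N → ℝ}
    (hu : SmX I u) : Dens I (Efo I n cθ cω u) := by
  have := hI
  exact (((dens_alpha hI hX).const_mul cθ).add (StMax_528.dens_omg.const_mul cω)).add
    (StMax_528.dens_lev hX hu)

end Crest.Agent.R269.StDens_528
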