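import Crest.Agent.R269.StFun_528
import Crest.Agent.R269.Green_740
import Crest.Agent.R269.LevCone_901
import Crest.Agent.R269.GeoChart_328

/-!
# R269, Line B, B4: existence of maximisers in the concrete formalism (helper528)
-/

set_option autoImplicit false

open Set Filter Topology Metric Complex
open scoped ComplexConjugate Real Uniformity Interval ContDiff

noncomputable section

namespace Crest.Agent.R269.StMax_528

open Crest.Agent.R269.Geo_328 (EE VV Cone Tan nsq)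
open Crest.Agent.R269.Defs_58 (omg SmX)
open Crest.Agent.R269.StCpt_528 (Tom Ctr tw)
open Crest.Agent.R269.StFun_528
open Crest.Agent.R269.DefsS_731 (TE TG cav)
open Crest.AlgGeometry.ProjEmb

variable {N n : ℕ} {I : Ideal (HomCoordRing N)}

theorem lev_eq (u : EE N → ℝ) (p v : EE N) : Defs_58.lev u p v = LevC_653.lev u p v := by
  unfold Defs_58.lev LevC_653.lev
  rw [iteratedFDeriv_two_apply, iteratedFDeriv_two_apply]
  rfl

/-! ### the Fubini-Study density -/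

theorem omg_eq_fsSq (p v : EE N) : omg p v = Brody_164.fsSq p v := rfl

theorem dens_omg : Dens I (fun p v => omg p v) where
  cont := by
    have h : ContinuousOn (fun x : EE N × EE N => Brody_164.fsSq x.1 x.2)
        {x | x.1 ∈ Cone I ∧ x.2 ∈ Tan I x.1} :=
      Brody_164.continuousOn_fsSq continuousOn_fst continuousOn_snd (fun x hx => hx.1.2)
    exact h
  inv := fun p _ v _ c hc r => Brody_164.fsSq_smul hc p v r

theorem omg_nonneg (p v : EE N) : 0 ≤ omg p v := Brody_164.fsSq_nonneg p v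

/-! ### the Levi form of a smooth function on `X` -/

theorem dens_lev [hI : I.IsPrime] (hX : IsSmoothProjective I n) {u : EE N → ℝ} (hu : SmX I u) :
    Dens I (fun p v => Defs_58.lev u p v) where
  cont := by
    rintro ⟨p, v⟩ ⟨hp, hv⟩
    apply ContinuousAt.continuousWithinAt
    have h1 : ContDiffAt ℝ 2 u p := (hu.1 p hp).of_le (WithTop.coe_le_coe.2 le_top)
    have h4 : (fun x : EE N × EE N => Defs_58.lev u x.1 x.2) = fun x =>
        LevC_653.lev u x.1 x.2 := by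
      funext x; exact lev_eq u x.1 x.2
    rw [h4]
    exact Lev_901.continuousAt_lev h1 v
  inv := fun p hp v hv c hc r => by
    obtain ⟨C⟩ := Geo_328.chartStmt N n I hI hX p hp
    have hcp : c • p ∈ Cone I := Geo_328.smul_mem_Cone hX hp hc
    obtain ⟨C'⟩ := Geo_328.chartStmt N n I hI hX (c • p) hcp
    have h1 : ContDiffAt ℝ 2 u p := (hu.1 p hp).of_le (WithTop.coe_le_coe.2 le_top)
    have h1' : ContDiffAt ℝ 2 u (c • p) := (hu.1 _ hcp).of_le (WithTop.coe_le_coe.2 le_top)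
    rw [lev_eq, lev_eq]
    have hcv : c • v ∈ Tan I (c • p) := by
      rw [Geo_328.Tan_smul hX p hc]
      exact Submodule.smul_mem _ _ hv
    have e : c • v + r • p = c • v + (r * c⁻¹) • (c • p) := by
      rw [smul_smul, mul_assoc, inv_mul_cancel₀ hc, mul_one]
    rw [e, LevCone_901.lev_add_smul_self hX hcp C' hu.2 h1' hcv,
      LevCone_901.lev_smul_point hX hp C hu.2 hc h1 h1' hv]

/-! ### Jensen -/

theorem Tom_eq_TE {H : ℂ → EE N} (hH : DefsS_731.IsDisc I H) {s : ℝ} (h0 : 0 ≤ s) (h1 : s < 1) :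
    Tom s H = TE (fun p v => omg p v) H s := by
  have hu : ContDiffOn ℝ 2 (fun z => Real.log (∑ i, ‖H z i‖ ^ 2)) (ball 0 1) := by
    intro z hz
    apply ContDiffAt.contDiffWithinAt
    have han : AnalyticAt ℂ H z := hH.hol.analyticAt (isOpen_ball.mem_nhds hz)
    have h2 : ContDiffAt ℝ 2 (fun p : EE N => Real.log (∑ i, ‖p i‖ ^ 2)) (H z) := by
      refine (Lev_901.contDiffAt_nsq (H z)).log ?_
      exact (Brody_164.nsq_pos (hH.cone z hz).2).ne'
    exact h2.comp z (han.restrictScalars (𝕜 := ℝ)).contDiffAt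
  have hj := Green_740.jensen hu h0 h1
  have e : TE (fun p v => omg p v) H s =
      Green_740.TG (fun z => LevC_653.lev (fun z => Real.log (∑ i, ‖H z i‖ ^ 2)) z 1) s := by
    refine TG_congr h0 h1 (fun z hz => ?_)
    have han : AnalyticAt ℂ H z := hH.hol.analyticAt (isOpen_ball.mem_nhds hz)
    have h2 : ContDiffAt ℝ 2 (fun p : EE N => Real.log (∑ i, ‖p i‖ ^ 2)) (H z) := by
      refine (Lev_901.contDiffAt_nsq (H z)).log ?_
      exact (Brody_164.nsq_pos (hH.cone z hz).2).ne'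
    have h3 := Lev_901.lev_comp_curve h2 han 1
    rw [h3, one_smul, Lev_901.lev_log_sum_nsq (hH.cone z hz).2]
    rfl
  rw [e, hj]
  rfl

/-! ### bounds -/

/-- the Brody constant -/
theorem exists_brody (hX : IsSmoothProjective I n) (hc : EntireCurvesConstant I) :
    ∃ A : ℝ, 0 < A ∧ StCpt_528.BrodyBd (affineCone I) A :=
  Brody_164.brody I hX hc

theorem omg_le {A : ℝ} (hB : StCpt_528.BrodyBd (affineCone I) A) {H : ℂ → EE N}
    (hH : DefsS_731.IsDisc I H) {s : ℝ} (hs : s < 1) {z : ℂ} (hz : ‖z‖ ≤ s) :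
    omg (H z) (deriv H z) ≤ A ^ 2 / (1 - s) ^ 2 :=
  (isDisc_iff.1 hH).fsSq_le hB hs hz

theorem omg_zero_le {A : ℝ} (hB : StCpt_528.BrodyBd (affineCone I) A) {H : ℂ → EE N}
    (hH : DefsS_731.IsDisc I H) : omg (H 0) (deriv H 0) ≤ A ^ 2 := by
  have := omg_le hB hH (s := 0) (by norm_num) (z := 0) (by simp)
  simpa using this

theorem TE_omg_le {A : ℝ} (hB : StCpt_528.BrodyBd (affineCone I) A) {H : ℂ → EE N}
    (hH : DefsS_731.IsDisc I H) {s : ℝ} (h0 : 0 ≤ s) (h1 : s < 1) :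
    TE (fun p v => omg p v) H s ≤ A ^ 2 / (1 - s) ^ 2 * s ^ 2 := by
  have hsub : closedBall (0 : ℂ) s ⊆ ball 0 1 := closedBall_subset_ball h1
  rw [← Green_740.TG_const _ h0]
  exact Green_740.TG_mono h0 ((dens_omg.continuousOn hH).mono hsub) continuousOn_const
    (fun z hz => omg_le hB hH h1 (by simpa using hz))

theorem TE_mono_radius {E : EE N → EE N → ℝ} (hE : Dens I E)
    (hpos : ∀ p ∈ Cone I, ∀ v ∈ Tan I p, 0 ≤ E p v) {H : ℂ → EE N} (hH : DefsS_731.IsDisc I H)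
    {s s' : ℝ} (h0 : 0 ≤ s) (h1 : s ≤ s') (h2 : s' < 1) : TE E H s ≤ TE E H s' := by
  have hsub : closedBall (0 : ℂ) s' ⊆ ball 0 1 := closedBall_subset_ball h2
  exact Green_740.TG_mono_radius h0 h1 ((hE.continuousOn hH).mono hsub)
    (fun z hz => hpos _ (hH.cone z (hsub hz)) _ (deriv_mem_Tan hH (hsub hz)))

theorem TE_nonneg {E : EE N → EE N → ℝ} (hE : Dens I E)
    (hpos : ∀ p ∈ Cone I, ∀ v ∈ Tan I p, 0 ≤ E p v) {H : ℂ → EE N} (hH : DefsS_731.IsDisc I H)
    {s : ℝ} (h0 : 0 ≤ s) (h2 : s < 1) : 0 ≤ TE E H s := by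
  have hsub : closedBall (0 : ℂ) s ⊆ ball 0 1 := closedBall_subset_ball h2
  exact Green_740.TG_nonneg h0 ((hE.continuousOn hH).mono hsub)
    (fun z hz => hpos _ (hH.cone z (hsub hz)) _ (deriv_mem_Tan hH (hsub hz)))

theorem TE_mono {E F : EE N → EE N → ℝ} (hE : Dens I E) (hF : Dens I F)
    (h : ∀ p ∈ Cone I, ∀ v ∈ Tan I p, E p v ≤ F p v) {H : ℂ → EE N} (hH : DefsS_731.IsDisc I H)
    {s : ℝ} (h0 : 0 ≤ s) (h2 : s < 1) : TE E H s ≤ TE F H s := by
  have hsub : closedBall (0 : ℂ) s ⊆ ball 0 1 := closedBall_subset_ball h2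
  exact Green_740.TG_mono h0 ((hE.continuousOn hH).mono hsub) ((hF.continuousOn hH).mono hsub)
    (fun z hz => h _ (hH.cone z (hsub hz)) _ (deriv_mem_Tan hH (hsub hz)))

theorem TE_const_mul (E : EE N → EE N → ℝ) (a : ℝ) (H : ℂ → EE N) (s : ℝ) :
    TE (fun p v => a * E p v) H s = a * TE E H s :=
  Green_740.TG_const_mul a _ s

theorem abs_cav_le {f : EE N → ℝ} {M : ℝ} (hf : ContinuousOn f (Cone I))
    (hM : ∀ p ∈ Cone I, |f p| ≤ M) {H : ℂ → EE N} (hH : DefsS_731.IsDisc I H) {s : ℝ}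
    (h0 : 0 ≤ s) (h2 : s < 1) : |cav f H s| ≤ M := by
  have hsub : sphere (0 : ℂ) |s| ⊆ ball 0 1 := by
    rw [abs_of_nonneg h0]
    exact sphere_subset_closedBall.trans (closedBall_subset_ball h2)
  have hci : CircleIntegrable (fun z => f (H z)) 0 s :=
    ContinuousOn.circleIntegrable' ((hf.comp hH.hol.continuousOn
      (fun z hz => hH.cone z hz)).mono hsub)
  refine Real.abs_circleAverage_le_circleAverage_abs.trans ?_
  exact Real.circleAverage_mono_on_of_le_circle hci.abs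
    (fun z hz => hM _ (hH.cone z (hsub hz)))

/-- `Ctr p₀ H` says that `H 0` is a non-zero multiple of `p₀` -/
theorem Ctr.exists_smul {p₀ : EE N} (hp₀ : p₀ ∈ Cone I) {H : ℂ → EE N}
    (hH : DefsS_731.IsDisc I H) (h : Ctr p₀ H) : ∃ a : ℂ, a ≠ 0 ∧ H 0 = a • p₀ := by
  obtain ⟨i, hi⟩ := Function.ne_iff.1 hp₀.2
  have hi' : p₀ i ≠ 0 := hi
  have e : H 0 = (H 0 i / p₀ i) • p₀ := by
    funext j
    rw [Pi.smul_apply, smul_eq_mul, div_mul_eq_mul_div, eq_div_iff hi']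
    exact h j i
  refine ⟨H 0 i / p₀ i, ?_, e⟩
  intro h0
  rw [h0, zero_smul] at e
  exact (hH.cone 0 (mem_ball_self one_pos)).2 e

theorem ctr_of_smul {p₀ : EE N} {H : ℂ → EE N} {a : ℂ} (h : H 0 = a • p₀) : Ctr p₀ H := by
  intro i j
  rw [h]
  simp only [Pi.smul_apply, smul_eq_mul]
  ring

/-- **existence of maximisers** (Line B, B4).  `E ≥ m ω` (`m > 0`), `c` any continuous invariant
functional which is bounded above on the centre `p₀`. -/
theorem exists_max_TE (hX : IsSmoothProjective I n) (hc : EntireCurvesConstant I)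
    {p₀ : EE N} (hp₀ : p₀ ∈ Cone I) {c : (ℂ → EE N) → ℝ} (hcF : FunC I c) {B : ℝ}
    (hcb : ∀ H, DefsS_731.IsDisc I H → Ctr p₀ H → c H ≤ B) {E : EE N → EE N → ℝ}
    (hE : Dens I E) {m : ℝ} (hm : 0 < m)
    (hpos : ∀ p ∈ Cone I, ∀ v ∈ Tan I p, m * omg p v ≤ E p v) {κ : ℝ} (hκ : 0 < κ) :
    ∃ H : ℂ → EE N, ∃ T1 : ℝ, DefsS_731.IsDisc I H ∧ Ctr p₀ H ∧ DefsS_731.Normal H ∧
      Tendsto (fun s => TE E H s) (𝓝[<] 1) (𝓝 T1) ∧ (∀ s ∈ Ioo (0 : ℝ) 1, TE E H s ≤ T1) ∧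
      ∀ H' K', DefsS_731.IsDisc I H' → Ctr p₀ H' → (∀ s ∈ Ioo (0 : ℝ) 1, TE E H' s ≤ K') →
        c H' - κ * K' ≤ c H - κ * T1 := by
  obtain ⟨A, hA, hB⟩ := exists_brody hX hc
  have hE0 : ∀ p ∈ Cone I, ∀ v ∈ Tan I p, 0 ≤ E p v := fun p hp v hv =>
    (mul_nonneg hm.le (omg_nonneg p v)).trans (hpos p hp v hv)
  have hdisc : ∀ {H : ℂ → EE N}, StCpt_528.IsDisc (affineCone I) H → DefsS_731.IsDisc I H :=
    fun h => isDisc_iff.2 h
  obtain ⟨H, T1, h1, h2, h3, h4, h5, h6⟩ := StCpt_528.exists_max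
    (Brody_164.isClosed_affineCone I)
    (fun c _ p hp => Geo_328.smul_mem_affineCone hX hp c) hB (p₀ := p₀)
    (fun H hH K hK => exists_normal hH hK) c (fun s H => TE E H s) hκ
    (fun H φ hH hφ => hcF.inv H φ (hdisc hH) hφ)
    (fun s hs H φ hH hφ => (hE.funC_TE hs).inv H φ (hdisc hH) hφ)
    (fun u Hm H h1 h2 h3 => hcF.cont u Hm H (fun m => hdisc (h1 m)) (hdisc h2) h3)
    (fun s hs u Hm H h1 h2 h3 => (hE.funC_TE hs).cont u Hm H (fun m => hdisc (h1 m))
      (hdisc h2) h3)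
    (fun H hH s s' h0 h1 h2 => TE_mono_radius hE hE0 (hdisc hH) h0.le h1 h2)
    (fun H hH s hs => TE_nonneg hE hE0 (hdisc hH) hs.1.le hs.2)
    ⟨m⁻¹, inv_pos.2 hm, fun H hH s hs => by
      rw [Tom_eq_TE (hdisc hH) hs.1.le hs.2, ← TE_const_mul]
      have h7 := TE_mono dens_omg (hE.const_mul m⁻¹) (fun p hp v hv => by
        have := hpos p hp v hv
        rw [← div_le_iff₀' (inv_pos.2 hm), div_inv_eq_mul, mul_comm]
        exact this) (hdisc hH) hs.1.le hs.2
      exact h7⟩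
    (fun H hH h => hcb H (hdisc hH) h)
    ⟨fun _ => p₀, |E p₀ 0|, ⟨differentiableOn_const _, fun _ _ => hp₀.1, fun _ _ => hp₀.2⟩,
      fun i j => mul_comm _ _, fun s hs => by
        have e : ∀ z ∈ ball (0 : ℂ) 1, E p₀ (deriv (fun _ : ℂ => p₀) z) = E p₀ 0 := by
          intro z _
          rw [deriv_const]
        have h7 : TE E (fun _ => p₀) s = DefsS_731.TG (fun _ => E p₀ 0) s :=
          TG_congr hs.1.le hs.2 e
        have h8 : DefsS_731.TG (fun _ => E p₀ 0) s = E p₀ 0 * s ^ 2 :=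
          Green_740.TG_const (E p₀ 0) hs.1.le
        show TE E (fun _ => p₀) s ≤ _
        rw [h7, h8]
        have h9 : s ^ 2 ≤ 1 := by nlinarith [hs.1, hs.2]
        calc E p₀ 0 * s ^ 2 ≤ |E p₀ 0| * s ^ 2 := by gcongr; exact le_abs_self _
          _ ≤ |E p₀ 0| * 1 := by gcongr
          _ = |E p₀ 0| := mul_one _⟩
  exact ⟨H, T1, isDisc_iff.2 h1, h2, normal_iff.2 h3, h4, h5,
    fun H' K' h7 h8 h9 => h6 H' K' (isDisc_iff.1 h7) h8 h9⟩

end Crest.Agent.R269.StMax_528
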