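import Mathlib

/-!
# R269 (S0411), LINE B (core #1368 of helper730), steps (8)-(12): consequences of the stationary
# variational principle (helper993)

`SD` : abstract interface = exactly what steps (1)-(7) deliver.

* `Disc` = holomorphic discs `f : D → X` with `T_ω(f; 1) < ∞`; `T f = T_ω(f; 1)`,
  `Tr r f = T_ω(f; r)` (`0 < r < 1`), `k f = T_θ(f; 1)`, `avg u f` = average over the unit circle of
  the boundary values of `u(f)`, `spd f = |f'(0)|²_ω`.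
* `Ge p q u` : `p θ + q ω + i∂∂̄ u ≥ ω` on `X`.
* `Int J LJ` : `J` is an interior functional; for a field `a`, `LJ a f` is the second variation of `J`
  summed over the fields `z V_i` of the Wold frame attached to the field `a` [metric `h = a⁻¹`].
* `S r a f` : `avg_{|z| = r} ∑_i |z V_i|²_ω`.
* `stat` : steps (1)-(4): for all `x, r, κ, t` and `E = (p, q, u) ≥ ω` there is a maximiser `f` of
  `J - κ (T_E(1) - t T_ω(r))` among the discs with centre `x`, and the summed inequality (VAR) holds.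
* `key` : step (7), in the weakest qualitative form.

Results: `kdel_ge` (= (A*) for `δ = 0`, (A_δ) in general), `k_ge` (A*), `T_gen`, `T_main` (T),
`T_del` (T_δ).
-/

set_option autoImplicit false

open Set Filter Topology

noncomputable section

namespace Crest.Agent.R269.Stat_731

/-- what steps (1)-(7) of core #1368 deliver -/
structure SD where
  /-- points of the variety -/
  X : Type
  /-- holomorphic discs with `T_ω(f; 1) < ∞` -/
  Disc : Type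
  /-- smooth positive fields (Hermitian metrics on the cotangent space) -/
  Fld : Type
  n : ℕ
  hn : 0 < n
  /-- `f ↦ f(0)` -/
  ctr : Disc → X
  /-- constant discs -/
  cst : X → Disc
  ctr_cst : ∀ x, ctr (cst x) = x
  /-- continuous functions on `X` -/
  Ct : (X → ℝ) → Prop
  ct_const : ∀ c : ℝ, Ct fun _ => c
  ct_add : ∀ {u v : X → ℝ}, Ct u → Ct v → Ct fun x => u x + v x
  ct_smul : ∀ {u : X → ℝ} (c : ℝ), Ct u → Ct fun x => c * u x
  ct_bdd : ∀ {u : X → ℝ}, Ct u → ∃ C, ∀ x, |u x| ≤ C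
  /-- smooth functions on `X` -/
  Sm : (X → ℝ) → Prop
  sm_zero : Sm fun _ => 0
  ct_sm : ∀ {u : X → ℝ}, Sm u → Ct u
  /-- average over the boundary circle -/
  avg : (X → ℝ) → Disc → ℝ
  avg_const : ∀ (c : ℝ) f, avg (fun _ => c) f = c
  avg_add : ∀ {u v : X → ℝ}, Ct u → Ct v → ∀ f, avg (fun x => u x + v x) f = avg u f + avg v f
  avg_smul : ∀ {u : X → ℝ} (c : ℝ), Ct u → ∀ f, avg (fun x => c * u x) f = c * avg u f
  avg_mono : ∀ {u v : X → ℝ}, Ct u → Ct v → (∀ x, u x ≤ v x) → ∀ f, avg u f ≤ avg v f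
  avg_cst : ∀ {u : X → ℝ}, Ct u → ∀ x, avg u (cst x) = u x
  /-- `T_θ(f; 1)`, `T_ω(f; 1)`, `|f'(0)|²` -/
  k : Disc → ℝ
  T : Disc → ℝ
  spd : Disc → ℝ
  k_cst : ∀ x, k (cst x) = 0
  T_cst : ∀ x, T (cst x) = 0
  spd_nonneg : ∀ f, 0 ≤ spd f
  /-- `T_ω(f; r)`, `0 < r < 1` -/
  Tr : ℝ → Disc → ℝ
  Tr_nonneg : ∀ {r f}, 0 < r → r < 1 → 0 ≤ Tr r f
  Tr_le : ∀ {r f}, 0 < r → r < 1 → Tr r f ≤ T f
  Tr_tendsto : ∀ f, ∀ ε, 0 < ε → ∃ r₀ < 1, ∀ r, r₀ < r → r < 1 → T f - ε ≤ Tr r f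
  Tr_bdd : ∀ {r}, 0 < r → r < 1 → ∃ C, ∀ f, Tr r f ≤ C
  /-- (1.1) -/
  A : ℝ
  schwarz : ∀ f, spd f ≤ A ^ 2
  /-- `log det_g a`, `tr(a α)`, `tr(a ω)`, `tr(a L u)` -/
  ldet : Fld → X → ℝ
  trA : Fld → X → ℝ
  trO : Fld → X → ℝ
  trL : Fld → (X → ℝ) → X → ℝ
  ct_ldet : ∀ a, Ct (ldet a)
  ct_trA : ∀ a, Ct (trA a)
  ct_trO : ∀ a, Ct (trO a)
  ct_trL : ∀ a {u}, Sm u → Ct (trL a u)
  trL_zero : ∀ a x, trL a (fun _ => 0) x = 0
  /-- `p θ + q ω + i∂∂̄ u ≥ ω` -/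
  Ge : ℝ → ℝ → (X → ℝ) → Prop
  ge_ex : ∀ p q {u}, Sm u → ∃ t, 0 < t ∧ Ge p (q + t) u
  /-- `T_ω ≤ T_E` -/
  T_le : ∀ {p q u}, Sm u → Ge p q u → ∀ f, T f ≤ p * k f + q * T f + (avg u f - u (ctr f))
  /-- some positive field -/
  fld : Fld
  /-- interior functionals and their summed second variations -/
  Int : (Disc → ℝ) → (Fld → Disc → ℝ) → Prop
  int_zero : Int (fun _ => 0) (fun _ _ => 0)
  Lspd : Fld → Disc → ℝ
  int_spd : Int spd Lspd
  /-- (5) + AM-GM at the centre -/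
  Lspd_ge : ∀ a f, n * Real.exp ((avg (ldet a) f - k f) / n) ≤ Lspd a f
  /-- `avg_{|z| = r} ∑ |z V_i|²_ω` -/
  S : ℝ → Fld → Disc → ℝ
  S_nonneg : ∀ {r}, 0 < r → r < 1 → ∀ a f, 0 ≤ S r a f
  /-- (7) -/
  key : ∀ a, ∀ η, 0 < η → ∃ δ, 0 < δ ∧ ∀ r f, 0 < r → 1 - δ < r → r < 1 → T f - Tr r f < δ →
    avg (trO a) f - η ≤ S r a f
  /-- (1)-(4) -/
  stat : ∀ {J : Disc → ℝ} {LJ : Fld → Disc → ℝ}, Int J LJ → ∀ {κ t r : ℝ}, 0 < κ → 0 ≤ t →
    0 < r → r < 1 → ∀ {p q : ℝ} {u : X → ℝ}, Sm u → Ge p q u → ∀ x, ∃ f, ctr f = x ∧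
      (∀ g, ctr g = x →
        J g - κ * (p * k g + q * T g + (avg u g - u x) - t * Tr r g) ≤
          J f - κ * (p * k f + q * T f + (avg u f - u x) - t * Tr r f)) ∧
      ∀ a, LJ a f + κ * t * S r a f ≤
        κ * (p * avg (trA a) f + q * avg (trO a) f + avg (trL a u) f)

namespace SD

variable (P : SD)

theorem avg_le {u : P.X → ℝ} (hu : P.Ct u) {C : ℝ} (h : ∀ x, u x ≤ C) (f : P.Disc) :
    P.avg u f ≤ C := by
  have := P.avg_mono hu (P.ct_const C) h f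
  rwa [P.avg_const] at this

theorem le_avg {u : P.X → ℝ} (hu : P.Ct u) {C : ℝ} (h : ∀ x, C ≤ u x) (f : P.Disc) :
    C ≤ P.avg u f := by
  have := P.avg_mono (P.ct_const C) hu h f
  rwa [P.avg_const] at this

theorem abs_avg_le {u : P.X → ℝ} (hu : P.Ct u) {C : ℝ} (h : ∀ x, |u x| ≤ C) (f : P.Disc) :
    |P.avg u f| ≤ C :=
  abs_le.2 ⟨P.le_avg hu (fun x => (abs_le.1 (h x)).1) f, P.avg_le hu (fun x => (abs_le.1 (h x)).2) f⟩

theorem npos : (0 : ℝ) < P.n := by exact_mod_cast P.hn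

theorem exp_ge (q y : ℝ) (hq : 0 < q) : q * (1 - Real.log q - y) ≤ Real.exp (-y) := by
  have h1 := Real.add_one_le_exp (-y - Real.log q)
  have h2 : Real.exp (-y) = q * Real.exp (-y - Real.log q) := by
    rw [Real.exp_sub, Real.exp_log hq]
    field_simp
  rw [h2]
  exact mul_le_mul_of_nonneg_left (by linarith) hq.le

/-- the maximiser property and (VAR) -/
def Max (J : P.Disc → ℝ) (LJ : P.Fld → P.Disc → ℝ) (κ t r p q : ℝ) (u : P.X → ℝ) (x : P.X)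
    (f : P.Disc) : Prop :=
  P.ctr f = x ∧
    (∀ g, P.ctr g = x →
      J g - κ * (p * P.k g + q * P.T g + (P.avg u g - u x) - t * P.Tr r g) ≤
        J f - κ * (p * P.k f + q * P.T f + (P.avg u f - u x) - t * P.Tr r f)) ∧
    ∀ a, LJ a f + κ * t * P.S r a f ≤
      κ * (p * P.avg (P.trA a) f + q * P.avg (P.trO a) f + P.avg (P.trL a u) f)

/-! ### (10), (11): lower bounds for `k` and `k_δ` -/

/-- `k_δ = (1 + δ m₁) k - δ T` -/
def kd (m₁ δ : ℝ) (f : P.Disc) : ℝ := (1 + δ * m₁) * P.k f - δ * P.T f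

/-- (A_δ): `k_δ ≥ -C₃` for all discs. -/
theorem kdel_ge (m₁ δ : ℝ) (a : P.Fld)
    (hint : ∃ c CΘ : ℝ, 0 < c ∧ ∀ R : ℝ, ∃ (Θ : P.Disc → ℝ)
      (LΘ : P.Fld → P.Disc → ℝ), P.Int Θ LΘ ∧ (∀ f, |Θ f| ≤ CΘ) ∧
      ∀ f, P.T f ≤ R → c * Real.exp (-(P.kd m₁ δ f / P.n)) ≤ LΘ a f) :
    ∃ C₃, 0 ≤ C₃ ∧ ∀ f, -C₃ ≤ P.kd m₁ δ f := by
  have hn := P.npos
  obtain ⟨t, ht, hGe⟩ := P.ge_ex (1 + δ * m₁) (-δ) P.sm_zero
  obtain ⟨c, CΘ, hc, hint⟩ := hint
  have hz : ∀ f, P.avg (fun _ => 0) f = 0 := fun f => P.avg_const 0 f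
  have hLz : ∀ f, P.avg (P.trL a fun _ => 0) f = 0 := fun f => by
    have : P.trL a (fun _ => 0) = fun _ => 0 := funext (P.trL_zero a)
    rw [this, P.avg_const]
  have cc : P.Ct fun x => (1 + δ * m₁) * P.trA a x + (-δ + t) * P.trO a x :=
    P.ct_add (P.ct_smul _ (P.ct_trA a)) (P.ct_smul _ (P.ct_trO a))
  obtain ⟨B₀, hB₀⟩ := P.ct_bdd cc
  set B := |B₀| + 1 with hB
  have hBpos : 0 < B := by positivity
  have htr : ∀ f, (1 + δ * m₁) * P.avg (P.trA a) f + (-δ + t) * P.avg (P.trO a) f ≤ B := by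
    intro f
    rw [← P.avg_smul _ (P.ct_trA a), ← P.avg_smul _ (P.ct_trO a),
      ← P.avg_add (P.ct_smul _ (P.ct_trA a)) (P.ct_smul _ (P.ct_trO a))]
    refine P.avg_le cc (fun x => ?_) f
    have h1 := le_abs_self ((1 + δ * m₁) * P.trA a x + (-δ + t) * P.trO a x)
    have h2 := hB₀ x
    have h3 := le_abs_self B₀
    linarith
  refine ⟨|2 * CΘ + P.n * (|Real.log (B / c)|)|, abs_nonneg _, fun g => ?_⟩
  refine le_of_forall_pos_le_add fun ε hε => ?_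
  obtain ⟨r₀, hr₀, hr⟩ := P.Tr_tendsto g (ε / t) (by positivity)
  obtain ⟨r, hr1, hr2⟩ := exists_between (max_lt hr₀ one_pos)
  have hr3 : 0 < r := (le_max_right _ _).trans_lt hr1
  have hrg := hr r ((le_max_left _ _).trans_lt hr1) hr2
  obtain ⟨CT, hCT⟩ := P.Tr_bdd hr3 hr2
  obtain ⟨Θ, LΘ, hΘ, hΘb, hΘl⟩ := hint (2 * CΘ + t * CT)
  obtain ⟨f, hf, hmax, hvar⟩ := P.stat hΘ one_pos ht.le hr3 hr2 P.sm_zero hGe (P.ctr g)
  -- bound of `T f`
  have h0 := hmax (P.cst (P.ctr g)) (P.ctr_cst _)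
  rw [P.k_cst, P.T_cst] at h0
  simp only [hz] at h0
  have hTrc : 0 ≤ P.Tr r (P.cst (P.ctr g)) := P.Tr_nonneg hr3 hr2
  have hTf := P.T_le P.sm_zero hGe f
  simp only [hz] at hTf
  have b1 := abs_le.1 (hΘb f)
  have b2 := abs_le.1 (hΘb (P.cst (P.ctr g)))
  have hTr := mul_le_mul_of_nonneg_left (hCT f) ht.le
  have hTrc' := mul_nonneg ht.le hTrc
  have hTb : P.T f ≤ 2 * CΘ + t * CT := by nlinarith
  have h1 := hΘl f hTb
  have h2 := hvar a
  have h3 := P.S_nonneg hr3 hr2 a f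
  rw [hLz, add_zero] at h2
  have h4 : c * Real.exp (-(P.kd m₁ δ f / P.n)) ≤ B := by
    have := mul_nonneg ht.le h3
    have := htr f
    linarith
  have h5 : -P.kd m₁ δ f ≤ P.n * Real.log (B / c) := by
    have h6 : Real.exp (-(P.kd m₁ δ f / P.n)) ≤ B / c := by
      rw [le_div_iff₀ hc]; linarith
    have h7 := (Real.le_log_iff_exp_le (by positivity)).2 h6
    rwa [← neg_div, div_le_iff₀ hn, mul_comm] at h7
  have h9 : P.n * Real.log (B / c) ≤ P.n * |Real.log (B / c)| :=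
    mul_le_mul_of_nonneg_left (le_abs_self _) hn.le
  have h10 := hmax g rfl
  simp only [hz] at h10
  have h11 : t * (P.T g - P.Tr r g) ≤ ε := by
    have := mul_le_mul_of_nonneg_left (show P.T g - P.Tr r g ≤ ε / t by linarith) ht.le
    rwa [mul_div_cancel₀ _ ht.ne'] at this
  have h12 : 0 ≤ t * (P.T f - P.Tr r f) :=
    mul_nonneg ht.le (by linarith [P.Tr_le (f := f) hr3 hr2])
  have b3 := abs_le.1 (hΘb g)
  have h14 := le_abs_self (2 * CΘ + P.n * (|Real.log (B / c)|))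
  simp only [kd] at h5 ⊢
  nlinarith

/-- (A*): `k ≥ -C₁` for all discs -/
theorem k_ge : ∃ C₁, 0 ≤ C₁ ∧ ∀ f, -C₁ ≤ P.k f := by
  have hn := P.npos
  obtain ⟨C, hC, h⟩ := P.kdel_ge 0 0 P.fld <| by
    set a := P.fld
    obtain ⟨Ca, hCa⟩ := P.ct_bdd (P.ct_ldet a)
    refine ⟨P.n * Real.exp (-(Ca / P.n)), P.A ^ 2, by positivity, fun R =>
      ⟨P.spd, P.Lspd, P.int_spd, fun f => by
        rw [abs_of_nonneg (P.spd_nonneg f)]; exact P.schwarz f, fun f _ => ?_⟩⟩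
    refine le_trans ?_ (P.Lspd_ge a f)
    rw [mul_assoc, ← Real.exp_add]
    refine mul_le_mul_of_nonneg_left (Real.exp_le_exp.2 ?_) hn.le
    have h8 := (abs_le.1 (P.abs_avg_le (P.ct_ldet a) hCa f)).1
    rw [← neg_div, ← neg_div, ← add_div]
    refine div_le_div_of_nonneg_right ?_ hn.le
    simp only [kd]
    linarith
  exact ⟨C, hC, fun f => by simpa [kd] using h f⟩

/-! ### (8): the monotonicity trick -/

theorem exists_small {J : P.Disc → ℝ} {LJ : P.Fld → P.Disc → ℝ} (hJ : P.Int J LJ) {CJ : ℝ}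
    (hJb : ∀ f, J f ≤ CJ) {κ t p q : ℝ} (hκ : 0 < κ) (ht : 0 < t) {u : P.X → ℝ} (hu : P.Sm u)
    (hGe : P.Ge p (q + t) u) {C₃ : ℝ} (hlow : ∀ f, -C₃ ≤ p * P.k f + q * P.T f) (x : P.X)
    {η : ℝ} (hη : 0 < η) :
    ∃ r f, 0 < r ∧ 1 - η < r ∧ r < 1 ∧ P.Max J LJ κ t r p (q + t) u x f ∧
      P.T f - P.Tr r f < η := by
  by_contra hcon
  push Not at hcon
  obtain ⟨Mu, hMu⟩ := P.ct_bdd (P.ct_sm hu)
  set Val : ℝ → P.Disc → ℝ := fun r f =>
    J f - κ * (p * P.k f + (q + t) * P.T f + (P.avg u f - u x) - t * P.Tr r f) with hVal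
  set B := CJ + κ * (C₃ + 2 * Mu) with hB
  have hub : ∀ r f, 0 < r → r < 1 → Val r f ≤ B := by
    intro r f h1 h2
    have e1 := hJb f
    have e2 := hlow f
    have e3 := (abs_le.1 (P.abs_avg_le (P.ct_sm hu) hMu f)).1
    have e4 := (abs_le.1 (hMu x)).2
    have e5 : 0 ≤ t * (P.T f - P.Tr r f) :=
      mul_nonneg ht.le (by linarith [P.Tr_le (f := f) h1 h2])
    have e6 : -(C₃ + 2 * Mu) ≤
        p * P.k f + (q + t) * P.T f + (P.avg u f - u x) - t * P.Tr r f := by nlinarith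
    have e7 := mul_le_mul_of_nonneg_left e6 hκ.le
    simp only [hVal, hB]
    nlinarith
  have hstep : 0 < κ * t * (η / 2) := by positivity
  have hst : ∀ m : ℕ, ∃ r f, 0 < r ∧ 1 - η < r ∧ r < 1 ∧ P.Max J LJ κ t r p (q + t) u x f ∧
      Val (max (1 - η) 0 / 2 + 1 / 2) (P.cst x) - B + B - |Val (max (1 - η) 0 / 2 + 1 / 2) (P.cst x)|
        - |Val (max (1 - η) 0 / 2 + 1 / 2) (P.cst x)| + m * (κ * t * (η / 2)) ≤ Val r f := by
    intro m
    induction m with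
    | zero =>
      have h1 : 0 < max (1 - η) 0 / 2 + 1 / 2 := by positivity
      have h2 : max (1 - η) 0 / 2 + 1 / 2 < 1 := by
        have : max (1 - η) 0 < 1 := max_lt (by linarith) one_pos
        linarith
      have h3 : 1 - η < max (1 - η) 0 / 2 + 1 / 2 := by
        have h4 := le_max_left (1 - η) 0
        have : max (1 - η) 0 < 1 := max_lt (by linarith) one_pos
        linarith
      obtain ⟨f, hf, hmax, hvar⟩ := P.stat hJ hκ ht.le h1 h2 hu hGe x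
      refine ⟨_, f, h1, h3, h2, ⟨hf, hmax, hvar⟩, ?_⟩
      have h5 := hmax (P.cst x) (P.ctr_cst x)
      have h6 := le_abs_self (Val (max (1 - η) 0 / 2 + 1 / 2) (P.cst x))
      have h7 := abs_nonneg (Val (max (1 - η) 0 / 2 + 1 / 2) (P.cst x))
      have h8 : Val (max (1 - η) 0 / 2 + 1 / 2) (P.cst x) ≤
        Val (max (1 - η) 0 / 2 + 1 / 2) f := h5
      push_cast
      linarith
    | succ m ih =>
      obtain ⟨r, f, h1, h2, h3, h4, h5⟩ := ih
      have h6 := hcon r f h1 h2 h3 h4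
      obtain ⟨r₀, hr₀, hr⟩ := P.Tr_tendsto f (η / 2) (by positivity)
      obtain ⟨r', hr1, hr2⟩ := exists_between (max_lt hr₀ h3)
      have h7 : r < r' := (le_max_right _ _).trans_lt hr1
      have h8 := hr r' ((le_max_left _ _).trans_lt hr1) hr2
      have h9 : 0 < r' := h1.trans h7
      obtain ⟨f', hf', hmax', hvar'⟩ := P.stat hJ hκ ht.le h9 hr2 hu hGe x
      refine ⟨r', f', h9, h2.trans h7, hr2, ⟨hf', hmax', hvar'⟩, ?_⟩
      have h10 : Val r' f ≤ Val r' f' := hmax' f h4.1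
      have h11 : Val r' f = Val r f + κ * t * (P.Tr r' f - P.Tr r f) := by
        simp only [hVal]; ring
      have h12 : κ * t * (η / 2) ≤ κ * t * (P.Tr r' f - P.Tr r f) :=
        mul_le_mul_of_nonneg_left (by linarith) (by positivity)
      push_cast
      linarith
  obtain ⟨m, hm⟩ := exists_nat_gt
    ((B + 3 * |Val (max (1 - η) 0 / 2 + 1 / 2) (P.cst x)|) / (κ * t * (η / 2)))
  obtain ⟨r, f, h1, -, h3, -, h5⟩ := hst m
  have h6 := hub r f h1 h3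
  rw [div_lt_iff₀ hstep] at hm
  have h7 := neg_abs_le (Val (max (1 - η) 0 / 2 + 1 / 2) (P.cst x))
  linarith

/-! ### (9), (12) -/

/-- the common part of (9) and (12): near-stationary discs with
`LJ ≤ κ (avg (p tr(aθ) + q tr(aω) + tr(aLu)) + η)` and `J f - κ (p k + q T + avg u - u x) ≥ J(cst x)`. -/
theorem exists_disc {J : P.Disc → ℝ} {LJ : P.Fld → P.Disc → ℝ} (hJ : P.Int J LJ) {CJ : ℝ}
    (hJb : ∀ f, J f ≤ CJ) {κ p q : ℝ} (hκ : 0 < κ) {u : P.X → ℝ} (hu : P.Sm u)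
    {C₃ : ℝ} (hlow : ∀ f, -C₃ ≤ p * P.k f + q * P.T f) (x : P.X) (a : P.Fld)
    {η : ℝ} (hη : 0 < η) :
    ∃ f, P.ctr f = x ∧
      J (P.cst x) ≤ J f - κ * (p * P.k f + q * P.T f + (P.avg u f - u x)) ∧
      LJ a f ≤ κ * (p * P.avg (P.trA a) f + q * P.avg (P.trO a) f + P.avg (P.trL a u) f + η) := by
  obtain ⟨t, ht, hGe⟩ := P.ge_ex p q hu
  obtain ⟨δ, hδ, hkey⟩ := P.key a (η / t) (by positivity)
  obtain ⟨r, f, h1, h2, h3, ⟨hf, hmax, hvar⟩, h5⟩ :=
    P.exists_small hJ hJb hκ ht hu hGe hlow x hδ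
  refine ⟨f, hf, ?_, ?_⟩
  · have h6 := hmax (P.cst x) (P.ctr_cst x)
    rw [P.k_cst, P.T_cst, P.avg_cst (P.ct_sm hu)] at h6
    have h7 : 0 ≤ κ * (t * P.Tr r (P.cst x)) :=
      mul_nonneg hκ.le (mul_nonneg ht.le (P.Tr_nonneg h1 h3))
    have h8 : 0 ≤ κ * (t * (P.T f - P.Tr r f)) :=
      mul_nonneg hκ.le (mul_nonneg ht.le (by linarith [P.Tr_le (f := f) h1 h3]))
    nlinarith
  · have h6 := hvar a
    have h7 := hkey r f h1 h2 h3 h5
    have h8 : t * P.avg (P.trO a) f - η ≤ t * P.S r a f := by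
      have := mul_le_mul_of_nonneg_left h7 ht.le
      rwa [mul_sub, mul_div_cancel₀ _ ht.ne'] at this
    have h9 := mul_le_mul_of_nonneg_left h8 hκ.le
    nlinarith

/-- (9), general field `a` -/
theorem T_gen {lam κ c₀ e : ℝ} (hlam : 0 < lam) (hκ : 0 < κ) (he : 0 ≤ e)
    (a : P.Fld) {u : P.X → ℝ} (hu : P.Sm u)
    (h : ∀ x, P.trA a x + e * P.trO a x + P.trL a u x ≤
      P.n * c₀ + lam * u x + lam * P.ldet a x) (x : P.X) :
    -(P.A ^ 2 / κ) + P.n * (1 - Real.log (κ * lam) - c₀ / lam) ≤ u x := by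
  have hn := P.npos
  have hq : 0 < κ * lam := mul_pos hκ hlam
  have hcu := P.ct_sm hu
  have cA := P.ct_trA a
  have cO := P.ct_trO a
  have cL := P.ct_trL a hu
  have cd := P.ct_ldet a
  obtain ⟨C₁, hC₁0, hC₁⟩ := P.k_ge
  have hlow : ∀ f, -C₁ ≤ 1 * P.k f + e * P.T f := fun f => by
    have hT : 0 ≤ P.T f := (P.Tr_nonneg (r := 1 / 2) (by norm_num) (by norm_num)).trans
      (P.Tr_le (by norm_num) (by norm_num))
    have := mul_nonneg he hT
    linarith [hC₁ f]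
  refine le_of_forall_pos_le_add fun ε hε => ?_
  obtain ⟨f, hf, h1, h2⟩ := P.exists_disc P.int_spd P.schwarz hκ hu hlow x a
    (η := lam * ε) (by positivity)
  have hT : 0 ≤ P.T f := (P.Tr_nonneg (r := 1 / 2) (by norm_num) (by norm_num)).trans
    (P.Tr_le (by norm_num) (by norm_num))
  have h3 := P.Lspd_ge a f
  have h4 : P.avg (P.trA a) f + e * P.avg (P.trO a) f + P.avg (P.trL a u) f ≤
      P.n * c₀ + lam * P.avg u f + lam * P.avg (P.ldet a) f := by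
    have e1 : P.avg (fun x => P.trA a x + e * P.trO a x + P.trL a u x) f =
        P.avg (P.trA a) f + e * P.avg (P.trO a) f + P.avg (P.trL a u) f := by
      rw [P.avg_add (P.ct_add cA (P.ct_smul e cO)) cL, P.avg_add cA (P.ct_smul e cO),
        P.avg_smul e cO]
    have e2 : P.avg (fun x => P.n * c₀ + lam * u x + lam * P.ldet a x) f =
        P.n * c₀ + lam * P.avg u f + lam * P.avg (P.ldet a) f := by
      rw [P.avg_add (P.ct_add (P.ct_const _) (P.ct_smul lam hcu)) (P.ct_smul lam cd),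
        P.avg_add (P.ct_const _) (P.ct_smul lam hcu), P.avg_const, P.avg_smul lam hcu,
        P.avg_smul lam cd]
    rw [← e1, ← e2]
    exact P.avg_mono (P.ct_add (P.ct_add cA (P.ct_smul e cO)) cL)
      (P.ct_add (P.ct_add (P.ct_const _) (P.ct_smul lam hcu)) (P.ct_smul lam cd)) h f
  have h5 := exp_ge (κ * lam) ((P.k f - P.avg (P.ldet a) f) / P.n) hq
  have h6 : (P.n : ℝ) * (κ * lam * (1 - Real.log (κ * lam))) -
      κ * lam * (P.k f - P.avg (P.ldet a) f) ≤ P.Lspd a f := by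
    refine le_trans ?_ h3
    have := mul_le_mul_of_nonneg_left h5 hn.le
    refine le_trans (le_of_eq ?_) (this.trans (le_of_eq ?_))
    · field_simp
    · congr 2; ring
  have h7 := P.schwarz f
  have h8 := P.spd_nonneg (P.cst x)
  have h9 : κ * (P.k f + e * P.T f + (P.avg u f - u x)) ≤ P.A ^ 2 := by nlinarith
  have h10 : κ * (P.k f + (P.avg u f - u x)) ≤ P.A ^ 2 := by
    have := mul_nonneg hκ.le (mul_nonneg he hT)
    nlinarith
  have h11 := mul_le_mul_of_nonneg_left h4 hκ.le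
  have h12 : (P.n : ℝ) * (κ * lam * (1 - Real.log (κ * lam))) ≤
      κ * (P.n * c₀) + lam * P.A ^ 2 + κ * lam * u x + κ * (lam * ε) := by
    have := mul_le_mul_of_nonneg_left h10 hlam.le
    nlinarith
  have h13 : κ * lam * (-(P.A ^ 2 / κ) + P.n * (1 - Real.log (κ * lam) - c₀ / lam)) =
      (P.n : ℝ) * (κ * lam * (1 - Real.log (κ * lam))) - κ * (P.n * c₀) - lam * P.A ^ 2 := by
    field_simp
    ring
  have h14 : κ * lam * (-(P.A ^ 2 / κ) + P.n * (1 - Real.log (κ * lam) - c₀ / lam)) ≤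
      κ * lam * (u x + ε) := by
    rw [h13]; nlinarith
  exact le_of_mul_le_mul_left h14 hq

/-- the constant `λ` -/
def lam : ℝ := P.n / (Real.exp 1 * (P.A ^ 2 + 1))

theorem lam_pos : 0 < P.lam := by
  have := P.npos
  unfold lam
  positivity

/-- (T) -/
theorem T_main {c₀ e : ℝ} (hc : c₀ ≤ P.lam) (he : 0 ≤ e) (a : P.Fld) {u : P.X → ℝ} (hu : P.Sm u)
    (h : ∀ x, P.trA a x + e * P.trO a x + P.trL a u x ≤
      P.n * c₀ + P.lam * u x + P.lam * P.ldet a x) (x : P.X) : 0 ≤ u x := by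
  have hn := P.npos
  have hA : 0 < P.A ^ 2 + 1 := by positivity
  have h1 := P.T_gen P.lam_pos (κ := (P.A ^ 2 + 1) / P.n) (by positivity) he a hu h x
  refine le_trans ?_ h1
  have e1 : (P.A ^ 2 + 1) / P.n * P.lam = Real.exp (-1) := by
    unfold lam
    rw [Real.exp_neg]
    field_simp
  rw [e1, Real.log_exp]
  have e2 : P.A ^ 2 / ((P.A ^ 2 + 1) / P.n) ≤ P.n := by
    rw [div_le_iff₀ (by positivity)]
    field_simp
    nlinarith
  have e3 : c₀ / P.lam ≤ 1 := (div_le_one P.lam_pos).2 hc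
  nlinarith

/-- (T_δ) -/
theorem T_del {m₁ δ C₃ : ℝ} (hC₃ : ∀ f, -C₃ ≤ P.kd m₁ δ f) (a : P.Fld) {u : P.X → ℝ}
    (hu : P.Sm u)
    (h : ∀ x, (1 + δ * m₁) * P.trA a x - δ * P.trO a x + P.trL a u x ≤ u x) (x : P.X) :
    -C₃ ≤ u x := by
  have hcu := P.ct_sm hu
  have cA := P.ct_trA a
  have cO := P.ct_trO a
  have cL := P.ct_trL a hu
  have hlow : ∀ f, -C₃ ≤ (1 + δ * m₁) * P.k f + (-δ) * P.T f := fun f => by
    have := hC₃ f
    simp only [kd] at this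
    linarith
  refine le_of_forall_pos_le_add fun ε hε => ?_
  obtain ⟨f, hf, h1, h2⟩ := P.exists_disc P.int_zero (CJ := 0) (fun _ => le_rfl) one_pos hu hlow x a
    hε
  have h4 : (1 + δ * m₁) * P.avg (P.trA a) f + (-δ) * P.avg (P.trO a) f + P.avg (P.trL a u) f ≤
      P.avg u f := by
    have e1 : P.avg (fun x => (1 + δ * m₁) * P.trA a x + (-δ) * P.trO a x + P.trL a u x) f =
        (1 + δ * m₁) * P.avg (P.trA a) f + (-δ) * P.avg (P.trO a) f + P.avg (P.trL a u) f := by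
      rw [P.avg_add (P.ct_add (P.ct_smul _ cA) (P.ct_smul _ cO)) cL,
        P.avg_add (P.ct_smul _ cA) (P.ct_smul _ cO), P.avg_smul _ cO, P.avg_smul _ cA]
    rw [← e1]
    refine P.avg_mono (P.ct_add (P.ct_add (P.ct_smul _ cA) (P.ct_smul _ cO)) cL) hcu
      (fun x => ?_) f
    have := h x
    linarith
  have h5 := hlow f
  linarith

end SD

end Crest.Agent.R269.Stat_731
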