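import Crest.Agent.R269.Levi1_599

/-!
# R269, leaf LEVI, part 2 (helper599): mean value expansions

* `taylor2`: second order Taylor estimate with modulus of continuity of the second derivative;
* `unif_mod`: uniform modulus of continuity of `D²φ` along a compact set;
* `mean4`: mean over the four points `ρ, iρ, -ρ, -iρ`;
* `mean4_expand`: uniform expansion of `mean4` of `φ (H z + w V z + w² R z + O(w³))`,
  the `ρ²`-coefficient being the Levi form `levi φ (H z) (V z)`.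
-/

set_option autoImplicit false

open Complex Topology Filter Metric Set
open scoped ContDiff

namespace Crest.Agent.R269.Levi2_599

open Crest.Agent.R269.Levi1_599

noncomputable section

variable {X : Type*} [NormedAddCommGroup X] [NormedSpace ℝ X]
variable {E : Type*} [NormedAddCommGroup E] [NormedSpace ℂ E]
variable {W : Type*} [NormedAddCommGroup W] [NormedSpace ℝ W]

/-- second order Taylor estimate -/
theorem taylor2 {φ : X → W} {p : X} {δ ε : ℝ} (hφ : ContDiffOn ℝ 2 φ (ball p δ))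
    (hε : ∀ x ∈ ball p δ, ‖fderiv ℝ (fderiv ℝ φ) x - fderiv ℝ (fderiv ℝ φ) p‖ ≤ ε) {h : X}
    (hh : ‖h‖ < δ) :
    ‖φ (p + h) - φ p - fderiv ℝ φ p h - (1 / 2 : ℝ) • D2 φ p h h‖ ≤ ε * ‖h‖ ^ 2 := by
  have hδ : 0 < δ := (norm_nonneg h).trans_lt hh
  have hat : ∀ x ∈ ball p δ, ContDiffAt ℝ 2 φ x := fun x hx =>
    hφ.contDiffAt (isOpen_ball.mem_nhds hx)
  have hε0 : 0 ≤ ε := by
    have h1 := hε p (mem_ball_self hδ)
    have h2 := norm_nonneg (fderiv ℝ (fderiv ℝ φ) p - fderiv ℝ (fderiv ℝ φ) p)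
    exact le_trans h2 h1
  -- the remainder
  set A : X →L[ℝ] X →L[ℝ] W := fderiv ℝ (fderiv ℝ φ) p with hA
  have hsym : ∀ v w, A v w = A w v := fun v w => D2_symm (hat p (mem_ball_self hδ)) v w
  let r : X → W := fun x => φ x - φ p - fderiv ℝ φ p (x - p) - (1 / 2 : ℝ) • A (x - p) (x - p)
  have hr : ∀ x ∈ ball p δ, HasFDerivAt r (fderiv ℝ φ x - fderiv ℝ φ p - A (x - p)) x := by
    intro x hx
    have h1 : HasFDerivAt φ (fderiv ℝ φ x) x := ((hat x hx).differentiableAt (by norm_num)).hasFDerivAt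
    have h0 : HasFDerivAt (fun x : X => x - p) (ContinuousLinearMap.id ℝ X) x :=
      (hasFDerivAt_id x).sub_const p
    have h2 : HasFDerivAt (fun x => fderiv ℝ φ p (x - p))
        ((fderiv ℝ φ p).comp (ContinuousLinearMap.id ℝ X)) x :=
      (fderiv ℝ φ p).hasFDerivAt.comp x h0
    have h3 := A.hasFDerivAt_of_bilinear h0 h0
    have h4 := ((h1.sub_const (φ p)).sub h2).sub (h3.const_smul (1 / 2 : ℝ))
    refine h4.congr_fderiv ?_
    ext v
    simp only [sub_apply, smul_apply, add_apply, ContinuousLinearMap.precompR_apply,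
      ContinuousLinearMap.precompL_apply, ContinuousLinearMap.id_apply,
      ContinuousLinearMap.comp_apply, ContinuousLinearMap.compL_apply]
    rw [hsym v (x - p)]
    module
  have hrd : ∀ x ∈ ball p δ, ‖fderiv ℝ φ x - fderiv ℝ φ p - A (x - p)‖ ≤ ε * ‖x - p‖ := by
    intro x hx
    let g : X → X →L[ℝ] W := fun x => fderiv ℝ φ x - A (x - p)
    have hg : ∀ y ∈ ball p δ, HasFDerivAt g (fderiv ℝ (fderiv ℝ φ) y - A) y := by
      intro y hy
      have h1 : HasFDerivAt (fderiv ℝ φ) (fderiv ℝ (fderiv ℝ φ) y) y :=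
        (diff_fderiv (hat y hy)).hasFDerivAt
      have h2 : HasFDerivAt (fun x => A (x - p)) (A.comp (ContinuousLinearMap.id ℝ X)) y :=
        A.hasFDerivAt.comp y ((hasFDerivAt_id y).sub_const p)
      rw [ContinuousLinearMap.comp_id] at h2
      exact h1.sub h2
    have := (convex_ball p δ).norm_image_sub_le_of_norm_hasFDerivWithin_le
      (fun y hy => (hg y hy).hasFDerivWithinAt) (fun y hy => hε y hy) (mem_ball_self hδ) hx
    have e : g x - g p = fderiv ℝ φ x - fderiv ℝ φ p - A (x - p) := by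
      simp only [g, sub_self, map_zero, sub_zero]
      abel
    rwa [e] at this
  -- mean value inequality on the ball of radius ‖h‖ (closed), via segment
  have hfin := (convex_closedBall p ‖h‖).norm_image_sub_le_of_norm_hasFDerivWithin_le
    (f := r) (f' := fun x => fderiv ℝ φ x - fderiv ℝ φ p - A (x - p)) (C := ε * ‖h‖)
    (x := p) (y := p + h)
    (fun x hx => (hr x (by
      have := mem_closedBall.1 hx
      exact mem_ball.2 (this.trans_lt hh))).hasFDerivWithinAt)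
    (fun x hx => by
      have hx' : ‖x - p‖ ≤ ‖h‖ := by simpa [dist_eq_norm] using hx
      have hxb : x ∈ ball p δ := by
        rw [mem_ball, dist_eq_norm]
        exact hx'.trans_lt hh
      exact (hrd x hxb).trans (by gcongr))
    (mem_closedBall_self (norm_nonneg h)) (by simp)
  have e1 : r (p + h) - r p = φ (p + h) - φ p - fderiv ℝ φ p h - (1 / 2 : ℝ) • D2 φ p h h := by
    simp only [r, add_sub_cancel_left, sub_self, map_zero, smul_zero, sub_zero]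
    rfl
  rw [e1] at hfin
  calc _ ≤ ε * ‖h‖ * ‖p + h - p‖ := hfin
    _ = ε * ‖h‖ ^ 2 := by rw [add_sub_cancel_left]; ring

/-- uniform modulus of continuity of the second derivative near a compact set -/
theorem unif_mod {φ : X → W} {U S : Set X} (hU : IsOpen U) (hφ : ContDiffOn ℝ 2 φ U)
    (hS : IsCompact S) (hSU : S ⊆ U) {ε : ℝ} (hε : 0 < ε) :
    ∃ δ > 0, ∀ p ∈ S, ball p δ ⊆ U ∧
      ∀ x ∈ ball p δ, ‖fderiv ℝ (fderiv ℝ φ) x - fderiv ℝ (fderiv ℝ φ) p‖ ≤ ε := by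
  have hc : ∀ a ∈ S, ContinuousAt (fderiv ℝ (fderiv ℝ φ)) a := by
    intro a ha
    have h1 : ContDiffAt ℝ 2 φ a := hφ.contDiffAt (hU.mem_nhds (hSU ha))
    have h2 : ContDiffAt ℝ 1 (fderiv ℝ φ) a := h1.fderiv_right (by norm_num)
    have h3 : ContDiffAt ℝ 0 (fderiv ℝ (fderiv ℝ φ)) a := h2.fderiv_right (by norm_num)
    exact h3.continuousAt
  have h1 := hS.uniformContinuousAt_of_continuousAt (fderiv ℝ (fderiv ℝ φ)) hc
    (r := {q : (X →L[ℝ] X →L[ℝ] W) × (X →L[ℝ] X →L[ℝ] W) | dist q.1 q.2 < ε})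
    (by exact Metric.dist_mem_uniformity (α := X →L[ℝ] X →L[ℝ] W) hε)
  obtain ⟨δ1, hδ1, h1⟩ := Metric.mem_uniformity_dist.1 h1
  obtain ⟨δ2, hδ2, h2⟩ := hS.exists_thickening_subset_open hU hSU
  refine ⟨min δ1 δ2, lt_min hδ1 hδ2, fun p hp => ⟨?_, fun x hx => ?_⟩⟩
  · intro x hx
    apply h2
    rw [mem_thickening_iff]
    exact ⟨p, hp, (mem_ball.1 hx).trans_le (min_le_right _ _)⟩
  · have hd : dist p x < δ1 := by
      rw [dist_comm]; exact (mem_ball.1 hx).trans_le (min_le_left _ _)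
    have h3 : dist (fderiv ℝ (fderiv ℝ φ) p) (fderiv ℝ (fderiv ℝ φ) x) < ε := h1 hd hp
    rw [dist_comm] at h3
    have h4 := dist_eq_norm (fderiv ℝ (fderiv ℝ φ) x) (fderiv ℝ (fderiv ℝ φ) p)
    rw [h4] at h3
    exact h3.le

/-- mean over the four points `ρ, iρ, -ρ, -iρ` -/
def mean4 (g : ℂ → W) (ρ : ℝ) : W :=
  (1 / 4 : ℝ) • (g (ρ : ℂ) + g (I * ρ) + g (-(ρ : ℂ)) + g (-(I * ρ)))

theorem mean4_le {g : ℂ → ℝ} {ρ M : ℝ} (h : ∀ w : ℂ, ‖w‖ = |ρ| → g w ≤ M) : mean4 g ρ ≤ M := by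
  have h1 := h (ρ : ℂ) (by simp)
  have h2 := h (I * ρ) (by simp)
  have h3 := h (-(ρ : ℂ)) (by simp)
  have h4 := h (-(I * ρ)) (by simp)
  simp only [mean4, smul_eq_mul]
  linarith

theorem mean4_add (g k : ℂ → W) (ρ : ℝ) :
    mean4 (fun w => g w + k w) ρ = mean4 g ρ + mean4 k ρ := by
  simp only [mean4]; module

theorem mean4_sub (g k : ℂ → W) (ρ : ℝ) :
    mean4 (fun w => g w - k w) ρ = mean4 g ρ - mean4 k ρ := by
  simp only [mean4]; module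

theorem mean4_const (c : W) (ρ : ℝ) : mean4 (fun _ => c) ρ = c := by
  simp only [mean4]; module

theorem mean4_const_smul (c : ℝ) (g : ℂ → W) (ρ : ℝ) :
    mean4 (fun w => c • g w) ρ = c • mean4 g ρ := by
  simp only [mean4]; module

theorem norm_mean4_le {g : ℂ → W} {ρ M : ℝ} (h : ∀ w : ℂ, ‖w‖ = |ρ| → ‖g w‖ ≤ M) :
    ‖mean4 g ρ‖ ≤ M := by
  have h1 := h (ρ : ℂ) (by simp)
  have h2 := h (I * ρ) (by simp)
  have h3 := h (-(ρ : ℂ)) (by simp)
  have h4 := h (-(I * ρ)) (by simp)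
  rw [mean4, norm_smul]
  have h5 : ‖g (ρ : ℂ) + g (I * ρ) + g (-(ρ : ℂ)) + g (-(I * ρ))‖ ≤ 4 * M := by
    refine (norm_add_le _ _).trans ?_
    refine (add_le_add (norm_add_le _ _) le_rfl).trans ?_
    refine (add_le_add (add_le_add (norm_add_le _ _) le_rfl) le_rfl).trans ?_
    linarith
  have : ‖(1 / 4 : ℝ)‖ = 1 / 4 := by norm_num
  rw [this]
  linarith

theorem mean4_mono {g k : ℂ → ℝ} {ρ : ℝ} (h : ∀ w : ℂ, ‖w‖ = |ρ| → g w ≤ k w) :
    mean4 g ρ ≤ mean4 k ρ := by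
  have h1 := h (ρ : ℂ) (by simp)
  have h2 := h (I * ρ) (by simp)
  have h3 := h (-(ρ : ℂ)) (by simp)
  have h4 := h (-(I * ρ)) (by simp)
  simp only [mean4, smul_eq_mul]
  linarith

/-- the quadratic model has mean value exactly `ρ² levi` -/
theorem mean4_model (φ : E → W) (p V : E) (R : E) (ρ : ℝ) :
    mean4 (fun w : ℂ => fderiv ℝ φ p (w • V + w ^ 2 • R) +
      (1 / 2 : ℝ) • D2 φ p (w • V) (w • V)) ρ = (ρ ^ 2) • levi φ p V := by
  have s1 : ((ρ : ℂ)) • V = ρ • V := by simp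
  have s2 : (I * (ρ : ℂ)) • V = ρ • (I • V) := by
    rw [mul_comm, mul_smul]; simp
  have s3 : (-(ρ : ℂ)) • V = (-ρ) • V := by simp
  have s4 : (-(I * (ρ : ℂ))) • V = (-ρ) • (I • V) := by
    rw [neg_smul, s2, neg_smul]
  have q1 : ((ρ : ℂ) ^ 2) • R = (ρ ^ 2) • R := by
    rw [← Complex.ofReal_pow, Complex.coe_smul]
  have q2 : ((I * (ρ : ℂ)) ^ 2) • R = (-(ρ ^ 2)) • R := by
    rw [mul_pow, I_sq, neg_one_mul, neg_smul, q1, neg_smul]
  have q3 : ((-(ρ : ℂ)) ^ 2) • R = (ρ ^ 2) • R := by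
    rw [neg_sq, q1]
  have q4 : ((-(I * (ρ : ℂ))) ^ 2) • R = (-(ρ ^ 2)) • R := by
    rw [neg_sq, q2]
  simp only [mean4]
  rw [s1, s2, s3, s4, q1, q2, q3, q4]
  simp only [D2, levi, map_add, map_smul, smul_apply]
  module

/-- bounds for the first two derivatives along a compact set -/
theorem unif_bound {φ : X → W} {U S : Set X} (hU : IsOpen U) (hφ : ContDiffOn ℝ 2 φ U)
    (hS : IsCompact S) (hSU : S ⊆ U) :
    ∃ M : ℝ, 0 ≤ M ∧ ∀ p ∈ S, ‖fderiv ℝ φ p‖ ≤ M ∧ ‖fderiv ℝ (fderiv ℝ φ) p‖ ≤ M := by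
  have hc1 : ContinuousOn (fderiv ℝ φ) S := by
    intro a ha
    have h1 : ContDiffAt ℝ 2 φ a := hφ.contDiffAt (hU.mem_nhds (hSU ha))
    have h2 : ContDiffAt ℝ 1 (fderiv ℝ φ) a := h1.fderiv_right (by norm_num)
    exact h2.continuousAt.continuousWithinAt
  have hc2 : ContinuousOn (fderiv ℝ (fderiv ℝ φ)) S := by
    intro a ha
    have h1 : ContDiffAt ℝ 2 φ a := hφ.contDiffAt (hU.mem_nhds (hSU ha))
    have h2 : ContDiffAt ℝ 1 (fderiv ℝ φ) a := h1.fderiv_right (by norm_num)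
    have h3 : ContDiffAt ℝ 0 (fderiv ℝ (fderiv ℝ φ)) a := h2.fderiv_right (by norm_num)
    exact h3.continuousAt.continuousWithinAt
  obtain ⟨M1, h1⟩ := hS.exists_bound_of_continuousOn hc1
  obtain ⟨M2, h2⟩ := hS.exists_bound_of_continuousOn (f := fderiv ℝ (fderiv ℝ φ)) hc2
  refine ⟨max 0 (max M1 M2), le_max_left _ _, fun p hp => ⟨?_, ?_⟩⟩
  · exact (h1 p hp).trans ((le_max_left _ _).trans (le_max_right _ _))
  · exact (h2 p hp).trans ((le_max_right _ _).trans (le_max_right _ _))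

/-- pointwise comparison of `φ (p + w V + w² R + e)` with the quadratic model -/
theorem point_est {φ : E → W} {p : E} {δ ε M C ρ : ℝ} (hφ : ContDiffOn ℝ 2 φ (ball p δ))
    (hε : ∀ x ∈ ball p δ, ‖fderiv ℝ (fderiv ℝ φ) x - fderiv ℝ (fderiv ℝ φ) p‖ ≤ ε)
    (hM1 : ‖fderiv ℝ φ p‖ ≤ M) (hM2 : ‖fderiv ℝ (fderiv ℝ φ) p‖ ≤ M) (hC : 0 ≤ C)
    {w : ℂ} (hw : ‖w‖ = ρ) (hρ1 : ρ ≤ 1) (hρδ : 3 * C * ρ < δ) {V R x : E} (hV : ‖V‖ ≤ C)
    (hR : ‖R‖ ≤ C) (hx : ‖x - (p + w • V + w ^ 2 • R)‖ ≤ C * ρ ^ 3) :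
    ‖φ x - φ p - (fderiv ℝ φ p (w • V + w ^ 2 • R) + (1 / 2 : ℝ) • D2 φ p (w • V) (w • V))‖ ≤
      (9 * C ^ 2 * ε + (M * C + 4 * M * C ^ 2) * ρ) * ρ ^ 2 := by
  have hρ0 : 0 ≤ ρ := hw ▸ norm_nonneg w
  have hM : 0 ≤ M := le_trans (norm_nonneg (fderiv ℝ φ p)) hM1
  have hδ : 0 < δ := lt_of_le_of_lt (by positivity) hρδ
  have hε0 : 0 ≤ ε := by
    have h1 := hε p (mem_ball_self hδ)
    have h2 := norm_nonneg (fderiv ℝ (fderiv ℝ φ) p - fderiv ℝ (fderiv ℝ φ) p)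
    exact le_trans h2 h1
  set e : E := x - (p + w • V + w ^ 2 • R) with he
  set h : E := w • V + w ^ 2 • R + e with hh
  have hxh : x = p + h := by
    rw [hh, he]; abel
  have n1 : ‖w • V‖ ≤ C * ρ := by
    rw [norm_smul, hw, mul_comm]
    gcongr
  have n2 : ‖w ^ 2 • R‖ ≤ C * ρ ^ 2 := by
    rw [norm_smul, norm_pow, hw, mul_comm]
    gcongr
  have p2 : ρ ^ 2 ≤ ρ := by nlinarith
  have p3 : ρ ^ 3 ≤ ρ ^ 2 := by nlinarith [pow_nonneg hρ0 2]
  have n3 : ‖w ^ 2 • R + e‖ ≤ 2 * C * ρ ^ 2 := by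
    refine (norm_add_le _ _).trans ?_
    have : C * ρ ^ 3 ≤ C * ρ ^ 2 := by gcongr
    linarith
  have n4 : ‖h‖ ≤ 3 * C * ρ := by
    have e1 : h = w • V + (w ^ 2 • R + e) := by rw [hh]; abel
    rw [e1]
    refine (norm_add_le _ _).trans ?_
    have : C * ρ ^ 2 ≤ C * ρ := by gcongr
    linarith
  have ht := taylor2 hφ hε (h := h) (n4.trans_lt hρδ)
  have hsplit : φ x - φ p - (fderiv ℝ φ p (w • V + w ^ 2 • R) +
      (1 / 2 : ℝ) • D2 φ p (w • V) (w • V)) =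
      (φ (p + h) - φ p - fderiv ℝ φ p h - (1 / 2 : ℝ) • D2 φ p h h) + fderiv ℝ φ p e +
        (1 / 2 : ℝ) • (D2 φ p h (w ^ 2 • R + e) + D2 φ p (w ^ 2 • R + e) (w • V)) := by
    have e1 : h = w • V + (w ^ 2 • R + e) := by rw [hh]; abel
    rw [hxh, e1]
    simp only [D2, map_add, add_apply]
    module
  rw [hsplit]
  have b1 : ‖fderiv ℝ φ p e‖ ≤ M * (C * ρ ^ 3) :=
    ((fderiv ℝ φ p).le_opNorm e).trans (mul_le_mul hM1 hx (norm_nonneg _) hM)
  have b2 : ∀ a b : E, ‖D2 φ p a b‖ ≤ M * ‖a‖ * ‖b‖ := by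
    intro a b
    have h1 := (fderiv ℝ (fderiv ℝ φ) p).le_opNorm₂ a b
    refine h1.trans ?_
    gcongr
  have b3 : ‖D2 φ p h (w ^ 2 • R + e)‖ ≤ M * (3 * C * ρ) * (2 * C * ρ ^ 2) := by
    refine (b2 _ _).trans ?_
    gcongr
  have b4 : ‖D2 φ p (w ^ 2 • R + e) (w • V)‖ ≤ M * (2 * C * ρ ^ 2) * (C * ρ) := by
    refine (b2 _ _).trans ?_
    gcongr
  have b5 : ‖(1 / 2 : ℝ) • (D2 φ p h (w ^ 2 • R + e) + D2 φ p (w ^ 2 • R + e) (w • V))‖ ≤
      (1 / 2) * (M * (3 * C * ρ) * (2 * C * ρ ^ 2) + M * (2 * C * ρ ^ 2) * (C * ρ)) := by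
    rw [norm_smul]
    have : ‖(1 / 2 : ℝ)‖ = 1 / 2 := by norm_num
    rw [this]
    have := norm_add_le (D2 φ p h (w ^ 2 • R + e)) (D2 φ p (w ^ 2 • R + e) (w • V))
    linarith
  have b6 : ε * ‖h‖ ^ 2 ≤ ε * (3 * C * ρ) ^ 2 := by gcongr
  refine (norm_add_le _ _).trans ?_
  refine (add_le_add (norm_add_le _ _) le_rfl).trans ?_
  calc _ ≤ ε * (3 * C * ρ) ^ 2 + M * (C * ρ ^ 3) +
      (1 / 2) * (M * (3 * C * ρ) * (2 * C * ρ ^ 2) + M * (2 * C * ρ ^ 2) * (C * ρ)) :=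
        add_le_add (add_le_add (ht.trans b6) b1) b5
    _ = _ := by ring

/-- **uniform mean value expansion** -/
theorem mean4_expand {K : Type*} {U S : Set E} (hU : IsOpen U) {φ : E → W}
    (hφ : ContDiffOn ℝ 2 φ U) (hS : IsCompact S) (hSU : S ⊆ U) {F : ℂ → K → E} {H V R : K → E}
    {C r : ℝ} (hC : 0 ≤ C) (hr : 0 < r) (hH : ∀ z, H z ∈ S) (hV : ∀ z, ‖V z‖ ≤ C)
    (hR : ∀ z, ‖R z‖ ≤ C)
    (hF : ∀ w, ‖w‖ < r → ∀ z, ‖F w z - (H z + w • V z + w ^ 2 • R z)‖ ≤ C * ‖w‖ ^ 3)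
    {ε : ℝ} (hε : 0 < ε) :
    ∃ δ > 0, ∀ ρ, 0 < ρ → ρ < δ → ∀ z,
      ‖mean4 (fun w => φ (F w z)) ρ - φ (H z) - (ρ ^ 2) • levi φ (H z) (V z)‖ ≤ ε * ρ ^ 2 := by
  obtain ⟨M, hM, hM'⟩ := unif_bound hU hφ hS hSU
  set ε1 : ℝ := ε / (2 * (9 * C ^ 2 + 1)) with hε1
  have hε1p : 0 < ε1 := by positivity
  obtain ⟨δ1, hδ1, hmod⟩ := unif_mod hU hφ hS hSU hε1p
  set B : ℝ := M * C + 4 * M * C ^ 2 with hB
  have hB0 : 0 ≤ B := by positivity
  refine ⟨min (min r 1) (min (δ1 / (3 * C + 1)) (ε / (2 * (B + 1)))), by positivity, ?_⟩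
  intro ρ hρ hρδ z
  have h1 : ρ < r := hρδ.trans_le ((min_le_left _ _).trans (min_le_left _ _))
  have h2 : ρ < 1 := hρδ.trans_le ((min_le_left _ _).trans (min_le_right _ _))
  have h3 : ρ < δ1 / (3 * C + 1) := hρδ.trans_le ((min_le_right _ _).trans (min_le_left _ _))
  have h4 : ρ < ε / (2 * (B + 1)) := hρδ.trans_le ((min_le_right _ _).trans (min_le_right _ _))
  have h3' : 3 * C * ρ < δ1 := by
    rw [lt_div_iff₀ (by positivity)] at h3
    nlinarith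
  have h4' : B * ρ ≤ ε / 2 := by
    rw [lt_div_iff₀ (by positivity)] at h4
    nlinarith
  have h5 : 9 * C ^ 2 * ε1 ≤ ε / 2 := by
    rw [hε1, mul_div_assoc', div_le_div_iff₀ (by positivity) (by norm_num)]
    nlinarith [mul_pos hε (show (0 : ℝ) < 2 by norm_num)]
  have hdiff : mean4 (fun w => φ (F w z)) ρ - φ (H z) - (ρ ^ 2) • levi φ (H z) (V z) =
      mean4 (fun w => φ (F w z) - φ (H z) - (fderiv ℝ φ (H z) (w • V z + w ^ 2 • R z) +
        (1 / 2 : ℝ) • D2 φ (H z) (w • V z) (w • V z))) ρ := by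
    rw [mean4_sub (fun w => φ (F w z) - φ (H z)), mean4_sub (fun w => φ (F w z)), mean4_const,
      mean4_model]
  rw [hdiff]
  apply norm_mean4_le
  intro w hw
  have hw' : ‖w‖ = ρ := by rw [hw, abs_of_pos hρ]
  have hball := (hmod (H z) (hH z)).1
  have := point_est (hφ.mono hball) (hmod (H z) (hH z)).2 (hM' _ (hH z)).1 (hM' _ (hH z)).2 hC hw'
    h2.le h3' (hV z) (hR z) (by
      have := hF w (by rw [hw']; exact h1) z
      rwa [hw'] at this)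
  refine this.trans ?_
  have : 9 * C ^ 2 * ε1 + B * ρ ≤ ε := by linarith
  gcongr

end

end Crest.Agent.R269.Levi2_599
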