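import Mathlib
import Crest.Agent.R269.Defs_58
import Crest.Agent.R269.DefsS_731
import Crest.Agent.R269.Levi2_599

/-!
# R269 (S0411), Line B: interior functionals and their second variation (helper731)

Definitions only.  `mean4` is 599's mean over the four points `ρ, iρ, -ρ, -iρ`.
-/

set_option autoImplicit false

open MvPolynomial Crest.AlgGeometry.ProjEmb Crest.Agent.R269.Geo_328 Metric Set Filter
open Crest.Agent.R269.Defs_58 Crest.Agent.R269.DefsS_731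
open scoped ContDiff Topology ComplexConjugate

noncomputable section

namespace Crest.Agent.R269.Iface_731

variable {N n : ℕ}

/-- another lift of the same disc -/
def tw (φ : ℂ → ℂ) (H : ℂ → EE N) : ℂ → EE N := fun z => Complex.exp (φ z) • H z

/-- centre condition `[H 0] = [p]` -/
def Ctr (p : EE N) (H : ℂ → EE N) : Prop := ∃ c : ℂ, c ≠ 0 ∧ H 0 = c • p

/-- `G τ`, `|τ| < ρ`, is a holomorphic family of discs in the cone with `G 0 = H`, fixed centre `G τ 0 = H 0` and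
velocity `z W(z)` at `τ = 0` -/
structure VarFam (I : Ideal (HomCoordRing N)) (H W : ℂ → EE N) (ρ : ℝ) (G : ℂ → ℂ → EE N) : Prop where
  pos : 0 < ρ
  hol : DifferentiableOn ℂ (fun p : ℂ × ℂ => G p.1 p.2) (ball 0 ρ ×ˢ ball 0 1)
  cone : ∀ τ ∈ ball (0 : ℂ) ρ, ∀ z ∈ ball (0 : ℂ) 1, G τ z ∈ Cone I
  zero : ∀ z ∈ ball (0 : ℂ) 1, G 0 z = H z
  ctr : ∀ τ ∈ ball (0 : ℂ) ρ, G τ 0 = H 0
  vel : ∀ z ∈ ball (0 : ℂ) 1, deriv (fun τ => G τ z) 0 = z • W z

/-- `F` is an interior functional of the disc `[H]`; `L H W` is its second variation in the direction `z W(z)` -/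
structure IFun (I : Ideal (HomCoordRing N)) (F : (ℂ → EE N) → ℝ)
    (L : (ℂ → EE N) → (ℂ → EE N) → ℝ) : Prop where
  inv : ∀ H φ, IsDisc I H → DifferentiableOn ℂ φ (ball 0 1) → F (tw φ H) = F H
  cont : ∀ (u : Ultrafilter ℕ) (Hm : ℕ → ℂ → EE N) (H : ℂ → EE N), (∀ m, IsDisc I (Hm m)) →
    IsDisc I H → TendstoLocallyUniformlyOn Hm H u (ball 0 1) →
    Tendsto (fun m => F (Hm m)) u (𝓝 (F H))
  bdd : ∃ B : ℝ, ∀ H, IsDisc I H → |F H| ≤ B
  var : ∀ H W ρ G, IsDisc I H → VarFam I H W ρ G →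
    Tendsto (fun r : ℝ => (Levi2_599.mean4 (fun τ => F (G τ)) r - F H) / r ^ 2) (𝓝[>] 0) (𝓝 (L H W))
  cts : ∀ H, IsDisc I H → ∀ (Wk : ℕ → ℂ → EE N) (W : ℂ → EE N),
    (∀ k, ∀ z ∈ ball (0 : ℂ) 1, Wk k z ∈ Tan I (H z)) → (∀ z ∈ ball (0 : ℂ) 1, W z ∈ Tan I (H z)) →
    (∀ k, ContinuousOn (fun z => wdg (Wk k z) (H z)) (ball 0 1)) →
    ContinuousOn (fun z => wdg (W z) (H z)) (ball 0 1) →
    TendstoLocallyUniformlyOn (fun k z => wdg (Wk k z) (H z)) (fun z => wdg (W z) (H z)) atTop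
      (ball 0 1) → Tendsto (fun k => L H (Wk k)) atTop (𝓝 (L H W))

/-- the vector `V`, orthogonal to `p`, with `wdg V p = v` -/
def unw (p : EE N) (v : VV N) : EE N := fun i => (∑ j, v i j * conj (p j)) / (nsq p : ℂ)

/-- the density `cθ α + cω ω + dd^c u` -/
def dens (I : Ideal (HomCoordRing N)) (n : ℕ) (cθ cω : ℝ) (u : EE N → ℝ) (p v : EE N) : ℝ :=
  cθ * alpha I n p v + cω * omg p v + lev u p v

/-- `cθ α + cω ω + dd^c u ≥ ω` -/
def GeO (I : Ideal (HomCoordRing N)) (n : ℕ) (cθ cω : ℝ) (u : EE N → ℝ) : Prop :=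
  ∀ p ∈ Cone I, ∀ v ∈ Tan I p, omg p v ≤ dens I n cθ cω u p v

/-- `f` is a normalised maximiser of `F - T_E(1)`, `E = cθ α + cω ω + dd^c u`, among the discs with centre `p₀` -/
structure IsMax (I : Ideal (HomCoordRing N)) (n : ℕ) (F : (ℂ → EE N) → ℝ) (cθ cω : ℝ)
    (u : EE N → ℝ) (p₀ : EE N) (H : ℂ → EE N) : Prop where
  disc : IsDisc I H
  fin : FinE omg H
  normal : Normal H
  ctr : Ctr p₀ H
  max : ∀ G, IsDisc I G → FinE omg G → Ctr p₀ G →
    F G - TE (dens I n cθ cω u) G 1 ≤ F H - TE (dens I n cθ cω u) H 1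

end Crest.Agent.R269.Iface_731
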