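import Crest.Agent.R269.GeoT_328

/-! # R269, leaf GEO: calculus of polynomials on the ambient space (helper328) -/

set_option autoImplicit false

open MvPolynomial Crest.AlgGeometry.ProjEmb
open scoped ContDiff Topology ComplexConjugate

namespace Crest.Agent.R269.Geo_328

noncomputable section

variable {N n : ℕ} {I : Ideal (HomCoordRing N)}

/-- the differential of a polynomial as a continuous linear form -/
def dPL (F : HomCoordRing N) (p : EE N) : EE N →L[ℂ] ℂ :=
  ∑ j, (MvPolynomial.eval p (MvPolynomial.pderiv j F)) • ContinuousLinearMap.proj (R := ℂ)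
    (φ := fun _ : Fin (N + 1) => ℂ) j

@[simp] theorem dPL_apply (F : HomCoordRing N) (p v : EE N) : dPL F p v = dP F p v := by
  simp [dPL, dP_eq]

theorem hasStrictFDerivAt_eval (F : HomCoordRing N) (p : EE N) :
    HasStrictFDerivAt (fun q : EE N => MvPolynomial.eval q F) (dPL F p) p := by
  induction F using MvPolynomial.induction_on with
  | C a =>
    have : dPL (C a : HomCoordRing N) p = 0 := by
      ext v; simp [dP_eq]
    rw [this]
    simpa using hasStrictFDerivAt_const (𝕜 := ℂ) a p
  | add F G hF hG =>
    have : dPL (F + G) p = dPL F p + dPL G p := by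
      ext v; simp [dP_eq, add_mul, Finset.sum_add_distrib]
    rw [this]
    simp only [map_add]
    exact hF.add hG
  | mul_X F i hF =>
    have h1 : HasStrictFDerivAt (fun q : EE N => q i)
        (ContinuousLinearMap.proj (R := ℂ) (φ := fun _ : Fin (N + 1) => ℂ) i) p :=
      (ContinuousLinearMap.proj (R := ℂ) (φ := fun _ : Fin (N + 1) => ℂ) i).hasStrictFDerivAt
    have h2 := hF.mul h1
    have : dPL (F * X i) p = MvPolynomial.eval p F •
        ContinuousLinearMap.proj (R := ℂ) (φ := fun _ : Fin (N + 1) => ℂ) i +
        p i • dPL F p := by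
      apply ContinuousLinearMap.ext
      intro v
      simp only [dPL_apply, dP_eq, add_apply, smul_apply,
        ContinuousLinearMap.proj_apply, smul_eq_mul]
      have : ∀ j, MvPolynomial.eval p (pderiv j (F * X i)) * v j =
          MvPolynomial.eval p F * ((if i = j then 1 else 0) * v j) +
          p i * (MvPolynomial.eval p (pderiv j F) * v j) := by
        intro j
        rw [pderiv_mul]
        by_cases hij : i = j
        · subst hij
          simp; ring
        · rw [pderiv_X_of_ne hij]
          simp [hij]; ring
      rw [Finset.sum_congr rfl fun j _ => this j, Finset.sum_add_distrib, ← Finset.mul_sum,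
        ← Finset.mul_sum]
      simp
    rw [this]
    simp only [map_mul, eval_X]
    exact h2

theorem hasFDerivAt_eval (F : HomCoordRing N) (p : EE N) :
    HasFDerivAt (fun q : EE N => MvPolynomial.eval q F) (dPL F p) p :=
  (hasStrictFDerivAt_eval F p).hasFDerivAt

theorem analyticAt_eval (F : HomCoordRing N) (p : EE N) :
    AnalyticAt ℂ (fun q : EE N => MvPolynomial.eval q F) p := by
  have h := AnalyticAt.aeval_mvPolynomial (𝕜 := ℂ) (A := ℂ) (B := ℂ) (f := fun q : EE N => q)
    (z := p) (fun i => (ContinuousLinearMap.proj (R := ℂ) (φ := fun _ : Fin (N + 1) => ℂ) i).analyticAt p) F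
  exact h

theorem contDiff_eval (F : HomCoordRing N) {m : WithTop ℕ∞} :
    ContDiff ℂ m (fun q : EE N => MvPolynomial.eval q F) :=
  contDiff_iff_contDiffAt.2 fun p => (analyticAt_eval F p).contDiffAt

theorem continuous_eval (F : HomCoordRing N) :
    Continuous (fun q : EE N => MvPolynomial.eval q F) := (contDiff_eval F (m := 0)).continuous

end

end Crest.Agent.R269.Geo_328
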