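import Crest.Agent.R269.Green_740
import Crest.Agent.R269.DefsS_731
import Crest.Agent.R269.GeoP_328
import Crest.Agent.R269.Defs_58

/-!
# R269 (S0411), B5: calculus of the characteristics `TE E H s` (helper499)

`TE E H s = TG (z ↦ E (H z) (H' z)) s` (DefsS_731), for densities `E p v` which are continuous on
the tangent bundle of the cone (`CDens I E`).

* `TE_add`, `TE_const_mul`, `TE_sub`, `TE_sum`;
* `abs_TE_sub_le` : `|E| ≤ C ω ⇒ |T_E(s) - T_E(r)| ≤ C (T_ω(s) - T_ω(r))`, `r ≤ s < 1`;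
* `TE1 E H = lim_{s → 1} T_E(s)`, existence `tendsto_TE1`, additivity, `abs_TE1_sub_le`;
* `jensen_cav` : `cav ψ H s - ψ (H 0) = T_{lev ψ}(s)`; `bav ψ H = lim_{s→1} cav ψ H s`;
* `abs_bav_sub_cav_le` : `|bav ψ H - cav ψ H r| ≤ C e_r`, `e_r = TE1 ω H - TE ω H r`;
* `Normal` lifts: `TE1 omg H = - log nsq (H 0)`, `e_r = - cav (log nsq) H r`.
-/

set_option autoImplicit false

open Set Filter Topology Metric Real
open MvPolynomial Crest.AlgGeometry.ProjEmb Crest.Agent.R269.Geo_328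
open Crest.Agent.R269.DefsS_731 Crest.Agent.R269.LevC_653
open scoped ContDiff ComplexConjugate

noncomputable section

namespace Crest.Agent.R269.TE_499

variable {N : ℕ} {I : Ideal (HomCoordRing N)}

theorem TG_eq (q : ℂ → ℝ) (s : ℝ) : DefsS_731.TG q s = Green_740.TG q s := rfl

/-- the tangent bundle of the cone -/
def TB (I : Ideal (HomCoordRing N)) : Set (EE N × EE N) := {q | q.1 ∈ Cone I ∧ q.2 ∈ Tan I q.1}

/-- densities which are continuous on the tangent bundle of the cone -/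
def CDens (I : Ideal (HomCoordRing N)) (E : EE N → EE N → ℝ) : Prop :=
  ContinuousOn (fun q : EE N × EE N => E q.1 q.2) (TB I)

theorem CDens.add {E E' : EE N → EE N → ℝ} (h : CDens I E) (h' : CDens I E') :
    CDens I (fun p v => E p v + E' p v) := ContinuousOn.add h h'

theorem CDens.sub {E E' : EE N → EE N → ℝ} (h : CDens I E) (h' : CDens I E') :
    CDens I (fun p v => E p v - E' p v) := ContinuousOn.sub h h'

theorem CDens.neg {E : EE N → EE N → ℝ} (h : CDens I E) :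
    CDens I (fun p v => -E p v) := ContinuousOn.neg h

theorem CDens.const_mul {E : EE N → EE N → ℝ} (c : ℝ) (h : CDens I E) :
    CDens I (fun p v => c * E p v) := continuousOn_const.mul h

/-! ### discs -/

section disc

variable {H : ℂ → EE N}

theorem disc_differentiableAt (hH : IsDisc I H) {z : ℂ} (hz : z ∈ ball (0 : ℂ) 1) :
    DifferentiableAt ℂ H z := hH.hol.differentiableAt (isOpen_ball.mem_nhds hz)

theorem disc_analyticAt (hH : IsDisc I H) {z : ℂ} (hz : z ∈ ball (0 : ℂ) 1) :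
    AnalyticAt ℂ H z := hH.hol.analyticAt (isOpen_ball.mem_nhds hz)

theorem disc_continuousOn (hH : IsDisc I H) : ContinuousOn H (ball 0 1) := hH.hol.continuousOn

theorem disc_continuousOn_deriv (hH : IsDisc I H) : ContinuousOn (deriv H) (ball 0 1) :=
  (hH.hol.deriv isOpen_ball).continuousOn

theorem disc_deriv_mem_Tan (hH : IsDisc I H) {z : ℂ} (hz : z ∈ ball (0 : ℂ) 1) :
    deriv H z ∈ Tan I (H z) := by
  intro F hF
  have h1 : HasDerivAt (fun w => MvPolynomial.eval (H w) F) (dPL F (H z) (deriv H z)) z :=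
    (hasFDerivAt_eval F (H z)).comp_hasDerivAt z (disc_differentiableAt hH hz).hasDerivAt
  have h2 : (fun w => MvPolynomial.eval (H w) F) =ᶠ[𝓝 z] fun _ => 0 := by
    filter_upwards [isOpen_ball.mem_nhds hz] with w hw
    exact (hH.cone w hw).1 F hF
  have h3 : HasDerivAt (fun w => MvPolynomial.eval (H w) F) 0 z :=
    (hasDerivAt_const z (0 : ℂ)).congr_of_eventuallyEq h2
  have := h1.unique h3
  rwa [dPL_apply] at this

theorem disc_mem_TB (hH : IsDisc I H) {z : ℂ} (hz : z ∈ ball (0 : ℂ) 1) :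
    (H z, deriv H z) ∈ TB I := ⟨hH.cone z hz, disc_deriv_mem_Tan hH hz⟩

theorem CDens.continuousOn {E : EE N → EE N → ℝ} (hE : CDens I E) (hH : IsDisc I H) :
    ContinuousOn (fun z => E (H z) (deriv H z)) (ball 0 1) :=
  ContinuousOn.comp (g := fun q : EE N × EE N => E q.1 q.2) (f := fun z => (H z, deriv H z))
    hE ((disc_continuousOn hH).prodMk (disc_continuousOn_deriv hH)) (fun _ hz => disc_mem_TB hH hz)

theorem CDens.continuousOn' {E : EE N → EE N → ℝ} (hE : CDens I E) (hH : IsDisc I H) {s : ℝ}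
    (hs : s < 1) : ContinuousOn (fun z => E (H z) (deriv H z)) (closedBall 0 s) :=
  (hE.continuousOn hH).mono (closedBall_subset_ball hs)

/-! ### the characteristic -/

variable {E E' om : EE N → EE N → ℝ}

theorem TE_zero (E : EE N → EE N → ℝ) (H : ℂ → EE N) : TE E H 0 = 0 := Green_740.TG_zero _

theorem TE_add (hE : CDens I E) (hE' : CDens I E') (hH : IsDisc I H) {s : ℝ} (h0 : 0 ≤ s)
    (h1 : s < 1) : TE (fun p v => E p v + E' p v) H s = TE E H s + TE E' H s :=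
  Green_740.TG_add h0 (hE.continuousOn' hH h1) (hE'.continuousOn' hH h1)

theorem TE_sub (hE : CDens I E) (hE' : CDens I E') (hH : IsDisc I H) {s : ℝ} (h0 : 0 ≤ s)
    (h1 : s < 1) : TE (fun p v => E p v - E' p v) H s = TE E H s - TE E' H s :=
  Green_740.TG_sub h0 (hE.continuousOn' hH h1) (hE'.continuousOn' hH h1)

theorem TE_const_mul (c : ℝ) (E : EE N → EE N → ℝ) (H : ℂ → EE N) (s : ℝ) :
    TE (fun p v => c * E p v) H s = c * TE E H s := Green_740.TG_const_mul c _ s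

theorem TE_neg (E : EE N → EE N → ℝ) (H : ℂ → EE N) (s : ℝ) :
    TE (fun p v => -E p v) H s = -TE E H s := Green_740.TG_neg _ s

theorem TE_congr (hH : IsDisc I H) {s : ℝ} (h0 : 0 ≤ s) (h1 : s < 1)
    (h : ∀ p ∈ Cone I, ∀ v ∈ Tan I p, E p v = E' p v) : TE E H s = TE E' H s :=
  Green_740.TG_congr h0 fun z hz =>
    h _ (hH.cone z (closedBall_subset_ball h1 hz)) _
      (disc_deriv_mem_Tan hH (closedBall_subset_ball h1 hz))

theorem TE_le (hE : CDens I E) (hE' : CDens I E') (hH : IsDisc I H) {s : ℝ} (h0 : 0 ≤ s)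
    (h1 : s < 1) (h : ∀ p ∈ Cone I, ∀ v ∈ Tan I p, E p v ≤ E' p v) : TE E H s ≤ TE E' H s :=
  Green_740.TG_mono h0 (hE.continuousOn' hH h1) (hE'.continuousOn' hH h1) fun z hz =>
    h _ (hH.cone z (closedBall_subset_ball h1 hz)) _
      (disc_deriv_mem_Tan hH (closedBall_subset_ball h1 hz))

theorem TE_nonneg (hE : CDens I E) (hH : IsDisc I H) {s : ℝ} (h0 : 0 ≤ s) (h1 : s < 1)
    (h : ∀ p ∈ Cone I, ∀ v ∈ Tan I p, 0 ≤ E p v) : 0 ≤ TE E H s :=
  Green_740.TG_nonneg h0 (hE.continuousOn' hH h1) fun z hz =>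
    h _ (hH.cone z (closedBall_subset_ball h1 hz)) _
      (disc_deriv_mem_Tan hH (closedBall_subset_ball h1 hz))

theorem TE_mono_radius (hE : CDens I E) (hH : IsDisc I H) {r s : ℝ} (h0 : 0 ≤ r) (hrs : r ≤ s)
    (h1 : s < 1) (h : ∀ p ∈ Cone I, ∀ v ∈ Tan I p, 0 ≤ E p v) : TE E H r ≤ TE E H s :=
  Green_740.TG_mono_radius h0 hrs (hE.continuousOn' hH h1) fun z hz =>
    h _ (hH.cone z (closedBall_subset_ball h1 hz)) _
      (disc_deriv_mem_Tan hH (closedBall_subset_ball h1 hz))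

/-- **(T1)** -/
theorem abs_TE_sub_le (hE : CDens I E) (ho : CDens I om) {C : ℝ}
    (hC : ∀ p ∈ Cone I, ∀ v ∈ Tan I p, |E p v| ≤ C * om p v) (hH : IsDisc I H) {r s : ℝ}
    (h0 : 0 ≤ r) (hrs : r ≤ s) (h1 : s < 1) :
    |TE E H s - TE E H r| ≤ C * (TE om H s - TE om H r) := by
  have hs0 : 0 ≤ s := h0.trans hrs
  have hr1 : r < 1 := hrs.trans_lt h1
  have hCo : CDens I (fun p v => C * om p v) := ho.const_mul C
  have e1 := TE_mono_radius (hCo.add hE) hH h0 hrs h1 (fun p hp v hv => by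
    have := (abs_le.1 (hC p hp v hv)).1; linarith)
  have e2 := TE_mono_radius (hCo.sub hE) hH h0 hrs h1 (fun p hp v hv => by
    have := (abs_le.1 (hC p hp v hv)).2; linarith)
  rw [TE_add hCo hE hH h0 hr1, TE_add hCo hE hH hs0 h1, TE_const_mul, TE_const_mul] at e1
  rw [TE_sub hCo hE hH h0 hr1, TE_sub hCo hE hH hs0 h1, TE_const_mul, TE_const_mul] at e2
  rw [abs_le]
  constructor <;> nlinarith

theorem abs_TE_le (hE : CDens I E) (ho : CDens I om) {C : ℝ}
    (hC : ∀ p ∈ Cone I, ∀ v ∈ Tan I p, |E p v| ≤ C * om p v) (hH : IsDisc I H) {s : ℝ}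
    (h0 : 0 ≤ s) (h1 : s < 1) : |TE E H s| ≤ C * TE om H s := by
  have := abs_TE_sub_le hE ho hC hH le_rfl h0 h1
  simpa [TE_zero] using this

/-! ### the limit at `1` -/

/-- `T_E(H; 1) = lim_{s → 1} T_E(H; s)` -/
def TE1 (E : EE N → EE N → ℝ) (H : ℂ → EE N) : ℝ := limUnder (𝓝[<] (1 : ℝ)) (fun s => TE E H s)

theorem mem_Ioo_nhdsLT {a : ℝ} (ha : a < 1) : Ioo a 1 ∈ 𝓝[<] (1 : ℝ) := Ioo_mem_nhdsLT ha

/-- monotone bounded functions on `(0,1)` converge at `1` -/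
theorem exists_tendsto_of_mono {f : ℝ → ℝ} {B : ℝ}
    (hm : ∀ r s, 0 < r → r ≤ s → s < 1 → f r ≤ f s) (hB : ∀ s ∈ Ioo (0 : ℝ) 1, f s ≤ B) :
    ∃ l, Tendsto f (𝓝[<] 1) (𝓝 l) ∧ ∀ s ∈ Ioo (0 : ℝ) 1, f s ≤ l := by
  have hbdd : BddAbove (f '' Ioo (0 : ℝ) 1) := ⟨B, by rintro _ ⟨s, hs, rfl⟩; exact hB s hs⟩
  have hne : (f '' Ioo (0 : ℝ) 1).Nonempty := ⟨_, 1 / 2, by norm_num, rfl⟩
  refine ⟨sSup (f '' Ioo (0 : ℝ) 1), ?_, fun s hs => le_csSup hbdd ⟨s, hs, rfl⟩⟩
  rw [tendsto_order]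
  constructor
  · intro a ha
    obtain ⟨_, ⟨r, hr, rfl⟩, hra⟩ := exists_lt_of_lt_csSup hne ha
    filter_upwards [mem_Ioo_nhdsLT hr.2] with s hs
    exact hra.trans_le (hm r s hr.1 hs.1.le hs.2)
  · intro a ha
    filter_upwards [mem_Ioo_nhdsLT (zero_lt_one)] with s hs
    exact (le_csSup hbdd ⟨s, hs, rfl⟩).trans_lt ha

theorem exists_lim_om (ho : CDens I om) (h0 : ∀ p ∈ Cone I, ∀ v ∈ Tan I p, 0 ≤ om p v)
    (hH : IsDisc I H) (hf : FinE om H) :
    ∃ l, Tendsto (fun s => TE om H s) (𝓝[<] 1) (𝓝 l) ∧ ∀ s ∈ Ioo (0 : ℝ) 1, TE om H s ≤ l := by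
  obtain ⟨B, hB⟩ := hf
  exact exists_tendsto_of_mono (fun r s hr hrs hs => TE_mono_radius ho hH hr.le hrs hs h0) hB

/-- **(T2)** the limit exists for every density dominated by `ω` -/
theorem exists_lim (hE : CDens I E) (ho : CDens I om) {C : ℝ}
    (hC : ∀ p ∈ Cone I, ∀ v ∈ Tan I p, |E p v| ≤ C * om p v)
    (h0 : ∀ p ∈ Cone I, ∀ v ∈ Tan I p, 0 ≤ om p v) (hH : IsDisc I H) (hf : FinE om H) :
    ∃ l, Tendsto (fun s => TE E H s) (𝓝[<] 1) (𝓝 l) := by
  obtain ⟨l, hl, -⟩ := exists_lim_om ho h0 hH hf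
  -- enlarge `C` so that `C ≥ 0`
  set C' : ℝ := |C| with hC'
  have hCb : ∀ p ∈ Cone I, ∀ v ∈ Tan I p, |E p v| ≤ C' * om p v := fun p hp v hv =>
    (hC p hp v hv).trans (mul_le_mul_of_nonneg_right (le_abs_self C) (h0 p hp v hv))
  have hCo : CDens I (fun p v => C' * om p v) := ho.const_mul C'
  have hs : CDens I (fun p v => C' * om p v + E p v) := hCo.add hE
  have hpos : ∀ p ∈ Cone I, ∀ v ∈ Tan I p, 0 ≤ C' * om p v + E p v := fun p hp v hv => by
    have := (abs_le.1 (hCb p hp v hv)).1; linarith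
  obtain ⟨B, hB⟩ := hf
  obtain ⟨l', hl', -⟩ := exists_tendsto_of_mono (f := fun s => TE (fun p v => C' * om p v + E p v) H s)
    (B := 2 * (C' * |B|))
    (fun r s hr hrs hs1 => TE_mono_radius hs hH hr.le hrs hs1 hpos) (fun s hs1 => by
      have e1 := abs_TE_le hE ho hCb hH hs1.1.le hs1.2
      have e2 := (abs_le.1 e1).2
      have e3 : TE om H s ≤ |B| := (hB s hs1).trans (le_abs_self B)
      show TE (fun p v => C' * om p v + E p v) H s ≤ _
      rw [TE_add hCo hE hH hs1.1.le hs1.2, TE_const_mul]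
      have e4 : C' * TE om H s ≤ C' * |B| := mul_le_mul_of_nonneg_left e3 (abs_nonneg C)
      linarith)
  refine ⟨l' - C' * l, ?_⟩
  have h3 := hl'.sub (hl.const_mul C')
  refine h3.congr' ?_
  filter_upwards [mem_Ioo_nhdsLT (zero_lt_one)] with s hs1
  show TE (fun p v => C' * om p v + E p v) H s - C' * TE om H s = TE E H s
  rw [TE_add hCo hE hH hs1.1.le hs1.2, TE_const_mul]
  ring

end disc

/-! ### a package: dominated densities -/

/-- the standing hypotheses on the reference density `ω` -/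
structure Ref (I : Ideal (HomCoordRing N)) (om : EE N → EE N → ℝ) : Prop where
  cont : CDens I om
  nonneg : ∀ p ∈ Cone I, ∀ v ∈ Tan I p, 0 ≤ om p v

/-- `E` is continuous and dominated by `ω`: `|E| ≤ C ω` -/
structure Dom (I : Ideal (HomCoordRing N)) (om E : EE N → EE N → ℝ) (C : ℝ) : Prop where
  cont : CDens I E
  bd : ∀ p ∈ Cone I, ∀ v ∈ Tan I p, |E p v| ≤ C * om p v

section package

variable {om E E' : EE N → EE N → ℝ} {C C' : ℝ} {H : ℂ → EE N}

theorem Ref.dom (ho : Ref I om) : Dom I om om 1 :=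
  ⟨ho.cont, fun p hp v hv => by rw [abs_of_nonneg (ho.nonneg p hp v hv), one_mul]⟩

theorem Dom.add (h : Dom I om E C) (h' : Dom I om E' C') :
    Dom I om (fun p v => E p v + E' p v) (C + C') :=
  ⟨h.cont.add h'.cont, fun p hp v hv => (abs_add_le _ _).trans (by
    have := h.bd p hp v hv; have := h'.bd p hp v hv; linarith)⟩

theorem Dom.neg (h : Dom I om E C) : Dom I om (fun p v => -E p v) C :=
  ⟨h.cont.neg, fun p hp v hv => by rw [abs_neg]; exact h.bd p hp v hv⟩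

theorem Dom.sub (h : Dom I om E C) (h' : Dom I om E' C') :
    Dom I om (fun p v => E p v - E' p v) (C + C') :=
  ⟨h.cont.sub h'.cont, fun p hp v hv => (abs_sub _ _).trans (by
    have := h.bd p hp v hv; have := h'.bd p hp v hv; linarith)⟩

theorem Dom.const_mul (c : ℝ) (h : Dom I om E C) : Dom I om (fun p v => c * E p v) (|c| * C) :=
  ⟨h.cont.const_mul c, fun p hp v hv => by
    rw [abs_mul, mul_assoc]; exact mul_le_mul_of_nonneg_left (h.bd p hp v hv) (abs_nonneg c)⟩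

theorem Dom.mono (ho : Ref I om) (h : Dom I om E C) (hC : C ≤ C') : Dom I om E C' :=
  ⟨h.cont, fun p hp v hv => (h.bd p hp v hv).trans
    (mul_le_mul_of_nonneg_right hC (ho.nonneg p hp v hv))⟩

/-- convergence to `TE1` -/
theorem tendsto_TE1 (ho : Ref I om) (h : Dom I om E C) (hH : IsDisc I H) (hf : FinE om H) :
    Tendsto (fun s => TE E H s) (𝓝[<] 1) (𝓝 (TE1 E H)) := by
  obtain ⟨l, hl⟩ := exists_lim h.cont ho.cont h.bd ho.nonneg hH hf
  have : TE1 E H = l := hl.limUnder_eq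
  rwa [this]

theorem TE1_unique {l : ℝ} (hl : Tendsto (fun s => TE E H s) (𝓝[<] 1) (𝓝 l)) : TE1 E H = l :=
  hl.limUnder_eq

theorem TE_le_TE1 (ho : Ref I om) (hH : IsDisc I H) (hf : FinE om H) {s : ℝ} (h0 : 0 ≤ s)
    (h1 : s < 1) : TE om H s ≤ TE1 om H := by
  refine ge_of_tendsto (tendsto_TE1 ho ho.dom hH hf) ?_
  filter_upwards [mem_Ioo_nhdsLT h1] with t ht
  exact TE_mono_radius ho.cont hH h0 ht.1.le ht.2 ho.nonneg

theorem TE1_nonneg (ho : Ref I om) (hH : IsDisc I H) (hf : FinE om H) : 0 ≤ TE1 om H := by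
  have := TE_le_TE1 ho hH hf le_rfl one_pos
  rwa [TE_zero] at this

theorem TE1_add (ho : Ref I om) (h : Dom I om E C) (h' : Dom I om E' C') (hH : IsDisc I H)
    (hf : FinE om H) : TE1 (fun p v => E p v + E' p v) H = TE1 E H + TE1 E' H := by
  apply TE1_unique
  refine ((tendsto_TE1 ho h hH hf).add (tendsto_TE1 ho h' hH hf)).congr' ?_
  filter_upwards [mem_Ioo_nhdsLT (zero_lt_one)] with s hs
  exact (TE_add h.cont h'.cont hH hs.1.le hs.2).symm

theorem TE1_sub (ho : Ref I om) (h : Dom I om E C) (h' : Dom I om E' C') (hH : IsDisc I H)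
    (hf : FinE om H) : TE1 (fun p v => E p v - E' p v) H = TE1 E H - TE1 E' H := by
  apply TE1_unique
  refine ((tendsto_TE1 ho h hH hf).sub (tendsto_TE1 ho h' hH hf)).congr' ?_
  filter_upwards [mem_Ioo_nhdsLT (zero_lt_one)] with s hs
  exact (TE_sub h.cont h'.cont hH hs.1.le hs.2).symm

theorem TE1_const_mul (ho : Ref I om) (h : Dom I om E C) (c : ℝ) (hH : IsDisc I H)
    (hf : FinE om H) : TE1 (fun p v => c * E p v) H = c * TE1 E H := by
  apply TE1_unique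
  refine ((tendsto_TE1 ho h hH hf).const_mul c).congr fun s => ?_
  exact (TE_const_mul c E H s).symm

theorem TE1_neg (ho : Ref I om) (h : Dom I om E C) (hH : IsDisc I H)
    (hf : FinE om H) : TE1 (fun p v => -E p v) H = -TE1 E H := by
  apply TE1_unique
  refine ((tendsto_TE1 ho h hH hf).neg).congr fun s => ?_
  exact (TE_neg E H s).symm

theorem TE1_le (ho : Ref I om) (h : Dom I om E C) (h' : Dom I om E' C') (hH : IsDisc I H)
    (hf : FinE om H) (hle : ∀ p ∈ Cone I, ∀ v ∈ Tan I p, E p v ≤ E' p v) :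
    TE1 E H ≤ TE1 E' H := by
  refine le_of_tendsto_of_tendsto (tendsto_TE1 ho h hH hf) (tendsto_TE1 ho h' hH hf) ?_
  filter_upwards [mem_Ioo_nhdsLT (zero_lt_one)] with s hs
  exact TE_le h.cont h'.cont hH hs.1.le hs.2 hle

/-- `|T_E(1) - T_E(r)| ≤ C e_r`, `e_r = T_ω(1) - T_ω(r)` -/
theorem abs_TE1_sub_le (ho : Ref I om) (h : Dom I om E C) (hH : IsDisc I H) (hf : FinE om H)
    {r : ℝ} (h0 : 0 ≤ r) (h1 : r < 1) :
    |TE1 E H - TE E H r| ≤ C * (TE1 om H - TE om H r) := by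
  refine le_of_tendsto_of_tendsto (((tendsto_TE1 ho h hH hf).sub_const (TE E H r)).abs)
    (((tendsto_TE1 ho ho.dom hH hf).sub_const (TE om H r)).const_mul C) ?_
  filter_upwards [mem_Ioo_nhdsLT h1] with s hs
  exact abs_TE_sub_le h.cont ho.cont h.bd hH h0 hs.1.le hs.2

theorem abs_TE1_le (ho : Ref I om) (h : Dom I om E C) (hH : IsDisc I H) (hf : FinE om H) :
    |TE1 E H| ≤ C * TE1 om H := by
  have := abs_TE1_sub_le ho h hH hf le_rfl one_pos
  simpa [TE_zero] using this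

/-- `e_r → 0` -/
theorem tendsto_err (ho : Ref I om) (hH : IsDisc I H) (hf : FinE om H) :
    Tendsto (fun r => TE1 om H - TE om H r) (𝓝[<] 1) (𝓝 0) := by
  have := (tendsto_TE1 ho ho.dom hH hf).const_sub (TE1 om H)
  rwa [sub_self] at this

/-! ### Jensen for functions on the cone -/

theorem contDiffOn_comp {ψ : EE N → ℝ} (hψ : ∀ p ∈ Cone I, ContDiffAt ℝ 2 ψ p) (hH : IsDisc I H) :
    ContDiffOn ℝ 2 (fun z => ψ (H z)) (ball 0 1) := by
  intro z hz
  have h1 : ContDiffAt ℝ 2 H z := ((disc_analyticAt hH hz).restrictScalars (𝕜 := ℝ)).contDiffAt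
  exact ((hψ _ (hH.cone z hz)).comp z h1).contDiffWithinAt

/-- **(T3)** Jensen's formula -/
theorem jensen_cav {ψ : EE N → ℝ} (hψ : ∀ p ∈ Cone I, ContDiffAt ℝ 2 ψ p) (hH : IsDisc I H)
    {s : ℝ} (h0 : 0 ≤ s) (h1 : s < 1) : cav ψ H s - ψ (H 0) = TE (lev ψ) H s := by
  have h2 := Green_740.jensen (contDiffOn_comp hψ hH) h0 h1
  unfold cav
  rw [← h2]
  refine Green_740.TG_congr h0 fun z hz => ?_
  have hz' := closedBall_subset_ball h1 hz
  rw [Crest.Agent.R269.Lev_901.lev_comp_curve (hψ _ (hH.cone z hz')) (disc_analyticAt hH hz')]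
  simp

/-- average over the boundary circle of `ψ` along `H` -/
def bav (ψ : EE N → ℝ) (H : ℂ → EE N) : ℝ := ψ (H 0) + TE1 (lev ψ) H

theorem tendsto_cav {ψ : EE N → ℝ} (ho : Ref I om) (hψ : ∀ p ∈ Cone I, ContDiffAt ℝ 2 ψ p)
    (h : Dom I om (lev ψ) C) (hH : IsDisc I H) (hf : FinE om H) :
    Tendsto (fun s => cav ψ H s) (𝓝[<] 1) (𝓝 (bav ψ H)) := by
  refine ((tendsto_TE1 ho h hH hf).const_add (ψ (H 0))).congr' ?_
  filter_upwards [mem_Ioo_nhdsLT (zero_lt_one)] with s hs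
  rw [← jensen_cav hψ hH hs.1.le hs.2]; ring

/-- **(T3')** `|bav ψ - cav ψ r| ≤ C e_r` -/
theorem abs_bav_sub_cav_le {ψ : EE N → ℝ} (ho : Ref I om)
    (hψ : ∀ p ∈ Cone I, ContDiffAt ℝ 2 ψ p) (h : Dom I om (lev ψ) C) (hH : IsDisc I H)
    (hf : FinE om H) {r : ℝ} (h0 : 0 ≤ r) (h1 : r < 1) :
    |bav ψ H - cav ψ H r| ≤ C * (TE1 om H - TE om H r) := by
  have h2 := abs_TE1_sub_le ho h hH hf h0 h1
  have h3 := jensen_cav hψ hH h0 h1
  have h4 : bav ψ H - cav ψ H r = TE1 (lev ψ) H - TE (lev ψ) H r := by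
    unfold bav; linarith
  rwa [h4]

end package

end Crest.Agent.R269.TE_499
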