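import Mathlib
import Crest.Agent.R269.Defs_58
import Crest.Agent.R269.DefsS_731
import Crest.Agent.R269.Iface_731
import Crest.Agent.R269.TE_499

/-!
# R269 (S0411), Line B: what a Wold frame delivers (helper731)

Definitions only.  `WF I n a C H V`: everything that is used of the Wold frame `V` of the normalised disc `H` for the
positive field `a`; `C` only depends on `a`.  `WFStmt`: existence.
`Crest.Agent.R269.TE_499`: `TE1 E H = lim_{s → 1} TE E H s`, `bav ψ H = lim_{s → 1} cav ψ H s`.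
-/

set_option autoImplicit false

open MvPolynomial Crest.AlgGeometry.ProjEmb Crest.Agent.R269.Geo_328 Metric Set Filter
open Crest.Agent.R269.Defs_58 Crest.Agent.R269.DefsS_731 Crest.Agent.R269.Iface_731
open Crest.Agent.R269.TE_499 (TE1 bav)
open scoped ContDiff Topology ComplexConjugate

noncomputable section

namespace Crest.Agent.R269.WF_731

variable {N n : ℕ}

/-- the interior functionals: `c₀ |f'(0)|² + c₁ T_ω(r₁) + (avg_{|z|=r₁} u₁ - u₁(0))` -/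
def Jf (c0 c1 : ℝ) (u1 : EE N → ℝ) (r1 : ℝ) (H : ℂ → EE N) : ℝ :=
  c0 * omg (H 0) (deriv H 0) + c1 * TE omg H r1 + (cav u1 H r1 - u1 (H 0))

/-- second variation of `Jf` in the direction `z V(z)` -/
def LJf (c0 c1 : ℝ) (u1 : EE N → ℝ) (r1 : ℝ) (H V : ℂ → EE N) : ℝ :=
  c0 * omg (H 0) (V 0) + c1 * Real.circleAverage (fun z => ‖z‖ ^ 2 * omg (H z) (V z)) 0 r1 +
    Real.circleAverage (fun z => ‖z‖ ^ 2 * lev u1 (H z) (V z)) 0 r1

/-- `H` is a normalised maximiser of `J - κ (T_E(1) - t T_ω(r))`, `E = cθ α + cω ω + dd^c u`, `T1 = T_E(H; 1)` -/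
structure IsMx (I : Ideal (HomCoordRing N)) (n : ℕ) (J : (ℂ → EE N) → ℝ) (κ t r cθ cω : ℝ)
    (u : EE N → ℝ) (H : ℂ → EE N) (T1 : ℝ) : Prop where
  disc : IsDisc I H
  normal : Normal H
  lim : Tendsto (fun s => TE (dens I n cθ cω u) H s) (𝓝[<] 1) (𝓝 T1)
  max : ∀ G K, IsDisc I G → Ctr (H 0) G → (∀ s ∈ Ioo (0 : ℝ) 1, TE (dens I n cθ cω u) G s ≤ K) →
    J G + κ * t * TE omg G r - κ * K ≤ J H + κ * t * TE omg H r - κ * T1

/-- everything that is used of the Wold frame `V` of the normalised disc `H` for the positive field `a` -/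
structure WF (I : Ideal (HomCoordRing N)) (n : ℕ) (a : EE N → VV N) (C : ℝ) (H : ℂ → EE N)
    (V : Fin n → ℂ → EE N) : Prop where
  tan : ∀ i, ∀ z ∈ ball (0 : ℂ) 1, V i z ∈ Tan I (H z)
  hol : ∀ i, DifferentiableOn ℂ (fun z => wdg (V i z) (H z)) (ball 0 1)
  pos : ∀ z ∈ ball (0 : ℂ) 1, 0 < DD (H z) (fun i => V i z)
  /-- (K1) -/
  k1 : ∀ z ∈ ball (0 : ℂ) 1, ∀ b : Fin n → EE N, Rep I a (H z) b →
    (1 - C * (1 - nsq (H z))) * ∑ k, omg (H z) (b k) ≤ ∑ i, omg (H z) (V i z)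
  /-- (K2) -/
  low : ∀ z ∈ ball (0 : ℂ) 1, -C + C * Real.log (nsq (H z)) ≤ Real.log (DD (H z) (fun i => V i z))
  up : ∀ z ∈ ball (0 : ℂ) 1, Real.log (DD (H z) (fun i => V i z)) ≤ C - C * Real.log (nsq (H z))
  /-- (DET) `s = 0` is the value at the centre -/
  det : ∀ D : EE N → ℝ, SmX I D → (∀ p ∈ Cone I, 0 < D p) →
    (∀ p ∈ Cone I, ∀ b : Fin n → EE N, Rep I a p b → DD p b = D p) → ∀ s ∈ Ico (0 : ℝ) 1,
      bav (fun p => Real.log (D p)) H - (TE1 (alpha I n) H - TE (alpha I n) H s) ≤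
        Real.circleAverage (fun z => Real.log (DD (H z) (fun i => V i z))) 0 s
  /-- (VAR), summed over the frame -/
  var : ∀ (c0 c1 : ℝ) (u1 : EE N → ℝ) (r1 κ t r cθ cω : ℝ) (u : EE N → ℝ) (T1 : ℝ), SmX I u1 →
    r1 ∈ Ioo (0 : ℝ) 1 → 0 < κ → 0 ≤ t → r ∈ Ioo (0 : ℝ) 1 → SmX I u → GeO I n cθ cω u →
    IsMx I n (Jf c0 c1 u1 r1) κ t r cθ cω u H T1 →
    ∀ tE : EE N → ℝ, SmX I tE → (∀ p ∈ Cone I, ∀ b : Fin n → EE N, Rep I a p b →
      tE p = ∑ i, dens I n cθ cω u p (b i)) →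
      ∑ i, (LJf c0 c1 u1 r1 H (V i) +
        κ * t * Real.circleAverage (fun z => ‖z‖ ^ 2 * omg (H z) (V i z)) 0 r) ≤ κ * bav tE H

/-- existence of the Wold frame -/
def WFStmt : Prop := ∀ (N n : ℕ) (I : Ideal (HomCoordRing N)), I.IsPrime →
  IsSmoothProjective I n → 1 ≤ n → EntireCurvesConstant I → ∀ a : EE N → VV N, PosField I n a →
    ∃ C : ℝ, 0 ≤ C ∧ ∀ H : ℂ → EE N, IsDisc I H → Normal H → ∃ V, WF I n a C H V

/-- `(1 + δ m₁) k - δ T` -/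
def kdl (I : Ideal (HomCoordRing N)) (n : ℕ) (m₁ δ : ℝ) (H : ℂ → EE N) : ℝ :=
  (1 + δ * m₁) * TE1 (alpha I n) H - δ * TE1 omg H

/-- the functional `Θ` of (11): helper993 / helper653 -/
def HintStmt : Prop := ∀ (N n : ℕ) (I : Ideal (HomCoordRing N)), I.IsPrime →
  IsSmoothProjective I n → 1 ≤ n → EntireCurvesConstant I → BigP I n →
    ∀ a : EE N → VV N, PosField I n a → ∀ C : ℝ, 0 ≤ C →
    ∃ m₁ δ c CΘ : ℝ, 0 ≤ m₁ ∧ 0 < δ ∧ 0 < c ∧ ∀ R : ℝ, ∃ (c1 : ℝ) (u1 : EE N → ℝ), SmX I u1 ∧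
      (∀ H, IsDisc I H → |Jf 0 c1 u1 (1 / 2) H| ≤ CΘ) ∧
      ∀ H V, IsDisc I H → Normal H → TE1 omg H ≤ R → WF I n a C H V →
        c * Real.exp (-(kdl I n m₁ δ H / n)) ≤ ∑ i, LJf 0 c1 u1 (1 / 2) H (V i)

end Crest.Agent.R269.WF_731
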