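import Mathlib
import Crest.Agent.R269.WF_731
import Crest.Agent.R269.Stat_731
import Crest.Agent.R269.StMax_528
import Crest.Agent.R269.StDens_528
import Crest.Agent.R269.LevBr_901
import Crest.Agent.R269.FldF_620
import Crest.Agent.R269.Alp7_927
import Crest.Agent.R269.PosC_632

/-!
# R269 (S0411), Line B, B13: lemmas for the concrete instance (helper731)
-/

set_option autoImplicit false

open MvPolynomial Crest.AlgGeometry.ProjEmb Crest.Agent.R269.Geo_328 Metric Set Filter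
open Crest.Agent.R269.Defs_58 Crest.Agent.R269.DefsS_731 Crest.Agent.R269.Iface_731
open Crest.Agent.R269.TE_499 (TE1 bav Ref Dom CDens)
open Crest.Agent.R269.WF_731
open scoped ContDiff Topology ComplexConjugate

noncomputable section

namespace Crest.Agent.R269.SDI_731

variable {N n : ℕ} {I : Ideal (HomCoordRing N)}

/-! ### the reference form and dominated densities -/

theorem levf_eq (w : EE N → ℝ) : (LevC_653.lev w : EE N → EE N → ℝ) = lev w := by
  funext p v; exact (LevBr_901.lev_eq w p v).symm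

theorem cdens_of_dens {E : EE N → EE N → ℝ} (h : StFun_528.Dens I E) : CDens I E := h.cont

theorem ref_omg (I : Ideal (HomCoordRing N)) : Ref I omg :=
  ⟨cdens_of_dens StMax_528.dens_omg, fun p _ v _ => LevBr_901.omg_nonneg p v⟩

theorem dens_lev (hI : I.IsPrime) (hX : IsSmoothProjective I n) {w : EE N → ℝ} (hw : SmX I w) :
    StFun_528.Dens I (lev w) := by
  have := hI
  exact StMax_528.dens_lev hX hw

theorem dens_alpha (hI : I.IsPrime) (hX : IsSmoothProjective I n) :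
    StFun_528.Dens I (alpha I n) := StDens_528.dens_alpha hI hX

theorem dens_dens (hI : I.IsPrime) (hX : IsSmoothProjective I n) (cθ cω : ℝ) {u : EE N → ℝ}
    (hu : SmX I u) : StFun_528.Dens I (dens I n cθ cω u) := StDens_528.dens_Efo hI hX cθ cω hu

theorem dom_lev (hI : I.IsPrime) (hX : IsSmoothProjective I n) {w : EE N → ℝ} (hw : SmX I w) :
    ∃ C, Dom I omg (LevC_653.lev w) C := by
  obtain ⟨C, -, hC⟩ := LevBr_901.smX_lev_bdd hI hX hw
  refine ⟨C, ?_⟩
  rw [levf_eq]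
  exact ⟨cdens_of_dens (dens_lev hI hX hw), hC⟩

theorem dom_alpha (hI : I.IsPrime) (hX : IsSmoothProjective I n) : ∃ C, Dom I omg (alpha I n) C := by
  obtain ⟨C, hC⟩ := PosC_632.alphaBddStmt N n I hI hX
  exact ⟨C, cdens_of_dens (dens_alpha hI hX), hC⟩

theorem dom_dens (hI : I.IsPrime) (hX : IsSmoothProjective I n) (cθ cω : ℝ) {u : EE N → ℝ}
    (hu : SmX I u) : ∃ C, Dom I omg (dens I n cθ cω u) C := by
  obtain ⟨C, hC⟩ := PosC_632.bdd_all hI hX hu cθ cω
  exact ⟨C, cdens_of_dens (dens_dens hI hX cθ cω hu), hC⟩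

theorem smX_two (w : EE N → ℝ) (hw : SmX I w) : ∀ p ∈ Cone I, ContDiffAt ℝ 2 w p :=
  fun p hp => (hw.1 p hp).of_le LevBr_901.two_le_infty

theorem tendsto_bav (hI : I.IsPrime) (hX : IsSmoothProjective I n) {w : EE N → ℝ} (hw : SmX I w)
    {H : ℂ → EE N} (hH : IsDisc I H) (hf : FinE omg H) :
    Tendsto (fun s => cav w H s) (𝓝[<] 1) (𝓝 (bav w H)) := by
  obtain ⟨C, hC⟩ := dom_lev hI hX hw
  exact TE_499.tendsto_cav (ref_omg I) (smX_two w hw) hC hH hf

theorem bav_eq (w : EE N → ℝ) (H : ℂ → EE N) : bav w H = w (H 0) + TE1 (lev w) H := by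
  unfold bav
  rw [levf_eq]

theorem sphere_sub {s : ℝ} (h0 : 0 ≤ s) (h1 : s < 1) : sphere (0 : ℂ) |s| ⊆ ball 0 1 := by
  intro z hz
  rw [mem_sphere_zero_iff_norm, abs_of_nonneg h0] at hz
  rw [mem_ball_zero_iff, hz]
  exact h1

theorem cav_congr {w w' : EE N → ℝ} (h : ∀ p ∈ Cone I, w p = w' p) {H : ℂ → EE N}
    (hH : IsDisc I H) {s : ℝ} (h0 : 0 ≤ s) (h1 : s < 1) : cav w H s = cav w' H s :=
  Real.circleAverage_congr_sphere fun z hz => h _ (hH.cone z (sphere_sub h0 h1 hz))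

theorem ci_comp {w : EE N → ℝ} (hw : ContinuousOn w (Cone I)) {H : ℂ → EE N}
    (hH : IsDisc I H) {s : ℝ} (h0 : 0 ≤ s) (h1 : s < 1) : CircleIntegrable (fun z => w (H z)) 0 s := by
  refine ContinuousOn.circleIntegrable' ?_
  exact (hw.comp hH.hol.continuousOn fun z hz => hH.cone z hz).mono (sphere_sub h0 h1)

theorem smX_cont {w : EE N → ℝ} (hw : SmX I w) : ContinuousOn w (Cone I) :=
  fun p hp => (hw.1 p hp).continuousAt.continuousWithinAt

theorem bav_congr (hI : I.IsPrime) (hX : IsSmoothProjective I n) {w w' : EE N → ℝ}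
    (hw : SmX I w) (hw' : SmX I w') (h : ∀ p ∈ Cone I, w p = w' p) {H : ℂ → EE N}
    (hH : IsDisc I H) (hf : FinE omg H) : bav w H = bav w' H := by
  refine tendsto_nhds_unique (tendsto_bav hI hX hw hH hf) ?_
  refine (tendsto_bav hI hX hw' hH hf).congr' ?_
  filter_upwards [Ioo_mem_nhdsLT (show (0 : ℝ) < 1 by norm_num)] with s hs
  exact (cav_congr h hH hs.1.le hs.2).symm

theorem bav_add (hI : I.IsPrime) (hX : IsSmoothProjective I n) {w w' : EE N → ℝ}
    (hw : SmX I w) (hw' : SmX I w') {H : ℂ → EE N}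
    (hH : IsDisc I H) (hf : FinE omg H) : bav (fun p => w p + w' p) H = bav w H + bav w' H := by
  refine tendsto_nhds_unique (tendsto_bav hI hX (LevBr_901.smX_add hw hw') hH hf) ?_
  refine ((tendsto_bav hI hX hw hH hf).add (tendsto_bav hI hX hw' hH hf)).congr' ?_
  filter_upwards [Ioo_mem_nhdsLT (show (0 : ℝ) < 1 by norm_num)] with s hs
  exact (Real.circleAverage_fun_add (ci_comp (smX_cont hw) hH hs.1.le hs.2)
    (ci_comp (smX_cont hw') hH hs.1.le hs.2)).symm

theorem bav_const_mul (hI : I.IsPrime) (hX : IsSmoothProjective I n) (c : ℝ) {w : EE N → ℝ}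
    (hw : SmX I w) {H : ℂ → EE N}
    (hH : IsDisc I H) (hf : FinE omg H) : bav (fun p => c * w p) H = c * bav w H := by
  refine tendsto_nhds_unique (tendsto_bav hI hX (LevBr_901.smX_const_mul c hw) hH hf) ?_
  refine ((tendsto_bav hI hX hw hH hf).const_mul c).congr fun s => ?_
  have := Real.circleAverage_fun_smul (a := c) (f := fun z => w (H z)) (c := (0 : ℂ)) (R := s)
  exact this.symm

theorem bav_mono (hI : I.IsPrime) (hX : IsSmoothProjective I n) {w w' : EE N → ℝ}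
    (hw : SmX I w) (hw' : SmX I w') (h : ∀ p ∈ Cone I, w p ≤ w' p) {H : ℂ → EE N}
    (hH : IsDisc I H) (hf : FinE omg H) : bav w H ≤ bav w' H := by
  refine le_of_tendsto_of_tendsto (tendsto_bav hI hX hw hH hf) (tendsto_bav hI hX hw' hH hf) ?_
  filter_upwards [Ioo_mem_nhdsLT (show (0 : ℝ) < 1 by norm_num)] with s hs
  exact Real.circleAverage_mono (ci_comp (smX_cont hw) hH hs.1.le hs.2)
    (ci_comp (smX_cont hw') hH hs.1.le hs.2) fun z hz => h _ (hH.cone z (sphere_sub hs.1.le hs.2 hz))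

theorem bav_const (hI : I.IsPrime) (hX : IsSmoothProjective I n) (c : ℝ) {H : ℂ → EE N}
    (hH : IsDisc I H) (hf : FinE omg H) : bav (fun _ => c) H = c := by
  refine tendsto_nhds_unique (tendsto_bav hI hX (LevBr_901.smX_const I c) hH hf) ?_
  refine tendsto_const_nhds.congr fun s => ?_
  exact (Real.circleAverage_const c (0 : ℂ) s).symm

/-! ### the characteristic of `cθ α + cω ω + dd^c u` -/

theorem TE1_dens (hI : I.IsPrime) (hX : IsSmoothProjective I n) (cθ cω : ℝ) {u : EE N → ℝ}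
    (hu : SmX I u) {H : ℂ → EE N} (hH : IsDisc I H) (hf : FinE omg H) :
    TE1 (dens I n cθ cω u) H = cθ * TE1 (alpha I n) H + cω * TE1 omg H + (bav u H - u (H 0)) := by
  obtain ⟨Ca, hCa⟩ := dom_alpha hI hX
  obtain ⟨Cu, hCu⟩ := dom_lev hI hX hu
  rw [levf_eq] at hCu
  have ho := ref_omg I
  have h1 : TE1 (fun p v => cθ * alpha I n p v + cω * omg p v) H =
      cθ * TE1 (alpha I n) H + cω * TE1 omg H := by
    rw [TE_499.TE1_add ho (hCa.const_mul cθ) (ho.dom.const_mul cω) hH hf,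
      TE_499.TE1_const_mul ho hCa cθ hH hf, TE_499.TE1_const_mul ho ho.dom cω hH hf]
  have h2 : TE1 (dens I n cθ cω u) H =
      TE1 (fun p v => cθ * alpha I n p v + cω * omg p v) H + TE1 (lev u) H :=
    TE_499.TE1_add ho ((hCa.const_mul cθ).add (ho.dom.const_mul cω)) hCu hH hf
  rw [h2, h1, bav_eq]
  ring

/-! ### change of lift -/

theorem TE_tw {E : EE N → EE N → ℝ} (hE : StFun_528.Dens I E) {H : ℂ → EE N} (hH : IsDisc I H)
    {φ : ℂ → ℂ} (hφ : DifferentiableOn ℂ φ (ball 0 1)) {s : ℝ} (hs : s ∈ Ioo (0 : ℝ) 1) :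
    TE E (StCpt_528.tw φ H) s = TE E H s := (hE.funC_TE hs).inv H φ hH hφ

theorem TE1_tw {E : EE N → EE N → ℝ} (hE : StFun_528.Dens I E) {C : ℝ} (hC : Dom I omg E C)
    {H : ℂ → EE N} (hH : IsDisc I H) (hf : FinE omg H)
    {φ : ℂ → ℂ} (hφ : DifferentiableOn ℂ φ (ball 0 1)) :
    TE1 E (StCpt_528.tw φ H) = TE1 E H := by
  apply TE_499.TE1_unique
  refine (TE_499.tendsto_TE1 (ref_omg I) hC hH hf).congr' ?_
  filter_upwards [Ioo_mem_nhdsLT (show (0 : ℝ) < 1 by norm_num)] with s hs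
  exact (TE_tw hE hH hφ hs).symm

theorem finE_tw {H : ℂ → EE N} (hH : IsDisc I H) (hf : FinE omg H)
    {φ : ℂ → ℂ} (hφ : DifferentiableOn ℂ φ (ball 0 1)) : FinE omg (StCpt_528.tw φ H) := by
  obtain ⟨B, hB⟩ := hf
  exact ⟨B, fun s hs => by rw [TE_tw StMax_528.dens_omg hH hφ hs]; exact hB s hs⟩

theorem cav_tw {w : EE N → ℝ} (hw : SmX I w) {H : ℂ → EE N} (hH : IsDisc I H)
    {φ : ℂ → ℂ} (hφ : DifferentiableOn ℂ φ (ball 0 1)) {s : ℝ} (hs : s ∈ Ico (0 : ℝ) 1) :
    cav w (StCpt_528.tw φ H) s = cav w H s :=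
  (StFun_528.funC_cav (smX_cont hw) hw.2 hs).inv H φ hH hφ

theorem bav_tw (hI : I.IsPrime) (hX : IsSmoothProjective I n) {w : EE N → ℝ} (hw : SmX I w)
    {H : ℂ → EE N} (hH : IsDisc I H) (hf : FinE omg H)
    {φ : ℂ → ℂ} (hφ : DifferentiableOn ℂ φ (ball 0 1)) :
    bav w (StCpt_528.tw φ H) = bav w H := by
  refine tendsto_nhds_unique (tendsto_bav hI hX hw (StFun_528.IsDisc.tw hX hH hφ)
    (finE_tw hH hf hφ)) ?_
  refine (tendsto_bav hI hX hw hH hf).congr' ?_
  filter_upwards [Ioo_mem_nhdsLT (show (0 : ℝ) < 1 by norm_num)] with s hs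
  exact (cav_tw hw hH hφ ⟨hs.1.le, hs.2⟩).symm

theorem Jf_funC (hI : I.IsPrime) (hX : IsSmoothProjective I n) (c0 c1 : ℝ) {u1 : EE N → ℝ}
    (hu : SmX I u1) {r1 : ℝ} (hr : r1 ∈ Ioo (0 : ℝ) 1) :
    StFun_528.FunC I (Jf c0 c1 u1 r1) := by
  have h1 : StFun_528.FunC I (fun H => c0 * omg (H 0) (deriv H 0)) :=
    ((StMax_528.dens_omg (I := I)).funC_at (mem_ball_self one_pos)).const_mul c0
  have h2 : StFun_528.FunC I (fun H => c1 * TE omg H r1) :=
    ((StMax_528.dens_omg (I := I)).funC_TE hr).const_mul c1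
  have h3 : StFun_528.FunC I (fun H => cav u1 H r1) :=
    StFun_528.funC_cav (smX_cont hu) hu.2 ⟨hr.1.le, hr.2⟩
  have h4 : StFun_528.FunC I (fun H => cav u1 H 0) :=
    StFun_528.funC_cav (smX_cont hu) hu.2 ⟨le_rfl, one_pos⟩
  have e : (fun H : ℂ → EE N => cav u1 H 0) = fun H => u1 (H 0) := by
    funext H
    simp [cav]
  rw [e] at h4
  exact (h1.add h2).add (h3.sub h4)

/-! ### constant discs -/

theorem isDisc_const {p : EE N} (hp : p ∈ Cone I) : IsDisc I (fun _ => p) :=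
  ⟨differentiableOn_const _, fun _ _ => hp⟩

theorem TE_const {E : EE N → EE N → ℝ} {p : EE N} (h0 : E p 0 = 0) (s : ℝ) :
    TE E (fun _ => p) s = 0 := by
  have e : (fun z : ℂ => E p (deriv (fun _ : ℂ => p) z)) = fun _ => 0 := by
    funext z; rw [deriv_const]; exact h0
  unfold TE TG
  rw [e]
  simp [Real.circleAverage_const]

theorem TE1_const {E : EE N → EE N → ℝ} {p : EE N} (h0 : E p 0 = 0) :
    TE1 E (fun _ => p) = 0 := by
  apply TE_499.TE1_unique
  simp only [TE_const h0]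
  exact tendsto_const_nhds

theorem finE_const (p : EE N) : FinE omg (fun _ => p) :=
  ⟨0, fun s _ => by rw [TE_const (LevBr_901.omg_zero p)]⟩

theorem alpha_zero (I : Ideal (HomCoordRing N)) (p : EE N) : alpha I n p 0 = 0 := by
  unfold alpha
  split_ifs with h
  · rw [LevBr_901.lev_zero_vec, LevBr_901.omg_zero]; simp
  · rfl

end Crest.Agent.R269.SDI_731
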