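import Mathlib
import Crest.Agent.R269.SDI0_731

/-!
# R269 (S0411), Line B, B13: the concrete instance of `Stat_731.SD`, data (helper731)
-/

set_option autoImplicit false

open MvPolynomial Crest.AlgGeometry.ProjEmb Crest.Agent.R269.Geo_328 Metric Set Filter
open Crest.Agent.R269.Defs_58 Crest.Agent.R269.DefsS_731 Crest.Agent.R269.Iface_731
open Crest.Agent.R269.TE_499 (TE1 bav Ref Dom CDens)
open Crest.Agent.R269.WF_731
open scoped ContDiff Topology ComplexConjugate

noncomputable section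

namespace Crest.Agent.R269.SDI_731

variable {N n : ℕ} {I : Ideal (HomCoordRing N)}

/-! ### functions on the points -/

/-- smooth functions on the points of the cone -/
def SmP (I : Ideal (HomCoordRing N)) (u : Pt I → ℝ) : Prop :=
  ∃ w : EE N → ℝ, SmX I w ∧ ∀ x : Pt I, u x = w x.1

open Classical in
/-- a smooth extension -/
def sx (u : Pt I → ℝ) : EE N → ℝ :=
  if h : ∃ w : EE N → ℝ, SmX I w ∧ ∀ x : Pt I, u x = w x.1 then h.choose else fun _ => 0

theorem smX_sx (u : Pt I → ℝ) : SmX I (sx u) := by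
  unfold sx
  split_ifs with h
  · exact h.choose_spec.1
  · exact LevBr_901.smX_const I 0

theorem sx_eq {u : Pt I → ℝ} (h : SmP I u) (x : Pt I) : sx u x.1 = u x := by
  have h' : ∃ w : EE N → ℝ, SmX I w ∧ ∀ x : Pt I, u x = w x.1 := h
  unfold sx
  rw [dif_pos h']
  exact (h'.choose_spec.2 x).symm

theorem sx_restrict {w : EE N → ℝ} (hw : SmX I w) {p : EE N} (hp : p ∈ Cone I) :
    sx (fun x : Pt I => w x.1) p = w p :=
  sx_eq (u := fun x : Pt I => w x.1) ⟨w, hw, fun _ => rfl⟩ ⟨p, hp⟩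

/-- boundary average -/
def avgP (u : Pt I → ℝ) (f : Dsc I omg) : ℝ := bav (sx u) f.H

theorem avgP_eq (hI : I.IsPrime) (hX : IsSmoothProjective I n) {u : Pt I → ℝ} {w : EE N → ℝ}
    (hw : SmX I w) (h : ∀ x : Pt I, u x = w x.1) (f : Dsc I omg) : avgP u f = bav w f.H := by
  refine bav_congr hI hX (smX_sx u) hw (fun p hp => ?_) f.disc f.fin
  rw [← h ⟨p, hp⟩]
  exact sx_eq ⟨w, hw, h⟩ ⟨p, hp⟩

/-! ### fields -/

/-- positive fields -/
def PF (I : Ideal (HomCoordRing N)) (n : ℕ) : Type := {a : EE N → VV N // PosField I n a}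

/-- a representing frame -/
def fr (a : PF I n) (x : Pt I) : Fin n → EE N := (a.2.rep x.1 x.2).choose

theorem fr_rep (a : PF I n) (x : Pt I) : Rep I a.1 x.1 (fr a x) := (a.2.rep x.1 x.2).choose_spec.1

theorem fr_pos (a : PF I n) (x : Pt I) : 0 < DD x.1 (fr a x) := (a.2.rep x.1 x.2).choose_spec.2

def ldetP (a : PF I n) (x : Pt I) : ℝ := Real.log (DD x.1 (fr a x))
def trAP (a : PF I n) (x : Pt I) : ℝ := ∑ i, alpha I n x.1 (fr a x i)
def trOP (a : PF I n) (x : Pt I) : ℝ := ∑ i, omg x.1 (fr a x i)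
def trLP (a : PF I n) (u : Pt I → ℝ) (x : Pt I) : ℝ := ∑ i, lev (sx u) x.1 (fr a x i)

theorem exists_trA (hI : I.IsPrime) (hX : IsSmoothProjective I n) (a : PF I n) :
    ∃ t, SmX I t ∧ ∀ p ∈ Cone I, ∀ b : Fin n → EE N, Rep I a.1 p b → t p = ∑ i, alpha I n p (b i) := by
  have := hI
  exact (Alp_927.formField_alpha chartStmt hX).trace hX a.2

theorem exists_trO (hX : IsSmoothProjective I n) (a : PF I n) :
    ∃ t, SmX I t ∧ ∀ p ∈ Cone I, ∀ b : Fin n → EE N, Rep I a.1 p b → t p = ∑ i, omg p (b i) :=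
  Alp_927.formField_omg.trace hX a.2

theorem exists_trL (hI : I.IsPrime) (hX : IsSmoothProjective I n) (a : PF I n) {w : EE N → ℝ}
    (hw : SmX I w) :
    ∃ t, SmX I t ∧ ∀ p ∈ Cone I, ∀ b : Fin n → EE N, Rep I a.1 p b → t p = ∑ i, lev w p (b i) := by
  have := hI
  exact (Alp_927.formField_lev chartStmt hX hw).trace hX a.2

/-! ### normalised lifts -/

theorem exists_nl (f : Dsc I omg) : ∃ φ : ℂ → ℂ, DifferentiableOn ℂ φ (ball 0 1) ∧
    Normal (StCpt_528.tw φ f.H) := by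
  obtain ⟨B, hB⟩ := f.fin
  obtain ⟨φ, h1, h2⟩ := StFun_528.exists_normal (StFun_528.isDisc_iff.1 f.disc) (K := B)
    fun s hs => by
      rw [StMax_528.Tom_eq_TE f.disc hs.1.le hs.2]
      exact hB s hs
  exact ⟨φ, h1, StFun_528.normal_iff.2 h2⟩

/-- the twist to a normalised lift -/
def ph (f : Dsc I omg) : ℂ → ℂ := (exists_nl f).choose

/-- a normalised lift -/
def nl (f : Dsc I omg) : ℂ → EE N := StCpt_528.tw (ph f) f.H

theorem ph_diff (f : Dsc I omg) : DifferentiableOn ℂ (ph f) (ball 0 1) := (exists_nl f).choose_spec.1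

theorem nl_normal (f : Dsc I omg) : Normal (nl f) := (exists_nl f).choose_spec.2

theorem nl_disc (hX : IsSmoothProjective I n) (f : Dsc I omg) : IsDisc I (nl f) :=
  StFun_528.IsDisc.tw hX f.disc (ph_diff f)

theorem nl_fin (f : Dsc I omg) : FinE omg (nl f) := finE_tw f.disc f.fin (ph_diff f)

/-! ### Wold frames -/

/-- the hypothesis: existence of Wold frames -/
def HW (I : Ideal (HomCoordRing N)) (n : ℕ) : Prop := ∀ a : EE N → VV N, PosField I n a →
    ∃ C : ℝ, 0 ≤ C ∧ ∀ H : ℂ → EE N, IsDisc I H → Normal H → ∃ V, WF I n a C H V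

def cW (hW : HW I n) (a : PF I n) : ℝ := (hW a.1 a.2).choose

theorem cW_nonneg (hW : HW I n) (a : PF I n) : 0 ≤ cW hW a := (hW a.1 a.2).choose_spec.1

/-- the Wold frame of `(nl f, a)` -/
def vW (hX : IsSmoothProjective I n) (hW : HW I n) (a : PF I n) (f : Dsc I omg) : Fin n → ℂ → EE N :=
  ((hW a.1 a.2).choose_spec.2 (nl f) (nl_disc hX f) (nl_normal f)).choose

theorem vW_spec (hX : IsSmoothProjective I n) (hW : HW I n) (a : PF I n) (f : Dsc I omg) :
    WF I n a.1 (cW hW a) (nl f) (vW hX hW a f) :=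
  ((hW a.1 a.2).choose_spec.2 (nl f) (nl_disc hX f) (nl_normal f)).choose_spec

/-! ### interior functionals -/

/-- interior functionals with their summed second variations -/
def IntP (hX : IsSmoothProjective I n) (hW : HW I n) (J : Dsc I omg → ℝ)
    (LJ : PF I n → Dsc I omg → ℝ) : Prop :=
  ∃ (c0 c1 : ℝ) (u1 : EE N → ℝ) (r1 : ℝ), SmX I u1 ∧ r1 ∈ Ioo (0 : ℝ) 1 ∧
    (∀ f, J f = Jf c0 c1 u1 r1 f.H) ∧ ∀ a f, LJ a f = ∑ i, LJf c0 c1 u1 r1 (nl f) (vW hX hW a f i)

def LspdP (hX : IsSmoothProjective I n) (hW : HW I n) (a : PF I n) (f : Dsc I omg) : ℝ :=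
  ∑ i, omg (nl f 0) (vW hX hW a f i 0)

def SP (hX : IsSmoothProjective I n) (hW : HW I n) (r : ℝ) (a : PF I n) (f : Dsc I omg) : ℝ :=
  ∑ i, Real.circleAverage (fun z => ‖z‖ ^ 2 * omg (nl f z) (vW hX hW a f i z)) 0 r

/-- the constant disc -/
def cstP (x : Pt I) : Dsc I omg := ⟨fun _ => x.1, isDisc_const x.2, finE_const x.1⟩

theorem levZ (p v : EE N) : lev (fun _ : EE N => (0 : ℝ)) p v = 0 := LevBr_901.lev_const 0 p v

theorem int_zero (hX : IsSmoothProjective I n) (hW : HW I n) :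
    IntP hX hW (fun _ => 0) (fun _ _ => 0) := by
  refine ⟨0, 0, fun _ => 0, 1 / 2, LevBr_901.smX_const I 0, ⟨by norm_num, by norm_num⟩, ?_, ?_⟩
  · intro f
    simp [Jf, cav, Real.circleAverage_const]
  · intro a f
    simp only [LJf, zero_mul, zero_add, levZ, mul_zero, Real.circleAverage_const,
      Finset.sum_const_zero]

theorem int_spd (hX : IsSmoothProjective I n) (hW : HW I n) :
    IntP hX hW (fun f => omg (f.H 0) (deriv f.H 0)) (LspdP hX hW) := by
  refine ⟨1, 0, fun _ => 0, 1 / 2, LevBr_901.smX_const I 0, ⟨by norm_num, by norm_num⟩, ?_, ?_⟩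
  · intro f
    simp [Jf, cav, Real.circleAverage_const]
  · intro a f
    simp only [LJf, zero_mul, levZ, mul_zero, Real.circleAverage_const, add_zero, one_mul, LspdP]

end Crest.Agent.R269.SDI_731
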