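import Mathlib
import Crest.Agent.R269.SDI1_731
import Crest.Agent.R269.Ker2_430

/-!
# R269 (S0411), Line B, B13: the concrete instance of `Stat_731.SD`, proofs (helper731)
-/

set_option autoImplicit false

open MvPolynomial Crest.AlgGeometry.ProjEmb Crest.Agent.R269.Geo_328 Metric Set Filter
open Crest.Agent.R269.Defs_58 Crest.Agent.R269.DefsS_731 Crest.Agent.R269.Iface_731
open Crest.Agent.R269.TE_499 (TE1 bav Ref Dom CDens)
open Crest.Agent.R269.WF_731
open scoped ContDiff Topology ComplexConjugate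

noncomputable section

namespace Crest.Agent.R269.SDI_731

variable {N n : ℕ} {I : Ideal (HomCoordRing N)}

/-! ### normalised discs -/

theorem nsq_pos' {p : EE N} (hp : p ∈ Cone I) : 0 < nsq p := PosC_632.nsq_pos hp.2

theorem cont_log_nsq (I : Ideal (HomCoordRing N)) :
    ContinuousOn (fun p : EE N => Real.log (nsq p)) (Cone I) :=
  ContinuousOn.log PosC_632.continuous_nsq.continuousOn fun _ hp => (nsq_pos' hp).ne'

theorem cav_log_nsq {H : ℂ → EE N} (hH : IsDisc I H) {s : ℝ} (h0 : 0 ≤ s) (h1 : s < 1) :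
    cav (fun p => Real.log (nsq p)) H s = Real.log (nsq (H 0)) + TE omg H s := by
  have h := StMax_528.Tom_eq_TE hH h0 h1
  unfold StCpt_528.Tom at h
  have e : cav (fun p => Real.log (nsq p)) H s =
      Real.circleAverage (fun z => Real.log (Brody_164.nsq (H z))) 0 s := rfl
  have e2 : Real.log (nsq (H 0)) = Real.log (Brody_164.nsq (H 0)) := rfl
  rw [e, e2, ← show TE (fun p v => omg p v) H s = TE omg H s from rfl]
  linarith

/-- `T_ω(1) = -log |H(0)|²` and `e_s = -avg_s log |H|²` for normalised lifts -/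
theorem normal_TE1 {H : ℂ → EE N} (hH : IsDisc I H) (hN : Normal H) :
    TE1 omg H = -Real.log (nsq (H 0)) := by
  apply TE_499.TE1_unique
  have h1 : Tendsto (fun s => cav (fun p => Real.log (nsq p)) H s - Real.log (nsq (H 0))) (𝓝[<] 1)
      (𝓝 (0 - Real.log (nsq (H 0)))) := hN.avg.sub_const _
  rw [zero_sub] at h1
  refine h1.congr' ?_
  filter_upwards [Ioo_mem_nhdsLT (show (0 : ℝ) < 1 by norm_num)] with s hs
  rw [cav_log_nsq hH hs.1.le hs.2]
  ring

theorem normal_err {H : ℂ → EE N} (hH : IsDisc I H) (hN : Normal H) {s : ℝ} (h0 : 0 ≤ s)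
    (h1 : s < 1) : TE1 omg H - TE omg H s = -cav (fun p => Real.log (nsq p)) H s := by
  rw [normal_TE1 hH hN, cav_log_nsq hH h0 h1]
  ring

theorem normal_fin {H : ℂ → EE N} (hH : IsDisc I H) (hN : Normal H) : FinE omg H := by
  refine ⟨-Real.log (nsq (H 0)), fun s hs => ?_⟩
  have h1 := cav_log_nsq hH hs.1.le hs.2
  have h2 : cav (fun p => Real.log (nsq p)) H s ≤ 0 := by
    refine Real.circleAverage_mono_on_of_le_circle
      (ci_comp (cont_log_nsq I) hH hs.1.le hs.2) fun z hz => ?_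
    have hz' := sphere_sub hs.1.le hs.2 hz
    exact Real.log_nonpos (PosC_632.nsq_nonneg _) (hN.le_one z hz')
  linarith

/-! ### the frame -/

theorem omg_wdg {p : EE N} (hp : p ≠ 0) (V : EE N) :
    omg p V = (∑ i, ∑ j, ‖wdg V p i j‖ ^ 2) / (2 * nsq p ^ 2) := by
  have h := Ker2_430.sum_wdg_sq hp V
  have h0 := PosC_632.nsq_pos hp
  rw [h]
  field_simp

theorem cont_omg_frame {H : ℂ → EE N} (hH : IsDisc I H) {V : ℂ → EE N}
    (hV : DifferentiableOn ℂ (fun z => wdg (V z) (H z)) (ball 0 1)) :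
    ContinuousOn (fun z => omg (H z) (V z)) (ball 0 1) := by
  have h1 : ContinuousOn (fun z => (∑ i, ∑ j, ‖wdg (V z) (H z) i j‖ ^ 2) / (2 * nsq (H z) ^ 2))
      (ball 0 1) := by
    refine ContinuousOn.div ?_ ?_ fun z hz => ?_
    · refine continuousOn_finsetSum _ fun i _ => continuousOn_finsetSum _ fun j _ => ?_
      have h2 := hV.continuousOn
      rw [continuousOn_pi] at h2
      have h3 := h2 i
      rw [continuousOn_pi] at h3
      exact (h3 j).norm.pow 2
    · exact continuousOn_const.mul ((PosC_632.continuous_nsq.comp_continuousOn hH.hol.continuousOn).pow 2)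
    · have := nsq_pos' (hH.cone z hz)
      positivity
  refine h1.congr fun z hz => ?_
  exact omg_wdg (hH.cone z hz).2 _

theorem ci_frame {H : ℂ → EE N} (hH : IsDisc I H) {V : ℂ → EE N}
    (hV : DifferentiableOn ℂ (fun z => wdg (V z) (H z)) (ball 0 1)) {r : ℝ} (h0 : 0 ≤ r)
    (h1 : r < 1) : CircleIntegrable (fun z => omg (H z) (V z)) 0 r :=
  ((cont_omg_frame hH hV).mono (sphere_sub h0 h1)).circleIntegrable'

theorem avg_norm_sq {q : ℂ → ℝ} {r : ℝ} :
    Real.circleAverage (fun z => ‖z‖ ^ 2 * q z) 0 r = r ^ 2 * Real.circleAverage q 0 r := by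
  have h1 : Real.circleAverage (fun z => ‖z‖ ^ 2 * q z) 0 r =
      Real.circleAverage (fun z => r ^ 2 * q z) 0 r :=
    Real.circleAverage_congr_sphere fun z hz => by
      rw [mem_sphere_zero_iff_norm] at hz
      show ‖z‖ ^ 2 * q z = r ^ 2 * q z
      rw [hz, sq_abs]
  rw [h1]
  exact Real.circleAverage_fun_smul (a := r ^ 2) (f := q) (c := (0 : ℂ)) (R := r)

/-- (key), for one normalised disc -/
theorem key_core (hI : I.IsPrime) (hX : IsSmoothProjective I n) (a : PF I n) {t : EE N → ℝ}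
    (ht : SmX I t) (htr : ∀ p ∈ Cone I, ∀ b : Fin n → EE N, Rep I a.1 p b → t p = ∑ i, omg p (b i))
    {C : ℝ} (hC : 0 ≤ C) : ∃ K : ℝ, 0 < K ∧ ∀ (H : ℂ → EE N) (V : Fin n → ℂ → EE N), IsDisc I H →
      Normal H → WF I n a.1 C H V → ∀ r, 0 < r → r < 1 →
        bav t H - K * ((TE1 omg H - TE omg H r) + (1 - r)) ≤
          ∑ i, Real.circleAverage (fun z => ‖z‖ ^ 2 * omg (H z) (V i z)) 0 r := by
  obtain ⟨M, hM0, hM⟩ := LevBr_901.smX_bdd hX ht
  obtain ⟨C', hC'⟩ := dom_lev hI hX ht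
  have hpos : ∀ p ∈ Cone I, 0 ≤ t p := fun p hp => by
    rw [htr p hp _ (fr_rep a ⟨p, hp⟩)]
    exact Finset.sum_nonneg fun i _ => LevBr_901.omg_nonneg _ _
  refine ⟨2 * M + |C'| + C * M + 1, by positivity, fun H V hH hN hV r hr0 hr1 => ?_⟩
  have hf := normal_fin hH hN
  have he : 0 ≤ TE1 omg H - TE omg H r := by
    have := TE_499.TE_le_TE1 (ref_omg I) hH hf hr0.le hr1
    linarith
  have h1 : ∑ i, Real.circleAverage (fun z => ‖z‖ ^ 2 * omg (H z) (V i z)) 0 r =
      r ^ 2 * Real.circleAverage (fun z => ∑ i, omg (H z) (V i z)) 0 r := by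
    rw [Finset.sum_congr rfl fun i _ => avg_norm_sq (q := fun z => omg (H z) (V i z)) (r := r),
      ← Finset.mul_sum]
    congr 1
    have := Real.circleAverage_fun_sum (s := Finset.univ) (f := fun i z => omg (H z) (V i z))
      (c := (0 : ℂ)) (R := r) fun i _ => ci_frame hH (hV.hol i) hr0.le hr1
    rw [← this]
  have hsum : CircleIntegrable (fun z => ∑ i, omg (H z) (V i z)) 0 r := by
    have h2 : ContinuousOn (fun z => ∑ i, omg (H z) (V i z)) (ball (0 : ℂ) 1) :=
      continuousOn_finsetSum _ fun i _ => cont_omg_frame hH (hV.hol i)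
    exact (h2.mono (sphere_sub hr0.le hr1)).circleIntegrable'
  have hint1 := ci_comp (smX_cont ht) hH hr0.le hr1
  have hint2 : CircleIntegrable (fun z => C * M * Real.log (nsq (H z))) 0 r := by
    have h2 : ContinuousOn (fun z => C * M * Real.log (nsq (H z))) (ball (0 : ℂ) 1) :=
      continuousOn_const.mul ((cont_log_nsq I).comp hH.hol.continuousOn fun z hz => hH.cone z hz)
    exact (h2.mono (sphere_sub hr0.le hr1)).circleIntegrable'
  have h2 : cav t H r + C * M * cav (fun p => Real.log (nsq p)) H r ≤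
      Real.circleAverage (fun z => ∑ i, omg (H z) (V i z)) 0 r := by
    have e1 : C * M * cav (fun p => Real.log (nsq p)) H r =
        Real.circleAverage (fun z => C * M * Real.log (nsq (H z))) 0 r :=
      (Real.circleAverage_fun_smul (a := C * M) (f := fun z => Real.log (nsq (H z)))
        (c := (0 : ℂ)) (R := r)).symm
    have e2 : cav t H r + C * M * cav (fun p => Real.log (nsq p)) H r =
        Real.circleAverage (fun z => t (H z) + C * M * Real.log (nsq (H z))) 0 r := by
      rw [e1]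
      exact (Real.circleAverage_fun_add hint1 hint2).symm
    rw [e2]
    refine Real.circleAverage_mono (hint1.add hint2) hsum fun z hz => ?_
    have hz' := sphere_sub hr0.le hr1 hz
    have hc := hH.cone z hz'
    have h3 := hV.k1 z hz' _ (fr_rep a ⟨H z, hc⟩)
    rw [← htr _ hc _ (fr_rep a ⟨H z, hc⟩)] at h3
    have h4 := nsq_pos' hc
    have h5 := Real.log_le_sub_one_of_pos h4
    have h6 := hpos _ hc
    have h7 := hM _ hc
    rw [abs_of_nonneg h6] at h7
    have h8 : 0 ≤ 1 - nsq (H z) := by have := hN.le_one z hz'; linarith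
    have h9 : C * (1 - nsq (H z)) * t (H z) ≤ C * (1 - nsq (H z)) * M :=
      mul_le_mul_of_nonneg_left h7 (mul_nonneg hC h8)
    have h10 : C * (1 - nsq (H z)) * M ≤ C * (-Real.log (nsq (H z))) * M := by
      refine mul_le_mul_of_nonneg_right (mul_le_mul_of_nonneg_left ?_ hC) hM0
      linarith
    have h11 : (1 - C * (1 - nsq (H z))) * t (H z) = t (H z) - C * (1 - nsq (H z)) * t (H z) := by
      ring
    rw [h11] at h3
    nlinarith
  rw [h1]
  have h3 : |bav t H - cav t H r| ≤ C' * (TE1 omg H - TE omg H r) :=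
    TE_499.abs_bav_sub_cav_le (ref_omg I) (smX_two t ht) hC' hH hf hr0.le hr1
  have h4 := (abs_le.1 h3).2
  have h5 := normal_err hH hN hr0.le hr1
  have h6 : bav t H ≤ M := by
    have := bav_mono hI hX ht (LevBr_901.smX_const I M) (fun p hp => (abs_le.1 (hM p hp)).2) hH hf
    rwa [bav_const hI hX M hH hf] at this
  have h7 : C' * (TE1 omg H - TE omg H r) ≤ |C'| * (TE1 omg H - TE omg H r) :=
    mul_le_mul_of_nonneg_right (le_abs_self _) he
  set e := TE1 omg H - TE omg H r with hedef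
  have h8 : cav (fun p => Real.log (nsq p)) H r = -e := by linarith
  rw [h8] at h2
  have h9 : bav t H - (|C'| + C * M) * e ≤
      Real.circleAverage (fun z => ∑ i, omg (H z) (V i z)) 0 r := by nlinarith
  have hr2 : r ^ 2 ≤ 1 := by nlinarith
  have hr3 : 1 - r ^ 2 ≤ 2 * (1 - r) := by nlinarith
  have h10 : r ^ 2 * (bav t H - (|C'| + C * M) * e) ≤
      r ^ 2 * Real.circleAverage (fun z => ∑ i, omg (H z) (V i z)) 0 r :=
    mul_le_mul_of_nonneg_left h9 (sq_nonneg r)
  refine le_trans ?_ h10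
  have h11 : (1 - r ^ 2) * bav t H ≤ 2 * M * (1 - r) := by
    have : (1 - r ^ 2) * bav t H ≤ (1 - r ^ 2) * M :=
      mul_le_mul_of_nonneg_left h6 (by linarith)
    have h12 : (1 - r ^ 2) * M ≤ 2 * (1 - r) * M := mul_le_mul_of_nonneg_right hr3 hM0
    linarith
  have h12 : r ^ 2 * ((|C'| + C * M) * e) ≤ (|C'| + C * M) * e := by
    have : 0 ≤ (|C'| + C * M) * e := by positivity
    nlinarith
  have h13 : 0 ≤ 1 - r := by linarith
  nlinarith [mul_nonneg hM0 he, mul_nonneg (abs_nonneg C') h13, mul_nonneg (mul_nonneg hC hM0) h13]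

/-- (5) at the centre + AM-GM -/
theorem lspd_core (hn : 1 ≤ n) {a : EE N → VV N} {C : ℝ} {D : EE N → ℝ} (hD : SmX I D)
    (hD0 : ∀ p ∈ Cone I, 0 < D p)
    (hDD : ∀ p ∈ Cone I, ∀ b : Fin n → EE N, Rep I a p b → DD p b = D p) {H : ℂ → EE N}
    {V : Fin n → ℂ → EE N} (hH : IsDisc I H) (hV : WF I n a C H V) :
    n * Real.exp ((bav (fun p => Real.log (D p)) H - TE1 (alpha I n) H) / n) ≤
      ∑ i, omg (H 0) (V i 0) := by
  have h0 : (0 : ℂ) ∈ ball (0 : ℂ) 1 := mem_ball_self one_pos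
  have hp := hH.cone 0 h0
  have h1 := hV.det D hD hD0 hDD 0 ⟨le_rfl, one_pos⟩
  rw [TE_499.TE_zero, sub_zero] at h1
  have h2 : Real.circleAverage (fun z => Real.log (DD (H z) (fun i => V i z))) 0 0 =
      Real.log (DD (H 0) (fun i => V i 0)) := by simp
  rw [h2] at h1
  have h3 := hV.pos 0 h0
  have h4 := FldD_620.amgm hp.2 (fun i => V i 0)
  refine le_trans ?_ h4
  have hn' : (0 : ℝ) < n := by exact_mod_cast hn
  refine mul_le_mul_of_nonneg_left ?_ hn'.le
  have h5 : DD (H 0) (fun i => V i 0) ^ ((n : ℝ)⁻¹) =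
      Real.exp (Real.log (DD (H 0) (fun i => V i 0)) / n) := by
    rw [Real.rpow_def_of_pos h3, div_eq_mul_inv]
  rw [h5]
  exact Real.exp_le_exp.2 (div_le_div_of_nonneg_right h1 hn'.le)

end Crest.Agent.R269.SDI_731
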