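import Mathlib
import Crest.Agent.R269.SDI2_731

/-!
# R269 (S0411), Line B, B13: the concrete instance of `Stat_731.SD`, the maximiser (helper731)
-/

set_option autoImplicit false

open MvPolynomial Crest.AlgGeometry.ProjEmb Crest.Agent.R269.Geo_328 Metric Set Filter
open Crest.Agent.R269.Defs_58 Crest.Agent.R269.DefsS_731 Crest.Agent.R269.Iface_731
open Crest.Agent.R269.TE_499 (TE1 bav Ref Dom CDens)
open Crest.Agent.R269.WF_731
open scoped ContDiff Topology ComplexConjugate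

noncomputable section

namespace Crest.Agent.R269.SDI_731

variable {N n : ℕ} {I : Ideal (HomCoordRing N)}

/-- bound of the interior functionals -/
theorem Jf_bdd (hX : IsSmoothProjective I n) (hc : EntireCurvesConstant I) (c0 c1 : ℝ)
    {u1 : EE N → ℝ} (hu : SmX I u1) {r1 : ℝ} (hr : r1 ∈ Ioo (0 : ℝ) 1) :
    ∃ B, ∀ H, IsDisc I H → |Jf c0 c1 u1 r1 H| ≤ B := by
  obtain ⟨A, hA, hB⟩ := StMax_528.exists_brody hX hc
  obtain ⟨M, hM0, hM⟩ := LevBr_901.smX_bdd hX hu
  refine ⟨|c0| * A ^ 2 + |c1| * (A ^ 2 / (1 - r1) ^ 2 * r1 ^ 2) + (M + M), fun H hH => ?_⟩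
  have h1 : |c0 * omg (H 0) (deriv H 0)| ≤ |c0| * A ^ 2 := by
    rw [abs_mul, abs_of_nonneg (LevBr_901.omg_nonneg _ _)]
    exact mul_le_mul_of_nonneg_left (StMax_528.omg_zero_le hB hH) (abs_nonneg _)
  have h2 : |c1 * TE omg H r1| ≤ |c1| * (A ^ 2 / (1 - r1) ^ 2 * r1 ^ 2) := by
    have h3 : 0 ≤ TE omg H r1 :=
      StMax_528.TE_nonneg StMax_528.dens_omg (fun p _ v _ => LevBr_901.omg_nonneg p v) hH hr.1.le hr.2
    rw [abs_mul, abs_of_nonneg h3]
    exact mul_le_mul_of_nonneg_left (StMax_528.TE_omg_le hB hH hr.1.le hr.2) (abs_nonneg _)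
  have h3 : |cav u1 H r1 - u1 (H 0)| ≤ M + M := by
    have e1 := StMax_528.abs_cav_le (smX_cont hu) hM hH hr.1.le hr.2
    have e2 := hM (H 0) (hH.cone 0 (mem_ball_self one_pos))
    exact (abs_sub _ _).trans (add_le_add e1 e2)
  unfold Jf
  exact (abs_add_three _ _ _).trans (add_le_add (add_le_add h1 h2) h3)

theorem lt_one_le_TE1 (hI : I.IsPrime) (hX : IsSmoothProjective I n) (cθ cω : ℝ) {u : EE N → ℝ}
    (hu : SmX I u) (hG : GeO I n cθ cω u) {H : ℂ → EE N} (hH : IsDisc I H) (hf : FinE omg H) {s : ℝ}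
    (hs : s ∈ Ioo (0 : ℝ) 1) : TE (dens I n cθ cω u) H s ≤ TE1 (dens I n cθ cω u) H := by
  obtain ⟨C, hC⟩ := dom_dens hI hX cθ cω hu
  refine ge_of_tendsto (TE_499.tendsto_TE1 (ref_omg I) hC hH hf) ?_
  filter_upwards [Ioo_mem_nhdsLT hs.2] with t ht
  exact StMax_528.TE_mono_radius (dens_dens hI hX cθ cω hu)
    (fun p hp v hv => (LevBr_901.omg_nonneg p v).trans (hG p hp v hv)) hH hs.1.le ht.1.le ht.2

/-- (1)-(4) of the stationary route for the concrete discs -/
theorem stat_core (hI : I.IsPrime) (hX : IsSmoothProjective I n) (hc : EntireCurvesConstant I)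
    (c0 c1 : ℝ) {u1 : EE N → ℝ} (hu1 : SmX I u1) {r1 : ℝ} (hr1 : r1 ∈ Ioo (0 : ℝ) 1) {κ t r : ℝ}
    (hκ : 0 < κ) (ht : 0 ≤ t) (hr : r ∈ Ioo (0 : ℝ) 1) (cθ cω : ℝ) {u : EE N → ℝ} (hu : SmX I u)
    (hG : GeO I n cθ cω u) (x : Pt I) :
    ∃ f : Dsc I omg, f.H 0 = x.1 ∧
      (∀ g : Dsc I omg, g.H 0 = x.1 →
        Jf c0 c1 u1 r1 g.H - κ * (cθ * TE1 (alpha I n) g.H + cω * TE1 omg g.H +
          (bav u g.H - u x.1) - t * TE omg g.H r) ≤
        Jf c0 c1 u1 r1 f.H - κ * (cθ * TE1 (alpha I n) f.H + cω * TE1 omg f.H +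
          (bav u f.H - u x.1) - t * TE omg f.H r)) ∧
      ∃ T1, IsMx I n (Jf c0 c1 u1 r1) κ t r cθ cω u (nl f) T1 := by
  obtain ⟨A, hA, hB⟩ := StMax_528.exists_brody hX hc
  have hJ := Jf_funC hI hX c0 c1 hu1 hr1
  have hO : StFun_528.FunC I (fun H => κ * t * TE omg H r) :=
    ((StMax_528.dens_omg (I := I)).funC_TE hr).const_mul (κ * t)
  obtain ⟨B, hBJ⟩ := Jf_bdd hX hc c0 c1 hu1 hr1
  have hcF := hJ.add hO
  have hE := dens_dens hI hX cθ cω hu
  obtain ⟨H, T1, hH, hctr, hN, hlim, hle, hmax⟩ := StMax_528.exists_max_TE hX hc x.2 hcF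
    (B := B + κ * t * (A ^ 2 / (1 - r) ^ 2 * r ^ 2)) (fun H hH _ => by
      have h1 := (abs_le.1 (hBJ H hH)).2
      have h2 := mul_le_mul_of_nonneg_left (StMax_528.TE_omg_le hB hH hr.1.le hr.2)
        (mul_nonneg hκ.le ht)
      exact add_le_add h1 h2) hE one_pos (fun p hp v hv => by
      rw [one_mul]; exact hG p hp v hv) hκ
  obtain ⟨c, hc0, hcH⟩ := StMax_528.Ctr.exists_smul x.2 hH hctr
  have hfin : FinE omg H := normal_fin hH hN
  -- the disc with the exact centre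
  set φ0 : ℂ → ℂ := fun _ => Complex.log c⁻¹ with hφ0
  have hφd : DifferentiableOn ℂ φ0 (ball 0 1) := differentiableOn_const _
  have hexp : Complex.exp (Complex.log c⁻¹) = c⁻¹ := Complex.exp_log (inv_ne_zero hc0)
  set f : Dsc I omg := ⟨StCpt_528.tw φ0 H, StFun_528.IsDisc.tw hX hH hφd, finE_tw hH hfin hφd⟩ with hf
  have hf0 : f.H 0 = x.1 := by
    show Complex.exp (Complex.log c⁻¹) • H 0 = x.1
    rw [hexp, hcH, smul_smul, inv_mul_cancel₀ hc0, one_smul]
  obtain ⟨CE, hCE⟩ := dom_dens hI hX cθ cω hu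
  have hT1 : TE1 (dens I n cθ cω u) H = T1 := TE_499.TE1_unique hlim
  have hT1f : TE1 (dens I n cθ cω u) f.H = T1 := by
    rw [← hT1]; exact TE1_tw hE hCE hH hfin hφd
  have hcf : (Jf c0 c1 u1 r1 f.H + κ * t * TE omg f.H r) = Jf c0 c1 u1 r1 H + κ * t * TE omg H r :=
    hcF.inv H φ0 hH hφd
  refine ⟨f, hf0, fun g hg => ?_, T1, ?_⟩
  · have h1 := hmax g.H (TE1 (dens I n cθ cω u) g.H) g.disc (StMax_528.ctr_of_smul (a := 1) (by
      rw [hg, one_smul])) (fun s hs => lt_one_le_TE1 hI hX cθ cω hu hG g.disc g.fin hs)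
    have h2 := TE1_dens hI hX cθ cω hu g.disc g.fin
    have h3 := TE1_dens hI hX cθ cω hu f.disc f.fin
    rw [hg] at h2
    rw [hf0, hT1f] at h3
    rw [h2] at h1
    rw [h3] at h1
    have h4 := hcf
    linarith
  · have hnl : IsDisc I (nl f) := nl_disc hX f
    have htw1 : ∀ {E : EE N → EE N → ℝ}, StFun_528.Dens I E → ∀ s ∈ Ioo (0 : ℝ) 1,
        TE E (nl f) s = TE E H s := fun hE' s hs => by
      rw [show TE _ (nl f) s = TE _ f.H s from TE_tw hE' f.disc (ph_diff f) hs]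
      exact TE_tw hE' hH hφd hs
    have hcn : Jf c0 c1 u1 r1 (nl f) + κ * t * TE omg (nl f) r =
        Jf c0 c1 u1 r1 H + κ * t * TE omg H r := by
      rw [← hcf]; exact hcF.inv f.H (ph f) f.disc (ph_diff f)
    refine ⟨hnl, nl_normal f, ?_, fun G K hGd hGc hGK => ?_⟩
    · refine hlim.congr' ?_
      filter_upwards [Ioo_mem_nhdsLT (show (0 : ℝ) < 1 by norm_num)] with s hs
      exact (htw1 hE s hs).symm
    · obtain ⟨c', hc', hG0⟩ := hGc
      have hn0 : nl f 0 = Complex.exp (ph f 0) • x.1 := by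
        rw [← hf0]; rfl
      have h1 := hmax G K hGd (StMax_528.ctr_of_smul (a := c' * Complex.exp (ph f 0)) (by
        rw [hG0, hn0, smul_smul])) hGK
      rw [hcn]
      exact h1

/-! ### the instance -/

theorem smP_add {u v : Pt I → ℝ} (hu : SmP I u) (hv : SmP I v) : SmP I fun x => u x + v x := by
  obtain ⟨w, hw, h⟩ := hu
  obtain ⟨w', hw', h'⟩ := hv
  exact ⟨_, LevBr_901.smX_add hw hw', fun x => by show u x + v x = _; rw [h, h']⟩

theorem smP_smul {u : Pt I → ℝ} (c : ℝ) (hu : SmP I u) : SmP I fun x => c * u x := by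
  obtain ⟨w, hw, h⟩ := hu
  exact ⟨_, LevBr_901.smX_const_mul c hw, fun x => by show c * u x = _; rw [h]⟩

theorem exists_ldet (hI : I.IsPrime) (hX : IsSmoothProjective I n) (a : PF I n) :
    ∃ D : EE N → ℝ, SmX I D ∧ (∀ p ∈ Cone I, 0 < D p) ∧
      (∀ p ∈ Cone I, ∀ b : Fin n → EE N, Rep I a.1 p b → DD p b = D p) :=
  FldE_620.exists_detF hI hX a.2

theorem lev_zero_ext {w : EE N → ℝ} (hI : I.IsPrime) (hX : IsSmoothProjective I n) (hw : SmX I w)
    (h0 : ∀ p ∈ Cone I, w p = 0) {p : EE N} (hp : p ∈ Cone I) {v : EE N} (hv : v ∈ Tan I p) :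
    lev w p v = 0 := by
  rw [LevBr_901.levCone N n I hI hX w (fun _ => 0) p hp (hw.1 p hp) contDiffAt_const
    (Eventually.of_forall fun q hq => h0 q hq) v hv]
  exact levZ p v

theorem lev_ext {w w' : EE N → ℝ} (hI : I.IsPrime) (hX : IsSmoothProjective I n) (hw : SmX I w)
    (hw' : SmX I w') (h0 : ∀ p ∈ Cone I, w p = w' p) {p : EE N} (hp : p ∈ Cone I) {v : EE N}
    (hv : v ∈ Tan I p) : lev w p v = lev w' p v :=
  LevBr_901.levCone N n I hI hX w w' p hp (hw.1 p hp) (hw'.1 p hp)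
    (Eventually.of_forall fun q hq => h0 q hq) v hv

theorem ct_trLP (hI : I.IsPrime) (hX : IsSmoothProjective I n) (a : PF I n) (u : Pt I → ℝ) :
    SmP I (trLP a u) := by
  obtain ⟨t, ht, h⟩ := exists_trL hI hX a (smX_sx u)
  exact ⟨t, ht, fun x => (h x.1 x.2 _ (fr_rep a x)).symm⟩

theorem ct_trAP (hI : I.IsPrime) (hX : IsSmoothProjective I n) (a : PF I n) :
    SmP I (trAP a) := by
  obtain ⟨t, ht, h⟩ := exists_trA hI hX a
  exact ⟨t, ht, fun x => (h x.1 x.2 _ (fr_rep a x)).symm⟩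

theorem ct_trOP (hX : IsSmoothProjective I n) (a : PF I n) :
    SmP I (trOP a) := by
  obtain ⟨t, ht, h⟩ := exists_trO hX a
  exact ⟨t, ht, fun x => (h x.1 x.2 _ (fr_rep a x)).symm⟩

theorem ct_ldetP (hI : I.IsPrime) (hX : IsSmoothProjective I n) (a : PF I n) :
    SmP I (ldetP a) := by
  obtain ⟨D, hD, hD0, h⟩ := exists_ldet hI hX a
  exact ⟨fun p => Real.log (D p), LevBr_901.smX_log hD fun p hp => (hD0 p hp).ne', fun x => by
    unfold ldetP; rw [h x.1 x.2 _ (fr_rep a x)]⟩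

theorem exists_fld (hI : I.IsPrime) (hX : IsSmoothProjective I n) : Nonempty (PF I n) := by
  obtain ⟨a, ha, -⟩ := FldF_620.exists_gInv hI hX
  exact ⟨⟨a, ha⟩⟩

theorem dens_smX_congr (hI : I.IsPrime) (hX : IsSmoothProjective I n) {cθ cω : ℝ}
    {w w' : EE N → ℝ} (hw : SmX I w) (hw' : SmX I w') (h0 : ∀ p ∈ Cone I, w p = w' p)
    (h : GeO I n cθ cω w) : GeO I n cθ cω w' := by
  intro p hp v hv
  have h1 := h p hp v hv
  unfold dens at h1 ⊢
  rwa [lev_ext hI hX hw hw' h0 hp hv] at h1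

/-- **the concrete instance** -/
def sd (hI : I.IsPrime) (hX : IsSmoothProjective I n) (hn : 1 ≤ n) (hc : EntireCurvesConstant I)
    (hW : HW I n) : Stat_731.SD where
  X := Pt I
  Disc := Dsc I omg
  Fld := PF I n
  n := n
  hn := hn
  ctr f := ⟨f.H 0, f.disc.cone 0 (mem_ball_self one_pos)⟩
  cst := cstP
  ctr_cst _ := rfl
  Ct := SmP I
  ct_const c := ⟨fun _ => c, LevBr_901.smX_const I c, fun _ => rfl⟩
  ct_add := smP_add
  ct_smul := smP_smul
  ct_bdd := by
    rintro u ⟨w, hw, h⟩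
    obtain ⟨C, -, hC⟩ := LevBr_901.smX_bdd hX hw
    exact ⟨C, fun x => by rw [h]; exact hC x.1 x.2⟩
  Sm := SmP I
  sm_zero := ⟨fun _ => 0, LevBr_901.smX_const I 0, fun _ => rfl⟩
  ct_sm h := h
  avg := avgP
  avg_const c f := by
    rw [avgP_eq hI hX (LevBr_901.smX_const I c) (fun _ => rfl)]
    exact bav_const hI hX c f.disc f.fin
  avg_add := by
    rintro u v ⟨w, hw, h⟩ ⟨w', hw', h'⟩ f
    rw [avgP_eq hI hX (LevBr_901.smX_add hw hw') (fun x => by rw [h, h']), avgP_eq hI hX hw h,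
      avgP_eq hI hX hw' h']
    exact bav_add hI hX hw hw' f.disc f.fin
  avg_smul := by
    rintro u c ⟨w, hw, h⟩ f
    rw [avgP_eq hI hX (LevBr_901.smX_const_mul c hw) (fun x => by rw [h]), avgP_eq hI hX hw h]
    exact bav_const_mul hI hX c hw f.disc f.fin
  avg_mono := by
    rintro u v ⟨w, hw, h⟩ ⟨w', hw', h'⟩ huv f
    rw [avgP_eq hI hX hw h, avgP_eq hI hX hw' h']
    refine bav_mono hI hX hw hw' (fun p hp => ?_) f.disc f.fin
    have := huv ⟨p, hp⟩
    rwa [h, h'] at this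
  avg_cst := by
    rintro u ⟨w, hw, h⟩ x
    rw [avgP_eq hI hX hw h, h]
    show bav w (fun _ => x.1) = w x.1
    rw [bav_eq, TE1_const (LevBr_901.lev_zero_vec w x.1), add_zero]
  k f := TE1 (alpha I n) f.H
  T f := TE1 omg f.H
  spd f := omg (f.H 0) (deriv f.H 0)
  k_cst x := TE1_const (alpha_zero I x.1)
  T_cst x := TE1_const (LevBr_901.omg_zero x.1)
  spd_nonneg f := LevBr_901.omg_nonneg _ _
  Tr r f := TE omg f.H r
  Tr_nonneg := fun {r f} h0 h1 => StMax_528.TE_nonneg StMax_528.dens_omg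
    (fun p _ v _ => LevBr_901.omg_nonneg p v) f.disc h0.le h1
  Tr_le := fun {r f} h0 h1 => TE_499.TE_le_TE1 (ref_omg I) f.disc f.fin h0.le h1
  Tr_tendsto f ε hε := by
    have h := TE_499.tendsto_err (ref_omg I) f.disc f.fin
    have h1 := h.eventually (gt_mem_nhds hε)
    rw [eventually_nhdsWithin_iff, Metric.eventually_nhds_iff] at h1
    obtain ⟨δ, hδ, h1⟩ := h1
    refine ⟨1 - δ, by linarith, fun r hr0 hr1 => ?_⟩
    have h2 := h1 (y := r) (by rw [Real.dist_eq, abs_lt]; constructor <;> linarith) hr1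
    linarith
  Tr_bdd := fun {r} h0 h1 => by
    obtain ⟨A, hA, hB⟩ := StMax_528.exists_brody hX hc
    exact ⟨A ^ 2 / (1 - r) ^ 2 * r ^ 2, fun f => StMax_528.TE_omg_le hB f.disc h0.le h1⟩
  A := (StMax_528.exists_brody hX hc).choose
  schwarz f := StMax_528.omg_zero_le (StMax_528.exists_brody hX hc).choose_spec.2 f.disc
  ldet := ldetP
  trA := trAP
  trO := trOP
  trL := trLP
  ct_ldet := ct_ldetP hI hX
  ct_trA := ct_trAP hI hX
  ct_trO := ct_trOP hX
  ct_trL a u _ := ct_trLP hI hX a u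
  trL_zero a x := by
    refine Finset.sum_eq_zero fun i _ => ?_
    exact lev_zero_ext hI hX (smX_sx _) (fun p hp => sx_restrict (LevBr_901.smX_const I 0) hp) x.2
      ((fr_rep a x).1 i)
  Ge p q u := GeO I n p q (sx u)
  ge_ex := by
    intro p q u _
    obtain ⟨C, hC⟩ := PosC_632.bdd_all hI hX (smX_sx u) p q
    refine ⟨|C| + 1, by positivity, fun x hx v hv => ?_⟩
    have h1 := (abs_le.1 (hC x hx v hv)).1
    have h2 := LevBr_901.omg_nonneg x v
    have h3 := le_abs_self C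
    have h4 : C * omg x v ≤ |C| * omg x v := mul_le_mul_of_nonneg_right h3 h2
    show omg x v ≤ p * alpha I n x v + (q + (|C| + 1)) * omg x v + lev (sx u) x v
    have h5 : (q + (|C| + 1)) * omg x v = q * omg x v + |C| * omg x v + omg x v := by ring
    rw [h5]
    linarith
  T_le := by
    intro p q u hu hG f
    have h1 := TE1_dens hI hX p q (smX_sx u) f.disc f.fin
    obtain ⟨C, hC⟩ := dom_dens hI hX p q (smX_sx u)
    have h2 := TE_499.TE1_le (ref_omg I) (ref_omg I).dom hC f.disc f.fin hG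
    rw [h1] at h2
    have h3 : sx u (f.H 0) = u ⟨f.H 0, f.disc.cone 0 (mem_ball_self one_pos)⟩ :=
      sx_eq hu ⟨f.H 0, f.disc.cone 0 (mem_ball_self one_pos)⟩
    rw [h3] at h2
    exact h2
  fld := (exists_fld hI hX).some
  Int := IntP hX hW
  int_zero := int_zero hX hW
  Lspd := LspdP hX hW
  int_spd := int_spd hX hW
  Lspd_ge a f := by
    obtain ⟨D, hD, hD0, hDD⟩ := exists_ldet hI hX a
    have h := lspd_core hn hD hD0 hDD (nl_disc hX f) (vW_spec hX hW a f)
    have h1 : avgP (ldetP a) f = bav (fun p => Real.log (D p)) (nl f) := by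
      rw [avgP_eq hI hX (LevBr_901.smX_log hD fun p hp => (hD0 p hp).ne') (fun x => by
        unfold ldetP; rw [hDD x.1 x.2 _ (fr_rep a x)])]
      exact (bav_tw hI hX (LevBr_901.smX_log hD fun p hp => (hD0 p hp).ne') f.disc f.fin
        (ph_diff f)).symm
    obtain ⟨Ca, hCa⟩ := dom_alpha hI hX
    have h2 : TE1 (alpha I n) f.H = TE1 (alpha I n) (nl f) :=
      (TE1_tw (dens_alpha hI hX) hCa f.disc f.fin (ph_diff f)).symm
    rw [h1, h2]
    exact h
  S := SP hX hW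
  S_nonneg := fun {r} h0 h1 a f => by
    refine Finset.sum_nonneg fun i _ => ?_
    exact Real.circleAverage_nonneg_of_nonneg fun z _ =>
      mul_nonneg (sq_nonneg _) (LevBr_901.omg_nonneg _ _)
  key := by
    intro a η hη
    obtain ⟨t, ht, htr⟩ := exists_trO hX a
    obtain ⟨K, hK, h⟩ := key_core hI hX a ht htr (cW_nonneg hW a)
    refine ⟨η / (2 * K), by positivity, fun r f h0 h1 h2 h3 => ?_⟩
    have h4 := h (nl f) (vW hX hW a f) (nl_disc hX f) (nl_normal f) (vW_spec hX hW a f) r h0 h2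
    have h5 : avgP (trOP a) f = bav t (nl f) := by
      rw [avgP_eq hI hX (u := trOP a) ht (fun x => (htr x.1 x.2 _ (fr_rep a x)).symm)]
      exact (bav_tw hI hX ht f.disc f.fin (ph_diff f)).symm
    have h6 : TE1 omg (nl f) = TE1 omg f.H :=
      TE1_tw StMax_528.dens_omg (ref_omg I).dom f.disc f.fin (ph_diff f)
    have h7 : TE omg (nl f) r = TE omg f.H r :=
      TE_tw StMax_528.dens_omg f.disc (ph_diff f) ⟨h0, h2⟩
    rw [h6, h7] at h4
    rw [h5]
    refine le_trans ?_ h4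
    have h8 : K * ((TE1 omg f.H - TE omg f.H r) + (1 - r)) ≤
        K * (η / (2 * K) + η / (2 * K)) := mul_le_mul_of_nonneg_left (by linarith) hK.le
    have h9 : K * (η / (2 * K) + η / (2 * K)) = η := by field_simp; norm_num
    linarith
  stat := by
    intro J LJ hJ κ t r hκ ht h0 h1 p q u hu hG x
    obtain ⟨c0, c1, u1, r1, hu1, hr1, hJ1, hJ2⟩ := hJ
    obtain ⟨f, hf0, hmax, T1, hmx⟩ := stat_core hI hX hc c0 c1 hu1 hr1 hκ ht ⟨h0, h1⟩ p q
      (smX_sx u) hG x
    refine ⟨f, Subtype.ext hf0, fun g hg => ?_, fun a => ?_⟩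
    · have h2 := hmax g (congrArg Subtype.val hg)
      rw [sx_eq hu x] at h2
      rw [hJ1, hJ1]
      exact h2
    · obtain ⟨tA, htA, hA⟩ := exists_trA hI hX a
      obtain ⟨tO, htO, hO⟩ := exists_trO hX a
      obtain ⟨tL, htL, hL⟩ := exists_trL hI hX a (smX_sx u)
      have hs1 := LevBr_901.smX_add (LevBr_901.smX_const_mul p htA) (LevBr_901.smX_const_mul q htO)
      have hs2 := LevBr_901.smX_add hs1 htL
      have h2 := (vW_spec hX hW a f).var c0 c1 u1 r1 κ t r p q (sx u) T1 hu1 hr1 hκ ht ⟨h0, h1⟩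
        (smX_sx u) hG hmx (fun y => p * tA y + q * tO y + tL y) hs2 (fun y hy b hb => by
          simp only [dens]
          rw [hA y hy b hb, hO y hy b hb, hL y hy b hb, Finset.sum_add_distrib,
            Finset.sum_add_distrib, Finset.mul_sum, Finset.mul_sum])
      have h3 : bav (fun y => p * tA y + q * tO y + tL y) (nl f) =
          p * avgP (trAP a) f + q * avgP (trOP a) f + avgP (trLP a u) f := by
        rw [avgP_eq hI hX (u := trAP a) htA (fun x => (hA x.1 x.2 _ (fr_rep a x)).symm),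
          avgP_eq hI hX (u := trOP a) htO (fun x => (hO x.1 x.2 _ (fr_rep a x)).symm),
          avgP_eq hI hX (u := trLP a u) htL (fun x => (hL x.1 x.2 _ (fr_rep a x)).symm)]
        rw [show bav (fun y => p * tA y + q * tO y + tL y) (nl f) =
          bav (fun y => p * tA y + q * tO y + tL y) f.H from bav_tw hI hX hs2 f.disc f.fin (ph_diff f)]
        rw [bav_add hI hX hs1 htL f.disc f.fin, bav_add hI hX (LevBr_901.smX_const_mul p htA)
          (LevBr_901.smX_const_mul q htO) f.disc f.fin, bav_const_mul hI hX p htA f.disc f.fin,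
          bav_const_mul hI hX q htO f.disc f.fin]
      rw [h3, Finset.sum_add_distrib, ← Finset.mul_sum] at h2
      rw [hJ2]
      exact h2

end Crest.Agent.R269.SDI_731
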