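import Mathlib
import Crest.Agent.R269.SDI3_731

/-!
# R269 (S0411), Line B, B13: `TStmt` and `TDelStmt` from `WFStmt` and `HintStmt` (helper731)
-/

set_option autoImplicit false

open MvPolynomial Crest.AlgGeometry.ProjEmb Crest.Agent.R269.Geo_328 Metric Set Filter
open Crest.Agent.R269.Defs_58 Crest.Agent.R269.DefsS_731 Crest.Agent.R269.Iface_731
open Crest.Agent.R269.TE_499 (TE1 bav Ref Dom CDens)
open Crest.Agent.R269.WF_731
open scoped ContDiff Topology ComplexConjugate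

noncomputable section

namespace Crest.Agent.R269.SDI_731

variable {N n : ℕ} {I : Ideal (HomCoordRing N)}

theorem trLP_restrict (hI : I.IsPrime) (hX : IsSmoothProjective I n) (a : PF I n) {u : EE N → ℝ}
    (hu : SmX I u) (x : Pt I) :
    trLP a (fun y : Pt I => u y.1) x = ∑ i, lev u x.1 (fr a x i) := by
  refine Finset.sum_congr rfl fun i _ => ?_
  exact lev_ext hI hX (smX_sx _) hu (fun p hp => sx_restrict hu hp) x.2 ((fr_rep a x).1 i)

/-- a positive field as an element of `PF` -/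
def mkPF {a : EE N → VV N} (ha : PosField I n a) : PF I n := ⟨a, ha⟩

/-- (T) -/
theorem tP (hI : I.IsPrime) (hX : IsSmoothProjective I n) (hn : 1 ≤ n) (hc : EntireCurvesConstant I)
    (hW : HW I n) : TP I n := by
  set P := sd hI hX hn hc hW with hP
  refine ⟨P.lam, P.lam_pos, P.lam, P.lam_pos, fun e he a ha u hu h => ?_⟩
  obtain ⟨a', ρ, ha', hρ, hρ0, hρa, hρD, hD⟩ := FldF_620.exists_posField_unimod (n := n) hn hI hX ha
  have key := P.T_main (c₀ := P.lam) le_rfl he (mkPF ha')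
    (u := fun x : Pt I => u x.1) ⟨u, hu, fun _ => rfl⟩ (fun (x : Pt I) => ?_)
  · intro p hp
    exact key ⟨p, hp⟩
  · -- the frame of `a'` is `√ρ` times a frame of `a`
    have hr : Rep I a' x.1 (fr (mkPF ha') x) := fr_rep (mkPF ha') x
    obtain ⟨b, hb, hbb⟩ := FldF_620.rep_scale_inv (hρ0 x.1 x.2) hr (hρa x.1)
    have h1 := h x.1 x.2 b hb
    rw [hρD x.1 x.2 b hb] at h1
    have h2 : ldetP (mkPF ha') x = 0 := by
      unfold ldetP
      rw [hD x.1 x.2 _ hr, Real.log_one]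
    have h3 : trAP (mkPF ha') x + e * trOP (mkPF ha') x +
        trLP (mkPF ha') (fun y : Pt I => u y.1) x =
        ρ x.1 * ∑ i, (alpha I n x.1 (b i) + e * omg x.1 (b i) + lev u x.1 (b i)) := by
      rw [trLP_restrict hI hX _ hu]
      unfold trAP trOP
      rw [Finset.mul_sum, Finset.mul_sum, ← Finset.sum_add_distrib, ← Finset.sum_add_distrib]
      refine Finset.sum_congr rfl fun i _ => ?_
      have e1 : fr (mkPF ha') x i = ((Real.sqrt (ρ x.1) : ℝ) : ℂ) • b i := congrFun hbb i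
      rw [e1, FldF_620.alpha_smul_vec, LevBr_901.omg_smul_vec, LevBr_901.lev_smul_vec,
        FldF_620.norm_sqrt_sq (hρ0 x.1 x.2).le]
      ring
    have h4 : ρ x.1 * ∑ i, (alpha I n x.1 (b i) + e * omg x.1 (b i) + lev u x.1 (b i)) ≤
        n * P.lam + P.lam * u x.1 := by
      have h5 := mul_le_mul_of_nonneg_left h1 (hρ0 x.1 x.2).le
      refine h5.trans (le_of_eq ?_)
      have := (hρ0 x.1 x.2).ne'
      field_simp
    show trAP (mkPF ha') x + e * trOP (mkPF ha') x +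
        trLP (mkPF ha') (fun y : Pt I => u y.1) x ≤
        (n : ℝ) * P.lam + P.lam * u x.1 + P.lam * ldetP (mkPF ha') x
    rw [h2, h3, mul_zero, add_zero]
    exact h4

/-- the functional `Θ`, for one pair `(I, n)` -/
def HH (I : Ideal (HomCoordRing N)) (n : ℕ) : Prop :=
    ∀ a : EE N → VV N, PosField I n a → ∀ C : ℝ, 0 ≤ C →
    ∃ m₁ δ c CΘ : ℝ, 0 ≤ m₁ ∧ 0 < δ ∧ 0 < c ∧ ∀ R : ℝ, ∃ (c1 : ℝ) (u1 : EE N → ℝ), SmX I u1 ∧
      (∀ H, IsDisc I H → |Jf 0 c1 u1 (1 / 2) H| ≤ CΘ) ∧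
      ∀ H V, IsDisc I H → Normal H → TE1 omg H ≤ R → WF I n a C H V →
        c * Real.exp (-(kdl I n m₁ δ H / n)) ≤ ∑ i, LJf 0 c1 u1 (1 / 2) H (V i)

/-- (T_δ) -/
theorem tDelP (hI : I.IsPrime) (hX : IsSmoothProjective I n) (hn : 1 ≤ n)
    (hc : EntireCurvesConstant I) (hW : HW I n) (hH : HH I n) : TDelP I n := by
  set P := sd hI hX hn hc hW with hP
  set a : PF I n := (exists_fld hI hX).some with ha
  obtain ⟨m₁, δ, c, CΘ, hm, hδ, hc', hR⟩ := hH a.1 a.2 (cW hW a) (cW_nonneg hW a)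
  have hkd : ∃ C₃, 0 ≤ C₃ ∧ ∀ f, -C₃ ≤ P.kd m₁ δ f := by
    refine P.kdel_ge m₁ δ a ⟨c, CΘ, hc', fun R => ?_⟩
    obtain ⟨c1, u1, hu1, h1, h2⟩ := hR R
    refine ⟨fun f => Jf 0 c1 u1 (1 / 2) f.H, fun a f => ∑ i, LJf 0 c1 u1 (1 / 2) (nl f)
      (vW hX hW a f i), ⟨0, c1, u1, 1 / 2, hu1, ⟨by norm_num, by norm_num⟩, fun _ => rfl,
        fun _ _ => rfl⟩, fun f => h1 f.H f.disc, fun f hf => ?_⟩
    have h3 : TE1 omg (nl f) = TE1 omg f.H :=
      TE1_tw StMax_528.dens_omg (ref_omg I).dom f.disc f.fin (ph_diff f)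
    obtain ⟨Ca, hCa⟩ := dom_alpha hI hX
    have h4 : TE1 (alpha I n) (nl f) = TE1 (alpha I n) f.H :=
      TE1_tw (dens_alpha hI hX) hCa f.disc f.fin (ph_diff f)
    have h5 := h2 (nl f) (vW hX hW a f) (nl_disc hX f) (nl_normal f) (by rw [h3]; exact hf)
      (vW_spec hX hW a f)
    have h6 : P.kd m₁ δ f = kdl I n m₁ δ (nl f) := by
      unfold kdl
      rw [h3, h4]
      rfl
    rw [h6]
    exact h5
  obtain ⟨C₃, -, hC₃⟩ := hkd
  refine ⟨1 + δ * m₁, by nlinarith [mul_nonneg hδ.le hm], δ, hδ, C₃, fun b hb u hu h => ?_⟩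
  have key := P.T_del (m₁ := m₁) (δ := δ) hC₃ (mkPF hb)
    (u := fun x : Pt I => u x.1) ⟨u, hu, fun _ => rfl⟩ (fun (x : Pt I) => ?_)
  · intro p hp
    exact key ⟨p, hp⟩
  · have h1 := h x.1 x.2 _ (fr_rep (mkPF hb) x)
    show (1 + δ * m₁) * trAP (mkPF hb) x - δ * trOP (mkPF hb) x +
        trLP (mkPF hb) (fun y : Pt I => u y.1) x ≤ u x.1
    rw [trLP_restrict hI hX _ hu]
    unfold trAP trOP
    rw [Finset.mul_sum, Finset.mul_sum, ← Finset.sum_sub_distrib, ← Finset.sum_add_distrib]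
    exact h1

theorem tStmt (hW : WFStmt) : TStmt := fun N n I hI hX hn hc =>
  tP hI hX hn hc (hW N n I hI hX hn hc)

theorem tDelStmt (hW : WFStmt) (hH : HintStmt) : TDelStmt := fun N n I hI hX hn hc hB =>
  tDelP hI hX hn hc (hW N n I hI hX hn hc) (hH N n I hI hX hn hc hB)

end Crest.Agent.R269.SDI_731
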