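import Mathlib
import Crest.Agent.R269.SDI4_731
import Crest.Agent.R269.Half5_993

/-!
# R269 (S0411), Line B, B13: `TStmt` and `TDelStmt` from `WFStmt` (helper731)
-/

set_option autoImplicit false

namespace Crest.Agent.R269.Fin_731

open Crest.Agent.R269.Defs_58 Crest.Agent.R269.WF_731

theorem tStmt_of (hW : WFStmt) : TStmt := SDI_731.tStmt hW

theorem tDelStmt_of (hW : WFStmt) : TDelStmt := SDI_731.tDelStmt hW Half5_993.hintStmt

end Crest.Agent.R269.Fin_731
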