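import Crest.Agent.R269.GeoT_328
import Crest.Agent.R269.Frm2_290

/-!
# R269 (S0411), leaf FLD, part A (helper620): linear algebra of frames and Hermitian fields

Pure matrix facts: two frames of the same positive field differ by a unitary matrix, the Gram
determinant of a frame is a function of the field, horizontal projection, Gram determinants of
`(p, b)`, the AM-GM inequality.
-/

set_option autoImplicit false
set_option linter.unusedSectionVars false

open Matrix Crest.AlgGeometry.ProjEmb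
open scoped ComplexConjugate ComplexOrder MatrixOrder

namespace Crest.Agent.R269.FldA_620

open Crest.Agent.R269.Geo_328 Crest.Agent.R269.DetIneq271

noncomputable section

section Mat

variable {ι κ : Type*} [Fintype ι] [DecidableEq ι] [Fintype κ] [DecidableEq κ]

/-- two matrices with `B' B'ᴴ = B Bᴴ`, `B` injective, differ by a unitary -/
theorem exists_unitary {B B' : Matrix ι κ ℂ} (hB : IsUnit (Bᴴ * B).det)
    (h : B' * B'ᴴ = B * Bᴴ) :
    ∃ U : Matrix κ κ ℂ, U * Uᴴ = 1 ∧ Uᴴ * U = 1 ∧ B' = B * U := by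
  obtain ⟨L, hLB⟩ : ∃ L : Matrix κ ι ℂ, L * B = 1 :=
    ⟨(Bᴴ * B)⁻¹ * Bᴴ, by rw [Matrix.mul_assoc, Matrix.nonsing_inv_mul _ hB]⟩
  have h0 : (B' - B * (L * B')) * (B' - B * (L * B'))ᴴ = 0 := by
    have e1 : B' - B * (L * B') = (1 - B * L) * B' := by
      rw [Matrix.sub_mul, Matrix.one_mul, Matrix.mul_assoc]
    have e2 : (1 - B * L) * B = 0 := by
      rw [Matrix.sub_mul, Matrix.one_mul, Matrix.mul_assoc, hLB, Matrix.mul_one, sub_self]
    calc (B' - B * (L * B')) * (B' - B * (L * B'))ᴴ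
        = (1 - B * L) * (B' * B'ᴴ) * (1 - B * L)ᴴ := by
          rw [e1, Matrix.conjTranspose_mul]; simp only [Matrix.mul_assoc]
      _ = ((1 - B * L) * B) * Bᴴ * (1 - B * L)ᴴ := by
          rw [h]; simp only [Matrix.mul_assoc]
      _ = 0 := by rw [e2, Matrix.zero_mul, Matrix.zero_mul]
  have h1 : B' = B * (L * B') := by
    rw [Matrix.self_mul_conjTranspose_eq_zero] at h0
    exact sub_eq_zero.1 h0
  have h2 : (L * B') * (L * B')ᴴ = 1 := by
    calc (L * B') * (L * B')ᴴ = L * (B' * B'ᴴ) * Lᴴ := by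
          rw [Matrix.conjTranspose_mul]; simp only [Matrix.mul_assoc]
      _ = (L * B) * (L * B)ᴴ := by
          rw [h, Matrix.conjTranspose_mul L B]; simp only [Matrix.mul_assoc]
      _ = 1 := by rw [hLB, Matrix.conjTranspose_one, Matrix.one_mul]
  exact ⟨L * B', h2, mul_eq_one_comm.1 h2, h1⟩

/-- the Gram determinant does not change under a unitary -/
theorem det_gram_mul_unitary {B : Matrix ι κ ℂ} {U : Matrix κ κ ℂ} (hU : Uᴴ * U = 1) :
    ((B * U)ᴴ * (B * U)).det = (Bᴴ * B).det := by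
  have e : (B * U)ᴴ * (B * U) = Uᴴ * (Bᴴ * B) * U := by
    rw [Matrix.conjTranspose_mul]; simp only [Matrix.mul_assoc]
  have h1 := congrArg Matrix.det hU
  rw [Matrix.det_mul, Matrix.det_one] at h1
  rw [e, Matrix.det_mul, Matrix.det_mul, mul_comm, ← mul_assoc, mul_comm U.det, h1, one_mul]

theorem det_gram_congr {B B' : Matrix ι κ ℂ} (hB : IsUnit (Bᴴ * B).det)
    (h : B' * B'ᴴ = B * Bᴴ) : (B'ᴴ * B').det = (Bᴴ * B).det := by
  obtain ⟨U, -, hU, rfl⟩ := exists_unitary hB h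
  exact det_gram_mul_unitary hU

/-- `det (E S Eᴴ + (1 - E Eᴴ)) = det S` for an isometry `E` -/
theorem det_add_one_sub {E : Matrix ι κ ℂ} (hE : Eᴴ * E = 1) (S : Matrix κ κ ℂ) :
    (E * S * Eᴴ + (1 - E * Eᴴ)).det = S.det := by
  have e : E * S * Eᴴ + (1 - E * Eᴴ) = 1 + (E * (S - 1)) * Eᴴ := by
    rw [Matrix.mul_sub, Matrix.sub_mul, Matrix.mul_one]; abel
  rw [e, Matrix.det_one_add_mul_comm, ← Matrix.mul_assoc, hE, Matrix.one_mul, add_sub_cancel]

/-- `det (B Bᴴ + (1 - E Eᴴ)) = det (Bᴴ B)` if the columns of `B` lie in the range of the isometry -/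
theorem det_frame {E B : Matrix ι κ ℂ} (hE : Eᴴ * E = 1) (hB : E * Eᴴ * B = B) :
    (B * Bᴴ + (1 - E * Eᴴ)).det = (Bᴴ * B).det := by
  have e : B * Bᴴ = E * ((Eᴴ * B) * (Eᴴ * B)ᴴ) * Eᴴ := by
    conv_lhs => rw [← hB]
    simp only [Matrix.conjTranspose_mul, Matrix.conjTranspose_conjTranspose, Matrix.mul_assoc]
  rw [e, det_add_one_sub hE, Matrix.det_mul_comm]
  congr 1
  rw [Matrix.conjTranspose_mul, Matrix.conjTranspose_conjTranspose]
  calc Bᴴ * E * (Eᴴ * B) = Bᴴ * (E * Eᴴ * B) := by simp only [Matrix.mul_assoc]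
    _ = Bᴴ * B := by rw [hB]

/-- a Hermitian matrix supported on the range of the isometry `E` is `E S Eᴴ` -/
theorem eq_conj_of_supp {E : Matrix ι κ ℂ} {A : Matrix ι ι ℂ} (h1 : E * Eᴴ * A = A)
    (h2 : A * (E * Eᴴ) = A) : A = E * (Eᴴ * A * E) * Eᴴ := by
  calc A = (E * Eᴴ * A) * (E * Eᴴ) := by rw [h1, h2]
    _ = _ := by simp only [Matrix.mul_assoc]

theorem exists_mul_conjTranspose {S : Matrix κ κ ℂ} (hS : S.PosSemidef) :
    ∃ C : Matrix κ κ ℂ, S = C * Cᴴ := by
  refine ⟨CFC.sqrt S, ?_⟩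
  have h1 : (CFC.sqrt S)ᴴ = CFC.sqrt S := (CFC.sqrt_nonneg S).posSemidef.isHermitian
  rw [h1]
  exact (CFC.sqrt_mul_sqrt_self S hS.nonneg).symm

/-- `Eᴴ M E` is positive definite for `M` positive definite and `E` an isometry -/
theorem posDef_compress {E : Matrix ι κ ℂ} (hE : Eᴴ * E = 1) {M : Matrix ι ι ℂ} (hM : M.PosDef) :
    (Eᴴ * M * E).PosDef := by
  refine hM.conjTranspose_mul_mul_same ?_
  intro x y hxy
  have h1 := congrArg (fun v => Eᴴ.mulVec v) hxy
  simpa [Matrix.mulVec_mulVec, hE] using h1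

end Mat

/-! ## Schur complement with respect to the first coordinate -/

theorem det_schur {n : ℕ} (A : Matrix (Fin (n + 1)) (Fin (n + 1)) ℂ) (h : A 0 0 ≠ 0) :
    A.det = A 0 0 *
      (Matrix.of fun i j : Fin n => A i.succ j.succ - A i.succ 0 * A 0 j.succ / A 0 0).det := by
  set c : Fin (n + 1) → ℂ := Fin.cons 0 fun i => A i.succ 0 / A 0 0 with hc
  set B : Matrix (Fin (n + 1)) (Fin (n + 1)) ℂ := Matrix.of fun i j => A i j - c i * A 0 j with hB
  have h0 : ∀ j, B 0 j = A 0 j := by intro j; simp [hB, hc]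
  have h1 : A.det = B.det := by
    refine Matrix.det_eq_of_forall_row_eq_smul_add_const c 0 (by simp [hc]) ?_
    intro i j
    rw [h0 j]
    simp [hB]
  rw [h1, Matrix.det_succ_column_zero, Fin.sum_univ_succ]
  have h2 : ∀ i : Fin n, B i.succ 0 = 0 := by
    intro i
    simp only [hB, hc, Matrix.of_apply, Fin.cons_succ]
    field_simp
    simp
  simp only [h2, h0]
  simp only [Fin.val_zero, pow_zero, one_mul, mul_zero, zero_mul, Finset.sum_const_zero, add_zero]
  congr 2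
  ext i j
  simp only [Matrix.submatrix_apply, hB, hc, Matrix.of_apply, Fin.succAbove_zero, Fin.cons_succ]
  ring

/-! ## orthonormal frames of subspaces -/

theorem exists_onb {m n : ℕ} (S : Submodule ℂ (Fin m → ℂ)) (hS : Module.finrank ℂ S = n) :
    ∃ E : Matrix (Fin m) (Fin n) ℂ, Eᴴ * E = 1 ∧ (∀ k, (fun j => E j k) ∈ S) ∧
      ∀ v ∈ S, E *ᵥ (Eᴴ *ᵥ v) = v := by
  set L := WithLp.linearEquiv 2 ℂ (Fin m → ℂ)
  set S' : Submodule ℂ (EuclideanSpace ℂ (Fin m)) := S.comap L.toLinearMap with hS'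
  have hS'n : Module.finrank ℂ S' = n := by
    rw [← hS]
    exact LinearEquiv.finrank_eq (L.ofSubmodule' S)
  set b : OrthonormalBasis (Fin n) ℂ S' := (stdOrthonormalBasis ℂ S').reindex (finCongr hS'n)
  set E : Matrix (Fin m) (Fin n) ℂ := Matrix.of fun j k => (b k : EuclideanSpace ℂ (Fin m)) j with hE
  refine ⟨E, ?_, ?_, ?_⟩
  · ext i j
    have h1 : inner ℂ (b i) (b j) = if i = j then (1 : ℂ) else 0 := by
      have := orthonormal_iff_ite.1 b.orthonormal i j
      exact_mod_cast this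
    rw [Matrix.mul_apply, Matrix.one_apply, ← h1, Submodule.coe_inner, PiLp.inner_apply]
    refine Finset.sum_congr rfl fun k _ => ?_
    simp only [hE, Matrix.conjTranspose_apply, Matrix.of_apply, RCLike.inner_apply, RCLike.star_def]
    ring
  · intro k
    exact (b k).2
  · intro v hv
    have hv' : (WithLp.toLp 2 v : EuclideanSpace ℂ (Fin m)) ∈ S' := hv
    have h2 := b.sum_repr ⟨WithLp.toLp 2 v, hv'⟩
    have h3 : ∀ k, b.repr ⟨WithLp.toLp 2 v, hv'⟩ k = (Eᴴ *ᵥ v) k := by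
      intro k
      rw [b.repr_apply_apply, Submodule.coe_inner, PiLp.inner_apply]
      simp only [Matrix.mulVec, dotProduct, hE, Matrix.conjTranspose_apply, Matrix.of_apply,
        RCLike.inner_apply, RCLike.star_def]
      refine Finset.sum_congr rfl fun j _ => ?_
      ring
    have h4 := congrArg (fun w : S' => ((w : EuclideanSpace ℂ (Fin m)) : Fin m → ℂ)) h2
    simp only at h4
    ext j
    have h5 := congrFun h4 j
    rw [Matrix.mulVec, dotProduct]
    simp only [← h3]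
    rw [← h5]
    simp only [Submodule.coe_sum, WithLp.ofLp_sum, Finset.sum_apply, Submodule.coe_smul, WithLp.ofLp_smul, Pi.smul_apply, smul_eq_mul]
    refine Finset.sum_congr rfl fun k _ => ?_
    simp only [hE, Matrix.of_apply]
    ring

/-- the projector of an orthonormal frame depends only on the subspace -/
theorem onb_unique {m n : ℕ} {S : Submodule ℂ (Fin m → ℂ)} {E E' : Matrix (Fin m) (Fin n) ℂ}
    (hE : ∀ k, (fun j => E j k) ∈ S) (hE2 : ∀ v ∈ S, E *ᵥ (Eᴴ *ᵥ v) = v)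
    (hE' : ∀ k, (fun j => E' j k) ∈ S) (hE2' : ∀ v ∈ S, E' *ᵥ (E'ᴴ *ᵥ v) = v) :
    E * Eᴴ = E' * E'ᴴ := by
  have key : ∀ {A B : Matrix (Fin m) (Fin n) ℂ}, (∀ v ∈ S, A *ᵥ (Aᴴ *ᵥ v) = v) →
      (∀ k, (fun j => B j k) ∈ S) → A * Aᴴ * B = B := by
    intro A B hA hB
    ext j k
    have h1 := congrFun (hA _ (hB k)) j
    rw [Matrix.mulVec_mulVec] at h1
    exact h1
  have h1 : E * Eᴴ * E' = E' := key hE2 hE'
  have h2 : E' * E'ᴴ * E = E := key hE2' hE
  have h3 : E * Eᴴ * (E' * E'ᴴ) = E' * E'ᴴ := by rw [← Matrix.mul_assoc, h1]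
  have h4 : E' * E'ᴴ * (E * Eᴴ) = E * Eᴴ := by rw [← Matrix.mul_assoc, h2]
  have h5 := congrArg Matrix.conjTranspose h3
  simp only [Matrix.conjTranspose_mul, Matrix.conjTranspose_conjTranspose] at h5
  rw [← h4, h5]

section Cone

variable {N n : ℕ} {I : Ideal (HomCoordRing N)}

/-- the horizontal tangent space `Tan I p ∩ pᗮ` -/
def HTan (I : Ideal (HomCoordRing N)) (p : EE N) : Submodule ℂ (EE N) where
  carrier := {v | v ∈ Tan I p ∧ star p ⬝ᵥ v = 0}
  add_mem' := fun {a b} ha hb => ⟨(Tan I p).add_mem ha.1 hb.1, by rw [dotProduct_add, ha.2, hb.2, add_zero]⟩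
  zero_mem' := ⟨(Tan I p).zero_mem, dotProduct_zero _⟩
  smul_mem' := fun c a ha => ⟨(Tan I p).smul_mem c ha.1, by rw [dotProduct_smul, ha.2, smul_zero]⟩

theorem mem_HTan {p v : EE N} : v ∈ HTan I p ↔ v ∈ Tan I p ∧ star p ⬝ᵥ v = 0 := Iff.rfl

theorem nsq_eq' (p : EE N) : Crest.Agent.R269.Geo_328.nsq p = Crest.Agent.R269.Frm290.nsq p := rfl

theorem star_dot_self' (p : EE N) : star p ⬝ᵥ p = (nsq p : ℂ) := Crest.Agent.R269.Frm290.star_dot_self p

theorem nsq_pos' {p : EE N} (hp : p ≠ 0) : 0 < nsq p := Crest.Agent.R269.Frm290.nsq_pos hp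

theorem finrank_HTan (hX : IsSmoothProjective I n) {p : EE N} (hp : p ∈ Cone I) :
    Module.finrank ℂ (HTan I p) = n := by
  have hn := finrank_Tan hX hp
  have hpT := self_mem_Tan hX hp.1
  let φ : Tan I p →ₗ[ℂ] ℂ :=
    { toFun := fun v => star p ⬝ᵥ (v : EE N)
      map_add' := fun x y => by rw [Submodule.coe_add, dotProduct_add]
      map_smul' := fun c x => by rw [Submodule.coe_smul, dotProduct_smul, RingHom.id_apply] }
  have h1 : LinearMap.range φ = ⊤ := by
    rw [LinearMap.range_eq_top]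
    refine LinearMap.surjective (f := φ) ?_
    intro h
    have h2 : φ ⟨p, hpT⟩ = 0 := by rw [h]; rfl
    have h3 : star p ⬝ᵥ p = 0 := h2
    rw [star_dot_self'] at h3
    exact (nsq_pos' hp.2).ne' (by exact_mod_cast h3)
  have h2 := LinearMap.finrank_range_add_finrank_ker φ
  rw [h1, finrank_top, hn, Module.finrank_self] at h2
  have e : HTan I p = (LinearMap.ker φ).map (Tan I p).subtype := by
    ext v
    constructor
    · intro hv
      exact ⟨⟨v, hv.1⟩, hv.2, rfl⟩
    · rintro ⟨w, hw, rfl⟩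
      exact ⟨w.2, hw⟩
  rw [e, Submodule.finrank_map_subtype_eq]
  omega

end Cone

end

end Crest.Agent.R269.FldA_620
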