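import Crest.Agent.R269.FldA_620

/-!
# R269 (S0411), leaf FLD, part B (helper620): `DD p b`, `wedgeSq` and the Gram matrices of
`Frm2_290`; frames representing a Hermitian field

* `wedgeSq_eq`, `DD_eq_D` : the two forms of the determinant
* `rep_unitary` etc. : two horizontal frames of the same field differ by a unitary matrix
-/

set_option autoImplicit false
set_option linter.unusedSectionVars false

open Matrix Crest.AlgGeometry.ProjEmb
open scoped ComplexConjugate ComplexOrder MatrixOrder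

namespace Crest.Agent.R269.FldB_620

open Crest.Agent.R269.Geo_328 Crest.Agent.R269.FldA_620

noncomputable section

variable {N n : ℕ} {I : Ideal (HomCoordRing N)}

/-- the matrix with columns `b` -/
def colM {m : ℕ} (b : Fin m → EE N) : Matrix (Fin (N + 1)) (Fin m) ℂ := Matrix.of fun j k => b k j

@[simp] theorem colM_apply {m : ℕ} (b : Fin m → EE N) (j : Fin (N + 1)) (k : Fin m) :
    colM b j k = b k j := rfl

theorem colM_mul_conjTranspose {m : ℕ} (b : Fin m → EE N) (j k : Fin (N + 1)) :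
    (colM b * (colM b)ᴴ) j k = ∑ i, b i j * conj (b i k) := by
  simp only [Matrix.mul_apply, Matrix.conjTranspose_apply, colM_apply, RCLike.star_def]

theorem conjTranspose_mul_colM {m : ℕ} (b : Fin m → EE N) (i j : Fin m) :
    ((colM b)ᴴ * colM b) i j = star (b i) ⬝ᵥ b j := by
  simp only [Matrix.mul_apply, Matrix.conjTranspose_apply, colM_apply, dotProduct, Pi.star_apply]

/-- every matrix is `colM` of its columns -/
theorem exists_colM {m : ℕ} (B : Matrix (Fin (N + 1)) (Fin m) ℂ) :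
    B = colM (fun k j => B j k) := rfl

/-- Gram matrix of a family of vectors -/
def gramC {m : ℕ} (v : Fin m → EE N) : Matrix (Fin m) (Fin m) ℂ :=
  Matrix.of fun i j => ∑ k, v i k * conj (v j k)

theorem gramC_eq {m : ℕ} (v : Fin m → EE N) : gramC v = ((colM v)ᴴ * colM v)ᵀ := by
  ext i j
  simp only [gramC, Matrix.of_apply, Matrix.transpose_apply, Matrix.mul_apply,
    Matrix.conjTranspose_apply, colM_apply, RCLike.star_def]
  exact Finset.sum_congr rfl fun k _ => mul_comm _ _

theorem det_gramC {m : ℕ} (v : Fin m → EE N) : (gramC v).det = ((colM v)ᴴ * colM v).det := by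
  rw [gramC_eq, Matrix.det_transpose]

theorem sum_mul_conj (p : EE N) : ∑ k, p k * conj (p k) = (nsq p : ℂ) := by
  rw [nsq]
  push_cast
  exact Finset.sum_congr rfl fun k _ => Complex.mul_conj' _

theorem gram290_eq {m : ℕ} {p : EE N} (M : Matrix (Fin (N + 1)) (Fin m) ℂ) :
    Frm290.gram p M = (nsq p : ℂ)⁻¹ •
      (Mᴴ * M - (nsq p : ℂ)⁻¹ • vecMulVec (Mᴴ *ᵥ p) (star p ᵥ* M)) := by
  have e : (Frm290.nsq p) = nsq p := rfl
  rw [Frm290.gram, Frm290.gmat, Frm290.prj, e,
    Matrix.mul_smul, Matrix.smul_mul, Matrix.mul_sub, Matrix.mul_one, Matrix.sub_mul,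
    Matrix.mul_smul, Matrix.smul_mul, Matrix.mul_vecMulVec, Matrix.vecMulVec_mul]

theorem gram290_apply {m : ℕ} {p : EE N} (hp : p ≠ 0) (b : Fin m → EE N) (i j : Fin m) :
    (nsq p : ℂ) * Frm290.gram p (colM b) i j =
      ∑ k, conj (b i k) * b j k - (∑ k, conj (b i k) * p k) * (∑ k, conj (p k) * b j k) / nsq p := by
  have hp0 : (0 : ℝ) < nsq p := nsq_pos' hp
  have hpc : (nsq p : ℂ) ≠ 0 := by exact_mod_cast hp0.ne'
  rw [gram290_eq]
  simp only [Matrix.smul_apply, Matrix.sub_apply, smul_eq_mul, Matrix.vecMulVec_apply,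
    Matrix.mul_apply, Matrix.conjTranspose_apply, colM_apply, RCLike.star_def, Matrix.mulVec,
    Matrix.vecMul, dotProduct, Pi.star_apply]
  field_simp

/-- the Gram determinant of `(p, b)` -/
theorem det_gramC_cons {m : ℕ} {p : EE N} (hp : p ≠ 0) (b : Fin m → EE N) :
    (gramC (Fin.cons p b : Fin (m + 1) → EE N)).det =
      ((nsq p ^ (m + 1) * Frm290.D p (colM b) : ℝ) : ℂ) := by
  have hp0 : (0 : ℝ) < nsq p := nsq_pos' hp
  have hpc : (nsq p : ℂ) ≠ 0 := by exact_mod_cast hp0.ne'
  have h00 : (gramC (Fin.cons p b : Fin (m + 1) → EE N)) 0 0 = (nsq p : ℂ) := by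
    simp only [gramC, Matrix.of_apply, Fin.cons_zero]
    exact sum_mul_conj p
  have h1 := det_schur (gramC (Fin.cons p b : Fin (m + 1) → EE N)) (by rw [h00]; exact hpc)
  have h2 : (Matrix.of fun i j : Fin m => gramC (Fin.cons p b : Fin (m + 1) → EE N) i.succ j.succ -
      gramC (Fin.cons p b : Fin (m + 1) → EE N) i.succ 0 *
      gramC (Fin.cons p b : Fin (m + 1) → EE N) 0 j.succ /
      gramC (Fin.cons p b : Fin (m + 1) → EE N) 0 0) =
      (nsq p : ℂ) • (Frm290.gram p (colM b))ᵀ := by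
    rw [h00]
    ext i j
    rw [Matrix.smul_apply, Matrix.transpose_apply, smul_eq_mul, gram290_apply hp]
    simp only [gramC, Matrix.of_apply, Fin.cons_zero, Fin.cons_succ]
    congr 1
    · exact Finset.sum_congr rfl fun k _ => mul_comm _ _
    · rw [mul_comm (∑ k, b i k * conj (p k))]
      congr 2
      · exact Finset.sum_congr rfl fun k _ => mul_comm _ _
      · exact Finset.sum_congr rfl fun k _ => mul_comm _ _
  rw [h2, h00, Matrix.det_smul, Matrix.det_transpose, Fintype.card_fin,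
    Frm290.gram_det_eq hp] at h1
  rw [h1]
  push_cast
  ring

/-- for a horizontal family `gram p b = BᴴB / |p|²` -/
theorem gram290_hor {m : ℕ} {p : EE N} {b : Fin m → EE N} (hb : ∀ i, star p ⬝ᵥ b i = 0) :
    Frm290.gram p (colM b) = (nsq p : ℂ)⁻¹ • ((colM b)ᴴ * colM b) := by
  rw [gram290_eq]
  have h1 : star p ᵥ* colM b = 0 := by
    ext i
    exact hb i
  rw [h1, Matrix.vecMulVec_zero, smul_zero, sub_zero]

theorem D_hor {m : ℕ} {p : EE N} (hp : p ≠ 0) {b : Fin m → EE N}
    (hb : ∀ i, star p ⬝ᵥ b i = 0) :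
    ((colM b)ᴴ * colM b).det = ((nsq p ^ m * Frm290.D p (colM b) : ℝ) : ℂ) := by
  have hpc : (nsq p : ℂ) ≠ 0 := by exact_mod_cast (nsq_pos' hp).ne'
  have h1 := Frm290.gram_det_eq hp (colM b)
  rw [gram290_hor hb, Matrix.det_smul, Fintype.card_fin] at h1
  push_cast
  rw [← h1, ← mul_assoc, ← mul_pow, mul_inv_cancel₀ hpc, one_pow, one_mul]

/-- horizontal part -/
def hor (p v : EE N) : EE N := v - ((nsq p : ℂ)⁻¹ * (star p ⬝ᵥ v)) • p

theorem star_dot_hor {p : EE N} (hp : p ≠ 0) (v : EE N) : star p ⬝ᵥ hor p v = 0 := by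
  have hpc : (nsq p : ℂ) ≠ 0 := by exact_mod_cast (nsq_pos' hp).ne'
  rw [hor, dotProduct_sub, dotProduct_smul, star_dot_self', smul_eq_mul]
  field_simp
  ring

theorem hor_mem_Tan (hX : IsSmoothProjective I n) {p v : EE N} (hp : p ∈ Cone I)
    (hv : v ∈ Tan I p) : hor p v ∈ Tan I p :=
  (Tan I p).sub_mem hv ((Tan I p).smul_mem _ (self_mem_Tan hX hp.1))

theorem hor_of_hor {p v : EE N} (h : star p ⬝ᵥ v = 0) : hor p v = v := by
  rw [hor, h, mul_zero, zero_smul, sub_zero]

/-- `D` does not see the vertical parts -/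
theorem D_hor_eq {m : ℕ} {p : EE N} (hp : p ≠ 0) (b : Fin m → EE N) :
    Frm290.D p (colM fun i => hor p (b i)) = Frm290.D p (colM b) := by
  have h1 : colM b = colM (fun i => hor p (b i)) +
      vecMulVec p (fun i => (nsq p : ℂ)⁻¹ * (star p ⬝ᵥ b i)) := by
    ext j i
    simp only [Matrix.add_apply, colM_apply, hor, Matrix.vecMulVec_apply, Pi.sub_apply,
      Pi.smul_apply, smul_eq_mul]
    ring
  rw [h1, Frm290.D_add hp]

end

end Crest.Agent.R269.FldB_620
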