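import Crest.Agent.R269.FldB_620

/-!
# R269 (S0411), leaf FLD, part C (helper620): Hermitian matrices carried by a horizontal frame

`IsRep I p A b` : `b_1..b_n ∈ Tan I p`, `b_i ⟂ p`, the `b_i` are independent (`0 < D p b`) and
`A = ∑ b_i b_iᴴ`.
-/

set_option autoImplicit false
set_option linter.unusedSectionVars false

open Matrix Crest.AlgGeometry.ProjEmb
open scoped ComplexConjugate ComplexOrder MatrixOrder

namespace Crest.Agent.R269.FldC_620

open Crest.Agent.R269.Geo_328 Crest.Agent.R269.FldA_620 Crest.Agent.R269.FldB_620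
open Crest.Agent.R269

noncomputable section

variable {N n : ℕ} {I : Ideal (HomCoordRing N)}

/-- a plain function as a matrix -/
def toM (A : VV N) : Matrix (Fin (N + 1)) (Fin (N + 1)) ℂ := A

/-- the frame `b` of `Tan I p ∩ pᗮ` represents the Hermitian matrix `A` -/
structure IsRep (I : Ideal (HomCoordRing N)) (p : EE N) (A : VV N) {n : ℕ}
    (b : Fin n → EE N) : Prop where
  tan : ∀ i, b i ∈ Tan I p
  hor : ∀ i, star p ⬝ᵥ b i = 0
  pos : 0 < Frm290.D p (colM b)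
  eq : toM A = colM b * (colM b)ᴴ

theorem IsRep.mem_HTan {p : EE N} {A : VV N} {b : Fin n → EE N} (h : IsRep I p A b) (i : Fin n) :
    b i ∈ HTan I p := ⟨h.tan i, h.hor i⟩

/-- an orthonormal frame of the horizontal tangent space -/
structure IsOnb (I : Ideal (HomCoordRing N)) (p : EE N) {n : ℕ}
    (E : Matrix (Fin (N + 1)) (Fin n) ℂ) : Prop where
  one : Eᴴ * E = 1
  mem : ∀ k, (fun j => E j k) ∈ HTan I p
  id : ∀ v ∈ HTan I p, E *ᵥ (Eᴴ *ᵥ v) = v

theorem exists_isOnb (hX : IsSmoothProjective I n) {p : EE N} (hp : p ∈ Cone I) :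
    ∃ E : Matrix (Fin (N + 1)) (Fin n) ℂ, IsOnb I p E := by
  obtain ⟨E, h1, h2, h3⟩ := exists_onb (HTan I p) (finrank_HTan hX hp)
  exact ⟨E, h1, h2, h3⟩

theorem IsOnb.unique {p : EE N} {E E' : Matrix (Fin (N + 1)) (Fin n) ℂ} (h : IsOnb I p E)
    (h' : IsOnb I p E') : E * Eᴴ = E' * E'ᴴ := onb_unique h.mem h.id h'.mem h'.id

theorem IsOnb.mul_colM {p : EE N} {E : Matrix (Fin (N + 1)) (Fin n) ℂ} (h : IsOnb I p E) {m : ℕ}
    {b : Fin m → EE N} (hb : ∀ i, b i ∈ HTan I p) : E * Eᴴ * colM b = colM b := by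
  ext j k
  have h1 := congrFun (h.id _ (hb k)) j
  rw [Matrix.mulVec_mulVec] at h1
  exact h1

theorem IsOnb.mulVec_mem {p : EE N} {E : Matrix (Fin (N + 1)) (Fin n) ℂ} (h : IsOnb I p E)
    (c : Fin n → ℂ) : E *ᵥ c ∈ HTan I p := by
  have h1 : E *ᵥ c = ∑ k, c k • (fun j => E j k) := by
    ext j
    simp only [Matrix.mulVec, dotProduct, Finset.sum_apply, Pi.smul_apply, smul_eq_mul]
    exact Finset.sum_congr rfl fun k _ => mul_comm _ _
  rw [h1]
  exact Submodule.sum_mem _ fun k _ => Submodule.smul_mem _ _ (h.mem k)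

variable {p : EE N} {A : VV N} {b : Fin n → EE N} {E : Matrix (Fin (N + 1)) (Fin n) ℂ}

theorem isUnit_det_of_pos (hp : p ≠ 0) {m : ℕ} {b : Fin m → EE N} (hb : ∀ i, star p ⬝ᵥ b i = 0)
    (h : 0 < Frm290.D p (colM b)) : IsUnit ((colM b)ᴴ * colM b).det := by
  rw [D_hor hp hb, isUnit_iff_ne_zero]
  exact_mod_cast (mul_pos (pow_pos (nsq_pos' hp) m) h).ne'

theorem IsRep.isUnit (h : IsRep I p A b) (hp : p ≠ 0) : IsUnit ((colM b)ᴴ * colM b).det :=
  isUnit_det_of_pos hp h.hor h.pos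

/-- **two representing frames differ by a unitary** -/
theorem IsRep.unitary (hp : p ≠ 0) {b' : Fin n → EE N} (h : IsRep I p A b)
    (h' : IsRep I p A b') : ∃ U : Matrix (Fin n) (Fin n) ℂ, U * Uᴴ = 1 ∧ Uᴴ * U = 1 ∧
      colM b' = colM b * U ∧ ∀ i, b' i = ∑ k, U k i • b k := by
  obtain ⟨U, h1, h2, h3⟩ := exists_unitary (B' := colM b') (h.isUnit hp)
    (by rw [← h.eq, ← h'.eq])
  refine ⟨U, h1, h2, h3, fun i => ?_⟩
  ext j
  have h4 := congrFun (congrFun h3 j) i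
  rw [colM_apply, Matrix.mul_apply] at h4
  rw [h4]
  simp only [Finset.sum_apply, Pi.smul_apply, smul_eq_mul, colM_apply]
  exact Finset.sum_congr rfl fun k _ => mul_comm _ _

theorem IsRep.det_eq (hp : p ≠ 0) {b' : Fin n → EE N} (h : IsRep I p A b)
    (h' : IsRep I p A b') : Frm290.D p (colM b') = Frm290.D p (colM b) := by
  have h1 := det_gram_congr (h.isUnit hp) (B' := colM b') (by rw [← h.eq, ← h'.eq])
  rw [D_hor hp h.hor, D_hor hp h'.hor, Complex.ofReal_inj] at h1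
  exact mul_left_cancel₀ (pow_ne_zero _ (nsq_pos' hp).ne') h1

/-- `det (A + 1 - Q) = |p|^{2n} D(p,b)`, `Q` = projector onto `Tan I p ∩ pᗮ` -/
theorem IsRep.det_add (hp : p ≠ 0) (h : IsRep I p A b) (hE : IsOnb I p E) :
    (toM A + (1 - E * Eᴴ)).det = ((nsq p ^ n * Frm290.D p (colM b) : ℝ) : ℂ) := by
  rw [h.eq, det_frame hE.one (hE.mul_colM fun i => h.mem_HTan i), D_hor hp h.hor]

/-- `A = E S Eᴴ` with `S` positive definite -/
theorem IsRep.exists_conj (hp : p ≠ 0) (h : IsRep I p A b) (hE : IsOnb I p E) :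
    ∃ S : Matrix (Fin n) (Fin n) ℂ, S.PosDef ∧ toM A = E * S * Eᴴ ∧
      S.det = ((nsq p ^ n * Frm290.D p (colM b) : ℝ) : ℂ) := by
  have h1 := hE.mul_colM fun i => h.mem_HTan i
  have h3 : ((Eᴴ * colM b) * (Eᴴ * colM b)ᴴ).det =
      ((nsq p ^ n * Frm290.D p (colM b) : ℝ) : ℂ) := by
    rw [Matrix.det_mul_comm, ← D_hor hp h.hor]
    congr 1
    rw [Matrix.conjTranspose_mul, Matrix.conjTranspose_conjTranspose]
    calc (colM b)ᴴ * E * (Eᴴ * colM b) = (colM b)ᴴ * (E * Eᴴ * colM b) := by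
          simp only [Matrix.mul_assoc]
      _ = _ := by rw [h1]
  refine ⟨(Eᴴ * colM b) * (Eᴴ * colM b)ᴴ, ?_, ?_, h3⟩
  · have h4 : ((Eᴴ * colM b) * (Eᴴ * colM b)ᴴ).PosSemidef :=
      Matrix.posSemidef_self_mul_conjTranspose _
    refine h4.posDef_iff_det_ne_zero.2 ?_
    rw [h3]
    exact_mod_cast (mul_pos (pow_pos (nsq_pos' hp) n) h.pos).ne'
  · rw [h.eq]
    conv_lhs => rw [← h1]
    simp only [Matrix.conjTranspose_mul, Matrix.conjTranspose_conjTranspose, Matrix.mul_assoc]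

/-- a positive definite matrix on the horizontal space has a representing frame -/
theorem exists_isRep (hp : p ≠ 0) (hE : IsOnb I p E) {S : Matrix (Fin n) (Fin n) ℂ}
    (hS : S.PosDef) (hA : toM A = E * S * Eᴴ) : ∃ b : Fin n → EE N, IsRep I p A b := by
  obtain ⟨C, hC⟩ := exists_mul_conjTranspose hS.posSemidef
  set b : Fin n → EE N := fun k => E *ᵥ (fun l => C l k) with hb
  have hcol : colM b = E * C := by
    ext j k
    rw [colM_apply, hb, Matrix.mul_apply]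
    rfl
  have hmem : ∀ i, b i ∈ HTan I p := fun i => hE.mulVec_mem _
  have hhor : ∀ i, star p ⬝ᵥ b i = 0 := fun i => (hmem i).2
  refine ⟨b, fun i => (hmem i).1, hhor, ?_, ?_⟩
  · have h1 := D_hor hp hhor
    rw [hcol] at h1
    have h2 : ((E * C)ᴴ * (E * C)).det = S.det := by
      have : (E * C)ᴴ * (E * C) = Cᴴ * C := by
        rw [Matrix.conjTranspose_mul]
        calc Cᴴ * Eᴴ * (E * C) = Cᴴ * (Eᴴ * E) * C := by simp only [Matrix.mul_assoc]
          _ = _ := by rw [hE.one, Matrix.mul_one]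
      rw [this, Matrix.det_mul_comm, ← hC]
    rw [h2] at h1
    have h3 := DetIneq271.det_re_pos hS
    rw [h1, Complex.ofReal_re, ← hcol] at h3
    exact (mul_pos_iff_of_pos_left (pow_pos (nsq_pos' hp) n)).1 h3
  · rw [hA, hcol, hC, Matrix.conjTranspose_mul]
    simp only [Matrix.mul_assoc]

/-- compression of a positive definite matrix to the horizontal space -/
theorem exists_isRep_of_posDef (hp : p ≠ 0) (hE : IsOnb I p E)
    {M : Matrix (Fin (N + 1)) (Fin (N + 1)) ℂ} (hM : M.PosDef)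
    (hA : toM A = E * Eᴴ * M * (E * Eᴴ)) : ∃ b : Fin n → EE N, IsRep I p A b :=
  exists_isRep hp hE (posDef_compress hE.one hM) (by rw [hA]; simp only [Matrix.mul_assoc])

/-- **superadditivity of `det^{1/n}`** -/
theorem IsRep.superadd (hn : 0 < n) (hX : IsSmoothProjective I n) (hp : p ∈ Cone I)
    {A₁ A₂ A₃ : VV N} {b₁ b₂ b₃ : Fin n → EE N} (h₁ : IsRep I p A₁ b₁) (h₂ : IsRep I p A₂ b₂)
    (h₃ : IsRep I p A₃ b₃) (h : A₃ = A₁ + A₂) :
    (Frm290.D p (colM b₁)) ^ ((n : ℝ)⁻¹) + (Frm290.D p (colM b₂)) ^ ((n : ℝ)⁻¹) ≤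
      (Frm290.D p (colM b₃)) ^ ((n : ℝ)⁻¹) := by
  have : Nonempty (Fin n) := ⟨⟨0, hn⟩⟩
  have hp0 := hp.2
  obtain ⟨E, hE⟩ := exists_isOnb hX hp
  obtain ⟨S₁, hS₁, hA₁, hd₁⟩ := h₁.exists_conj hp0 hE
  obtain ⟨S₂, hS₂, hA₂, hd₂⟩ := h₂.exists_conj hp0 hE
  obtain ⟨S₃, hS₃, hA₃, hd₃⟩ := h₃.exists_conj hp0 hE
  have hS : S₃ = S₁ + S₂ := by
    have h4 : ∀ S : Matrix (Fin n) (Fin n) ℂ, Eᴴ * (E * S * Eᴴ) * E = S := by
      intro S
      calc Eᴴ * (E * S * Eᴴ) * E = (Eᴴ * E) * S * (Eᴴ * E) := by simp only [Matrix.mul_assoc]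
        _ = S := by rw [hE.one, Matrix.one_mul, Matrix.mul_one]
    rw [← h4 S₃, ← h4 S₁, ← h4 S₂, ← hA₁, ← hA₂, ← hA₃, h]
    change Eᴴ * (toM A₁ + toM A₂) * E = _
    rw [Matrix.mul_add, Matrix.add_mul]
  have h5 := DetIneq271.dn_add hS₁.posSemidef hS₂.posSemidef
  rw [← hS] at h5
  have hq : (0 : ℝ) < nsq p := nsq_pos' hp0
  have key : ∀ {S : Matrix (Fin n) (Fin n) ℂ} {x : ℝ}, 0 < x →
      S.det = ((nsq p ^ n * x : ℝ) : ℂ) → DetIneq271.dn S = nsq p * x ^ ((n : ℝ)⁻¹) := by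
    intro S x hx hS
    have hn' : (n : ℝ) ≠ 0 := by exact_mod_cast hn.ne'
    rw [DetIneq271.dn, hS, Complex.ofReal_re, Fintype.card_fin,
      Real.mul_rpow (by positivity) hx.le, ← Real.rpow_natCast, ← Real.rpow_mul hq.le,
      mul_inv_cancel₀ hn', Real.rpow_one]
  rw [key h₁.pos hd₁, key h₂.pos hd₂, key h₃.pos hd₃, ← mul_add] at h5
  exact le_of_mul_le_mul_left h5 hq

end

end Crest.Agent.R269.FldC_620
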