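import Crest.Agent.R269.FldC_620
import Crest.Agent.R269.Defs_58

/-!
# R269 (S0411), leaf FLD, part D (helper620): the frozen objects `wedgeSq`, `DD`, `omg`, `Rep`,
`PosField` of `Defs_58`

* `DD_eq_D`, `DD_nonneg`, `DD_pos_iff`, `DD_smul`, `DD_mix`, `DD_hor`
* `omg_eq`, `omg_nonneg`, `omg_add_smul`, `omg_smul`, `omg_pos`
* `amgm` : `n * (DD p b)^(1/n) ≤ ∑ omg p (b i)`
* `rep_unitary`, `rep_DD_eq`, `rep_DD_pos`
-/

set_option autoImplicit false
set_option linter.unusedSectionVars false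

open Matrix Crest.AlgGeometry.ProjEmb
open scoped ComplexConjugate ComplexOrder MatrixOrder ContDiff

namespace Crest.Agent.R269.FldD_620

open Crest.Agent.R269.Geo_328 Crest.Agent.R269.FldA_620 Crest.Agent.R269.FldB_620
open Crest.Agent.R269.FldC_620 Crest.Agent.R269.Defs_58
open Crest.Agent.R269

noncomputable section

variable {N n : ℕ} {I : Ideal (HomCoordRing N)}

/-! ### `wedgeSq`, `DD` -/

theorem wedgeSq_eq {m : ℕ} (w : Fin m → EE N) : wedgeSq w = ((colM w)ᴴ * colM w).det.re := by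
  rw [← det_gramC]
  rfl

theorem wedgeSq_nonneg {m : ℕ} (w : Fin m → EE N) : 0 ≤ wedgeSq w := by
  rw [wedgeSq_eq]
  exact DetIneq271.det_re_nonneg (Matrix.posSemidef_conjTranspose_mul_self _)

theorem DD_eq_D {p : EE N} (hp : p ≠ 0) (b : Fin n → EE N) : DD p b = Frm290.D p (colM b) := by
  have hp0 : (0 : ℝ) < nsq p := nsq_pos' hp
  rw [DD]
  have h1 : wedgeSq (Fin.cons p b : Fin (n + 1) → EE N) =
      nsq p ^ (n + 1) * Frm290.D p (colM b) := by
    have h2 := congrArg Complex.re (det_gramC_cons hp b)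
    rw [Complex.ofReal_re] at h2
    exact h2
  rw [h1]
  field_simp

theorem DD_nonneg {p : EE N} (hp : p ≠ 0) (b : Fin n → EE N) : 0 ≤ DD p b := by
  rw [DD_eq_D hp]
  exact Frm290.D_nonneg hp _

/-- `DD p b > 0` iff the `b_i` are linearly independent modulo `p` -/
theorem DD_pos_iff {p : EE N} (hp : p ≠ 0) (b : Fin n → EE N) :
    0 < DD p b ↔ ∀ (c : Fin n → ℂ) (l : ℂ), ∑ i, c i • b i = l • p → c = 0 := by
  have e : ∀ c : Fin n → ℂ, colM b *ᵥ c = ∑ i, c i • b i := by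
    intro c
    ext j
    simp only [Matrix.mulVec, dotProduct, Finset.sum_apply, Pi.smul_apply, smul_eq_mul, colM_apply]
    exact Finset.sum_congr rfl fun k _ => mul_comm _ _
  rw [DD_eq_D hp]
  constructor
  · intro h c l hc
    exact Frm290.indep_of_D_ne hp h.ne' c l (by rw [e]; exact hc)
  · intro h
    exact Frm290.D_pos hp fun c l hc => h c l (by rw [← e]; exact hc)

theorem DD_smul {p : EE N} (hp : p ≠ 0) {c : ℂ} (hc : c ≠ 0) (b : Fin n → EE N) :
    DD (c • p) (fun i => c • b i) = DD p b := by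
  rw [DD_eq_D hp, DD_eq_D (smul_ne_zero hc hp)]
  exact Frm290.D_smul hc p (colM b)

theorem DD_mix {p : EE N} (hp : p ≠ 0) (b : Fin n → EE N) (M : Matrix (Fin n) (Fin n) ℂ)
    (r : Fin n → ℂ) :
    DD p (fun i => (∑ k, M i k • b k) + r i • p) = ‖M.det‖ ^ 2 * DD p b := by
  have h1 : colM (fun i => (∑ k, M i k • b k) + r i • p) = colM b * Mᵀ + vecMulVec p r := by
    ext j i
    simp only [colM_apply, Pi.add_apply, Finset.sum_apply, Pi.smul_apply, smul_eq_mul,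
      Matrix.add_apply, Matrix.mul_apply, Matrix.transpose_apply, Matrix.vecMulVec_apply]
    rw [mul_comm (r i)]
    congr 1
    exact Finset.sum_congr rfl fun k _ => mul_comm _ _
  rw [DD_eq_D hp, DD_eq_D hp, h1, Frm290.D_add hp, Frm290.D_mul hp, Matrix.det_transpose]

theorem DD_hor {p : EE N} (hp : p ≠ 0) (b : Fin n → EE N) :
    DD p (fun i => hor p (b i)) = DD p b := by
  rw [DD_eq_D hp, DD_eq_D hp, D_hor_eq hp]

theorem DD_real_smul {p : EE N} (hp : p ≠ 0) (s : ℂ) (b : Fin n → EE N) :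
    DD p (fun i => s • b i) = (‖s‖ ^ 2) ^ n * DD p b := by
  have h1 := DD_mix hp b (s • (1 : Matrix (Fin n) (Fin n) ℂ)) 0
  have h2 : (fun i => (∑ k, (s • (1 : Matrix (Fin n) (Fin n) ℂ)) i k • b k) +
      (0 : Fin n → ℂ) i • p) = fun i => s • b i := by
    funext i
    simp [Matrix.one_apply, Finset.sum_ite_eq]
  rw [h2] at h1
  rw [h1, Matrix.det_smul, Matrix.det_one, Fintype.card_fin, mul_one, norm_pow]
  ring

/-! ### `omg` -/

theorem star_dot_eq (p v : EE N) : star p ⬝ᵥ v = ∑ i, v i * conj (p i) := by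
  simp only [dotProduct, Pi.star_apply, RCLike.star_def]
  exact Finset.sum_congr rfl fun k _ => mul_comm _ _

theorem omg_eq_gmat {p : EE N} (hp : p ≠ 0) (v : EE N) :
    star v ⬝ᵥ (Frm290.gmat p *ᵥ v) = (omg p v : ℂ) := by
  rw [Frm290.gmat_dot' hp, star_dot_eq, omg]
  congr 1
  simp only [Frm290.nsq]
  ring

theorem omg_eq {p : EE N} (hp : p ≠ 0) (v : EE N) : omg p v = nsq (hor p v) / nsq p := by
  have h1 := omg_eq_gmat hp v
  rw [Frm290.gmat_dot hp, Complex.ofReal_inj, Frm290.prj_mulVec] at h1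
  rw [← h1, div_eq_inv_mul]
  rfl

theorem omg_nonneg {p : EE N} (hp : p ≠ 0) (v : EE N) : 0 ≤ omg p v := by
  rw [omg_eq hp]
  exact div_nonneg (Frm290.nsq_nonneg _) (nsq_pos' hp).le

theorem hor_add_smul {p : EE N} (hp : p ≠ 0) (v : EE N) (r : ℂ) : hor p (v + r • p) = hor p v := by
  have hpc : (nsq p : ℂ) ≠ 0 := by exact_mod_cast (nsq_pos' hp).ne'
  have h1 : (nsq p : ℂ)⁻¹ * (star p ⬝ᵥ (v + r • p)) = (nsq p : ℂ)⁻¹ * (star p ⬝ᵥ v) + r := by
    rw [dotProduct_add, dotProduct_smul, star_dot_self', smul_eq_mul]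
    field_simp
  rw [hor, h1, add_smul, hor]
  abel

theorem omg_add_smul {p : EE N} (hp : p ≠ 0) (v : EE N) (r : ℂ) : omg p (v + r • p) = omg p v := by
  rw [omg_eq hp, omg_eq hp, hor_add_smul hp]

theorem omg_hor {p : EE N} (hp : p ≠ 0) (v : EE N) : omg p (hor p v) = omg p v := by
  have : hor p v = v + (-((nsq p : ℂ)⁻¹ * (star p ⬝ᵥ v))) • p := by
    rw [hor, neg_smul, sub_eq_add_neg]
  rw [this, omg_add_smul hp]

theorem omg_pos {p : EE N} (hp : p ≠ 0) {v : EE N} (hv : ∀ c : ℂ, v ≠ c • p) : 0 < omg p v := by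
  rw [omg_eq hp]
  refine div_pos (Frm290.nsq_pos fun h => ?_) (nsq_pos' hp)
  exact hv _ (sub_eq_zero.1 h)

theorem omg_smul_vec (p v : EE N) (c : ℂ) : omg p (c • v) = ‖c‖ ^ 2 * omg p v := by
  have h1 : ∑ i, ‖(c • v) i‖ ^ 2 = ‖c‖ ^ 2 * ∑ i, ‖v i‖ ^ 2 := by
    simp only [Pi.smul_apply, smul_eq_mul, norm_mul, mul_pow, Finset.mul_sum]
  have h2 : ∑ i, (c • v) i * conj (p i) = c * ∑ i, v i * conj (p i) := by
    simp only [Pi.smul_apply, smul_eq_mul, Finset.mul_sum, mul_assoc]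
  rw [omg, omg, h1, h2, norm_mul, mul_pow]
  ring

theorem omg_smul_smul {p : EE N} {c : ℂ} (hc : c ≠ 0) (v : EE N) :
    omg (c • p) (c • v) = omg p v := by
  have hc' : ‖c‖ ≠ 0 := norm_ne_zero_iff.2 hc
  have h1 : ∀ w : EE N, ∑ i, ‖(c • w) i‖ ^ 2 = ‖c‖ ^ 2 * ∑ i, ‖w i‖ ^ 2 := by
    intro w
    simp only [Pi.smul_apply, smul_eq_mul, norm_mul, mul_pow, Finset.mul_sum]
  have h2 : ∑ i, (c • v) i * conj ((c • p) i) = (c * conj c) * ∑ i, v i * conj (p i) := by
    simp only [Pi.smul_apply, smul_eq_mul, Finset.mul_sum, map_mul]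
    exact Finset.sum_congr rfl fun i _ => by ring
  rw [omg, omg, h1, h1, h2, norm_mul, norm_mul, Complex.norm_conj]
  field_simp

/-- **AM-GM** -/
theorem amgm {p : EE N} (hp : p ≠ 0) (b : Fin n → EE N) :
    (n : ℝ) * DD p b ^ ((n : ℝ)⁻¹) ≤ ∑ i, omg p (b i) := by
  rcases Nat.eq_zero_or_pos n with rfl | hn
  · simp
  · have : Nonempty (Fin n) := ⟨⟨0, hn⟩⟩
    have h1 := Frm290.card_mul_le_trace hp (colM b)
    rw [Fintype.card_fin, ← DD_eq_D hp] at h1
    refine h1.trans (le_of_eq ?_)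
    rw [Matrix.trace, Complex.re_sum]
    refine Finset.sum_congr rfl fun i _ => ?_
    have h2 : (Frm290.gram p (colM b)).diag i = star (b i) ⬝ᵥ (Frm290.gmat p *ᵥ (b i)) := by
      simp only [Matrix.diag, Frm290.gram]
      rw [Matrix.mul_assoc, Matrix.mul_apply]
      simp only [dotProduct, Pi.star_apply, Matrix.conjTranspose_apply, Matrix.mulVec,
        Matrix.mul_apply, colM_apply]
    rw [h2, omg_eq_gmat hp, Complex.ofReal_re]

/-! ### `Rep` -/

variable {a : EE N → VV N} {p : EE N} {b b' : Fin n → EE N}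

theorem rep_iff : Rep I a p b ↔ (∀ i, b i ∈ HTan I p) ∧ toM (a p) = colM b * (colM b)ᴴ := by
  constructor
  · rintro ⟨h1, h2, h3⟩
    refine ⟨fun i => ⟨h1 i, by rw [star_dot_eq]; exact h2 i⟩, ?_⟩
    ext j k
    rw [colM_mul_conjTranspose]
    exact h3 j k
  · rintro ⟨h1, h2⟩
    refine ⟨fun i => (h1 i).1, fun i => by rw [← star_dot_eq]; exact (h1 i).2, fun j k => ?_⟩
    rw [← colM_mul_conjTranspose, ← h2]
    rfl

theorem rep_mem_HTan (h : Rep I a p b) (i : Fin n) : b i ∈ HTan I p := (rep_iff.1 h).1 i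

theorem rep_toM_eq (h : Rep I a p b) : toM (a p) = colM b * (colM b)ᴴ := (rep_iff.1 h).2

theorem isRep_iff (hp : p ≠ 0) : IsRep I p (a p) b ↔ Rep I a p b ∧ 0 < DD p b := by
  rw [rep_iff, DD_eq_D hp]
  constructor
  · intro h
    exact ⟨⟨h.mem_HTan, h.eq⟩, h.pos⟩
  · rintro ⟨⟨h1, h2⟩, h3⟩
    exact ⟨fun i => (h1 i).1, fun i => (h1 i).2, h3, h2⟩

/-- two representing frames differ by a unitary matrix -/
theorem rep_unitary (hp : p ≠ 0) (h : Rep I a p b) (h0 : 0 < DD p b) (h' : Rep I a p b') :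
    ∃ U : Matrix (Fin n) (Fin n) ℂ, U * Uᴴ = 1 ∧ Uᴴ * U = 1 ∧ ∀ i, b' i = ∑ k, U k i • b k := by
  have hu : IsUnit ((colM b)ᴴ * colM b).det :=
    isUnit_det_of_pos hp (fun i => (rep_mem_HTan h i).2) (by rw [← DD_eq_D hp]; exact h0)
  obtain ⟨U, h1, h2, h3⟩ := exists_unitary (B' := colM b') hu (by rw [← rep_toM_eq h, ← rep_toM_eq h'])
  refine ⟨U, h1, h2, fun i => ?_⟩
  ext j
  have h4 := congrFun (congrFun h3 j) i
  rw [colM_apply, Matrix.mul_apply] at h4
  rw [h4]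
  simp only [Finset.sum_apply, Pi.smul_apply, smul_eq_mul, colM_apply]
  exact Finset.sum_congr rfl fun k _ => mul_comm _ _

theorem rep_DD_eq (hp : p ≠ 0) (h : Rep I a p b) (h' : Rep I a p b') : DD p b' = DD p b := by
  have key : ∀ {b b' : Fin n → EE N}, Rep I a p b → Rep I a p b' → 0 < DD p b →
      DD p b' = DD p b := by
    intro b b' h h' h0
    have hu : IsUnit ((colM b)ᴴ * colM b).det :=
      isUnit_det_of_pos hp (fun i => (rep_mem_HTan h i).2) (by rw [← DD_eq_D hp]; exact h0)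
    have h1 := det_gram_congr hu (B' := colM b') (by rw [← rep_toM_eq h, ← rep_toM_eq h'])
    rw [D_hor hp fun i => (rep_mem_HTan h i).2, D_hor hp fun i => (rep_mem_HTan h' i).2,
      Complex.ofReal_inj, ← DD_eq_D hp, ← DD_eq_D hp] at h1
    exact mul_left_cancel₀ (pow_ne_zero _ (nsq_pos' hp).ne') h1
  rcases (DD_nonneg hp b).lt_or_eq with h0 | h0
  · exact key h h' h0
  · rcases (DD_nonneg hp b').lt_or_eq with h1 | h1
    · exact (key h' h h1).symm
    · rw [← h0, ← h1]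

theorem rep_DD_pos {a : EE N → VV N} (ha : PosField I n a) (hp : p ∈ Cone I)
    (h : Rep I a p b) : 0 < DD p b := by
  obtain ⟨b₀, h1, h2⟩ := ha.rep p hp
  rw [rep_DD_eq hp.2 h1 h]
  exact h2

end

end Crest.Agent.R269.FldD_620
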