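import Crest.Agent.R269.GeoP_328

/-! # R269, leaf GEO: smooth orthogonal projectors onto the tangent spaces of the cone (helper328) -/

set_option autoImplicit false

open MvPolynomial Crest.AlgGeometry.ProjEmb
open scoped ContDiff Topology ComplexConjugate Matrix

namespace Crest.Agent.R269.Geo_328

noncomputable section

variable {N n : ℕ} {I : Ideal (HomCoordRing N)}

/-- finitely many homogeneous generators -/
theorem exists_hom_gens (hX : IsSmoothProjective I n) :
    ∃ (m : ℕ) (g : Fin m → HomCoordRing N) (deg : Fin m → ℕ), (∀ l, (g l).IsHomogeneous (deg l)) ∧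
      (∀ l, g l ∈ I) ∧ ∀ F ∈ I, ∃ a : Fin m → HomCoordRing N, F = ∑ l, a l * g l := by
  classical
  obtain ⟨S, hS⟩ : I.FG := (isNoetherianRing_iff_ideal_fg _).1 inferInstance I
  set D := S.sup fun g => g.totalDegree with hD
  let κ := S × Fin (D + 1)
  let e : Fin (Fintype.card κ) ≃ κ := (Fintype.equivFin κ).symm
  refine ⟨Fintype.card κ, fun l => homogeneousComponent (e l).2 (e l).1.1, fun l => (e l).2,
    fun l => homogeneousComponent_isHomogeneous _ _,
    fun l => hX.homogeneous _ (by rw [← hS]; exact Ideal.subset_span (e l).1.2) _, ?_⟩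
  intro F hF
  have h1 := hS.ge hF
  obtain ⟨a, -, ha⟩ := Submodule.mem_span_finset.1 h1
  refine ⟨fun l => a (e l).1.1, ?_⟩
  rw [Equiv.sum_comp e (fun x : κ => a x.1.1 * homogeneousComponent (x.2 : ℕ) x.1.1)]
  rw [Fintype.sum_prod_type, ← ha, ← Finset.sum_coe_sort S]
  refine Finset.sum_congr rfl fun g _ => ?_
  change a g.1 • g.1 = ∑ y : Fin (D + 1), a g.1 * homogeneousComponent (y : ℕ) g.1
  rw [← Finset.mul_sum, smul_eq_mul]
  congr 1
  have h2 : g.1.totalDegree ≤ D := Finset.le_sup (f := fun g => g.totalDegree) g.2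
  rw [Fin.sum_univ_eq_sum_range (fun d => homogeneousComponent d g.1) (D + 1)]
  conv_lhs => rw [← sum_homogeneousComponent g.1]
  refine Finset.sum_subset (Finset.range_mono (by omega)) fun d _ hd => ?_
  refine homogeneousComponent_eq_zero _ _ ?_
  simp at hd
  omega

theorem contDiff_det {W : Type*} [NormedAddCommGroup W] [NormedSpace ℝ W] {ι : Type*} [Fintype ι]
    [DecidableEq ι] {M : W → Matrix ι ι ℂ} {s : Set W} {k : WithTop ℕ∞}
    (h : ∀ a b, ContDiffOn ℝ k (fun w => M w a b) s) : ContDiffOn ℝ k (fun w => (M w).det) s := by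
  simp only [Matrix.det_apply]
  refine ContDiffOn.sum fun σ _ => ?_
  exact (contDiffOn_prod fun a _ => h _ _).const_smul _

theorem contDiff_adj {W : Type*} [NormedAddCommGroup W] [NormedSpace ℝ W] {ι : Type*} [Fintype ι]
    [DecidableEq ι] {M : W → Matrix ι ι ℂ} {s : Set W} {k : WithTop ℕ∞}
    (h : ∀ a b, ContDiffOn ℝ k (fun w => M w a b) s) (a b : ι) :
    ContDiffOn ℝ k (fun w => (M w).adjugate a b) s := by
  simp only [Matrix.adjugate_apply]
  refine contDiff_det fun c d => ?_
  by_cases hc : c = b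
  · subst hc
    simp only [Matrix.updateRow_self]
    exact contDiffOn_const
  · simp only [Matrix.updateRow_ne hc]
    exact h c d

section gram

variable {m r : ℕ} (g : Fin m → HomCoordRing N)

/-- the matrix of the gradients of `g (A s)` -/
def GA (A : Fin r → Fin m) (p : EE N) : Matrix (Fin r) (Fin (N + 1)) ℂ :=
  Matrix.of fun s => gradP (g (A s)) p

/-- Gram matrix -/
def XA (A : Fin r → Fin m) (p : EE N) : Matrix (Fin r) (Fin r) ℂ := GA g A p * (GA g A p)ᴴ

/-- Gram determinant -/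
def DA (A : Fin r → Fin m) (p : EE N) : ℂ := (XA g A p).det

/-- `D_A` times the projector -/
def QA (A : Fin r → Fin m) (p : EE N) : Matrix (Fin (N + 1)) (Fin (N + 1)) ℂ :=
  DA g A p • (1 : Matrix (Fin (N + 1)) (Fin (N + 1)) ℂ) -
    (GA g A p)ᴴ * (XA g A p).adjugate * GA g A p

theorem GA_QA (A : Fin r → Fin m) (p : EE N) : GA g A p * QA g A p = 0 := by
  rw [QA, Matrix.mul_sub, Matrix.mul_smul, Matrix.mul_one]
  have : GA g A p * ((GA g A p)ᴴ * (XA g A p).adjugate * GA g A p) =
      (XA g A p * (XA g A p).adjugate) * GA g A p := by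
    rw [XA]; simp only [Matrix.mul_assoc]
  rw [this, Matrix.mul_adjugate, Matrix.smul_mul, Matrix.one_mul, ← DA, sub_self]

theorem QA_mulVec (A : Fin r → Fin m) (p v : EE N) (h : (GA g A p).mulVec v = 0) :
    (QA g A p).mulVec v = DA g A p • v := by
  rw [QA, Matrix.sub_mulVec, ← Matrix.mulVec_mulVec, h, Matrix.mulVec_zero, sub_zero,
    Matrix.smul_mulVec, Matrix.one_mulVec]

theorem XA_herm (A : Fin r → Fin m) (p : EE N) : (XA g A p)ᴴ = XA g A p := by
  rw [XA, Matrix.conjTranspose_mul, Matrix.conjTranspose_conjTranspose]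

theorem DA_conj (A : Fin r → Fin m) (p : EE N) : star (DA g A p) = DA g A p := by
  rw [DA, ← Matrix.det_conjTranspose, XA_herm]

theorem QA_herm (A : Fin r → Fin m) (p : EE N) : (QA g A p)ᴴ = QA g A p := by
  rw [QA, Matrix.conjTranspose_sub, Matrix.conjTranspose_smul, Matrix.conjTranspose_one, DA_conj,
    Matrix.conjTranspose_mul, Matrix.conjTranspose_mul, Matrix.adjugate_conjTranspose, XA_herm,
    Matrix.conjTranspose_conjTranspose, Matrix.mul_assoc]

open scoped ComplexOrder in
theorem DA_nonneg (A : Fin r → Fin m) (p : EE N) : 0 ≤ DA g A p :=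
  (Matrix.posSemidef_self_mul_conjTranspose (GA g A p)).det_nonneg

/-- scaling -/
theorem GA_smul {deg : Fin m → ℕ} (hg : ∀ l, (g l).IsHomogeneous (deg l)) (A : Fin r → Fin m)
    (p : EE N) (c : ℂ) :
    GA g A (c • p) = Matrix.diagonal (fun s => c ^ (deg (A s) - 1)) * GA g A p := by
  ext s j
  rw [Matrix.diagonal_mul]
  exact eval_smul_hom (hg (A s)).pderiv c p

theorem XA_smul {deg : Fin m → ℕ} (hg : ∀ l, (g l).IsHomogeneous (deg l)) (A : Fin r → Fin m)
    (p : EE N) (c : ℂ) :
    XA g A (c • p) = Matrix.diagonal (fun s => c ^ (deg (A s) - 1)) * XA g A p *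
      (Matrix.diagonal (fun s => c ^ (deg (A s) - 1)))ᴴ := by
  rw [XA, GA_smul g hg, Matrix.conjTranspose_mul, XA]
  simp only [Matrix.mul_assoc]

/-- total exponent -/
def eA (deg : Fin m → ℕ) (A : Fin r → Fin m) : ℕ := ∑ s, (deg (A s) - 1)

theorem det_diag (deg : Fin m → ℕ) (A : Fin r → Fin m) (c : ℂ) :
    (Matrix.diagonal (fun s => c ^ (deg (A s) - 1))).det = c ^ eA deg A := by
  rw [Matrix.det_diagonal, Finset.prod_pow_eq_pow_sum, eA]

theorem DA_smul {deg : Fin m → ℕ} (hg : ∀ l, (g l).IsHomogeneous (deg l)) (A : Fin r → Fin m)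
    (p : EE N) (c : ℂ) :
    DA g A (c • p) = (c ^ eA deg A * star (c ^ eA deg A)) * DA g A p := by
  rw [DA, XA_smul g hg, Matrix.det_mul, Matrix.det_mul, Matrix.det_conjTranspose, det_diag, DA]
  ring

theorem QA_smul {deg : Fin m → ℕ} (hg : ∀ l, (g l).IsHomogeneous (deg l)) (A : Fin r → Fin m)
    (p : EE N) (c : ℂ) :
    QA g A (c • p) = (c ^ eA deg A * star (c ^ eA deg A)) • QA g A p := by
  set U : Matrix (Fin r) (Fin r) ℂ := Matrix.diagonal (fun s => c ^ (deg (A s) - 1)) with hU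
  have h1 : (GA g A (c • p))ᴴ * (XA g A (c • p)).adjugate * GA g A (c • p) =
      (c ^ eA deg A * star (c ^ eA deg A)) •
        ((GA g A p)ᴴ * (XA g A p).adjugate * GA g A p) := by
    rw [XA_smul g hg, GA_smul g hg, ← hU, Matrix.conjTranspose_mul, Matrix.adjugate_mul_distrib,
      Matrix.adjugate_mul_distrib]
    have h2 : Uᴴ * Uᴴ.adjugate = star (c ^ eA deg A) • (1 : Matrix (Fin r) (Fin r) ℂ) := by
      rw [Matrix.mul_adjugate, Matrix.det_conjTranspose, hU, det_diag]
    have h3 : U.adjugate * U = (c ^ eA deg A) • (1 : Matrix (Fin r) (Fin r) ℂ) := by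
      rw [Matrix.adjugate_mul, hU, det_diag]
    calc (GA g A p)ᴴ * Uᴴ * (Uᴴ.adjugate * ((XA g A p).adjugate * U.adjugate)) * (U * GA g A p)
        = (GA g A p)ᴴ * (Uᴴ * Uᴴ.adjugate) * (XA g A p).adjugate * (U.adjugate * U) * GA g A p := by
          simp only [Matrix.mul_assoc]
      _ = _ := by
          rw [h2, h3]
          simp only [Matrix.mul_smul, Matrix.smul_mul, Matrix.mul_one, smul_smul]
  rw [QA, h1, DA_smul g hg, QA, smul_sub, smul_smul]

end gram

theorem nsq_smul (c : ℂ) (p : EE N) : nsq (c • p) = ‖c‖ ^ 2 * nsq p := by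
  simp [nsq, mul_pow, Finset.mul_sum]

theorem nsq_pos {p : EE N} (hp : p ≠ 0) : 0 < nsq p := by
  obtain ⟨i, hi⟩ : ∃ i, p i ≠ 0 := by
    by_contra h; push Not at h; exact hp (funext h)
  refine Finset.sum_pos' (fun _ _ => by positivity) ⟨i, Finset.mem_univ _, ?_⟩
  have := norm_pos_iff.2 hi
  positivity

theorem contDiff_nsq {k : WithTop ℕ∞} : ContDiff ℝ k (fun p : EE N => nsq p) := by
  unfold nsq
  refine ContDiff.sum fun i _ => ?_
  have h1 : ContDiff ℝ k (fun p : EE N => p i) := contDiff_apply ℝ ℂ i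
  exact h1.norm_sq ℝ

theorem contDiff_eval_real (F : HomCoordRing N) {k : WithTop ℕ∞} :
    ContDiff ℝ k (fun q : EE N => MvPolynomial.eval q F) := (contDiff_eval F).restrict_scalars ℝ

section smooth

variable {m r : ℕ} (g : Fin m → HomCoordRing N) {k : WithTop ℕ∞} (A : Fin r → Fin m)
  (s : Set (EE N))

theorem contDiff_GA (a : Fin r) (j : Fin (N + 1)) :
    ContDiffOn ℝ k (fun p => GA g A p a j) s :=
  (contDiff_eval_real (pderiv j (g (A a)))).contDiffOn

theorem contDiff_GA' (j : Fin (N + 1)) (a : Fin r) :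
    ContDiffOn ℝ k (fun p => (GA g A p)ᴴ j a) s := by
  have h1 := contDiff_GA g (k := k) A s a j
  exact (Complex.conjCLE.contDiff.comp_contDiffOn h1 :
    ContDiffOn ℝ k (fun p => Complex.conjCLE (GA g A p a j)) s)

theorem contDiff_XA (a b : Fin r) : ContDiffOn ℝ k (fun p => XA g A p a b) s := by
  simp only [XA, Matrix.mul_apply]
  exact ContDiffOn.sum fun j _ => (contDiff_GA g A s a j).mul (contDiff_GA' g A s j b)

theorem contDiff_DA : ContDiffOn ℝ k (fun p => DA g A p) s :=
  contDiff_det fun a b => contDiff_XA g A s a b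

theorem contDiff_QA (i j : Fin (N + 1)) : ContDiffOn ℝ k (fun p => QA g A p i j) s := by
  simp only [QA, Matrix.sub_apply, Matrix.smul_apply, Matrix.mul_apply, smul_eq_mul]
  refine ContDiffOn.sub ((contDiff_DA g A s).mul contDiffOn_const) ?_
  refine ContDiffOn.sum fun a _ => ContDiffOn.mul (ContDiffOn.sum fun b _ => ?_)
    (contDiff_GA g A s a j)
  exact (contDiff_GA' g A s i b).mul (contDiff_adj (fun c d => contDiff_XA g A s c d) b a)

end smooth

/-- rows of `G_A` span the gradients if the Gram determinant does not vanish -/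
theorem mem_Tan_of_GA (hX : IsSmoothProjective I n) {m : ℕ} {g : Fin m → HomCoordRing N}
    (hgI : ∀ l, g l ∈ I) {p : EE N} (hp : p ∈ Cone I) {A : Fin (N - n) → Fin m}
    (hD : DA g A p ≠ 0) {v : EE N} (hv : (GA g A p).mulVec v = 0) : v ∈ Tan I p := by
  have hinj : Function.Injective (GA g A p).vecMul := by
    intro a b hab
    have h1 : Function.Injective (XA g A p).vecMul :=
      Matrix.vecMul_injective_iff_isUnit.2
        ((Matrix.isUnit_iff_isUnit_det _).2 (isUnit_iff_ne_zero.2 hD))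
    apply h1
    simp only [XA, ← Matrix.vecMul_vecMul]
    have h2 : (GA g A p).vecMul a = (GA g A p).vecMul b := hab
    change ((GA g A p)ᴴ).vecMul ((GA g A p).vecMul a) = ((GA g A p)ᴴ).vecMul ((GA g A p).vecMul b)
    rw [h2]
  have hli : LinearIndependent ℂ (GA g A p).row := Matrix.vecMul_injective_iff.1 hinj
  have hspan : Submodule.span ℂ (Set.range (GA g A p).row) = gradSpan I p := by
    refine Submodule.eq_of_le_of_finrank_eq ?_ ?_
    · rw [Submodule.span_le]
      rintro _ ⟨s, rfl⟩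
      exact gradP_mem_gradSpan (hgI (A s)) p
    · rw [finrank_span_eq_card hli, Fintype.card_fin]
      exact (hX.jacobian p hp.1 hp.2).symm
  intro F hF
  have h1 : gradP F p ∈ Submodule.span ℂ (Set.range (GA g A p).row) := by
    rw [hspan]; exact gradP_mem_gradSpan hF p
  refine Submodule.span_induction (p := fun g _ => g ⬝ᵥ v = 0) ?_ ?_ ?_ ?_ h1
  · rintro _ ⟨s, rfl⟩
    exact congrFun hv s
  · simp
  · intro x y _ _ hx hy
    rw [add_dotProduct, hx, hy, add_zero]
  · intro a x _ hx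
    rw [smul_dotProduct, hx, smul_zero]

theorem exists_DA_ne (hX : IsSmoothProjective I n) {m : ℕ} {g : Fin m → HomCoordRing N}
    (hgen : ∀ F ∈ I, ∃ a : Fin m → HomCoordRing N, F = ∑ l, a l * g l) (hgI : ∀ l, g l ∈ I)
    {p : EE N} (hp : p ∈ Cone I) : ∃ A : Fin (N - n) → Fin m, DA g A p ≠ 0 := by
  have hspan : Submodule.span ℂ (Set.range fun l => gradP (g l) p) = gradSpan I p := by
    refine le_antisymm ?_ ?_
    · rw [Submodule.span_le]
      rintro _ ⟨l, rfl⟩
      exact gradP_mem_gradSpan (hgI l) p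
    · rw [gradSpan, Submodule.span_le]
      rintro _ ⟨F, hF, rfl⟩
      obtain ⟨a, rfl⟩ := hgen F hF
      have h1 : (fun j => MvPolynomial.eval p (pderiv j (∑ l, a l * g l))) =
          ∑ l, MvPolynomial.eval p (a l) • gradP (g l) p := by
        funext j
        simp only [map_sum, pderiv_mul, map_add, map_mul, Finset.sum_apply, Pi.smul_apply,
          smul_eq_mul, gradP]
        refine Finset.sum_congr rfl fun l _ => ?_
        rw [hp.1 _ (hgI l)]; ring
      rw [h1]
      exact Submodule.sum_mem _ fun l _ => Submodule.smul_mem _ _ (Submodule.subset_span ⟨l, rfl⟩)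
  obtain ⟨f, hf, -, hli⟩ := Submodule.exists_fun_fin_finrank_span_eq ℂ
    (Set.range fun l => gradP (g l) p)
  have hr : Module.finrank ℂ (Submodule.span ℂ (Set.range fun l => gradP (g l) p)) = N - n := by
    rw [hspan]; exact hX.jacobian p hp.1 hp.2
  choose B hB using hf
  refine ⟨fun s => B (Fin.cast hr.symm s), ?_⟩
  set A : Fin (N - n) → Fin m := fun s => B (Fin.cast hr.symm s) with hA
  have hli2 : LinearIndependent ℂ (GA g A p).row := by
    have h1 := hli.comp (Fin.cast hr.symm) (Fin.cast_injective _)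
    have h2 : (GA g A p).row = f ∘ Fin.cast hr.symm := by
      funext s
      exact hB (Fin.cast hr.symm s)
    rw [h2]; exact h1
  have hinj := Matrix.vecMul_injective_iff.2 hli2
  open scoped ComplexOrder in
  exact (Matrix.PosDef.mul_conjTranspose_self (GA g A p) hinj).det_pos.ne'

/-- PROJECTOR THEOREM -/
theorem projStmt : ProjStmt := by
  intro N n I hI hX
  classical
  obtain ⟨m, g, deg, hg, hgI, hgen⟩ := exists_hom_gens hX
  set r := N - n with hr
  let w : (Fin r → Fin m) → EE N → ℂ := fun A p => ((nsq p : ℂ) ^ (2 * eA deg A))⁻¹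
  let Z : EE N → ℂ := fun p => ∑ A, w A p * (DA g A p) ^ 2
  let Qi : EE N → VV N := fun p i j => (Z p)⁻¹ * ∑ A, w A p * DA g A p * QA g A p i j
  have hnsqC : ∀ p : EE N, p ≠ 0 → (nsq p : ℂ) ≠ 0 := fun p hp => by
    exact_mod_cast (nsq_pos hp).ne'
  have hwc : ∀ A : Fin r → Fin m, ContDiffOn ℝ ∞ (w A) {p : EE N | p ≠ 0} := by
    intro A
    have h1 : ContDiff ℝ ∞ (fun p : EE N => (nsq p : ℂ)) :=
      Complex.ofRealCLM.contDiff.comp contDiff_nsq
    exact ContDiffOn.inv (h1.pow _).contDiffOn fun p hp => pow_ne_zero _ (hnsqC p hp)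
  have hZc : ContDiffOn ℝ ∞ Z {p : EE N | p ≠ 0} :=
    ContDiffOn.sum fun A _ => (hwc A).mul ((contDiff_DA g A _).pow 2)
  -- scaling
  have hu : ∀ (c : ℂ) (e : ℕ), c ^ e * star (c ^ e) = ((‖c‖ ^ 2 : ℝ) : ℂ) ^ e := by
    intro c e
    rw [star_pow, ← mul_pow]
    congr 1
    rw [Complex.star_def, Complex.mul_conj, Complex.normSq_eq_norm_sq]
  have hw : ∀ (A : Fin r → Fin m) (c : ℂ) (p : EE N), c ≠ 0 →
      w A (c • p) * (((‖c‖ ^ 2 : ℝ) : ℂ) ^ eA deg A) ^ 2 = w A p := by
    intro A c p hc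
    have h1 : ((‖c‖ ^ 2 : ℝ) : ℂ) ≠ 0 := by
      have := norm_pos_iff.2 hc
      exact_mod_cast (by positivity : (‖c‖ ^ 2 : ℝ) ≠ 0)
    simp only [w, nsq_smul]
    rw [Complex.ofReal_mul, mul_pow, mul_inv, ← pow_mul, mul_comm (eA deg A) 2]
    rw [mul_comm, ← mul_assoc, mul_inv_cancel₀ (pow_ne_zero _ h1), one_mul]
  have hZs : ∀ (c : ℂ) (p : EE N), c ≠ 0 → Z (c • p) = Z p := by
    intro c p hc
    refine Finset.sum_congr rfl fun A _ => ?_
    rw [DA_smul g hg, hu, mul_pow, ← mul_assoc, hw A c p hc]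
  have hPs : ∀ (c : ℂ) (p : EE N), c ≠ 0 → Qi (c • p) = Qi p := by
    intro c p hc
    funext i j
    simp only [Qi]
    rw [hZs c p hc]
    congr 1
    refine Finset.sum_congr rfl fun A _ => ?_
    rw [DA_smul g hg, QA_smul g hg, hu, Matrix.smul_apply, smul_eq_mul, ← hw A c p hc]
    ring
  -- nonvanishing on the cone
  have hZne : ∀ p ∈ Cone I, Z p ≠ 0 := by
    intro p hp
    open scoped ComplexOrder in
    have hw0 : ∀ A : Fin r → Fin m, 0 < w A p := by
      intro A
      simp only [w]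
      have h1 : (0 : ℂ) < (nsq p : ℂ) := by
        exact_mod_cast nsq_pos hp.2
      positivity
    obtain ⟨A, hA⟩ := exists_DA_ne hX hgen hgI hp
    have h2 : ∀ A : Fin r → Fin m, 0 ≤ w A p * (DA g A p) ^ 2 := fun A =>
      mul_nonneg (hw0 A).le (pow_nonneg (DA_nonneg g A p) 2)
    have h3 : 0 < w A p * (DA g A p) ^ 2 :=
      mul_pos (hw0 A) (pow_pos (lt_of_le_of_ne (DA_nonneg g A p) (Ne.symm hA)) 2)
    exact (Finset.sum_pos' (fun A _ => h2 A) ⟨A, Finset.mem_univ _, h3⟩).ne'
  have happ : ∀ (p v : EE N), (fun i => ∑ j, Qi p i j * v j) =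
      (Z p)⁻¹ • ∑ A, (w A p * DA g A p) • (QA g A p).mulVec v := by
    intro p v
    funext i
    simp only [Qi, Pi.smul_apply, Finset.sum_apply, smul_eq_mul, Matrix.mulVec, dotProduct]
    simp only [mul_assoc, Finset.sum_mul, Finset.mul_sum]
    rw [Finset.sum_comm]
  refine ⟨{p | p ≠ 0} ∩ Z ⁻¹' {0}ᶜ, Qi, ?_, fun p hp => ⟨hp.2, hZne p hp⟩, ?_, ?_, ?_⟩
  · exact hZc.continuousOn.isOpen_inter_preimage isOpen_ne isOpen_compl_singleton
  · refine contDiffOn_pi.2 fun i => contDiffOn_pi.2 fun j => ?_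
    have hsub : ({p : EE N | p ≠ 0} ∩ Z ⁻¹' {0}ᶜ) ⊆ {p : EE N | p ≠ 0} := Set.inter_subset_left
    refine ContDiffOn.mul (ContDiffOn.inv (hZc.mono hsub) fun p hp => hp.2) ?_
    exact ContDiffOn.sum fun A _ => (((hwc A).mono hsub).mul (contDiff_DA g A _)).mul
      (contDiff_QA g A _ i j)
  · intro c hc q hq
    refine ⟨⟨smul_ne_zero hc hq.1, ?_⟩, hPs c q hc⟩
    rw [Set.mem_preimage, hZs c q hc]
    exact hq.2
  · intro p hp
    refine ⟨fun v => ?_, fun v hv => ?_, fun i j => ?_⟩
    · rw [happ]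
      refine Submodule.smul_mem _ _ (Submodule.sum_mem _ fun A _ => ?_)
      by_cases hD : DA g A p = 0
      · rw [hD, mul_zero, zero_smul]
        exact Submodule.zero_mem _
      · refine Submodule.smul_mem _ _ (mem_Tan_of_GA hX hgI hp hD ?_)
        rw [Matrix.mulVec_mulVec, GA_QA, Matrix.zero_mulVec]
    · rw [happ]
      have h1 : ∀ A : Fin r → Fin m, (GA g A p).mulVec v = 0 := fun A => by
        funext s
        exact hv _ (hgI (A s))
      have h2 : ∑ A, (w A p * DA g A p) • (QA g A p).mulVec v = Z p • v := by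
        simp only [QA_mulVec g _ p v (h1 _), smul_smul]
        rw [← Finset.sum_smul]
        congr 1
        exact Finset.sum_congr rfl fun A _ => by ring
      rw [h2, smul_smul, inv_mul_cancel₀ (hZne p hp), one_smul]
    · have hwr : ∀ A : Fin r → Fin m, conj (w A p) = w A p := fun A => by
        simp only [w, map_inv₀, map_pow, Complex.conj_ofReal]
      have hDr : ∀ A : Fin r → Fin m, conj (DA g A p) = DA g A p := fun A => DA_conj g A p
      have hQr : ∀ A : Fin r → Fin m, conj (QA g A p i j) = QA g A p j i := fun A => by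
        conv_rhs => rw [← QA_herm]
        rfl
      have hZr : conj (Z p) = Z p := by
        simp only [Z, map_sum, map_mul, map_pow, hwr, hDr]
      simp only [Qi, map_mul, map_inv₀, map_sum, hwr, hDr, hQr, hZr]

end

end Crest.Agent.R269.Geo_328
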