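import Crest.Agent.R269.FldD_620
import Crest.Agent.R269.GeoPi_328

/-!
# R269 (S0411), leaf FLD, part E (helper620): smooth functions and fields

* `smX_const`, `smX_add`, `smX_mul`, `smX_comp`, `smX_inv`, `smX_rpow`, `smX_log`, `smX_exp` ...
* `PiD`, `exists_PiD` : the smooth projector onto the tangent spaces; `QQ` = projector onto
  `Tan I p ∩ pᗮ`
* `exists_detF` : `PosField I n a → ∃ D, SmX I D ∧ 0 < D ∧ ∀ Rep, DD p b = D p`
* `posField_smul`, `posField_add`, `posField_gInv`, `exists_posField_frame`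
-/

set_option autoImplicit false
set_option linter.unusedSectionVars false

open Matrix Crest.AlgGeometry.ProjEmb
open scoped ComplexConjugate ComplexOrder MatrixOrder ContDiff

namespace Crest.Agent.R269.FldE_620

open Crest.Agent.R269.Geo_328 Crest.Agent.R269.FldA_620 Crest.Agent.R269.FldB_620
open Crest.Agent.R269.FldC_620 Crest.Agent.R269.FldD_620 Crest.Agent.R269.Defs_58
open Crest.Agent.R269

noncomputable section

variable {N n : ℕ} {I : Ideal (HomCoordRing N)}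

/-! ### smooth functions -/

theorem smX_const (c : ℝ) : SmX I (fun _ => c) :=
  ⟨fun _ _ => contDiffAt_const, fun _ _ _ _ => rfl⟩

theorem smX_add {u v : EE N → ℝ} (hu : SmX I u) (hv : SmX I v) : SmX I (fun p => u p + v p) :=
  ⟨fun p hp => (hu.1 p hp).add (hv.1 p hp), fun p hp c hc => by
    simp only [hu.2 p hp c hc, hv.2 p hp c hc]⟩

theorem smX_sub {u v : EE N → ℝ} (hu : SmX I u) (hv : SmX I v) : SmX I (fun p => u p - v p) :=
  ⟨fun p hp => (hu.1 p hp).sub (hv.1 p hp), fun p hp c hc => by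
    simp only [hu.2 p hp c hc, hv.2 p hp c hc]⟩

theorem smX_mul {u v : EE N → ℝ} (hu : SmX I u) (hv : SmX I v) : SmX I (fun p => u p * v p) :=
  ⟨fun p hp => (hu.1 p hp).mul (hv.1 p hp), fun p hp c hc => by
    simp only [hu.2 p hp c hc, hv.2 p hp c hc]⟩

theorem smX_neg {u : EE N → ℝ} (hu : SmX I u) : SmX I (fun p => - u p) :=
  ⟨fun p hp => (hu.1 p hp).neg, fun p hp c hc => by simp only [hu.2 p hp c hc]⟩

theorem smX_comp {u : EE N → ℝ} (hu : SmX I u) {g : ℝ → ℝ}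
    (hg : ∀ p ∈ Cone I, ContDiffAt ℝ ∞ g (u p)) : SmX I (fun p => g (u p)) :=
  ⟨fun p hp => ContDiffAt.comp p (hg p hp) (hu.1 p hp), fun p hp c hc => by
    simp only [hu.2 p hp c hc]⟩

theorem smX_inv {u : EE N → ℝ} (hu : SmX I u) (h0 : ∀ p ∈ Cone I, u p ≠ 0) :
    SmX I (fun p => (u p)⁻¹) :=
  ⟨fun p hp => (hu.1 p hp).inv (h0 p hp), fun p hp c hc => by simp only [hu.2 p hp c hc]⟩

theorem smX_div {u v : EE N → ℝ} (hu : SmX I u) (hv : SmX I v) (h0 : ∀ p ∈ Cone I, v p ≠ 0) :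
    SmX I (fun p => u p / v p) := by
  simp only [div_eq_mul_inv]
  exact smX_mul hu (smX_inv hv h0)

theorem smX_rpow {u : EE N → ℝ} (hu : SmX I u) (h0 : ∀ p ∈ Cone I, 0 < u p) (s : ℝ) :
    SmX I (fun p => u p ^ s) :=
  smX_comp hu (g := fun x => x ^ s) fun p hp => Real.contDiffAt_rpow_const_of_ne (h0 p hp).ne'

theorem smX_log {u : EE N → ℝ} (hu : SmX I u) (h0 : ∀ p ∈ Cone I, 0 < u p) :
    SmX I (fun p => Real.log (u p)) :=
  smX_comp hu fun p hp => Real.contDiffAt_log.2 (h0 p hp).ne'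

theorem smX_exp {u : EE N → ℝ} (hu : SmX I u) : SmX I (fun p => Real.exp (u p)) :=
  smX_comp hu fun _ _ => Real.contDiff_exp.contDiffAt

/-! ### the projectors -/

/-- a smooth family of orthogonal projectors onto the tangent spaces of the cone -/
structure PiD (I : Ideal (HomCoordRing N)) (Pi : EE N → VV N) : Prop where
  smooth : ∀ p ∈ Cone I, ContDiffAt ℝ ∞ Pi p
  inv : ∀ p ∈ Cone I, ∀ c : ℂ, c ≠ 0 → Pi (c • p) = Pi p
  mem : ∀ p ∈ Cone I, ∀ v : EE N, toM (Pi p) *ᵥ v ∈ Tan I p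
  id : ∀ p ∈ Cone I, ∀ v ∈ Tan I p, toM (Pi p) *ᵥ v = v
  herm : ∀ p ∈ Cone I, (toM (Pi p)).IsHermitian

theorem exists_PiD (hI : I.IsPrime) (hX : IsSmoothProjective I n) :
    ∃ Pi : EE N → VV N, PiD I Pi := by
  obtain ⟨O, Pi, hO, hCO, hs, hinv, h⟩ := projStmt N n I hI hX
  refine ⟨Pi, ⟨fun p hp => hs.contDiffAt (hO.mem_nhds (hCO hp)),
    fun p hp c hc => (hinv c hc p (hCO hp)).2, fun p hp v => (h p hp).1 v,
    fun p hp v hv => (h p hp).2.1 v hv, fun p hp => ?_⟩⟩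
  ext i j
  exact (h p hp).2.2 j i

/-- projector onto the horizontal tangent space `Tan I p ∩ pᗮ` -/
def QQ (Pi : EE N → VV N) (p : EE N) : VV N := fun i j => Pi p i j - PP p i j

theorem toM_QQ (Pi : EE N → VV N) (p : EE N) : toM (QQ Pi p) = toM (Pi p) - toM (PP p) := rfl

theorem PP_mulVec (p v : EE N) : toM (PP p) *ᵥ v = ((nsq p : ℂ)⁻¹ * (star p ⬝ᵥ v)) • p := by
  ext i
  simp only [toM, Matrix.mulVec, dotProduct, PP, Pi.smul_apply, smul_eq_mul, Pi.star_apply,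
    RCLike.star_def, Finset.mul_sum, Finset.sum_mul]
  exact Finset.sum_congr rfl fun j _ => by ring

theorem PP_herm (p : EE N) : (toM (PP p)).IsHermitian := by
  ext i j
  change conj (PP p j i) = PP p i j
  simp only [PP, map_div₀, map_mul, Complex.conj_conj, Complex.conj_ofReal]
  ring

theorem QQ_herm {Pi : EE N → VV N} (h : PiD I Pi) {p : EE N} (hp : p ∈ Cone I) :
    (toM (QQ Pi p)).IsHermitian := (h.herm p hp).sub (PP_herm p)

theorem QQ_mulVec_mem (hX : IsSmoothProjective I n) {Pi : EE N → VV N} (h : PiD I Pi) {p : EE N}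
    (hp : p ∈ Cone I) (v : EE N) : toM (QQ Pi p) *ᵥ v ∈ HTan I p := by
  have hpc : (nsq p : ℂ) ≠ 0 := by exact_mod_cast (nsq_pos' hp.2).ne'
  have hpT : p ∈ Tan I p := self_mem_Tan hX hp.1
  rw [toM_QQ, Matrix.sub_mulVec, PP_mulVec]
  refine ⟨(Tan I p).sub_mem (h.mem p hp v) ((Tan I p).smul_mem _ hpT), ?_⟩
  have h1 : star p ⬝ᵥ (toM (Pi p) *ᵥ v) = star p ⬝ᵥ v := by
    rw [Matrix.dotProduct_mulVec]
    have h2 : star p ᵥ* toM (Pi p) = star p := by
      have h3 := congrArg star (h.id p hp p hpT)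
      rw [Matrix.star_mulVec, (h.herm p hp).eq] at h3
      exact h3
    rw [h2]
  rw [dotProduct_sub, h1, dotProduct_smul, star_dot_self', smul_eq_mul]
  field_simp
  ring

theorem QQ_mulVec_of_mem {Pi : EE N → VV N} (h : PiD I Pi) {p : EE N}
    (hp : p ∈ Cone I) {v : EE N} (hv : v ∈ HTan I p) : toM (QQ Pi p) *ᵥ v = v := by
  rw [toM_QQ, Matrix.sub_mulVec, PP_mulVec, h.id p hp v hv.1, hv.2, mul_zero, zero_smul, sub_zero]

/-- `QQ` is `E Eᴴ` for every orthonormal basis `E` of `Tan I p ∩ pᗮ` -/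
theorem QQ_eq (hX : IsSmoothProjective I n) {Pi : EE N → VV N} (h : PiD I Pi) {p : EE N}
    (hp : p ∈ Cone I) {E : Matrix (Fin (N + 1)) (Fin n) ℂ} (hE : IsOnb I p E) :
    toM (QQ Pi p) = E * Eᴴ := by
  have h1 : toM (QQ Pi p) * E = E := by
    ext j k
    exact congrFun (QQ_mulVec_of_mem h hp (hE.mem k)) j
  have h2 : E * Eᴴ * toM (QQ Pi p) = toM (QQ Pi p) := by
    ext j k
    have h3 := congrFun (hE.id _ (QQ_mulVec_mem hX h hp (_root_.Pi.single k 1))) j
    rw [Matrix.mulVec_mulVec] at h3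
    have h4 : toM (QQ Pi p) *ᵥ (_root_.Pi.single k 1) = fun i => toM (QQ Pi p) i k := by
      ext i
      simp
    rw [h4] at h3
    exact h3
  have h5 := congrArg Matrix.conjTranspose h2
  rw [Matrix.conjTranspose_mul, (QQ_herm h hp).eq, Matrix.conjTranspose_mul,
    Matrix.conjTranspose_conjTranspose, ← Matrix.mul_assoc, h1] at h5
  exact h5.symm

/-! ### smoothness -/

theorem contDiffAt_nsq (p : EE N) : ContDiffAt ℝ ∞ (nsq : EE N → ℝ) p :=
  contDiff_nsq.contDiffAt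

theorem contDiffAt_nsqC (p : EE N) : ContDiffAt ℝ ∞ (fun q : EE N => (nsq q : ℂ)) p :=
  Complex.ofRealCLM.contDiff.contDiffAt.comp p (contDiffAt_nsq p)

theorem contDiffAt_PP {p : EE N} (hp : p ≠ 0) : ContDiffAt ℝ ∞ (PP : EE N → VV N) p := by
  have hpc : (nsq p : ℂ) ≠ 0 := by exact_mod_cast (nsq_pos' hp).ne'
  refine contDiffAt_pi.2 fun i => contDiffAt_pi.2 fun j => ?_
  have h1 : ∀ i, ContDiffAt ℝ ∞ (fun q : EE N => q i) p := fun i => (contDiff_apply ℝ ℂ i).contDiffAt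
  have h2 : ContDiffAt ℝ ∞ (fun q : EE N => conj (q j)) p :=
    Complex.conjCLE.contDiff.contDiffAt.comp p (h1 j)
  have h3 : ContDiffAt ℝ ∞ (fun q : EE N => (nsq q : ℂ)⁻¹) p := (contDiffAt_nsqC p).inv hpc
  exact ((h1 i).mul h2).mul h3

theorem contDiffAt_QQ {Pi : EE N → VV N} (h : PiD I Pi) {p : EE N} (hp : p ∈ Cone I) :
    ContDiffAt ℝ ∞ (QQ Pi) p := (h.smooth p hp).sub (contDiffAt_PP hp.2)

theorem contDiffAt_det {W : Type*} [NormedAddCommGroup W] [NormedSpace ℝ W] {ι : Type*} [Fintype ι]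
    [DecidableEq ι] {M : W → Matrix ι ι ℂ} {x : W} {k : WithTop ℕ∞}
    (h : ∀ a b, ContDiffAt ℝ k (fun w => M w a b) x) : ContDiffAt ℝ k (fun w => (M w).det) x := by
  simp only [Matrix.det_apply]
  refine ContDiffAt.sum fun σ _ => ?_
  exact (contDiffAt_prod fun a _ => h _ _).const_smul _

theorem contDiffAt_apply_apply {W : Type*} [NormedAddCommGroup W] [NormedSpace ℝ W]
    {a : W → VV N} {x : W} {k : WithTop ℕ∞} (h : ContDiffAt ℝ k a x) (i j : Fin (N + 1)) :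
    ContDiffAt ℝ k (fun w => a w i j) x :=
  contDiffAt_pi.1 (contDiffAt_pi.1 h i) j

/-! ### the determinant function -/

/-- `det_g a` by a formula -/
def detF (n : ℕ) (Pi a : EE N → VV N) (p : EE N) : ℝ :=
  ((toM (a p) + (1 - toM (QQ Pi p))).det).re / nsq p ^ n

theorem detF_eq (hX : IsSmoothProjective I n) {Pi a : EE N → VV N} (h : PiD I Pi) {p : EE N}
    (hp : p ∈ Cone I) {b : Fin n → EE N} (hb : Rep I a p b) (h0 : 0 < DD p b) :
    detF n Pi a p = DD p b := by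
  obtain ⟨E, hE⟩ := exists_isOnb hX hp
  have h1 := ((isRep_iff hp.2).2 ⟨hb, h0⟩).det_add hp.2 hE
  rw [detF, QQ_eq hX h hp hE, h1, Complex.ofReal_re, ← DD_eq_D hp.2, mul_comm,
    mul_div_assoc, div_self (pow_ne_zero _ (nsq_pos' hp.2).ne'), mul_one]

theorem rep_smul_point {a : EE N → VV N} {p : EE N} {b : Fin n → EE N} {c : ℂ} (hc : c ≠ 0)
    (hX : IsSmoothProjective I n) (hp : p ∈ Cone I)
    (ha : a (c • p) = ((‖c‖ ^ 2 : ℝ) : ℂ) • a p) (h : Rep I a p b) :
    Rep I a (c • p) (fun i => c • b i) := by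
  refine ⟨fun i => ?_, fun i => ?_, fun j k => ?_⟩
  · rw [Tan_smul hX p hc]
    exact (Tan I p).smul_mem _ (h.1 i)
  · have h1 := h.2.1 i
    have h2 : ∑ k, (c • b i) k * conj ((c • p) k) = (c * conj c) * ∑ k, b i k * conj (p k) := by
      simp only [Pi.smul_apply, smul_eq_mul, map_mul, Finset.mul_sum]
      exact Finset.sum_congr rfl fun k _ => by ring
    rw [h2, h1, mul_zero]
  · rw [ha, Pi.smul_apply, Pi.smul_apply, smul_eq_mul, h.2.2 j k, Finset.mul_sum]
    refine Finset.sum_congr rfl fun i _ => ?_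
    simp only [Pi.smul_apply, smul_eq_mul, map_mul]
    have : (((‖c‖ ^ 2 : ℝ)) : ℂ) = c * conj c := by
      rw [Complex.mul_conj, Complex.normSq_eq_norm_sq]
    rw [this]
    ring

/-- **`det_g a` is a smooth function** -/
theorem smX_detF (hX : IsSmoothProjective I n) {Pi a : EE N → VV N} (h : PiD I Pi)
    (ha : PosField I n a) : SmX I (detF n Pi a) := by
  refine ⟨fun p hp => ?_, fun p hp c hc => ?_⟩
  · have h1 : ContDiffAt ℝ ∞ (fun q => (toM (a q) + (1 - toM (QQ Pi q))).det) p := by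
      refine contDiffAt_det fun i j => ?_
      have e : (fun q => (toM (a q) + (1 - toM (QQ Pi q))) i j) =
          fun q => a q i j + ((1 : Matrix (Fin (N + 1)) (Fin (N + 1)) ℂ) i j - QQ Pi q i j) := rfl
      rw [e]
      exact (contDiffAt_apply_apply (ha.smooth p hp) i j).add
        (contDiffAt_const.sub (contDiffAt_apply_apply (contDiffAt_QQ h hp) i j))
    have h2 : ContDiffAt ℝ ∞ (fun q => ((toM (a q) + (1 - toM (QQ Pi q))).det).re) p :=
      Complex.reCLM.contDiff.contDiffAt.comp p h1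
    exact h2.div ((contDiffAt_nsq p).pow n) (pow_ne_zero _ (nsq_pos' hp.2).ne')
  · obtain ⟨b, hb, h0⟩ := ha.rep p hp
    have h1 := rep_smul_point hc hX hp (ha.hom p hp c hc) hb
    have h2 : DD (c • p) (fun i => c • b i) = DD p b := DD_smul hp.2 hc b
    rw [detF_eq hX h (smul_mem_Cone hX hp hc) h1 (by rw [h2]; exact h0), h2, detF_eq hX h hp hb h0]

theorem exists_detF (hI : I.IsPrime) (hX : IsSmoothProjective I n) {a : EE N → VV N}
    (ha : PosField I n a) : ∃ D : EE N → ℝ, SmX I D ∧ (∀ p ∈ Cone I, 0 < D p) ∧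
      ∀ p ∈ Cone I, ∀ b : Fin n → EE N, Rep I a p b → DD p b = D p := by
  obtain ⟨Pi, h⟩ := exists_PiD hI hX
  refine ⟨detF n Pi a, smX_detF hX h ha, fun p hp => ?_, fun p hp b hb => ?_⟩
  · obtain ⟨b, hb, h0⟩ := ha.rep p hp
    rw [detF_eq hX h hp hb h0]
    exact h0
  · exact (detF_eq hX h hp hb (rep_DD_pos ha hp hb)).symm

end

end Crest.Agent.R269.FldE_620
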