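import Mathlib
import Crest.Prelude.Def_ProjPluricanonical
import Crest.Agent.R269.Tan_60
import Crest.Agent.R269.GeoDefs_328

/-!
# VF1: finitely many homogeneous polynomial vector fields of one degree spanning the tangent spaces
(helper60, row 269)
-/

set_option autoImplicit false

open MvPolynomial Module

namespace Crest.Agent.R269.Hom_60

open Crest.AlgGeometry.ProjEmb Crest.Agent.R269.Tan_60 Crest.Agent.R269.Geo_328

section Homog

variable {σ : Type*}

theorem isHomogeneous_det {c : ℕ} (M : Matrix (Fin c) (Fin c) (MvPolynomial σ ℂ)) (d : Fin c → ℕ)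
    (h : ∀ i j, (M i j).IsHomogeneous (d i)) : M.det.IsHomogeneous (∑ i, d i) := by
  rw [Matrix.det_apply]
  refine IsHomogeneous.sum _ _ _ fun τ _ => ?_
  have h1 : (∏ i, M (τ i) i).IsHomogeneous (∑ i, d (τ i)) :=
    IsHomogeneous.prod _ _ _ fun i _ => h (τ i) i
  have h2 : ∑ i, d (τ i) = ∑ i, d i := Equiv.sum_comp τ d
  rw [h2] at h1
  rcases Int.units_eq_one_or (Equiv.Perm.sign τ) with h3 | h3
  · rw [h3]; simpa using h1
  · rw [h3]
    simpa using h1.neg

end Homog

variable {N n : ℕ}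

/-- homogeneous generators indexed by `Fin s × Fin (d0+1)` -/
noncomputable def Gh {s : ℕ} (G : Fin s → R N) (d0 : ℕ) (x : Fin s × Fin (d0 + 1)) : R N :=
  homogeneousComponent (x.2 : ℕ) (G x.1)

theorem Gh_homog {s : ℕ} (G : Fin s → R N) (d0 : ℕ) (x : Fin s × Fin (d0 + 1)) :
    (Gh G d0 x).IsHomogeneous (x.2 : ℕ) := homogeneousComponent_isHomogeneous _ _

theorem span_Gh {I : Ideal (R N)} (hI : ∀ F ∈ I, ∀ d : ℕ, homogeneousComponent d F ∈ I)
    {s : ℕ} {G : Fin s → R N} (hG : Ideal.span (Set.range G) = I) {d0 : ℕ}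
    (hd : ∀ a, (G a).totalDegree ≤ d0) : Ideal.span (Set.range (Gh G d0)) = I := by
  apply le_antisymm
  · rw [Ideal.span_le]
    rintro _ ⟨x, rfl⟩
    exact hI _ (by rw [← hG]; exact Ideal.subset_span ⟨x.1, rfl⟩) _
  · rw [← hG, Ideal.span_le]
    rintro _ ⟨a, rfl⟩
    have h1 : G a = ∑ d : Fin (d0 + 1), Gh G d0 (a, d) := by
      conv_lhs => rw [← sum_homogeneousComponent (G a)]
      have h2 : ∑ d : Fin (d0 + 1), Gh G d0 (a, d) =
          ∑ i ∈ Finset.range (d0 + 1), homogeneousComponent i (G a) := by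
        rw [← Fin.sum_univ_eq_sum_range (fun i => homogeneousComponent i (G a)) (d0 + 1)]
        rfl
      rw [h2]
      refine Finset.sum_subset ?_ ?_
      · intro i hi
        rw [Finset.mem_range] at *
        have := hd a
        omega
      · intro i _ hi
        rw [Finset.mem_range] at hi
        exact homogeneousComponent_eq_zero _ _ (by omega)
    rw [SetLike.mem_coe, h1]
    exact Ideal.sum_mem _ fun d _ => Ideal.subset_span ⟨(a, d), rfl⟩

/-- the degree of `theta` -/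
def eS {s d0 c : ℕ} (S : Fin c → Fin s × Fin (d0 + 1)) : ℕ := ∑ a, (((S a).2 : ℕ) - 1)

theorem eS_le {s d0 c : ℕ} (S : Fin c → Fin s × Fin (d0 + 1)) : eS S ≤ c * d0 := by
  have : eS S ≤ ∑ _a : Fin c, d0 := Finset.sum_le_sum fun a _ => by
    have := (S a).2.2
    omega
  simpa using this

theorem theta_homog {s : ℕ} (G : Fin s → R N) (d0 : ℕ) {c : ℕ}
    (S : Fin c → Fin s × Fin (d0 + 1)) (J : Fin (c + 1) → Fin (N + 1)) (k : Fin (N + 1)) :
    (theta (Gh G d0) S J k).IsHomogeneous (eS S) := by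
  have h := isHomogeneous_det (bmat (grow (Gh G d0) S) (Pi.single k 1) J)
    (Fin.cons 0 fun a => ((S a).2 : ℕ) - 1) (by
      intro i j
      refine Fin.cases ?_ (fun a => ?_) i
      · rw [bmat_zero, Fin.cons_zero]
        by_cases hk : J j = k
        · rw [hk, Pi.single_eq_same]
          exact isHomogeneous_one _ _
        · rw [Pi.single_eq_of_ne hk]
          exact isHomogeneous_zero _ _ _
      · rw [bmat_succ, Fin.cons_succ]
        exact (Gh_homog G d0 (S a)).pderiv)
  rw [Fin.sum_univ_succ] at h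
  simpa [eS, theta] using h

/-- the homogeneous fields -/
noncomputable def Yf {s : ℕ} (G : Fin s → R N) (d0 c : ℕ)
    (y : (Fin c → Fin s × Fin (d0 + 1)) × (Fin (c + 1) → Fin (N + 1)) × Fin (N + 1))
    (k : Fin (N + 1)) : R N :=
  X y.2.2 ^ (1 + c * d0 - eS y.1) * theta (Gh G d0) y.1 y.2.1 k

theorem Yf_homog {s : ℕ} (G : Fin s → R N) (d0 c : ℕ)
    (y : (Fin c → Fin s × Fin (d0 + 1)) × (Fin (c + 1) → Fin (N + 1)) × Fin (N + 1))
    (k : Fin (N + 1)) : (Yf G d0 c y k).IsHomogeneous (1 + c * d0) := by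
  have h1 : (X y.2.2 ^ (1 + c * d0 - eS y.1) : R N).IsHomogeneous (1 + c * d0 - eS y.1) := by
    have := (isHomogeneous_X ℂ y.2.2).pow (1 + c * d0 - eS y.1)
    simpa using this
  have h2 := h1.mul (theta_homog G d0 y.1 y.2.1 k)
  have h3 := eS_le y.1
  have h4 : 1 + c * d0 - eS y.1 + eS y.1 = 1 + c * d0 := by omega
  rw [h4] at h2
  exact h2

theorem mem_Tan_iff {I : Ideal (R N)} {p v : EE N} :
    v ∈ Tan I p ↔ ∀ P ∈ I, ∑ k, eval p (pderiv k P) * v k = 0 := Iff.rfl

/-- **VF1.** -/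
theorem exists_fields {I : Ideal (R N)} [I.IsPrime] (hX : IsSmoothProjective I n) :
    ∃ (D M : ℕ) (X : Fin M → Fin (N + 1) → R N), 1 ≤ D ∧
      (∀ j k, (X j k).IsHomogeneous D) ∧
      (∀ j, ∀ P ∈ I, ∑ k, pderiv k P * X j k ∈ I) ∧
      (∀ p ∈ Cone I, Submodule.span ℂ (Set.range fun j => fun k => eval p (X j k)) = Tan I p) := by
  classical
  obtain ⟨s, G, hG⟩ := exists_generators I
  obtain ⟨d0, hd0⟩ : ∃ d0 : ℕ, ∀ a, (G a).totalDegree ≤ d0 :=
    ⟨Finset.univ.sup fun a => (G a).totalDegree, fun a =>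
      Finset.le_sup (f := fun a => (G a).totalDegree) (Finset.mem_univ a)⟩
  have hspan := span_Gh hX.homogeneous hG hd0
  have hGI : ∀ x, Gh G d0 x ∈ I := fun x => by
    rw [← hspan]; exact Ideal.subset_span ⟨x, rfl⟩
  let ι := (Fin (N - n) → Fin s × Fin (d0 + 1)) × (Fin (N - n + 1) → Fin (N + 1)) × Fin (N + 1)
  let e : ι ≃ Fin (Fintype.card ι) := Fintype.equivFin ι
  have hmem : ∀ y : ι, ∀ P ∈ I, ∑ k, pderiv k P * Yf G d0 (N - n) y k ∈ I := by
    intro y P hP
    have h1 : ∑ k, pderiv k P * Yf G d0 (N - n) y k =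
        X y.2.2 ^ (1 + (N - n) * d0 - eS y.1) *
          ∑ k, pderiv k P * theta (Gh G d0) y.1 y.2.1 k := by
      rw [Finset.mul_sum]
      refine Finset.sum_congr rfl fun k _ => ?_
      simp only [Yf]
      ring
    rw [h1]
    exact Ideal.mul_mem_left _ _ (theta_mem hX hGI y.1 y.2.1 hP)
  refine ⟨1 + (N - n) * d0, Fintype.card ι, fun j => Yf G d0 (N - n) (e.symm j), by omega,
    fun j k => Yf_homog G d0 _ _ k, fun j P hP => hmem _ P hP, ?_⟩
  intro p hp
  apply le_antisymm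
  · rw [Submodule.span_le]
    rintro _ ⟨j, rfl⟩
    rw [SetLike.mem_coe, mem_Tan_iff]
    intro P hP
    have h1 := hp.1 _ (hmem (e.symm j) P hP)
    rw [map_sum] at h1
    simpa using h1
  · intro v hv
    rw [mem_Tan_iff] at hv
    obtain ⟨S, T, hST⟩ := exists_minor_ne_zero hX hspan hp.1 hp.2
    obtain ⟨i, hi⟩ : ∃ i, p i ≠ 0 := by
      by_contra hcon
      push Not at hcon
      exact hp.2 (funext hcon)
    have h1 : ∀ l, aeval p (mnr (Gh G d0) S T) * v l =
        ∑ k, v k * aeval p (theta (Gh G d0) S (Fin.cons k T) l) :=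
      mnr_mul_eq (A := ℂ) (Gh G d0) S T p v (fun a => by
        simpa [aeval_eq_eval] using hv _ (hGI (S a)))
    set m : ℂ := eval p (mnr (Gh G d0) S T) with hm
    set q : ℂ := p i ^ (1 + (N - n) * d0 - eS S) with hq
    have hq0 : q ≠ 0 := pow_ne_zero _ hi
    have h2 : v = ∑ k, (v k / (m * q)) •
        (fun l => eval p (Yf G d0 (N - n) (S, Fin.cons k T, i) l)) := by
      funext l
      rw [Finset.sum_apply]
      have h3 := h1 l
      simp only [aeval_eq_eval] at h3
      rw [← hm] at h3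
      have h4 : v l = (m)⁻¹ * ∑ k, v k * eval p (theta (Gh G d0) S (Fin.cons k T) l) := by
        rw [← h3]
        field_simp
      rw [h4, Finset.mul_sum]
      refine Finset.sum_congr rfl fun k _ => ?_
      simp only [Pi.smul_apply, smul_eq_mul, Yf, map_mul, map_pow, eval_X]
      rw [← hq]
      field_simp
    rw [h2]
    refine Submodule.sum_mem _ fun k _ => Submodule.smul_mem _ _ ?_
    refine Submodule.subset_span ⟨e (S, Fin.cons k T, i), ?_⟩
    simp

end Crest.Agent.R269.Hom_60
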