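import Mathlib

/-!
# L5a: holomorphic flows in complex Banach spaces (helper60, row 269)

`exists_flow`: if `X` is complex differentiable, bounded by `M` and `L`-Lipschitz on `ball H R`,
then for `δ * M < R`, `δ * L ≤ 1/2` the equation `F' = X ∘ F`, `F 0 = H` has a holomorphic
solution on `ball 0 δ`.
`exists_flow_of_contDiffAt`: version for `X` of class `C¹` (complex) near `H`.
`flow_unique`, `linear_unique`: uniqueness.
-/

set_option autoImplicit false

open Metric Set Filter Topology Complex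

namespace Crest.Agent.R269.Flow_60

variable {E : Type*} [NormedAddCommGroup E] [NormedSpace ℂ E]

theorem norm_sub_le_of_hasDerivAt {F F' : ℂ → E} {δ C : ℝ}
    (hF : ∀ w ∈ ball (0 : ℂ) δ, HasDerivAt F (F' w) w)
    (hC : ∀ w ∈ ball (0 : ℂ) δ, ‖F' w‖ ≤ C) {w : ℂ} (hw : w ∈ ball (0 : ℂ) δ) :
    ‖F w - F 0‖ ≤ C * ‖w‖ := by
  have hδ : 0 < δ := lt_of_le_of_lt (norm_nonneg w) (by simpa using hw)
  have := (convex_ball (0 : ℂ) δ).norm_image_sub_le_of_norm_hasDerivWithin_le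
    (fun x hx => (hF x hx).hasDerivWithinAt) hC (mem_ball_self hδ) hw
  simpa using this

/-- **Flow of a holomorphic vector field in a complex Banach space.** -/
theorem exists_flow [CompleteSpace E] (X : E → E) (H : E) {R M L : ℝ}
    (hX : DifferentiableOn ℂ X (ball H R)) (hXM : ∀ x ∈ ball H R, ‖X x‖ ≤ M)
    (hXL : ∀ x ∈ ball H R, ∀ y ∈ ball H R, ‖X x - X y‖ ≤ L * ‖x - y‖)
    {δ : ℝ} (hδ : 0 < δ) (hM : 0 ≤ M) (hL : 0 ≤ L) (hδM : δ * M < R) (hδL : δ * L ≤ 1 / 2) :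
    ∃ F : ℂ → E, F 0 = H ∧ (∀ w ∈ ball (0 : ℂ) δ, ‖F w - H‖ ≤ M * ‖w‖) ∧
      ∀ w ∈ ball (0 : ℂ) δ, F w ∈ ball H R ∧ HasDerivAt F (X (F w)) w := by
  classical
  -- the class of approximate solutions
  let P : (ℂ → E) → Prop := fun F => F 0 = H ∧ DifferentiableOn ℂ F (ball 0 δ) ∧
    ∀ w ∈ ball (0 : ℂ) δ, ‖F w - H‖ ≤ M * ‖w‖
  have hball : ∀ F, P F → ∀ w ∈ ball (0 : ℂ) δ, F w ∈ ball H R := by
    intro F hF w hw
    rw [mem_ball, dist_eq_norm]
    refine (hF.2.2 w hw).trans_lt (lt_of_le_of_lt ?_ hδM)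
    rw [mul_comm]
    exact mul_le_mul_of_nonneg_right (le_of_lt (by simpa using hw)) hM
  have step : ∀ F, P F → ∃ G, P G ∧ ∀ w ∈ ball (0 : ℂ) δ, HasDerivAt G (X (F w)) w := by
    intro F hF
    have hd : DifferentiableOn ℂ (fun w => X (F w)) (ball 0 δ) :=
      hX.comp hF.2.1 (fun w hw => hball F hF w hw)
    obtain ⟨G, hG0, hG⟩ := hd.isExactOn_ball.with_val_at 0 H
    refine ⟨G, ⟨hG0, fun w hw => (hG w hw).differentiableAt.differentiableWithinAt, ?_⟩, hG⟩
    intro w hw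
    have := norm_sub_le_of_hasDerivAt hG (fun x hx => hXM _ (hball F hF x hx)) hw
    rwa [hG0] at this
  have hP0 : P (fun _ => H) := by
    refine ⟨rfl, differentiableOn_const _, ?_⟩
    intro w _
    simpa using mul_nonneg hM (norm_nonneg w)
  let nxt : {F : ℂ → E // P F} → {F : ℂ → E // P F} := fun F =>
    ⟨(step F.1 F.2).choose, (step F.1 F.2).choose_spec.1⟩
  have hnxt : ∀ F : {F : ℂ → E // P F}, ∀ w ∈ ball (0 : ℂ) δ,
      HasDerivAt (nxt F).1 (X (F.1 w)) w := fun F => (step F.1 F.2).choose_spec.2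
  let s : ℕ → {F : ℂ → E // P F} := fun n => Nat.rec ⟨(fun _ => H), hP0⟩ (fun _ F => nxt F) n
  have hs : ∀ n, s (n + 1) = nxt (s n) := fun n => rfl
  set K : ℝ := 2 * (M * δ) with hK
  have hK0 : 0 ≤ K := by positivity
  have hbound : ∀ n, ∀ w ∈ ball (0 : ℂ) δ, ‖(s (n + 1)).1 w - (s n).1 w‖ ≤ K / 2 / 2 ^ n := by
    intro n
    induction n with
    | zero =>
      intro w hw
      have h1 := (s 1).2.2.2 w hw
      have h0 : (s 0).1 w = H := rfl
      rw [h0]
      refine h1.trans ?_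
      have : ‖w‖ ≤ δ := le_of_lt (by simpa using hw)
      rw [hK]
      simp only [pow_zero, div_one]
      nlinarith
    | succ n ih =>
      intro w hw
      have hD : ∀ x ∈ ball (0 : ℂ) δ, HasDerivAt (fun x => (s (n + 2)).1 x - (s (n + 1)).1 x)
          (X ((s (n + 1)).1 x) - X ((s n).1 x)) x := by
        intro x hx
        exact (hnxt (s (n + 1)) x hx).sub (hnxt (s n) x hx)
      have hC : ∀ x ∈ ball (0 : ℂ) δ,
          ‖X ((s (n + 1)).1 x) - X ((s n).1 x)‖ ≤ L * (K / 2 / 2 ^ n) := by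
        intro x hx
        refine (hXL _ (hball _ (s (n + 1)).2 x hx) _ (hball _ (s n).2 x hx)).trans ?_
        exact mul_le_mul_of_nonneg_left (ih x hx) hL
      have h3 := norm_sub_le_of_hasDerivAt hD hC hw
      have h4 : (s (n + 2)).1 0 - (s (n + 1)).1 0 = 0 := by
        rw [(s (n + 2)).2.1, (s (n + 1)).2.1, sub_self]
      simp only [h4, sub_zero] at h3
      refine h3.trans ?_
      have hwδ : ‖w‖ ≤ δ := le_of_lt (by simpa using hw)
      have h5 : 0 ≤ K / 2 / 2 ^ n := by positivity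
      calc L * (K / 2 / 2 ^ n) * ‖w‖ ≤ L * (K / 2 / 2 ^ n) * δ :=
            mul_le_mul_of_nonneg_left hwδ (mul_nonneg hL h5)
        _ = (δ * L) * (K / 2 / 2 ^ n) := by ring
        _ ≤ 1 / 2 * (K / 2 / 2 ^ n) := mul_le_mul_of_nonneg_right hδL h5
        _ = K / 2 / 2 ^ (n + 1) := by rw [pow_succ]; field_simp
  have hdist : ∀ w ∈ ball (0 : ℂ) δ, ∀ n, dist ((s n).1 w) ((s (n + 1)).1 w) ≤ K / 2 / 2 ^ n := by
    intro w hw n
    rw [dist_comm, dist_eq_norm]
    exact hbound n w hw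
  have hlim : ∀ w ∈ ball (0 : ℂ) δ, ∃ a, Tendsto (fun n => (s n).1 w) atTop (𝓝 a) := by
    intro w hw
    exact cauchySeq_tendsto_of_complete (cauchySeq_of_le_geometric_two (hdist w hw))
  let F : ℂ → E := fun w => if hw : w ∈ ball (0 : ℂ) δ then (hlim w hw).choose else 0
  have hF : ∀ w ∈ ball (0 : ℂ) δ, Tendsto (fun n => (s n).1 w) atTop (𝓝 (F w)) := by
    intro w hw
    have : F w = (hlim w hw).choose := by simp only [F]; rw [dif_pos hw]
    rw [this]
    exact (hlim w hw).choose_spec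
  have hFs : ∀ w ∈ ball (0 : ℂ) δ, ∀ n, ‖(s n).1 w - F w‖ ≤ K / 2 ^ n := by
    intro w hw n
    rw [← dist_eq_norm]
    exact dist_le_of_le_geometric_two_of_tendsto (hdist w hw) (hF w hw) n
  have hFH : ∀ w ∈ ball (0 : ℂ) δ, ‖F w - H‖ ≤ M * ‖w‖ := by
    intro w hw
    have h1 : Tendsto (fun n => ‖(s n).1 w - H‖) atTop (𝓝 ‖F w - H‖) :=
      ((hF w hw).sub_const H).norm
    exact le_of_tendsto' h1 (fun n => (s n).2.2.2 w hw)
  have hFb : ∀ w ∈ ball (0 : ℂ) δ, F w ∈ ball H R := by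
    intro w hw
    rw [mem_ball, dist_eq_norm]
    refine (hFH w hw).trans_lt (lt_of_le_of_lt ?_ hδM)
    rw [mul_comm]
    exact mul_le_mul_of_nonneg_right (le_of_lt (by simpa using hw)) hM
  have h0 : (0 : ℂ) ∈ ball (0 : ℂ) δ := mem_ball_self hδ
  refine ⟨F, ?_, hFH, fun w hw => ⟨hFb w hw, ?_⟩⟩
  · have := hFH 0 h0
    simp only [norm_zero, mul_zero] at this
    exact sub_eq_zero.mp (norm_le_zero_iff.mp this)
  · have hunif : TendstoUniformlyOn (fun n w => X ((s n).1 w)) (fun w => X (F w)) atTop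
        (ball (0 : ℂ) δ) := by
      rw [Metric.tendstoUniformlyOn_iff]
      intro ε hε
      have ht : Tendsto (fun n : ℕ => L * (K / 2 ^ n)) atTop (𝓝 (L * 0)) := by
        refine Tendsto.const_mul L ?_
        have : Tendsto (fun n : ℕ => K * (1 / 2 : ℝ) ^ n) atTop (𝓝 (K * 0)) :=
          (tendsto_pow_atTop_nhds_zero_of_lt_one (by norm_num) (by norm_num)).const_mul K
        simpa [div_eq_mul_inv] using this
      rw [mul_zero] at ht
      filter_upwards [ht.eventually_lt_const hε] with n hn x hx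
      rw [dist_comm, dist_eq_norm]
      refine lt_of_le_of_lt ((hXL _ (hball _ (s n).2 x hx) _ (hFb x hx)).trans ?_) hn
      exact mul_le_mul_of_nonneg_left (hFs x hx n) hL
    refine hasDerivAt_of_tendstoUniformlyOn (f := fun n => (s (n + 1)).1)
      (f' := fun n w => X ((s n).1 w)) (g' := fun w => X (F w)) isOpen_ball hunif
      (Eventually.of_forall fun n x hx => ?_) (fun x hx => ?_) hw
    · exact hnxt (s n) x hx
    · exact (tendsto_add_atTop_iff_nat 1).mpr (hF x hx)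

/-- Version for a vector field which is of class `C¹` (over `ℂ`) at `H`. -/
theorem exists_flow_of_contDiffAt [CompleteSpace E] (X : E → E) (H : E)
    (hX : ContDiffAt ℂ 1 X H) {r : ℝ} (hr : 0 < r) :
    ∃ δ : ℝ, 0 < δ ∧ ∃ F : ℂ → E, F 0 = H ∧
      ∀ w ∈ ball (0 : ℂ) δ, F w ∈ ball H r ∧ HasDerivAt F (X (F w)) w := by
  obtain ⟨K, t, ht, hKt⟩ := hX.exists_lipschitzOnWith
  have hev : ∀ᶠ x in 𝓝 H, DifferentiableAt ℂ X x := by
    have := hX.eventually (by simp)
    filter_upwards [this] with x hx using hx.differentiableAt (by simp)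
  have hbd : ∀ᶠ x in 𝓝 H, ‖X x‖ ≤ ‖X H‖ + 1 := by
    have hc : ContinuousAt (fun x => ‖X x‖) H := hX.continuousAt.norm
    have := hc.eventually_lt_const (show ‖X H‖ < ‖X H‖ + 1 by linarith)
    filter_upwards [this] with x hx using hx.le
  obtain ⟨R0, hR0, hR⟩ := Metric.mem_nhds_iff.mp (Filter.inter_mem (Filter.inter_mem ht hev) hbd)
  set R := min R0 r with hRdef
  have hRpos : 0 < R := lt_min hR0 hr
  have hsub : ball H R ⊆ ball H R0 := ball_subset_ball (min_le_left _ _)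
  set M : ℝ := ‖X H‖ + 1 with hM
  have hMpos : 0 < M := by positivity
  set L : ℝ := (K : ℝ) with hL
  have hL0 : 0 ≤ L := K.2
  set δ : ℝ := min (R / (2 * M)) (1 / (2 * (L + 1))) with hδ
  have hδpos : 0 < δ := lt_min (by positivity) (by positivity)
  obtain ⟨F, hF0, -, hF⟩ := exists_flow X H (R := R) (M := M) (L := L) (δ := δ)
    (fun x hx => ((hR (hsub hx)).1.2).differentiableWithinAt)
    (fun x hx => (hR (hsub hx)).2)
    (fun x hx y hy => by
      have := hKt.dist_le_mul x (hR (hsub hx)).1.1 y (hR (hsub hy)).1.1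
      rwa [dist_eq_norm, dist_eq_norm] at this)
    hδpos hMpos.le hL0
    (by
      have h1 : δ * M ≤ R / (2 * M) * M := mul_le_mul_of_nonneg_right (min_le_left _ _) hMpos.le
      have h2 : R / (2 * M) * M = R / 2 := by field_simp
      linarith)
    (by
      have h1 : δ * L ≤ 1 / (2 * (L + 1)) * L := mul_le_mul_of_nonneg_right (min_le_right _ _) hL0
      have h2 : 1 / (2 * (L + 1)) * L ≤ 1 / 2 := by
        rw [div_mul_eq_mul_div, div_le_div_iff₀ (by positivity) (by norm_num)]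
        nlinarith
      linarith)
  refine ⟨δ, hδpos, F, hF0, fun w hw => ⟨?_, (hF w hw).2⟩⟩
  exact ball_subset_ball (min_le_right _ _) (hF w hw).1

/-- Uniqueness for a linear homogeneous inequality: if `‖F' w‖ ≤ C ‖F w‖` on a ball around `0` and
`F 0 = 0` then `F = 0` on the ball. -/
theorem eq_zero_of_norm_deriv_le {F F' : ℂ → E} {δ C : ℝ}
    (hF : ∀ w ∈ ball (0 : ℂ) δ, HasDerivAt F (F' w) w)
    (hC : ∀ w ∈ ball (0 : ℂ) δ, ‖F' w‖ ≤ C * ‖F w‖) (h0 : F 0 = 0) :
    ∀ w ∈ ball (0 : ℂ) δ, F w = 0 := by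
  intro w hw
  have hwn : ‖w‖ < δ := by simpa using hw
  -- restrict to the segment `t ↦ F (t w)`, `t ∈ [0,1]`
  have hmem : ∀ t ∈ Icc (0 : ℝ) 1, ((t : ℂ) * w) ∈ ball (0 : ℂ) δ := by
    intro t ht
    simp only [mem_ball, dist_zero_right, norm_mul, Complex.norm_real, Real.norm_eq_abs]
    rw [abs_of_nonneg ht.1]
    calc t * ‖w‖ ≤ 1 * ‖w‖ := mul_le_mul_of_nonneg_right ht.2 (norm_nonneg _)
      _ < δ := by simpa using hwn
  let G : ℝ → E := fun t => F ((t : ℂ) * w)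
  have hG : ∀ t ∈ Icc (0 : ℝ) 1, HasDerivAt G (w • F' ((t : ℂ) * w)) t := by
    intro t ht
    have h1 := hF _ (hmem t ht)
    have h2 : HasDerivAt (fun t : ℝ => (t : ℂ) * w) w t := by
      simpa using (Complex.ofRealCLM.hasDerivAt (x := t)).mul_const w
    exact HasDerivAt.scomp t h1 h2
  have hGc : ContinuousOn G (Icc 0 1) := fun t ht => (hG t ht).continuousAt.continuousWithinAt
  have hbound := norm_le_gronwallBound_of_norm_deriv_right_le (f := G)
    (f' := fun t => w • F' ((t : ℂ) * w)) (δ := 0) (K := ‖w‖ * C) (ε := 0) (a := 0) (b := 1)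
    hGc (fun t ht => (hG t ⟨ht.1, ht.2.le⟩).hasDerivWithinAt) (by simp [G, h0])
    (fun t ht => by
      rw [norm_smul, add_zero, mul_assoc]
      exact mul_le_mul_of_nonneg_left (hC _ (hmem t ⟨ht.1, ht.2.le⟩)) (norm_nonneg _))
    1 ⟨zero_le_one, le_rfl⟩
  simp only [gronwallBound_ε0_δ0] at hbound
  have : G 1 = 0 := norm_le_zero_iff.mp hbound
  simpa [G] using this

/-- Uniqueness of the flow. -/
theorem flow_unique (X : E → E) {s : Set E} {L : ℝ}
    (hXL : ∀ x ∈ s, ∀ y ∈ s, ‖X x - X y‖ ≤ L * ‖x - y‖) {δ : ℝ} {F G : ℂ → E}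
    (hF : ∀ w ∈ ball (0 : ℂ) δ, F w ∈ s ∧ HasDerivAt F (X (F w)) w)
    (hG : ∀ w ∈ ball (0 : ℂ) δ, G w ∈ s ∧ HasDerivAt G (X (G w)) w) (h0 : F 0 = G 0) :
    ∀ w ∈ ball (0 : ℂ) δ, F w = G w := by
  intro w hw
  have := eq_zero_of_norm_deriv_le (F := fun w => F w - G w)
    (F' := fun w => X (F w) - X (G w)) (C := L)
    (fun w hw => (hF w hw).2.sub (hG w hw).2)
    (fun w hw => hXL _ (hF w hw).1 _ (hG w hw).1) (by simp [h0]) w hw
  exact sub_eq_zero.mp this

end Crest.Agent.R269.Flow_60
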