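import Mathlib
import Crest.Prelude.Def_ProjPluricanonical
import Crest.Agent.R269.Flow_60
import Crest.Agent.R269.Tan_60

/-!
# L5c: variation of discs (STEP 1 / Blueprint_646 (2.2), (2.3)) (helper60, row 269)

Everything takes place in an arbitrary commutative complex Banach algebra `A` (class of discs:
Hardy-Sobolev algebra, weighted Wiener algebra, ...).  A "disc" is `H : Fin (N+1) → A` with
`aeval H P = 0` for `P ∈ I` and `∑ u i * H i = 1` for some `u`.

* `bezout_minors`: the minors of the Jacobian generate the unit ideal of `A` along `H`;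
* `variation`: for `b` tangent along `H` and `Z : A` there is a holomorphic family
  `F w = H + Z * K w`, `K 0 = 0`, `K'(0) = b`, of discs in the cone; and
  `χ (K w) = w χ(b)` at every character `χ` with `χ Z = 0`.
-/

set_option autoImplicit false

open Metric Set Filter Topology MvPolynomial Module

namespace Crest.Agent.R269.Var_60

open Crest.AlgGeometry.ProjEmb Crest.Agent.R269.Tan_60 Crest.Agent.R269.Flow_60

section Calculus

variable {σ : Type*} [Fintype σ] {A : Type*} [NormedCommRing A] [NormedAlgebra ℂ A]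

theorem contDiff_aeval (P : MvPolynomial σ ℂ) :
    ContDiff ℂ ⊤ (fun x : σ → A => aeval x P) := by
  induction P using MvPolynomial.induction_on with
  | C a => simpa using contDiff_const
  | add p q hp hq => simpa using hp.add hq
  | mul_X p i hp =>
    simp only [map_mul, aeval_X]
    exact hp.mul (contDiff_apply ℂ A i)

theorem hasDerivAt_aeval (P : MvPolynomial σ ℂ) {F : ℂ → σ → A} {F' : σ → A} {w : ℂ}
    (hF : HasDerivAt F F' w) :
    HasDerivAt (fun w => aeval (F w) P) (∑ k, aeval (F w) (pderiv k P) * F' k) w := by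
  classical
  have hFk : ∀ k, HasDerivAt (fun w => F w k) (F' k) w := fun k => (hasDerivAt_pi.mp hF) k
  induction P using MvPolynomial.induction_on with
  | C a => simpa using hasDerivAt_const w (algebraMap ℂ A a)
  | add p q hp hq =>
    have := hp.add hq
    simp only [map_add, add_mul, Finset.sum_add_distrib]
    exact this
  | mul_X p i hp =>
    have h1 := hp.mul (hFk i)
    simp only [map_mul, aeval_X]
    refine h1.congr_deriv ?_
    simp only [Derivation.leibniz, smul_eq_mul, map_add, map_mul, aeval_X, pderiv_X, add_mul,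
      Finset.sum_add_distrib, Finset.sum_mul]
    rw [add_comm]
    congr 1
    · rw [Finset.sum_eq_single i]
      · simp
      · intro k _ hk
        simp [Pi.single_eq_of_ne (Ne.symm hk)]
      · intro h
        exact absurd (Finset.mem_univ _) h
    · refine Finset.sum_congr rfl fun k _ => ?_
      ring

end Calculus

section Bezout

variable {N n : ℕ} {A : Type*} [NormedCommRing A] [NormedAlgebra ℂ A] [CompleteSpace A]

/-- **Bezout for the minors** in an arbitrary commutative complex Banach algebra. -/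
theorem bezout_minors {I : Ideal (R N)} (hX : IsSmoothProjective I n) {s : ℕ}
    {G : Fin s → R N} (hG : Ideal.span (Set.range G) = I) (H : Fin (N + 1) → A)
    (hH : ∀ P ∈ I, aeval H P = 0) (hu : ∃ u : Fin (N + 1) → A, ∑ i, u i * H i = 1) :
    ∃ β : (Fin (N - n) → Fin s) × (Fin (N - n) → Fin (N + 1)) → A,
      ∑ x, β x * aeval H (mnr G x.1 x.2) = 1 := by
  classical
  obtain ⟨u, hu⟩ := hu
  have htop : Ideal.span (Set.range fun x : (Fin (N - n) → Fin s) × (Fin (N - n) → Fin (N + 1)) =>
      aeval H (mnr G x.1 x.2)) = ⊤ := by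
    by_contra hne
    obtain ⟨M, hM, hle⟩ := Ideal.exists_le_maximal _ hne
    have := hM
    let χ := M.toCharacterSpace
    have hχ0 : ∀ a ∈ M, χ a = 0 := fun a ha => M.toCharacterSpace_apply_eq_zero_of_mem ha
    let φ : A →ₐ[ℂ] ℂ := WeakDual.CharacterSpace.toAlgHom χ
    have hφ : ∀ a, φ a = χ a := fun a => rfl
    let p : Fin (N + 1) → ℂ := fun i => φ (H i)
    have hev : ∀ P : R N, eval p P = φ (aeval H P) := by
      intro P
      have h1 : (φ.comp (aeval H : R N →ₐ[ℂ] A)) = (aeval p : R N →ₐ[ℂ] ℂ) := by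
        refine MvPolynomial.algHom_ext fun i => ?_
        simp [p]
      have h2 := DFunLike.congr_fun h1 P
      simpa [aeval_eq_eval] using h2.symm
    have hp : p ∈ affineCone I := by
      intro P hP
      rw [hev, hH P hP, map_zero]
    have hp0 : p ≠ 0 := by
      intro h0
      have h1 : φ (∑ i, u i * H i) = 1 := by rw [hu, map_one]
      rw [map_sum] at h1
      have h2 : ∑ i, φ (u i * H i) = 0 := by
        refine Finset.sum_eq_zero fun i _ => ?_
        rw [map_mul]
        have : φ (H i) = 0 := congrFun h0 i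
        rw [this, mul_zero]
      rw [h2] at h1
      exact zero_ne_one h1
    obtain ⟨S, T, hST⟩ := exists_minor_ne_zero hX hG hp hp0
    refine hST ?_
    rw [hev, hφ]
    exact hχ0 _ (hle (Ideal.subset_span ⟨(S, T), rfl⟩))
  have h1 : (1 : A) ∈ Ideal.span (Set.range
      fun x : (Fin (N - n) → Fin s) × (Fin (N - n) → Fin (N + 1)) =>
      aeval H (mnr G x.1 x.2)) := by rw [htop]; trivial
  rw [Ideal.mem_span_range_iff_exists_fun] at h1
  exact h1

end Bezout

section Variation

variable {N n : ℕ} {A : Type*} [NormedCommRing A] [NormedAlgebra ℂ A]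

/-- The vector field `x ↦ ∑_{S,T} β_{S,T} ∑_k b_k θ_{S,k::T}(x)`. -/
noncomputable def vf {s c : ℕ} (G : Fin s → R N)
    (β : (Fin c → Fin s) × (Fin c → Fin (N + 1)) → A) (b : Fin (N + 1) → A)
    (x : Fin (N + 1) → A) : Fin (N + 1) → A :=
  fun l => ∑ y, β y * ∑ k, b k * aeval x (theta G y.1 (Fin.cons k y.2) l)

theorem contDiff_vf {s c : ℕ} (G : Fin s → R N)
    (β : (Fin c → Fin s) × (Fin c → Fin (N + 1)) → A) (b : Fin (N + 1) → A) :
    ContDiff ℂ ⊤ (vf G β b) := by
  rw [contDiff_pi]
  intro l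
  refine ContDiff.sum fun y _ => ?_
  refine contDiff_const.mul (ContDiff.sum fun k _ => ?_)
  exact contDiff_const.mul (contDiff_aeval _)

/-- `vf` at `H` is `b`, if `b` is tangent along `H`. -/
theorem vf_self {s c : ℕ} (G : Fin s → R N)
    (β : (Fin c → Fin s) × (Fin c → Fin (N + 1)) → A) (H b : Fin (N + 1) → A)
    (hβ : ∑ x, β x * aeval H (mnr G x.1 x.2) = 1)
    (hb : ∀ a, ∑ k, aeval H (pderiv k (G a)) * b k = 0) : vf G β b H = b := by
  funext l
  simp only [vf]
  have : ∀ y : (Fin c → Fin s) × (Fin c → Fin (N + 1)),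
      β y * ∑ k, b k * aeval H (theta G y.1 (Fin.cons k y.2) l) =
        (β y * aeval H (mnr G y.1 y.2)) * b l := by
    intro y
    rw [← mnr_mul_eq G y.1 y.2 H b (fun a => hb _) l, mul_assoc]
  simp only [this]
  rw [← Finset.sum_mul, hβ, one_mul]

/-- derivative of a member of the ideal along `vf` is in the ideal. -/
theorem exists_coeff {I : Ideal (R N)} [I.IsPrime] (hX : IsSmoothProjective I n) {s : ℕ}
    {G : Fin s → R N} (hG : Ideal.span (Set.range G) = I) :
    ∃ q : (Fin (N - n) → Fin s) × (Fin (N - n) → Fin (N + 1)) → Fin (N + 1) → Fin s → Fin s → R N,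
      ∀ y k a, ∑ l, pderiv l (G a) * theta G y.1 (Fin.cons k y.2) l = ∑ e, q y k a e * G e := by
  have hGI : ∀ a, G a ∈ I := fun a => by rw [← hG]; exact Ideal.subset_span ⟨a, rfl⟩
  have : ∀ y : (Fin (N - n) → Fin s) × (Fin (N - n) → Fin (N + 1)), ∀ k : Fin (N + 1),
      ∀ a : Fin s, ∃ q : Fin s → R N,
      ∑ l, pderiv l (G a) * theta G y.1 (Fin.cons k y.2) l = ∑ e, q e * G e := by
    intro y k a
    have h1 := theta_mem hX hGI y.1 (Fin.cons k y.2) (hGI a)
    rw [← hG, Ideal.mem_span_range_iff_exists_fun] at h1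
    obtain ⟨q, hq⟩ := h1
    exact ⟨q, hq.symm⟩
  choose q hq using this
  exact ⟨q, hq⟩

/-- **Variation of discs.** -/
theorem variation [CompleteSpace A] {I : Ideal (R N)} [I.IsPrime] (hX : IsSmoothProjective I n)
    (H b : Fin (N + 1) → A) (Z : A)
    (hH : ∀ P ∈ I, aeval H P = 0) (hu : ∃ u : Fin (N + 1) → A, ∑ i, u i * H i = 1)
    (hb : ∀ P ∈ I, ∑ k, aeval H (pderiv k P) * b k = 0) :
    ∃ δ : ℝ, 0 < δ ∧ ∃ F K : ℂ → Fin (N + 1) → A,
      F 0 = H ∧ K 0 = 0 ∧
      DifferentiableOn ℂ F (ball 0 δ) ∧ DifferentiableOn ℂ K (ball 0 δ) ∧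
      (∀ w ∈ ball (0 : ℂ) δ, F w = fun i => H i + Z * K w i) ∧
      HasDerivAt F (fun i => Z * b i) 0 ∧ HasDerivAt K b 0 ∧
      (∀ w ∈ ball (0 : ℂ) δ, (∀ P ∈ I, aeval (F w) P = 0) ∧
        ∃ u : Fin (N + 1) → A, ∑ i, u i * F w i = 1) ∧
      (∀ χ : A →ₐ[ℂ] ℂ, χ Z = 0 → ∀ w ∈ ball (0 : ℂ) δ,
        (∀ i, χ (F w i) = χ (H i)) ∧ ∀ i, χ (K w i) = w * χ (b i)) := by
  classical
  obtain ⟨s, G, hG⟩ := exists_generators I
  have hGI : ∀ a, G a ∈ I := fun a => by rw [← hG]; exact Ideal.subset_span ⟨a, rfl⟩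
  obtain ⟨β, hβ⟩ := bezout_minors hX hG H hH hu
  obtain ⟨q, hq⟩ := exists_coeff hX hG
  obtain ⟨u, hu⟩ := hu
  -- the vector field
  set Y : (Fin (N + 1) → A) → (Fin (N + 1) → A) := vf G β b with hY
  let X : (Fin (N + 1) → A) → (Fin (N + 1) → A) := fun x i => Z * Y x i
  have hYc : ContDiff ℂ ⊤ Y := contDiff_vf G β b
  have hXc : ContDiff ℂ ⊤ X := by
    rw [contDiff_pi]
    intro i
    exact contDiff_const.mul ((contDiff_pi.mp hYc) i)
  have hYH : Y H = b := vf_self G β H b hβ (fun a => hb _ (hGI a))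
  -- radius on which everything is bounded
  have hqc : ∀ y k a e, ∀ᶠ x in 𝓝 H, ‖aeval x (q y k a e)‖ < ‖aeval H (q y k a e)‖ + 1 := by
    intro y k a e
    have hc : Continuous fun x : Fin (N + 1) → A => ‖aeval x (q y k a e)‖ :=
      (contDiff_aeval (q y k a e)).continuous.norm
    exact hc.continuousAt.eventually_lt_const (lt_add_one _)
  have hqall : ∀ᶠ x in 𝓝 H, ∀ y k a e, ‖aeval x (q y k a e)‖ < ‖aeval H (q y k a e)‖ + 1 := by
    rw [eventually_all]; intro y
    rw [eventually_all]; intro k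
    rw [eventually_all]; intro a
    rw [eventually_all]; intro e
    exact hqc y k a e
  have huc : ∀ᶠ x in 𝓝 H, ‖(∑ i, u i * x i) - 1‖ < 1 := by
    have hc : Continuous fun x : Fin (N + 1) → A => ‖(∑ i, u i * x i) - 1‖ := by fun_prop
    have h0 : ‖(∑ i, u i * H i) - 1‖ < 1 := by rw [hu]; simp
    exact hc.continuousAt.eventually_lt_const h0
  obtain ⟨r, hr, hrr⟩ := Metric.mem_nhds_iff.mp (Filter.inter_mem hqall huc)
  obtain ⟨δ, hδ, F, hF0, hF⟩ := exists_flow_of_contDiffAt X H
    (hXc.contDiffAt.of_le (by exact le_top)) hr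
  have hFd : DifferentiableOn ℂ F (ball 0 δ) := fun w hw =>
    (hF w hw).2.differentiableAt.differentiableWithinAt
  have h0 : (0 : ℂ) ∈ ball (0 : ℂ) δ := mem_ball_self hδ
  -- the primitive `K`
  have hYF : DifferentiableOn ℂ (fun w => Y (F w)) (ball 0 δ) :=
    (hYc.differentiable (by simp)).comp_differentiableOn hFd
  obtain ⟨K, hK0, hK⟩ := hYF.isExactOn_ball.with_val_at 0 0
  have hFK : ∀ w ∈ ball (0 : ℂ) δ, F w = fun i => H i + Z * K w i := by
    intro w hw
    have h1 : ∀ w ∈ ball (0 : ℂ) δ, HasDerivAt (fun w i => F w i - (H i + Z * K w i)) 0 w := by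
      intro w hw
      rw [hasDerivAt_pi]
      intro i
      have h2 := (hasDerivAt_pi.mp (hF w hw).2) i
      have h3 := ((hasDerivAt_pi.mp (hK w hw)) i).const_mul Z
      have h4 := h2.sub (h3.const_add (H i))
      exact h4.congr_deriv (by simp [X])
    have h5 := eq_zero_of_norm_deriv_le (C := 0) h1 (fun w _ => by simp) (by
      funext i; simp [hF0, hK0]) w hw
    funext i
    have := congrFun h5 i
    exact sub_eq_zero.mp this
  -- invariance of the cone
  have hcone : ∀ w ∈ ball (0 : ℂ) δ, ∀ a, aeval (F w) (G a) = 0 := by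
    have hder : ∀ w ∈ ball (0 : ℂ) δ, HasDerivAt (fun w a => aeval (F w) (G a))
        (fun a => ∑ k, aeval (F w) (pderiv k (G a)) * X (F w) k) w := by
      intro w hw
      rw [hasDerivAt_pi]
      intro a
      exact hasDerivAt_aeval (G a) (hF w hw).2
    have hform : ∀ w, ∀ a, ∑ l, aeval (F w) (pderiv l (G a)) * X (F w) l =
        Z * ∑ y, β y * ∑ k, b k * ∑ e, aeval (F w) (q y k a e) * aeval (F w) (G e) := by
      intro w a
      have h1 : ∀ y k, ∑ e, aeval (F w) (q y k a e) * aeval (F w) (G e) =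
          ∑ l, aeval (F w) (pderiv l (G a)) * aeval (F w) (theta G y.1 (Fin.cons k y.2) l) := by
        intro y k
        have e1 : aeval (F w) (∑ l, pderiv l (G a) * theta G y.1 (Fin.cons k y.2) l) =
            aeval (F w) (∑ e, q y k a e * G e) := by rw [hq y k a]
        rw [map_sum, map_sum] at e1
        simp only [map_mul] at e1
        exact e1.symm
      simp only [h1, X, hY, vf]
      simp only [Finset.mul_sum]
      rw [Finset.sum_comm]
      refine Finset.sum_congr rfl fun y _ => ?_
      rw [Finset.sum_comm]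
      refine Finset.sum_congr rfl fun k _ => ?_
      refine Finset.sum_congr rfl fun l _ => ?_
      ring
    -- the constant
    let C0 : ℝ := ‖Z‖ * ∑ y, ‖β y‖ * ∑ k, ‖b k‖ * ∑ a, ∑ e, (‖aeval H (q y k a e)‖ + 1)
    have hC0 : 0 ≤ C0 := by
      refine mul_nonneg (norm_nonneg _) (Finset.sum_nonneg fun y _ => ?_)
      refine mul_nonneg (norm_nonneg _) (Finset.sum_nonneg fun k _ => ?_)
      refine mul_nonneg (norm_nonneg _) (Finset.sum_nonneg fun a _ => ?_)
      exact Finset.sum_nonneg fun e _ => add_nonneg (norm_nonneg _) zero_le_one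
    have hbound : ∀ w ∈ ball (0 : ℂ) δ,
        ‖(fun a => ∑ k, aeval (F w) (pderiv k (G a)) * X (F w) k)‖ ≤
          C0 * ‖(fun a => aeval (F w) (G a))‖ := by
      intro w hw
      have hx := (hrr (hF w hw).1).1
      refine (pi_norm_le_iff_of_nonneg (mul_nonneg hC0 (norm_nonneg _))).mpr fun a => ?_
      rw [hform w a]
      have hGe : ∀ e, ‖aeval (F w) (G e)‖ ≤ ‖(fun a => aeval (F w) (G a))‖ := fun e =>
        norm_le_pi_norm (fun a => aeval (F w) (G a)) e
      set D : ℝ := ‖(fun a => aeval (F w) (G a))‖ with hD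
      have hD0 : 0 ≤ D := norm_nonneg _
      calc ‖Z * ∑ y, β y * ∑ k, b k * ∑ e, aeval (F w) (q y k a e) * aeval (F w) (G e)‖
          ≤ ‖Z‖ * ∑ y, ‖β y‖ * ∑ k, ‖b k‖ * ∑ e, ‖aeval (F w) (q y k a e)‖ *
              ‖aeval (F w) (G e)‖ := by
            refine (norm_mul_le _ _).trans (mul_le_mul_of_nonneg_left ?_ (norm_nonneg _))
            refine (norm_sum_le _ _).trans (Finset.sum_le_sum fun y _ => ?_)
            refine (norm_mul_le _ _).trans (mul_le_mul_of_nonneg_left ?_ (norm_nonneg _))
            refine (norm_sum_le _ _).trans (Finset.sum_le_sum fun k _ => ?_)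
            refine (norm_mul_le _ _).trans (mul_le_mul_of_nonneg_left ?_ (norm_nonneg _))
            exact (norm_sum_le _ _).trans (Finset.sum_le_sum fun e _ => norm_mul_le _ _)
        _ ≤ ‖Z‖ * ∑ y, ‖β y‖ * ∑ k, ‖b k‖ * ∑ e, (‖aeval H (q y k a e)‖ + 1) * D := by
            refine mul_le_mul_of_nonneg_left ?_ (norm_nonneg _)
            refine Finset.sum_le_sum fun y _ => mul_le_mul_of_nonneg_left ?_ (norm_nonneg _)
            refine Finset.sum_le_sum fun k _ => mul_le_mul_of_nonneg_left ?_ (norm_nonneg _)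
            refine Finset.sum_le_sum fun e _ => ?_
            exact mul_le_mul (hx y k a e).le (hGe e) (norm_nonneg _)
              (add_nonneg (norm_nonneg _) zero_le_one)
        _ = (‖Z‖ * ∑ y, ‖β y‖ * ∑ k, ‖b k‖ * ∑ e, (‖aeval H (q y k a e)‖ + 1)) * D := by
            simp only [Finset.sum_mul, Finset.mul_sum, mul_assoc]
        _ ≤ C0 * D := by
            refine mul_le_mul_of_nonneg_right ?_ hD0
            refine mul_le_mul_of_nonneg_left ?_ (norm_nonneg _)
            refine Finset.sum_le_sum fun y _ => mul_le_mul_of_nonneg_left ?_ (norm_nonneg _)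
            refine Finset.sum_le_sum fun k _ => mul_le_mul_of_nonneg_left ?_ (norm_nonneg _)
            refine Finset.single_le_sum
              (f := fun a => ∑ e, (‖aeval H (q y k a e)‖ + 1)) (fun a _ => ?_) (Finset.mem_univ a)
            exact Finset.sum_nonneg fun e _ => add_nonneg (norm_nonneg _) zero_le_one
    have hzero := eq_zero_of_norm_deriv_le hder hbound (by
      funext a
      simp only [hF0, Pi.zero_apply]
      exact hH _ (hGI a))
    intro w hw a
    exact congrFun (hzero w hw) a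
  -- characters
  refine ⟨δ, hδ, F, K, hF0, hK0, hFd, fun w hw => (hK w hw).differentiableAt.differentiableWithinAt,
    hFK, ?_, ?_, ?_, ?_⟩
  · have := (hF 0 h0).2
    rw [hF0] at this
    have h2 : X H = fun i => Z * b i := by
      funext i
      simp only [X]
      rw [hYH]
    rwa [h2] at this
  · have := hK 0 h0
    rw [hF0] at this
    rwa [hYH] at this
  · intro w hw
    constructor
    · intro P hP
      rw [← hG] at hP
      refine Submodule.span_induction (p := fun P _ => aeval (F w) P = 0) ?_ ?_ ?_ ?_ hP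
      · rintro x ⟨a, rfl⟩
        exact hcone w hw a
      · simp
      · intro x y _ _ hx hy
        rw [map_add, hx, hy, add_zero]
      · intro a x _ hx
        rw [smul_eq_mul, map_mul, hx, mul_zero]
    · have h1 := (hrr (hF w hw).1).2
      have h2 : IsUnit (∑ i, u i * F w i) := by
        have h3 : ‖1 - ∑ i, u i * F w i‖ < 1 := by rw [norm_sub_rev]; exact h1
        have h4 := isUnit_one_sub_of_norm_lt_one h3
        simpa using h4
      obtain ⟨t, ht⟩ := h2.exists_left_inv
      refine ⟨fun i => t * u i, ?_⟩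
      rw [← ht, Finset.mul_sum]
      refine Finset.sum_congr rfl fun i _ => ?_
      ring
  · intro χ hχ w hw
    have h1 : ∀ w ∈ ball (0 : ℂ) δ, ∀ i, χ (F w i) = χ (H i) := by
      intro w hw i
      rw [hFK w hw]
      simp only [map_add, map_mul, hχ, zero_mul, add_zero]
    refine ⟨h1 w hw, ?_⟩
    intro i
    let φ : A →L[ℂ] ℂ := χ.toContinuousLinearMap
    have hφ : ∀ a, φ a = χ a := fun a => rfl
    have h2 : ∀ w ∈ ball (0 : ℂ) δ,
        HasDerivAt (fun w => χ (K w i) - w * χ (b i)) 0 w := by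
      intro w hw
      have h3 := (hasDerivAt_pi.mp (hK w hw)) i
      have h4 : HasDerivAt (fun w => χ (K w i)) (χ (Y (F w) i)) w :=
        φ.hasFDerivAt.comp_hasDerivAt w h3
      have h5 : χ (Y (F w) i) = χ (b i) := by
        have h6 : ∀ x : Fin (N + 1) → A, (∀ j, χ (x j) = χ (H j)) → χ (Y x i) = χ (Y H i) := by
          intro x hx
          have h7 : ∀ P : R N, χ (aeval x P) = χ (aeval H P) := by
            intro P
            have h8 : χ.comp (aeval x : R N →ₐ[ℂ] A) = χ.comp (aeval H : R N →ₐ[ℂ] A) := by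
              refine MvPolynomial.algHom_ext fun j => ?_
              simp [hx]
            exact DFunLike.congr_fun h8 P
          simp only [hY, vf, map_sum, map_mul, h7]
        rw [h6 (F w) (h1 w hw), hYH]
      rw [h5] at h4
      have h9 : HasDerivAt (fun w : ℂ => w * χ (b i)) (χ (b i)) w := by
        simpa using (hasDerivAt_id w).mul_const (χ (b i))
      exact (h4.sub h9).congr_deriv (sub_self _)
    have h10 := eq_zero_of_norm_deriv_le (C := 0) h2 (fun w _ => by simp) (by simp [hK0]) w hw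
    exact sub_eq_zero.mp h10

end Variation

end Crest.Agent.R269.Var_60
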