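import Mathlib
import Crest.Agent.R266.HolFlow
import Crest.Agent.R266.Osgood
import Crest.Agent.R269.Hom_60
import Crest.Agent.R269.Var_60

/-!
# VF2: the flow map `Φ (τ, c, Y)` of the polynomial fields `∑ c_j X_j` (helper60, row 269)

* `fld X (c, Y) = ∑ c_j X_j(Y)`;
* `DM X`: open domain in `ℂ × ((Fin M → ℂ) × EE N)`; `Ph X τ (c, Y)`: the flow;
* `analyticOnNhd_Ph`, `hasDerivAt_Ph`, `Ph_zero`, `Ph_unique`, `Ph_zero_left`, `Ph_smul` (homogeneity),
  `Ph_time` (time rescaling), `Ph_mem_cone`, `exists_rho` (uniform existence time),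
  `fderivY`-lemmas.
-/

set_option autoImplicit false

open MvPolynomial Set Filter Topology Metric Module
open scoped ContDiff

namespace Crest.Agent.R269.FlowMap_60

open Crest.AlgGeometry.ProjEmb Crest.Agent.R269.Tan_60 Crest.Agent.R269.Geo_328
open Crest.Agent.R269.Flow_60 Crest.Agent.R269.Var_60 Crest.Agent.R266

variable {N M : ℕ}

/-- state space: coefficients and point -/
abbrev PS (N M : ℕ) : Type := (Fin M → ℂ) × EE N

/-- the vector field `∑ c_j X_j(Y)` -/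
noncomputable def fld (X : Fin M → Fin (N + 1) → R N) (q : PS N M) : EE N :=
  fun k => ∑ j, q.1 j * eval q.2 (X j k)

theorem contDiff_fld (X : Fin M → Fin (N + 1) → R N) : ContDiff ℂ ω (fld X) := by
  rw [contDiff_pi]
  intro k
  refine ContDiff.sum fun j _ => ?_
  have h1 : ContDiff ℂ ω (fun q : PS N M => q.1 j) :=
    (contDiff_apply ℂ ℂ j).comp contDiff_fst
  have h2 : ContDiff ℂ ω (fun q : PS N M => eval q.2 (X j k)) := by
    have := (contDiff_aeval (A := ℂ) (X j k)).comp (contDiff_snd (E := Fin M → ℂ) (F := EE N))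
    simpa [Function.comp_def, aeval_eq_eval] using this
  exact h1.mul h2

theorem fld_add_left (X : Fin M → Fin (N + 1) → R N) (c c' : Fin M → ℂ) (Y : EE N) :
    fld X (c + c', Y) = fld X (c, Y) + fld X (c', Y) := by
  funext k
  simp [fld, add_mul, Finset.sum_add_distrib]

theorem fld_smul_left (X : Fin M → Fin (N + 1) → R N) (t : ℂ) (c : Fin M → ℂ) (Y : EE N) :
    fld X (t • c, Y) = t • fld X (c, Y) := by
  funext k
  simp [fld, Finset.mul_sum, mul_assoc]

@[simp] theorem fld_zero_left (X : Fin M → Fin (N + 1) → R N) (Y : EE N) :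
    fld X (0, Y) = 0 := by
  funext k
  simp [fld]

theorem fld_single (X : Fin M → Fin (N + 1) → R N) (j : Fin M) (Y : EE N) :
    fld X (Pi.single j 1, Y) = fun k => eval Y (X j k) := by
  classical
  funext k
  simp only [fld]
  rw [Finset.sum_eq_single j]
  · simp
  · intro i _ hi
    simp [Pi.single_eq_of_ne hi]
  · intro h
    exact absurd (Finset.mem_univ _) h

theorem fld_smul_right {X : Fin M → Fin (N + 1) → R N} {D : ℕ}
    (hX : ∀ j k, (X j k).IsHomogeneous D) (t : ℂ) (c : Fin M → ℂ) (Y : EE N) :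
    fld X (c, t • Y) = t ^ D • fld X (c, Y) := by
  funext k
  simp only [fld, Pi.smul_apply, smul_eq_mul, Finset.mul_sum]
  refine Finset.sum_congr rfl fun j _ => ?_
  rw [eval_smul_of_isHomogeneous (hX j k)]
  ring

/-- the field as a family of linear maps `ℂ → PS` -/
noncomputable def WX (X : Fin M → Fin (N + 1) → R N) (q : PS N M) : ℂ →L[ℂ] PS N M :=
  (1 : ℂ →L[ℂ] ℂ).smulRight ((0 : Fin M → ℂ), fld X q)

@[simp] theorem WX_apply (X : Fin M → Fin (N + 1) → R N) (q : PS N M) (s : ℂ) :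
    WX X q s = ((0 : Fin M → ℂ), s • fld X q) := by
  simp [WX]

theorem analyticOnNhd_WX (X : Fin M → Fin (N + 1) → R N) :
    AnalyticOnNhd ℂ (WX X) univ := by
  have h : ContDiff ℂ ω (WX X) :=
    contDiff_const.smulRight (contDiff_const.prodMk (contDiff_fld X))
  exact fun q _ => h.contDiffAt.analyticAt

theorem WX_comm (X : Fin M → Fin (N + 1) → R N) :
    ∀ x ∈ (univ : Set (PS N M)), ∀ u v : ℂ,
      fderiv ℂ (WX X) x (WX X x u) v = fderiv ℂ (WX X) x (WX X x v) u := by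
  intro x _ u v
  have h1 : ∀ s : ℂ, WX X x s = s • WX X x 1 := fun s => by
    rw [← map_smul]; simp
  have h2 : ∀ (L : ℂ →L[ℂ] PS N M) (s : ℂ), L s = s • L 1 := fun L s => by
    rw [← map_smul]; simp
  rw [h1 u, h1 v, map_smul, map_smul, smul_apply, smul_apply, h2 _ v, h2 _ u, smul_smul,
    smul_smul, mul_comm]

/-- the domain of the flow map -/
def DM (X : Fin M → Fin (N + 1) → R N) : Set (ℂ × PS N M) := domW (WX X) univ

/-- the full flow map -/
noncomputable def PH (X : Fin M → Fin (N + 1) → R N) : ℂ × PS N M → PS N M :=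
  PhiW (WX X) univ

/-- the flow of `∑ c_j X_j` -/
noncomputable def Ph (X : Fin M → Fin (N + 1) → R N) (τ : ℂ) (q : PS N M) : EE N :=
  (PH X (τ, q)).2

variable (X : Fin M → Fin (N + 1) → R N)

theorem isOpen_DM : IsOpen (DM X) := isOpen_domW isOpen_univ (analyticOnNhd_WX X)

theorem zero_mem_DM (q : PS N M) : ((0 : ℂ), q) ∈ DM X :=
  (zero_mem_domW isOpen_univ (analyticOnNhd_WX X) (mem_univ q)).1

theorem PH_zero (q : PS N M) : PH X (0, q) = q :=
  (zero_mem_domW isOpen_univ (analyticOnNhd_WX X) (mem_univ q)).2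

theorem Ph_zero (q : PS N M) : Ph X 0 q = q.2 := by rw [Ph, PH_zero]

theorem analyticOnNhd_PH : AnalyticOnNhd ℂ (PH X) (DM X) :=
  SCV.analyticOnNhd_of_differentiableOn (isOpen_DM X)
    (differentiableOn_PhiW isOpen_univ (analyticOnNhd_WX X))

theorem analyticOnNhd_Ph : AnalyticOnNhd ℂ (fun x : ℂ × PS N M => Ph X x.1 x.2) (DM X) := by
  intro x hx
  exact (analyticAt_snd (p := PH X x)).comp (analyticOnNhd_PH X x hx)

theorem hasDerivAt_PH {τ : ℂ} {q : PS N M} (h : (τ, q) ∈ DM X) :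
    HasDerivAt (fun τ => PH X (τ, q)) ((0 : Fin M → ℂ), fld X (PH X (τ, q))) τ := by
  have h1 := hasFDerivAt_PhiW isOpen_univ (analyticOnNhd_WX X) (WX_comm X) h
  have h2 := h1.hasDerivAt
  simpa [PH] using h2

/-- `q` lives up to radius `ρ` -/
def Good (ρ : ℝ) (q : PS N M) : Prop := ∀ τ ∈ ball (0 : ℂ) ρ, (τ, q) ∈ DM X

variable {X}

theorem Good.mono {ρ ρ' : ℝ} {q : PS N M} (h : Good X ρ q) (hρ : ρ' ≤ ρ) : Good X ρ' q :=
  fun τ hτ => h τ (ball_subset_ball hρ hτ)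

theorem PH_fst {ρ : ℝ} {q : PS N M} (h : Good X ρ q) {τ : ℂ} (hτ : τ ∈ ball (0 : ℂ) ρ) :
    (PH X (τ, q)).1 = q.1 := by
  have hρ : 0 < ρ := by
    rw [mem_ball_zero_iff] at hτ
    exact (norm_nonneg τ).trans_lt hτ
  have h1 : ∀ w ∈ ball (0 : ℂ) ρ, HasDerivAt (fun w => (PH X (w, q)).1 - q.1) 0 w := by
    intro w hw
    exact ((hasDerivAt_PH X (h w hw)).fst).sub_const q.1
  have h2 := eq_zero_of_norm_deriv_le (C := 0) h1 (fun w _ => by simp) (by
    simp only [PH_zero, sub_self]) τ hτ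
  exact sub_eq_zero.mp h2

theorem PH_eq {ρ : ℝ} {q : PS N M} (h : Good X ρ q) {τ : ℂ} (hτ : τ ∈ ball (0 : ℂ) ρ) :
    PH X (τ, q) = (q.1, Ph X τ q) := Prod.ext (PH_fst h hτ) rfl

theorem hasDerivAt_Ph {ρ : ℝ} {q : PS N M} (h : Good X ρ q) {τ : ℂ}
    (hτ : τ ∈ ball (0 : ℂ) ρ) :
    HasDerivAt (fun τ => Ph X τ q) (fld X (q.1, Ph X τ q)) τ := by
  have h1 := (hasDerivAt_PH X (h τ hτ)).snd
  rw [PH_eq h hτ] at h1
  exact h1

/-- uniqueness and existence: a solution is the flow. -/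
theorem Ph_unique {ρ : ℝ} {c : Fin M → ℂ} {Y : EE N} {f : ℂ → EE N} (hf0 : f 0 = Y)
    (hf : ∀ τ ∈ ball (0 : ℂ) ρ, HasDerivAt f (fld X (c, f τ)) τ) :
    Good X ρ (c, Y) ∧ ∀ τ ∈ ball (0 : ℂ) ρ, Ph X τ (c, Y) = f τ := by
  have key : ∀ τ ∈ ball (0 : ℂ) ρ, (τ, (c, Y)) ∈ DM X ∧ Ph X τ (c, Y) = f τ := by
    intro τ hτ
    have hmem : ∀ t ∈ Icc (0 : ℝ) 1, t • τ ∈ ball (0 : ℂ) ρ := by
      intro t ht
      rw [mem_ball_zero_iff] at hτ ⊢
      rw [norm_smul, Real.norm_eq_abs, abs_of_nonneg ht.1]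
      calc t * ‖τ‖ ≤ 1 * ‖τ‖ := by gcongr; exact ht.2
        _ < ρ := by rwa [one_mul]
    have h1 := eq_PhiW_of_segment (W := WX X) (U := univ) isOpen_univ (analyticOnNhd_WX X)
      (c := fun s => (c, f s)) (s := τ) (fun t _ => mem_univ _) (by
        intro t ht
        have h2 := hf _ (hmem t ht)
        have h3 : HasDerivAt (fun t : ℝ => t • τ) τ t := by
          simpa using (hasDerivAt_id t).smul_const τ
        have h4 : HasDerivAt (fun t : ℝ => f (t • τ)) (τ • fld X (c, f (t • τ))) t :=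
          HasDerivAt.scomp t h2 h3
        have h5 := (hasDerivAt_const t c).prodMk h4
        simpa using h5)
    rw [hf0] at h1
    exact ⟨h1.1, by rw [Ph]; exact congrArg Prod.snd h1.2⟩
  exact ⟨fun τ hτ => (key τ hτ).1, fun τ hτ => (key τ hτ).2⟩

theorem good_zero_left (ρ : ℝ) (Y : EE N) : Good X ρ (0, Y) :=
  (Ph_unique (f := fun _ => Y) (ρ := ρ) rfl (fun τ _ => by
    simpa using hasDerivAt_const τ Y)).1

theorem Ph_zero_left (τ : ℂ) (Y : EE N) : Ph X τ (0, Y) = Y :=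
  (Ph_unique (X := X) (c := 0) (f := fun _ => Y) (ρ := ‖τ‖ + 1) rfl (fun τ _ => by
    simpa using hasDerivAt_const τ Y)).2 τ (by rw [mem_ball_zero_iff]; linarith)

/-- homogeneity in space -/
theorem Ph_smul {D : ℕ} (hD : 1 ≤ D) (hX : ∀ j k, (X j k).IsHomogeneous D) {ρ : ℝ}
    {c : Fin M → ℂ} {Y : EE N} (t : ℂ) (h : Good X ρ (t ^ (D - 1) • c, Y)) :
    Good X ρ (c, t • Y) ∧
      ∀ τ ∈ ball (0 : ℂ) ρ, Ph X τ (c, t • Y) = t • Ph X τ (t ^ (D - 1) • c, Y) := by
  refine Ph_unique (f := fun τ => t • Ph X τ (t ^ (D - 1) • c, Y)) ?_ ?_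
  · simp only [Ph_zero]
  · intro τ hτ
    refine ((hasDerivAt_Ph h hτ).const_smul t).congr_deriv ?_
    rw [fld_smul_left, fld_smul_right hX, smul_smul]
    congr 1
    obtain ⟨e, rfl⟩ : ∃ e, D = e + 1 := ⟨D - 1, by omega⟩
    simp only [Nat.add_sub_cancel]
    ring

/-- time rescaling -/
theorem Ph_time {ρ : ℝ} {c : Fin M → ℂ} {Y : EE N} (t : ℂ) {ρ' : ℝ} (h : Good X ρ (c, Y))
    (hρ : ∀ τ ∈ ball (0 : ℂ) ρ', t * τ ∈ ball (0 : ℂ) ρ) :
    Good X ρ' (t • c, Y) ∧
      ∀ τ ∈ ball (0 : ℂ) ρ', Ph X τ (t • c, Y) = Ph X (t * τ) (c, Y) := by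
  refine Ph_unique (f := fun τ => Ph X (t * τ) (c, Y)) ?_ ?_
  · simp only [mul_zero, Ph_zero]
  · intro τ hτ
    have h1 := hasDerivAt_Ph h (hρ τ hτ)
    have h2 : HasDerivAt (fun τ : ℂ => t * τ) t τ := by
      simpa using (hasDerivAt_id τ).const_mul t
    have h3 := HasDerivAt.scomp τ h1 h2
    refine h3.congr_deriv ?_
    rw [fld_smul_left]

/-- the tube lemma -/
theorem exists_rho {P : Type*} [TopologicalSpace P] {K : Set P} (hK : IsCompact K)
    {O : Set (ℂ × P)} (hO : IsOpen O) (h0 : ∀ q ∈ K, ((0 : ℂ), q) ∈ O) :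
    ∃ ρ : ℝ, 0 < ρ ∧ ∀ τ : ℂ, ‖τ‖ ≤ ρ → ∀ q ∈ K, (τ, q) ∈ O := by
  obtain ⟨u, v, hu, hv, h0u, hKv, huv⟩ :=
    generalized_tube_lemma (isCompact_singleton (x := (0 : ℂ))) hK hO (by
      rintro ⟨a, q⟩ ⟨ha, hq⟩
      rw [mem_singleton_iff] at ha
      simp only at ha
      rw [ha]
      exact h0 q hq)
  obtain ⟨ρ, hρ, hρu⟩ := Metric.isOpen_iff.mp hu 0 (h0u rfl)
  refine ⟨ρ / 2, by positivity, fun τ hτ q hq => huv ⟨hρu ?_, hKv hq⟩⟩
  rw [mem_ball_zero_iff]
  linarith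

/-- cone invariance -/
theorem Ph_mem_cone {I : Ideal (R N)} (hXI : ∀ j, ∀ P ∈ I, ∑ k, pderiv k P * X j k ∈ I)
    {ρ : ℝ} {q : PS N M} (h : Good X ρ q) (hq : q.2 ∈ affineCone I) {τ : ℂ}
    (hτ : τ ∈ ball (0 : ℂ) ρ) : Ph X τ q ∈ affineCone I := by
  classical
  obtain ⟨s, G, hG⟩ := exists_generators I
  have hGI : ∀ a, G a ∈ I := fun a => by rw [← hG]; exact Ideal.subset_span ⟨a, rfl⟩
  have hex : ∀ j : Fin M, ∀ a : Fin s, ∃ r : Fin s → R N,
      ∑ k, pderiv k (G a) * X j k = ∑ e, r e * G e := by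
    intro j a
    have h1 := hXI j _ (hGI a)
    rw [← hG, Ideal.mem_span_range_iff_exists_fun] at h1
    obtain ⟨r, hr⟩ := h1
    exact ⟨r, hr.symm⟩
  choose r hr using hex
  -- choose an intermediate radius
  obtain ⟨ρ', hτρ', hρ'⟩ : ∃ ρ', ‖τ‖ < ρ' ∧ ρ' < ρ :=
    exists_between (by rwa [mem_ball_zero_iff] at hτ)
  have hρ'0 : 0 < ρ' := (norm_nonneg τ).trans_lt hτρ'
  have hsub : closedBall (0 : ℂ) ρ' ⊆ ball 0 ρ := closedBall_subset_ball hρ'
  have hcont : ContinuousOn (fun w => Ph X w q) (closedBall (0 : ℂ) ρ') := fun w hw =>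
    (hasDerivAt_Ph h (hsub hw)).continuousAt.continuousWithinAt
  -- coefficient
  let m : ℂ → Fin s → Fin s → ℂ := fun w a e => ∑ j, q.1 j * eval (Ph X w q) (r j a e)
  have hmc : ∀ a e, ContinuousOn (fun w => m w a e) (closedBall (0 : ℂ) ρ') := by
    intro a e
    refine continuousOn_finsetSum _ fun j _ => continuousOn_const.mul ?_
    exact (MvPolynomial.continuous_eval (r j a e)).comp_continuousOn hcont
  have hbd : ∀ a e, ∃ C : ℝ, 0 ≤ C ∧ ∀ w ∈ closedBall (0 : ℂ) ρ', ‖m w a e‖ ≤ C := by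
    intro a e
    obtain ⟨C, hC⟩ := (isCompact_closedBall (0 : ℂ) ρ').exists_bound_of_continuousOn (hmc a e)
    exact ⟨C, le_trans (norm_nonneg _) (hC 0 (mem_closedBall_self hρ'0.le)), hC⟩
  choose C hC0 hC using hbd
  have hder : ∀ w ∈ ball (0 : ℂ) ρ', HasDerivAt (fun w a => eval (Ph X w q) (G a))
      (fun a => ∑ e, m w a e * eval (Ph X w q) (G e)) w := by
    intro w hw
    rw [hasDerivAt_pi]
    intro a
    have h1 := hasDerivAt_aeval (A := ℂ) (G a) (hasDerivAt_Ph h (hsub (ball_subset_closedBall hw)))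
    simp only [aeval_eq_eval] at h1
    refine h1.congr_deriv ?_
    simp only [fld, m, Finset.mul_sum, Finset.sum_mul]
    rw [Finset.sum_comm, Finset.sum_comm (s := (Finset.univ : Finset (Fin s)))]
    refine Finset.sum_congr rfl fun j _ => ?_
    have h2 : eval (Ph X w q) (∑ k, pderiv k (G a) * X j k) =
        eval (Ph X w q) (∑ e, r j a e * G e) := by rw [hr]
    rw [map_sum, map_sum] at h2
    simp only [map_mul] at h2
    calc ∑ k, eval (Ph X w q) (pderiv k (G a)) * (q.1 j * eval (Ph X w q) (X j k))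
        = q.1 j * ∑ k, eval (Ph X w q) (pderiv k (G a)) * eval (Ph X w q) (X j k) := by
          rw [Finset.mul_sum]
          refine Finset.sum_congr rfl fun k _ => ?_
          ring
      _ = q.1 j * ∑ e, eval (Ph X w q) (r j a e) * eval (Ph X w q) (G e) := by rw [h2]
      _ = _ := by
          rw [Finset.mul_sum]
          refine Finset.sum_congr rfl fun k _ => ?_
          ring
  have hzero := eq_zero_of_norm_deriv_le (C := ∑ a, ∑ e, C a e) hder (by
    intro w hw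
    have hw' := ball_subset_closedBall hw
    have hnn : 0 ≤ ∑ a, ∑ e, C a e :=
      Finset.sum_nonneg fun a _ => Finset.sum_nonneg fun e _ => hC0 a e
    refine (pi_norm_le_iff_of_nonneg (mul_nonneg hnn (norm_nonneg _))).mpr fun a => ?_
    refine (norm_sum_le _ _).trans ?_
    have h2 : ∀ e, ‖m w a e * eval (Ph X w q) (G e)‖ ≤
        C a e * ‖fun a => eval (Ph X w q) (G a)‖ := by
      intro e
      rw [norm_mul]
      exact mul_le_mul (hC a e w hw') (norm_le_pi_norm (fun a => eval (Ph X w q) (G a)) e)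
        (norm_nonneg _) (hC0 a e)
    refine (Finset.sum_le_sum fun e _ => h2 e).trans ?_
    rw [← Finset.sum_mul]
    refine mul_le_mul_of_nonneg_right ?_ (norm_nonneg _)
    exact Finset.single_le_sum (f := fun a => ∑ e, C a e)
      (fun a _ => Finset.sum_nonneg fun e _ => hC0 a e) (Finset.mem_univ a)) (by
    funext a
    simp only [Ph_zero, Pi.zero_apply]
    exact hq _ (hGI a)) τ (by rwa [mem_ball_zero_iff])
  intro P hP
  rw [← hG] at hP
  refine Submodule.span_induction (p := fun P _ => eval (Ph X τ q) P = 0) ?_ ?_ ?_ ?_ hP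
  · rintro x ⟨a, rfl⟩
    exact congrFun hzero a
  · simp
  · intro x y _ _ hx hy
    rw [map_add, hx, hy, add_zero]
  · intro a x _ hx
    rw [smul_eq_mul, map_mul, hx, mul_zero]

end Crest.Agent.R269.FlowMap_60
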