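import Mathlib

/-!
# Row 269, leaf L5: holomorphic flows in Banach spaces and variations of discs

* `exists_flow`: a holomorphic ODE `Φ' = Θ (Φ)` in a complex Banach space has a holomorphic
  solution on a small complex disc.
* `exists_polyFlow`: the case of a polynomial vector field `x ↦ ∑ j, c j * θ j i (x)` with
  coefficients `c j` in a commutative complex Banach algebra `A`, acting on `ι → A`.
* `polyFlow_mem`: the flow preserves the zero set in `A` of every ideal of
  `MvPolynomial ι ℂ` preserved by the derivations `θ j`.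
* `levi_nonpos_of_isLocalMax`: the second-derivative test at a maximum along a holomorphic curve.
-/

open Metric Set Filter Topology MvPolynomial

noncomputable section

namespace Crest.Agent.R269.Flow_194

section General

variable {E : Type*} [NormedAddCommGroup E] [NormedSpace ℂ E] [CompleteSpace E]

/-- The set of holomorphic maps from `ball 0 r` to the closed ball `closedBall x₀ R`. -/
def HolBall (x₀ : E) (r R : ℝ) : Type _ :=
  {g : ℂ → E // DifferentiableOn ℂ g (ball 0 r) ∧ ∀ w ∈ ball (0 : ℂ) r, g w ∈ closedBall x₀ R}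

lemma exists_step (Θ : E → E) (x₀ : E) {R M r : ℝ}
    (hdo : ∀ x ∈ closedBall x₀ R, DifferentiableAt ℂ Θ x)
    (hM : ∀ x ∈ closedBall x₀ R, ‖Θ x‖ ≤ M) (hrM : r * M ≤ R)
    (g : HolBall x₀ r R) :
    ∃ h : HolBall x₀ r R, h.1 0 = x₀ ∧ ∀ w ∈ ball (0 : ℂ) r, HasDerivAt h.1 (Θ (g.1 w)) w := by
  have hcomp : DifferentiableOn ℂ (fun w => Θ (g.1 w)) (ball 0 r) := by
    intro w hw
    have h1 := hdo _ (g.2.2 w hw)
    exact h1.comp_differentiableWithinAt w (g.2.1 w hw)
  obtain ⟨h, h0, hh⟩ := hcomp.isExactOn_ball.with_val_at 0 x₀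
  refine ⟨⟨h, ?_, ?_⟩, h0, hh⟩
  · intro w hw
    exact (hh w hw).differentiableAt.differentiableWithinAt
  · intro w hw
    rw [mem_closedBall, dist_eq_norm]
    have hr : 0 < r := (norm_nonneg w).trans_lt (by simpa using hw)
    have hz : (0 : ℂ) ∈ ball (0 : ℂ) r := mem_ball_self hr
    have hMn : 0 ≤ M := (norm_nonneg _).trans (hM _ (g.2.2 0 hz))
    have := (convex_ball (0 : ℂ) r).norm_image_sub_le_of_norm_hasDerivWithin_le
      (f := h) (f' := fun w => Θ (g.1 w)) (C := M)
      (fun x hx => (hh x hx).hasDerivWithinAt) (fun x hx => hM _ (g.2.2 x hx)) hz hw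
    rw [h0, sub_zero] at this
    refine this.trans ?_
    have hw' : ‖w‖ ≤ r := le_of_lt (by simpa using hw)
    calc M * ‖w‖ ≤ M * r := by gcongr
      _ = r * M := mul_comm _ _
      _ ≤ R := hrM

/-- Holomorphic Picard–Lindelöf: local existence of the complex flow. -/
theorem exists_flow (Θ : E → E) (x₀ : E) {R L M r : ℝ} (hr : 0 < r) (hR : 0 ≤ R)
    (hdo : ∀ x ∈ closedBall x₀ R, DifferentiableAt ℂ Θ x)
    (hL : ∀ x ∈ closedBall x₀ R, ∀ y ∈ closedBall x₀ R, ‖Θ x - Θ y‖ ≤ L * ‖x - y‖)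
    (hM : ∀ x ∈ closedBall x₀ R, ‖Θ x‖ ≤ M) (hL0 : 0 ≤ L) (hrM : r * M ≤ R)
    (hrL : r * L ≤ 1 / 2) :
    ∃ Φ : ℂ → E, Φ 0 = x₀ ∧ ∀ w ∈ ball (0 : ℂ) r,
      Φ w ∈ closedBall x₀ R ∧ HasDerivAt Φ (Θ (Φ w)) w := by
  have hz : (0 : ℂ) ∈ ball (0 : ℂ) r := mem_ball_self hr
  have hx₀ : x₀ ∈ closedBall x₀ R := mem_closedBall_self hR
  have hMn : 0 ≤ M := (norm_nonneg _).trans (hM _ hx₀)
  choose step hstep0 hstep using exists_step Θ x₀ hdo hM hrM
  let g0 : HolBall x₀ r R := ⟨fun _ => x₀, differentiableOn_const _, fun _ _ => hx₀⟩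
  let Φ : ℕ → HolBall x₀ r R := fun n => step^[n] g0
  have hΦs : ∀ n, Φ (n + 1) = step (Φ n) := fun n => Function.iterate_succ_apply' step n g0
  -- successive differences
  have hdiff : ∀ n, ∀ w ∈ ball (0 : ℂ) r,
      ‖(Φ (n + 1)).1 w - (Φ n).1 w‖ ≤ R * (1 / 2) ^ n := by
    intro n
    induction n with
    | zero =>
      intro w hw
      have := (Φ 1).2.2 w hw
      rw [mem_closedBall, dist_eq_norm] at this
      simpa [Φ, g0, Function.iterate_zero, id] using this
    | succ n ih =>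
      intro w hw
      have hd1 : ∀ x ∈ ball (0 : ℂ) r,
          HasDerivWithinAt (fun w => (Φ (n + 2)).1 w - (Φ (n + 1)).1 w)
            (Θ ((Φ (n + 1)).1 x) - Θ ((Φ n).1 x)) (ball 0 r) x := by
        intro x hx
        have e1 : HasDerivAt (Φ (n + 2)).1 (Θ ((Φ (n + 1)).1 x)) x := by
          rw [hΦs (n + 1)]; exact hstep _ x hx
        have e2 : HasDerivAt (Φ (n + 1)).1 (Θ ((Φ n).1 x)) x := by
          rw [hΦs n]; exact hstep _ x hx
        exact (e1.sub e2).hasDerivWithinAt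
      have hb : ∀ x ∈ ball (0 : ℂ) r,
          ‖Θ ((Φ (n + 1)).1 x) - Θ ((Φ n).1 x)‖ ≤ L * (R * (1 / 2) ^ n) := by
        intro x hx
        refine (hL _ ((Φ (n + 1)).2.2 x hx) _ ((Φ n).2.2 x hx)).trans ?_
        gcongr
        exact ih x hx
      have h00 : (Φ (n + 2)).1 0 - (Φ (n + 1)).1 0 = 0 := by
        rw [hΦs (n + 1), hΦs n, hstep0, hstep0, sub_self]
      have := (convex_ball (0 : ℂ) r).norm_image_sub_le_of_norm_hasDerivWithin_le hd1 hb hz hw
      rw [h00, sub_zero, sub_zero] at this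
      refine this.trans ?_
      have hw' : ‖w‖ ≤ r := le_of_lt (by simpa using hw)
      have hRp : 0 ≤ R * (1 / 2) ^ n := by positivity
      calc L * (R * (1 / 2) ^ n) * ‖w‖ ≤ L * (R * (1 / 2) ^ n) * r := by gcongr
        _ = (r * L) * (R * (1 / 2) ^ n) := by ring
        _ ≤ (1 / 2) * (R * (1 / 2) ^ n) := by gcongr
        _ = R * (1 / 2) ^ (n + 1) := by ring
  -- the limit
  have hcauchy : ∀ w ∈ ball (0 : ℂ) r, CauchySeq (fun n => (Φ n).1 w) := by
    intro w hw
    refine cauchySeq_of_le_geometric (1 / 2) R (by norm_num) ?_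
    intro n
    rw [dist_comm, dist_eq_norm]
    exact hdiff n w hw
  have hlim : ∀ w ∈ ball (0 : ℂ) r, ∃ y, Tendsto (fun n => (Φ n).1 w) atTop (𝓝 y) :=
    fun w hw => cauchySeq_tendsto_of_complete (hcauchy w hw)
  classical
  let Ψ : ℂ → E := fun w => if hw : w ∈ ball (0 : ℂ) r then (hlim w hw).choose else x₀
  have hΨ : ∀ w ∈ ball (0 : ℂ) r, Tendsto (fun n => (Φ n).1 w) atTop (𝓝 (Ψ w)) := by
    intro w hw
    simp only [Ψ, hw, dif_pos]
    exact (hlim w hw).choose_spec
  have hΨR : ∀ w ∈ ball (0 : ℂ) r, Ψ w ∈ closedBall x₀ R := by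
    intro w hw
    exact isClosed_closedBall.mem_of_tendsto (hΨ w hw)
      (Eventually.of_forall fun n => (Φ n).2.2 w hw)
  have hdist : ∀ n, ∀ w ∈ ball (0 : ℂ) r, dist ((Φ n).1 w) (Ψ w) ≤ 2 * R * (1 / 2) ^ n := by
    intro n w hw
    have := dist_le_of_le_geometric_of_tendsto (1 / 2) R (by norm_num)
      (f := fun n => (Φ n).1 w) (by
        intro n
        rw [dist_comm, dist_eq_norm]
        exact hdiff n w hw) (hΨ w hw) n
    refine this.trans (le_of_eq ?_)
    ring
  refine ⟨Ψ, ?_, ?_⟩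
  · have h1 : Tendsto (fun n => (Φ (n + 1)).1 0) atTop (𝓝 (Ψ 0)) :=
      (hΨ 0 hz).comp (tendsto_add_atTop_nat 1)
    have h2 : (fun n => (Φ (n + 1)).1 (0 : ℂ)) = fun _ => x₀ := by
      funext n
      rw [hΦs n, hstep0]
    rw [h2] at h1
    exact (tendsto_nhds_unique h1 tendsto_const_nhds)
  · intro w hw
    refine ⟨hΨR w hw, ?_⟩
    refine hasDerivAt_of_tendstoUniformlyOn (l := atTop) (f := fun n => (Φ (n + 1)).1)
      (f' := fun n w => Θ ((Φ n).1 w)) (g' := fun w => Θ (Ψ w)) isOpen_ball ?_ ?_ ?_ hw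
    · rw [Metric.tendstoUniformlyOn_iff]
      intro ε hε
      have ht : Tendsto (fun n : ℕ => L * (2 * R * (1 / 2 : ℝ) ^ n)) atTop (𝓝 (L * (2 * R * 0))) :=
        ((tendsto_pow_atTop_nhds_zero_of_lt_one (by norm_num) (by norm_num)).const_mul _).const_mul _
      rw [mul_zero, mul_zero] at ht
      filter_upwards [ht.eventually (gt_mem_nhds hε)] with n hn x hx
      rw [dist_comm, dist_eq_norm]
      refine lt_of_le_of_lt ?_ hn
      refine (hL _ ((Φ n).2.2 x hx) _ (hΨR x hx)).trans ?_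
      gcongr
      rw [← dist_eq_norm]
      exact hdist n x hx
    · refine Eventually.of_forall fun n x hx => ?_
      rw [hΦs n]
      exact hstep _ x hx
    · intro x hx
      exact (hΨ x hx).comp (tendsto_add_atTop_nat 1)

/-- Local holomorphic flow of a `C¹` (over `ℂ`) vector field. -/
theorem exists_flow_of_contDiff (Θ : E → E) (hΘ : ContDiff ℂ 1 Θ) (x₀ : E) {R₀ : ℝ}
    (hR₀ : 0 < R₀) :
    ∃ r > 0, ∃ Φ : ℂ → E, Φ 0 = x₀ ∧ ∀ w ∈ ball (0 : ℂ) r,
      Φ w ∈ closedBall x₀ R₀ ∧ HasDerivAt Φ (Θ (Φ w)) w := by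
  obtain ⟨K, t, ht, hK⟩ := hΘ.contDiffAt.exists_lipschitzOnWith (x := x₀)
  have hcont : ContinuousAt Θ x₀ := hΘ.continuous.continuousAt
  have hbd : ∀ᶠ x in 𝓝 x₀, ‖Θ x‖ ≤ ‖Θ x₀‖ + 1 := by
    have : ∀ᶠ x in 𝓝 x₀, ‖Θ x‖ < ‖Θ x₀‖ + 1 :=
      hcont.norm.eventually (gt_mem_nhds (by linarith))
    exact this.mono fun x hx => hx.le
  obtain ⟨R₁, hR₁, hR₁'⟩ := Metric.mem_nhds_iff.1 (Filter.inter_mem ht hbd)
  set R := min (R₁ / 2) R₀ with hRdef
  have hR : 0 < R := lt_min (by positivity) hR₀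
  have hsub : closedBall x₀ R ⊆ ball x₀ R₁ :=
    closedBall_subset_ball (by
      have : R ≤ R₁ / 2 := min_le_left _ _
      linarith)
  set M := ‖Θ x₀‖ + 1 with hMdef
  have hM0 : 0 < M := by positivity
  have hK0 : (0 : ℝ) ≤ K := K.2
  set r := min (R / M) (1 / (2 * (K + 1))) with hrdef
  have hr : 0 < r := lt_min (by positivity) (by positivity)
  obtain ⟨Φ, h0, hΦ⟩ := exists_flow Θ x₀ (R := R) (L := K) (M := M) (r := r) hr hR.le
    (fun x _ => (hΘ.differentiable (by norm_num)) x)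
    (fun x hx y hy => by
      have := hK.dist_le_mul x (hR₁' (hsub hx)).1 y (hR₁' (hsub hy)).1
      simpa [dist_eq_norm] using this)
    (fun x hx => (hR₁' (hsub hx)).2) hK0
    (by
      calc r * M ≤ (R / M) * M := by gcongr; exact min_le_left _ _
        _ = R := by field_simp)
    (by
      calc r * K ≤ (1 / (2 * (K + 1))) * (K + 1) := by
            gcongr
            · exact min_le_right _ _
            · linarith
        _ = 1 / 2 := by field_simp)
  exact ⟨r, hr, Φ, h0, fun w hw => ⟨closedBall_subset_closedBall (min_le_right _ _) (hΦ w hw).1,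
    (hΦ w hw).2⟩⟩

end General

section Poly

variable {A : Type*} [NormedCommRing A] [NormedAlgebra ℂ A]
variable {ι : Type*} [Fintype ι]

/-- Evaluation of a polynomial at a tuple of elements of a Banach algebra is smooth. -/
lemma contDiff_aeval (F : MvPolynomial ι ℂ) :
    ContDiff ℂ ⊤ (fun x : ι → A => aeval x F) := by
  induction F using MvPolynomial.induction_on with
  | C a => simpa using contDiff_const
  | add p q hp hq => simpa using hp.add hq
  | mul_X p i hp => simpa using hp.mul (contDiff_apply ℂ A i)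

/-- Chain rule for a polynomial evaluated along a curve. -/
lemma hasDerivAt_aeval {Φ : ℂ → ι → A} {v : ι → A} {w : ℂ}
    (h : HasDerivAt Φ v w) (F : MvPolynomial ι ℂ) :
    HasDerivAt (fun w => aeval (Φ w) F) (∑ i, aeval (Φ w) (pderiv i F) * v i) w := by
  classical
  induction F using MvPolynomial.induction_on with
  | C a => simpa using hasDerivAt_const w (algebraMap ℂ A a)
  | add p q hp hq =>
    simp only [map_add, add_mul, Finset.sum_add_distrib]
    exact hp.add hq
  | mul_X p i hp =>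
    have hi : HasDerivAt (fun w => Φ w i) (v i) w := (hasDerivAt_pi.1 h) i
    have := hp.mul hi
    simp only [map_mul, aeval_X]
    refine this.congr_deriv ?_
    simp only [Derivation.leibniz, smul_eq_mul, map_add, map_mul, aeval_X, add_mul,
      Finset.sum_add_distrib, pderiv_X]
    rw [add_comm]
    congr 1
    · simp [Pi.single_apply, Finset.sum_ite_eq, mul_comm]
    · rw [Finset.sum_mul]
      refine Finset.sum_congr rfl fun j _ => ?_
      ring

variable {J : Type*} [Fintype J]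

/-- The polynomial vector field `x ↦ ∑ j, c j * θ j (x)` on `ι → A`. -/
def polyField (c : J → A) (θ : J → ι → MvPolynomial ι ℂ) (x : ι → A) : ι → A :=
  fun i => ∑ j, c j * aeval x (θ j i)

lemma contDiff_polyField (c : J → A) (θ : J → ι → MvPolynomial ι ℂ) :
    ContDiff ℂ ⊤ (polyField c θ) := by
  refine contDiff_pi.2 fun i => ?_
  exact ContDiff.sum fun j _ => contDiff_const.mul (contDiff_aeval (θ j i))

/-- **Leaf L5 (existence).** Holomorphic local flow of a polynomial vector field with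
coefficients in a commutative complex Banach algebra. -/
theorem exists_polyFlow [CompleteSpace A] (c : J → A) (θ : J → ι → MvPolynomial ι ℂ)
    (H : ι → A) {R₀ : ℝ} (hR₀ : 0 < R₀) :
    ∃ r > 0, ∃ Φ : ℂ → ι → A, Φ 0 = H ∧ DifferentiableOn ℂ Φ (ball 0 r) ∧
      ∀ w ∈ ball (0 : ℂ) r, ‖Φ w - H‖ ≤ R₀ ∧ HasDerivAt Φ (polyField c θ (Φ w)) w := by
  obtain ⟨r, hr, Φ, h0, hΦ⟩ := exists_flow_of_contDiff (polyField c θ)
    ((contDiff_polyField c θ).of_le le_top) H hR₀
  refine ⟨r, hr, Φ, h0, fun w hw => (hΦ w hw).2.differentiableAt.differentiableWithinAt,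
    fun w hw => ⟨?_, (hΦ w hw).2⟩⟩
  have := (hΦ w hw).1
  rwa [mem_closedBall, dist_eq_norm] at this

/-- **Leaf L5 (invariance).** If the derivations `θ j` preserve the ideal `I`, then the flow
preserves the `A`-valued zero set of `I`. -/
theorem polyFlow_mem (c : J → A) (θ : J → ι → MvPolynomial ι ℂ)
    {r : ℝ} {Φ : ℂ → ι → A}
    (hΦ : ∀ w ∈ ball (0 : ℂ) r, HasDerivAt Φ (polyField c θ (Φ w)) w)
    (I : Ideal (MvPolynomial ι ℂ))
    (hI : ∀ j, ∀ F ∈ I, ∑ i, pderiv i F * θ j i ∈ I)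
    (h0 : ∀ F ∈ I, aeval (Φ 0) F = 0) :
    ∀ w ∈ ball (0 : ℂ) r, ∀ F ∈ I, aeval (Φ w) F = 0 := by
  classical
  -- finitely many generators
  obtain ⟨S, hS⟩ := (inferInstance : IsNoetherianRing (MvPolynomial ι ℂ)).noetherian I
  have hSI : ∀ F : S, (F : MvPolynomial ι ℂ) ∈ I := fun F => by
    rw [← hS]; exact Submodule.subset_span F.2
  -- express the derivatives of the generators
  have hq : ∀ j, ∀ F : S, ∃ q : S → MvPolynomial ι ℂ,
      ∑ i, pderiv i (F : MvPolynomial ι ℂ) * θ j i = ∑ G : S, q G * (G : MvPolynomial ι ℂ) := by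
    intro j F
    have := hI j F (hSI F)
    rw [← hS, Submodule.mem_span_finset'] at this
    obtain ⟨q, hq⟩ := this
    exact ⟨q, by rw [← hq]; rfl⟩
  choose q hq using hq
  let y : ℂ → S → A := fun w F => aeval (Φ w) (F : MvPolynomial ι ℂ)
  have hy : ∀ w ∈ ball (0 : ℂ) r, HasDerivAt y
      (fun F => ∑ j, c j * ∑ G : S, aeval (Φ w) (q j F G) * y w G) w := by
    intro w hw
    rw [hasDerivAt_pi]
    intro F
    have h1 := hasDerivAt_aeval (hΦ w hw) (F : MvPolynomial ι ℂ)
    refine h1.congr_deriv ?_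
    calc ∑ i, aeval (Φ w) (pderiv i (F : MvPolynomial ι ℂ)) * polyField c θ (Φ w) i
        = ∑ i, ∑ j, c j * aeval (Φ w) (pderiv i (F : MvPolynomial ι ℂ) * θ j i) := by
          refine Finset.sum_congr rfl fun i _ => ?_
          rw [polyField, Finset.mul_sum]
          refine Finset.sum_congr rfl fun j _ => ?_
          rw [map_mul]; ring
      _ = ∑ j, c j * aeval (Φ w) (∑ i, pderiv i (F : MvPolynomial ι ℂ) * θ j i) := by
          rw [Finset.sum_comm]
          refine Finset.sum_congr rfl fun j _ => ?_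
          rw [map_sum, Finset.mul_sum]
      _ = ∑ j, c j * ∑ G : S, aeval (Φ w) (q j F G) * y w G := by
          refine Finset.sum_congr rfl fun j _ => ?_
          rw [hq j F, map_sum]
          simp only [map_mul, y]
  have hΦc : ContinuousOn Φ (ball (0 : ℂ) r) := fun w hw =>
    (hΦ w hw).continuousAt.continuousWithinAt
  -- it is enough to treat the generators
  have key : ∀ w ∈ ball (0 : ℂ) r, y w = 0 := by
    intro w hw
    have hseg : ∀ t ∈ Icc (0 : ℝ) 1, (t : ℂ) * w ∈ ball (0 : ℂ) r := by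
      intro t ht
      rw [mem_ball_zero_iff] at hw ⊢
      rw [norm_mul, Complex.norm_real, Real.norm_of_nonneg ht.1]
      calc t * ‖w‖ ≤ 1 * ‖w‖ := by gcongr; exact ht.2
        _ = ‖w‖ := one_mul _
        _ < r := hw
    -- uniform bound for the coefficients on the segment
    have hcont : ∀ (j : J) (F G : S),
        ContinuousOn (fun t : ℝ => ‖aeval (Φ ((t : ℂ) * w)) (q j F G)‖) (Icc 0 1) := by
      intro j F G
      refine ContinuousOn.norm ?_
      refine ((contDiff_aeval (q j F G)).continuous.comp_continuousOn ?_)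
      refine hΦc.comp ?_ hseg
      exact (Complex.continuous_ofReal.mul continuous_const).continuousOn
    have hbd : ∀ (j : J) (F G : S), ∃ C, ∀ t ∈ Icc (0 : ℝ) 1,
        ‖aeval (Φ ((t : ℂ) * w)) (q j F G)‖ ≤ C := by
      intro j F G
      obtain ⟨C, hC⟩ := isCompact_Icc.exists_bound_of_continuousOn (hcont j F G)
      exact ⟨C, fun t ht => by simpa using hC t ht⟩
    choose C hC using hbd
    set K : ℝ := ‖w‖ * ∑ j, ∑ F : S, ∑ G : S, ‖c j‖ * |C j F G| with hK
    have hK0 : 0 ≤ K := by positivity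
    have hres := eq_zero_of_abs_deriv_le_mul_abs_self_of_eq_zero_right (K := K)
      (f := fun t : ℝ => y ((t : ℂ) * w))
      (f' := fun t : ℝ => w • (fun F => ∑ j, c j * ∑ G : S,
        aeval (Φ ((t : ℂ) * w)) (q j F G) * y ((t : ℂ) * w) G))
      (a := 0) (b := 1) ?_ ?_ ?_ ?_ 1 (by simp)
    · simpa using hres
    · intro t ht
      have h1 := (hy _ (hseg t ht)).continuousAt
      refine (h1.comp (f := fun t : ℝ => (t : ℂ) * w) ?_).continuousWithinAt
      exact (Complex.continuous_ofReal.mul continuous_const).continuousAt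
    · intro t ht
      have h1 := hy _ (hseg t (Ico_subset_Icc_self ht))
      have h2 : HasDerivAt (fun t : ℝ => (t : ℂ) * w) w t := by
        have := (Complex.ofRealCLM.hasDerivAt (x := t)).mul_const w
        simpa using this
      exact (h1.scomp_of_eq t h2 rfl).hasDerivWithinAt
    · funext F
      simp only [y, Complex.ofReal_zero, zero_mul]
      exact h0 F (hSI F)
    · intro t ht
      have ht' := Ico_subset_Icc_self ht
      rw [norm_smul, hK, mul_assoc]
      gcongr
      refine (pi_norm_le_iff_of_nonneg (by positivity)).2 fun F => ?_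
      refine (norm_sum_le _ _).trans ?_
      rw [Finset.sum_mul]
      refine Finset.sum_le_sum fun j _ => ?_
      refine (norm_mul_le _ _).trans ?_
      have h3 : ‖∑ G : S, aeval (Φ ((t : ℂ) * w)) (q j F G) * y ((t : ℂ) * w) G‖ ≤
          (∑ G : S, |C j F G|) * ‖y ((t : ℂ) * w)‖ := by
        refine (norm_sum_le _ _).trans ?_
        rw [Finset.sum_mul]
        refine Finset.sum_le_sum fun G _ => ?_
        refine (norm_mul_le _ _).trans ?_
        gcongr
        · exact (hC j F G t ht').trans (le_abs_self _)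
        · exact norm_le_pi_norm (y ((t : ℂ) * w)) G
      calc ‖c j‖ * ‖∑ G : S, aeval (Φ ((t : ℂ) * w)) (q j F G) * y ((t : ℂ) * w) G‖
          ≤ ‖c j‖ * ((∑ G : S, |C j F G|) * ‖y ((t : ℂ) * w)‖) := by gcongr
        _ = (∑ G : S, ‖c j‖ * |C j F G|) * ‖y ((t : ℂ) * w)‖ := by
            rw [Finset.mul_sum _ _ ‖c j‖ |>.symm]; ring
        _ ≤ (∑ F : S, ∑ G : S, ‖c j‖ * |C j F G|) * ‖y ((t : ℂ) * w)‖ := by
            refine mul_le_mul_of_nonneg_right ?_ (norm_nonneg _)
            exact Finset.single_le_sum (f := fun F : S => ∑ G : S, ‖c j‖ * |C j F G|)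
              (fun F _ => by positivity) (Finset.mem_univ F)
  intro w hw F hF
  rw [← hS, Submodule.mem_span_finset'] at hF
  obtain ⟨a, ha⟩ := hF
  rw [← ha, map_sum]
  refine Finset.sum_eq_zero fun G _ => ?_
  have := congr_fun (key w hw) G
  simp only [y, Pi.zero_apply] at this
  rw [smul_eq_mul, map_mul, this, mul_zero]

/-- **Leaf L5 (summary).** The variation of discs: for `V = ∑ j, c j * θ j (H)` with `θ j`
preserving `I` and `H` in the `A`-valued zero set of `I` there is a holomorphic family in the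
zero set with derivative `V` at `0`. -/
theorem exists_variation [CompleteSpace A] (c : J → A) (θ : J → ι → MvPolynomial ι ℂ)
    (I : Ideal (MvPolynomial ι ℂ))
    (hI : ∀ j, ∀ F ∈ I, ∑ i, pderiv i F * θ j i ∈ I)
    (H : ι → A) (hH : ∀ F ∈ I, aeval H F = 0) {R₀ : ℝ} (hR₀ : 0 < R₀) :
    ∃ r > 0, ∃ Φ : ℂ → ι → A, Φ 0 = H ∧ DifferentiableOn ℂ Φ (ball 0 r) ∧
      HasDerivAt Φ (polyField c θ H) 0 ∧
      ∀ w ∈ ball (0 : ℂ) r, ‖Φ w - H‖ ≤ R₀ ∧ ∀ F ∈ I, aeval (Φ w) F = 0 := by
  obtain ⟨r, hr, Φ, h0, hd, hΦ⟩ := exists_polyFlow c θ H hR₀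
  refine ⟨r, hr, Φ, h0, hd, ?_, fun w hw => ⟨(hΦ w hw).1, ?_⟩⟩
  · have := (hΦ 0 (mem_ball_self hr)).2
    rwa [h0] at this
  · exact polyFlow_mem c θ (fun w hw => (hΦ w hw).2) I hI (by rwa [h0]) w hw

end Poly

section Levi

open Asymptotics

/-- The sub-mean-value test at a local maximum: if a real function of `w` has the expansion
`g w = g 0 + Re (ℓ w + m w²) + lam ‖w‖² + o(‖w‖²)` and a local maximum at `0`, then `lam ≤ 0`. -/
theorem levi_nonpos_of_isLocalMax {g : ℂ → ℝ} {ℓ m : ℂ} {lam : ℝ}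
    (hexp : (fun w : ℂ => g w - g 0 - (ℓ * w + m * w ^ 2).re - lam * ‖w‖ ^ 2)
      =o[𝓝 0] fun w => ‖w‖ ^ 2)
    (hmax : ∀ᶠ w in 𝓝 (0 : ℂ), g w ≤ g 0) : lam ≤ 0 := by
  by_contra hlam
  push Not at hlam
  have h1 := (isLittleO_iff.1 hexp) (c := lam / 2) (by positivity)
  obtain ⟨δ, hδ, hball⟩ := Metric.eventually_nhds_iff.1 (h1.and hmax)
  set t : ℝ := δ / 2 with ht
  have htp : 0 < t := by positivity
  have hnorm : ∀ u : ℂ, ‖u‖ = 1 → dist ((t : ℂ) * u) 0 < δ := by
    intro u hu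
    rw [dist_zero_right, norm_mul, hu, mul_one, Complex.norm_real, Real.norm_of_nonneg htp.le]
    rw [ht]; linarith
  have hineq : ∀ u : ℂ, ‖u‖ = 1 →
      (ℓ * (t * u) + m * (t * u) ^ 2).re + lam / 2 * t ^ 2 ≤ 0 := by
    intro u hu
    obtain ⟨ha, hb⟩ := hball (hnorm u hu)
    have hn : ‖(t : ℂ) * u‖ = t := by
      rw [norm_mul, hu, mul_one, Complex.norm_real, Real.norm_of_nonneg htp.le]
    rw [hn, Real.norm_eq_abs, Real.norm_eq_abs, abs_of_nonneg (by positivity : (0 : ℝ) ≤ t ^ 2)]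
      at ha
    have := (abs_le.1 ha).1
    nlinarith [this, hb]
  have e1 := hineq 1 (by simp)
  have e2 := hineq (-1) (by simp)
  have e3 := hineq Complex.I (by simp)
  have e4 := hineq (-Complex.I) (by simp)
  have hI : (Complex.I) ^ 2 = -1 := Complex.I_sq
  have s1 : (ℓ * (t * 1) + m * (t * 1) ^ 2).re + (ℓ * (t * (-1)) + m * (t * (-1)) ^ 2).re
      + ((ℓ * (t * Complex.I) + m * (t * Complex.I) ^ 2).re
      + (ℓ * (t * (-Complex.I)) + m * (t * (-Complex.I)) ^ 2).re) = 0 := by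
    rw [← Complex.add_re, ← Complex.add_re, ← Complex.add_re]
    have : ℓ * (t * 1) + m * (t * 1) ^ 2 + (ℓ * (t * (-1)) + m * (t * (-1)) ^ 2)
      + (ℓ * (t * Complex.I) + m * (t * Complex.I) ^ 2
      + (ℓ * (t * (-Complex.I)) + m * (t * (-Complex.I)) ^ 2)) = 0 := by
      have : (t * (-Complex.I) : ℂ) ^ 2 = -(t : ℂ) ^ 2 := by
        rw [mul_pow, neg_sq, hI]; ring
      rw [this]
      have : (t * Complex.I : ℂ) ^ 2 = -(t : ℂ) ^ 2 := by
        rw [mul_pow, hI]; ring
      rw [this]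
      ring
    rw [this, Complex.zero_re]
  have : 0 < lam / 2 * t ^ 2 := by positivity
  linarith

end Levi

end Crest.Agent.R269.Flow_194
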