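import Mathlib
import Crest.Prelude.Def_ProjPluricanonical
import Crest.Agent.R269.Flow_60
import Crest.Agent.R269.Tan_60
import Crest.Agent.R269.Var_60

/-!
# FRAMEVAR: frames along a variation of discs (Blueprint_646 (2.4), (2.5)) (helper60, row 269)

`A` arbitrary commutative complex Banach algebra.
* `exists_left_inverse`: a matrix over `A` whose columns are independent at every character has a
  left inverse over `A`;
* `qmat G β x`: the matrix `Q_x` (explicit, analytic in `x`), idempotent onto the tangent space for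
  `x` in the cone close to `H`;
* `frame_variation`: a frame of `T_H` modulo `H` extends to a holomorphic family of frames along
  any holomorphic family of discs.
-/

set_option autoImplicit false

open Metric Set Filter Topology MvPolynomial Module

namespace Crest.Agent.R269.FrV_60

open Crest.AlgGeometry.ProjEmb Crest.Agent.R269.Tan_60 Crest.Agent.R269.Flow_60
  Crest.Agent.R269.Var_60

section Left

variable {A : Type*} [NormedCommRing A] [NormedAlgebra ℂ A] [CompleteSpace A]

/-- Elements without common zero at the characters generate the unit ideal. -/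
theorem bezout_of_characters {ι : Type*} [Fintype ι] (f : ι → A)
    (h : ∀ χ : A →ₐ[ℂ] ℂ, ∃ i, χ (f i) ≠ 0) : ∃ β : ι → A, ∑ i, β i * f i = 1 := by
  have htop : Ideal.span (Set.range f) = ⊤ := by
    by_contra hne
    obtain ⟨M, hM, hle⟩ := Ideal.exists_le_maximal _ hne
    have := hM
    let χ : A →ₐ[ℂ] ℂ := WeakDual.CharacterSpace.toAlgHom M.toCharacterSpace
    obtain ⟨i, hi⟩ := h χ
    exact hi (M.toCharacterSpace_apply_eq_zero_of_mem (hle (Ideal.subset_span ⟨i, rfl⟩)))
  have h1 : (1 : A) ∈ Ideal.span (Set.range f) := by rw [htop]; trivial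
  rw [Ideal.mem_span_range_iff_exists_fun] at h1
  exact h1

/-- A matrix with independent columns at every character has a left inverse. -/
theorem exists_left_inverse {m r : ℕ} (M : Matrix (Fin m) (Fin r) A)
    (h : ∀ χ : A →ₐ[ℂ] ℂ, LinearIndependent ℂ (M.map χ).col) :
    ∃ L : Matrix (Fin r) (Fin m) A, L * M = 1 := by
  classical
  obtain ⟨β, hβ⟩ := bezout_of_characters (ι := Fin r → Fin m)
    (fun T => (M.submatrix T id).det) (by
      intro χ
      have h1 : LinearIndependent ℂ (fun (a : Fin r) (k : Fin m) => χ (M k a)) := h χ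
      obtain ⟨T, hT⟩ := exists_minor_of_linearIndependent _ h1
      refine ⟨T, ?_⟩
      have h2 : χ (M.submatrix T id).det = ((cmat (fun (a : Fin r) (k : Fin m) => χ (M k a)) T).transpose).det := by
        rw [AlgHom.map_det]
        congr 1
      rw [h2, Matrix.det_transpose]
      exact hT)
  let L : Matrix (Fin r) (Fin m) A := ∑ T : Fin r → Fin m,
    β T • ((M.submatrix T id).adjugate * (1 : Matrix (Fin m) (Fin m) A).submatrix T id)
  refine ⟨L, ?_⟩
  have h3 : ∀ T : Fin r → Fin m,
      (1 : Matrix (Fin m) (Fin m) A).submatrix T id * M = M.submatrix T id := by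
    intro T
    ext i j
    simp [Matrix.mul_apply, Matrix.one_apply]
  simp only [L, Matrix.sum_mul, Matrix.smul_mul, Matrix.mul_assoc, h3,
    Matrix.adjugate_mul]
  simp only [smul_smul, ← Finset.sum_smul]
  rw [hβ, one_smul]

omit [CompleteSpace A] in
theorem linearIndependent_of_isUnit_det {m r : ℕ} {L : Matrix (Fin r) (Fin m) A}
    {M : Matrix (Fin m) (Fin r) A} (h : IsUnit (L * M).det) (χ : A →ₐ[ℂ] ℂ) :
    LinearIndependent ℂ (M.map χ).col := by
  have h1 : ((L.map χ) * (M.map χ)).det ≠ 0 := by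
    have h2 : (L.map χ) * (M.map χ) = (L * M).map χ := by
      ext i j
      simp [Matrix.mul_apply]
    rw [h2]
    have h3 : ((L * M).map χ).det = χ (L * M).det := by
      rw [AlgHom.map_det]
      rfl
    rw [h3]
    exact (h.map χ).ne_zero
  have h4 : IsUnit ((L.map χ) * (M.map χ)) :=
    (Matrix.isUnit_iff_isUnit_det _).mpr (isUnit_iff_ne_zero.mpr h1)
  have h5 := Matrix.linearIndependent_cols_iff_isUnit.mpr h4
  have h6 : ((L.map χ) * (M.map χ)).col = (L.map χ).mulVecLin ∘ (M.map χ).col := by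
    funext j
    ext i
    simp [Matrix.mul_apply, Matrix.mulVec, dotProduct]
  rw [h6] at h5
  exact h5.of_comp _

/-- openness of independence at all characters, in a continuous family. -/
theorem eventually_linearIndependent {X : Type*} [TopologicalSpace X] {x₀ : X} {m r : ℕ}
    (M : X → Matrix (Fin m) (Fin r) A) (hM : ∀ i j, ContinuousAt (fun x => M x i j) x₀)
    (h : ∀ χ : A →ₐ[ℂ] ℂ, LinearIndependent ℂ ((M x₀).map χ).col) :
    ∀ᶠ x in 𝓝 x₀, ∀ χ : A →ₐ[ℂ] ℂ, LinearIndependent ℂ ((M x).map χ).col := by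
  classical
  obtain ⟨L, hL⟩ := exists_left_inverse (M x₀) h
  have hc : ContinuousAt (fun x => (L * M x).det) x₀ := by
    simp only [Matrix.det_apply, Matrix.mul_apply]
    refine tendsto_finsetSum _ fun σ _ => ?_
    refine Tendsto.const_smul ?_ _
    refine tendsto_finsetProd _ fun i _ => ?_
    refine tendsto_finsetSum _ fun k _ => ?_
    exact (hM _ _).const_mul _
  have h1 : ∀ᶠ x in 𝓝 x₀, ‖1 - (L * M x).det‖ < 1 := by
    have h2 : ContinuousAt (fun x => ‖1 - (L * M x).det‖) x₀ := (continuousAt_const.sub hc).norm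
    have h3 : ‖1 - (L * M x₀).det‖ < 1 := by rw [hL]; simp
    exact h2.eventually_lt_const h3
  filter_upwards [h1] with x hx χ
  have h4 : IsUnit (L * M x).det := by
    have := isUnit_one_sub_of_norm_lt_one hx
    simpa using this
  exact linearIndependent_of_isUnit_det h4 χ

end Left

section Q

variable {N n : ℕ} {A : Type*} [NormedCommRing A] [NormedAlgebra ℂ A]

/-- `m(x) = ∑ β * minors` -/
noncomputable def mm {s c : ℕ} (G : Fin s → R N)
    (β : (Fin c → Fin s) × (Fin c → Fin (N + 1)) → A) (x : Fin (N + 1) → A) : A :=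
  ∑ y, β y * aeval x (mnr G y.1 y.2)

/-- `m(x) Q_x v` -/
theorem vf_tangent {I : Ideal (R N)} [I.IsPrime] (hX : IsSmoothProjective I n) {s : ℕ}
    {G : Fin s → R N} (hG : Ideal.span (Set.range G) = I)
    (β : (Fin (N - n) → Fin s) × (Fin (N - n) → Fin (N + 1)) → A) (b x : Fin (N + 1) → A)
    (hx : ∀ P ∈ I, aeval x P = 0) {P : R N} (hP : P ∈ I) :
    ∑ l, aeval x (pderiv l P) * vf G β b x l = 0 := by
  have hGI : ∀ a, G a ∈ I := fun a => by rw [← hG]; exact Ideal.subset_span ⟨a, rfl⟩
  have h1 : ∀ (y : (Fin (N - n) → Fin s) × (Fin (N - n) → Fin (N + 1))) (k : Fin (N + 1)),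
      ∑ l, aeval x (pderiv l P) * aeval x (theta G y.1 (Fin.cons k y.2) l) = 0 := by
    intro y k
    have e1 := hx _ (theta_mem hX hGI y.1 (Fin.cons k y.2) hP)
    rw [map_sum] at e1
    simpa only [map_mul] using e1
  have h2 : ∑ l, aeval x (pderiv l P) * vf G β b x l =
      ∑ y, β y * ∑ k, b k * ∑ l, aeval x (pderiv l P) * aeval x (theta G y.1 (Fin.cons k y.2) l) := by
    simp only [vf, Finset.mul_sum]
    rw [Finset.sum_comm]
    refine Finset.sum_congr rfl fun y _ => ?_
    rw [Finset.sum_comm]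
    refine Finset.sum_congr rfl fun k _ => ?_
    refine Finset.sum_congr rfl fun l _ => ?_
    ring
  rw [h2]
  simp only [h1, mul_zero, Finset.sum_const_zero]

theorem vf_eq_mm_mul {s c : ℕ} (G : Fin s → R N)
    (β : (Fin c → Fin s) × (Fin c → Fin (N + 1)) → A) (x v : Fin (N + 1) → A)
    (hv : ∀ a, ∑ k, aeval x (pderiv k (G a)) * v k = 0) (l : Fin (N + 1)) :
    vf G β v x l = mm G β x * v l := by
  simp only [vf, mm]
  rw [Finset.sum_mul]
  refine Finset.sum_congr rfl fun y _ => ?_
  rw [← mnr_mul_eq G y.1 y.2 x v (fun a => hv _) l, mul_assoc]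

theorem contDiff_mm {s c : ℕ} (G : Fin s → R N)
    (β : (Fin c → Fin s) × (Fin c → Fin (N + 1)) → A) : ContDiff ℂ ⊤ (mm G β) :=
  ContDiff.sum fun _ _ => contDiff_const.mul (contDiff_aeval _)

/-- `Q_x v = m(x)⁻¹ • vf v x` -/
noncomputable def qv {s c : ℕ} (G : Fin s → R N)
    (β : (Fin c → Fin s) × (Fin c → Fin (N + 1)) → A) (x v : Fin (N + 1) → A) :
    Fin (N + 1) → A :=
  fun l => Ring.inverse (mm G β x) * vf G β v x l

theorem qv_tangent {I : Ideal (R N)} [I.IsPrime] (hX : IsSmoothProjective I n) {s : ℕ}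
    {G : Fin s → R N} (hG : Ideal.span (Set.range G) = I)
    (β : (Fin (N - n) → Fin s) × (Fin (N - n) → Fin (N + 1)) → A) (x v : Fin (N + 1) → A)
    (hx : ∀ P ∈ I, aeval x P = 0) {P : R N} (hP : P ∈ I) :
    ∑ l, aeval x (pderiv l P) * qv G β x v l = 0 := by
  have : ∑ l, aeval x (pderiv l P) * qv G β x v l =
      Ring.inverse (mm G β x) * ∑ l, aeval x (pderiv l P) * vf G β v x l := by
    rw [Finset.mul_sum]
    refine Finset.sum_congr rfl fun l _ => ?_
    simp only [qv]
    ring
  rw [this, vf_tangent hX hG β v x hx hP, mul_zero]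

theorem qv_eq_self {s c : ℕ} (G : Fin s → R N)
    (β : (Fin c → Fin s) × (Fin c → Fin (N + 1)) → A) (x v : Fin (N + 1) → A)
    (hx : IsUnit (mm G β x)) (hv : ∀ a, ∑ k, aeval x (pderiv k (G a)) * v k = 0) :
    qv G β x v = v := by
  funext l
  rw [qv, vf_eq_mm_mul G β x v hv l, ← mul_assoc, Ring.inverse_mul_cancel _ hx, one_mul]

theorem qv_add {s c : ℕ} (G : Fin s → R N)
    (β : (Fin c → Fin s) × (Fin c → Fin (N + 1)) → A) (x v v' : Fin (N + 1) → A) :
    qv G β x (v + v') = qv G β x v + qv G β x v' := by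
  funext l
  simp only [qv, vf, Pi.add_apply, add_mul, Finset.sum_add_distrib, mul_add]

theorem qv_smul {s c : ℕ} (G : Fin s → R N)
    (β : (Fin c → Fin s) × (Fin c → Fin (N + 1)) → A) (x v : Fin (N + 1) → A) (a : A) :
    qv G β x (a • v) = a • qv G β x v := by
  funext l
  simp only [qv, vf, Pi.smul_apply, smul_eq_mul, Finset.mul_sum]
  refine Finset.sum_congr rfl fun y _ => Finset.sum_congr rfl fun k _ => ?_
  ring

/-- **Frames along a variation.** -/
theorem frame_variation [CompleteSpace A] {I : Ideal (R N)} [I.IsPrime]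
    (hX : IsSmoothProjective I n) {r : ℕ}
    (H : Fin (N + 1) → A) (e : Fin r → Fin (N + 1) → A)
    (hH : ∀ P ∈ I, aeval H P = 0)
    (he : ∀ i, ∀ P ∈ I, ∑ k, aeval H (pderiv k P) * e i k = 0)
    (hli : ∀ χ : A →ₐ[ℂ] ℂ, LinearIndependent ℂ
      (Fin.cons (fun k => χ (H k)) (fun i k => χ (e i k)) : Fin (r + 1) → Fin (N + 1) → ℂ))
    {δ : ℝ} (hδ : 0 < δ) (F : ℂ → Fin (N + 1) → A) (hF0 : F 0 = H)
    (hF : DifferentiableOn ℂ F (ball 0 δ)) (hFc : ∀ w ∈ ball (0 : ℂ) δ, ∀ P ∈ I, aeval (F w) P = 0) :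
    ∃ δ' : ℝ, 0 < δ' ∧ δ' ≤ δ ∧ ∃ E : ℂ → Fin r → Fin (N + 1) → A,
      E 0 = e ∧ DifferentiableOn ℂ E (ball 0 δ') ∧
      (∀ w ∈ ball (0 : ℂ) δ', ∀ i, ∀ P ∈ I, ∑ k, aeval (F w) (pderiv k P) * E w i k = 0) ∧
      ∀ w ∈ ball (0 : ℂ) δ', ∀ χ : A →ₐ[ℂ] ℂ, LinearIndependent ℂ
        (Fin.cons (fun k => χ (F w k)) (fun i k => χ (E w i k)) :
          Fin (r + 1) → Fin (N + 1) → ℂ) := by
  classical
  obtain ⟨s, G, hG⟩ := exists_generators I
  have hGI : ∀ a, G a ∈ I := fun a => by rw [← hG]; exact Ideal.subset_span ⟨a, rfl⟩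
  -- Bezout for the minors along `H`
  obtain ⟨β, hβ⟩ := bezout_of_characters
    (fun y : (Fin (N - n) → Fin s) × (Fin (N - n) → Fin (N + 1)) => aeval H (mnr G y.1 y.2)) (by
      intro χ
      let p : Fin (N + 1) → ℂ := fun i => χ (H i)
      have hev : ∀ P : R N, eval p P = χ (aeval H P) := by
        intro P
        have h1 : (χ.comp (aeval H : R N →ₐ[ℂ] A)) = (aeval p : R N →ₐ[ℂ] ℂ) := by
          refine MvPolynomial.algHom_ext fun i => ?_
          simp [p]
        have h2 := DFunLike.congr_fun h1 P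
        simpa [aeval_eq_eval] using h2.symm
      have hp : p ∈ affineCone I := by
        intro P hP
        rw [hev, hH P hP, map_zero]
      have hp0 : p ≠ 0 := (hli χ).ne_zero 0
      obtain ⟨S, T, hST⟩ := exists_minor_ne_zero hX hG hp hp0
      exact ⟨(S, T), by rw [← hev]; exact hST⟩)
  have hmH : mm G β H = 1 := hβ
  have h0 : (0 : ℂ) ∈ ball (0 : ℂ) δ := mem_ball_self hδ
  have hFcont : ContinuousAt F 0 := (hF.differentiableAt (isOpen_ball.mem_nhds h0)).continuousAt
  -- `m (F w)` is a unit for small `w`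
  have hunit : ∀ᶠ w in 𝓝 (0 : ℂ), IsUnit (mm G β (F w)) := by
    have h1 : ContinuousAt (fun w => ‖1 - mm G β (F w)‖) 0 := by
      have h2 : ContinuousAt (fun w => mm G β (F w)) 0 :=
        ((contDiff_mm G β).continuous.continuousAt).comp hFcont
      exact (continuousAt_const.sub h2).norm
    have h3 : ‖1 - mm G β (F 0)‖ < 1 := by rw [hF0, hmH]; simp
    filter_upwards [h1.eventually_lt_const h3] with w hw
    have := isUnit_one_sub_of_norm_lt_one hw
    simpa using this
  let E : ℂ → Fin r → Fin (N + 1) → A := fun w i => qv G β (F w) (e i)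
  have hE0 : E 0 = e := by
    funext i
    simp only [E]
    rw [hF0]
    exact qv_eq_self G β H (e i) (by rw [hmH]; exact isUnit_one) (fun a => he i _ (hGI a))
  have hEd : ∀ w ∈ ball (0 : ℂ) δ, IsUnit (mm G β (F w)) → DifferentiableAt ℂ E w := by
    intro w hw hu
    have hFw : DifferentiableAt ℂ F w := hF.differentiableAt (isOpen_ball.mem_nhds hw)
    rw [differentiableAt_pi]
    intro i
    rw [differentiableAt_pi]
    intro l
    have h1 : DifferentiableAt ℂ (fun w => vf G β (e i) (F w) l) w := by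
      have h2 := ((contDiff_vf G β (e i)).differentiable (by simp)).differentiableAt (x := F w)
      exact (differentiableAt_pi.mp (h2.comp w hFw)) l
    have h3 : DifferentiableAt ℂ (fun w => Ring.inverse (mm G β (F w))) w := by
      have h4 : DifferentiableAt ℂ (Ring.inverse : A → A) (mm G β (F w)) :=
        differentiableAt_inverse hu
      have h5 : DifferentiableAt ℂ (fun w => mm G β (F w)) w :=
        (((contDiff_mm G β).differentiable (by simp)).differentiableAt).comp w hFw
      exact h4.comp w h5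
    exact h3.mul h1
  have hEc : ContinuousAt E 0 := by
    have h1 : IsUnit (mm G β (F 0)) := by rw [hF0, hmH]; exact isUnit_one
    exact (hEd 0 h0 h1).continuousAt
  -- independence
  let M : ℂ → Matrix (Fin (N + 1)) (Fin (r + 1)) A := fun w =>
    Matrix.of fun k j => (Fin.cons (F w) (E w) : Fin (r + 1) → Fin (N + 1) → A) j k
  have hMcol : ∀ w, ∀ χ : A →ₐ[ℂ] ℂ, ((M w).map χ).col =
      (Fin.cons (fun k => χ (F w k)) (fun i k => χ (E w i k)) :
          Fin (r + 1) → Fin (N + 1) → ℂ) := by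
    intro w χ
    funext j
    refine Fin.cases ?_ (fun i => ?_) j
    · funext k
      rfl
    · funext k
      rfl
  have hev := eventually_linearIndependent (x₀ := (0 : ℂ)) M (by
      intro k j
      refine Fin.cases ?_ (fun i => ?_) j
      · exact (continuousAt_pi.mp hFcont) k
      · exact (continuousAt_pi.mp ((continuousAt_pi.mp hEc) i)) k) (by
      intro χ
      rw [hMcol, hF0, hE0]
      exact hli χ)
  obtain ⟨δ₁, hδ₁, hball⟩ := Metric.mem_nhds_iff.mp (Filter.inter_mem hunit hev)
  refine ⟨min δ₁ δ, lt_min hδ₁ hδ, min_le_right _ _, E, hE0, ?_, ?_, ?_⟩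
  · intro w hw
    have h1 := hball (ball_subset_ball (min_le_left _ _) hw)
    exact (hEd w (ball_subset_ball (min_le_right _ _) hw) h1.1).differentiableWithinAt
  · intro w hw i P hP
    exact qv_tangent hX hG β (F w) (e i) (hFc w (ball_subset_ball (min_le_right _ _) hw)) hP
  · intro w hw χ
    have h1 := (hball (ball_subset_ball (min_le_left _ _) hw)).2 χ
    rwa [hMcol] at h1

end Q

end Crest.Agent.R269.FrV_60
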