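import Crest.Agent.R269.GeoQ_936
import Crest.Agent.R269.Fib_402

/-!
# Row 269, B9 → B2 (helper936): the Wold weight `Sop(p) = GG(p)^{1/2}` on the Hilbert space `FF N`

`Gop Pi a p = toEuclideanCLM (GGf Pi a p)`, `Sop Pi a p = √(Gop Pi a p)`.

* `inner_Sop` : `⟪S v, S w⟫ = vᴴ GG w`;  `continuousOn_Sop`, `Sop_smul` (`ℂ*`-invariance);
* `Sw` : the extension by `1` outside the cone, `measurable_Sw`;
* `bounds` : `c ‖v‖² ≤ ‖S v‖² ≤ C ‖v‖²` on the whole cone;
* `inner_Sop_rep` : values on `(∑ x_k b_k + r p) ∧ p` for `Rep I a p b`;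
* `rep_of_orth` : horizontal tangent vectors whose `V_i ∧ p` are `S`-orthonormal represent `a(p)`
  (`nsq p = 1`);
* `Qf_eq_norm` : `Q p c = ‖S ((∑ c_j X_j) ∧ p)‖²`.
-/

set_option autoImplicit false
set_option linter.unusedSectionVars false
open Matrix Complex
open Crest.AlgGeometry.ProjEmb Crest.Agent.R269.Geo_328 Crest.Agent.R269.DefsS_731
open scoped ComplexConjugate ComplexOrder ContDiff Topology InnerProductSpace

noncomputable section
namespace Crest.Agent.R269.GeoW_936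

open Crest.Agent.R269.Rate1_936 Crest.Agent.R269.GeoG_936 Crest.Agent.R269.SmM_936
  Crest.Agent.R269.GeoH_936 Crest.Agent.R269.GeoQ_936
open Crest.Agent.R269.Defs_58 (PosField SmX DD wedgeSq TanFam)
open Crest.Agent.R269.Fib_402 (FF wE)

variable {N n : ℕ} {I : Ideal (HomCoordRing N)}

/-- `GG(p)` as an operator on `FF N` -/
def Gop (Pi a : EE N → VV N) (p : EE N) : FF N →L[ℂ] FF N :=
  Matrix.toEuclideanCLM (n := K2 N) (𝕜 := ℂ) (GGf Pi a p)

/-- the square root of `GG(p)` -/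
def Sop (Pi a : EE N → VV N) (p : EE N) : FF N →L[ℂ] FF N := CFC.sqrt (Gop Pi a p)

theorem inner_Gop (Pi a : EE N → VV N) (p : EE N) (v w : FF N) :
    ⟪v, Gop Pi a p w⟫_ℂ = star (WithLp.ofLp v) ⬝ᵥ (GGf Pi a p *ᵥ WithLp.ofLp w) := by
  rw [EuclideanSpace.inner_eq_star_dotProduct, Gop, Matrix.ofLp_toEuclideanCLM, dotProduct_comm]

/-- the linear map matrices → operators on plain functions -/
def toOp (N : ℕ) : (K2 N → K2 N → ℂ) →ₗ[ℂ] (FF N →L[ℂ] FF N) where
  toFun m := Matrix.toEuclideanCLM (n := K2 N) (𝕜 := ℂ) (Matrix.of m)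
  map_add' m m' := by
    have : Matrix.of (m + m') = Matrix.of m + Matrix.of m' := rfl
    rw [this, map_add]
  map_smul' c m := by
    have : Matrix.of (c • m) = c • Matrix.of m := rfl
    rw [this, map_smul]
    rfl

theorem wE_eq (V p : EE N) : WithLp.ofLp (wE V p) = Wm p *ᵥ V := by
  rw [Wm_eq_wdg]
  rfl

theorem measurableSet_Cone (I : Ideal (HomCoordRing N)) : MeasurableSet (Cone I) := by
  have h : Cone I = affineCone I ∩ {0}ᶜ := by
    ext p; rfl
  rw [h]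
  exact (LevBr_901.isClosed_affineCone I).measurableSet.inter (measurableSet_singleton 0).compl

section main
variable {Pi a : EE N → VV N} (hI : I.IsPrime) (hX : IsSmoothProjective I n) (hPi : PiData I Pi)
  (ha : PosField I n a)
include hI hX hPi ha

theorem Gop_nonneg {p : EE N} (hp : p ∈ Cone I) : 0 ≤ Gop Pi a p := by
  rw [ContinuousLinearMap.nonneg_iff_isPositive, ← ContinuousLinearMap.isPositive_toLinearMap_iff]
  have h := Matrix.isPositive_toEuclideanLin_iff.2 (GGf_posDef hI hX hPi ha hp).posSemidef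
  exact h

theorem inner_Sop {p : EE N} (hp : p ∈ Cone I) (v w : FF N) :
    ⟪Sop Pi a p v, Sop Pi a p w⟫_ℂ = star (WithLp.ofLp v) ⬝ᵥ (GGf Pi a p *ᵥ WithLp.ofLp w) := by
  have h0 := Gop_nonneg hI hX hPi ha hp
  have h1 : IsSelfAdjoint (Sop Pi a p) := (CFC.sqrt_nonneg (Gop Pi a p)).isSelfAdjoint
  have h2 : Sop Pi a p * Sop Pi a p = Gop Pi a p := CFC.sqrt_mul_sqrt_self _ h0
  have h3 := (ContinuousLinearMap.isSelfAdjoint_iff_isSymmetric.1 h1) v (Sop Pi a p w)
  have h4 : (Sop Pi a p) ((Sop Pi a p) w) = Gop Pi a p w := by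
    rw [← h2]; rfl
  rw [← inner_Gop, ← h4]
  exact h3

theorem norm_sq_Sop {p : EE N} (hp : p ∈ Cone I) (v : FF N) :
    ‖Sop Pi a p v‖ ^ 2 = (star (WithLp.ofLp v) ⬝ᵥ (GGf Pi a p *ᵥ WithLp.ofLp v)).re := by
  rw [← inner_Sop hI hX hPi ha hp v v, inner_self_eq_norm_sq_to_K]
  norm_cast

theorem Sop_smul {p : EE N} (hp : p ∈ Cone I) {c : ℂ} (hc : c ≠ 0) :
    Sop Pi a (c • p) = Sop Pi a p := by
  rw [Sop, Gop, GGf_smul hI hX hPi ha hp hc]
  rfl

theorem continuousOn_Sop : ContinuousOn (Sop Pi a) (Cone I) := by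
  have h1 : ContinuousOn (Gop Pi a) (Cone I) := by
    have h2 : ContinuousOn (fun p => (fun i j => GGf Pi a p i j : K2 N → K2 N → ℂ)) (Cone I) :=
      fun p hp => ((smM_GGf hI hX hPi ha hp).to_fun.continuousAt).continuousWithinAt
    exact (toOp N).continuous_of_finiteDimensional.comp_continuousOn h2
  exact CFC.continuousOn_sqrt.comp h1 fun p hp => Gop_nonneg hI hX hPi ha hp

theorem Sop_ne {p : EE N} (hp : p ∈ Cone I) {v : FF N} (hv : v ≠ 0) : Sop Pi a p v ≠ 0 := by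
  intro h
  have h1 := norm_sq_Sop hI hX hPi ha hp v
  have hv' : WithLp.ofLp v ≠ 0 := fun h0 => hv (by
    ext i
    exact congrFun h0 i)
  have h2 := (GGf_posDef hI hX hPi ha hp).dotProduct_mulVec_pos hv'
  have h3 := (Complex.lt_def.1 h2).1
  rw [h, norm_zero] at h1
  rw [← h1] at h3
  norm_num at h3

/-- uniform bounds on the whole cone -/
theorem bounds : ∃ c C : ℝ, 0 < c ∧ 0 ≤ C ∧ ∀ p ∈ Cone I, ∀ v : FF N,
    c * ‖v‖ ≤ ‖Sop Pi a p v‖ ∧ ‖Sop Pi a p v‖ ≤ C * ‖v‖ := by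
  have hK := (isCompact_shell I 1)
  have hsub : shell I 1 ⊆ Cone I := shell_sub one_pos
  have hS : ContinuousOn (Sop Pi a) (shell I 1) := (continuousOn_Sop hI hX hPi ha).mono hsub
  obtain ⟨C, hC⟩ := hK.exists_bound_of_continuousOn hS
  have hKv : IsCompact (shell I 1 ×ˢ Metric.sphere (0 : FF N) 1) := hK.prod (isCompact_sphere _ _)
  have hcont : ContinuousOn (fun q : EE N × FF N => ‖Sop Pi a q.1 q.2‖)
      (shell I 1 ×ˢ Metric.sphere (0 : FF N) 1) := by
    refine ContinuousOn.norm ?_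
    exact ContinuousOn.clm_apply (hS.comp continuousOn_fst fun q hq => hq.1) continuousOn_snd
  obtain ⟨c, hc0, hc⟩ := hKv.exists_forall_le' hcont (a := 0) (by
    rintro ⟨p, v⟩ ⟨hp, hv⟩
    rw [mem_sphere_zero_iff_norm] at hv
    exact norm_pos_iff.2 (Sop_ne hI hX hPi ha (hsub hp) (by
      rintro rfl
      simp at hv)))
  refine ⟨c, max C 0, hc0, le_max_right _ _, fun p hp v => ?_⟩
  have hP : 0 < nsq p := Fib_402.nsq_pos hp.2
  have hsq : 0 < Real.sqrt (nsq p) := Real.sqrt_pos.2 hP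
  have hrC : (((Real.sqrt (nsq p))⁻¹ : ℝ) : ℂ) ≠ 0 := by
    exact_mod_cast (inv_pos.2 hsq).ne'
  set p' : EE N := (((Real.sqrt (nsq p))⁻¹ : ℝ) : ℂ) • p with hp'
  have hp'C : p' ∈ shell I 1 := by
    have h1 : p' ∈ affineCone I := smul_mem_affineCone hX hp.1 _
    have h2 : nsq p' = 1 := by
      have h3 : nsq p' = ‖(((Real.sqrt (nsq p))⁻¹ : ℝ) : ℂ)‖ ^ 2 * nsq p := Frm290.nsq_smul _ p
      rw [h3, Complex.norm_real, Real.norm_eq_abs, sq_abs, inv_pow, Real.sq_sqrt hP.le,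
        inv_mul_cancel₀ hP.ne']
    exact ⟨h1, h2.ge, h2.le⟩
  have hSp : Sop Pi a p' = Sop Pi a p := Sop_smul hI hX hPi ha hp hrC
  rw [← hSp]
  constructor
  · rcases eq_or_ne v 0 with rfl | hv
    · simp
    · have hvn : 0 < ‖v‖ := norm_pos_iff.2 hv
      have h1 := hc (p', ((‖v‖⁻¹ : ℝ) : ℂ) • v) ⟨hp'C, by
        rw [mem_sphere_zero_iff_norm, norm_smul, Complex.norm_real, Real.norm_eq_abs,
          abs_of_pos (inv_pos.2 hvn), inv_mul_cancel₀ hvn.ne']⟩
      simp only [map_smul, norm_smul, Complex.norm_real, Real.norm_eq_abs,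
        abs_of_pos (inv_pos.2 hvn)] at h1
      calc c * ‖v‖ ≤ (‖v‖⁻¹ * ‖Sop Pi a p' v‖) * ‖v‖ := mul_le_mul_of_nonneg_right h1 hvn.le
        _ = ‖Sop Pi a p' v‖ := by field_simp
  · refine (ContinuousLinearMap.le_opNorm _ _).trans ?_
    exact mul_le_mul_of_nonneg_right ((hC p' hp'C).trans (le_max_left _ _)) (norm_nonneg _)

/-- the values on `(∑ x_k b_k + r p) ∧ p` -/
theorem inner_Sop_rep {p : EE N} (hp : p ∈ Cone I) {b : Fin n → EE N} (hb : Defs_58.Rep I a p b)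
    (x y : Fin n → ℂ) (r s : ℂ) :
    ⟪Sop Pi a p (wE (∑ k, x k • b k + r • p) p), Sop Pi a p (wE (∑ k, y k • b k + s • p) p)⟫_ℂ =
      (nsq p : ℂ) ^ 2 * ∑ k, conj (x k) * y k := by
  rw [inner_Sop hI hX hPi ha hp, wE_eq, wE_eq, GGf_rep hI hX hPi ha hp hb]
  rfl

theorem Qf_eq_norm (Y : Flds I) {p : EE N} (hp : p ∈ Cone I) (c : Fin Y.M → ℂ) :
    Qf Pi a Y p c = ‖Sop Pi a p (wE (∑ j, c j • Y.at j p) p)‖ ^ 2 := by
  rw [norm_sq_Sop hI hX hPi ha hp, wE_eq, Qf, Gam_form]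

/-- `S`-orthonormal `V_i ∧ p` with horizontal tangent `V_i`: then `V` represents `a(p)` -/
theorem rep_of_orth {p : EE N} (hp : p ∈ Cone I) (hn1 : nsq p = 1) {V : Fin n → EE N}
    (hV : TanFam I p V) (hh : ∀ i, ∑ k, V i k * conj (p k) = 0)
    (horth : ∀ i j, ⟪Sop Pi a p (wE (V i) p), Sop Pi a p (wE (V j) p)⟫_ℂ = if i = j then 1 else 0) :
    Defs_58.Rep I a p V := by
  obtain ⟨h1, h2, -⟩ := tanStmt N n I hI hX p hp
  obtain ⟨b₀, hb₀, -⟩ := ha.rep p hp
  have hrep := rep_of ha hp hb₀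
  have hM : (colM V)ᴴ * Rate2_936.Gm p (Matrix.of (Pi p)) (Matrix.of (a p)) * colM V = 1 := by
    ext i j
    have h3 := horth i j
    rw [inner_Sop hI hX hPi ha hp, wE_eq, wE_eq, GGf, GG_wdg hp.2] at h3
    have h4 : ((Frm290.nsq p : ℝ) : ℂ) = 1 := by
      have : Frm290.nsq p = 1 := hn1
      rw [this, Complex.ofReal_one]
    rw [h4, one_pow, one_mul] at h3
    rw [Matrix.one_apply, ← h3, Matrix.mul_assoc, Matrix.mul_apply, dotProduct]
    refine Finset.sum_congr rfl fun k _ => ?_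
    rw [Matrix.conjTranspose_apply, colM, Matrix.of_apply, _root_.Pi.star_apply]
    congr 1
  have hcol : ∀ c, colM V *ᵥ c ∈ Tan I p := fun c => by
    rw [colM_mulVec]
    exact Submodule.sum_mem _ fun i _ => Submodule.smul_mem _ _ (hV i)
  have h5 := hrep.outer (hPi.isPi p hp) h2 hp.2 h1 hcol hM
  have hhor : star p ᵥ* colM V = 0 := by
    funext i
    simp only [vecMul, dotProduct, colM, of_apply, _root_.Pi.star_apply, RCLike.star_def, _root_.Pi.zero_apply]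
    rw [← hh i]
    exact Finset.sum_congr rfl fun k _ => mul_comm _ _
  have h6 : Frm290.prj p * colM V = colM V := Rate2_936.prj_mul_of_hor hhor
  have h7 : (colM V)ᴴ * Frm290.prj p = (colM V)ᴴ := by
    have := congrArg Matrix.conjTranspose h6
    rwa [Matrix.conjTranspose_mul, (Frm290.prj_isHermitian p).eq] at this
  rw [← Matrix.mul_assoc, h6, Matrix.mul_assoc, h7] at h5
  refine ⟨hV, hh, fun j k => ?_⟩
  have h8 := congrFun (congrFun h5 j) k
  rw [Matrix.mul_apply, Matrix.of_apply] at h8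
  rw [← h8]
  refine Finset.sum_congr rfl fun i _ => ?_
  rw [Matrix.conjTranspose_apply, colM, Matrix.of_apply, Matrix.of_apply, RCLike.star_def]

open Classical in
/-- `Sop` extended by `1` outside the cone -/
theorem measurable_Sop : ∃ Sw : EE N → (FF N →L[ℂ] FF N), Measurable Sw ∧
    ∀ p ∈ Cone I, Sw p = Sop Pi a p := by
  refine ⟨(Cone I).piecewise (Sop Pi a) (fun _ => 1), ?_, fun p hp => Set.piecewise_eq_of_mem _ _ _ hp⟩
  exact (continuousOn_Sop hI hX hPi ha).measurable_piecewise continuousOn_const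
    (measurableSet_Cone I)

end main

end Crest.Agent.R269.GeoW_936
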