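import Crest.Agent.R269.GeoH_936

/-!
# Row 269, B9 (helper936): the functions `Q p c = |∑ c_j X_j(p)|²_h` of Lemma K: (h1), (h2), (h3)

* `Gam Pi a Y p` : Gram matrix of the fields `X_j` (in the form `wdg X_j p`) for `GGf`;
* `Qf Pi a Y p c = Re (cᴴ Gam c)`;  `Qf_eq` : value through `GGf` and `wdg`;
* (h1) `Qf_rep`, (h2) `Qf_taylor`, (h3) `Qf_nonneg`, `Qf_le`;
* `exists_Q` : everything in one statement.
-/

set_option autoImplicit false
set_option linter.unusedSectionVars false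
open Matrix Complex
open Crest.AlgGeometry.ProjEmb Crest.Agent.R269.Geo_328 Crest.Agent.R269.DefsS_731
open scoped ComplexConjugate ComplexOrder ContDiff Topology

noncomputable section
namespace Crest.Agent.R269.GeoQ_936

open Crest.Agent.R269.Rate1_936 Crest.Agent.R269.GeoG_936 Crest.Agent.R269.SmM_936
  Crest.Agent.R269.GeoH_936
open Crest.Agent.R269.Defs_58 (PosField SmX DD wedgeSq TanFam)

variable {N n : ℕ} {I : Ideal (HomCoordRing N)}

/-- columns `X_j(p)` -/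
def Xm (Y : Flds I) (p : EE N) : Matrix (Fin (N + 1)) (Fin Y.M) ℂ := Matrix.of fun k j => Y.at j p k

theorem Xm_mulVec (Y : Flds I) (p : EE N) (c : Fin Y.M → ℂ) : Xm Y p *ᵥ c = ∑ j, c j • Y.at j p := by
  funext k
  simp only [Xm, mulVec, dotProduct, of_apply, Finset.sum_apply, Pi.smul_apply, smul_eq_mul]
  exact Finset.sum_congr rfl fun i _ => mul_comm _ _

theorem contDiff_eval (F : HomCoordRing N) : ContDiff ℝ ∞ (fun y : EE N => MvPolynomial.eval y F) := by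
  induction F using MvPolynomial.induction_on with
  | C a => simpa using contDiff_const
  | add p q hp hq => simpa using hp.add hq
  | mul_X p i hp => simpa using hp.mul (contDiff_apply ℝ ℂ i)

theorem smM_Xm (Y : Flds I) (p : EE N) : SmM (Xm Y) p := fun k j => by
  simp only [Xm, of_apply, Flds.at]
  exact (contDiff_eval _).contDiffAt

/-- Gram matrix of the fields for the form `a⁻¹` (times `|p|⁴`) -/
def Gam (Pi a : EE N → VV N) (Y : Flds I) (p : EE N) : Matrix (Fin Y.M) (Fin Y.M) ℂ :=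
  (Wm p * Xm Y p)ᴴ * GGf Pi a p * (Wm p * Xm Y p)

/-- `Q p c = |∑ c_j X_j(p)|²_h |p|⁴` -/
def Qf (Pi a : EE N → VV N) (Y : Flds I) (p : EE N) (c : Fin Y.M → ℂ) : ℝ :=
  (star c ⬝ᵥ (Gam Pi a Y p *ᵥ c)).re

/-- `Wm p *ᵥ V` is `wdg V p` -/
theorem Wm_eq_wdg (p V : EE N) : Wm p *ᵥ V = fun x => wdg V p x.1 x.2 := Wm_mulVec p V

theorem Gam_form (Pi a : EE N → VV N) (Y : Flds I) (p : EE N) (c : Fin Y.M → ℂ) :
    star c ⬝ᵥ (Gam Pi a Y p *ᵥ c) =
      star (Wm p *ᵥ ∑ j, c j • Y.at j p) ⬝ᵥ (GGf Pi a p *ᵥ (Wm p *ᵥ ∑ j, c j • Y.at j p)) := by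
  rw [Gam, ← Matrix.mulVec_mulVec, ← Matrix.mulVec_mulVec, Matrix.dotProduct_mulVec,
    ← Matrix.star_mulVec, ← Matrix.mulVec_mulVec, Xm_mulVec]

theorem Qf_eq (Pi a : EE N → VV N) (Y : Flds I) (p : EE N) (c : Fin Y.M → ℂ) :
    Qf Pi a Y p c =
      (star (fun x : K2 N => wdg (∑ j, c j • Y.at j p) p x.1 x.2) ⬝ᵥ
        (GGf Pi a p *ᵥ fun x : K2 N => wdg (∑ j, c j • Y.at j p) p x.1 x.2)).re := by
  rw [Qf, Gam_form, Wm_eq_wdg]

section h1
variable {Pi a : EE N → VV N} (hI : I.IsPrime) (hX : IsSmoothProjective I n) (hPi : PiData I Pi)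
  (ha : PosField I n a)
include hI hX hPi ha

/-- the form `a⁻¹` of `∑ x_k b_k + r p` is `∑ |x_k|²` -/
theorem Gm_rep {p : EE N} (hp : p ∈ Cone I) {b : Fin n → EE N} (hb : Defs_58.Rep I a p b)
    (x y : Fin n → ℂ) (r s : ℂ) :
    star (∑ k, x k • b k + r • p) ⬝ᵥ (Rate2_936.Gm p (Matrix.of (Pi p)) (Matrix.of (a p)) *ᵥ
      (∑ k, y k • b k + s • p)) = star x ⬝ᵥ y := by
  obtain ⟨h1, h2, -⟩ := tanStmt N n I hI hX p hp
  have horth := (rep_of ha hp hb).orth (hPi.isPi p hp) h2 hp.2 h1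
  have hS := Sm_posDef hI hX hPi ha hp
  have hG := Rate2_936.Gm_isHermitian (p := p) hS.isHermitian
  have hGp := Rate2_936.Gm_mulVec_self (Pi := Matrix.of (Pi p)) (a := Matrix.of (a p)) hp.2
  set G := Rate2_936.Gm p (Matrix.of (Pi p)) (Matrix.of (a p)) with hGdef
  have hpG : ∀ w : EE N, star p ⬝ᵥ (G *ᵥ w) = 0 := by
    intro w
    rw [Matrix.dotProduct_mulVec]
    have : star p ᵥ* G = star (G *ᵥ p) := by rw [Matrix.star_mulVec, hG.eq]
    rw [this, hGp, star_zero, zero_dotProduct]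
  rw [Matrix.mulVec_add, Matrix.mulVec_smul, hGp, smul_zero, add_zero, star_add, star_smul,
    add_dotProduct, smul_dotProduct, hpG, smul_zero, add_zero, ← colM_mulVec, ← colM_mulVec,
    Matrix.star_mulVec, ← Matrix.dotProduct_mulVec, Matrix.mulVec_mulVec, Matrix.mulVec_mulVec,
    horth, Matrix.one_mulVec]

/-- (h1), sesquilinear form -/
theorem GGf_rep {p : EE N} (hp : p ∈ Cone I) {b : Fin n → EE N} (hb : Defs_58.Rep I a p b)
    (x y : Fin n → ℂ) (r s : ℂ) :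
    star (Wm p *ᵥ (∑ k, x k • b k + r • p)) ⬝ᵥ
      (GGf Pi a p *ᵥ (Wm p *ᵥ (∑ k, y k • b k + s • p))) = (nsq p : ℂ) ^ 2 * (star x ⬝ᵥ y) := by
  rw [GGf, GG_wdg hp.2, Gm_rep hI hX hPi ha hp hb]
  rfl

/-- (h1) -/
theorem Qf_rep (Y : Flds I) {p : EE N} (hp : p ∈ Cone I) {b : Fin n → EE N}
    (hb : Defs_58.Rep I a p b) {c : Fin Y.M → ℂ} {x : Fin n → ℂ} {r : ℂ}
    (h : ∑ j, c j • Y.at j p = ∑ k, x k • b k + r • p) :
    Qf Pi a Y p c = nsq p ^ 2 * ∑ k, ‖x k‖ ^ 2 := by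
  rw [Qf, Gam_form, h, GGf_rep hI hX hPi ha hp hb, Frm290.star_dot_self]
  have : (nsq p : ℂ) ^ 2 * ((Frm290.nsq x : ℝ) : ℂ) = ((nsq p ^ 2 * Frm290.nsq x : ℝ) : ℂ) := by
    push_cast; ring
  rw [this, Complex.ofReal_re]
  rfl

theorem Qf_nonneg (Y : Flds I) {p : EE N} (hp : p ∈ Cone I) (c : Fin Y.M → ℂ) :
    0 ≤ Qf Pi a Y p c := by
  rw [Qf, Gam_form]
  have := (GGf_posDef hI hX hPi ha hp).posSemidef.dotProduct_mulVec_nonneg
    (Wm p *ᵥ ∑ j, c j • Y.at j p)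
  exact (Complex.le_def.1 this).1

theorem smM_Gam (Y : Flds I) {p : EE N} (hp : p ∈ Cone I) : SmM (Gam Pi a Y) p := by
  unfold Gam
  exact ((((smM_Wm p).mul (smM_Xm Y p)).conjT).mul (smM_GGf hI hX hPi ha hp)).mul
    ((smM_Wm p).mul (smM_Xm Y p))

end h1

/-! ### (h2), (h3) -/

/-- the compact shell of the cone -/
def shell (I : Ideal (HomCoordRing N)) (e : ℝ) : Set (EE N) :=
  {p | p ∈ affineCone I ∧ e ≤ nsq p ∧ nsq p ≤ 1}

theorem shell_sub {e : ℝ} (he : 0 < e) : shell I e ⊆ Cone I := by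
  rintro p ⟨h1, h2, -⟩
  refine ⟨h1, ?_⟩
  rintro rfl
  have : nsq (0 : EE N) = 0 := by simp [nsq]
  rw [this] at h2
  exact absurd h2 (not_le.2 he)

theorem norm_sq_le_nsq (p : EE N) : ‖p‖ ^ 2 ≤ nsq p := by
  have h1 : ‖p‖ ≤ Real.sqrt (nsq p) := by
    rw [pi_norm_le_iff_of_nonneg (Real.sqrt_nonneg _)]
    intro k
    refine Real.le_sqrt_of_sq_le ?_
    exact Finset.single_le_sum (f := fun k => ‖p k‖ ^ 2) (fun _ _ => by positivity)
      (Finset.mem_univ k)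
  calc ‖p‖ ^ 2 ≤ Real.sqrt (nsq p) ^ 2 := pow_le_pow_left₀ (norm_nonneg _) h1 2
    _ = nsq p := Real.sq_sqrt (Finset.sum_nonneg fun _ _ => by positivity)

theorem isCompact_shell (I : Ideal (HomCoordRing N)) (e : ℝ) : IsCompact (shell I e) := by
  refine Metric.isCompact_of_isClosed_isBounded ?_ ?_
  · exact (LevBr_901.isClosed_affineCone I).inter
      ((isClosed_le continuous_const LevBr_901.continuous_nsq).inter
        (isClosed_le LevBr_901.continuous_nsq continuous_const))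
  · refine (Metric.isBounded_closedBall (x := (0 : EE N)) (r := 1)).subset ?_
    rintro p ⟨-, -, hp⟩
    rw [mem_closedBall_zero_iff]
    have h1 := norm_sq_le_nsq p
    nlinarith [norm_nonneg p]

/-- the real linear functional `m ↦ Re (cᴴ m c)` -/
def Lc {M : ℕ} (c : Fin M → ℂ) : (Fin M → Fin M → ℂ) →L[ℝ] ℝ :=
  LinearMap.toContinuousLinearMap
    { toFun := fun m => (star c ⬝ᵥ (Matrix.of m *ᵥ c)).re
      map_add' := fun m m' => by
        have : Matrix.of (m + m') = Matrix.of m + Matrix.of m' := rfl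
        rw [this, Matrix.add_mulVec, dotProduct_add, Complex.add_re]
      map_smul' := fun r m => by
        have : Matrix.of (r • m) = ((r : ℝ) : ℂ) • Matrix.of m := by
          ext i j; simp
        rw [this, Matrix.smul_mulVec, dotProduct_smul, smul_eq_mul, Complex.re_ofReal_mul]
        rfl }

theorem Lc_apply {M : ℕ} (c : Fin M → ℂ) (m : Fin M → Fin M → ℂ) :
    Lc c m = (star c ⬝ᵥ (Matrix.of m *ᵥ c)).re := rfl

theorem Lc_le {M : ℕ} (c : Fin M → ℂ) (m : Fin M → Fin M → ℂ) :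
    |Lc c m| ≤ M * (∑ j, ‖c j‖ ^ 2) * ‖m‖ := by
  rw [Lc_apply]
  have h1 : ∀ j k, ‖m j k‖ ≤ ‖m‖ := fun j k => (norm_le_pi_norm (m j) k).trans (norm_le_pi_norm m j)
  have h2 : ‖star c ⬝ᵥ (Matrix.of m *ᵥ c)‖ ≤ (∑ j, ‖c j‖) ^ 2 * ‖m‖ := by
    calc ‖star c ⬝ᵥ (Matrix.of m *ᵥ c)‖ ≤ ∑ j, ‖c j‖ * ∑ k, (‖m‖ * ‖c k‖) := by
          rw [dotProduct]
          refine (norm_sum_le _ _).trans (Finset.sum_le_sum fun j _ => ?_)
          rw [norm_mul, Pi.star_apply, norm_star]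
          refine mul_le_mul_of_nonneg_left ?_ (norm_nonneg _)
          rw [mulVec, dotProduct]
          refine (norm_sum_le _ _).trans (Finset.sum_le_sum fun k _ => ?_)
          rw [norm_mul, Matrix.of_apply]
          exact mul_le_mul_of_nonneg_right (h1 j k) (norm_nonneg _)
      _ = (∑ j, ‖c j‖) ^ 2 * ‖m‖ := by
          rw [← Finset.sum_mul, ← Finset.mul_sum, pow_two]; ring
  have h3 : (∑ j, ‖c j‖) ^ 2 ≤ M * ∑ j, ‖c j‖ ^ 2 := by
    have := sq_sum_le_card_mul_sum_sq (s := (Finset.univ : Finset (Fin M))) (f := fun j => ‖c j‖)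
    simpa using this
  calc |(star c ⬝ᵥ (Matrix.of m *ᵥ c)).re| ≤ ‖star c ⬝ᵥ (Matrix.of m *ᵥ c)‖ :=
        Complex.abs_re_le_norm _
    _ ≤ (∑ j, ‖c j‖) ^ 2 * ‖m‖ := h2
    _ ≤ _ := mul_le_mul_of_nonneg_right h3 (norm_nonneg _)

section h23
variable {Pi a : EE N → VV N} (hI : I.IsPrime) (hX : IsSmoothProjective I n) (hPi : PiData I Pi)
  (ha : PosField I n a)
include hI hX hPi ha

/-- (h2) and (h3): uniform Taylor formula and bounds on the shell -/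
theorem Qf_taylor (Y : Flds I) {e : ℝ} (he : 0 < e) :
    ∃ C : ℝ, 0 ≤ C ∧ ∀ p ∈ shell I e, ∀ c : Fin Y.M → ℂ,
      Qf Pi a Y p c ≤ C * ∑ j, ‖c j‖ ^ 2 ∧
      ∃ D : EE N →L[ℝ] ℝ, (∀ v, |D v| ≤ C * (∑ j, ‖c j‖ ^ 2) * Real.sqrt (nsq v)) ∧
        ∀ q ∈ shell I e, |Qf Pi a Y q c - Qf Pi a Y p c - D (q - p)| ≤
          C * (∑ j, ‖c j‖ ^ 2) * nsq (q - p) := by
  obtain ⟨C, hC0, hC⟩ := Tay_936.taylor_compact (isCompact_shell I e)
    (g := fun p => (fun i j => Gam Pi a Y p i j : Fin Y.M → Fin Y.M → ℂ))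
    (fun x hx => ((smM_Gam hI hX hPi ha Y (shell_sub he hx)).to_fun).of_le
      (WithTop.coe_le_coe.2 le_top))
  set g : EE N → (Fin Y.M → Fin Y.M → ℂ) := fun p => (fun i j => Gam Pi a Y p i j) with hg
  have hQ : ∀ p c, Qf Pi a Y p c = Lc c (g p) := fun p c => rfl
  refine ⟨Y.M * C, by positivity, fun p hp c => ?_⟩
  set S := ∑ j, ‖c j‖ ^ 2 with hS
  have hS0 : 0 ≤ S := Finset.sum_nonneg fun _ _ => by positivity
  obtain ⟨h1, h2, h3⟩ := hC p hp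
  refine ⟨?_, (Lc c).comp (fderiv ℝ g p), fun v => ?_, fun q hq => ?_⟩
  · rw [hQ]
    calc Lc c (g p) ≤ |Lc c (g p)| := le_abs_self _
      _ ≤ Y.M * S * ‖g p‖ := Lc_le c _
      _ ≤ Y.M * S * C := mul_le_mul_of_nonneg_left h1 (by positivity)
      _ = Y.M * C * S := by ring
  · rw [ContinuousLinearMap.comp_apply]
    have h4 : ‖fderiv ℝ g p v‖ ≤ C * Real.sqrt (nsq v) := by
      refine (ContinuousLinearMap.le_opNorm _ _).trans ?_
      refine mul_le_mul h2 ?_ (norm_nonneg _) hC0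
      exact Real.le_sqrt_of_sq_le (norm_sq_le_nsq v)
    calc |Lc c (fderiv ℝ g p v)| ≤ Y.M * S * ‖fderiv ℝ g p v‖ := Lc_le c _
      _ ≤ Y.M * S * (C * Real.sqrt (nsq v)) := mul_le_mul_of_nonneg_left h4 (by positivity)
      _ = Y.M * C * S * Real.sqrt (nsq v) := by ring
  · rw [hQ, hQ, ContinuousLinearMap.comp_apply, ← map_sub, ← map_sub]
    calc |Lc c (g q - g p - fderiv ℝ g p (q - p))|
        ≤ Y.M * S * ‖g q - g p - fderiv ℝ g p (q - p)‖ := Lc_le c _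
      _ ≤ Y.M * S * (C * nsq (q - p)) := by
          refine mul_le_mul_of_nonneg_left ((h3 q hq).trans ?_) (by positivity)
          exact mul_le_mul_of_nonneg_left (norm_sq_le_nsq _) hC0
      _ = Y.M * C * S * nsq (q - p) := by ring

end h23

/-- everything that Lemma K needs about the field metric -/
theorem exists_Q (hI : I.IsPrime) (hX : IsSmoothProjective I n) {a : EE N → VV N}
    (ha : PosField I n a) (Y : Flds I) :
    ∃ Q : EE N → (Fin Y.M → ℂ) → ℝ,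
      (∀ p ∈ Cone I, ∀ c, 0 ≤ Q p c) ∧
      (∀ p ∈ Cone I, ∀ b : Fin n → EE N, Defs_58.Rep I a p b → ∀ (c : Fin Y.M → ℂ) (x : Fin n → ℂ)
        (r : ℂ), ∑ j, c j • Y.at j p = ∑ k, x k • b k + r • p →
        Q p c = nsq p ^ 2 * ∑ k, ‖x k‖ ^ 2) ∧
      ∀ e : ℝ, 0 < e → ∃ C : ℝ, 0 ≤ C ∧ ∀ p ∈ shell I e, ∀ c : Fin Y.M → ℂ,
        Q p c ≤ C * ∑ j, ‖c j‖ ^ 2 ∧
        ∃ D : EE N →L[ℝ] ℝ, (∀ v, |D v| ≤ C * (∑ j, ‖c j‖ ^ 2) * Real.sqrt (nsq v)) ∧
          ∀ q ∈ shell I e, |Q q c - Q p c - D (q - p)| ≤ C * (∑ j, ‖c j‖ ^ 2) * nsq (q - p) := by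
  obtain ⟨Pi, hPi⟩ := exists_PiData hI hX
  exact ⟨Qf Pi a Y, fun p hp c => Qf_nonneg hI hX hPi ha Y hp c,
    fun p hp b hb c x r h => Qf_rep hI hX hPi ha Y hp hb h,
    fun e he => Qf_taylor hI hX hPi ha Y he⟩

end Crest.Agent.R269.GeoQ_936
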