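import Mathlib
import Crest.Agent.R269.Ker2_430
import Crest.Agent.R269.TE_499
import Crest.Agent.R269.StMax_528
import Crest.Agent.R269.LevBr_901
import Crest.Agent.R269.GeoQ_936

/-!
# R269 (S0411), LINE B, leaf B8 KER, part 3 (helper430): the averaged kernel inequality (N5)

* `trO a` : the function `tr_a ω` (`= ∑ ω_p(b_k)` for every frame `b` representing `a`), `smX_trO`, `trO_eq`;
* `KRep I Y Q p V` : the reproducing property at `p` (hypothesis of `Ker2_430.ker`);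
* `ker_avg` : `bavg(tr_a ω) - C e_r ≤ avg_{|z| = r} ∑_i ω(H z)(V_i z)`.
-/

set_option autoImplicit false

open MeasureTheory MvPolynomial Crest.AlgGeometry.ProjEmb Crest.Agent.R269.Geo_328
open Crest.Agent.R269.Defs_58 Crest.Agent.R269.DefsS_731 Crest.Agent.R269.Alp_927
open Crest.Agent.R269.Ker2_430 Metric Set Filter
open scoped Topology ComplexConjugate

noncomputable section

namespace Crest.Agent.R269.Ker3_430

variable {N n : ℕ} {I : Ideal (HomCoordRing N)}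

/-- `tr_a ω` -/
def trO (a : EE N → VV N) (p : EE N) : ℝ := (∑ j, (a p j j).re) / nsq p

theorem sum_nsq_eq {a : EE N → VV N} {p : EE N} {b : Fin n → EE N} (hb : Rep I a p b) :
    ∑ k, nsq (b k) = ∑ j, (a p j j).re := by
  unfold nsq
  rw [Finset.sum_comm]
  refine Finset.sum_congr rfl fun j _ => ?_
  rw [hb.2.2 j j, Complex.re_sum]
  refine Finset.sum_congr rfl fun k _ => ?_
  rw [Complex.mul_conj, Complex.ofReal_re, Complex.normSq_eq_norm_sq]

theorem trO_eq {a : EE N → VV N} {p : EE N} {b : Fin n → EE N} (hb : Rep I a p b) :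
    trO a p = ∑ k, omg p (b k) := by
  unfold trO
  rw [← sum_nsq_eq hb, Finset.sum_div]
  refine Finset.sum_congr rfl fun k _ => ?_
  rw [LevBr_901.omg_horiz (hb.2.1 k)]
  rfl

theorem trO_nonneg {a : EE N → VV N} (ha : PosField I n a) {p : EE N} (hp : p ∈ Cone I) :
    0 ≤ trO a p := by
  obtain ⟨b, hb, -⟩ := ha.rep p hp
  rw [trO_eq hb]
  exact Finset.sum_nonneg fun k _ => LevBr_901.omg_nonneg _ _

theorem smX_trO {a : EE N → VV N} (ha : PosField I n a) : SmX I (trO a) := by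
  constructor
  · intro p hp
    have h0 := Alp_927.nsq_pos hp.2
    refine ContDiffAt.div ?_ (contDiffAt_nsq p) h0.ne'
    refine ContDiffAt.sum fun j _ => ?_
    have h1 : ContDiffAt ℝ _ (fun q => a q j j) p :=
      contDiffAt_pi.1 (contDiffAt_pi.1 (ha.smooth p hp) j) j
    exact Complex.reCLM.contDiff.contDiffAt.comp p h1
  · intro p hp c hc
    have h0 := Alp_927.nsq_pos hp.2
    have h1 : 0 < ‖c‖ ^ 2 := by positivity
    unfold trO
    rw [ha.hom p hp c hc, Alp_927.nsq_smul, Complex.normSq_eq_norm_sq]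
    have h2 : ∑ j, ((((‖c‖ ^ 2 : ℝ) : ℂ) • a p) j j).re = ‖c‖ ^ 2 * ∑ j, (a p j j).re := by
      rw [Finset.mul_sum]
      refine Finset.sum_congr rfl fun j _ => ?_
      simp only [Pi.smul_apply, smul_eq_mul]
      rw [Complex.re_ofReal_mul]
    rw [h2, mul_div_mul_left _ _ h1.ne']

theorem trO_le (hX : IsSmoothProjective I n) {a : EE N → VV N} (ha : PosField I n a) :
    ∃ M : ℝ, 0 ≤ M ∧ ∀ p ∈ Cone I, trO a p ≤ M := by
  obtain ⟨C, hC, h⟩ := trace_bound hX ha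
  refine ⟨C, hC, fun p hp => ?_⟩
  obtain ⟨b, hb, -⟩ := ha.rep p hp
  have h0 := Alp_927.nsq_pos hp.2
  unfold trO
  rw [← sum_nsq_eq hb, div_le_iff₀ h0]
  exact h p hp b hb

/-- the reproducing property at the point `p` (hypothesis of `Ker2_430.ker`) -/
def KRep (I : Ideal (HomCoordRing N)) (Y : Flds I) (Q : EE N → (Fin Y.M → ℂ) → ℝ) (p : EE N)
    (V : Fin n → EE N) : Prop :=
  ∃ (Ω : Type) (_ : MeasurableSpace Ω) (μ : Measure Ω) (_ : IsProbabilityMeasure μ) (Hs : Ω → EE N),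
    Integrable Hs μ ∧ (∀ᵐ ω ∂μ, Hs ω ∈ Cone I ∧ nsq (Hs ω) = 1) ∧ ∫ ω, Hs ω ∂μ = p ∧
    ∀ c : Fin Y.M → ℂ, ∃ q : Fin n → ℂ, ∑ i, q i • wdg (V i) p = wdg (∑ j, c j • Y.at j p) p ∧
      ∑ i, ‖q i‖ ^ 2 ≤ ∫ ω, Q (Hs ω) c ∂μ

/-- the three inputs of B9 -/
structure QIn (I : Ideal (HomCoordRing N)) (n : ℕ) (a : EE N → VV N) (Y : Flds I)
    (Q : EE N → (Fin Y.M → ℂ) → ℝ) : Prop where
  h1 : ∀ p ∈ Cone I, ∀ b : Fin n → EE N, Rep I a p b → ∀ (c : Fin Y.M → ℂ) (x : Fin n → ℂ) (r : ℂ),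
      ∑ j, c j • Y.at j p = ∑ k, x k • b k + r • p → Q p c = nsq p ^ 2 * ∑ k, ‖x k‖ ^ 2
  h2 : ∃ C₂ : ℝ, ∀ p ∈ Cone I, 1 / 2 ≤ nsq p → nsq p ≤ 1 → ∀ c : Fin Y.M → ℂ,
      ∃ D : EE N →L[ℝ] ℝ, ∀ y ∈ Cone I, nsq y = 1 →
        Q y c ≤ Q p c + D (y - p) + C₂ * (∑ j, ‖c j‖ ^ 2) * nsq (y - p)
  h3 : ∃ C₃ : ℝ, ∀ y ∈ Cone I, nsq y = 1 → ∀ c : Fin Y.M → ℂ, Q y c ≤ C₃ * ∑ j, ‖c j‖ ^ 2

/-- 936's `Qf` satisfies the three inputs -/
theorem qin_Qf (hI : I.IsPrime) (hX : IsSmoothProjective I n) {Pi a : EE N → VV N}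
    (hPi : GeoH_936.PiData I Pi) (ha : PosField I n a) (Y : Flds I) :
    QIn I n a Y (GeoQ_936.Qf Pi a Y) := by
  refine ⟨fun p hp b hb c x r h => GeoQ_936.Qf_rep hI hX hPi ha Y hp hb h, ?_, ?_⟩
  · obtain ⟨C, hC, h⟩ := GeoQ_936.Qf_taylor hI hX hPi ha Y (e := 1 / 2) (by norm_num)
    refine ⟨C, fun p hp h1 h2 c => ?_⟩
    obtain ⟨-, D, -, hD⟩ := h p ⟨hp.1, h1, h2⟩ c
    refine ⟨D, fun y hy hy1 => ?_⟩
    have := (abs_le.1 (hD y ⟨hy.1, by rw [hy1]; norm_num, hy1.le⟩)).2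
    linarith
  · obtain ⟨C, hC, h⟩ := GeoQ_936.Qf_taylor hI hX hPi ha Y (e := 1 / 2) (by norm_num)
    exact ⟨C, fun y hy hy1 c => (h y ⟨hy.1, by rw [hy1]; norm_num, hy1.le⟩ c).1⟩

/-- (K1), (K2) at a point with the reproducing property -/
theorem ker_pt (hX : IsSmoothProjective I n) {a : EE N → VV N} (ha : PosField I n a) (Y : Flds I)
    {Q : EE N → (Fin Y.M → ℂ) → ℝ} (hQ : QIn I n a Y Q) :
    ∃ (C : ℝ) (K : ℕ), 0 < C ∧ ∀ p ∈ Cone I, ∀ V : Fin n → EE N, TanFam I p V → KRep I Y Q p V →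
      ∀ b : Fin n → EE N, Rep I a p b →
        (1 - C * (1 - nsq p)) * ∑ k, omg p (b k) ≤ ∑ i, omg p (V i) ∧
        nsq p ^ K * DD p b ≤ C * DD p V := by
  obtain ⟨C, K, hC, h⟩ := ker hX ha Y hQ.h1 hQ.h2 hQ.h3
  refine ⟨C, K, hC, ?_⟩
  rintro p hp V hV ⟨Ω, _, μ, _, Hs, k1, k2, k3, k4⟩ b hb
  exact h Ω μ Hs k1 k2 p hp k3 V hV k4 b hb

theorem continuousOn_sum_omg {H : ℂ → EE N} (hH : IsDisc I H) {V : Fin n → ℂ → EE N}
    (hV : ∀ i, ContinuousOn (fun z => wdg (V i z) (H z)) (ball 0 1)) :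
    ContinuousOn (fun z => ∑ i, omg (H z) (V i z)) (ball 0 1) := by
  have h1 : ∀ z ∈ ball (0 : ℂ) 1, ∑ i, omg (H z) (V i z)
      = (2 * nsq (H z) ^ 2)⁻¹ * ∑ i, ∑ j, ∑ k, ‖wdg (V i z) (H z) j k‖ ^ 2 := by
    intro z hz
    have h0 := Alp_927.nsq_pos (hH.cone z hz).2
    rw [Finset.mul_sum]
    refine Finset.sum_congr rfl fun i _ => ?_
    rw [sum_wdg_sq (hH.cone z hz).2]
    field_simp
  refine ContinuousOn.congr ?_ h1
  have hn : ContinuousOn (fun z => nsq (H z)) (ball 0 1) :=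
    nsq_continuous.comp_continuousOn hH.hol.continuousOn
  refine ContinuousOn.mul ?_ ?_
  · refine ContinuousOn.inv₀ (continuousOn_const.mul (hn.pow 2)) fun z hz => ?_
    have h0 := Alp_927.nsq_pos (hH.cone z hz).2
    positivity
  · refine continuousOn_finsetSum _ fun i _ => continuousOn_finsetSum _ fun j _ =>
      continuousOn_finsetSum _ fun k _ => ContinuousOn.pow (ContinuousOn.norm ?_) 2
    exact (continuous_apply k).comp_continuousOn ((continuous_apply j).comp_continuousOn (hV i))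

/-- **(N5)** the averaged kernel inequality -/
theorem ker_avg (hI : I.IsPrime) (hX : IsSmoothProjective I n) {a : EE N → VV N}
    (ha : PosField I n a) (Y : Flds I) {Q : EE N → (Fin Y.M → ℂ) → ℝ} (hQ : QIn I n a Y Q) :
    ∃ C : ℝ, 0 ≤ C ∧ ∀ H : ℂ → EE N, IsDisc I H → Normal H → ∀ V : Fin n → ℂ → EE N,
      (∀ i, ContinuousOn (fun z => wdg (V i z) (H z)) (ball 0 1)) →
      (∀ z ∈ ball (0 : ℂ) 1, TanFam I (H z) (fun i => V i z) ∧
        KRep I Y Q (H z) (fun i => V i z)) →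
      ∀ T1 B : ℝ, Tendsto (fun s => TE (fun p v => omg p v) H s) (𝓝[<] 1) (𝓝 T1) →
        Tendsto (fun s => cav (trO a) H s) (𝓝[<] 1) (𝓝 B) → ∀ r : ℝ, 0 ≤ r → r < 1 →
        B - C * (T1 - TE (fun p v => omg p v) H r)
          ≤ Real.circleAverage (fun z => ∑ i, omg (H z) (V i z)) 0 r := by
  obtain ⟨C₁, K, hC₁, hker⟩ := ker_pt hX ha Y hQ
  obtain ⟨M, hM, hMle⟩ := trO_le hX ha
  have hsm := smX_trO ha
  obtain ⟨C₂, hC₂, hlev⟩ := LevBr_901.smX_lev_bdd hI hX hsm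
  refine ⟨C₁ * M + C₂, by positivity, ?_⟩
  intro H hH hN V hVc hV T1 B hT1 hB r hr0 hr1
  have hsub : sphere (0 : ℂ) |r| ⊆ ball 0 1 := by
    rw [abs_of_nonneg hr0]
    exact sphere_subset_closedBall.trans (closedBall_subset_ball hr1)
  -- the pointwise inequality
  have hpt : ∀ z ∈ ball (0 : ℂ) 1, trO a (H z) + C₁ * M * Real.log (nsq (H z))
      ≤ ∑ i, omg (H z) (V i z) := by
    intro z hz
    have hz' := hH.cone z hz
    obtain ⟨b, hb, -⟩ := ha.rep _ hz'
    have h1 := (hker (H z) hz' _ (hV z hz).1 (hV z hz).2 b hb).1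
    rw [← trO_eq hb] at h1
    have h2 := trO_nonneg ha hz'
    have h3 := hMle _ hz'
    have h4 := Alp_927.nsq_pos hz'.2
    have h5 := Real.log_le_sub_one_of_pos h4
    have h6 : nsq (H z) ≤ 1 := hN.le_one z hz
    have h7 : C₁ * (1 - nsq (H z)) * trO a (H z) ≤ C₁ * (1 - nsq (H z)) * M :=
      mul_le_mul_of_nonneg_left h3 (mul_nonneg hC₁.le (by linarith))
    have h8 : C₁ * M * (1 - nsq (H z)) ≤ C₁ * M * (-Real.log (nsq (H z))) :=
      mul_le_mul_of_nonneg_left (by linarith) (by positivity)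
    nlinarith
  -- continuity
  have hHc : ContinuousOn H (ball 0 1) := hH.hol.continuousOn
  have hfc : ContinuousOn (fun z => trO a (H z)) (ball 0 1) := fun z hz =>
    ((hsm.1 _ (hH.cone z hz)).continuousAt.comp_continuousWithinAt (hHc z hz))
  have hlc : ContinuousOn (fun z => Real.log (nsq (H z))) (ball 0 1) := by
    refine ContinuousOn.log (nsq_continuous.comp_continuousOn hHc) fun z hz => ?_
    exact (Alp_927.nsq_pos (hH.cone z hz).2).ne'
  have hgc := continuousOn_sum_omg hH hVc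
  have hci : ∀ {g : ℂ → ℝ}, ContinuousOn g (ball 0 1) → CircleIntegrable g 0 r := fun hg =>
    (hg.mono hsub).circleIntegrable'
  -- averages
  have havg : cav (trO a) H r + C₁ * M * Real.circleAverage (fun z => Real.log (nsq (H z))) 0 r
      ≤ Real.circleAverage (fun z => ∑ i, omg (H z) (V i z)) 0 r := by
    have e1 : Real.circleAverage (fun z => trO a (H z) + C₁ * M * Real.log (nsq (H z))) 0 r
        = cav (trO a) H r + C₁ * M * Real.circleAverage (fun z => Real.log (nsq (H z))) 0 r := by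
      rw [Real.circleAverage_fun_add (hci hfc)
        (hci (g := fun z => C₁ * M * Real.log (nsq (H z))) (continuousOn_const.mul hlc))]
      congr 1
      exact Real.circleAverage_fun_smul (a := C₁ * M) (f := fun z => Real.log (nsq (H z)))
    rw [← e1]
    exact Real.circleAverage_mono (hci (g := fun z => trO a (H z) + C₁ * M * Real.log (nsq (H z)))
      (hfc.add (continuousOn_const.mul hlc))) (hci hgc)
      fun z hz => hpt z (hsub hz)
  -- the normalisation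
  have hL : ∀ s : ℝ, 0 ≤ s → s < 1 → Real.circleAverage (fun z => Real.log (nsq (H z))) 0 s
      = TE (fun p v => omg p v) H s + Real.log (nsq (H 0)) := by
    intro s h0 h1
    have e1 : Real.circleAverage (fun z => Real.log (nsq (H z))) 0 s - Real.log (nsq (H 0))
        = TE (fun p v => omg p v) H s := StMax_528.Tom_eq_TE hH h0 h1
    linarith
  have hIoo : Ioo (0 : ℝ) 1 ∈ 𝓝[<] (1 : ℝ) := Ioo_mem_nhdsLT one_pos
  have hT1' : T1 = - Real.log (nsq (H 0)) := by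
    have e1 : Tendsto (fun s => TE (fun p v => omg p v) H s) (𝓝[<] 1)
        (𝓝 (0 - Real.log (nsq (H 0)))) := by
      refine (hN.avg.sub_const _).congr' ?_
      filter_upwards [hIoo] with s hs
      rw [hL s hs.1.le hs.2]; ring
    have := tendsto_nhds_unique hT1 e1
    linarith
  -- the boundary average of `tr_a ω`
  have hE : TE_499.CDens I (LevC_653.lev (trO a)) := by
    have h1 := (StMax_528.dens_lev hX hsm).cont
    simp only [StMax_528.lev_eq] at h1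
    exact h1
  have ho : TE_499.CDens I (fun p v => omg p v) := StMax_528.dens_omg.cont
  have hbd : ∀ p ∈ Cone I, ∀ v ∈ Tan I p, |LevC_653.lev (trO a) p v| ≤ C₂ * omg p v := by
    intro p hp v hv
    rw [← StMax_528.lev_eq]
    exact hlev p hp v hv
  have hBr : B - cav (trO a) H r ≤ C₂ * (T1 - TE (fun p v => omg p v) H r) := by
    refine le_of_tendsto_of_tendsto (hB.sub_const (cav (trO a) H r))
      ((hT1.sub_const (TE (fun p v => omg p v) H r)).const_mul C₂) ?_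
    filter_upwards [Ioo_mem_nhdsLT hr1] with s hs
    have h2 : ∀ p ∈ Cone I, ContDiffAt ℝ 2 (trO a) p := fun p hp =>
      (hsm.1 p hp).of_le (WithTop.coe_le_coe.2 le_top)
    have e1 := TE_499.jensen_cav h2 hH (hr0.trans hs.1.le) hs.2
    have e2 := TE_499.jensen_cav h2 hH hr0 hr1
    have e3 := (abs_le.1 (TE_499.abs_TE_sub_le hE ho hbd hH hr0 hs.1.le hs.2)).2
    linarith
  rw [hL r hr0 hr1] at havg
  have h9 : C₁ * M * (TE (fun p v => omg p v) H r + Real.log (nsq (H 0)))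
      = - (C₁ * M * (T1 - TE (fun p v => omg p v) H r)) := by rw [hT1']; ring
  rw [h9] at havg
  have h10 : (C₁ * M + C₂) * (T1 - TE (fun p v => omg p v) H r)
      = C₁ * M * (T1 - TE (fun p v => omg p v) H r) + C₂ * (T1 - TE (fun p v => omg p v) H r) := by
    ring
  linarith

end Crest.Agent.R269.Ker3_430
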