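import Mathlib
import Crest.Agent.R269.Wold_290

/-!
# R269 (helper248), leaf B2: weighted Wold decomposition

* `woldS` : weight `S : Ω → F →L[ℂ] F'`, `c ‖v‖ ≤ ‖S ω v‖ ≤ C ‖v‖`.
* `woldG` : weight `G : Ω → F →L[ℂ] F` self-adjoint, `c ‖v‖² ≤ re ⟪v, G ω v⟫`, `‖G ω‖ ≤ C`.
-/

set_option autoImplicit false
set_option linter.unusedSectionVars false

open MeasureTheory Filter Topology
open scoped ComplexConjugate InnerProductSpace ENNReal NNReal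

noncomputable section

namespace Crest.Agent.R269.WoldW_248

open Crest.Agent.R269.Wold290

variable {Ω : Type*} [MeasurableSpace Ω] {μ : Measure Ω}
variable {F F' : Type*} [NormedAddCommGroup F] [InnerProductSpace ℂ F]
  [NormedAddCommGroup F'] [InnerProductSpace ℂ F']

/-! ## multiplication operators -/

theorem aesm_op {S : Ω → F →L[ℂ] F'} (hS : AEStronglyMeasurable S μ) {Q : Ω → F}
    (hQ : AEStronglyMeasurable Q μ) : AEStronglyMeasurable (fun t => S t (Q t)) μ :=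
  (ContinuousLinearMap.id ℂ (F →L[ℂ] F')).aestronglyMeasurable_comp₂ hS hQ

theorem memLp_op {S : Ω → F →L[ℂ] F'} (hS : AEStronglyMeasurable S μ) {C : ℝ}
    (hC : ∀ᵐ t ∂μ, ‖S t‖ ≤ C) {Q : Ω → F} (hQ : MemLp Q 2 μ) : MemLp (fun t => S t (Q t)) 2 μ := by
  refine MemLp.of_le_mul (c := C) hQ (aesm_op hS hQ.1) ?_
  filter_upwards [hC] with t ht
  exact (S t).le_of_opNorm_le ht _

/-- multiplication by a bounded measurable operator function -/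
def mulOp (S : Ω → F →L[ℂ] F') (hS : AEStronglyMeasurable S μ) (C : ℝ)
    (hC : ∀ᵐ t ∂μ, ‖S t‖ ≤ C) : Lp F 2 μ →L[ℂ] Lp F' 2 μ :=
  LinearMap.mkContinuous
    { toFun := fun Q => (memLp_op hS hC (Lp.memLp Q)).toLp _
      map_add' := fun P Q => by
        rw [← MemLp.toLp_add]
        refine MemLp.toLp_congr _ _ ?_
        filter_upwards [Lp.coeFn_add P Q] with t h
        rw [h, Pi.add_apply, map_add, Pi.add_apply]
      map_smul' := fun c Q => by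
        rw [RingHom.id_apply, ← MemLp.toLp_const_smul]
        refine MemLp.toLp_congr _ _ ?_
        filter_upwards [Lp.coeFn_smul c Q] with t h
        rw [h, Pi.smul_apply, map_smul, Pi.smul_apply] } C fun Q => by
    show ‖(memLp_op hS hC (Lp.memLp Q)).toLp _‖ ≤ C * ‖Q‖
    refine Lp.norm_le_mul_norm_of_ae_le_mul ?_
    filter_upwards [(memLp_op hS hC (Lp.memLp Q)).coeFn_toLp, hC] with t h1 h2
    rw [h1]; exact (S t).le_of_opNorm_le h2 _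

theorem coeFn_mulOp (S : Ω → F →L[ℂ] F') (hS : AEStronglyMeasurable S μ) (C : ℝ)
    (hC : ∀ᵐ t ∂μ, ‖S t‖ ≤ C) (Q : Lp F 2 μ) :
    mulOp S hS C hC Q =ᵐ[μ] fun t => S t (Q t) :=
  (memLp_op hS hC (Lp.memLp Q)).coeFn_toLp

section S
variable {z : Ω → ℂ} [FiniteDimensional ℂ F] [FiniteDimensional ℂ F'] [IsProbabilityMeasure μ]

/-- **Weighted Wold decomposition**, weight given by its square root `S`. -/
theorem woldS (hz : UZ μ z) (S : Ω → F →L[ℂ] F') (hS : AEStronglyMeasurable S μ) {c C : ℝ}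
    (hc : 0 < c) (hC : ∀ᵐ ω ∂μ, ‖S ω‖ ≤ C) (hlow : ∀ᵐ ω ∂μ, ∀ v : F, c * ‖v‖ ≤ ‖S ω v‖)
    (M : Submodule ℂ (Lp F 2 μ)) (hcl : IsClosed (M : Set (Lp F 2 μ)))
    (hinv : ∀ f ∈ M, mz hz f ∈ M)
    (hpure : ∀ f : Lp F 2 μ, (∀ k : ℕ, ∃ g ∈ M, f = (mz hz)^[k] g) → f = 0) :
    ∃ (m : ℕ) (V : Fin m → Lp F 2 μ), (∀ i, V i ∈ M) ∧
      (∀ᵐ ω ∂μ, ∀ i j, ⟪S ω (V i ω), S ω (V j ω)⟫_ℂ = if i = j then 1 else 0) ∧
      (∀ i, ∀ᵐ ω ∂μ, ‖V i ω‖ ≤ c⁻¹) ∧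
      (∀ f ∈ M, ∀ i, ∀ k : ℕ, 1 ≤ k → ∫ ω, z ω ^ k * ⟪S ω (V i ω), S ω (f ω)⟫_ℂ ∂μ = 0) ∧
      (∀ f ∈ M, ∀ᵐ ω ∂μ, f ω = ∑ i, ⟪S ω (V i ω), S ω (f ω)⟫_ℂ • V i ω) := by
  set T := mulOp S hS C hC with hT
  have hTf : ∀ f : Lp F 2 μ, ∀ᵐ ω ∂μ, T f ω = S ω (f ω) := fun f => coeFn_mulOp S hS C hC f
  -- lower bound
  have hTlow : ∀ f : Lp F 2 μ, ‖f‖ ≤ c⁻¹ * ‖T f‖ := by
    intro f
    refine Lp.norm_le_mul_norm_of_ae_le_mul ?_
    filter_upwards [hTf f, hlow] with ω h1 h2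
    rw [h1, ← div_eq_inv_mul, le_div_iff₀ hc, mul_comm]
    exact h2 _
  have hTinj : ∀ f g : Lp F 2 μ, T f = T g → f = g := by
    intro f g h
    have h1 := hTlow (f - g)
    rw [map_sub, h, sub_self, norm_zero, mul_zero] at h1
    exact sub_eq_zero.1 (norm_le_zero_iff.1 h1)
  have hcomm : ∀ f : Lp F 2 μ, T (mz hz f) = mz hz (T f) := by
    intro f
    apply Lp.ext
    filter_upwards [hTf (mz hz f), coeFn_mz hz f, coeFn_mz hz (T f), hTf f] with ω h1 h2 h3 h4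
    rw [h1, h2, h3, h4, map_smul]
  have hcommk : ∀ (k : ℕ) (f : Lp F 2 μ), T ((mz hz)^[k] f) = (mz hz)^[k] (T f) := by
    intro k
    induction k with
    | zero => intro f; rfl
    | succ k ih =>
      intro f
      rw [Function.iterate_succ_apply', hcomm, ih, Function.iterate_succ_apply']
  set N : Submodule ℂ (Lp F' 2 μ) := M.map T.toLinearMap with hN
  have hNcl : IsClosed (N : Set (Lp F' 2 μ)) := by
    have hMc : CompleteSpace M := hcl.completeSpace_coe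
    let T' : M →L[ℂ] Lp F' 2 μ := T.comp M.subtypeL
    have hal : AntilipschitzWith (Real.toNNReal c⁻¹) T' := by
      refine AddMonoidHomClass.antilipschitz_of_bound T' fun f => ?_
      rw [Real.coe_toNNReal _ (inv_nonneg.2 hc.le)]
      exact hTlow (f : Lp F 2 μ)
    have hr := hal.isClosed_range T'.uniformContinuous
    convert hr using 1
    ext f
    constructor
    · rintro ⟨g, hg, rfl⟩; exact ⟨⟨g, hg⟩, rfl⟩
    · rintro ⟨g, rfl⟩; exact ⟨g, g.2, rfl⟩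
  have hNinv : ∀ f ∈ N, mz hz f ∈ N := by
    rintro _ ⟨g, hg, rfl⟩
    exact ⟨mz hz g, hinv g hg, hcomm g⟩
  have hNpure : ∀ f : Lp F' 2 μ, (∀ k : ℕ, ∃ g ∈ N, f = (mz hz)^[k] g) → f = 0 := by
    intro f hf
    obtain ⟨_, ⟨f0, hf0, rfl⟩, h0⟩ := hf 0
    have hf0' : f = T f0 := h0
    have h1 : f0 = 0 := by
      refine hpure f0 fun k => ?_
      obtain ⟨_, ⟨g, hg, rfl⟩, hk⟩ := hf k
      refine ⟨g, hg, hTinj _ _ ?_⟩
      rw [hcommk, ← hf0', hk]; rfl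
    rw [hf0', h1, map_zero]
  obtain ⟨m, W, hWN, hWo, hWc, hWs⟩ := wold hz N hNcl hNinv hNpure
  choose V hVM hVW using hWN
  have hVae : ∀ᵐ ω ∂μ, ∀ i, W i ω = S ω (V i ω) := by
    rw [ae_all_iff]; intro i
    have h1 : W i = T (V i) := (hVW i).symm
    rw [h1]; exact hTf (V i)
  refine ⟨m, V, hVM, ?_, ?_, ?_, ?_⟩
  · filter_upwards [hWo, hVae] with ω h1 h2 i j
    rw [← h2 i, ← h2 j]; exact h1 i j
  · intro i
    filter_upwards [hWo, hVae, hlow] with ω h1 h2 h3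
    have h4 : ‖S ω (V i ω)‖ = 1 := by
      have h5 := h1 i i
      rw [if_pos rfl, h2 i] at h5
      have h6 : ‖S ω (V i ω)‖ ^ 2 = 1 := by
        rw [← inner_self_eq_norm_sq (𝕜 := ℂ), h5]; simp
      nlinarith [norm_nonneg (S ω (V i ω))]
    have h7 := h3 (V i ω)
    rw [h4, mul_comm, ← le_div_iff₀ hc, one_div] at h7
    exact h7
  · intro f hf i k hk
    have h1 := hWc (T f) ⟨f, hf, rfl⟩ i k hk
    rw [← h1]
    refine integral_congr_ae ?_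
    filter_upwards [hVae, hTf f] with ω h2 h3
    rw [h2 i, h3]
  · intro f hf
    filter_upwards [hWs (T f) ⟨f, hf, rfl⟩, hVae, hTf f, hlow] with ω h1 h2 h3 h4
    have h5 : S ω (f ω - ∑ i, ⟪S ω (V i ω), S ω (f ω)⟫_ℂ • V i ω) = 0 := by
      rw [map_sub, map_sum, sub_eq_zero]
      simp only [map_smul]
      rw [h3] at h1
      simp only [h2] at h1
      exact h1
    have h6 := h4 (f ω - ∑ i, ⟪S ω (V i ω), S ω (f ω)⟫_ℂ • V i ω)
    rw [h5, norm_zero] at h6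
    have h7 : ‖f ω - ∑ i, ⟪S ω (V i ω), S ω (f ω)⟫_ℂ • V i ω‖ ≤ 0 := by
      by_contra hne
      push Not at hne
      have := mul_pos hc hne
      linarith
    exact sub_eq_zero.1 (norm_le_zero_iff.1 h7)

end S

/-! ## weight given by a positive definite operator -/

section G
variable {z : Ω → ℂ} [FiniteDimensional ℂ F] [IsProbabilityMeasure μ]

theorem aesm_sqrt {G : Ω → F →L[ℂ] F} (hG : AEStronglyMeasurable G μ)
    (hp : ∀ᵐ ω ∂μ, (0 : F →L[ℂ] F) ≤ G ω) : AEStronglyMeasurable (fun ω => CFC.sqrt (G ω)) μ := by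
  classical
  have : CompleteSpace F := FiniteDimensional.complete ℂ F
  borelize (F →L[ℂ] F)
  have hcl : IsClosed {a : F →L[ℂ] F | 0 ≤ a} := isClosed_Ici
  have hm : Measurable (fun a : F →L[ℂ] F => if a ∈ {a : F →L[ℂ] F | 0 ≤ a} then CFC.sqrt a else 0) := by
    refine ContinuousOn.measurable_piecewise (f := CFC.sqrt) (g := fun _ => (0 : F →L[ℂ] F)) ?_
      continuousOn_const hcl.measurableSet
    exact CFC.continuousOn_sqrt
  have h1 : AEMeasurable (fun ω => (fun a : F →L[ℂ] F =>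
      if a ∈ {a : F →L[ℂ] F | 0 ≤ a} then CFC.sqrt a else 0) (G ω)) μ :=
    hm.comp_aemeasurable hG.aemeasurable
  refine (h1.aestronglyMeasurable).congr ?_
  filter_upwards [hp] with ω hω
  exact if_pos hω

/-- **Weighted Wold decomposition**, positive definite weight `G`. -/
theorem woldG (hz : UZ μ z) (G : Ω → F →L[ℂ] F) (hG : AEStronglyMeasurable G μ) {c C : ℝ}
    (hc : 0 < c) (hC : ∀ᵐ ω ∂μ, ‖G ω‖ ≤ C) (hsa : ∀ᵐ ω ∂μ, ∀ v w : F, ⟪G ω v, w⟫_ℂ = ⟪v, G ω w⟫_ℂ)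
    (hlow : ∀ᵐ ω ∂μ, ∀ v : F, c * ‖v‖ ^ 2 ≤ (⟪v, G ω v⟫_ℂ).re)
    (M : Submodule ℂ (Lp F 2 μ)) (hcl : IsClosed (M : Set (Lp F 2 μ)))
    (hinv : ∀ f ∈ M, mz hz f ∈ M)
    (hpure : ∀ f : Lp F 2 μ, (∀ k : ℕ, ∃ g ∈ M, f = (mz hz)^[k] g) → f = 0) :
    ∃ (m : ℕ) (V : Fin m → Lp F 2 μ), (∀ i, V i ∈ M) ∧
      (∀ᵐ ω ∂μ, ∀ i j, ⟪V i ω, G ω (V j ω)⟫_ℂ = if i = j then 1 else 0) ∧
      (∀ i, ∀ᵐ ω ∂μ, ‖V i ω‖ ^ 2 ≤ c⁻¹) ∧
      (∀ f ∈ M, ∀ i, ∀ k : ℕ, 1 ≤ k → ∫ ω, z ω ^ k * ⟪V i ω, G ω (f ω)⟫_ℂ ∂μ = 0) ∧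
      (∀ f ∈ M, ∀ᵐ ω ∂μ, f ω = ∑ i, ⟪V i ω, G ω (f ω)⟫_ℂ • V i ω) := by
  have : CompleteSpace F := FiniteDimensional.complete ℂ F
  have hpos : ∀ᵐ ω ∂μ, (0 : F →L[ℂ] F) ≤ G ω := by
    filter_upwards [hsa, hlow] with ω h1 h2
    rw [ContinuousLinearMap.nonneg_iff_isPositive, ContinuousLinearMap.isPositive_iff_complex]
    intro v
    have h3 : (⟪G ω v, v⟫_ℂ).im = 0 := by
      have h4 : (starRingEnd ℂ) ⟪G ω v, v⟫_ℂ = ⟪G ω v, v⟫_ℂ := by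
        rw [inner_conj_symm, ← h1]
      exact Complex.conj_eq_iff_im.1 h4
    have h5 : 0 ≤ (⟪G ω v, v⟫_ℂ).re := by
      rw [h1]
      exact (mul_nonneg hc.le (sq_nonneg _)).trans (h2 v)
    refine ⟨?_, ?_⟩
    · apply Complex.ext
      · simp
      · simp [h3]
    · simpa using h5
  set S : Ω → F →L[ℂ] F := fun ω => CFC.sqrt (G ω) with hSdef
  have hSm : AEStronglyMeasurable S μ := aesm_sqrt hG hpos
  have hSsa : ∀ ω, ∀ v w : F, ⟪S ω v, w⟫_ℂ = ⟪v, S ω w⟫_ℂ := by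
    intro ω v w
    have h1 : (0 : F →L[ℂ] F) ≤ S ω := CFC.sqrt_nonneg _
    rw [ContinuousLinearMap.nonneg_iff_isPositive] at h1
    exact h1.isSymmetric v w
  have hSS : ∀ᵐ ω ∂μ, ∀ v w : F, ⟪S ω v, S ω w⟫_ℂ = ⟪v, G ω w⟫_ℂ := by
    filter_upwards [hpos] with ω h1 v w
    rw [hSsa]
    have h2 : S ω * S ω = G ω := CFC.sqrt_mul_sqrt_self (G ω) h1
    rw [← h2]; rfl
  have hSn : ∀ᵐ ω ∂μ, ∀ v : F, ‖S ω v‖ ^ 2 = (⟪v, G ω v⟫_ℂ).re := by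
    filter_upwards [hSS] with ω h v
    rw [← h v v, ← inner_self_eq_norm_sq (𝕜 := ℂ)]
    rfl
  have hSC : ∀ᵐ ω ∂μ, ‖S ω‖ ≤ Real.sqrt C := by
    filter_upwards [hSn, hC] with ω h1 h2
    have hC0 : 0 ≤ C := (norm_nonneg _).trans h2
    refine ContinuousLinearMap.opNorm_le_bound _ (Real.sqrt_nonneg _) fun v => ?_
    refine abs_le_of_sq_le_sq' ?_ (by positivity) |>.2
    rw [mul_pow, Real.sq_sqrt hC0, h1]
    calc (⟪v, G ω v⟫_ℂ).re ≤ ‖⟪v, G ω v⟫_ℂ‖ := Complex.re_le_norm _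
      _ ≤ ‖v‖ * ‖G ω v‖ := norm_inner_le_norm _ _
      _ ≤ ‖v‖ * (C * ‖v‖) := by
          gcongr; exact (G ω).le_of_opNorm_le h2 v
      _ = C * ‖v‖ ^ 2 := by ring
  have hSlow : ∀ᵐ ω ∂μ, ∀ v : F, Real.sqrt c * ‖v‖ ≤ ‖S ω v‖ := by
    filter_upwards [hSn, hlow] with ω h1 h2 v
    refine abs_le_of_sq_le_sq' ?_ (norm_nonneg _) |>.2
    rw [mul_pow, Real.sq_sqrt hc.le, h1]
    exact h2 v
  obtain ⟨m, V, h1, h2, h3, h4, h5⟩ := woldS hz S hSm (Real.sqrt_pos.2 hc) hSC hSlow M hcl hinv hpure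
  refine ⟨m, V, h1, ?_, ?_, ?_, ?_⟩
  · filter_upwards [h2, hSS] with ω h6 h7 i j
    rw [← h7]; exact h6 i j
  · intro i
    filter_upwards [h3 i] with ω h6
    have h7 : (Real.sqrt c)⁻¹ ^ 2 = c⁻¹ := by rw [inv_pow, Real.sq_sqrt hc.le]
    rw [← h7]
    gcongr
  · intro f hf i k hk
    rw [← h4 f hf i k hk]
    refine integral_congr_ae ?_
    filter_upwards [hSS] with ω h7
    rw [h7]
  · intro f hf
    filter_upwards [h5 f hf, hSS] with ω h6 h7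
    simp only [h7] at h6
    exact h6

end G

end Crest.Agent.R269.WoldW_248
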