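import Mathlib
import Crest.Agent.R269.Wold_290
import Crest.Agent.R269.Hardy_142
import Crest.Agent.R269.WoldW_248

/-!
# R269 (helper248), leaf B2: weighted Wold decomposition on the circle

* `isH2_smul` : product of an `H²` function with a bounded `H²` function;
* `wold_weighted` : closed `z`-invariant submodule of `H²`, positive definite weight `G`.
-/

set_option autoImplicit false
set_option linter.unusedSectionVars false

open MeasureTheory Filter Topology
open scoped ComplexConjugate InnerProductSpace ENNReal NNReal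

noncomputable section

namespace Crest.Agent.R269.WoldW_248

open Crest.Agent.R269.Wold290

variable {F : Type*} [NormedAddCommGroup F] [InnerProductSpace ℂ F]

/-! ## the circle -/

section circle
open Crest.Agent.R269.Hardy_142 AddCircle
variable [FiniteDimensional ℂ F]

theorem zt_eq_fourier : (fun t : TT => (fourier 1 t : ℂ)) = zt := by
  funext t
  have := fourier_nat 1 t
  simpa using this

theorem uz : UZ mu zt := zt_eq_fourier ▸ uz_addCircle

theorem fourierCoeff_zt_smul (Q : TT → F) (n : ℤ) :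
    fourierCoeff (fun t => zt t • Q t) n = fourierCoeff Q (n - 1) := by
  unfold fourierCoeff
  refine integral_congr_ae (Eventually.of_forall fun t => ?_)
  simp only [smul_smul]
  congr 1
  rw [← zt_eq_fourier, ← fourier_add]
  congr 2; ring

theorem fourierCoeff_zt_pow_smul (k : ℕ) (Q : TT → F) (n : ℤ) :
    fourierCoeff (fun t => zt t ^ k • Q t) n = fourierCoeff Q (n - k) := by
  induction k generalizing n with
  | zero => simp
  | succ k ih =>
    have h : (fun t : TT => zt t ^ (k + 1) • Q t) = fun t => zt t • (zt t ^ k • Q t) := by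
      funext t; rw [smul_smul, pow_succ']
    rw [h, fourierCoeff_zt_smul (F := F) (fun t => zt t ^ k • Q t), ih]
    congr 1; push_cast; ring

theorem isH2_zt_pow_smul {Q : TT → F} (hQ : IsH2 Q) (k : ℕ) : IsH2 (fun t => zt t ^ k • Q t) := by
  refine ⟨?_, fun n hn => ?_⟩
  · refine MemLp.of_le hQ.memLp (((continuous_zt.pow k).aestronglyMeasurable).smul hQ.memLp.1) ?_
    refine Eventually.of_forall fun t => ?_
    rw [norm_smul, norm_pow, norm_zt, one_pow, one_mul]
  · rw [fourierCoeff_zt_pow_smul]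
    exact hQ.coeff _ (by have := Int.natCast_nonneg k; omega)

theorem ext_zt_smul {Q : TT → F} (hQ : IsH2 Q) {w : ℂ} (hw : ‖w‖ < 1) :
    ext (fun t => zt t • Q t) w = w • ext Q w := by
  have : CompleteSpace F := FiniteDimensional.complete ℂ F
  have h1 : IsH2 (fun t => zt t • Q t) := by
    have := isH2_zt_pow_smul hQ 1
    simpa using this
  have h2 := hasSum_ext h1.integrable hw
  have h3 := (hasSum_ext hQ.integrable hw).const_smul w
  have h4 : HasSum (fun k : ℕ => w ^ (k + 1) • fourierCoeff (fun t => zt t • Q t) ((k + 1 : ℕ) : ℤ))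
      (w • ext Q w) := by
    convert h3 using 1
    funext k
    rw [fourierCoeff_zt_smul, smul_smul, pow_succ']
    congr 2; push_cast; ring
  have h5 := (hasSum_nat_add_iff
    (f := fun k : ℕ => w ^ k • fourierCoeff (fun t => zt t • Q t) (k : ℤ)) 1).1 h4
  simp only [Finset.range_one, Finset.sum_singleton, pow_zero, one_smul] at h5
  have h6 : fourierCoeff (fun t => zt t • Q t) ((0 : ℕ) : ℤ) = 0 := by
    rw [fourierCoeff_zt_smul]; exact hQ.coeff _ (by simp)
  rw [h6, add_zero] at h5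
  exact h2.unique h5

theorem ext_zt_pow_smul {Q : TT → F} (hQ : IsH2 Q) (k : ℕ) {w : ℂ} (hw : ‖w‖ < 1) :
    ext (fun t => zt t ^ k • Q t) w = w ^ k • ext Q w := by
  induction k with
  | zero => simp
  | succ k ih =>
    have h : (fun t : TT => zt t ^ (k + 1) • Q t) = fun t => zt t • (zt t ^ k • Q t) := by
      funext t; rw [smul_smul, pow_succ']
    rw [h, ext_zt_smul (isH2_zt_pow_smul hQ k) hw, ih, smul_smul, pow_succ']

/-- `ext` as a continuous linear map on `L²` -/
def extL (w : ℂ) (hw : ‖w‖ < 1) : Lp F 2 mu →L[ℂ] F :=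
  LinearMap.mkContinuous
    { toFun := fun Q => ext Q w
      map_add' := fun P Q => by
        rw [← ext_add ((Lp.memLp P).integrable (by norm_num)) ((Lp.memLp Q).integrable (by norm_num)) hw]
        exact congrFun (ext_congr (Lp.coeFn_add P Q)) w
      map_smul' := fun c Q => by
        rw [RingHom.id_apply, ← ext_const_smul]
        exact congrFun (ext_congr (Lp.coeFn_smul c Q)) w } ((1 - ‖w‖)⁻¹) fun Q => by
    show ‖ext Q w‖ ≤ _
    refine (norm_ext_le ((Lp.memLp Q).integrable (by norm_num)) hw).trans ?_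
    have h0 : 0 ≤ (1 - ‖w‖)⁻¹ := inv_nonneg.2 (by linarith)
    refine mul_le_mul_of_nonneg_left ?_ h0
    have h3 : eLpNorm Q 1 mu ≤ eLpNorm Q 2 mu :=
      eLpNorm_le_eLpNorm_of_exponent_le (by norm_num) (Lp.memLp Q).1
    rw [Lp.norm_def]
    have h5 : ∫ t, ‖Q t‖ ∂mu = (eLpNorm Q 1 mu).toReal := by
      rw [eLpNorm_one_eq_lintegral_enorm, integral_norm_eq_lintegral_enorm (Lp.memLp Q).1]
    rw [h5]
    exact ENNReal.toReal_mono (Lp.memLp Q).2.ne h3

@[simp] theorem extL_apply (w : ℂ) (hw : ‖w‖ < 1) (Q : Lp F 2 mu) : extL w hw Q = ext Q w := rfl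

/-- Fourier coefficient as a continuous linear map on `L²` -/
def coeffL (n : ℤ) : Lp F 2 mu →L[ℂ] F :=
  LinearMap.mkContinuous
    { toFun := fun Q => fourierCoeff Q n
      map_add' := fun P Q => by
        have hP : Integrable (fun t => fourier (-n) t • P t) mu :=
          ((Lp.memLp P).integrable (by norm_num)).bdd_smul 1
            (map_continuous (fourier (-n))).aestronglyMeasurable
            (Eventually.of_forall fun t => by rw [fourier_apply]; exact (Circle.norm_coe _).le)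
        have hQ : Integrable (fun t => fourier (-n) t • Q t) mu :=
          ((Lp.memLp Q).integrable (by norm_num)).bdd_smul 1
            (map_continuous (fourier (-n))).aestronglyMeasurable
            (Eventually.of_forall fun t => by rw [fourier_apply]; exact (Circle.norm_coe _).le)
        rw [fourierCoeff_congr_ae (Lp.coeFn_add P Q)]
        unfold fourierCoeff
        rw [← integral_add hP hQ]
        simp only [Pi.add_apply, smul_add]
      map_smul' := fun c Q => by
        rw [RingHom.id_apply, fourierCoeff_congr_ae (Lp.coeFn_smul c Q)]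
        unfold fourierCoeff
        rw [← integral_smul]
        simp only [Pi.smul_apply, smul_comm c] } 1 fun Q => by
    show ‖fourierCoeff Q n‖ ≤ _
    rw [one_mul]
    refine (norm_fourierCoeff_le Q n).trans ?_
    have h3 : eLpNorm Q 1 mu ≤ eLpNorm Q 2 mu :=
      eLpNorm_le_eLpNorm_of_exponent_le (by norm_num) (Lp.memLp Q).1
    rw [Lp.norm_def]
    have h5 : ∫ t, ‖Q t‖ ∂mu = (eLpNorm Q 1 mu).toReal := by
      rw [eLpNorm_one_eq_lintegral_enorm, integral_norm_eq_lintegral_enorm (Lp.memLp Q).1]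
    rw [h5]
    exact ENNReal.toReal_mono (Lp.memLp Q).2.ne h3

@[simp] theorem coeffL_apply (n : ℤ) (Q : Lp F 2 mu) : coeffL n Q = fourierCoeff Q n := rfl

/-- a continuous linear map on `L²(ℂ)` which kills the nonnegative characters kills `H²` -/
theorem clm_eq_zero {G : Type*} [NormedAddCommGroup G] [NormedSpace ℂ G] (Φ : Lp ℂ 2 mu →L[ℂ] G)
    (hΦ : ∀ k : ℕ, Φ (fourierLp 2 (k : ℤ)) = 0) {q : TT → ℂ} (hq : IsH2 q) :
    Φ (hq.memLp.toLp q) = 0 := by
  have h := (hasSum_fourier_series_L2 (T := 2 * Real.pi) (hq.memLp.toLp q)).mapL Φ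
  refine h.unique ?_
  convert hasSum_zero using 1
  funext n
  rw [map_smul]
  rcases lt_or_ge n 0 with hn | hn
  · have h1 : fourierCoeff (hq.memLp.toLp q) n = 0 := by
      rw [fourierCoeff_congr_ae hq.memLp.coeFn_toLp]; exact hq.coeff n hn
    rw [h1, zero_smul]
  · obtain ⟨k, rfl⟩ := Int.eq_ofNat_of_zero_le hn
    rw [hΦ k, smul_zero]

/-- product of an `H²` function with a bounded `H²` function -/
theorem isH2_smul {q : TT → ℂ} {v : TT → F} (hq : IsH2 q) (hv : IsH2 v) {B : ℝ}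
    (hB : ∀ᵐ t ∂mu, ‖v t‖ ≤ B) :
    IsH2 (fun t => q t • v t) ∧ ∀ w : ℂ, ‖w‖ < 1 → ext (fun t => q t • v t) w = ext q w • ext v w := by
  have : CompleteSpace F := FiniteDimensional.complete ℂ F
  set S : TT → ℂ →L[ℂ] F := fun t => (ContinuousLinearMap.id ℂ ℂ).smulRight (v t) with hS
  have hSm : AEStronglyMeasurable S mu :=
    (ContinuousLinearMap.smulRightL ℂ ℂ F (ContinuousLinearMap.id ℂ ℂ)).continuous.comp_aestronglyMeasurable
      hv.memLp.1
  have hSB : ∀ᵐ t ∂mu, ‖S t‖ ≤ B := by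
    filter_upwards [hB] with t ht
    rw [hS, ContinuousLinearMap.norm_smulRight_apply, ContinuousLinearMap.norm_id, one_mul]
    exact ht
  set T := mulOp S hSm B hSB with hT
  have hTq : ∀ {p : TT → ℂ} (hp : MemLp p 2 mu), T (hp.toLp p) =ᵐ[mu] fun t => p t • v t := by
    intro p hp
    filter_upwards [coeFn_mulOp S hSm B hSB (hp.toLp p), hp.coeFn_toLp] with t h1 h2
    rw [hT, h1, h2]; simp [hS]
  have hTf : ∀ k : ℕ, T (fourierLp 2 (k : ℤ)) =ᵐ[mu] fun t => zt t ^ k • v t := by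
    intro k
    filter_upwards [coeFn_mulOp S hSm B hSB (fourierLp 2 (k : ℤ)),
      coeFn_fourierLp (T := 2 * Real.pi) 2 (k : ℤ)] with t h1 h2
    rw [hT, h1, h2, fourier_nat]; simp [hS]
  refine ⟨⟨(Lp.memLp (T (hq.memLp.toLp q))).ae_eq (hTq hq.memLp), fun n hn => ?_⟩, fun w hw => ?_⟩
  · have h1 := clm_eq_zero ((coeffL n).comp T) (fun k => by
      show coeffL n (T (fourierLp 2 (k : ℤ))) = 0
      rw [coeffL_apply, fourierCoeff_congr_ae (hTf k), fourierCoeff_zt_pow_smul]
      exact hv.coeff _ (by have := Int.natCast_nonneg k; omega)) hq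
    have h2 : coeffL n (T (hq.memLp.toLp q)) = 0 := h1
    rw [coeffL_apply, fourierCoeff_congr_ae (hTq hq.memLp)] at h2
    exact h2
  · have h1 := clm_eq_zero ((extL w hw).comp T -
        (ContinuousLinearMap.toSpanSingleton ℂ (ext v w)).comp (extL (F := ℂ) w hw)) (fun k => by
      have e1 : extL w hw (T (fourierLp 2 (k : ℤ))) = w ^ k • ext v w := by
        rw [extL_apply, congrFun (ext_congr (hTf k)) w, ext_zt_pow_smul hv k hw]
      have e2 : extL (F := ℂ) w hw (fourierLp 2 (k : ℤ)) = w ^ k := by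
        have h3 : (fourierLp 2 (k : ℤ) : Lp ℂ 2 mu) =ᵐ[mu] fun t => zt t ^ k • (1:ℂ) := by
          filter_upwards [coeFn_fourierLp (T := 2 * Real.pi) 2 (k : ℤ)] with t h4
          rw [h4, fourier_nat]; simp
        have hone : (fun _ : TT => (1:ℂ)) = fourier 0 := by funext t; simp
        have h5 : IsH2 (fun _ : TT => (1:ℂ)) := by
          refine ⟨memLp_const 1, fun n hn => ?_⟩
          have h6 := congrFun (fourierCoeff_fourier (T := 2 * Real.pi) 0) n
          rw [Pi.single_eq_of_ne hn.ne] at h6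
          rw [hone]; exact h6
        have h7 : ext (fun _ : TT => (1:ℂ)) w = 1 := by
          have h8 := hasSum_ext h5.integrable hw
          have h9 : HasSum (fun k : ℕ => w ^ k • fourierCoeff (fun _ : TT => (1:ℂ)) (k : ℤ)) 1 := by
            convert hasSum_ite_eq (0 : ℕ) (1 : ℂ) using 1
            funext j
            have h10 := congrFun (fourierCoeff_fourier (T := 2 * Real.pi) 0) (j : ℤ)
            rw [hone, h10]
            by_cases hj : j = 0
            · subst hj; simp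
            · rw [Pi.single_eq_of_ne (by exact_mod_cast hj), smul_zero, if_neg hj]
          exact h8.unique h9
        rw [extL_apply, congrFun (ext_congr h3) w, ext_zt_pow_smul h5 k hw, h7]; simp
      show extL w hw (T (fourierLp 2 (k : ℤ))) -
        ContinuousLinearMap.toSpanSingleton ℂ (ext v w) (extL (F := ℂ) w hw (fourierLp 2 (k : ℤ))) = 0
      rw [e1, e2]; simp) hq
    have h2 : ext (T (hq.memLp.toLp q)) w - ext (hq.memLp.toLp q) w • ext v w = 0 := h1
    rw [congrFun (ext_congr (hTq hq.memLp)) w, congrFun (ext_congr hq.memLp.coeFn_toLp) w] at h2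
    exact sub_eq_zero.1 h2

/-- **Weighted Wold decomposition on the circle**: `M` a closed `z`-invariant subspace of `H²(F)`. -/
theorem wold_weighted (G : TT → F →L[ℂ] F) (hG : AEStronglyMeasurable G mu) {c C : ℝ}
    (hc : 0 < c) (hC : ∀ᵐ t ∂mu, ‖G t‖ ≤ C) (hsa : ∀ᵐ t ∂mu, ∀ v w : F, ⟪G t v, w⟫_ℂ = ⟪v, G t w⟫_ℂ)
    (hlow : ∀ᵐ t ∂mu, ∀ v : F, c * ‖v‖ ^ 2 ≤ (⟪v, G t v⟫_ℂ).re)
    (M : Submodule ℂ (Lp F 2 mu)) (hcl : IsClosed (M : Set (Lp F 2 mu)))
    (hH : ∀ f ∈ M, IsH2 f) (hinv : ∀ f ∈ M, mz uz f ∈ M) :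
    ∃ (m : ℕ) (V : Fin m → Lp F 2 mu), (∀ i, V i ∈ M) ∧
      (∀ᵐ t ∂mu, ∀ i j, ⟪V i t, G t (V j t)⟫_ℂ = if i = j then 1 else 0) ∧
      (∀ i, ∀ᵐ t ∂mu, ‖V i t‖ ^ 2 ≤ c⁻¹) ∧
      (∀ f ∈ M, (∀ i, IsH2 fun t => ⟪V i t, G t (f t)⟫_ℂ) ∧
        (∀ᵐ t ∂mu, f t = ∑ i, ⟪V i t, G t (f t)⟫_ℂ • V i t) ∧
        (∀ᵐ t ∂mu, ∑ i, ‖⟪V i t, G t (f t)⟫_ℂ‖ ^ 2 = (⟪f t, G t (f t)⟫_ℂ).re) ∧
        ∀ w : ℂ, ‖w‖ < 1 → ext f w = ∑ i, ext (fun t => ⟪V i t, G t (f t)⟫_ℂ) w • ext (V i) w) := by
  have hcs : CompleteSpace F := FiniteDimensional.complete ℂ F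
  have hpure : ∀ f : Lp F 2 mu, (∀ k : ℕ, ∃ g ∈ M, f = (mz uz)^[k] g) → f = 0 := by
    intro f hf
    have h0 : ∀ n : ℤ, fourierCoeff f n = 0 := by
      intro n
      obtain ⟨g, hg, hfg⟩ := hf (n.toNat + 1)
      have h1 : (f : TT → F) =ᵐ[mu] fun t => zt t ^ (n.toNat + 1) • g t := by
        rw [hfg]; exact coeFn_mzk uz g _
      rw [fourierCoeff_congr_ae h1, fourierCoeff_zt_pow_smul]
      exact (hH g hg).coeff _ (by push_cast; have := Int.self_le_toNat n; omega)
    have h2 : (f : TT → F) =ᵐ[mu] (0 : Lp F 2 mu) := by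
      refine ae_eq_of_coeff (Lp.memLp f) (Lp.memLp _) fun n => ?_
      rw [h0, fourierCoeff_congr_ae (Lp.coeFn_zero F 2 mu)]
      unfold fourierCoeff; simp
    exact Lp.ext h2
  obtain ⟨m, V, h1, h2, h3, h4, h5⟩ := woldG uz G hG hc hC hsa hlow M hcl hinv hpure
  have hVb : ∀ i, ∀ᵐ t ∂mu, ‖V i t‖ ≤ Real.sqrt c⁻¹ := by
    intro i
    filter_upwards [h3 i] with t ht
    exact Real.le_sqrt_of_sq_le ht
  have hq : ∀ f ∈ M, ∀ i, IsH2 fun t => ⟪V i t, G t (f t)⟫_ℂ := by
    intro f hf i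
    have hGf : MemLp (fun t => G t (f t)) 2 mu := memLp_op hG hC (Lp.memLp f)
    refine ⟨?_, fun n hn => ?_⟩
    · refine MemLp.of_le_mul (c := Real.sqrt c⁻¹) hGf ((Lp.memLp (V i)).1.inner hGf.1) ?_
      filter_upwards [hVb i] with t ht
      exact (norm_inner_le_norm _ _).trans (mul_le_mul_of_nonneg_right ht (norm_nonneg _))
    · obtain ⟨k, rfl⟩ : ∃ k : ℕ, n = -(k : ℤ) := ⟨n.natAbs, by omega⟩
      have h6 := h4 f hf i k (by omega)
      unfold fourierCoeff
      rw [← h6]
      refine integral_congr_ae (Eventually.of_forall fun t => ?_)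
      simp only [neg_neg, fourier_nat, smul_eq_mul]
  refine ⟨m, V, h1, h2, h3, fun f hf => ⟨hq f hf, h5 f hf, ?_, fun w hw => ?_⟩⟩
  · filter_upwards [h5 f hf, h2, hsa] with t h6 h7 h8
    set q : Fin m → ℂ := fun i => ⟪V i t, G t (f t)⟫_ℂ with hqdef
    have h9 : ⟪f t, G t (f t)⟫_ℂ = ∑ i, (starRingEnd ℂ) (q i) * q i := by
      conv_lhs => rw [h6]
      rw [sum_inner]
      refine Finset.sum_congr rfl fun i _ => ?_
      rw [inner_smul_left]
      congr 1
      rw [← h6]
    rw [h9, Complex.re_sum]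
    refine Finset.sum_congr rfl fun i _ => ?_
    have h10 : ((starRingEnd ℂ) (q i) * q i).re = ‖q i‖ ^ 2 := by
      rw [← Complex.normSq_eq_conj_mul_self, Complex.ofReal_re, Complex.normSq_eq_norm_sq]
    exact h10.symm
  · have h6 : (f : TT → F) =ᵐ[mu] fun t => ∑ i, ⟪V i t, G t (f t)⟫_ℂ • V i t := h5 f hf
    rw [congrFun (ext_congr h6) w]
    have h7 : ∀ i, IsH2 (fun t => ⟪V i t, G t (f t)⟫_ℂ • V i t) ∧ ∀ w : ℂ, ‖w‖ < 1 →
        ext (fun t => ⟪V i t, G t (f t)⟫_ℂ • V i t) w = ext (fun t => ⟪V i t, G t (f t)⟫_ℂ) w • ext (V i) w :=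
      fun i => isH2_smul (hq f hf i) (hH _ (h1 i)) (hVb i)
    have h8 : ext (fun t => ∑ i, ⟪V i t, G t (f t)⟫_ℂ • V i t) w
        = ∑ i, ext (fun t => ⟪V i t, G t (f t)⟫_ℂ • V i t) w := by
      unfold ext
      rw [← integral_finsetSum _ fun i _ => integrable_kernel_smul (h7 i).1.integrable hw]
      simp only [Finset.smul_sum]
    rw [h8]
    exact Finset.sum_congr rfl fun i _ => (h7 i).2 w hw

end circle

end Crest.Agent.R269.WoldW_248
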