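import Mathlib
import Crest.Agent.R269.WoldC_248

/-!
# R269 (helper248), leaf B2: dimension of the wandering frame

* `card_le` : `G`-orthonormal vectors in a subspace of dimension `≤ n`;
* `finrank_ext_le` : values of elements of `M` at an interior point span at most `m` dimensions;
* `linearIndependent_ext` : if they span `m` dimensions, the frame is independent at that point.
* `isClosed_fib` : `L²` functions with values in `E t` a.e. form a closed submodule.
* `H2sub` : the closed submodule of `L²` functions that are `H²`.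
-/

set_option autoImplicit false
set_option linter.unusedSectionVars false

open MeasureTheory Filter Topology
open scoped ComplexConjugate InnerProductSpace ENNReal NNReal

noncomputable section

namespace Crest.Agent.R269.WoldW_248

open Crest.Agent.R269.Wold290

section fib
variable {Ω : Type*} [MeasurableSpace Ω] {μ : Measure Ω}
variable {F : Type*} [NormedAddCommGroup F] [InnerProductSpace ℂ F]

/-- functions with values in `E t` a.e. -/
def fib (E : Ω → Submodule ℂ F) : Submodule ℂ (Lp F 2 μ) where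
  carrier := {Q | ∀ᵐ t ∂μ, Q t ∈ E t}
  add_mem' := fun {P Q} hP hQ => by
    have h : ∀ᵐ t ∂μ, (P + Q : Lp F 2 μ) t ∈ E t := by
      filter_upwards [Lp.coeFn_add P Q, hP, hQ] with t h h1 h2
      rw [h]; exact (E t).add_mem h1 h2
    exact h
  zero_mem' := by
    have h : ∀ᵐ t ∂μ, (0 : Lp F 2 μ) t ∈ E t := by
      filter_upwards [Lp.coeFn_zero F 2 μ] with t h
      rw [h]; exact (E t).zero_mem
    exact h
  smul_mem' := fun c Q hQ => by
    have h : ∀ᵐ t ∂μ, (c • Q : Lp F 2 μ) t ∈ E t := by
      filter_upwards [Lp.coeFn_smul c Q, hQ] with t h h1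
      rw [h]; exact (E t).smul_mem _ h1
    exact h

theorem mem_fib {E : Ω → Submodule ℂ F} {Q : Lp F 2 μ} :
    Q ∈ fib (μ := μ) E ↔ ∀ᵐ t ∂μ, Q t ∈ E t := Iff.rfl

theorem exists_ae_subseq {u : ℕ → Lp F 2 μ} {Q : Lp F 2 μ} (h : Tendsto u atTop (𝓝 Q)) :
    ∃ φ : ℕ → ℕ, StrictMono φ ∧ ∀ᵐ t ∂μ, Tendsto (fun n => u (φ n) t) atTop (𝓝 (Q t)) :=
  (tendstoInMeasure_of_tendsto_Lp h).exists_seq_tendsto_ae

theorem isClosed_fib [FiniteDimensional ℂ F] (E : Ω → Submodule ℂ F) :
    IsClosed (fib (μ := μ) E : Set (Lp F 2 μ)) := by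
  refine isClosed_of_closure_subset fun Q hQ => ?_
  obtain ⟨u, hu, hlim⟩ := mem_closure_iff_seq_limit.1 hQ
  obtain ⟨φ, -, hφ⟩ := exists_ae_subseq hlim
  have h1 : ∀ᵐ t ∂μ, ∀ n, u n t ∈ E t := ae_all_iff.2 fun n => hu n
  have h4 : ∀ᵐ t ∂μ, Q t ∈ E t := by
    filter_upwards [hφ, h1] with t h2 h3
    exact (Submodule.closed_of_finiteDimensional (E t)).mem_of_tendsto h2
      (Eventually.of_forall fun n => h3 _)
  exact h4

end fib

section lin
variable {F : Type*} [NormedAddCommGroup F] [InnerProductSpace ℂ F]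

/-- `G`-orthonormal vectors are linearly independent -/
theorem linearIndependent_of_orth {m : ℕ} (G : F →L[ℂ] F) (v : Fin m → F)
    (h : ∀ i j, ⟪v i, G (v j)⟫_ℂ = if i = j then 1 else 0) : LinearIndependent ℂ v := by
  rw [Fintype.linearIndependent_iff]
  intro g hg i
  have h1 : ⟪v i, G (∑ j, g j • v j)⟫_ℂ = g i := by
    rw [map_sum, inner_sum]
    simp only [map_smul, inner_smul_right, h]
    simp
  rw [hg, map_zero, inner_zero_right] at h1
  exact h1.symm

theorem card_le [FiniteDimensional ℂ F] {m n : ℕ} (G : F →L[ℂ] F) (v : Fin m → F)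
    (h : ∀ i j, ⟪v i, G (v j)⟫_ℂ = if i = j then 1 else 0) (E : Submodule ℂ F)
    (hE : ∀ i, v i ∈ E) (hn : Module.finrank ℂ E ≤ n) : m ≤ n := by
  have h1 := linearIndependent_of_orth G v h
  have h2 : LinearIndependent ℂ (fun i => (⟨v i, hE i⟩ : E)) := by
    refine LinearIndependent.of_comp E.subtype ?_
    exact h1
  have h3 := h2.fintype_card_le_finrank
  rw [Fintype.card_fin] at h3
  exact h3.trans hn

end lin

section circle
open Crest.Agent.R269.Hardy_142 AddCircle
variable {F : Type*} [NormedAddCommGroup F] [InnerProductSpace ℂ F] [FiniteDimensional ℂ F]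

/-- the number of frame vectors is at most the fibre dimension -/
theorem wold_card_le {m n : ℕ} {G : TT → F →L[ℂ] F} {V : Fin m → Lp F 2 mu}
    (hV : ∀ᵐ t ∂mu, ∀ i j, ⟪V i t, G t (V j t)⟫_ℂ = if i = j then 1 else 0)
    {E : TT → Submodule ℂ F} (hE : ∀ i, ∀ᵐ t ∂mu, V i t ∈ E t)
    (hn : ∀ᵐ t ∂mu, Module.finrank ℂ (E t) ≤ n) : m ≤ n := by
  obtain ⟨t, h1, h2, h3⟩ := (hV.and ((ae_all_iff.2 hE).and hn)).exists
  exact card_le (G t) (fun i => V i t) h1 (E t) h2 h3

/-- the values at an interior point of elements of `M` lie in the span of the frame -/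
theorem wold_ext_mem {m : ℕ} {V : Fin m → Lp F 2 mu} {f : Lp F 2 mu} {w : ℂ} {q : Fin m → TT → ℂ}
    (h : ext f w = ∑ i, ext (q i) w • ext (V i) w) :
    ext f w ∈ Submodule.span ℂ (Set.range fun i => ext (V i) w) := by
  rw [h]
  exact Submodule.sum_mem _ fun i _ => Submodule.smul_mem _ _ (Submodule.subset_span ⟨i, rfl⟩)

/-- a subspace contained in the span of `m` vectors has dimension at most `m` -/
theorem finrank_le_of_le_span {m : ℕ} (v : Fin m → F) (E : Submodule ℂ F)
    (hE : E ≤ Submodule.span ℂ (Set.range v)) : Module.finrank ℂ E ≤ m := by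
  refine (Submodule.finrank_mono hE).trans ?_
  have := finrank_range_le_card (R := ℂ) v
  rw [Fintype.card_fin] at this
  exact this

/-- if a subspace of dimension `≥ m` is contained in the span of `m` vectors, they are independent -/
theorem linearIndependent_of_span {m : ℕ} (v : Fin m → F) (E : Submodule ℂ F)
    (hE : E ≤ Submodule.span ℂ (Set.range v)) (hm : m ≤ Module.finrank ℂ E) :
    LinearIndependent ℂ v := by
  rw [linearIndependent_iff_card_le_finrank_span, Fintype.card_fin]
  exact hm.trans (Submodule.finrank_mono hE)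

/-- the Hardy space as a submodule of `L²` -/
def H2sub : Submodule ℂ (Lp F 2 mu) where
  carrier := {Q | ∀ n : ℤ, n < 0 → coeffL n Q = 0}
  add_mem' := fun {P Q} hP hQ n hn => by rw [map_add, hP n hn, hQ n hn, add_zero]
  zero_mem' := fun n _ => map_zero _
  smul_mem' := fun c Q hQ n hn => by rw [map_smul, hQ n hn, smul_zero]

theorem mem_H2sub {Q : Lp F 2 mu} : Q ∈ H2sub (F := F) ↔ IsH2 Q :=
  ⟨fun h => ⟨Lp.memLp Q, fun n hn => h n hn⟩, fun h n hn => h.coeff n hn⟩

theorem isClosed_H2sub : IsClosed (H2sub (F := F) : Set (Lp F 2 mu)) := by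
  have h : (H2sub (F := F) : Set (Lp F 2 mu)) = ⋂ (n : ℤ) (_ : n < 0), (coeffL n) ⁻¹' {0} := by
    ext Q; simp [H2sub]
  rw [h]
  exact isClosed_iInter fun n => isClosed_iInter fun _ =>
    isClosed_singleton.preimage (coeffL n).continuous

/-- an element of the closure of a submodule contained in `H²` is in `H²` -/
theorem closure_le_H2sub {K : Submodule ℂ (Lp F 2 mu)} (hK : ∀ f ∈ K, IsH2 f) :
    ∀ f ∈ K.topologicalClosure, IsH2 f := by
  intro f hf
  rw [← mem_H2sub]
  exact Submodule.topologicalClosure_minimal _ (fun g hg => mem_H2sub.2 (hK g hg)) isClosed_H2sub hf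

/-- the closure of an invariant submodule is invariant -/
theorem closure_inv {K : Submodule ℂ (Lp F 2 mu)} (hK : ∀ f ∈ K, mz uz f ∈ K) :
    ∀ f ∈ K.topologicalClosure, mz uz f ∈ K.topologicalClosure := by
  intro f hf
  have h : (K.topologicalClosure : Set (Lp F 2 mu)) = closure (K : Set (Lp F 2 mu)) :=
    Submodule.topologicalClosure_coe K
  have hf' : f ∈ closure (K : Set (Lp F 2 mu)) := by rw [← h]; exact hf
  have h1 : mz uz f ∈ closure (K : Set (Lp F 2 mu)) :=
    map_mem_closure (mz uz).continuous hf' (fun g hg => hK g hg)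
  rw [← h] at h1; exact h1

/-- a closed condition on values at an interior point passes to the closure -/
theorem closure_ext_mem {K : Submodule ℂ (Lp F 2 mu)} {w : ℂ} (hw : ‖w‖ < 1) (E : Submodule ℂ F)
    (hK : ∀ f ∈ K, ext f w ∈ E) : ∀ f ∈ K.topologicalClosure, ext f w ∈ E := by
  intro f hf
  have hcl : IsClosed ((E.comap (extL (F := F) w hw).toLinearMap : Submodule ℂ (Lp F 2 mu)) :
      Set (Lp F 2 mu)) :=
    (Submodule.closed_of_finiteDimensional E).preimage (extL (F := F) w hw).continuous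
  exact Submodule.topologicalClosure_minimal _ (fun g hg => hK g hg) hcl hf

/-- a fibrewise condition on the boundary passes to the closure -/
theorem closure_fib_mem {K : Submodule ℂ (Lp F 2 mu)} (E : TT → Submodule ℂ F)
    (hK : ∀ f ∈ K, ∀ᵐ t ∂mu, f t ∈ E t) : ∀ f ∈ K.topologicalClosure, ∀ᵐ t ∂mu, f t ∈ E t := by
  intro f hf
  exact Submodule.topologicalClosure_minimal K (t := fib (μ := mu) E) (fun g hg => hK g hg)
    (isClosed_fib E) hf

end circle

end Crest.Agent.R269.WoldW_248
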