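import Mathlib
import Crest.Agent.R269.Bd_402
import Crest.Agent.R269.GeoW_936
import Crest.Agent.R269.WoldD_248
import Crest.Agent.R269.WoldC_248
import Crest.Agent.R269.Ker3_430

/-!
# R269 (S0411), Line B, WOLD-INST: the Wold frame of a normalised disc for a positive field (helper402)
-/

set_option autoImplicit false

open MvPolynomial Crest.AlgGeometry.ProjEmb Crest.Agent.R269.Geo_328 Crest.Agent.R269.DefsS_731
open Crest.Agent.R269.Fib_402 Crest.Agent.R269.Hardy_142 Crest.Agent.R269.Mod_402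
open Crest.Agent.R269.Bd_402 Crest.Agent.R269.GeoW_936
open MeasureTheory Filter Metric Set
open scoped ContDiff Topology ComplexConjugate ENNReal InnerProductSpace

namespace Crest.Agent.R269.Frame_402

noncomputable section

variable {N n : ℕ} {I : Ideal (HomCoordRing N)} {H : ℂ → EE N} {Hs : TT → EE N}

theorem mz_uz_mem {Y : Flds I} {f : Lp (FF N) 2 mu} (hf : f ∈ MM Y H) :
    Wold290.mz WoldW_248.uz f ∈ MM Y H := by
  have h1 : Wold290.mz WoldW_248.uz f = mzT f := by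
    apply Lp.ext
    filter_upwards [coeFn_mzT f, Wold290.coeFn_mz WoldW_248.uz f] with t h1 h2
    rw [h1, h2]
  rw [h1]
  exact mzT_mem_MM hf

/-- boundary values of polynomial combinations -/
theorem bdy_eq (h : BD I H Hs) {Y : Flds I} {c : Fin Y.M → Polynomial ℂ}
    {f : Lp (FF N) 2 mu} (hf : Bdy (VQ Y H c) f) :
    ∀ᵐ t ∂mu, f t = wE (Y.var c (zt t) (Hs t)) (Hs t) := by
  have hf2 : IsH2 (f : TT → FF N) := mem_HH.mp hf.1
  obtain ⟨s, hs, hs1, hs2⟩ := common_seq3 h.h2 hf2 hf2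
  filter_upwards [hs2] with t ht
  have hlt : ∀ j, ‖((s j : ℝ) : ℂ) * zt t‖ < 1 := by
    intro j
    rw [norm_mul, norm_zt, mul_one, Complex.norm_real, Real.norm_eq_abs,
      abs_of_nonneg (hs j).1.le]
    exact (hs j).2
  have h2 : Tendsto (fun j => H (s j * zt t)) atTop (𝓝 (Hs t)) := by
    have h3 : Tendsto (fun j => WithLp.ofLp (Hardy_142.ext (fun t => toH (Hs t)) (s j * zt t)))
        atTop (𝓝 (WithLp.ofLp (toH (Hs t)))) :=
      ((EuclideanSpace.equiv (Fin (N + 1)) ℂ).continuous.tendsto (toH (Hs t))).comp ht.1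
    refine h3.congr fun j => ?_
    rw [h.ext_eq _ (hlt j)]
    rfl
  have hz : Tendsto (fun j => ((s j : ℝ) : ℂ) * zt t) atTop (𝓝 (zt t)) := by
    have h4 : Tendsto (fun j => ((s j : ℝ) : ℂ)) atTop (𝓝 ((1:ℝ):ℂ)) :=
      (Complex.continuous_ofReal.tendsto 1).comp hs1
    simpa using h4.mul_const (zt t)
  have h3 : Tendsto (fun j => Y.var c (s j * zt t) (H (s j * zt t))) atTop
      (𝓝 (Y.var c (zt t) (Hs t))) := by
    unfold Flds.var
    refine tendsto_finsetSum _ fun k _ => ?_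
    exact (((Polynomial.continuous (c k)).tendsto _).comp hz).smul
      (((at_continuous Y k).tendsto _).comp h2)
  have h4 : Tendsto (fun j => Hardy_142.ext (f : TT → FF N) (s j * zt t)) atTop
      (𝓝 (wE (Y.var c (zt t) (Hs t)) (Hs t))) := by
    refine (tendsto_wE h3 h2).congr fun j => ?_
    rw [hf.2 _ (hlt j)]
    rfl
  exact tendsto_nhds_unique ht.2.1 h4

/-- every fibre vector at an interior point is the value of an element of the module -/
theorem exists_of_mem_Fib (Y : Flds I) (hH : IsDisc I H)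
    (h1 : ∀ z ∈ ball (0 : ℂ) 1, nsq (H z) ≤ 1) {w : ℂ} (hw : ‖w‖ < 1) {v : FF N}
    (hv : v ∈ Fib I (H w)) : ∃ f ∈ MM Y H, Hardy_142.ext (f : TT → FF N) w = v := by
  obtain ⟨V, hV, rfl⟩ := mem_Fib_iff.mp hv
  rw [← Y.span (H w) (hH.cone w (mem_ball_zero_iff.mpr hw))] at hV
  obtain ⟨c, hc⟩ := (Submodule.mem_span_range_iff_exists_fun ℂ).mp hV
  obtain ⟨f, hf⟩ := exists_bdy Y hH h1 (fun j => Polynomial.C (c j))
  refine ⟨f, (M0 Y H).le_topologicalClosure ⟨_, hf⟩, ?_⟩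
  rw [hf.2 w hw]
  unfold VQ Flds.var
  simp only [Polynomial.eval_C]
  congr 1

/-- the data delivered by the Wold frame -/
structure WData (I : Ideal (HomCoordRing N)) (n : ℕ) (a : EE N → VV N) (Pi : EE N → VV N)
    (Y : Flds I) (B : ℝ) (H : ℂ → EE N) (Hs : TT → EE N) (v : Fin n → Lp (FF N) 2 mu) : Prop where
  mem : ∀ i, v i ∈ MM Y H
  bdd : ∀ i, ∀ᵐ t ∂mu, ‖v i t‖ ≤ B
  ext_bdd : ∀ i, ∀ w : ℂ, ‖w‖ < 1 → ‖Hardy_142.ext (v i : TT → FF N) w‖ ≤ B
  rep : ∀ᵐ t ∂mu, Defs_58.Rep I a (Hs t) (fun i => hor (v i t) (Hs t))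
  rep_wE : ∀ i, ∀ᵐ t ∂mu, wE (hor (v i t) (Hs t)) (Hs t) = v i t
  krep : ∀ w : ℂ, ‖w‖ < 1 → Ker3_430.KRep I Y (GeoQ_936.Qf Pi a Y) (H w)
    (fun i => hor (Hardy_142.ext (v i : TT → FF N) w) (H w))

theorem exists_WData (hI : I.IsPrime) (hX : IsSmoothProjective I n) {Pi a : EE N → VV N}
    (hPi : GeoH_936.PiData I Pi) (ha : Defs_58.PosField I n a) (Y : Flds I) :
    ∃ B : ℝ, 0 ≤ B ∧ ∀ (H : ℂ → EE N) (Hs : TT → EE N), IsDisc I H → Normal H → BD I H Hs →
      ∃ v : Fin n → Lp (FF N) 2 mu, WData I n a Pi Y B H Hs v := by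
  obtain ⟨c, C, hc, hC, hb⟩ := GeoW_936.bounds hI hX hPi ha
  obtain ⟨Sw, hSm, hSw⟩ := GeoW_936.measurable_Sop hI hX hPi ha
  refine ⟨c⁻¹, by positivity, ?_⟩
  intro H Hs hH hN hBD
  set G : TT → FF N →L[ℂ] FF N := fun t => Sw (Hs t) * Sw (Hs t) with hG
  -- properties of `G` at good points
  have hSinner : ∀ p ∈ Cone I, ∀ v w : FF N, ⟪v, (Sw p * Sw p) w⟫_ℂ
      = ⟪Sop Pi a p v, Sop Pi a p w⟫_ℂ := by
    intro p hp v w
    rw [hSw p hp, inner_Sop hI hX hPi ha hp, ← inner_Gop]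
    have h0 := Gop_nonneg hI hX hPi ha hp
    have h2 : Sop Pi a p * Sop Pi a p = Gop Pi a p := CFC.sqrt_mul_sqrt_self _ h0
    rw [h2]
  have hGm : AEStronglyMeasurable G mu := by
    have h1 : Measurable (fun t => Sw (Hs t)) := hSm.comp hBD.meas
    exact (h1.mul h1).aestronglyMeasurable
  have hGC : ∀ᵐ t ∂mu, ‖G t‖ ≤ C * C := by
    filter_upwards [hBD.cone] with t ht
    have h1 : ‖Sw (Hs t)‖ ≤ C := by
      rw [hSw _ ht]
      exact ContinuousLinearMap.opNorm_le_bound _ hC fun v => (hb _ ht v).2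
    exact (norm_mul_le _ _).trans (mul_le_mul h1 h1 (norm_nonneg _) hC)
  have hsa : ∀ᵐ t ∂mu, ∀ v w : FF N, ⟪G t v, w⟫_ℂ = ⟪v, G t w⟫_ℂ := by
    filter_upwards [hBD.cone] with t ht
    intro v w
    rw [hG]
    simp only
    rw [hSinner _ ht, ← inner_conj_symm, hSinner _ ht, inner_conj_symm]
  have hlow : ∀ᵐ t ∂mu, ∀ v : FF N, c ^ 2 * ‖v‖ ^ 2 ≤ (⟪v, G t v⟫_ℂ).re := by
    filter_upwards [hBD.cone] with t ht
    intro v
    rw [hG]
    simp only
    rw [hSinner _ ht, inner_self_eq_norm_sq_to_K]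
    have h1 := (hb _ ht v).1
    have h2 : (c * ‖v‖) ^ 2 ≤ ‖Sop Pi a (Hs t) v‖ ^ 2 :=
      pow_le_pow_left₀ (by positivity) h1 2
    have h3 : ((‖Sop Pi a (Hs t) v‖ : ℂ) ^ 2).re = ‖Sop Pi a (Hs t) v‖ ^ 2 := by
      norm_cast
    rw [← mul_pow]
    exact h2.trans (le_of_eq h3.symm)
  obtain ⟨m, V, hVM, hVo, hVb, hVr⟩ := WoldW_248.wold_weighted G hGm (pow_pos hc 2) hGC hsa hlow
    (MM Y H) (isClosed_MM Y H) (fun f hf => mem_HH.mp (MM_le_HH Y H hf))
    (fun f hf => mz_uz_mem hf)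
  -- the number of vectors
  have hm1 : m ≤ n := by
    refine WoldW_248.wold_card_le (G := G) hVo (E := fun t => Fib I (Hs t))
      (fun i => hBD.mem_Fib hX hH (hVM i)) ?_
    filter_upwards [hBD.cone] with t ht
    exact (finrank_Fib hX ht).le
  have hspan : ∀ w : ℂ, ‖w‖ < 1 →
      Fib I (H w) ≤ Submodule.span ℂ (Set.range fun i => Hardy_142.ext (V i : TT → FF N) w) := by
    intro w hw v hv
    obtain ⟨f, hf, rfl⟩ := exists_of_mem_Fib Y hH hN.le_one hw hv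
    exact WoldW_248.wold_ext_mem ((hVr f hf).2.2.2 w hw)
  have hm2 : n ≤ m := by
    have h0 : ‖(0:ℂ)‖ < 1 := by simp
    have := WoldW_248.finrank_le_of_le_span _ _ (hspan 0 h0)
    rwa [finrank_Fib hX (hH.cone 0 (mem_ball_zero_iff.mpr h0))] at this
  obtain rfl : m = n := le_antisymm hm1 hm2
  have hbd : ∀ i, ∀ᵐ t ∂mu, ‖V i t‖ ≤ c⁻¹ := by
    intro i
    filter_upwards [hVb i] with t ht
    have h1 : ‖V i t‖ ^ 2 ≤ (c⁻¹) ^ 2 := by rw [inv_pow]; exact ht
    exact (pow_le_pow_iff_left₀ (norm_nonneg _) (by positivity) two_ne_zero).mp h1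
  have hrepwE : ∀ i, ∀ᵐ t ∂mu, hor (V i t) (Hs t) ∈ Tan I (Hs t) ∧
      wE (hor (V i t) (Hs t)) (Hs t) = V i t := by
    intro i
    filter_upwards [hBD.mem_Fib hX hH (hVM i), hBD.cone] with t h1 h2
    exact (mem_Fib hX h2).mp h1
  refine ⟨V, hVM, hbd, ?_, ?_, ?_, ?_⟩
  · intro i w hw
    exact (mem_HH.mp (MM_le_HH Y H (hVM i))).norm_ext_le_of_ae (hbd i) hw
  · filter_upwards [hBD.cone, hBD.nsq_eq, ae_all_iff.mpr hrepwE, hVo] with t h1 h2 h3 h4
    refine rep_of_orth hI hX hPi ha h1 h2 (fun i => (h3 i).1) (fun i => ?_) (fun i j => ?_)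
    · have h5 := hor_perp h1.2 (hor (V i t) (Hs t))
      rw [(h3 i).2] at h5
      exact h5
    · rw [(h3 i).2, (h3 j).2, ← h4 i j]
      exact (hSinner _ h1 _ _).symm
  · intro i
    filter_upwards [hrepwE i] with t ht
    exact ht.2
  · intro w hw
    refine ⟨TT, inferInstance, pmT w, isProb_pmT hw, Hs, integrable_pmT hw hBD.integrable, ?_,
      hBD.integral_pmT_eq hw, ?_⟩
    · exact ae_pmT w (by filter_upwards [hBD.cone, hBD.nsq_eq] with t h1 h2 using ⟨h1, h2⟩)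
    intro d
    obtain ⟨f, hf⟩ := exists_bdy Y hH hN.le_one (fun j => Polynomial.C (d j))
    have hfM : f ∈ MM Y H := (M0 Y H).le_topologicalClosure ⟨_, hf⟩
    obtain ⟨hq1, hq2, hq3, hq4⟩ := hVr f hfM
    refine ⟨fun i => Hardy_142.ext (fun t => ⟪V i t, G t (f t)⟫_ℂ) w, ?_, ?_⟩
    · have h1 := hq4 w hw
      rw [hf.2 w hw] at h1
      have h2 : ∀ i, Hardy_142.ext (V i : TT → FF N) w
          = wE (hor (Hardy_142.ext (V i : TT → FF N) w) (H w)) (H w) := fun i =>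
        ((mem_Fib hX (hH.cone w (mem_ball_zero_iff.mpr hw))).mp
          (ext_mem_Fib hH (hVM i) hw)).2.symm
      funext j k
      have h3 := congrArg (fun v : FF N => (EuclideanSpace.proj (𝕜 := ℂ) (j, k) : FF N →L[ℂ] ℂ) v) h1
      simp only [map_sum, map_smul, PiLp.proj_apply, smul_eq_mul] at h3
      unfold VQ Flds.var at h3
      simp only [Polynomial.eval_C] at h3
      simp only [Finset.sum_apply, _root_.Pi.smul_apply, smul_eq_mul]
      rw [show wdg (∑ j, d j • Y.at j (H w)) (H w) j k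
        = wE (∑ j, d j • Y.at j (H w)) (H w) (j, k) from rfl, h3]
      refine Finset.sum_congr rfl fun i _ => ?_
      rw [show wdg (hor (Hardy_142.ext (V i : TT → FF N) w) (H w)) (H w) j k
        = wE (hor (Hardy_142.ext (V i : TT → FF N) w) (H w)) (H w) (j, k) from rfl, ← h2 i]
    · have h1 : ∀ i, ‖Hardy_142.ext (fun t => ⟪V i t, G t (f t)⟫_ℂ) w‖ ^ 2
          ≤ ∫ t, pk w t * ‖⟪V i t, G t (f t)⟫_ℂ‖ ^ 2 ∂mu := fun i => (hq1 i).norm_sq_ext_le hw
      refine (Finset.sum_le_sum fun i _ => h1 i).trans ?_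
      rw [← integral_finsetSum]
      · rw [integral_pmT hw]
        refine le_of_eq (integral_congr_ae ?_)
        filter_upwards [hq3, bdy_eq hBD hf, hBD.cone] with t h2 h3 h4
        rw [← Finset.mul_sum, h2, smul_eq_mul, hG]
        simp only
        rw [hSinner _ h4, h3, Qf_eq_norm hI hX hPi ha Y h4, inner_self_eq_norm_sq_to_K]
        unfold Flds.var
        simp only [Polynomial.eval_C]
        norm_cast
      · intro i _
        exact pk_mul_integrable (norm_sq_integrable (hq1 i).memLp) hw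

end

end Crest.Agent.R269.Frame_402
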