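import Crest.Agent.R269.Frm2_290

/-!
# Row 269, leaf FRAMES (helper290), third file: frames of `f*TX` along a disc, `k(f)`, `T(f)`,
inequality (3.3) of Blueprint_646.

`A : Subalgebra ℂ (ℂ → ℂ)` is the class of functions on the closed disc (class `A` / `HS` of the
blueprint; only the values on `‖z‖ ≤ 1` matter), `H` the lift of the disc, `T z` the tangent space
of the cone at `H z`.
-/

set_option autoImplicit false
set_option linter.unusedSectionVars false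
open Matrix Complex Metric
open scoped ComplexConjugate ComplexOrder

noncomputable section
namespace Crest.Agent.R269.Frm290

variable {ι : Type*} [Fintype ι] [DecidableEq ι] {κ : Type*} [Fintype κ] [DecidableEq κ]

/-- vector valued functions with entries in `A` -/
def VA {S : Type*} [SetLike S (ℂ → ℂ)] (A : S) {m : Type*} (v : ℂ → m → ℂ) : Prop :=
  ∀ i, (fun z => v z i) ∈ A

lemma MA.mulVec {S : Type*} [SetLike S (ℂ → ℂ)] {A : S} [SubsemiringClass S (ℂ → ℂ)]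
    {m n : Type*} [Fintype n] {M : ℂ → Matrix m n ℂ} {v : ℂ → n → ℂ} (hM : MA A M) (hv : VA A v) :
    VA A (fun z => M z *ᵥ v z) := by
  intro i
  have : (fun z => (M z *ᵥ v z) i) = ∑ k, (fun z => M z i k) * (fun z => v z k) := by
    ext z; simp [Matrix.mulVec, dotProduct]
  rw [this]
  exact sum_mem fun k _ => mul_mem (hM i k) (hv k)

lemma VA.vecMulVec {S : Type*} [SetLike S (ℂ → ℂ)] {A : S} [SubsemiringClass S (ℂ → ℂ)]
    {m n : Type*} {v : ℂ → m → ℂ} {w : ℂ → n → ℂ} (hv : VA A v) (hw : VA A w) :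
    MA A (fun z => Matrix.vecMulVec (v z) (w z)) := by
  intro i j
  exact mul_mem (hv i) (hw j)

lemma VA.vecMul {S : Type*} [SetLike S (ℂ → ℂ)] {A : S} [SubsemiringClass S (ℂ → ℂ)]
    {m n : Type*} [Fintype m] {v : ℂ → m → ℂ} {M : ℂ → Matrix m n ℂ} (hv : VA A v) (hM : MA A M) :
    VA A (fun z => v z ᵥ* M z) := by
  intro j
  have : (fun z => (v z ᵥ* M z) j) = ∑ k, (fun z => v z k) * (fun z => M z k j) := by
    ext z; simp [Matrix.vecMul, dotProduct]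
  rw [this]
  exact sum_mem fun k _ => mul_mem (hv k) (hM k j)

lemma det_mem {S : Type*} [SetLike S (ℂ → ℂ)] {A : S} [SubringClass S (ℂ → ℂ)]
    {C : ℂ → Matrix κ κ ℂ} (hC : MA A C) : (fun z => (C z).det) ∈ A := by
  have : (fun z => (C z).det)
      = ∑ σ : Equiv.Perm κ, (Equiv.Perm.sign σ : ℤ) • ∏ i, (fun z => C z (σ i) i) := by
    ext z
    simp [Matrix.det_apply, Finset.sum_apply, Finset.prod_apply, Units.smul_def, zsmul_eq_mul]
  rw [this]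
  exact sum_mem fun σ _ => zsmul_mem (prod_mem fun i _ => hC _ _) _

/-- The tangential data along a disc: `H` the lift, `T z` the tangent space of the cone at `H z`,
`Q z` an idempotent onto `T z` with entries in the class `A`, and `G` with `G·H = 1` (Bezout). -/
structure TanData (A : Subalgebra ℂ (ℂ → ℂ)) (H : ℂ → ι → ℂ) (T : ℂ → Submodule ℂ (ι → ℂ))
    (Q : ℂ → Matrix ι ι ℂ) (G : ℂ → ι → ℂ) : Prop where
  H_mem : VA A H
  Q_mem : MA A Q
  G_mem : VA A G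
  H_tan : ∀ z, ‖z‖ ≤ 1 → H z ∈ T z
  Q_tan : ∀ z, ‖z‖ ≤ 1 → ∀ v, Q z *ᵥ v ∈ T z
  Q_id : ∀ z, ‖z‖ ≤ 1 → ∀ v ∈ T z, Q z *ᵥ v = v
  bez : ∀ z, ‖z‖ ≤ 1 → G z ⬝ᵥ H z = 1

/-- the idempotent `Q' = (1 - H Gᵗ) Q` onto a complement of `ℂ H` in `T` -/
def Qp (H : ℂ → ι → ℂ) (Q : ℂ → Matrix ι ι ℂ) (G : ℂ → ι → ℂ) (z : ℂ) : Matrix ι ι ℂ :=
  (1 - vecMulVec (H z) (G z)) * Q z

section
variable {A : Subalgebra ℂ (ℂ → ℂ)} {H : ℂ → ι → ℂ} {T : ℂ → Submodule ℂ (ι → ℂ)}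
  {Q : ℂ → Matrix ι ι ℂ} {G : ℂ → ι → ℂ}

lemma vecMulVec_mulVec' {m n : Type*} [Fintype n] (u : m → ℂ) (v w : n → ℂ) :
    vecMulVec u v *ᵥ w = (v ⬝ᵥ w) • u := by
  rw [Matrix.vecMulVec_mulVec]
  ext i; simp [mul_comm]

lemma TanData.H_ne (h : TanData A H T Q G) {z : ℂ} (hz : ‖z‖ ≤ 1) : H z ≠ 0 := by
  intro h0
  have := h.bez z hz
  rw [h0, dotProduct_zero] at this
  exact zero_ne_one this

lemma TanData.Qp_mem (h : TanData A H T Q G) : MA A (Qp H Q G) :=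
  ((MA.one A).sub (VA.vecMulVec h.H_mem h.G_mem)).mul h.Q_mem

lemma Qp_mulVec (H : ℂ → ι → ℂ) (Q : ℂ → Matrix ι ι ℂ) (G : ℂ → ι → ℂ) (z : ℂ) (v : ι → ℂ) :
    Qp H Q G z *ᵥ v = Q z *ᵥ v - (G z ⬝ᵥ (Q z *ᵥ v)) • H z := by
  rw [Qp, ← Matrix.mulVec_mulVec, Matrix.sub_mulVec, Matrix.one_mulVec, vecMulVec_mulVec']

lemma TanData.Qp_tan (h : TanData A H T Q G) {z : ℂ} (hz : ‖z‖ ≤ 1) (v : ι → ℂ) :
    Qp H Q G z *ᵥ v ∈ T z := by
  rw [Qp_mulVec]
  exact (T z).sub_mem (h.Q_tan z hz v) ((T z).smul_mem _ (h.H_tan z hz))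

lemma TanData.G_Qp (h : TanData A H T Q G) {z : ℂ} (hz : ‖z‖ ≤ 1) (v : ι → ℂ) :
    G z ⬝ᵥ (Qp H Q G z *ᵥ v) = 0 := by
  rw [Qp_mulVec, dotProduct_sub, dotProduct_smul, h.bez z hz, smul_eq_mul, mul_one, sub_self]

lemma TanData.Qp_id (h : TanData A H T Q G) {z : ℂ} (hz : ‖z‖ ≤ 1) {v : ι → ℂ} (hv : v ∈ T z)
    (hG : G z ⬝ᵥ v = 0) : Qp H Q G z *ᵥ v = v := by
  rw [Qp_mulVec, h.Q_id z hz v hv, hG, zero_smul, sub_zero]

lemma TanData.Qp_Qp (h : TanData A H T Q G) {z : ℂ} (hz : ‖z‖ ≤ 1) :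
    Qp H Q G z * Qp H Q G z = Qp H Q G z := by
  apply Matrix.toLin'.injective
  ext1 v
  ext1
  rw [Matrix.toLin'_mul]
  simp only [LinearMap.comp_apply, Matrix.toLin'_apply]
  rw [h.Qp_id hz (h.Qp_tan hz _) (h.G_Qp hz _)]

/-- `T = ℂ H ⊕ im Q'` : every tangent vector is `(G·v) H + Q' v`. -/
lemma TanData.decomp (h : TanData A H T Q G) {z : ℂ} (hz : ‖z‖ ≤ 1) {v : ι → ℂ} (hv : v ∈ T z) :
    v = (G z ⬝ᵥ v) • H z + Qp H Q G z *ᵥ v := by
  rw [Qp_mulVec, h.Q_id z hz v hv]; abel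

lemma TanData.rank_Qp (h : TanData A H T Q G) {z : ℂ} (hz : ‖z‖ ≤ 1) {n : ℕ}
    (hn : Module.finrank ℂ (T z) = n + 1) : (Qp H Q G z).rank = n := by
  -- the linear functional `v ↦ G·v` on `T z` is onto with kernel the range of `Q'`
  let φ : T z →ₗ[ℂ] ℂ :=
    { toFun := fun v => G z ⬝ᵥ (v : ι → ℂ)
      map_add' := fun v w => by simp [dotProduct_add]
      map_smul' := fun c v => by simp [dotProduct_smul] }
  have hφ : LinearMap.range φ = ⊤ := by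
    rw [LinearMap.range_eq_top]
    intro c
    refine ⟨⟨c • H z, (T z).smul_mem _ (h.H_tan z hz)⟩, ?_⟩
    change G z ⬝ᵥ (c • H z) = c
    rw [dotProduct_smul, h.bez z hz, smul_eq_mul, mul_one]
  have h1 := LinearMap.finrank_range_add_finrank_ker φ
  rw [hφ, finrank_top, Module.finrank_self, hn] at h1
  have h2 : Module.finrank ℂ (LinearMap.ker φ) = n := by omega
  rw [← h2, Matrix.rank]
  -- the map `range Q' → ker φ`
  refine LinearEquiv.finrank_eq (LinearEquiv.ofBijective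
    ({ toFun := fun v => ⟨⟨(v : ι → ℂ), ?_⟩, ?_⟩
       map_add' := fun v w => rfl
       map_smul' := fun c v => rfl } : LinearMap.range (Qp H Q G z).mulVecLin →ₗ[ℂ]
        LinearMap.ker φ) ⟨?_, ?_⟩)
  · obtain ⟨w, hw⟩ := v.2
    rw [← hw]; exact h.Qp_tan hz w
  · obtain ⟨w, hw⟩ := v.2
    rw [LinearMap.mem_ker]
    change G z ⬝ᵥ (v : ι → ℂ) = 0
    rw [← hw]; exact h.G_Qp hz w
  · intro v w hvw
    have := congrArg (fun x : LinearMap.ker φ => ((x : T z) : ι → ℂ)) hvw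
    exact Subtype.ext this
  · intro w
    refine ⟨⟨((w : T z) : ι → ℂ), ⟨((w : T z) : ι → ℂ), ?_⟩⟩, rfl⟩
    rw [Matrix.mulVecLin_apply]
    exact h.Qp_id hz (w : T z).2 (LinearMap.mem_ker.1 w.2)

/-- A frame of `f*TX` : `n` sections in the class `A`, tangential and independent modulo `H`. -/
structure IsFrame (A : Subalgebra ℂ (ℂ → ℂ)) (H : ℂ → ι → ℂ) (T : ℂ → Submodule ℂ (ι → ℂ))
    (M : ℂ → Matrix ι κ ℂ) : Prop where
  mem : MA A M
  tan : ∀ z, ‖z‖ ≤ 1 → ∀ c : κ → ℂ, M z *ᵥ c ∈ T z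
  indep : ∀ z, ‖z‖ ≤ 1 → Indep (H z) (M z)

/-- **Existence of frames orthonormal on the circle** for a given Hermitian form `g₀` (positive on
`T/ℂH`), which is the Gram matrix `a⁻¹` in the blueprint. -/
theorem exists_frame {B : StarSubalgebra ℂ (ℂ → ℂ)}
    (hA : ∀ f ∈ A, DiffContOnCl ℂ f (ball 0 1)) (hAB : ∀ f ∈ A, f ∈ B) (hSF : SF A B ι)
    (h : TanData A H T Q G) {n : ℕ} (hn : Module.finrank ℂ (T 0) = n + 1)
    {g₀ : ℂ → Matrix ι ι ℂ} (hg₀ : MA B g₀) (hgh : ∀ z, ‖z‖ = 1 → (g₀ z).IsHermitian)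
    (hgp : ∀ z, ‖z‖ = 1 → ∀ v ∈ T z, (∀ l : ℂ, v ≠ l • H z) → 0 < (star v ⬝ᵥ (g₀ z *ᵥ v)).re) :
    ∃ (M : ℂ → Matrix ι (Fin n) ℂ) (M' : ℂ → Matrix (Fin n) ι ℂ), IsFrame A H T M ∧ MA A M' ∧
      (∀ z, ‖z‖ ≤ 1 → M z * M' z = Qp H Q G z) ∧ (∀ z, ‖z‖ ≤ 1 → M' z * M z = 1) ∧
      (∀ z, ‖z‖ = 1 → (M z)ᴴ * g₀ z * M z = 1) := by
  have h0 : ‖(0 : ℂ)‖ ≤ 1 := by simp
  obtain ⟨M, M', hM, hM', h1, h2, h3⟩ := sf_bundle hA hAB hSF h.Qp_mem (fun z hz => h.Qp_Qp hz)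
    hg₀ hgh (by
      intro z hz v hv hQv
      have hvT : v ∈ T z := by rw [← hQv]; exact h.Qp_tan hz.le v
      refine hgp z hz v hvT ?_
      intro l hl
      have hG : G z ⬝ᵥ v = 0 := by rw [← hQv]; exact h.G_Qp hz.le v
      rw [hl, dotProduct_smul, h.bez z hz.le, smul_eq_mul, mul_one] at hG
      rw [hG, zero_smul] at hl
      exact hv hl) (h.rank_Qp h0 hn)
  refine ⟨M, M', ⟨hM, ?_, ?_⟩, hM', h1, h2, h3⟩
  · intro z hz c
    have : M z *ᵥ c = Qp H Q G z *ᵥ (M z *ᵥ c) := by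
      rw [← h1 z hz, Matrix.mulVec_mulVec, Matrix.mul_assoc, h2 z hz, Matrix.mul_one]
    rw [this]; exact h.Qp_tan hz _
  · intro z hz c l hc
    have hQ : M z *ᵥ c = Qp H Q G z *ᵥ (M z *ᵥ c) := by
      rw [← h1 z hz, Matrix.mulVec_mulVec, Matrix.mul_assoc, h2 z hz, Matrix.mul_one]
    have hG : G z ⬝ᵥ (M z *ᵥ c) = 0 := by rw [hQ]; exact h.G_Qp hz _
    rw [hc, dotProduct_smul, h.bez z hz, smul_eq_mul, mul_one] at hG
    rw [hG, zero_smul] at hc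
    have : M' z *ᵥ (M z *ᵥ c) = c := by rw [Matrix.mulVec_mulVec, h2 z hz, Matrix.one_mulVec]
    rw [← this, hc, Matrix.mulVec_zero]

/-- Change of frames: every frame is `H rᵗ + M C` with `C` invertible, where `M M' = Q'`. -/
theorem IsFrame.change (h : TanData A H T Q G) {M₁ : ℂ → Matrix ι κ ℂ} (hM₁ : IsFrame A H T M₁)
    {M : ℂ → Matrix ι κ ℂ} {M' : ℂ → Matrix κ ι ℂ} (hM' : MA A M')
    (h1 : ∀ z, ‖z‖ ≤ 1 → M z * M' z = Qp H Q G z) :
    ∃ (C : ℂ → Matrix κ κ ℂ) (r : ℂ → κ → ℂ), MA A C ∧ VA A r ∧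
      (∀ z, ‖z‖ ≤ 1 → M₁ z = M z * C z + vecMulVec (H z) (r z)) ∧
      (∀ z, ‖z‖ ≤ 1 → (C z).det ≠ 0) ∧
      ∀ z, ‖z‖ ≤ 1 → D (H z) (M₁ z) = ‖(C z).det‖ ^ 2 * D (H z) (M z) := by
  have key : ∀ z, ‖z‖ ≤ 1 →
      M₁ z = M z * (M' z * M₁ z) + vecMulVec (H z) (G z ᵥ* M₁ z) := by
    intro z hz
    rw [← Matrix.mul_assoc, h1 z hz]
    apply Matrix.toLin'.injective
    ext1 v
    ext1
    simp only [Matrix.toLin'_apply, LinearMap.comp_apply, LinearMap.coe_single]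
    have hv := h.decomp hz (hM₁.tan z hz (Pi.single v 1))
    rw [Matrix.add_mulVec, ← Matrix.mulVec_mulVec, vecMulVec_mulVec', ← Matrix.dotProduct_mulVec,
      add_comm]
    exact hv
  have hD : ∀ z, ‖z‖ ≤ 1 → D (H z) (M₁ z) = ‖(M' z * M₁ z).det‖ ^ 2 * D (H z) (M z) := by
    intro z hz
    rw [← D_mul (h.H_ne hz), ← D_add (h.H_ne hz) (M z * (M' z * M₁ z)) (G z ᵥ* M₁ z), ← key z hz]
  refine ⟨fun z => M' z * M₁ z, fun z => G z ᵥ* M₁ z, hM'.mul hM₁.mem,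
    VA.vecMul h.G_mem hM₁.mem, key, ?_, hD⟩
  intro z hz h0
  have := D_pos (h.H_ne hz) (hM₁.indep z hz)
  rw [hD z hz, h0] at this
  simp at this

/-! ## The functional `k` -/

/-- `k` computed in the frame `M` with the circle of radius `ρ`:
`avg_{|z|=ρ} log D(H,M) - log D(H(0),M(0))`. -/
def kρ (H : ℂ → ι → ℂ) (M : ℂ → Matrix ι κ ℂ) (ρ : ℝ) : ℝ :=
  Real.circleAverage (fun z => Real.log (D (H z) (M z))) 0 ρ - Real.log (D (H 0) (M 0))

/-- `k` with centre `w`. -/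
def kw (H : ℂ → ι → ℂ) (M : ℂ → Matrix ι κ ℂ) (w : ℂ) : ℝ :=
  Real.circleAverage (fun z => poissonKernel 0 w z * Real.log (D (H z) (M z))) 0 1
    - Real.log (D (H w) (M w))

lemma VA.continuousOn (hA : ∀ f ∈ A, DiffContOnCl ℂ f (ball 0 1)) {m : Type*} {v : ℂ → m → ℂ}
    (hv : VA A v) (i : m) : ContinuousOn (fun z => v z i) (closedBall 0 1) := by
  rw [← closure_ball01]; exact (hA _ (hv i)).2

lemma MA.continuousOn (hA : ∀ f ∈ A, DiffContOnCl ℂ f (ball 0 1)) {m n : Type*}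
    {M : ℂ → Matrix m n ℂ} (hM : MA A M) (i : m) (j : n) :
    ContinuousOn (fun z => M z i j) (closedBall 0 1) := by
  rw [← closure_ball01]; exact (hA _ (hM i j)).2

/-- `log D(H, M)` is continuous on the closed disc -/
lemma IsFrame.continuousOn_log (hA : ∀ f ∈ A, DiffContOnCl ℂ f (ball 0 1))
    (h : TanData A H T Q G) {M : ℂ → Matrix ι κ ℂ} (hM : IsFrame A H T M) :
    ContinuousOn (fun z => Real.log (D (H z) (M z))) (closedBall 0 1) := by
  have hn : ∀ z ∈ closedBall (0 : ℂ) 1, ‖z‖ ≤ 1 := fun z hz => by simpa using hz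
  refine (continuousOn_D (VA.continuousOn hA h.H_mem) (MA.continuousOn hA hM.mem)
    (fun z hz => h.H_ne (hn z hz))).log ?_
  intro z hz
  exact (D_pos (h.H_ne (hn z hz)) (hM.indep z (hn z hz))).ne'

lemma sphere_sub {ρ : ℝ} (hρ0 : 0 ≤ ρ) (hρ : ρ ≤ 1) : sphere (0 : ℂ) |ρ| ⊆ closedBall 0 1 := by
  rw [abs_of_nonneg hρ0]
  exact sphere_subset_closedBall.trans (closedBall_subset_closedBall hρ)

/-- `k` does not depend on the frame (circle of radius `ρ ≤ 1`), comparison with a frame `M`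
with `M M' = Q'`. -/
theorem IsFrame.kρ_eq' (hA : ∀ f ∈ A, DiffContOnCl ℂ f (ball 0 1))
    (h : TanData A H T Q G) {M₁ M : ℂ → Matrix ι κ ℂ} (hM₁ : IsFrame A H T M₁)
    {M' : ℂ → Matrix κ ι ℂ} (hM : IsFrame A H T M) (hM' : MA A M')
    (h1 : ∀ z, ‖z‖ ≤ 1 → M z * M' z = Qp H Q G z) {ρ : ℝ} (hρ0 : 0 ≤ ρ) (hρ : ρ ≤ 1) :
    kρ H M₁ ρ = kρ H M ρ := by
  obtain ⟨C, r, hC, -, -, hdet, hD⟩ := hM₁.change h hM' h1
  have hlog : ∀ z, ‖z‖ ≤ 1 → Real.log (D (H z) (M₁ z))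
      = 2 * Real.log ‖(C z).det‖ + Real.log (D (H z) (M z)) := by
    intro z hz
    have hd : ‖(C z).det‖ ≠ 0 := norm_ne_zero_iff.2 (hdet z hz)
    rw [hD z hz, Real.log_mul (pow_ne_zero 2 hd) (D_pos (h.H_ne hz) (hM.indep z hz)).ne',
      Real.log_pow]
    norm_num
  have hdA : DiffContOnCl ℂ (fun z => (C z).det) (ball 0 1) := hA _ (det_mem hC)
  have hs := sphere_sub hρ0 hρ
  have e1 : Real.circleAverage (fun z => Real.log (D (H z) (M₁ z))) 0 ρ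
      = Real.circleAverage (fun z => 2 * Real.log ‖(C z).det‖ + Real.log (D (H z) (M z))) 0 ρ :=
    Real.circleAverage_congr_sphere fun z hz => hlog z (by simpa using hs hz)
  have c1 : CircleIntegrable (fun z => 2 * Real.log ‖(C z).det‖) 0 ρ := by
    refine ContinuousOn.circleIntegrable' ?_
    refine continuousOn_const.mul ?_
    have := (harmonic_log_norm hdA hdet).2
    rw [closure_ball01] at this
    exact this.mono hs
  have c2 : CircleIntegrable (fun z => Real.log (D (H z) (M z))) 0 ρ :=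
    ContinuousOn.circleIntegrable' ((hM.continuousOn_log hA h).mono hs)
  have e2 : Real.circleAverage (fun z => 2 * Real.log ‖(C z).det‖) 0 ρ
      = 2 * Real.log ‖(C 0).det‖ := by
    have := Real.circleAverage_fun_smul (𝕜 := ℝ) (a := 2) (f := fun z => Real.log ‖(C z).det‖)
      (c := 0) (R := ρ)
    simp only [smul_eq_mul] at this
    rw [this, avg_log_norm hdA hdet hρ0 hρ]
  rw [kρ, kρ, e1, Real.circleAverage_fun_add c1 c2, e2, hlog 0 (by simp)]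
  ring

theorem IsFrame.kw_eq' (hA : ∀ f ∈ A, DiffContOnCl ℂ f (ball 0 1))
    (h : TanData A H T Q G) {M₁ M : ℂ → Matrix ι κ ℂ} (hM₁ : IsFrame A H T M₁)
    {M' : ℂ → Matrix κ ι ℂ} (hM : IsFrame A H T M) (hM' : MA A M')
    (h1 : ∀ z, ‖z‖ ≤ 1 → M z * M' z = Qp H Q G z) {w : ℂ} (hw : ‖w‖ < 1) :
    kw H M₁ w = kw H M w := by
  obtain ⟨C, r, hC, -, -, hdet, hD⟩ := hM₁.change h hM' h1
  have hlog : ∀ z, ‖z‖ ≤ 1 → Real.log (D (H z) (M₁ z))
      = 2 * Real.log ‖(C z).det‖ + Real.log (D (H z) (M z)) := by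
    intro z hz
    have hd : ‖(C z).det‖ ≠ 0 := norm_ne_zero_iff.2 (hdet z hz)
    rw [hD z hz, Real.log_mul (pow_ne_zero 2 hd) (D_pos (h.H_ne hz) (hM.indep z hz)).ne',
      Real.log_pow]
    norm_num
  have hdA : DiffContOnCl ℂ (fun z => (C z).det) (ball 0 1) := hA _ (det_mem hC)
  have hs : sphere (0 : ℂ) |1| ⊆ closedBall 0 1 := sphere_sub zero_le_one le_rfl
  have hP : ContinuousOn (poissonKernel 0 w) (sphere (0 : ℂ) |1|) := by
    rw [poissonKernel_eq_re_herglotzRieszKernel]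
    exact Complex.continuous_re.comp_continuousOn
      (continuousOn_herglotzRieszKernel_sphere (mem_ball_zero_iff.2 hw))
  have e1 : Real.circleAverage (fun z => poissonKernel 0 w z * Real.log (D (H z) (M₁ z))) 0 1
      = Real.circleAverage (fun z => 2 * (poissonKernel 0 w z * Real.log ‖(C z).det‖)
        + poissonKernel 0 w z * Real.log (D (H z) (M z))) 0 1 :=
    Real.circleAverage_congr_sphere fun z hz => by
      change _ = _
      rw [hlog z (by simpa using hs hz)]; ring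
  have c1 : CircleIntegrable (fun z => 2 * (poissonKernel 0 w z * Real.log ‖(C z).det‖)) 0 1 := by
    refine ContinuousOn.circleIntegrable' ?_
    refine continuousOn_const.mul (hP.mul ?_)
    have := (harmonic_log_norm hdA hdet).2
    rw [closure_ball01] at this
    exact this.mono hs
  have c2 : CircleIntegrable (fun z => poissonKernel 0 w z * Real.log (D (H z) (M z))) 0 1 :=
    ContinuousOn.circleIntegrable' (hP.mul ((hM.continuousOn_log hA h).mono hs))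
  have e2 : Real.circleAverage (fun z => 2 * (poissonKernel 0 w z * Real.log ‖(C z).det‖)) 0 1
      = 2 * Real.log ‖(C w).det‖ := by
    have := Real.circleAverage_fun_smul (𝕜 := ℝ) (a := 2)
      (f := fun z => poissonKernel 0 w z * Real.log ‖(C z).det‖) (c := 0) (R := 1)
    simp only [smul_eq_mul] at this
    rw [this, poisson_log_norm hdA hdet hw]
  rw [kw, kw, e1, Real.circleAverage_fun_add c1 c2, e2, hlog w hw.le]
  ring

end
end Crest.Agent.R269.Frm290
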