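import Crest.Agent.R269.Frm3_290

/-!
# Row 269, leaf FRAMES (helper290), fourth file: frames adapted to a cometric `a`, inequality (3.3),
independence of `k`, `T` of the lift.
-/

set_option autoImplicit false
set_option linter.unusedSectionVars false
open Matrix Complex Metric
open scoped ComplexConjugate ComplexOrder

noncomputable section
namespace Crest.Agent.R269.Frm290

variable {ι : Type*} [Fintype ι] [DecidableEq ι] {κ : Type*} [Fintype κ] [DecidableEq κ]

/-- Two matrices `N`, `M` with `n` tangential columns, both orthonormal for a Hermitian form `g`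
with `g p = 0`, differ by a unitary matrix modulo `p`. -/
theorem unitary_change {T : Submodule ℂ (ι → ℂ)} {p : ι → ℂ} (hp : p ∈ T) (hp0 : p ≠ 0) {n : ℕ}
    (hn : Module.finrank ℂ T = n + 1) {g : Matrix ι ι ℂ} (hg : g *ᵥ p = 0) (hgH : g.IsHermitian)
    {N M : Matrix ι (Fin n) ℂ} (hN : ∀ c, N *ᵥ c ∈ T) (hM : ∀ c, M *ᵥ c ∈ T)
    (hN1 : Nᴴ * g * N = 1) (hM1 : Mᴴ * g * M = 1) :
    ∃ (U : Matrix (Fin n) (Fin n) ℂ) (r : Fin n → ℂ), Uᴴ * U = 1 ∧ U * Uᴴ = 1 ∧
      M = N * U + vecMulVec p r := by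
  classical
  -- `T = range N ⊕ ℂ p`
  have hNind : ∀ (c : Fin n → ℂ) (l : ℂ), N *ᵥ c = l • p → c = 0 := by
    intro c l hc
    have h1 : (Nᴴ * g * N) *ᵥ c = 0 := by
      rw [← Matrix.mulVec_mulVec, hc, ← Matrix.mulVec_mulVec, Matrix.mulVec_smul, hg, smul_zero,
        Matrix.mulVec_zero]
    rwa [hN1, Matrix.one_mulVec] at h1
  have hsum : ∀ v ∈ T, ∃ (d : Fin n → ℂ) (l : ℂ), v = N *ᵥ d + l • p := by
    let ψ : (Fin n → ℂ) × ℂ →ₗ[ℂ] T :=
      { toFun := fun x => ⟨N *ᵥ x.1 + x.2 • p, T.add_mem (hN _) (T.smul_mem _ hp)⟩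
        map_add' := fun x y => by
          apply Subtype.ext
          simp only [Prod.fst_add, Prod.snd_add, Matrix.mulVec_add, add_smul, Submodule.coe_add]
          abel
        map_smul' := fun c x => by
          apply Subtype.ext
          simp only [Prod.smul_fst, Prod.smul_snd, Matrix.mulVec_smul, smul_eq_mul, mul_smul,
            RingHom.id_apply, Submodule.coe_smul, smul_add] }
    have hinj : Function.Injective ψ := by
      rw [← LinearMap.ker_eq_bot, LinearMap.ker_eq_bot']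
      rintro ⟨c, l⟩ hcl
      have h1 : N *ᵥ c + l • p = 0 := congrArg Subtype.val hcl
      have h2 : N *ᵥ c = (-l) • p := by rw [neg_smul]; exact eq_neg_of_add_eq_zero_left h1
      have h3 := hNind c _ h2
      rw [h3, Matrix.mulVec_zero, zero_add] at h1
      rw [h3, (smul_eq_zero.1 h1).resolve_right hp0]
      rfl
    have hsurj : Function.Surjective ψ := by
      refine (LinearMap.injective_iff_surjective_of_finrank_eq_finrank ?_).1 hinj
      rw [hn]; simp
    intro v hv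
    obtain ⟨x, hx⟩ := hsurj ⟨v, hv⟩
    exact ⟨x.1, x.2, (congrArg Subtype.val hx).symm⟩
  have hpg : ∀ c : Fin n → ℂ, ∀ l : ℂ, (Nᴴ * g) *ᵥ (N *ᵥ c + l • p) = c := by
    intro c l
    rw [Matrix.mulVec_add, Matrix.mulVec_mulVec, hN1, Matrix.one_mulVec, Matrix.mulVec_smul,
      ← Matrix.mulVec_mulVec, hg, Matrix.mulVec_zero, smul_zero, add_zero]
  set U := Nᴴ * g * M with hU
  set r : Fin n → ℂ := ((nsq p : ℂ))⁻¹ • (star p ᵥ* (M - N * U)) with hr
  have hMU : M = N * U + vecMulVec p r := by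
    apply Matrix.toLin'.injective
    ext1 k
    ext1
    simp only [Matrix.toLin'_apply, LinearMap.comp_apply, LinearMap.coe_single]
    set c : Fin n → ℂ := Pi.single k 1
    obtain ⟨d, l, hdl⟩ := hsum _ (hM c)
    have hUc : U *ᵥ c = d := by
      rw [hU, ← Matrix.mulVec_mulVec, hdl, hpg]
    have hdiff : (M - N * U) *ᵥ c = l • p := by
      rw [Matrix.sub_mulVec, ← Matrix.mulVec_mulVec, hUc, hdl]; abel
    have hrc : r ⬝ᵥ c = l := by
      have hnp : (nsq p : ℂ) ≠ 0 := by exact_mod_cast (nsq_pos hp0).ne'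
      rw [hr, smul_dotProduct, ← Matrix.dotProduct_mulVec, hdiff, dotProduct_smul, star_dot_self]
      simp only [smul_eq_mul]
      field_simp
    rw [Matrix.add_mulVec, ← Matrix.mulVec_mulVec, vecMulVec_mulVec', hrc, hUc]
    exact hdl
  have hUU : Uᴴ * U = 1 := by
    have e1 : g * vecMulVec p r = 0 := by
      rw [Matrix.mul_vecMulVec, hg, Matrix.zero_vecMulVec]
    have e2 : (vecMulVec p r)ᴴ * g = 0 := by
      have := congrArg Matrix.conjTranspose e1
      rwa [Matrix.conjTranspose_mul, hgH.eq, Matrix.conjTranspose_zero] at this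
    have : Mᴴ * g * M = Uᴴ * (Nᴴ * g * N) * U := by
      rw [hMU, Matrix.conjTranspose_add, Matrix.add_mul, e2, add_zero, Matrix.mul_add,
        Matrix.mul_assoc _ _ (vecMulVec p r), e1, Matrix.mul_zero, add_zero,
        Matrix.conjTranspose_mul]
      simp only [Matrix.mul_assoc]
    rw [hM1, hN1, Matrix.mul_one] at this
    exact this.symm
  exact ⟨U, r, hUU, mul_eq_one_comm.1 hUU, hMU⟩

/-- consequences: same Gram determinant, same cometric `prj (N Nᴴ) prj`. -/
theorem unitary_change' {T : Submodule ℂ (ι → ℂ)} {p : ι → ℂ} (hp : p ∈ T) (hp0 : p ≠ 0) {n : ℕ}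
    (hn : Module.finrank ℂ T = n + 1) {g : Matrix ι ι ℂ} (hg : g *ᵥ p = 0) (hgH : g.IsHermitian)
    {N M : Matrix ι (Fin n) ℂ} (hN : ∀ c, N *ᵥ c ∈ T) (hM : ∀ c, M *ᵥ c ∈ T)
    (hN1 : Nᴴ * g * N = 1) (hM1 : Mᴴ * g * M = 1) :
    D p M = D p N ∧ prj p * (M * Mᴴ) * prj p = prj p * (N * Nᴴ) * prj p := by
  obtain ⟨U, r, h1, h2, h3⟩ := unitary_change hp hp0 hn hg hgH hN hM hN1 hM1
  constructor
  · rw [h3, D_add hp0, D_mul hp0]
    have hd : ‖U.det‖ ^ 2 = 1 := by
      have := congrArg Matrix.det h1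
      rw [Matrix.det_mul, Matrix.det_conjTranspose, Matrix.det_one, RCLike.star_def,
        Complex.conj_mul'] at this
      exact_mod_cast this
    rw [hd, one_mul]
  · have e1 : prj p * M = prj p * N * U := by
      rw [h3, Matrix.mul_add, Matrix.mul_vecMulVec, prj_mulVec_self hp0, Matrix.zero_vecMulVec,
        add_zero, Matrix.mul_assoc]
    have e2 : Mᴴ * prj p = Uᴴ * (Nᴴ * prj p) := by
      have := congrArg Matrix.conjTranspose e1
      simp only [Matrix.conjTranspose_mul, (prj_isHermitian p).eq] at this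
      exact this
    calc prj p * (M * Mᴴ) * prj p = (prj p * M) * (Mᴴ * prj p) := by
          simp only [Matrix.mul_assoc]
      _ = prj p * N * (U * Uᴴ) * (Nᴴ * prj p) := by
          rw [e1, e2]; simp only [Matrix.mul_assoc]
      _ = _ := by rw [h2, Matrix.mul_one]; simp only [Matrix.mul_assoc]

/-- `∑ᵢ |bᵢ|_g²` is the trace of the Gram matrix -/
lemma trace_gram (p : ι → ℂ) (M : Matrix ι κ ℂ) :
    (gram p M).trace = ∑ k, star (fun i => M i k) ⬝ᵥ (gmat p *ᵥ (fun i => M i k)) := by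
  simp only [Matrix.trace, Matrix.diag, gram]
  refine Finset.sum_congr rfl fun k _ => ?_
  rw [Matrix.mul_assoc, Matrix.mul_apply]
  simp only [dotProduct, Pi.star_apply, Matrix.conjTranspose_apply, Matrix.mulVec,
    Matrix.mul_apply]

/-- **Inequality (3.3) at the centre.**  If `log D(H,M) = φ` on the circle, then
`∑ |b_i(0)|_g² ≥ n exp((1/n)(avg φ - k))`. -/
theorem ineq33 {H : ℂ → ι → ℂ} {M : ℂ → Matrix ι κ ℂ} [Nonempty κ] (hH : H 0 ≠ 0)
    (hM : Indep (H 0) (M 0)) {φ : ℂ → ℝ} (hφ : ∀ z, ‖z‖ = 1 → Real.log (D (H z) (M z)) = φ z) :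
    (Fintype.card κ : ℝ) * Real.exp ((Real.circleAverage φ 0 1 - kρ H M 1) / Fintype.card κ)
      ≤ (gram (H 0) (M 0)).trace.re := by
  refine le_trans (le_of_eq ?_) (card_mul_le_trace hH (M 0))
  have hD := D_pos hH hM
  have h1 : Real.circleAverage φ 0 1
      = Real.circleAverage (fun z => Real.log (D (H z) (M z))) 0 1 :=
    Real.circleAverage_congr_sphere fun z hz => (hφ z (by simpa using hz)).symm
  have h2 : Real.circleAverage φ 0 1 - kρ H M 1 = Real.log (D (H 0) (M 0)) := by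
    rw [h1, kρ]; ring
  rw [h2, Real.rpow_def_of_pos hD, div_eq_mul_inv]

/-! ## Independence of the lift -/

section lift
variable {A : Subalgebra ℂ (ℂ → ℂ)}

lemma kρ_smul {H : ℂ → ι → ℂ} {M : ℂ → Matrix ι κ ℂ} {l : ℂ → ℂ} (hl : ∀ z, ‖z‖ ≤ 1 → l z ≠ 0)
    {ρ : ℝ} (hρ0 : 0 ≤ ρ) (hρ : ρ ≤ 1) :
    kρ (fun z => l z • H z) (fun z => l z • M z) ρ = kρ H M ρ := by
  have hs := sphere_sub hρ0 hρ
  rw [kρ, kρ]
  congr 1
  · refine Real.circleAverage_congr_sphere fun z hz => ?_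
    change Real.log _ = Real.log _
    rw [D_smul (hl z (by simpa using hs hz))]
  · rw [D_smul (hl 0 (by simp))]

lemma kw_smul {H : ℂ → ι → ℂ} {M : ℂ → Matrix ι κ ℂ} {l : ℂ → ℂ} (hl : ∀ z, ‖z‖ ≤ 1 → l z ≠ 0)
    {w : ℂ} (hw : ‖w‖ < 1) :
    kw (fun z => l z • H z) (fun z => l z • M z) w = kw H M w := by
  have hs := sphere_sub zero_le_one le_rfl
  rw [kw, kw]
  congr 1
  · refine Real.circleAverage_congr_sphere fun z hz => ?_
    change poissonKernel 0 w z * Real.log _ = poissonKernel 0 w z * Real.log _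
    rw [D_smul (hl z (by simpa using hs hz))]
  · rw [D_smul (hl w hw.le)]

/-- `T(f) = avg_{|z|=ρ} log |H|² - log |H(0)|²` -/
def Tρ (H : ℂ → ι → ℂ) (ρ : ℝ) : ℝ :=
  Real.circleAverage (fun z => Real.log (nsq (H z))) 0 ρ - Real.log (nsq (H 0))

lemma continuousOn_log_nsq {H : ℂ → ι → ℂ} {s : Set ℂ} (hH : ∀ i, ContinuousOn (fun z => H z i) s)
    (h0 : ∀ z ∈ s, H z ≠ 0) : ContinuousOn (fun z => Real.log (nsq (H z))) s := by
  refine ContinuousOn.log ?_ fun z hz => (nsq_pos (h0 z hz)).ne'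
  unfold nsq
  exact continuousOn_finsetSum _ fun i _ => ((hH i).norm.pow 2)

theorem Tρ_smul {H : ℂ → ι → ℂ} {l : ℂ → ℂ} (hH : ∀ i, ContinuousOn (fun z => H z i) (closedBall 0 1))
    (hH0 : ∀ z, ‖z‖ ≤ 1 → H z ≠ 0) (hl : DiffContOnCl ℂ l (ball 0 1))
    (hl0 : ∀ z : ℂ, ‖z‖ ≤ 1 → l z ≠ 0) {ρ : ℝ} (hρ0 : 0 ≤ ρ) (hρ : ρ ≤ 1) :
    Tρ (fun z => l z • H z) ρ = Tρ H ρ := by
  have hs := sphere_sub hρ0 hρ
  have hlog : ∀ z, ‖z‖ ≤ 1 → Real.log (nsq (l z • H z))
      = 2 * Real.log ‖l z‖ + Real.log (nsq (H z)) := by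
    intro z hz
    have hd : ‖l z‖ ≠ 0 := norm_ne_zero_iff.2 (hl0 z hz)
    rw [nsq_smul, Real.log_mul (pow_ne_zero 2 hd) (nsq_pos (hH0 z hz)).ne', Real.log_pow]
    norm_num
  have e1 : Real.circleAverage (fun z => Real.log (nsq (l z • H z))) 0 ρ
      = Real.circleAverage (fun z => 2 * Real.log ‖l z‖ + Real.log (nsq (H z))) 0 ρ :=
    Real.circleAverage_congr_sphere fun z hz => hlog z (by simpa using hs hz)
  have c1 : CircleIntegrable (fun z => 2 * Real.log ‖l z‖) 0 ρ := by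
    refine ContinuousOn.circleIntegrable' (continuousOn_const.mul ?_)
    have := (harmonic_log_norm hl hl0).2
    rw [closure_ball01] at this
    exact this.mono hs
  have c2 : CircleIntegrable (fun z => Real.log (nsq (H z))) 0 ρ :=
    ContinuousOn.circleIntegrable' ((continuousOn_log_nsq hH
      (fun z hz => hH0 z (by simpa using hz))).mono hs)
  have e2 : Real.circleAverage (fun z => 2 * Real.log ‖l z‖) 0 ρ = 2 * Real.log ‖l 0‖ := by
    have := Real.circleAverage_fun_smul (𝕜 := ℝ) (a := 2) (f := fun z => Real.log ‖l z‖)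
      (c := 0) (R := ρ)
    simp only [smul_eq_mul] at this
    rw [this, avg_log_norm hl hl0 hρ0 hρ]
  rw [Tρ, Tρ, e1, Real.circleAverage_fun_add c1 c2, e2, hlog 0 (by simp)]
  ring

end lift
end Crest.Agent.R269.Frm290
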