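import Mathlib

/-!
# Row 269, leaf FRAMES (helper290), Part 3 of Blueprint_646, bundle version

Spectral factorisation on a sub-bundle `im Q` of the trivial bundle over the closed disc, reduced
to the spectral factorisation on the trivial bundle (leaf L1).
-/

set_option autoImplicit false
open Matrix Complex Metric
open scoped ComplexConjugate ComplexOrder

noncomputable section
namespace Crest.Agent.R269.Frm290

/-! ## Functions continuous on the closed disc and holomorphic inside -/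

lemma closure_ball01 : closure (ball (0 : ℂ) 1) = closedBall 0 1 :=
  closure_ball _ one_ne_zero

lemma frontier_ball01 : frontier (ball (0 : ℂ) 1) = sphere 0 1 :=
  frontier_ball _ one_ne_zero

lemma norm_exp_I_mul (w : ℂ) : ‖Complex.exp (I * w)‖ = Real.exp (-w.im) := by
  rw [Complex.norm_exp]; congr 1; simp

lemma norm_exp_neg_I_mul (w : ℂ) : ‖Complex.exp (-(I * w))‖ = Real.exp (w.im) := by
  rw [Complex.norm_exp]; congr 1; simp

/-- a function continuous on the closed disc, holomorphic inside and real on the circle is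
constant -/
theorem real_const {f : ℂ → ℂ} (hf : DiffContOnCl ℂ f (ball 0 1))
    (hr : ∀ z : ℂ, ‖z‖ = 1 → (f z).im = 0) : ∀ z : ℂ, ‖z‖ ≤ 1 → f z = f 0 := by
  have hb : Bornology.IsBounded (ball (0 : ℂ) 1) := isBounded_ball
  have h1 : DiffContOnCl ℂ (fun z => Complex.exp (I * f z)) (ball 0 1) :=
    ⟨(hf.1.const_mul I).cexp, (hf.2.const_smul I |>.cexp)⟩
  have h2 : DiffContOnCl ℂ (fun z => Complex.exp (-(I * f z))) (ball 0 1) :=
    ⟨(hf.1.const_mul I).neg.cexp, ((hf.2.const_smul I).neg.cexp)⟩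
  have him : ∀ z : ℂ, ‖z‖ ≤ 1 → (f z).im = 0 := by
    intro z hz
    have hz' : z ∈ closure (ball (0 : ℂ) 1) := by
      rw [closure_ball01]; simpa using hz
    have a1 := Complex.norm_le_of_forall_mem_frontier_norm_le hb h1 (C := 1) (by
      intro w hw
      rw [frontier_ball01] at hw
      have hw1 : ‖w‖ = 1 := by simpa using hw
      rw [norm_exp_I_mul, hr w hw1]; simp) hz'
    have a2 := Complex.norm_le_of_forall_mem_frontier_norm_le hb h2 (C := 1) (by
      intro w hw
      rw [frontier_ball01] at hw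
      have hw1 : ‖w‖ = 1 := by simpa using hw
      rw [norm_exp_neg_I_mul, hr w hw1]; simp) hz'
    simp only [norm_exp_I_mul, norm_exp_neg_I_mul, Real.exp_le_one_iff] at a1 a2
    linarith
  -- now `exp (I f)` has constant norm, hence is constant, hence `f' = 0`
  have hmax : IsMaxOn (norm ∘ fun z => Complex.exp (I * f z)) (ball 0 1) 0 := by
    intro w hw
    have hw1 : ‖w‖ ≤ 1 := by
      have := mem_ball_zero_iff.1 hw; exact this.le
    simp only [Function.comp, norm_exp_I_mul, him w hw1, him 0 (by simp), Set.mem_ofPred_eq, le_refl]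
  have hc : Set.EqOn (fun z => Complex.exp (I * f z))
      (Function.const ℂ (Complex.exp (I * f 0))) (ball 0 1) :=
    Complex.eqOn_of_isPreconnected_of_isMaxOn_norm (convex_ball _ _).isPreconnected isOpen_ball
      h1.1 (by simp) hmax
  have hd : Set.EqOn (deriv f) 0 (ball 0 1) := by
    intro z hz
    have hfz : HasDerivAt f (deriv f z) z :=
      (hf.1.differentiableAt (isOpen_ball.mem_nhds hz)).hasDerivAt
    have e1 : HasDerivAt (fun z => Complex.exp (I * f z))
        (Complex.exp (I * f z) * (I * deriv f z)) z := (hfz.const_mul I).cexp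
    have e2 : HasDerivAt (fun z => Complex.exp (I * f z)) 0 z := by
      refine (hasDerivAt_const z (Complex.exp (I * f 0))).congr_of_eventuallyEq ?_
      filter_upwards [isOpen_ball.mem_nhds hz] with w hw using hc hw
    have := e1.unique e2
    simpa [Complex.exp_ne_zero] using this
  have hcst : ∀ z ∈ ball (0 : ℂ) 1, f z = f 0 := by
    intro z hz
    exact isOpen_ball.is_const_of_deriv_eq_zero (convex_ball _ _).isPreconnected hf.1 hd hz
      (by simp)
  have hcl : Set.EqOn f (fun _ => f 0) (closure (ball (0 : ℂ) 1)) :=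
    Set.EqOn.of_subset_closure hcst hf.2 continuousOn_const subset_closure le_rfl
  intro z hz
  exact hcl (by rw [closure_ball01]; simpa using hz)

/-- two functions of the disc algebra which are conjugate on the circle are constant -/
theorem conj_const {f g : ℂ → ℂ} (hf : DiffContOnCl ℂ f (ball 0 1))
    (hg : DiffContOnCl ℂ g (ball 0 1)) (h : ∀ z : ℂ, ‖z‖ = 1 → g z = conj (f z)) :
    ∀ z : ℂ, ‖z‖ ≤ 1 → f z = f 0 := by
  have h1 := real_const (hf.add hg) (by
    intro z hz; simp [h z hz])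
  have h2 := real_const ((hf.sub hg).const_smul I) (by
    intro z hz; simp [h z hz])
  intro z hz
  have e1 := h1 z hz
  have e2 := h2 z hz
  simp only [Pi.add_apply, Pi.smul_apply, Pi.sub_apply, smul_eq_mul] at e1 e2
  have e3 : f z - g z = f 0 - g 0 := mul_left_cancel₀ I_ne_zero e2
  linear_combination (e1 + e3) / 2

/-! ## Matrices with entries in a class of functions -/

/-- all entries of the matrix function `M` belong to `A` -/
def MA {S : Type*} [SetLike S (ℂ → ℂ)] (A : S) {m n : Type*} (M : ℂ → Matrix m n ℂ) : Prop :=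
  ∀ i j, (fun z => M z i j) ∈ A

section MA
variable {S : Type*} [SetLike S (ℂ → ℂ)] {A : S} {m n p : Type*}

lemma MA.mul [SubsemiringClass S (ℂ → ℂ)] [Fintype n] {M : ℂ → Matrix m n ℂ}
    {N : ℂ → Matrix n p ℂ} (hM : MA A M) (hN : MA A N) : MA A (fun z => M z * N z) := by
  intro i j
  have : (fun z => (M z * N z) i j) = ∑ k, (fun z => M z i k) * (fun z => N z k j) := by
    ext z; simp [Matrix.mul_apply]
  rw [this]
  exact sum_mem fun k _ => mul_mem (hM i k) (hN k j)

lemma MA.add [SubsemiringClass S (ℂ → ℂ)] {M N : ℂ → Matrix m n ℂ}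
    (hM : MA A M) (hN : MA A N) : MA A (fun z => M z + N z) := by
  intro i j
  have : (fun z => (M z + N z) i j) = (fun z => M z i j) + (fun z => N z i j) := by
    ext z; simp
  rw [this]; exact add_mem (hM i j) (hN i j)

lemma MA.sub [SubringClass S (ℂ → ℂ)] {M N : ℂ → Matrix m n ℂ}
    (hM : MA A M) (hN : MA A N) : MA A (fun z => M z - N z) := by
  intro i j
  have : (fun z => (M z - N z) i j) = (fun z => M z i j) - (fun z => N z i j) := by
    ext z; simp
  rw [this]; exact sub_mem (hM i j) (hN i j)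

end MA

lemma MA.const (A : Subalgebra ℂ (ℂ → ℂ)) {m n : Type*} (M : Matrix m n ℂ) :
    MA A (fun _ => M) := by
  intro i j
  have : (fun _ : ℂ => M i j) = algebraMap ℂ (ℂ → ℂ) (M i j) := by
    ext z; simp
  rw [this]; exact A.algebraMap_mem _

lemma MA.one (A : Subalgebra ℂ (ℂ → ℂ)) {m : Type*} [DecidableEq m] :
    MA A (fun _ => (1 : Matrix m m ℂ)) := MA.const A 1

lemma MB.one (B : StarSubalgebra ℂ (ℂ → ℂ)) {m : Type*} [DecidableEq m] :
    MA B (fun _ => (1 : Matrix m m ℂ)) := MA.const B.toSubalgebra 1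

lemma MB.conjT {B : StarSubalgebra ℂ (ℂ → ℂ)} {m n : Type*} {M : ℂ → Matrix m n ℂ}
    (hM : MA B M) : MA B (fun z => (M z)ᴴ) := by
  intro i j
  have : (fun z => (M z)ᴴ i j) = star (fun z => M z j i) := by
    ext z; simp
  rw [this]; exact star_mem (hM j i)

/-- Leaf L1 for the size `m`: spectral factorisation `Bᴴ G B = 1` on the circle with `B` and
`B⁻¹ = B'` in the class `A`, for all positive definite `G` in the class `B`. -/
def SF (A : Subalgebra ℂ (ℂ → ℂ)) (B : StarSubalgebra ℂ (ℂ → ℂ)) (m : Type*) [Fintype m]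
    [DecidableEq m] : Prop :=
  ∀ G : ℂ → Matrix m m ℂ, MA B G → (∀ z, ‖z‖ = 1 → (G z).PosDef) →
    ∃ F F' : ℂ → Matrix m m ℂ, MA A F ∧ MA A F' ∧ (∀ z, ‖z‖ ≤ 1 → F z * F' z = 1) ∧
      ∀ z, ‖z‖ = 1 → (F z)ᴴ * G z * F z = 1

/-- a Hermitian idempotent matrix of rank `n` is `U Uᴴ` with `Uᴴ U = 1`, `U` of size `m × n` -/
theorem proj_factor {m : Type*} [Fintype m] [DecidableEq m] (R : Matrix m m ℂ) (hR : R.IsHermitian)
    (hRR : R * R = R) {n : ℕ} (hn : R.rank = n) :
    ∃ U : Matrix m (Fin n) ℂ, U * Uᴴ = R ∧ Uᴴ * U = 1 := by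
  classical
  let T : EuclideanSpace ℂ m →ₗ[ℂ] EuclideanSpace ℂ m := Matrix.toEuclideanLin R
  have hTT : ∀ v, T (T v) = T v := by
    intro v
    simp only [T, Matrix.toLpLin_apply, Matrix.mulVec_mulVec, hRR]
  have hsym : ∀ v w, inner ℂ (T v) w = inner ℂ v (T w) := by
    have := Matrix.isSymmetric_toEuclideanLin_iff.2 hR
    intro v w; exact this v w
  let W : Submodule ℂ (EuclideanSpace ℂ m) := LinearMap.range T
  have hW : Module.finrank ℂ W = n := by
    rw [← hn, Matrix.rank_eq_finrank_range_toLin R (EuclideanSpace.basisFun m ℂ).toBasis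
      (EuclideanSpace.basisFun m ℂ).toBasis]
    rfl
  let e : OrthonormalBasis (Fin n) ℂ W := (stdOrthonormalBasis ℂ W).reindex (finCongr hW)
  have hTe : ∀ k, T (e k : EuclideanSpace ℂ m) = e k := by
    intro k
    obtain ⟨v, hv⟩ := LinearMap.mem_range.1 (e k).2
    rw [← hv, hTT]
  have hin : ∀ k l, inner ℂ (e k : EuclideanSpace ℂ m) (e l : EuclideanSpace ℂ m)
      = if k = l then (1 : ℂ) else 0 := by
    intro k l
    have := orthonormal_iff_ite.1 e.orthonormal k l
    simpa using this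
  refine ⟨Matrix.of fun i k => (e k : EuclideanSpace ℂ m) i, ?_, ?_⟩
  · -- both sides agree on vectors
    apply Matrix.toEuclideanLin.injective
    ext1 v
    have hexp : T v = ∑ k, inner ℂ (e k : EuclideanSpace ℂ m) v • (e k : EuclideanSpace ℂ m) := by
      have h1 : T v ∈ W := LinearMap.mem_range_self T v
      have h2 := e.sum_repr' ⟨T v, h1⟩
      have h3 := congrArg (Subtype.val) h2
      simp only [AddSubmonoidClass.coe_finsetSum, Submodule.coe_smul, Submodule.coe_inner] at h3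
      rw [← h3]
      refine Finset.sum_congr rfl fun k _ => ?_
      rw [← hsym, hTe]
    change _ = T v
    rw [hexp]
    ext i
    simp only [Matrix.toLpLin_apply, Matrix.mulVec, dotProduct, Matrix.mul_apply,
      Matrix.of_apply, Matrix.conjTranspose_apply, WithLp.ofLp_sum, Finset.sum_apply,
      WithLp.ofLp_smul, Pi.smul_apply, smul_eq_mul, EuclideanSpace.inner_eq_star_dotProduct,
      Pi.star_apply, RCLike.star_def, Finset.sum_mul]
    rw [Finset.sum_comm]
    refine Finset.sum_congr rfl fun k _ => Finset.sum_congr rfl fun l _ => ?_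
    ring
  · ext k l
    have := hin k l
    simp only [EuclideanSpace.inner_eq_star_dotProduct, dotProduct, Pi.star_apply] at this
    simp only [Matrix.mul_apply, Matrix.conjTranspose_apply, Matrix.of_apply, Matrix.one_apply]
    rw [← this]
    refine Finset.sum_congr rfl fun i _ => ?_
    ring

/-- `Q^* G Q + (1-Q)^* (1-Q)` is positive definite if `G` is Hermitian and positive on `im Q`. -/
theorem posDef_tilde {m : Type*} [Fintype m] [DecidableEq m] {Q G : Matrix m m ℂ}
    (hQ : Q * Q = Q) (hG : G.IsHermitian)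
    (hpos : ∀ v : m → ℂ, v ≠ 0 → Q *ᵥ v = v → 0 < (star v ⬝ᵥ (G *ᵥ v)).re) :
    (Qᴴ * G * Q + (1 - Q)ᴴ * (1 - Q)).PosDef := by
  have hH : (Qᴴ * G * Q + (1 - Q)ᴴ * (1 - Q)).IsHermitian := by
    refine Matrix.IsHermitian.add ?_ (Matrix.isHermitian_conjTranspose_mul_self _)
    exact Matrix.isHermitian_conjTranspose_mul_mul _ hG
  refine Matrix.PosDef.of_dotProduct_mulVec_pos hH ?_
  intro v hv
  have e1 : star v ⬝ᵥ ((Qᴴ * G * Q + (1 - Q)ᴴ * (1 - Q)) *ᵥ v)
      = star (Q *ᵥ v) ⬝ᵥ (G *ᵥ (Q *ᵥ v)) + star ((1 - Q) *ᵥ v) ⬝ᵥ ((1 - Q) *ᵥ v) := by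
    rw [Matrix.add_mulVec, dotProduct_add, Matrix.star_mulVec, Matrix.star_mulVec]
    simp only [Matrix.dotProduct_mulVec, Matrix.vecMul_vecMul, Matrix.mul_assoc]
  have e2 : (star ((1 - Q) *ᵥ v) ⬝ᵥ ((1 - Q) *ᵥ v)) = ((∑ i, ‖((1 - Q) *ᵥ v) i‖ ^ 2 : ℝ) : ℂ) := by
    simp only [dotProduct, Pi.star_apply]
    push_cast
    refine Finset.sum_congr rfl fun i _ => ?_
    rw [RCLike.star_def, Complex.conj_mul']
  have hreal : (star v ⬝ᵥ ((Qᴴ * G * Q + (1 - Q)ᴴ * (1 - Q)) *ᵥ v)).im = 0 := by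
    have := hH.im_star_dotProduct_mulVec_self v
    simpa using this
  have hQv : Q *ᵥ (Q *ᵥ v) = Q *ᵥ v := by rw [Matrix.mulVec_mulVec, hQ]
  have hnn : 0 ≤ ∑ i, ‖((1 - Q) *ᵥ v) i‖ ^ 2 := Finset.sum_nonneg fun i _ => by positivity
  rw [Complex.lt_def]
  refine ⟨?_, by simpa using hreal.symm⟩
  rw [e1, e2]
  simp only [Complex.zero_re, Complex.add_re, Complex.ofReal_re]
  by_cases h0 : Q *ᵥ v = 0
  · have hv' : (1 - Q) *ᵥ v = v := by rw [Matrix.sub_mulVec, Matrix.one_mulVec, h0, sub_zero]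
    rw [h0, hv']
    obtain ⟨i, hi⟩ := Function.ne_iff.1 hv
    have : 0 < ∑ i, ‖v i‖ ^ 2 :=
      Finset.sum_pos' (fun i _ => by positivity) ⟨i, Finset.mem_univ _, by
        have : v i ≠ 0 := hi
        positivity⟩
    simpa using this
  · have := hpos _ h0 hQv
    linarith

/-- **Spectral factorisation on a sub-bundle.** -/
theorem sf_bundle {A : Subalgebra ℂ (ℂ → ℂ)} {B : StarSubalgebra ℂ (ℂ → ℂ)}
    (hA : ∀ f ∈ A, DiffContOnCl ℂ f (ball 0 1)) (hAB : ∀ f ∈ A, f ∈ B)
    {m : Type*} [Fintype m] [DecidableEq m] (hSF : SF A B m)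
    {Q G : ℂ → Matrix m m ℂ} (hQ : MA A Q) (hQQ : ∀ z, ‖z‖ ≤ 1 → Q z * Q z = Q z)
    (hGB : MA B G) (hG : ∀ z, ‖z‖ = 1 → (G z).IsHermitian)
    (hpos : ∀ z, ‖z‖ = 1 → ∀ v : m → ℂ, v ≠ 0 → Q z *ᵥ v = v → 0 < (star v ⬝ᵥ (G z *ᵥ v)).re)
    {n : ℕ} (hn : (Q 0).rank = n) :
    ∃ (M : ℂ → Matrix m (Fin n) ℂ) (M' : ℂ → Matrix (Fin n) m ℂ), MA A M ∧ MA A M' ∧
      (∀ z, ‖z‖ ≤ 1 → M z * M' z = Q z) ∧ (∀ z, ‖z‖ ≤ 1 → M' z * M z = 1) ∧
      (∀ z, ‖z‖ = 1 → (M z)ᴴ * G z * M z = 1) := by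
  classical
  have hQB : MA B Q := fun i j => hAB _ (hQ i j)
  have h1Q : MA B (fun z => 1 - Q z) := (MB.one B).sub hQB
  have hGt : MA B (fun z => (Q z)ᴴ * G z * Q z + (1 - Q z)ᴴ * (1 - Q z)) :=
    (((MB.conjT hQB).mul hGB).mul hQB).add ((MB.conjT h1Q).mul h1Q)
  obtain ⟨F, F', hF, hF', hFF', hFG⟩ := hSF _ hGt (fun z hz =>
    posDef_tilde (hQQ z hz.le) (hG z hz) (hpos z hz))
  have hF'F : ∀ z, ‖z‖ ≤ 1 → F' z * F z = 1 := fun z hz => mul_eq_one_comm.1 (hFF' z hz)
  -- the holomorphic matrix function `R = F' Q F`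
  have hR : MA A (fun z => F' z * Q z * F z) := (hF'.mul hQ).mul hF
  have hRherm : ∀ z, ‖z‖ = 1 → (F' z * Q z * F z).IsHermitian := by
    intro z hz
    set Gt := (Q z)ᴴ * G z * Q z + (1 - Q z)ᴴ * (1 - Q z) with hGtdef
    have hGtH : Gt.IsHermitian :=
      (posDef_tilde (hQQ z hz.le) (hG z hz) (hpos z hz)).isHermitian
    have hq := hQQ z hz.le
    have hGQ : Gt * Q z = (Q z)ᴴ * G z * Q z := by
      have h0 : (1 - Q z) * Q z = 0 := by rw [Matrix.sub_mul, Matrix.one_mul, hq, sub_self]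
      rw [hGtdef, Matrix.add_mul, Matrix.mul_assoc _ (Q z) (Q z), hq, Matrix.mul_assoc _ (1 - Q z),
        h0, Matrix.mul_zero, add_zero]
    have hF'e : F' z = (F z)ᴴ * Gt := by
      have := hFG z hz
      calc F' z = ((F z)ᴴ * Gt * F z) * F' z := by rw [hFG z hz, Matrix.one_mul]
        _ = (F z)ᴴ * Gt * (F z * F' z) := by rw [Matrix.mul_assoc]
        _ = (F z)ᴴ * Gt := by rw [hFF' z hz.le, Matrix.mul_one]
    have : F' z * Q z * F z = (F z)ᴴ * ((Q z)ᴴ * G z * Q z) * F z := by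
      rw [hF'e, Matrix.mul_assoc ((F z)ᴴ) Gt (Q z), hGQ]
    rw [this]
    exact Matrix.isHermitian_conjTranspose_mul_mul _
      (Matrix.isHermitian_conjTranspose_mul_mul _ (hG z hz))
  have hRc : ∀ z, ‖z‖ ≤ 1 → F' z * Q z * F z = F' 0 * Q 0 * F 0 := by
    intro z hz
    ext i j
    refine conj_const (hA _ (hR i j)) (hA _ (hR j i)) ?_ z hz
    intro w hw
    have := (hRherm w hw).apply j i
    simpa using this.symm
  set R := F' 0 * Q 0 * F 0 with hRdef
  have h0 : ‖(0 : ℂ)‖ ≤ 1 := by simp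
  have hRH : R.IsHermitian := by
    have := hRherm 1 (by simp)
    rwa [hRc 1 (by simp)] at this
  have hRR : R * R = R := by
    rw [hRdef]
    calc F' 0 * Q 0 * F 0 * (F' 0 * Q 0 * F 0)
        = F' 0 * Q 0 * (F 0 * F' 0) * Q 0 * F 0 := by simp only [Matrix.mul_assoc]
      _ = F' 0 * (Q 0 * Q 0) * F 0 := by rw [hFF' 0 h0]; simp only [Matrix.mul_assoc, Matrix.mul_one, Matrix.one_mul]
      _ = _ := by rw [hQQ 0 h0]
  have hRn : R.rank = n := by
    rw [← hn, hRdef]
    have hu : IsUnit (F 0).det := by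
      have := congrArg Matrix.det (hFF' 0 h0)
      rw [Matrix.det_mul, Matrix.det_one] at this
      exact IsUnit.of_mul_eq_one _ this
    have hu' : IsUnit (F' 0).det := by
      have := congrArg Matrix.det (hF'F 0 h0)
      rw [Matrix.det_mul, Matrix.det_one] at this
      exact IsUnit.of_mul_eq_one _ this
    rw [Matrix.rank_mul_eq_left_of_isUnit_det _ _ hu, Matrix.rank_mul_eq_right_of_isUnit_det _ _ hu']
  obtain ⟨U, hU1, hU2⟩ := proj_factor R hRH hRR hRn
  refine ⟨fun z => F z * U, fun z => Uᴴ * F' z, hF.mul (MA.const A U),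
    (MA.const A Uᴴ).mul hF', ?_, ?_, ?_⟩
  · intro z hz
    calc F z * U * (Uᴴ * F' z) = F z * (U * Uᴴ) * F' z := by simp only [Matrix.mul_assoc]
      _ = F z * (F' z * Q z * F z) * F' z := by rw [hU1, hRc z hz]
      _ = (F z * F' z) * Q z * (F z * F' z) := by simp only [Matrix.mul_assoc]
      _ = Q z := by rw [hFF' z hz, Matrix.one_mul, Matrix.mul_one]
  · intro z hz
    calc Uᴴ * F' z * (F z * U) = Uᴴ * (F' z * F z) * U := by simp only [Matrix.mul_assoc]
      _ = 1 := by rw [hF'F z hz, Matrix.mul_one, hU2]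
  · intro z hz
    -- `Q (F U) = F U`, so `(1 - Q)` kills it
    have hQM : Q z * (F z * U) = F z * U := by
      have e : F z * U = F z * (U * (Uᴴ * U)) := by rw [hU2, Matrix.mul_one]
      calc Q z * (F z * U) = (F z * F' z) * Q z * (F z * U) := by rw [hFF' z hz.le, Matrix.one_mul]
        _ = F z * (F' z * Q z * F z) * U := by simp only [Matrix.mul_assoc]
        _ = F z * (U * Uᴴ) * U := by rw [hRc z hz.le, hU1]
        _ = F z * (U * (Uᴴ * U)) := by simp only [Matrix.mul_assoc]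
        _ = F z * U := e.symm
    have h1QM : (1 - Q z) * (F z * U) = 0 := by rw [Matrix.sub_mul, Matrix.one_mul, hQM, sub_self]
    have hQMs : (F z * U)ᴴ * (Q z)ᴴ = (F z * U)ᴴ := by
      rw [← Matrix.conjTranspose_mul, hQM]
    calc (F z * U)ᴴ * G z * (F z * U)
        = (F z * U)ᴴ * ((Q z)ᴴ * G z * Q z + (1 - Q z)ᴴ * (1 - Q z)) * (F z * U) := by
          rw [Matrix.mul_add, Matrix.add_mul]
          have e1 : (F z * U)ᴴ * ((1 - Q z)ᴴ * (1 - Q z)) * (F z * U) = 0 := by
            simp only [Matrix.mul_assoc] at h1QM ⊢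
            rw [h1QM]; simp
          have e2 : (F z * U)ᴴ * ((Q z)ᴴ * G z * Q z) * (F z * U)
              = (F z * U)ᴴ * G z * (F z * U) := by
            calc (F z * U)ᴴ * ((Q z)ᴴ * G z * Q z) * (F z * U)
                = ((F z * U)ᴴ * (Q z)ᴴ) * G z * (Q z * (F z * U)) := by
                  simp only [Matrix.mul_assoc]
              _ = _ := by rw [hQMs, hQM]
          rw [e1, e2, add_zero]
      _ = Uᴴ * ((F z)ᴴ * ((Q z)ᴴ * G z * Q z + (1 - Q z)ᴴ * (1 - Q z)) * F z) * U := by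
          rw [Matrix.conjTranspose_mul]; simp only [Matrix.mul_assoc]
      _ = 1 := by rw [hFG z hz, Matrix.mul_one, hU2]

end Crest.Agent.R269.Frm290
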