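import Crest.Agent.R269.GeoM_328

/-! # R269, leaf GEO: the local chart theorem (helper328) -/

set_option autoImplicit false

open MvPolynomial Crest.AlgGeometry.ProjEmb
open scoped ContDiff Topology ComplexConjugate

namespace Crest.Agent.R269.Geo_328

noncomputable section

variable {N n : ℕ} {I : Ideal (HomCoordRing N)}

/-- components of the coordinate map -/
def PhiC (i : Fin (N + 1)) (J : Fin n → Fin (N + 1)) (F : Fin (N - n) → HomCoordRing N)
    (q : EE N) : RI N n → ℂ
  | none => q i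
  | some (Sum.inl k) => q (J k)
  | some (Sum.inr s) => MvPolynomial.eval q (F s)

/-- derivative of the coordinate map as a continuous linear map -/
def PhiL (i : Fin (N + 1)) (J : Fin n → Fin (N + 1)) (F : Fin (N - n) → HomCoordRing N)
    (q : EE N) : EE N →L[ℂ] (RI N n → ℂ) :=
  ContinuousLinearMap.pi fun a => match a with
  | none => ContinuousLinearMap.proj (R := ℂ) (φ := fun _ : Fin (N + 1) => ℂ) i
  | some (Sum.inl k) => ContinuousLinearMap.proj (R := ℂ) (φ := fun _ : Fin (N + 1) => ℂ) (J k)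
  | some (Sum.inr s) => dPL (F s) q

theorem PhiL_apply (i : Fin (N + 1)) (J : Fin n → Fin (N + 1)) (F : Fin (N - n) → HomCoordRing N)
    (q v : EE N) : PhiL i J F q v = compL i J F q v := by
  funext a
  rcases a with _ | (k | s)
  · rfl
  · rfl
  · change dPL (F s) q v = dP (F s) q v
    simp

theorem hasFDerivAt_PhiC (i : Fin (N + 1)) (J : Fin n → Fin (N + 1))
    (F : Fin (N - n) → HomCoordRing N) (q : EE N) : HasFDerivAt (PhiC i J F) (PhiL i J F q) q := by
  rw [PhiL, hasFDerivAt_pi]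
  intro a
  rcases a with _ | (k | s)
  · exact (ContinuousLinearMap.proj (R := ℂ) (φ := fun _ : Fin (N + 1) => ℂ) i).hasFDerivAt
  · exact (ContinuousLinearMap.proj (R := ℂ) (φ := fun _ : Fin (N + 1) => ℂ) (J k)).hasFDerivAt
  · exact hasFDerivAt_eval (F s) q

theorem contDiff_PhiC (i : Fin (N + 1)) (J : Fin n → Fin (N + 1))
    (F : Fin (N - n) → HomCoordRing N) {m : WithTop ℕ∞} : ContDiff ℂ m (PhiC i J F) := by
  rw [contDiff_pi]
  intro a
  rcases a with _ | (k | s)
  · exact (ContinuousLinearMap.proj (R := ℂ) (φ := fun _ : Fin (N + 1) => ℂ) i).contDiff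
  · exact (ContinuousLinearMap.proj (R := ℂ) (φ := fun _ : Fin (N + 1) => ℂ) (J k)).contDiff
  · exact contDiff_eval (F s)

/-- embedding of the chart space -/
def embL (N n : ℕ) : CC n →L[ℂ] (RI N n → ℂ) :=
  ContinuousLinearMap.pi fun a => match a with
  | none => 0
  | some (Sum.inl k) => ContinuousLinearMap.proj (R := ℂ) (φ := fun _ : Fin n => ℂ) k
  | some (Sum.inr _) => 0

@[simp] theorem embL_none (z : CC n) : embL N n z none = 0 := rfl
@[simp] theorem embL_inl (z : CC n) (k : Fin n) : embL N n z (some (Sum.inl k)) = z k := rfl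
@[simp] theorem embL_inr (z : CC n) (s : Fin (N - n)) : embL N n z (some (Sum.inr s)) = 0 := rfl

/-- Gronwall argument: a path in `{F = 0}` starting in the cone stays in the cone -/
theorem path_in_cone [hI : I.IsPrime] (hX : IsSmoothProjective I n) (i : Fin (N + 1))
    (J : Fin n → Fin (N + 1)) {F : Fin (N - n) → HomCoordRing N} (hF : ∀ s, F s ∈ I)
    (c c' : ℝ → EE N) (hc : ∀ t ∈ Set.Icc (0 : ℝ) 1, HasDerivAt c (c' t) t)
    (hc' : ContinuousOn c' (Set.Icc 0 1))
    (h0 : c 0 ∈ affineCone I) (hi : ∀ t ∈ Set.Icc (0 : ℝ) 1, c' t i = 0)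
    (hFc : ∀ t ∈ Set.Icc (0 : ℝ) 1, ∀ s, dP (F s) (c t) (c' t) = 0)
    (hD : ∀ t ∈ Set.Icc (0 : ℝ) 1, MvPolynomial.eval (c t) (DelP hX.dim_le i J F) ≠ 0) :
    c 1 ∈ affineCone I := by
  classical
  obtain ⟨S, hS⟩ : I.FG := (isNoetherianRing_iff_ideal_fg _).1 inferInstance I
  have hSI : ∀ g ∈ S, g ∈ I := fun g hg => by rw [← hS]; exact Ideal.subset_span hg
  -- coefficients
  have hcoef : ∀ (g : S) (k : Fin n), ∃ a : HomCoordRing N → HomCoordRing N,
      theta hX.dim_le i J F k g.1 = ∑ h ∈ S, a h * h := by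
    intro g k
    have h1 := hS.ge (theta_mem hX hX.dim_le i J hF k (hSI g.1 g.2))
    obtain ⟨a, -, ha⟩ := Submodule.mem_span_finset.1 h1
    exact ⟨a, ha.symm⟩
  choose a ha using hcoef
  have hcc : ContinuousOn c (Set.Icc 0 1) := fun t ht => (hc t ht).continuousAt.continuousWithinAt
  set φ : ℝ → (S → ℂ) := fun t g => MvPolynomial.eval (c t) g.1 with hφ
  set φ' : ℝ → (S → ℂ) := fun t g => dP g.1 (c t) (c' t) with hφ'
  have hder : ∀ t ∈ Set.Icc (0 : ℝ) 1, HasDerivAt φ (φ' t) t := by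
    intro t ht
    rw [hasDerivAt_pi]
    intro g
    have h1 : HasDerivAt (fun x => φ x g) (((dPL g.1 (c t)).restrictScalars ℝ) (c' t)) t :=
      ((hasFDerivAt_eval g.1 (c t)).restrictScalars ℝ).comp_hasDerivAt t (hc t ht)
    have h2 : ((dPL g.1 (c t)).restrictScalars ℝ) (c' t) = φ' t g := by
      rw [ContinuousLinearMap.coe_restrictScalars', dPL_apply]
    rwa [h2] at h1
  -- bound
  set κ : ℝ → ℝ := fun t => ‖(MvPolynomial.eval (c t) (DelP hX.dim_le i J F))⁻¹‖ *
    ∑ g : S, ∑ k, ‖c' t (J k)‖ * ∑ h ∈ S, ‖MvPolynomial.eval (c t) (a g k h)‖ with hκ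
  have hκc : ContinuousOn κ (Set.Icc 0 1) := by
    refine ContinuousOn.mul ?_ ?_
    · refine (ContinuousOn.inv₀ ?_ hD).norm
      exact (continuous_eval _).comp_continuousOn hcc
    · refine continuousOn_finsetSum _ fun g _ => continuousOn_finsetSum _ fun k _ => ?_
      refine ContinuousOn.mul ?_ (continuousOn_finsetSum _ fun h _ => ?_)
      · exact ((continuous_apply (J k)).comp_continuousOn hc').norm
      · exact ((continuous_eval _).comp_continuousOn hcc).norm
  obtain ⟨K, hK⟩ := isCompact_Icc.exists_bound_of_continuousOn hκc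
  have hφz : ∀ h ∈ S, ∀ t, ‖MvPolynomial.eval (c t) h‖ ≤ ‖φ t‖ := by
    intro h hh t
    exact norm_le_pi_norm (φ t) ⟨h, hh⟩
  have hbound : ∀ t ∈ Set.Icc (0 : ℝ) 1, ‖φ' t‖ ≤ κ t * ‖φ t‖ := by
    intro t ht
    have hκ0 : 0 ≤ κ t := by
      rw [hκ]; positivity
    refine (pi_norm_le_iff_of_nonneg (by positivity)).2 fun g => ?_
    have h1 := cramer_dP hX.dim_le i J F g.1 (c t) (c' t) (hi t ht) (hFc t ht)
    have h2 : dP g.1 (c t) (c' t) = (MvPolynomial.eval (c t) (DelP hX.dim_le i J F))⁻¹ *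
        ∑ k, c' t (J k) * MvPolynomial.eval (c t) (theta hX.dim_le i J F k g.1) := by
      rw [← h1, ← mul_assoc, inv_mul_cancel₀ (hD t ht), one_mul]
    have h3 : ∀ k, ‖MvPolynomial.eval (c t) (theta hX.dim_le i J F k g.1)‖ ≤
        (∑ h ∈ S, ‖MvPolynomial.eval (c t) (a g k h)‖) * ‖φ t‖ := by
      intro k
      rw [ha g k, map_sum, Finset.sum_mul]
      refine (norm_sum_le _ _).trans (Finset.sum_le_sum fun h hh => ?_)
      rw [map_mul, norm_mul]
      exact mul_le_mul_of_nonneg_left (hφz h hh t) (norm_nonneg _)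
    calc ‖φ' t g‖ = ‖(MvPolynomial.eval (c t) (DelP hX.dim_le i J F))⁻¹‖ *
        ‖∑ k, c' t (J k) * MvPolynomial.eval (c t) (theta hX.dim_le i J F k g.1)‖ := by
          rw [hφ']; simp only; rw [h2, norm_mul]
      _ ≤ ‖(MvPolynomial.eval (c t) (DelP hX.dim_le i J F))⁻¹‖ *
        ((∑ k, ‖c' t (J k)‖ * ∑ h ∈ S, ‖MvPolynomial.eval (c t) (a g k h)‖) * ‖φ t‖) := by
          refine mul_le_mul_of_nonneg_left ?_ (norm_nonneg _)
          refine (norm_sum_le _ _).trans ?_
          rw [Finset.sum_mul]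
          refine Finset.sum_le_sum fun k _ => ?_
          rw [norm_mul, mul_assoc]
          exact mul_le_mul_of_nonneg_left (h3 k) (norm_nonneg _)
      _ ≤ κ t * ‖φ t‖ := by
          rw [hκ, ← mul_assoc]
          refine mul_le_mul_of_nonneg_right ?_ (norm_nonneg _)
          refine mul_le_mul_of_nonneg_left ?_ (norm_nonneg _)
          exact Finset.single_le_sum (f := fun g : S =>
            ∑ k, ‖c' t (J k)‖ * ∑ h ∈ S, ‖MvPolynomial.eval (c t) (a g k h)‖)
            (fun g _ => by positivity) (Finset.mem_univ g)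
  have hfin := eq_zero_of_abs_deriv_le_mul_abs_self_of_eq_zero_right (f := φ) (f' := φ') (K := K)
    (a := 0) (b := 1) (fun t ht => (hder t ht).continuousAt.continuousWithinAt)
    (fun t ht => (hder t (Set.Ico_subset_Icc_self ht)).hasDerivWithinAt)
    (by funext g; exact h0 _ (hSI g.1 g.2))
    (fun t ht => (hbound t (Set.Ico_subset_Icc_self ht)).trans
      (mul_le_mul_of_nonneg_right ((le_abs_self _).trans
        (hK t (Set.Ico_subset_Icc_self ht))) (norm_nonneg _))) 1 (by simp)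
  intro G hG
  rw [← hS] at hG
  refine Submodule.span_induction (p := fun G _ => MvPolynomial.eval (c 1) G = 0) ?_ ?_ ?_ ?_ hG
  · intro g hg
    exact congrFun hfin ⟨g, hg⟩
  · simp
  · intro x y _ _ hx hy
    rw [map_add, hx, hy, add_zero]
  · intro b x _ hx
    rw [smul_eq_mul, map_mul, hx, mul_zero]

end

end Crest.Agent.R269.Geo_328
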