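import Crest.Agent.R269.GeoP_328

/-! # R269, leaf GEO: choice of equations and free coordinates; minors lie in the ideal (helper328) -/

set_option autoImplicit false

open MvPolynomial Crest.AlgGeometry.ProjEmb
open scoped ContDiff Topology ComplexConjugate

namespace Crest.Agent.R269.Geo_328

noncomputable section

variable {N n : ℕ} {I : Ideal (HomCoordRing N)}

/-- coordinates restricted to a subspace span its dual -/
theorem span_coord_restrict (K : Submodule ℂ (EE N)) :
    Submodule.span ℂ (Set.range fun j : Fin (N + 1) =>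
      (LinearMap.proj (R := ℂ) (φ := fun _ : Fin (N + 1) => ℂ) j).comp K.subtype) = ⊤ := by
  rw [eq_top_iff]
  rintro φ -
  obtain ⟨g, hg⟩ := LinearMap.exists_extend φ
  have h1 : φ = ∑ j, g (Pi.single j 1) •
      (LinearMap.proj (R := ℂ) (φ := fun _ : Fin (N + 1) => ℂ) j).comp K.subtype := by
    rw [← hg]
    ext v
    simp only [LinearMap.comp_apply, Submodule.subtype_apply, LinearMap.sum_apply,
      LinearMap.smul_apply, LinearMap.proj_apply, smul_eq_mul]
    conv_lhs => rw [show (v : EE N) = ∑ j, (v : EE N) j • (Pi.single j (1 : ℂ) : EE N) from by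
      ext k; simp [Finset.sum_apply, Pi.single_apply]]
    rw [map_sum]
    exact Finset.sum_congr rfl fun j _ => by rw [map_smul, smul_eq_mul, mul_comm]
  rw [h1]
  exact Submodule.sum_mem _ fun j _ => Submodule.smul_mem _ _ (Submodule.subset_span ⟨j, rfl⟩)

/-- equations `F` with independent gradients at `q₀` and free coordinates `J` -/
theorem exists_frame (hX : IsSmoothProjective I n) {q₀ : EE N} (hq₀ : q₀ ∈ Cone I)
    {i : Fin (N + 1)} (hi : q₀ i ≠ 0) :
    ∃ (F : Fin (N - n) → HomCoordRing N) (J : Fin n → Fin (N + 1)), (∀ s, F s ∈ I) ∧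
      Function.Injective J ∧ (∀ k, J k ≠ i) ∧
      (∀ v : EE N, (∀ s, dP (F s) q₀ v = 0) → v ∈ Tan I q₀) ∧
      ∀ v : EE N, v i = 0 → (∀ k, v (J k) = 0) → (∀ s, dP (F s) q₀ v = 0) → v = 0 := by
  classical
  -- the equations
  set S : Set (EE N) := {v : Fin (N + 1) → ℂ |
    ∃ F ∈ I, v = fun j => MvPolynomial.eval q₀ (MvPolynomial.pderiv j F)} with hS
  have hr : Module.finrank ℂ (Submodule.span ℂ S) = N - n := hX.jacobian q₀ hq₀.1 hq₀.2
  obtain ⟨f, hfS, hfspan, -⟩ := Submodule.exists_fun_fin_finrank_span_eq ℂ S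
  choose G hGI hG using hfS
  have hker : ∀ v : EE N, (∀ s : Fin (N - n), dP (G (Fin.cast hr.symm s)) q₀ v = 0) →
      v ∈ Tan I q₀ := by
    intro v hv F hF
    have h1 : gradP F q₀ ∈ Submodule.span ℂ (Set.range f) := by
      rw [hfspan]; exact Submodule.subset_span ⟨F, hF, rfl⟩
    have h2 : ∀ g ∈ Submodule.span ℂ (Set.range f), g ⬝ᵥ v = 0 := by
      intro g hg
      refine Submodule.span_induction (p := fun g _ => g ⬝ᵥ v = 0) ?_ ?_ ?_ ?_ hg
      · rintro _ ⟨s, rfl⟩
        have := hv (Fin.cast hr s)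
        rw [show Fin.cast hr.symm (Fin.cast hr s) = s from by ext; rfl] at this
        rw [hG s]
        exact this
      · simp
      · intro x y _ _ hx hy
        rw [add_dotProduct, hx, hy, add_zero]
      · intro a x _ hx
        rw [smul_dotProduct, hx, smul_zero]
    exact h2 _ h1
  -- the free coordinates
  set K : Submodule ℂ (EE N) := Tan I q₀ ⊓
    LinearMap.ker (LinearMap.proj (R := ℂ) (φ := fun _ : Fin (N + 1) => ℂ) i) with hK
  have hKn : Module.finrank ℂ K = n := by
    set φ : Tan I q₀ →ₗ[ℂ] ℂ := (LinearMap.proj (R := ℂ) (φ := fun _ : Fin (N + 1) => ℂ) i).comp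
      (Tan I q₀).subtype with hφ
    have hsurj : LinearMap.range φ = ⊤ := by
      rw [LinearMap.range_eq_top]
      intro c
      refine ⟨(c / q₀ i) • ⟨q₀, self_mem_Tan hX hq₀.1⟩, ?_⟩
      simp [hφ, div_mul_cancel₀ _ hi]
    have h1 := LinearMap.finrank_range_add_finrank_ker φ
    rw [hsurj, finrank_top, finrank_Tan hX hq₀, Module.finrank_self] at h1
    have h2 : Module.finrank ℂ (LinearMap.ker φ) = Module.finrank ℂ K := by
      have h3 : (LinearMap.ker φ).map (Tan I q₀).subtype = K := by
        ext v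
        simp only [Submodule.mem_map, LinearMap.mem_ker, Submodule.subtype_apply, hK, hφ,
          Submodule.mem_inf, LinearMap.comp_apply, LinearMap.proj_apply]
        constructor
        · rintro ⟨y, hy, rfl⟩
          exact ⟨y.2, hy⟩
        · rintro ⟨hv, hv2⟩
          exact ⟨⟨v, hv⟩, hv2, rfl⟩
      rw [← h3]
      exact (Submodule.equivMapOfInjective (Tan I q₀).subtype (Submodule.injective_subtype _)
        (LinearMap.ker φ)).finrank_eq
    omega
  obtain ⟨g, hgS, hgspan, hgli⟩ := Submodule.exists_fun_fin_finrank_span_eq ℂ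
    (Set.range fun j : Fin (N + 1) =>
      (LinearMap.proj (R := ℂ) (φ := fun _ : Fin (N + 1) => ℂ) j).comp K.subtype)
  have hgn : Module.finrank ℂ (Submodule.span ℂ (Set.range fun j : Fin (N + 1) =>
      (LinearMap.proj (R := ℂ) (φ := fun _ : Fin (N + 1) => ℂ) j).comp K.subtype)) = n := by
    rw [span_coord_restrict, finrank_top]
    rw [← hKn]
    exact Subspace.dual_finrank_eq
  have hgspan' := hgspan.trans (span_coord_restrict K)
  choose j hj using hgS
  refine ⟨fun s => G (Fin.cast hr.symm s), fun k => j (Fin.cast hgn.symm k), fun s => hGI _, ?_,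
    ?_, hker, ?_⟩
  · intro a b hab
    have h1 : g (Fin.cast hgn.symm a) = g (Fin.cast hgn.symm b) := by
      rw [← hj, ← hj]; simp only at hab; rw [hab]
    have h2 := hgli.injective h1
    exact Fin.cast_injective _ h2
  · intro k hk
    have h1 : g (Fin.cast hgn.symm k) = 0 := by
      rw [← hj]
      ext v
      have := v.2.2
      simp only [LinearMap.comp_apply, Submodule.subtype_apply, LinearMap.proj_apply,
        LinearMap.zero_apply]
      have hk' : j (Fin.cast hgn.symm k) = i := hk
      rw [hk']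
      exact this
    exact hgli.ne_zero _ h1
  · intro v hvi hvJ hvF
    have hvK : v ∈ K := ⟨hker v hvF, hvi⟩
    have h1 : ∀ φ ∈ Submodule.span ℂ (Set.range g), φ ⟨v, hvK⟩ = 0 := by
      intro φ hφ
      refine Submodule.span_induction (p := fun φ _ => φ ⟨v, hvK⟩ = 0) ?_ ?_ ?_ ?_ hφ
      · rintro _ ⟨s, rfl⟩
        rw [← hj]
        have : v (j (Fin.cast hgn.symm (Fin.cast hgn s))) = 0 := hvJ (Fin.cast hgn s)
        rw [show Fin.cast hgn.symm (Fin.cast hgn s) = s from by ext; rfl] at this
        exact this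
      · simp
      · intro x y _ _ hx hy
        rw [LinearMap.add_apply, hx, hy, add_zero]
      · intro a x _ hx
        rw [LinearMap.smul_apply, hx, smul_zero]
    have h2 : (⟨v, hvK⟩ : K) = 0 := by
      rw [← Module.forall_dual_apply_eq_zero_iff ℂ]
      intro φ
      exact h1 φ (by rw [hgspan']; trivial)
    exact congrArg Subtype.val h2

end

end Crest.Agent.R269.Geo_328
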