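import Crest.Agent.R269.Rate2_936

/-!
# Row 269, B9 (helper936): the positive definite form `GG(p)` on `Λ²` (matrices indexed by `ι × ι`)

* `Cm p` : `v ↦ v p̄` (`ι × ι → ι`);  `Wm p` : `V ↦ V ∧ p` (`ι → ι × ι`), `Wm_mulVec`;
* `Rm p = 1 - |p|⁻² Wm Cm` kills `V ∧ p`;
* `GG p Pi a = Cmᴴ (Gm p Pi a) Cm + Rmᴴ Rm`: Hermitian, `GG_wdg` (`(V∧p)ᴴ GG (V∧p) = |p|⁴ Vᴴ Gm V`),
  `GG_posDef`, `GG_smul` (`ℂ*`-invariance);
* `SmM M x` : all entries of the matrix function `M` are smooth at `x`; closure properties, `SmM.inv`;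
  `SmM_GG`.
-/

set_option autoImplicit false
set_option linter.unusedSectionVars false
open Matrix Complex
open scoped ComplexConjugate ComplexOrder ContDiff

noncomputable section
namespace Crest.Agent.R269.GeoG_936

open Crest.Agent.R269.Frm290 Crest.Agent.R269.Rate1_936 Crest.Agent.R269.Rate2_936

variable {ι : Type*} [Fintype ι] [DecidableEq ι]

/-- `v ↦ v p̄` -/
def Cm (p : ι → ℂ) : Matrix ι (ι × ι) ℂ := Matrix.of fun i x => if x.1 = i then conj (p x.2) else 0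

/-- `V ↦ V ∧ p` -/
def Wm (p : ι → ℂ) : Matrix (ι × ι) ι ℂ :=
  Matrix.of fun x k => (if x.1 = k then p x.2 else 0) - (if x.2 = k then p x.1 else 0)

/-- the projection off the vectors `V ∧ p` -/
def Rm (p : ι → ℂ) : Matrix (ι × ι) (ι × ι) ℂ := 1 - ((nsq p : ℂ))⁻¹ • (Wm p * Cm p)

/-- the positive definite form -/
def GG (p : ι → ℂ) (Pi a : Matrix ι ι ℂ) : Matrix (ι × ι) (ι × ι) ℂ :=
  (Cm p)ᴴ * Gm p Pi a * Cm p + (Rm p)ᴴ * Rm p

theorem Wm_mulVec (p V : ι → ℂ) : Wm p *ᵥ V = fun x => V x.1 * p x.2 - V x.2 * p x.1 := by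
  funext x
  simp only [Wm, mulVec, dotProduct, of_apply, sub_mul, Finset.sum_sub_distrib, ite_mul, zero_mul,
    Finset.sum_ite_eq, Finset.mem_univ, if_true]
  ring

theorem Cm_mulVec (p : ι → ℂ) (v : ι × ι → ℂ) : Cm p *ᵥ v = fun i => ∑ j, v (i, j) * conj (p j) := by
  funext i
  simp only [Cm, mulVec, dotProduct, of_apply, Fintype.sum_prod_type]
  rw [Finset.sum_eq_single i]
  · exact Finset.sum_congr rfl fun j _ => by rw [if_pos rfl, mul_comm]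
  · intro k _ hk
    exact Finset.sum_eq_zero fun j _ => by rw [if_neg hk, zero_mul]
  · intro h; exact absurd (Finset.mem_univ i) h

theorem Wm_self (p : ι → ℂ) : Wm p *ᵥ p = 0 := by
  rw [Wm_mulVec]
  funext x
  simp only [Pi.zero_apply]
  ring

theorem Cm_Wm {p : ι → ℂ} (hp : p ≠ 0) (V : ι → ℂ) :
    Cm p *ᵥ (Wm p *ᵥ V) = (nsq p : ℂ) • (prj p *ᵥ V) := by
  have h : (nsq p : ℂ) ≠ 0 := by exact_mod_cast (nsq_pos hp).ne'
  rw [Cm_mulVec, Wm_mulVec, prj_mulVec, smul_sub, smul_smul, ← mul_assoc, mul_inv_cancel₀ h, one_mul]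
  funext i
  simp only [Pi.sub_apply, Pi.smul_apply, smul_eq_mul, sub_mul, Finset.sum_sub_distrib]
  have e1 : ∑ j, V i * p j * conj (p j) = (nsq p : ℂ) * V i := by
    rw [← Frm290.star_dot_self, dotProduct, Finset.sum_mul]
    refine Finset.sum_congr rfl fun j _ => ?_
    rw [Pi.star_apply, RCLike.star_def]
    ring
  have e2 : ∑ j, V j * p i * conj (p j) = star p ⬝ᵥ V * p i := by
    rw [dotProduct, Finset.sum_mul]
    refine Finset.sum_congr rfl fun j _ => ?_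
    rw [Pi.star_apply, RCLike.star_def]
    ring
  rw [e1, e2]

theorem Rm_Wm {p : ι → ℂ} (hp : p ≠ 0) (V : ι → ℂ) : Rm p *ᵥ (Wm p *ᵥ V) = 0 := by
  have h : (nsq p : ℂ) ≠ 0 := by exact_mod_cast (nsq_pos hp).ne'
  rw [Rm, Matrix.sub_mulVec, Matrix.one_mulVec, Matrix.smul_mulVec, ← Matrix.mulVec_mulVec,
    Cm_Wm hp, Matrix.mulVec_smul, smul_smul, inv_mul_cancel₀ h, one_smul, prj_mulVec,
    Matrix.mulVec_sub, Matrix.mulVec_smul, Wm_self, smul_zero, sub_zero, sub_self]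

theorem GG_form (p : ι → ℂ) (Pi a : Matrix ι ι ℂ) (v w : ι × ι → ℂ) :
    star v ⬝ᵥ (GG p Pi a *ᵥ w) =
      star (Cm p *ᵥ v) ⬝ᵥ (Gm p Pi a *ᵥ (Cm p *ᵥ w)) + star (Rm p *ᵥ v) ⬝ᵥ (Rm p *ᵥ w) := by
  rw [GG, Matrix.add_mulVec, dotProduct_add]
  congr 1
  · rw [← Matrix.mulVec_mulVec, ← Matrix.mulVec_mulVec, Matrix.dotProduct_mulVec,
      ← Matrix.star_mulVec]
  · rw [← Matrix.mulVec_mulVec, Matrix.dotProduct_mulVec, ← Matrix.star_mulVec]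

/-- `GG (V ∧ p, W ∧ p) = |p|⁴ a⁻¹(V, W)` -/
theorem GG_wdg {p : ι → ℂ} (hp : p ≠ 0) (Pi a : Matrix ι ι ℂ) (V W : ι → ℂ) :
    star (Wm p *ᵥ V) ⬝ᵥ (GG p Pi a *ᵥ (Wm p *ᵥ W)) =
      (nsq p : ℂ) ^ 2 * (star V ⬝ᵥ (Gm p Pi a *ᵥ W)) := by
  rw [GG_form, Cm_Wm hp, Cm_Wm hp, Rm_Wm hp, Rm_Wm hp, star_zero, zero_dotProduct, add_zero,
    star_smul, smul_dotProduct, Matrix.mulVec_smul, dotProduct_smul, smul_eq_mul, smul_eq_mul,
    RCLike.star_def, Complex.conj_ofReal, ← mul_assoc, ← pow_two]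
  congr 1
  rw [Matrix.star_mulVec, (prj_isHermitian p).eq, ← Matrix.dotProduct_mulVec]
  congr 1
  have e : prj p * (prj p * (Sm p Pi a)⁻¹ * prj p) * prj p = prj p * (Sm p Pi a)⁻¹ * prj p := by
    calc prj p * (prj p * (Sm p Pi a)⁻¹ * prj p) * prj p
        = (prj p * prj p) * (Sm p Pi a)⁻¹ * (prj p * prj p) := by simp only [Matrix.mul_assoc]
      _ = _ := by rw [prj_mul_prj hp]
  rw [Gm, Matrix.mulVec_mulVec, Matrix.mulVec_mulVec, e]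

theorem GG_isHermitian {p : ι → ℂ} {Pi a : Matrix ι ι ℂ} (hS : (Sm p Pi a).IsHermitian) :
    (GG p Pi a).IsHermitian := by
  unfold GG
  refine Matrix.IsHermitian.add ?_ (Matrix.isHermitian_conjTranspose_mul_self _)
  exact Matrix.isHermitian_conjTranspose_mul_mul _ (Gm_isHermitian hS)

theorem GG_posDef {p : ι → ℂ} {Pi a : Matrix ι ι ℂ} (hS : (Sm p Pi a).PosDef) :
    (GG p Pi a).PosDef := by
  refine Matrix.PosDef.of_dotProduct_mulVec_pos (GG_isHermitian hS.isHermitian) fun v hv => ?_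
  rw [GG_form]
  have h1 : star (Cm p *ᵥ v) ⬝ᵥ (Gm p Pi a *ᵥ (Cm p *ᵥ v)) =
      star (prj p *ᵥ (Cm p *ᵥ v)) ⬝ᵥ ((Sm p Pi a)⁻¹ *ᵥ (prj p *ᵥ (Cm p *ᵥ v))) :=
    Gm_dot p Pi a _
  have h2 : star (Rm p *ᵥ v) ⬝ᵥ (Rm p *ᵥ v) = (nsq (Rm p *ᵥ v) : ℂ) := Frm290.star_dot_self _
  have h3 : 0 ≤ star (Cm p *ᵥ v) ⬝ᵥ (Gm p Pi a *ᵥ (Cm p *ᵥ v)) := by
    rw [h1]
    exact hS.inv.posSemidef.dotProduct_mulVec_nonneg _
  have h4 : 0 ≤ star (Rm p *ᵥ v) ⬝ᵥ (Rm p *ᵥ v) := by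
    rw [h2]
    exact_mod_cast Frm290.nsq_nonneg _
  by_cases hR : Rm p *ᵥ v = 0
  · -- then `v = |p|⁻² (v p̄) ∧ p`, and `v p̄` is not a multiple of `p`
    have hv' : v = Wm p *ᵥ (((nsq p : ℂ))⁻¹ • (Cm p *ᵥ v)) := by
      rw [Rm, Matrix.sub_mulVec, Matrix.one_mulVec, Matrix.smul_mulVec, ← Matrix.mulVec_mulVec,
        sub_eq_zero] at hR
      conv_lhs => rw [hR]
      rw [Matrix.mulVec_smul]
    have h5 : prj p *ᵥ (Cm p *ᵥ v) ≠ 0 := by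
      intro h0
      apply hv
      rw [prj_mulVec, sub_eq_zero] at h0
      rw [hv', h0, smul_smul, Matrix.mulVec_smul, Wm_self, smul_zero]
    have h6 := hS.inv.dotProduct_mulVec_pos h5
    rw [h1]
    exact add_pos_of_pos_of_nonneg h6 h4
  · have h5 : 0 < star (Rm p *ᵥ v) ⬝ᵥ (Rm p *ᵥ v) := by
      rw [h2]
      exact_mod_cast Frm290.nsq_pos hR
    exact add_pos_of_nonneg_of_pos h3 h5

theorem Cm_smul (c : ℂ) (p : ι → ℂ) : Cm (c • p) = conj c • Cm p := by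
  ext i x
  simp only [Cm, of_apply, Pi.smul_apply, smul_eq_mul, map_mul, Matrix.smul_apply, mul_ite, mul_zero]

theorem Wm_smul (c : ℂ) (p : ι → ℂ) : Wm (c • p) = c • Wm p := by
  ext x i
  simp only [Wm, of_apply, Pi.smul_apply, smul_eq_mul, Matrix.smul_apply, mul_sub, mul_ite, mul_zero]

theorem Rm_smul {c : ℂ} (hc : c ≠ 0) (p : ι → ℂ) : Rm (c • p) = Rm p := by
  have hc2 : ((‖c‖ ^ 2 : ℝ) : ℂ) = c * conj c := by
    rw [Complex.mul_conj, Complex.normSq_eq_norm_sq]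
  have hc0 : c * conj c ≠ 0 := mul_ne_zero hc ((map_ne_zero _).2 hc)
  rw [Rm, Rm, Cm_smul, Wm_smul, Frm290.nsq_smul, Complex.ofReal_mul, hc2, Matrix.smul_mul,
    Matrix.mul_smul, smul_smul, smul_smul]
  congr 2
  have hcs : conj c ≠ 0 := (map_ne_zero _).2 hc
  rw [mul_inv]
  field_simp

/-- `ℂ*`-invariance -/
theorem GG_smul {c : ℂ} (hc : c ≠ 0) (p : ι → ℂ) (Pi a : Matrix ι ι ℂ)
    (hu : IsUnit (Sm p Pi a).det) :
    GG (c • p) Pi (((‖c‖ ^ 2 : ℝ) : ℂ) • a) = GG p Pi a := by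
  have hc2 : ((‖c‖ ^ 2 : ℝ) : ℂ) = c * conj c := by
    rw [Complex.mul_conj, Complex.normSq_eq_norm_sq]
  have hc0 : c * conj c ≠ 0 := mul_ne_zero hc ((map_ne_zero _).2 hc)
  have e : (Cm (c • p))ᴴ * Gm (c • p) Pi (((‖c‖ ^ 2 : ℝ) : ℂ) • a) * Cm (c • p) =
      (Cm p)ᴴ * Gm p Pi a * Cm p := by
    rw [Gm_smul hc p Pi a hu, Cm_smul, hc2, Matrix.conjTranspose_smul, Matrix.mul_smul,
      Matrix.mul_smul, Matrix.smul_mul, Matrix.smul_mul, Matrix.smul_mul, smul_smul, smul_smul,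
      RCLike.star_def, Complex.conj_conj]
    have : conj c * (c * conj c)⁻¹ * c = 1 := by
      have hcs : conj c ≠ 0 := (map_ne_zero _).2 hc
      field_simp
    rw [this, one_smul]
  rw [GG, GG, Rm_smul hc, e]

end Crest.Agent.R269.GeoG_936
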