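import Mathlib

/-!
# Row 269, B9 (helper936): matrices whose entries are smooth at a point
-/

set_option autoImplicit false
open Matrix Complex
open scoped ComplexConjugate ContDiff

namespace Crest.Agent.R269.SmM_936

variable {E : Type*} [NormedAddCommGroup E] [NormedSpace ℝ E]
variable {m n l : Type*}

/-- all entries of `M` are smooth (in the real sense) at `x` -/
def SmM (M : E → Matrix m n ℂ) (x : E) : Prop := ∀ i j, ContDiffAt ℝ ∞ (fun p => M p i j) x

variable {x : E}

theorem SmM.const (M : Matrix m n ℂ) : SmM (fun _ : E => M) x := fun _ _ => contDiffAt_const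

theorem SmM.add {A B : E → Matrix m n ℂ} (hA : SmM A x) (hB : SmM B x) :
    SmM (fun p => A p + B p) x := fun i j => (hA i j).add (hB i j)

theorem SmM.sub {A B : E → Matrix m n ℂ} (hA : SmM A x) (hB : SmM B x) :
    SmM (fun p => A p - B p) x := fun i j => (hA i j).sub (hB i j)

theorem SmM.smul {f : E → ℂ} {A : E → Matrix m n ℂ} (hf : ContDiffAt ℝ ∞ f x) (hA : SmM A x) :
    SmM (fun p => f p • A p) x := fun i j => hf.mul (hA i j)

theorem SmM.mul [Fintype n] {A : E → Matrix m n ℂ} {B : E → Matrix n l ℂ} (hA : SmM A x)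
    (hB : SmM B x) : SmM (fun p => A p * B p) x := fun i j => by
  simp only [Matrix.mul_apply]
  exact ContDiffAt.sum fun k _ => (hA i k).mul (hB k j)

theorem contDiffAt_conj {f : E → ℂ} (hf : ContDiffAt ℝ ∞ f x) :
    ContDiffAt ℝ ∞ (fun p => conj (f p)) x :=
  (Complex.conjCLE.contDiff.contDiffAt (x := f x)).comp x hf

theorem SmM.conjT {A : E → Matrix m n ℂ} (hA : SmM A x) : SmM (fun p => (A p)ᴴ) x := fun i j => by
  simp only [Matrix.conjTranspose_apply]
  exact contDiffAt_conj (hA j i)

theorem contDiffAt_prod' {ι : Type*} (s : Finset ι) {f : ι → E → ℂ}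
    (h : ∀ i ∈ s, ContDiffAt ℝ ∞ (f i) x) : ContDiffAt ℝ ∞ (fun p => ∏ i ∈ s, f i p) x := by
  classical
  induction s using Finset.induction_on with
  | empty => simp only [Finset.prod_empty]; exact contDiffAt_const
  | insert a s ha ih =>
    simp only [Finset.prod_insert ha]
    exact (h a (Finset.mem_insert_self a s)).mul (ih fun i hi => h i (Finset.mem_insert_of_mem hi))

theorem SmM.det [Fintype n] [DecidableEq n] {A : E → Matrix n n ℂ} (hA : SmM A x) :
    ContDiffAt ℝ ∞ (fun p => (A p).det) x := by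
  simp only [Matrix.det_apply]
  refine ContDiffAt.sum fun σ _ => ?_
  have := contDiffAt_prod' (x := x) Finset.univ (f := fun i p => A p (σ i) i) fun i _ => hA _ _
  exact this.const_smul _

theorem SmM.adj [Fintype n] [DecidableEq n] {A : E → Matrix n n ℂ} (hA : SmM A x) :
    SmM (fun p => (A p).adjugate) x := fun a b => by
  simp only [Matrix.adjugate_apply]
  refine SmM.det fun c d => ?_
  by_cases hc : c = b
  · subst hc
    simp only [Matrix.updateRow_self]
    exact contDiffAt_const
  · simp only [Matrix.updateRow_ne hc]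
    exact hA c d

theorem SmM.inv [Fintype n] [DecidableEq n] {A : E → Matrix n n ℂ} (hA : SmM A x)
    (h0 : (A x).det ≠ 0) : SmM (fun p => (A p)⁻¹) x := by
  have h1 : ∀ p, (A p)⁻¹ = ((A p).det)⁻¹ • (A p).adjugate := fun p => by
    rw [Matrix.inv_def, Ring.inverse_eq_inv']
  simp only [h1]
  exact SmM.smul (hA.det.inv h0) hA.adj

theorem SmM.apply {A : E → Matrix m n ℂ} (hA : SmM A x) (i : m) (j : n) :
    ContDiffAt ℝ ∞ (fun p => A p i j) x := hA i j

theorem SmM.of_fun {A : E → m → n → ℂ} [Fintype m] [Fintype n] (h : ContDiffAt ℝ ∞ A x) :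
    SmM (fun p => Matrix.of (A p)) x := fun i j => by
  have h1 := contDiffAt_pi.1 h i
  exact contDiffAt_pi.1 h1 j

theorem SmM.to_fun {A : E → Matrix m n ℂ} [Fintype m] [Fintype n] (h : SmM A x) :
    ContDiffAt ℝ ∞ (fun p => (fun i j => A p i j : m → n → ℂ)) x :=
  contDiffAt_pi.2 fun i => contDiffAt_pi.2 fun j => h i j

theorem SmM.congr {A B : E → Matrix m n ℂ} (hA : SmM A x) (h : ∀ᶠ p in nhds x, B p = A p) :
    SmM B x := fun i j => (hA i j).congr_of_eventuallyEq (h.mono fun p hp => by
      simp only [hp])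

end Crest.Agent.R269.SmM_936
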