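import Mathlib

/-!
# Row 269, B9b (helper936): uniform first order Taylor formula on a compact set

`taylor_compact` : `K` compact, `g : E → F` of class `C²` (over `ℝ`) at every point of `K`.  Then there is a
constant `C ≥ 0` with, for all `p Y ∈ K`,
`‖g p‖ ≤ C`, `‖fderiv ℝ g p‖ ≤ C` and `‖g Y - g p - fderiv ℝ g p (Y - p)‖ ≤ C ‖Y - p‖²`.
(`K` is not assumed to be convex or connected.)

`lip_compact` : `C¹` at every point of `K` gives `‖g Y - g p‖ ≤ C ‖Y - p‖` on `K`.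
-/

set_option autoImplicit false
open Metric Set Filter Topology
open scoped ContDiff

namespace Crest.Agent.R269.Tay_936

variable {E F : Type*} [NormedAddCommGroup E] [NormedSpace ℝ E] [NormedAddCommGroup F]
  [NormedSpace ℝ F]

/-- local version -/
theorem local_taylor {g : E → F} {x : E} (hg : ContDiffAt ℝ 2 g x) :
    ∃ r : ℝ, 0 < r ∧ ∃ C : ℝ, 0 ≤ C ∧ ∀ p ∈ ball x r, ∀ Y ∈ ball x r,
      ‖g Y - g p - fderiv ℝ g p (Y - p)‖ ≤ C * ‖Y - p‖ ^ 2 := by
  -- `fderiv g` is Lipschitz near `x`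
  have h1 : ContDiffAt ℝ 1 (fderiv ℝ g) x :=
    ContDiffAt.fderiv_right (m := 1) hg (by norm_num)
  obtain ⟨K, t, ht, hK⟩ := h1.exists_lipschitzOnWith
  obtain ⟨u, hu, hgu⟩ := hg.contDiffOn (m := 2) le_rfl (by simp)
  obtain ⟨r, hr, hrs⟩ := Metric.mem_nhds_iff.1 (Filter.inter_mem ht hu)
  refine ⟨r, hr, K, K.2, fun p hp Y hY => ?_⟩
  have hdiff : ∀ y ∈ ball x r, DifferentiableAt ℝ g y := by
    intro y hy
    have : u ∈ 𝓝 y := mem_of_superset (isOpen_ball.mem_nhds hy) fun w hw => (hrs hw).2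
    exact (hgu.contDiffAt this).differentiableAt (by norm_num)
  have hseg : segment ℝ p Y ⊆ ball x r := (convex_ball x r).segment_subset hp hY
  have h2 := Convex.norm_image_sub_le_of_norm_fderiv_le' (𝕜 := ℝ) (f := g) (φ := fderiv ℝ g p)
    (C := K * ‖Y - p‖) (s := segment ℝ p Y)
    (fun y hy => hdiff y (hseg hy)) (fun y hy => ?_) (convex_segment p Y)
    (left_mem_segment ℝ p Y) (right_mem_segment ℝ p Y)
  · calc _ ≤ K * ‖Y - p‖ * ‖Y - p‖ := h2
      _ = K * ‖Y - p‖ ^ 2 := by ring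
  · have h3 : ‖fderiv ℝ g y - fderiv ℝ g p‖ ≤ K * ‖y - p‖ := by
      have := hK.dist_le_mul y (hrs (hseg hy)).1 p (hrs hp).1
      rwa [dist_eq_norm, dist_eq_norm] at this
    refine h3.trans (mul_le_mul_of_nonneg_left ?_ K.2)
    rw [segment_eq_image'] at hy
    obtain ⟨θ, hθ, rfl⟩ := hy
    simp only [add_sub_cancel_left]
    rw [norm_smul, Real.norm_eq_abs, abs_of_nonneg hθ.1]
    exact mul_le_of_le_one_left (norm_nonneg _) hθ.2

theorem taylor_compact {g : E → F} {K : Set E} (hK : IsCompact K)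
    (hg : ∀ x ∈ K, ContDiffAt ℝ 2 g x) :
    ∃ C : ℝ, 0 ≤ C ∧ ∀ p ∈ K, ‖g p‖ ≤ C ∧ ‖fderiv ℝ g p‖ ≤ C ∧
      ∀ Y ∈ K, ‖g Y - g p - fderiv ℝ g p (Y - p)‖ ≤ C * ‖Y - p‖ ^ 2 := by
  -- bounds
  obtain ⟨A, hA⟩ := hK.exists_bound_of_continuousOn (f := g)
    (fun x hx => (hg x hx).continuousAt.continuousWithinAt)
  obtain ⟨B, hB⟩ := hK.exists_bound_of_continuousOn (f := fderiv ℝ g)
    (fun x hx => ((ContDiffAt.fderiv_right (m := 1) (hg x hx)
      (by norm_num)).continuousAt).continuousWithinAt)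
  rcases K.eq_empty_or_nonempty with hKe | hKn
  · exact ⟨0, le_rfl, fun p hp => absurd hp (by simp [hKe])⟩
  -- local constants
  choose! r hr C hC hloc using fun x (hx : x ∈ K) => local_taylor (hg x hx)
  obtain ⟨t, htK, hcov⟩ := hK.elim_nhds_subcover (fun x => ball x (r x / 2))
    (fun x hx => ball_mem_nhds x (half_pos (hr x hx)))
  have htn : t.Nonempty := by
    by_contra h
    rw [Finset.not_nonempty_iff_eq_empty] at h
    obtain ⟨y, hy⟩ := hKn
    have := hcov hy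
    simp [h] at this
  obtain ⟨x0, hx0t, hx0⟩ := t.exists_min_image (fun x => r x / 2) htn
  set ρ := r x0 / 2 with hρ
  have hρpos : 0 < ρ := half_pos (hr x0 (htK x0 hx0t))
  set Cs := ∑ x ∈ t, C x with hCs
  have hCs0 : 0 ≤ Cs := Finset.sum_nonneg fun x hx => hC x (htK x hx)
  have hA0 : 0 ≤ A := by
    obtain ⟨y, hy⟩ := hKn
    exact (norm_nonneg _).trans (hA y hy)
  have hB0 : 0 ≤ B := by
    obtain ⟨y, hy⟩ := hKn
    exact (norm_nonneg _).trans (hB y hy)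
  refine ⟨A + B + Cs + (2 * A / ρ ^ 2 + B / ρ), by positivity, fun p hp => ⟨?_, ?_, ?_⟩⟩
  · have h1 : 0 ≤ 2 * A / ρ ^ 2 + B / ρ := by positivity
    linarith [hA p hp]
  · have h1 : 0 ≤ 2 * A / ρ ^ 2 + B / ρ := by positivity
    linarith [hB p hp]
  · intro Y hY
    have hpos : 0 ≤ ‖Y - p‖ ^ 2 := by positivity
    obtain ⟨x, hxt, hpx⟩ : ∃ x ∈ t, p ∈ ball x (r x / 2) := by simpa using hcov hp
    by_cases hc : ‖Y - p‖ < ρ
    · have hpx' : p ∈ ball x (r x) := ball_subset_ball (by linarith [hr x (htK x hxt)]) hpx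
      have hYx : Y ∈ ball x (r x) := by
        rw [mem_ball] at hpx ⊢
        have h1 : dist Y p < r x / 2 := by
          rw [dist_eq_norm]
          exact lt_of_lt_of_le hc (hx0 x hxt)
        calc dist Y x ≤ dist Y p + dist p x := dist_triangle _ _ _
          _ < r x / 2 + r x / 2 := add_lt_add h1 hpx
          _ = r x := by ring
      have h2 := hloc x (htK x hxt) p hpx' Y hYx
      have h3 : C x ≤ Cs := Finset.single_le_sum (f := C) (fun y hy => hC y (htK y hy)) hxt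
      refine h2.trans (mul_le_mul_of_nonneg_right ?_ hpos)
      have h1 : 0 ≤ 2 * A / ρ ^ 2 + B / ρ := by positivity
      linarith
    · push Not at hc
      have h1 : ‖g Y - g p - fderiv ℝ g p (Y - p)‖ ≤ 2 * A + B * ‖Y - p‖ := by
        calc _ ≤ ‖g Y - g p‖ + ‖fderiv ℝ g p (Y - p)‖ := norm_sub_le _ _
          _ ≤ (‖g Y‖ + ‖g p‖) + ‖fderiv ℝ g p‖ * ‖Y - p‖ :=
              add_le_add (norm_sub_le _ _) (ContinuousLinearMap.le_opNorm _ _)
          _ ≤ (A + A) + B * ‖Y - p‖ := by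
              gcongr
              · exact hA Y hY
              · exact hA p hp
              · exact hB p hp
          _ = _ := by ring
      have h2 : 1 ≤ ‖Y - p‖ / ρ := (one_le_div hρpos).2 hc
      have h3 : 2 * A ≤ 2 * A / ρ ^ 2 * ‖Y - p‖ ^ 2 := by
        have : 2 * A / ρ ^ 2 * ‖Y - p‖ ^ 2 = 2 * A * (‖Y - p‖ / ρ) ^ 2 := by
          rw [div_pow]; ring
        rw [this]
        exact le_mul_of_one_le_right (by positivity) (one_le_pow₀ h2)
      have h4 : B * ‖Y - p‖ ≤ B / ρ * ‖Y - p‖ ^ 2 := by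
        have : B / ρ * ‖Y - p‖ ^ 2 = B * ‖Y - p‖ * (‖Y - p‖ / ρ) := by
          field_simp
        rw [this]
        exact le_mul_of_one_le_right (by positivity) h2
      calc _ ≤ 2 * A + B * ‖Y - p‖ := h1
        _ ≤ 2 * A / ρ ^ 2 * ‖Y - p‖ ^ 2 + B / ρ * ‖Y - p‖ ^ 2 := add_le_add h3 h4
        _ = (2 * A / ρ ^ 2 + B / ρ) * ‖Y - p‖ ^ 2 := by ring
        _ ≤ _ := mul_le_mul_of_nonneg_right (by linarith) hpos

theorem lip_compact {g : E → F} {K : Set E} (hK : IsCompact K)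
    (hg : ∀ x ∈ K, ContDiffAt ℝ 1 g x) :
    ∃ C : ℝ, 0 ≤ C ∧ ∀ p ∈ K, ∀ Y ∈ K, ‖g Y - g p‖ ≤ C * ‖Y - p‖ := by
  have hl : LocallyLipschitzOn K g := by
    intro x hx
    obtain ⟨C, t, ht, h⟩ := (hg x hx).exists_lipschitzOnWith
    exact ⟨C, t, mem_nhdsWithin_of_mem_nhds ht, h⟩
  obtain ⟨C, h⟩ := hl.exists_lipschitzOnWith_of_compact hK
  exact ⟨C, C.2, fun p hp Y hY => by
    have := h.dist_le_mul Y hY p hp
    rwa [dist_eq_norm, dist_eq_norm] at this⟩

end Crest.Agent.R269.Tay_936
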