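import Crest.Agent.R269.GeoG_936
import Crest.Agent.R269.SmM_936
import Crest.Agent.R269.Tay_936
import Crest.Agent.R269.LevBr_901
import Crest.Agent.R269.DefsS_731
import Crest.Agent.R269.GeoPi_328

/-!
# Row 269, B9 (helper936): the form `GG` for a `PosField`, and the functions `Q p c` of Lemma K
-/

set_option autoImplicit false
set_option linter.unusedSectionVars false
open Matrix Complex
open Crest.AlgGeometry.ProjEmb Crest.Agent.R269.Geo_328 Crest.Agent.R269.DefsS_731
open scoped ComplexConjugate ComplexOrder ContDiff Topology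

noncomputable section
namespace Crest.Agent.R269.GeoH_936

open Crest.Agent.R269.Rate1_936 Crest.Agent.R269.GeoG_936 Crest.Agent.R269.SmM_936
open Crest.Agent.R269.Defs_58 (PosField SmX DD wedgeSq TanFam)

variable {N n : ℕ} {I : Ideal (HomCoordRing N)}

/-- index set of `Λ²` -/
abbrev K2 (N : ℕ) : Type := Fin (N + 1) × Fin (N + 1)

/-- smooth invariant orthogonal projectors onto the tangent spaces of the cone -/
structure PiData (I : Ideal (HomCoordRing N)) (Pi : EE N → VV N) : Prop where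
  smooth : ∀ p ∈ Cone I, ContDiffAt ℝ ∞ Pi p
  inv : ∀ p ∈ Cone I, ∀ c : ℂ, c ≠ 0 → Pi (c • p) = Pi p
  isPi : ∀ p ∈ Cone I, Rate2_936.IsPi (Tan I p) (Matrix.of (Pi p))

theorem exists_PiData (hI : I.IsPrime) (hX : IsSmoothProjective I n) : ∃ Pi, PiData I Pi := by
  obtain ⟨O, Pi, hO, hCO, hsm, hinv, hpi⟩ := projStmt N n I hI hX
  refine ⟨Pi, fun p hp => hsm.contDiffAt (hO.mem_nhds (hCO hp)),
    fun p hp c hc => (hinv c hc p (hCO hp)).2, fun p hp => ?_⟩
  obtain ⟨h1, h2, h3⟩ := hpi p hp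
  refine ⟨?_, fun v => h1 v, fun v hv => h2 v hv⟩
  ext i j
  rw [Matrix.conjTranspose_apply, Matrix.of_apply, Matrix.of_apply, RCLike.star_def]
  exact h3 j i

/-- the positive definite Hermitian matrix `GG(p)` on `Λ²` -/
def GGf (Pi a : EE N → VV N) (p : EE N) : Matrix (K2 N) (K2 N) ℂ :=
  GG p (Matrix.of (Pi p)) (Matrix.of (a p))

theorem wedgeSq_zero_of_dep {m : ℕ} {w : Fin m → EE N} {c : Fin m → ℂ} (hc : c ≠ 0)
    (h : ∑ i, c i • w i = 0) : wedgeSq w = 0 := by
  have : (Matrix.of fun i j : Fin m => ∑ k, w i k * conj (w j k)).det = 0 := by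
    rw [← Matrix.exists_vecMul_eq_zero_iff]
    refine ⟨c, hc, ?_⟩
    funext j
    simp only [vecMul, dotProduct, of_apply, Pi.zero_apply]
    have h1 : ∑ i, c i * ∑ k, w i k * conj (w j k) = ∑ k, (∑ i, c i * w i k) * conj (w j k) := by
      simp only [Finset.mul_sum, Finset.sum_mul]
      rw [Finset.sum_comm]
      exact Finset.sum_congr rfl fun _ _ => Finset.sum_congr rfl fun _ _ => by ring
    rw [h1]
    refine Finset.sum_eq_zero fun k _ => ?_
    have h2 : ∑ i, c i * w i k = 0 := by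
      have := congrFun h k
      simpa [Finset.sum_apply] using this
    rw [h2, zero_mul]
  rw [wedgeSq, this, Complex.zero_re]

/-- matrix with columns `b i` -/
def colM (b : Fin n → EE N) : Matrix (Fin (N + 1)) (Fin n) ℂ := Matrix.of fun k i => b i k

theorem colM_mulVec (b : Fin n → EE N) (c : Fin n → ℂ) : colM b *ᵥ c = ∑ i, c i • b i := by
  funext k
  simp only [colM, mulVec, dotProduct, of_apply, Finset.sum_apply, Pi.smul_apply, smul_eq_mul]
  exact Finset.sum_congr rfl fun i _ => mul_comm _ _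

theorem rep_eq {a : EE N → VV N} {p : EE N} {b : Fin n → EE N} (hb : Defs_58.Rep I a p b) :
    Matrix.of (a p) = colM b * (colM b)ᴴ := by
  ext j k
  rw [Matrix.of_apply, hb.2.2 j k, Matrix.mul_apply]
  refine Finset.sum_congr rfl fun i _ => ?_
  rw [Matrix.conjTranspose_apply, colM, Matrix.of_apply, Matrix.of_apply, RCLike.star_def]

theorem ind_of_DD_pos {p : EE N} {b : Fin n → EE N} (h : 0 < DD p b) (c : Fin n → ℂ)
    (h0 : colM b *ᵥ c = 0) : c = 0 := by
  by_contra hc
  have h1 : wedgeSq (Fin.cons p b : Fin (n + 1) → EE N) = 0 := by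
    refine wedgeSq_zero_of_dep (c := Fin.cons 0 c) (fun h2 => hc ?_) ?_
    · funext i
      have := congrFun h2 i.succ
      simpa using this
    · rw [Fin.sum_univ_succ]
      simp only [Fin.cons_zero, Fin.cons_succ, zero_smul, zero_add]
      rw [← colM_mulVec, h0]
  rw [DD, h1, zero_div] at h
  exact lt_irrefl _ h

/-- two representations: independence is inherited -/
theorem ind_of_eq {m : Type*} [Fintype m] [DecidableEq m] {b b₀ : Matrix m (Fin n) ℂ}
    (h : b * bᴴ = b₀ * b₀ᴴ) (h0 : ∀ c, b₀ *ᵥ c = 0 → c = 0) (c : Fin n → ℂ)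
    (hc : b *ᵥ c = 0) : c = 0 := by
  have r0 : b₀.rank = n := by
    have h1 : Function.Injective b₀.mulVecLin := by
      rw [← LinearMap.ker_eq_bot]
      refine LinearMap.ker_eq_bot'.2 fun x hx => h0 x ?_
      simpa using hx
    rw [Matrix.rank, LinearMap.finrank_range_of_inj h1]
    simp
  have r1 : b.rank = n := by
    rw [← Matrix.rank_self_mul_conjTranspose b, h, Matrix.rank_self_mul_conjTranspose, r0]
  have h2 := LinearMap.finrank_range_add_finrank_ker b.mulVecLin
  rw [Matrix.rank] at r1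
  rw [r1] at h2
  have h3 : Module.finrank ℂ (LinearMap.ker b.mulVecLin) = 0 := by
    simp at h2 ⊢
    omega
  have h4 : LinearMap.ker b.mulVecLin = ⊥ := Submodule.finrank_eq_zero.1 h3
  have h5 : c ∈ LinearMap.ker b.mulVecLin := by simpa using hc
  rw [h4] at h5
  exact (Submodule.mem_bot ℂ).1 h5

/-- every representing family is a `Rate2_936.Rep` -/
theorem rep_of {a : EE N → VV N} (ha : PosField I n a) {p : EE N} (hp : p ∈ Cone I)
    {b : Fin n → EE N} (hb : Defs_58.Rep I a p b) :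
    Rate2_936.Rep (Tan I p) p (Matrix.of (a p)) (colM b) := by
  obtain ⟨b₀, hb₀, hD⟩ := ha.rep p hp
  refine ⟨fun c => ?_, ?_, fun c hc => ?_, rep_eq hb⟩
  · rw [colM_mulVec]
    exact Submodule.sum_mem _ fun i _ => Submodule.smul_mem _ _ (hb.1 i)
  · funext i
    simp only [vecMul, dotProduct, colM, of_apply, Pi.star_apply, RCLike.star_def, Pi.zero_apply]
    rw [← hb.2.1 i]
    exact Finset.sum_congr rfl fun k _ => mul_comm _ _
  · exact ind_of_eq ((rep_eq hb).symm.trans (rep_eq hb₀)) (ind_of_DD_pos hD) c hc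

section basic
variable {Pi a : EE N → VV N} (hI : I.IsPrime) (hX : IsSmoothProjective I n) (hPi : PiData I Pi)
  (ha : PosField I n a)
include hI hX hPi ha

theorem Sm_posDef {p : EE N} (hp : p ∈ Cone I) :
    (Rate2_936.Sm p (Matrix.of (Pi p)) (Matrix.of (a p))).PosDef := by
  obtain ⟨b₀, hb₀, -⟩ := ha.rep p hp
  obtain ⟨h1, h2, -⟩ := tanStmt N n I hI hX p hp
  exact (rep_of ha hp hb₀).posDef (hPi.isPi p hp) h2 hp.2 h1

theorem GGf_posDef {p : EE N} (hp : p ∈ Cone I) : (GGf Pi a p).PosDef :=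
  GG_posDef (Sm_posDef hI hX hPi ha hp)

theorem GGf_smul {p : EE N} (hp : p ∈ Cone I) {c : ℂ} (hc : c ≠ 0) :
    GGf Pi a (c • p) = GGf Pi a p := by
  have hu : IsUnit (Rate2_936.Sm p (Matrix.of (Pi p)) (Matrix.of (a p))).det :=
    (Matrix.isUnit_iff_isUnit_det _).1 (Sm_posDef hI hX hPi ha hp).isUnit
  rw [GGf, hPi.inv p hp c hc, ha.hom p hp c hc]
  exact GG_smul hc p _ _ hu

end basic

/-! ### smoothness -/

theorem contDiffAt_coord (i : Fin (N + 1)) (p : EE N) : ContDiffAt ℝ ∞ (fun q : EE N => q i) p :=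
  contDiffAt_pi.1 contDiffAt_id i

theorem contDiffAt_nsq (p : EE N) : ContDiffAt ℝ ∞ (fun q : EE N => ((Frm290.nsq q : ℝ) : ℂ)) p := by
  have h : (fun q : EE N => ((Frm290.nsq q : ℝ) : ℂ)) = fun q => ∑ i, conj (q i) * q i := by
    funext q
    rw [← Frm290.star_dot_self]
    rfl
  rw [h]
  exact ContDiffAt.sum fun i _ => (contDiffAt_conj (contDiffAt_coord i p)).mul (contDiffAt_coord i p)

theorem smM_Cm (p : EE N) : SmM (fun q : EE N => Cm q) p := fun i x => by
  simp only [Cm, of_apply]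
  by_cases h : x.1 = i
  · simp only [h, if_true]
    exact contDiffAt_conj (contDiffAt_coord _ p)
  · simp only [h, if_false]
    exact contDiffAt_const

theorem smM_Wm (p : EE N) : SmM (fun q : EE N => Wm q) p := fun x i => by
  simp only [Wm, of_apply]
  refine ContDiffAt.sub ?_ ?_
  · by_cases h : x.1 = i
    · simp only [h, if_true]
      exact contDiffAt_coord _ p
    · simp only [h, if_false]
      exact contDiffAt_const
  · by_cases h : x.2 = i
    · simp only [h, if_true]
      exact contDiffAt_coord _ p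
    · simp only [h, if_false]
      exact contDiffAt_const

theorem nsqC_ne {p : EE N} (hp : p ≠ 0) : ((Frm290.nsq p : ℝ) : ℂ) ≠ 0 := by
  exact_mod_cast (Frm290.nsq_pos hp).ne'

theorem smM_Rm {p : EE N} (hp : p ≠ 0) : SmM (fun q : EE N => Rm q) p := by
  unfold Rm
  exact (SmM.const _).sub (SmM.smul ((contDiffAt_nsq p).inv (nsqC_ne hp)) ((smM_Wm p).mul (smM_Cm p)))

theorem smM_prj {p : EE N} (hp : p ≠ 0) : SmM (fun q : EE N => Frm290.prj q) p := by
  unfold Frm290.prj
  refine (SmM.const _).sub (SmM.smul ((contDiffAt_nsq p).inv (nsqC_ne hp)) fun i j => ?_)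
  simp only [vecMulVec_apply, Pi.star_apply, RCLike.star_def]
  exact (contDiffAt_coord i p).mul (contDiffAt_conj (contDiffAt_coord j p))

section smooth
variable {Pi a : EE N → VV N} (hI : I.IsPrime) (hX : IsSmoothProjective I n) (hPi : PiData I Pi)
  (ha : PosField I n a)
include hI hX hPi ha

theorem smM_Sm {p : EE N} (hp : p ∈ Cone I) :
    SmM (fun q : EE N => Rate2_936.Sm q (Matrix.of (Pi q)) (Matrix.of (a q))) p := by
  unfold Rate2_936.Sm
  exact (SmM.of_fun (ha.smooth p hp)).add (SmM.smul (contDiffAt_nsq p)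
    (((SmM.const _).sub (SmM.of_fun (hPi.smooth p hp))).add
      ((SmM.const _).sub (smM_prj hp.2))))

theorem smM_Gm {p : EE N} (hp : p ∈ Cone I) :
    SmM (fun q : EE N => Rate2_936.Gm q (Matrix.of (Pi q)) (Matrix.of (a q))) p := by
  unfold Rate2_936.Gm
  refine ((smM_prj hp.2).mul (SmM.inv (smM_Sm hI hX hPi ha hp) ?_)).mul (smM_prj hp.2)
  exact ((Matrix.isUnit_iff_isUnit_det _).1 (Sm_posDef hI hX hPi ha hp).isUnit).ne_zero

theorem smM_GGf {p : EE N} (hp : p ∈ Cone I) : SmM (GGf Pi a) p := by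
  unfold GGf GG
  exact (((smM_Cm p).conjT.mul (smM_Gm hI hX hPi ha hp)).mul (smM_Cm p)).add
    ((smM_Rm hp.2).conjT.mul (smM_Rm hp.2))

end smooth

end Crest.Agent.R269.GeoH_936
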