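import Crest.Agent.R269.GeoF_328

/-! # R269, leaf GEO: minors lie in the ideal, Cramer formula (helper328) -/

set_option autoImplicit false

open MvPolynomial Crest.AlgGeometry.ProjEmb
open scoped ContDiff Topology ComplexConjugate

namespace Crest.Agent.R269.Geo_328

noncomputable section

variable {N n : ℕ} {I : Ideal (HomCoordRing N)}

/-- index type of the rows -/
abbrev RI (N n : ℕ) : Type := Option (Fin n ⊕ Fin (N - n))

theorem card_RI (h : n ≤ N) : Fintype.card (RI N n) = N + 1 := by
  simp; omega

/-- a bijection between rows and columns -/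
def eRI (h : n ≤ N) : RI N n ≃ Fin (N + 1) := Fintype.equivFinOfCardEq (card_RI h)

/-- rows: coordinate `i`, coordinates `J k`, gradients of `F s` -/
def rowP (i : Fin (N + 1)) (J : Fin n → Fin (N + 1)) (F : Fin (N - n) → HomCoordRing N) :
    RI N n → Fin (N + 1) → HomCoordRing N
  | none => Pi.single i 1
  | some (Sum.inl k) => Pi.single (J k) 1
  | some (Sum.inr s) => fun j => pderiv j (F s)

/-- the matrix -/
def AM (h : n ≤ N) (i : Fin (N + 1)) (J : Fin n → Fin (N + 1)) (F : Fin (N - n) → HomCoordRing N) :
    Matrix (RI N n) (RI N n) (HomCoordRing N) :=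
  Matrix.of fun a b => rowP i J F a (eRI h b)

/-- the tangent vector field `θ_k` applied to `G` -/
def theta (h : n ≤ N) (i : Fin (N + 1)) (J : Fin n → Fin (N + 1)) (F : Fin (N - n) → HomCoordRing N)
    (k : Fin n) (G : HomCoordRing N) : HomCoordRing N :=
  ((AM h i J F).updateRow (some (Sum.inl k)) (fun b => pderiv (eRI h b) G)).det

theorem theta_mem [hI : I.IsPrime] (hX : IsSmoothProjective I n) (h : n ≤ N) (i : Fin (N + 1))
    (J : Fin n → Fin (N + 1)) {F : Fin (N - n) → HomCoordRing N} (hF : ∀ s, F s ∈ I) (k : Fin n)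
    {G : HomCoordRing N} (hG : G ∈ I) : theta h i J F k G ∈ I := by
  refine mem_of_vanish_Cone hX fun q hq => ?_
  rw [theta, RingHom.map_det]
  set M := (MvPolynomial.eval q).mapMatrix
    ((AM h i J F).updateRow (some (Sum.inl k)) (fun b => pderiv (eRI h b) G)) with hM
  by_contra hdet
  have hU : IsUnit M := (Matrix.isUnit_iff_isUnit_det M).2 (isUnit_iff_ne_zero.2 hdet)
  have hli := Matrix.linearIndependent_rows_iff_isUnit.2 hU
  -- the sub-family of gradients
  let c : Option (Fin (N - n)) → RI N n := fun a => match a with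
    | none => some (Sum.inl k)
    | some s => some (Sum.inr s)
  have hc : Function.Injective c := by
    intro a b hab
    cases a <;> cases b <;> simp_all [c]
  have hli2 := hli.comp c hc
  let w : Option (Fin (N - n)) → gradSpan I q := fun a => match a with
    | none => ⟨gradP G q, gradP_mem_gradSpan hG q⟩
    | some s => ⟨gradP (F s) q, gradP_mem_gradSpan (hF s) q⟩
  have hw : LinearIndependent ℂ w := by
    refine LinearIndependent.of_comp
      ((LinearMap.funLeft ℂ ℂ (eRI h)).comp (gradSpan I q).subtype) ?_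
    have : (⇑((LinearMap.funLeft ℂ ℂ (eRI h)).comp (gradSpan I q).subtype) ∘ w) = M.row ∘ c := by
      funext a
      cases a with
      | none =>
        funext b
        change gradP G q (eRI h b) = M (some (Sum.inl k)) b
        simp [hM, gradP]
      | some s =>
        funext b
        change gradP (F s) q (eRI h b) = M (some (Sum.inr s)) b
        simp [hM, gradP, AM, rowP, Matrix.updateRow_apply]
    rw [this]
    exact hli2
  have h1 := hw.fintype_card_le_finrank
  have h2 : Module.finrank ℂ (gradSpan I q) = N - n := hX.jacobian q hq.1 hq.2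
  rw [h2] at h1
  simp at h1

theorem det_updateRow_eq {ι R : Type*} [Fintype ι] [DecidableEq ι] [CommRing R]
    (A : Matrix ι ι R) (a : ι) (g : ι → R) :
    (A.updateRow a g).det = ∑ b, g b * A.adjugate b a := by
  rw [Matrix.det_eq_sum_mul_adjugate_row (A.updateRow a g) a]
  refine Finset.sum_congr rfl fun b _ => ?_
  rw [Matrix.updateRow_self, Matrix.adjugate_apply, Matrix.adjugate_apply, Matrix.updateRow_idem]

/-- evaluated matrix -/
def Aq (h : n ≤ N) (i : Fin (N + 1)) (J : Fin n → Fin (N + 1)) (F : Fin (N - n) → HomCoordRing N)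
    (q : EE N) : Matrix (RI N n) (RI N n) ℂ := (MvPolynomial.eval q).mapMatrix (AM h i J F)

/-- the components of the local coordinate system (derivative) -/
def compL (i : Fin (N + 1)) (J : Fin n → Fin (N + 1)) (F : Fin (N - n) → HomCoordRing N)
    (q v : EE N) : RI N n → ℂ
  | none => v i
  | some (Sum.inl k) => v (J k)
  | some (Sum.inr s) => dP (F s) q v

theorem Aq_mulVec (h : n ≤ N) (i : Fin (N + 1)) (J : Fin n → Fin (N + 1))
    (F : Fin (N - n) → HomCoordRing N) (q v : EE N) :
    (Aq h i J F q).mulVec (fun b => v (eRI h b)) = compL i J F q v := by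
  funext a
  have h1 : (Aq h i J F q).mulVec (fun b => v (eRI h b)) a =
      ∑ j, MvPolynomial.eval q (rowP i J F a j) * v j := by
    rw [Matrix.mulVec, dotProduct, ← Equiv.sum_comp (eRI h)]
    rfl
  rw [h1]
  rcases a with _ | (k | s)
  · simp [rowP, compL, Pi.single_apply, apply_ite (MvPolynomial.eval q)]
  · simp [rowP, compL, Pi.single_apply, apply_ite (MvPolynomial.eval q)]
  · simp [rowP, compL, dP_eq]

/-- the determinant polynomial -/
def DelP (h : n ≤ N) (i : Fin (N + 1)) (J : Fin n → Fin (N + 1))
    (F : Fin (N - n) → HomCoordRing N) : HomCoordRing N := (AM h i J F).det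

theorem eval_DelP (h : n ≤ N) (i : Fin (N + 1)) (J : Fin n → Fin (N + 1))
    (F : Fin (N - n) → HomCoordRing N) (q : EE N) :
    MvPolynomial.eval q (DelP h i J F) = (Aq h i J F q).det := by
  rw [DelP, RingHom.map_det]; rfl

theorem eval_theta (h : n ≤ N) (i : Fin (N + 1)) (J : Fin n → Fin (N + 1))
    (F : Fin (N - n) → HomCoordRing N) (k : Fin n) (G : HomCoordRing N) (q : EE N) :
    MvPolynomial.eval q (theta h i J F k G) =
      ∑ b, gradP G q (eRI h b) * (Aq h i J F q).adjugate b (some (Sum.inl k)) := by
  rw [theta, RingHom.map_det, ← det_updateRow_eq]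
  congr 1
  ext a b
  by_cases hak : a = some (Sum.inl k)
  · subst hak
    simp [gradP]
  · simp [Matrix.updateRow_apply, hak, Aq]

/-- CRAMER: derivative of `G` along a vector with `v i = 0`, `dF v = 0` -/
theorem cramer_dP (h : n ≤ N) (i : Fin (N + 1)) (J : Fin n → Fin (N + 1))
    (F : Fin (N - n) → HomCoordRing N) (G : HomCoordRing N) (q v : EE N) (hi : v i = 0)
    (hF : ∀ s, dP (F s) q v = 0) :
    MvPolynomial.eval q (DelP h i J F) * dP G q v =
      ∑ k, v (J k) * MvPolynomial.eval q (theta h i J F k G) := by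
  have h1 : (Aq h i J F q).det • (fun b => v (eRI h b)) =
      (Aq h i J F q).adjugate.mulVec (compL i J F q v) := by
    rw [← Aq_mulVec h, Matrix.mulVec_mulVec, Matrix.adjugate_mul, Matrix.smul_mulVec,
      Matrix.one_mulVec]
  have h2 : ∀ b, (Aq h i J F q).det * v (eRI h b) =
      ∑ k, (Aq h i J F q).adjugate b (some (Sum.inl k)) * v (J k) := by
    intro b
    have := congrFun h1 b
    simp only [Pi.smul_apply, smul_eq_mul] at this
    rw [this, Matrix.mulVec, dotProduct, Fintype.sum_option, Fintype.sum_sum_type]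
    simp [compL, hi, hF]
  rw [eval_DelP, dP, Finset.mul_sum, ← Equiv.sum_comp (eRI h)]
  simp only [eval_theta, Finset.mul_sum]
  rw [Finset.sum_comm]
  refine Finset.sum_congr rfl fun b _ => ?_
  calc (Aq h i J F q).det * (gradP G q (eRI h b) * v (eRI h b))
      = gradP G q (eRI h b) * ((Aq h i J F q).det * v (eRI h b)) := by ring
    _ = _ := by
      rw [h2, Finset.mul_sum]
      exact Finset.sum_congr rfl fun k _ => by ring

/-- nonvanishing at the base point -/
theorem DelP_ne_zero (h : n ≤ N) {i : Fin (N + 1)} {J : Fin n → Fin (N + 1)}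
    {F : Fin (N - n) → HomCoordRing N} {q : EE N}
    (hq : ∀ v : EE N, v i = 0 → (∀ k, v (J k) = 0) → (∀ s, dP (F s) q v = 0) → v = 0) :
    MvPolynomial.eval q (DelP h i J F) ≠ 0 := by
  rw [eval_DelP]
  intro hdet
  obtain ⟨w, hw0, hw⟩ := Matrix.exists_mulVec_eq_zero_iff.2 hdet
  apply hw0
  have h1 : (fun b => (fun j => w ((eRI h).symm j)) (eRI h b)) = w := by
    funext b; simp
  have h2 := Aq_mulVec h i J F q (fun j => w ((eRI h).symm j))
  rw [h1, hw] at h2
  have h3 : (fun j => w ((eRI h).symm j)) = (0 : EE N) := by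
    apply hq
    · exact (congrFun h2 none).symm
    · intro k
      exact (congrFun h2 (some (Sum.inl k))).symm
    · intro s
      exact (congrFun h2 (some (Sum.inr s))).symm
  rw [← h1, h3]
  rfl

end

end Crest.Agent.R269.Geo_328
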