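import Mathlib

/-!
# R269 (S0411), leaf L8, part G1 (helper390): determinants and the linear characterisation

`DB c H` : `n c |det b|^{2/n} ≤ Re tr (bᴴ H b)` for all square matrices `b`.
It is equivalent to `H ≥ 0` and `cⁿ ≤ det H` (for Hermitian `H`, `c ≥ 0`).
-/

set_option autoImplicit false

open Matrix Finset
open scoped ComplexOrder Matrix MatrixOrder

namespace Crest.Agent.R269.GlueA_390

noncomputable section

/-- AM-GM -/
theorem amgm {ι : Type*} [Fintype ι] [Nonempty ι] (f : ι → ℝ) (hf : ∀ i, 0 ≤ f i) :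
    (Fintype.card ι : ℝ) * (∏ i, f i) ^ ((1 : ℝ) / Fintype.card ι) ≤ ∑ i, f i := by
  have hc : (0 : ℝ) < Fintype.card ι := by exact_mod_cast Fintype.card_pos
  have h := Real.geom_mean_le_arith_mean_weighted (Finset.univ) (fun _ : ι => (1 : ℝ) / Fintype.card ι)
    f (fun _ _ => by positivity) (by
      rw [Finset.sum_const, Finset.card_univ, nsmul_eq_mul]
      field_simp) (fun i _ => hf i)
  rw [Real.finsetProd_rpow _ _ (fun i _ => hf i), ← Finset.mul_sum] at h
  calc (Fintype.card ι : ℝ) * (∏ i, f i) ^ ((1 : ℝ) / Fintype.card ι)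
      ≤ (Fintype.card ι : ℝ) * ((1 : ℝ) / Fintype.card ι * ∑ i, f i) :=
        mul_le_mul_of_nonneg_left h hc.le
    _ = ∑ i, f i := by field_simp

variable {n : ℕ}

/-- the linear form of the determinant inequality -/
def DB (c : ℝ) (H : Matrix (Fin n) (Fin n) ℂ) : Prop :=
  ∀ b : Matrix (Fin n) (Fin n) ℂ, n * c * (‖b.det‖ ^ 2) ^ ((1 : ℝ) / n) ≤ (bᴴ * H * b).trace.re

theorem amgm_det [NeZero n] {H : Matrix (Fin n) (Fin n) ℂ} (hH : H.PosSemidef) :
    (n : ℝ) * H.det.re ^ ((1 : ℝ) / n) ≤ H.trace.re := by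
  have h1 : H.det = ((∏ i, hH.isHermitian.eigenvalues i : ℝ) : ℂ) := by
    rw [hH.isHermitian.det_eq_prod_eigenvalues]
    push_cast
    rfl
  have h2 : H.trace = ((∑ i, hH.isHermitian.eigenvalues i : ℝ) : ℂ) := by
    rw [hH.isHermitian.trace_eq_sum_eigenvalues]
    push_cast
    rfl
  have h3 := amgm (fun i => hH.isHermitian.eigenvalues i) (fun i => hH.eigenvalues_nonneg i)
  rw [Fintype.card_fin] at h3
  rw [h1, h2, Complex.ofReal_re, Complex.ofReal_re]
  exact h3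

theorem det_re_eq {H : Matrix (Fin n) (Fin n) ℂ} (hH : H.PosSemidef) : (H.det.re : ℂ) = H.det := by
  have h1 : H.det = ((∏ i, hH.isHermitian.eigenvalues i : ℝ) : ℂ) := by
    rw [hH.isHermitian.det_eq_prod_eigenvalues]
    push_cast
    rfl
  rw [h1, Complex.ofReal_re]

theorem det_re_nonneg {H : Matrix (Fin n) (Fin n) ℂ} (hH : H.PosSemidef) : 0 ≤ H.det.re :=
  (Complex.nonneg_iff.1 hH.det_nonneg).1

theorem DB_of_det [NeZero n] {H : Matrix (Fin n) (Fin n) ℂ} (hH : H.PosSemidef) {c : ℝ}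
    (hc : 0 ≤ c) (hd : c ^ n ≤ H.det.re) : DB c H := by
  intro b
  have hp : (bᴴ * H * b).PosSemidef := hH.conjTranspose_mul_mul_same b
  have h1 := amgm_det hp
  have h2 : (bᴴ * H * b).det.re = ‖b.det‖ ^ 2 * H.det.re := by
    rw [det_mul, det_mul, det_conjTranspose]
    have : star b.det * H.det * b.det = ((‖b.det‖ ^ 2 * H.det.re : ℝ) : ℂ) := by
      have h3 : star b.det * b.det = ((‖b.det‖ ^ 2 : ℝ) : ℂ) := by
        rw [Complex.star_def, ← Complex.normSq_eq_conj_mul_self, Complex.normSq_eq_norm_sq]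
      rw [Complex.ofReal_mul, ← h3, det_re_eq hH]
      ring
    rw [this, Complex.ofReal_re]
  rw [h2] at h1
  refine le_trans ?_ h1
  have hn : (0 : ℝ) < n := by exact_mod_cast NeZero.pos n
  rw [mul_assoc]
  refine mul_le_mul_of_nonneg_left ?_ hn.le
  rw [Real.mul_rpow (by positivity) (det_re_nonneg hH), mul_comm c]
  refine mul_le_mul_of_nonneg_left ?_ (by positivity)
  calc c = (c ^ n) ^ ((1 : ℝ) / n) := by
        rw [← Real.rpow_natCast, ← Real.rpow_mul hc, mul_one_div_cancel hn.ne', Real.rpow_one]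
    _ ≤ H.det.re ^ ((1 : ℝ) / n) := Real.rpow_le_rpow (by positivity) hd (by positivity)

theorem DB.psd {H : Matrix (Fin n) (Fin n) ℂ} (hH : H.IsHermitian) {c : ℝ} (hc : 0 ≤ c)
    (h : DB c H) : H.PosSemidef := by
  classical
  refine Matrix.PosSemidef.of_dotProduct_mulVec_nonneg hH fun x => ?_
  rcases Nat.eq_zero_or_pos n with h0 | h0
  · subst h0
    simp [dotProduct]
  have : NeZero n := ⟨h0.ne'⟩
  let j0 : Fin n := ⟨0, h0⟩
  let b : Matrix (Fin n) (Fin n) ℂ := fun i j => if j = j0 then x i else 0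
  have h1 := h b
  have hb1 : ∀ i, b i j0 = x i := fun i => by simp [b]
  have hb2 : ∀ i j, j ≠ j0 → b i j = 0 := fun i j hj => by simp [b, hj]
  have h2 : (bᴴ * H * b).trace = star x ⬝ᵥ (H *ᵥ x) := by
    rw [Matrix.mul_assoc, Matrix.trace]
    simp only [Matrix.diag_apply, Matrix.mul_apply, Matrix.conjTranspose_apply, dotProduct,
      Matrix.mulVec]
    rw [Finset.sum_eq_single j0]
    · simp only [hb1, Pi.star_apply]
    · intro j _ hj
      refine Finset.sum_eq_zero fun i _ => ?_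
      rw [hb2 i j hj, star_zero, zero_mul]
    · simp
  have h3 : 0 ≤ (star x ⬝ᵥ (H *ᵥ x)).re := by
    rw [← h2]
    refine le_trans ?_ h1
    positivity
  have h4 : (star x ⬝ᵥ (H *ᵥ x)).im = 0 := hH.im_star_dotProduct_mulVec_self x
  exact Complex.nonneg_iff.2 ⟨h3, h4.symm⟩

theorem DB.det {H : Matrix (Fin n) (Fin n) ℂ} (hH : H.IsHermitian) {c : ℝ} (hc : 0 ≤ c)
    (h : DB c H) : c ^ n ≤ H.det.re := by
  classical
  rcases Nat.eq_zero_or_pos n with h0 | h0
  · subst h0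
    simp
  have : NeZero n := ⟨h0.ne'⟩
  have hn : (0 : ℝ) < n := by exact_mod_cast h0
  have hp := h.psd hH hc
  have key : ∀ τ : ℝ, 0 < τ → c ^ n ≤ (H + (τ : ℂ) • (1 : Matrix (Fin n) (Fin n) ℂ)).det.re := by
    intro τ hτ
    set K : Matrix (Fin n) (Fin n) ℂ := H + (τ : ℂ) • 1 with hK
    have hτ1 : ((τ : ℂ) • (1 : Matrix (Fin n) (Fin n) ℂ)).PosDef :=
      Matrix.PosDef.one.smul (by exact_mod_cast hτ)
    have hKp : K.PosDef := hτ1.posSemidef_add hp
    have hKi : K⁻¹.PosSemidef := hKp.inv.posSemidef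
    obtain ⟨B, hB⟩ : ∃ B : Matrix (Fin n) (Fin n) ℂ, K⁻¹ = Bᴴ * B :=
      CStarAlgebra.nonneg_iff_eq_star_mul_self.mp hKi.nonneg
    have hu : IsUnit K.det := (Matrix.isUnit_iff_isUnit_det _).1 hKp.isUnit
    have h1 := h Bᴴ
    rw [conjTranspose_conjTranspose] at h1
    have e1 : (B * K * Bᴴ).trace = (n : ℂ) := by
      rw [Matrix.trace_mul_comm, ← Matrix.mul_assoc, ← hB, Matrix.nonsing_inv_mul _ hu,
        Matrix.trace_one, Fintype.card_fin]
    have e2 : (B * K * Bᴴ).trace = (B * H * Bᴴ).trace + (τ : ℂ) * (B * Bᴴ).trace := by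
      rw [hK, Matrix.mul_add, Matrix.add_mul, Matrix.trace_add, Matrix.mul_smul, Matrix.mul_one,
        Matrix.smul_mul, Matrix.trace_smul, smul_eq_mul]
    have e3 : 0 ≤ (B * Bᴴ).trace.re :=
      (Complex.nonneg_iff.1 (Matrix.posSemidef_self_mul_conjTranspose B).trace_nonneg).1
    have e4 : (B * H * Bᴴ).trace.re ≤ n := by
      have := congrArg Complex.re (e1.symm.trans e2)
      rw [Complex.add_re, Complex.re_ofReal_mul, Complex.natCast_re] at this
      nlinarith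
    have e5 : ‖Bᴴ.det‖ ^ 2 = (K.det.re)⁻¹ := by
      have h2 : (Bᴴ * B).det = K.det⁻¹ := by
        rw [← hB, Matrix.det_nonsing_inv, Ring.inverse_eq_inv']
      rw [det_mul, det_conjTranspose] at h2
      have h3 : star B.det * B.det = ((‖B.det‖ ^ 2 : ℝ) : ℂ) := by
        rw [Complex.star_def, ← Complex.normSq_eq_conj_mul_self, Complex.normSq_eq_norm_sq]
      rw [h3, ← det_re_eq hKp.posSemidef, ← Complex.ofReal_inv, Complex.ofReal_inj] at h2
      rw [det_conjTranspose, norm_star]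
      exact h2
    have hKd : 0 < K.det.re := by
      have := hKp.det_pos
      exact (Complex.pos_iff.1 this).1
    have h6 : (n : ℝ) * c * ((K.det.re)⁻¹) ^ ((1 : ℝ) / n) ≤ n := by
      rw [← e5]
      exact h1.trans e4
    have h7 : c ≤ K.det.re ^ ((1 : ℝ) / n) := by
      rw [Real.inv_rpow hKd.le, mul_assoc] at h6
      have h8 : c * (K.det.re ^ ((1 : ℝ) / n))⁻¹ ≤ 1 := by
        by_contra hcon
        push_neg at hcon
        nlinarith
      have h9 : 0 < K.det.re ^ ((1 : ℝ) / n) := Real.rpow_pos_of_pos hKd _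
      rwa [← div_eq_mul_inv, div_le_one h9] at h8
    calc c ^ n ≤ (K.det.re ^ ((1 : ℝ) / n)) ^ n := pow_le_pow_left₀ hc h7 n
      _ = K.det.re := by
        rw [← Real.rpow_natCast, ← Real.rpow_mul hKd.le, one_div_mul_cancel hn.ne', Real.rpow_one]
  have hcont : Continuous fun τ : ℝ => (H + (τ : ℂ) • (1 : Matrix (Fin n) (Fin n) ℂ)).det.re := by
    refine Complex.continuous_re.comp (Continuous.matrix_det ?_)
    fun_prop
  have hlim : Filter.Tendsto (fun τ : ℝ => (H + (τ : ℂ) • (1 : Matrix (Fin n) (Fin n) ℂ)).det.re)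
      (nhdsWithin 0 (Set.Ioi 0)) (nhds (H + ((0 : ℝ) : ℂ) • (1 : Matrix (Fin n) (Fin n) ℂ)).det.re) :=
    (hcont.tendsto 0).mono_left nhdsWithin_le_nhds
  rw [Complex.ofReal_zero, zero_smul, add_zero] at hlim
  exact ge_of_tendsto hlim (Filter.eventually_of_mem self_mem_nhdsWithin fun τ hτ => key τ hτ)

theorem DB_iff [NeZero n] {H : Matrix (Fin n) (Fin n) ℂ} (hH : H.IsHermitian) {c : ℝ}
    (hc : 0 ≤ c) : DB c H ↔ H.PosSemidef ∧ c ^ n ≤ H.det.re :=
  ⟨fun h => ⟨h.psd hH hc, h.det hH hc⟩, fun h => DB_of_det h.1 hc h.2⟩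

theorem DB.add {c c' : ℝ} {H H' : Matrix (Fin n) (Fin n) ℂ} (h : DB c H) (h' : DB c' H') :
    DB (c + c') (H + H') := by
  intro b
  have := h b
  have := h' b
  rw [Matrix.mul_add, Matrix.add_mul, Matrix.trace_add, Complex.add_re]
  nlinarith

theorem DB.smul {c t : ℝ} {H : Matrix (Fin n) (Fin n) ℂ} (ht : 0 ≤ t) (h : DB c H) :
    DB (t * c) ((t : ℂ) • H) := by
  intro b
  have := mul_le_mul_of_nonneg_left (h b) ht
  rw [Matrix.mul_smul, Matrix.smul_mul, Matrix.trace_smul, smul_eq_mul, Complex.re_ofReal_mul]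
  calc n * (t * c) * (‖b.det‖ ^ 2) ^ ((1 : ℝ) / n) = t * (n * c * (‖b.det‖ ^ 2) ^ ((1 : ℝ) / n)) := by
        ring
    _ ≤ _ := this

/-- it is enough to test invertible matrices -/
theorem DB_of_inv [NeZero n] {c : ℝ} {H : Matrix (Fin n) (Fin n) ℂ}
    (h : ∀ b : Matrix (Fin n) (Fin n) ℂ, b.det ≠ 0 →
      n * c * (‖b.det‖ ^ 2) ^ ((1 : ℝ) / n) ≤ (bᴴ * H * b).trace.re) : DB c H := by
  classical
  intro b
  have hn : (0 : ℝ) < n := by exact_mod_cast NeZero.pos n
  -- `b + τ` is invertible for small `τ ≠ 0`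
  have hfin : {τ : ℂ | (b + τ • (1 : Matrix (Fin n) (Fin n) ℂ)).det = 0}.Finite := by
    have h1 : {τ : ℂ | (b + τ • (1 : Matrix (Fin n) (Fin n) ℂ)).det = 0} ⊆
        (fun τ => -τ) '' (b.charpoly.rootSet ℂ) := by
      intro τ hτ
      refine ⟨-τ, ?_, by ring⟩
      rw [Polynomial.mem_rootSet]
      refine ⟨b.charpoly_monic.ne_zero, ?_⟩
      rw [Polynomial.coe_aeval_eq_eval, Matrix.eval_charpoly]
      have : Matrix.scalar (Fin n) (-τ) - b = -(b + τ • (1 : Matrix (Fin n) (Fin n) ℂ)) := by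
        ext i j
        by_cases hij : i = j
        · subst hij
          simp [Matrix.scalar_apply]
          ring
        · simp [Matrix.scalar_apply, hij]
      rw [this, Matrix.det_neg, hτ, mul_zero]
    exact ((b.charpoly.rootSet_finite ℂ).image _).subset h1
  have hev : ∀ᶠ τ : ℂ in nhdsWithin 0 {0}ᶜ, (b + τ • (1 : Matrix (Fin n) (Fin n) ℂ)).det ≠ 0 := by
    have h2 : ({τ : ℂ | (b + τ • (1 : Matrix (Fin n) (Fin n) ℂ)).det = 0} \ {0}).Finite :=
      hfin.subset Set.sdiff_subset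
    have h3 : ({τ : ℂ | (b + τ • (1 : Matrix (Fin n) (Fin n) ℂ)).det = 0} \ {0})ᶜ ∈ nhds (0 : ℂ) :=
      h2.isClosed.isOpen_compl.mem_nhds (by simp)
    filter_upwards [mem_nhdsWithin_of_mem_nhds h3, self_mem_nhdsWithin] with τ h4 h5 h6
    exact h4 ⟨h6, h5⟩
  have hc1 : Continuous fun τ : ℂ => b + τ • (1 : Matrix (Fin n) (Fin n) ℂ) := by fun_prop
  have hL : Filter.Tendsto (fun τ : ℂ =>
      n * c * (‖(b + τ • (1 : Matrix (Fin n) (Fin n) ℂ)).det‖ ^ 2) ^ ((1 : ℝ) / n))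
      (nhdsWithin 0 {0}ᶜ) (nhds (n * c * (‖b.det‖ ^ 2) ^ ((1 : ℝ) / n))) := by
    have hcont : Continuous (fun τ : ℂ =>
        n * c * (‖(b + τ • (1 : Matrix (Fin n) (Fin n) ℂ)).det‖ ^ 2) ^ ((1 : ℝ) / n)) := by
      refine continuous_const.mul ?_
      exact (((hc1.matrix_det).norm.pow 2)).rpow_const (fun _ => Or.inr (by positivity))
    have := (hcont.tendsto 0).mono_left (nhdsWithin_le_nhds (s := {0}ᶜ))
    simpa using this
  have hR : Filter.Tendsto (fun τ : ℂ => ((b + τ • (1 : Matrix (Fin n) (Fin n) ℂ))ᴴ * H *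
      (b + τ • (1 : Matrix (Fin n) (Fin n) ℂ))).trace.re) (nhdsWithin 0 {0}ᶜ)
      (nhds (bᴴ * H * b).trace.re) := by
    have hcont : Continuous (fun τ : ℂ => ((b + τ • (1 : Matrix (Fin n) (Fin n) ℂ))ᴴ * H *
      (b + τ • (1 : Matrix (Fin n) (Fin n) ℂ))).trace.re) := by
      refine Complex.continuous_re.comp (Continuous.matrix_trace ?_)
      exact ((hc1.matrix_conjTranspose).matrix_mul continuous_const).matrix_mul hc1
    have := (hcont.tendsto 0).mono_left (nhdsWithin_le_nhds (s := {0}ᶜ))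
    simpa using this
  exact le_of_tendsto_of_tendsto hL hR (hev.mono fun τ hτ => h _ hτ)

end

end Crest.Agent.R269.GlueA_390
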