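import Crest.Agent.R269.GlueB_390
import Crest.Agent.R269.GlueA_390

/-!
# R269 (S0411), leaf L8, part G2 (helper390): mollification of functions and measures on `ℂⁿ`

`cv ν f ρ x = ∫ f t * ρ (x - t) ∂ν t`; smoothness, `lv` under the integral sign; the linear
determinant inequality passes from the weak form to the mollification.
-/

set_option autoImplicit false
set_option linter.unusedSectionVars false

open MeasureTheory Set Metric Filter Topology
open scoped ContDiff Pointwise

namespace Crest.Agent.R269.GlueC_390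

open Crest.Agent.R273.C0d_390 Crest.Agent.R269.GlueB_390

noncomputable section

variable {n : ℕ}

section Conv

variable {F : Type*} [NormedAddCommGroup F] [NormedSpace ℝ F]

/-- convolution of a function against a measure -/
def cv (ν : Measure (V n)) (f : V n → ℝ) (ρ : V n → F) (x : V n) : F := ∫ t, f t • ρ (x - t) ∂ν

theorem cv_integrable {ν : Measure (V n)} {f : V n → ℝ}
    (hf : LocallyIntegrable f ν) {ρ : V n → F} (hρ : Continuous ρ) (hc : HasCompactSupport ρ)
    (x : V n) : Integrable (fun t => f t • ρ (x - t)) ν := by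
  have hc' : HasCompactSupport (fun t => ρ (x - t)) := hc.comp_homeomorph (Homeomorph.subLeft x)
  exact hf.integrable_smul_right_of_hasCompactSupport (by fun_prop) hc'

theorem cv_hasFDerivAt [CompleteSpace F] {ν : Measure (V n)} {f : V n → ℝ}
    (hf : LocallyIntegrable f ν) {ρ : V n → F} (hρ : ContDiff ℝ 1 ρ) (hc : HasCompactSupport ρ)
    (x : V n) : HasFDerivAt (cv ν f ρ) (cv ν f (fderiv ℝ ρ) x) x := by
  have hd : Continuous (fderiv ℝ ρ) := hρ.continuous_fderiv one_ne_zero
  have hcd : HasCompactSupport (fderiv ℝ ρ) := hc.fderiv ℝ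
  obtain ⟨C, hC⟩ := hd.bounded_above_of_compact_support hcd
  let K' : Set (V n) := -tsupport (fderiv ℝ ρ) + closedBall x 1
  have hK' : IsCompact K' := hcd.isCompact.neg.add (isCompact_closedBall x 1)
  have hint := cv_integrable hf hρ.continuous hc
  have hint' := cv_integrable hf hd hcd
  have hC0 : 0 ≤ C := (norm_nonneg _).trans (hC 0)
  refine hasFDerivAt_integral_of_dominated_of_fderiv_le (μ := ν)
    (F := fun x t => f t • ρ (x - t)) (F' := fun x t => f t • fderiv ℝ ρ (x - t)) (x₀ := x)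
    (bound := K'.indicator fun t => ‖f t‖ * C) (ball_mem_nhds x one_pos)
    (Eventually.of_forall fun y => (hint y).aestronglyMeasurable) (hint x)
    (hint' x).aestronglyMeasurable ?_ ?_ ?_
  · refine Eventually.of_forall fun t y hy => ?_
    by_cases ht : t ∈ K'
    · rw [indicator_of_mem ht, norm_smul]
      exact mul_le_mul_of_nonneg_left (hC _) (norm_nonneg _)
    · rw [indicator_of_notMem ht]
      have : fderiv ℝ ρ (y - t) = 0 := by
        by_contra h
        refine ht ⟨-(y - t), ?_, y, ball_subset_closedBall hy, by simp⟩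
        rw [Set.mem_neg, neg_neg]
        exact subset_tsupport _ h
      rw [this, smul_zero, norm_zero]
  · rw [integrable_indicator_iff hK'.measurableSet]
    exact ((hf.integrableOn_isCompact hK').norm.mul_const _)
  · refine Eventually.of_forall fun t y _ => ?_
    have h1 : HasFDerivAt (fun y : V n => y - t) (ContinuousLinearMap.id ℝ (V n)) y :=
      (hasFDerivAt_id y).sub_const t
    have h2 := ((hρ.differentiable one_ne_zero) (y - t)).hasFDerivAt.comp y h1
    exact h2.const_smul (f t)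

theorem cv_fderiv [CompleteSpace F] {ν : Measure (V n)} {f : V n → ℝ}
    (hf : LocallyIntegrable f ν) {ρ : V n → F} (hρ : ContDiff ℝ 1 ρ) (hc : HasCompactSupport ρ) :
    fderiv ℝ (cv ν f ρ) = cv ν f (fderiv ℝ ρ) :=
  funext fun x => (cv_hasFDerivAt hf hρ hc x).fderiv

theorem cv_contDiff {ν : Measure (V n)} {f : V n → ℝ} (hf : LocallyIntegrable f ν)
    {ρ : V n → ℝ} (hρ : ContDiff ℝ ∞ ρ) (hc : HasCompactSupport ρ) : ContDiff ℝ ∞ (cv ν f ρ) :=
  HasCompactSupport.contDiff_convolution_right (𝕜 := ℝ) (n := ⊤) (ContinuousLinearMap.lsmul ℝ ℝ)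
    hc hf hρ

theorem cv_fderiv_apply {ν : Measure (V n)} {f : V n → ℝ}
    (hf : LocallyIntegrable f ν) {ρ : V n → ℝ} (hρ : ContDiff ℝ 1 ρ) (hc : HasCompactSupport ρ)
    (x a : V n) :
    fderiv ℝ (cv ν f ρ) x a = cv ν f (fun y => fderiv ℝ ρ y a) x := by
  have hi := cv_integrable hf (hρ.continuous_fderiv one_ne_zero) (hc.fderiv ℝ) x
  rw [(cv_hasFDerivAt hf hρ hc x).fderiv, cv, ContinuousLinearMap.integral_apply hi]
  rfl

theorem fderiv2_apply {u : V n → ℝ} {x : V n} (hu : ContDiffAt ℝ 2 u x) (a b : V n) :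
    fderiv ℝ (fderiv ℝ u) x b a = fderiv ℝ (fun y => fderiv ℝ u y a) x b := by
  have h1 : DifferentiableAt ℝ (fderiv ℝ u) x :=
    (hu.fderiv_right (m := 1) (by norm_num)).differentiableAt (by norm_num)
  have h2 := h1.hasFDerivAt.clm_apply (hasFDerivAt_const a x)
  rw [h2.fderiv]
  simp

theorem cv_lv {ν : Measure (V n)} {f : V n → ℝ} (hf : LocallyIntegrable f ν)
    {ρ : V n → ℝ} (hρ : ContDiff ℝ ∞ ρ) (hc : HasCompactSupport ρ) (x ξ : V n) :
    lv (cv ν f ρ) x ξ = ∫ t, f t * lv ρ (x - t) ξ ∂ν := by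
  have h0 : ContDiff ℝ 2 ρ := hρ.of_le (by norm_cast)
  have h1 : ContDiff ℝ 1 ρ := h0.of_le (by norm_num)
  have hu : ContDiff ℝ 2 (cv ν f ρ) := (cv_contDiff hf hρ hc).of_le (by norm_cast)
  have ha1 : ∀ a : V n, ContDiff ℝ 1 (fun y => fderiv ℝ ρ y a) := fun a =>
    (h0.fderiv_right (m := 1) (by norm_num)).clm_apply contDiff_const
  have hac : ∀ a : V n, HasCompactSupport (fun y => fderiv ℝ ρ y a) := fun a =>
    hc.fderiv_apply ℝ a
  have key : ∀ a : V n, fderiv ℝ (fderiv ℝ (cv ν f ρ)) x a a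
      = cv ν f (fun y => fderiv ℝ (fderiv ℝ ρ) y a a) x := by
    intro a
    rw [fderiv2_apply hu.contDiffAt]
    have e1 : (fun y => fderiv ℝ (cv ν f ρ) y a) = cv ν f (fun y => fderiv ℝ ρ y a) := by
      funext y
      exact cv_fderiv_apply hf h1 hc y a
    rw [e1, cv_fderiv_apply hf (ha1 a) (hac a)]
    congr 1
    funext y
    rw [fderiv2_apply h0.contDiffAt]
  have hi : ∀ a : V n, Integrable (fun t => f t • fderiv ℝ (fderiv ℝ ρ) (x - t) a a) ν := by
    intro a
    have e2 : (fun y => fderiv ℝ (fderiv ℝ ρ) y a a)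
        = fun y => fderiv ℝ (fun y => fderiv ℝ ρ y a) y a := by
      funext y
      rw [fderiv2_apply h0.contDiffAt]
    have h3 : Continuous (fun y => fderiv ℝ (fderiv ℝ ρ) y a a) := by
      rw [e2]
      exact ((ha1 a).continuous_fderiv one_ne_zero).clm_apply continuous_const
    have h4 : HasCompactSupport (fun y => fderiv ℝ (fderiv ℝ ρ) y a a) := by
      rw [e2]
      exact (hac a).fderiv_apply ℝ a
    exact cv_integrable hf h3 h4 x
  unfold lv
  rw [key, key, cv, cv, ← integral_add (hi _) (hi _)]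
  refine integral_congr_ae (Eventually.of_forall fun t => ?_)
  simp only [smul_eq_mul]
  ring

end Conv

/-- reflected translate of a test function -/
theorem lv_refl {ρ : V n → ℝ} (hρ : ContDiff ℝ 2 ρ) (x t ξ : V n) :
    lv (fun t => ρ (x - t)) t ξ = lv ρ (x - t) ξ := by
  have hd : ∀ s : V n, HasFDerivAt (fun s : V n => x - s) (-ContinuousLinearMap.id ℝ (V n)) s :=
    fun s => (hasFDerivAt_id s).const_sub x
  have h1 : fderiv ℝ (fun t => ρ (x - t)) = fun t => (fderiv ℝ ρ (x - t)).comp
      (-ContinuousLinearMap.id ℝ (V n)) := by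
    funext s
    exact (((hρ.differentiable (by norm_num)) (x - s)).hasFDerivAt.comp s (hd s)).fderiv
  have h2 : Differentiable ℝ (fderiv ℝ ρ) := (hρ.fderiv_right (m := 1) (by norm_num)).differentiable
    (by norm_num)
  have h3 : HasFDerivAt (fun t => (fderiv ℝ ρ (x - t)).comp (-ContinuousLinearMap.id ℝ (V n)))
      _ t := ((h2 (x - t)).hasFDerivAt.comp t (hd t)).clm_comp
        (hasFDerivAt_const (-ContinuousLinearMap.id ℝ (V n)) t)
  unfold lv
  rw [h1, h3.fderiv]
  simp

end

end Crest.Agent.R269.GlueC_390
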