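import Crest.Agent.R269.GlueC_390

/-!
# R269 (S0411), leaf L8, part G3 (helper390): mollification of bounded plurisubharmonic functions

* `rho n δ`  : mollifier supported in `closedBall 0 δ`, `moll f δ = f * rho δ`
* `le_moll`  : `v q ≤ moll v δ p + C B / log (R / δ)` for `q ∈ closedBall p (L δ)`, `v` smooth psh
* `ess_le`   : the same for a bounded measurable function whose mollifications are psh
-/

set_option autoImplicit false
set_option linter.unusedSectionVars false

open MeasureTheory Set Metric Filter Topology Module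
open scoped ContDiff Pointwise

namespace Crest.Agent.R269.GlueD_390

open Crest.Agent.R273.C0d_390 Crest.Agent.R269.GlueB_390 Crest.Agent.R269.GlueC_390

noncomputable section

variable {n : ℕ}

/-- the bump of radius `δ` -/
def bmp (n : ℕ) {δ : ℝ} (h : 0 < δ) : ContDiffBump (0 : V n) :=
  ⟨δ / 2, δ, half_pos h, half_lt_self h⟩

/-- the mollifier of radius `δ` -/
def rho (n : ℕ) (δ : ℝ) : V n → ℝ := if h : 0 < δ then (bmp n h).normed volume else 0

theorem rho_eq {δ : ℝ} (h : 0 < δ) : rho n δ = (bmp n h).normed volume := dif_pos h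

theorem rho_nonneg (δ : ℝ) (x : V n) : 0 ≤ rho n δ x := by
  by_cases h : 0 < δ
  · rw [rho_eq h]
    exact (bmp n h).nonneg_normed x
  · rw [rho, dif_neg h]
    exact le_rfl

theorem rho_contDiff (δ : ℝ) : ContDiff ℝ ∞ (rho n δ) := by
  by_cases h : 0 < δ
  · rw [rho_eq h]
    exact (bmp n h).contDiff_normed
  · rw [rho, dif_neg h]
    exact contDiff_const

theorem rho_cpt (δ : ℝ) : HasCompactSupport (rho n δ) := by
  by_cases h : 0 < δ
  · rw [rho_eq h]
    exact (bmp n h).hasCompactSupport_normed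
  · rw [rho, dif_neg h]
    exact HasCompactSupport.zero

theorem rho_support {δ : ℝ} (h : 0 < δ) : Function.support (rho n δ) = ball 0 δ := by
  rw [rho_eq h, (bmp n h).support_normed_eq]
  rfl

theorem rho_tsupport {δ : ℝ} (h : 0 < δ) : tsupport (rho n δ) = closedBall 0 δ := by
  rw [rho_eq h, (bmp n h).tsupport_normed_eq]
  rfl

theorem rho_zero {δ : ℝ} (h : 0 < δ) {x t : V n} (ht : t ∉ ball x δ) : rho n δ (x - t) = 0 := by
  by_contra hne
  have h1 : x - t ∈ ball (0 : V n) δ := by
    rw [← rho_support h]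
    exact hne
  rw [mem_ball_zero_iff] at h1
  rw [mem_ball, dist_eq_norm, norm_sub_rev] at ht
  exact ht h1

theorem rho_neg (δ : ℝ) (x : V n) : rho n δ (-x) = rho n δ x := by
  by_cases h : 0 < δ
  · rw [rho_eq h]
    exact ContDiffBump.normed_neg (bmp n h) x
  · rw [rho, dif_neg h]
    rfl

theorem rho_integral {δ : ℝ} (h : 0 < δ) : ∫ x, rho n δ x = 1 := by
  rw [rho_eq h]
  exact (bmp n h).integral_normed

theorem rho_integral' {δ : ℝ} (h : 0 < δ) (x : V n) : ∫ t, rho n δ (x - t) = 1 := by
  rw [integral_sub_left_eq_self (fun t => rho n δ t) volume x]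
  exact rho_integral h

theorem rho_le {δ : ℝ} (h : 0 < δ) (x : V n) :
    rho n δ x ≤ 2 ^ finrank ℝ (V n) / volume.real (closedBall (0 : V n) δ) := by
  rw [rho_eq h]
  refine (bmp n h).normed_le_div_measure_closedBall_rOut volume 2 ?_ x
  change δ ≤ 2 * (δ / 2)
  linarith

theorem rho_ge {δ : ℝ} (h : 0 < δ) {x : V n} (hx : ‖x‖ ≤ δ / 2) :
    1 / volume.real (closedBall (0 : V n) δ) ≤ rho n δ x := by
  rw [rho_eq h, ContDiffBump.normed_def]
  have h1 : (bmp n h) x = 1 := (bmp n h).one_of_mem_closedBall (by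
    rw [mem_closedBall_zero_iff]
    exact hx)
  rw [h1]
  exact one_div_le_one_div_of_le (bmp n h).integral_pos
    ((bmp n h).integral_le_measure_closedBall volume)

/-- mollification -/
def moll (f : V n → ℝ) (δ : ℝ) : V n → ℝ := cv volume f (rho n δ)

theorem moll_eq (f : V n → ℝ) (δ : ℝ) (x : V n) : moll f δ x = ∫ t, f t * rho n δ (x - t) := rfl

theorem moll_contDiff {f : V n → ℝ} (hf : LocallyIntegrable f) (δ : ℝ) :
    ContDiff ℝ ∞ (moll f δ) := cv_contDiff hf (rho_contDiff δ) (rho_cpt δ)

theorem moll_integrable {f : V n → ℝ} (hf : LocallyIntegrable f) (δ : ℝ) (x : V n) :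
    Integrable fun t => f t * rho n δ (x - t) :=
  cv_integrable hf (rho_contDiff δ).continuous (rho_cpt δ) x

theorem moll_const {δ : ℝ} (h : 0 < δ) (b : ℝ) (x : V n) : moll (fun _ => b) δ x = b := by
  rw [moll_eq, integral_const_mul, rho_integral' h, mul_one]

theorem moll_mono {f g : V n → ℝ} (hf : LocallyIntegrable f) (hg : LocallyIntegrable g) {δ : ℝ}
    (h : 0 < δ) {x : V n} (hb : ∀ᵐ t, t ∈ ball x δ → f t ≤ g t) : moll f δ x ≤ moll g δ x := by
  refine integral_mono_ae (moll_integrable hf δ x) (moll_integrable hg δ x) ?_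
  filter_upwards [hb] with t ht
  by_cases htb : t ∈ ball x δ
  · exact mul_le_mul_of_nonneg_right (ht htb) (rho_nonneg δ _)
  · change f t * rho n δ (x - t) ≤ g t * rho n δ (x - t)
    rw [rho_zero h htb, mul_zero, mul_zero]

theorem locInt_const (b : ℝ) : LocallyIntegrable (fun _ : V n => b) :=
  continuous_const.locallyIntegrable

theorem moll_le {f : V n → ℝ} (hf : LocallyIntegrable f) {δ b : ℝ} (h : 0 < δ) {x : V n}
    (hb : ∀ᵐ t, t ∈ ball x δ → f t ≤ b) : moll f δ x ≤ b := by
  have := moll_mono hf (locInt_const b) h hb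
  rwa [moll_const h] at this

theorem le_moll' {f : V n → ℝ} (hf : LocallyIntegrable f) {δ b : ℝ} (h : 0 < δ) {x : V n}
    (hb : ∀ᵐ t, t ∈ ball x δ → b ≤ f t) : b ≤ moll f δ x := by
  have := moll_mono (locInt_const b) hf h hb
  rwa [moll_const h] at this

theorem moll_congr {f g : V n → ℝ} {δ : ℝ} (h : 0 < δ) {x : V n}
    (hb : ∀ᵐ t, t ∈ ball x δ → f t = g t) : moll f δ x = moll g δ x := by
  refine integral_congr_ae ?_
  filter_upwards [hb] with t ht
  by_cases htb : t ∈ ball x δ
  · change f t * rho n δ (x - t) = g t * rho n δ (x - t)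
    rw [ht htb]
  · change f t * rho n δ (x - t) = g t * rho n δ (x - t)
    rw [rho_zero h htb, mul_zero, mul_zero]

/-- the constant of the comparison -/
def Cst (n : ℕ) (L : ℝ) : ℝ := 2 * (4 ^ finrank ℝ (V n) * Real.log 3 + Real.log L)

theorem Cst_nonneg {L : ℝ} (hL : 1 ≤ L) : 0 ≤ Cst n L := by
  have h1 : 0 ≤ Real.log L := Real.log_nonneg hL
  have h2 : 0 ≤ Real.log 3 := Real.log_nonneg (by norm_num)
  unfold Cst
  positivity

/-- growth from a small ball -/
theorem le_of_small {v : V n → ℝ} {p q : V n} {R δ L B a : ℝ} (hδ : 0 < δ) (hδR : δ < R)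
    (hv : ∀ x ∈ closedBall p R, ContDiffAt ℝ 2 v x)
    (hp : ∀ x ∈ closedBall p R, ∀ ξ, 0 ≤ lv v x ξ) (hB : ∀ x ∈ closedBall p R, |v x| ≤ B)
    (ha : ∀ x ∈ closedBall p δ, v x ≤ a) (haB : -B ≤ a) (hL : 1 ≤ L) (hLR : L * δ ≤ R)
    (hq : q ∈ closedBall p (L * δ)) : v q ≤ a + 2 * B * (Real.log L / Real.log (R / δ)) := by
  have hlog : 0 < Real.log (R / δ) := Real.log_pos ((one_lt_div hδ).2 hδR)
  have hB0 : 0 ≤ B := (abs_nonneg _).trans (hB p (mem_closedBall_self (hδ.trans hδR).le))
  have hlL : 0 ≤ Real.log L := Real.log_nonneg hL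
  rw [mem_closedBall, dist_eq_norm] at hq
  by_cases hqδ : ‖q - p‖ ≤ δ
  · have h1 := ha q (by rwa [mem_closedBall, dist_eq_norm])
    have h2 : 0 ≤ 2 * B * (Real.log L / Real.log (R / δ)) := by positivity
    linarith
  push Not at hqδ
  have h1 := shell (a := a) (b := B) hδ hδR hv hp (fun x hx => ha x (sphere_subset_closedBall hx))
    (fun x hx => (abs_le.1 (hB x (sphere_subset_closedBall hx))).2) hqδ.le (hq.trans hLR)
  refine h1.trans ?_
  have h2 : Real.log (‖q - p‖ / δ) ≤ Real.log L := by
    refine Real.log_le_log (div_pos (hδ.trans hqδ) hδ) ?_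
    rw [div_le_iff₀ hδ]
    exact hq
  have h3 : 0 ≤ Real.log (‖q - p‖ / δ) := Real.log_nonneg ((one_le_div hδ).2 hqδ.le)
  have h4 : (B - a) * (Real.log (‖q - p‖ / δ) / Real.log (R / δ))
      ≤ 2 * B * (Real.log L / Real.log (R / δ)) := by
    refine mul_le_mul (by linarith) (by gcongr) (by positivity) (by positivity)
  linarith

/-- comparison of the values on `closedBall p (L δ)` with the mollification at `p` -/
theorem le_moll {v : V n → ℝ} {p q : V n} {R δ L B : ℝ} (hvc : ContDiff ℝ 2 v) (hδ : 0 < δ)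
    (h3 : 3 * δ ≤ R) (hp : ∀ x ∈ closedBall p R, ∀ ξ, 0 ≤ lv v x ξ)
    (hB : ∀ x ∈ closedBall p R, |v x| ≤ B) (hL : 1 ≤ L) (hLR : L * δ ≤ R)
    (hq : q ∈ closedBall p (L * δ)) :
    v q ≤ moll v δ p + Cst n L * B / Real.log (R / δ) := by
  have hδR : δ < R := by linarith
  have hlog : 0 < Real.log (R / δ) := Real.log_pos ((one_lt_div hδ).2 hδR)
  have hB0 : 0 ≤ B := (abs_nonneg _).trans (hB p (mem_closedBall_self (hδ.trans hδR).le))
  have hl3 : 0 < Real.log 3 := Real.log_pos (by norm_num)
  obtain ⟨y, hy, hymax⟩ := (isCompact_closedBall p δ).exists_isMaxOn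
    ⟨p, mem_closedBall_self hδ.le⟩ hvc.continuous.continuousOn
  set a := v y with ha
  have hamax : ∀ x ∈ closedBall p δ, v x ≤ a := fun x hx => hymax hx
  have hyR : y ∈ closedBall p R := closedBall_subset_closedBall hδR.le hy
  have haB := abs_le.1 (hB y hyR)
  set b := a + 2 * B * (Real.log 3 / Real.log (R / δ)) with hb
  have hbv : ∀ z ∈ closedBall p (3 * δ), v z ≤ b := fun z hz =>
    le_of_small hδ hδR (fun x _ => hvc.contDiffAt) hp hB hamax haB.1 (by norm_num) h3 hz
  have hsub : closedBall p (3 * δ) ⊆ closedBall p R := closedBall_subset_closedBall h3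
  have hH := harnack volume hδ (fun z _ => hvc.contDiffAt) (fun z hz => hp z (hsub hz)) hbv hy
  -- average
  have hvi : LocallyIntegrable v := hvc.continuous.locallyIntegrable
  have hcd : Continuous fun t => b - v t := continuous_const.sub hvc.continuous
  have h5 : b - moll v δ p ≤ 4 ^ finrank ℝ (V n) * (b - a) := by
    have e1 : b - moll v δ p = ∫ t, (b - v t) * rho n δ (p - t) := by
      have e0 : b - moll v δ p = (∫ t, b * rho n δ (p - t)) - ∫ t, v t * rho n δ (p - t) := by
        have := moll_const hδ b p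
        rw [moll_eq] at this
        rw [this, moll_eq]
      rw [e0, ← integral_sub (moll_integrable (locInt_const b) δ p) (moll_integrable hvi δ p)]
      refine integral_congr_ae (Eventually.of_forall fun t => ?_)
      change b * rho n δ (p - t) - v t * rho n δ (p - t) = (b - v t) * rho n δ (p - t)
      ring
    have e2 : ∫ t, (b - v t) * rho n δ (p - t)
        = ∫ t in ball p δ, (b - v t) * rho n δ (p - t) := by
      rw [setIntegral_eq_integral_of_forall_compl_eq_zero]
      intro t ht
      rw [rho_zero hδ ht, mul_zero]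
    set D := 2 ^ finrank ℝ (V n) / volume.real (closedBall (0 : V n) δ) with hD
    have hV : 0 < volume.real (closedBall (0 : V n) δ) :=
      ENNReal.toReal_pos (measure_closedBall_pos _ _ hδ).ne' measure_closedBall_lt_top.ne
    have hIo : IntegrableOn (fun t => b - v t) (ball p δ) :=
      (hcd.locallyIntegrable.integrableOn_isCompact (isCompact_closedBall p δ)).mono_set
        ball_subset_closedBall
    have e3 : ∫ t in ball p δ, (b - v t) * rho n δ (p - t)
        ≤ ∫ t in ball p δ, (b - v t) * D := by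
      refine setIntegral_mono_on ?_ (hIo.mul_const D) measurableSet_ball fun t ht => ?_
      · have hc2 : Continuous fun t => (b - v t) * rho n δ (p - t) :=
          hcd.mul ((rho_contDiff δ).continuous.comp (by fun_prop))
        exact (hc2.locallyIntegrable.integrableOn_isCompact (isCompact_closedBall p δ)).mono_set
          ball_subset_closedBall
      · refine mul_le_mul_of_nonneg_left (rho_le hδ _) ?_
        have := hamax t (ball_subset_closedBall ht)
        have h0 : 0 ≤ 2 * B * (Real.log 3 / Real.log (R / δ)) := by positivity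
        linarith
    rw [e1, e2]
    refine e3.trans ?_
    rw [integral_mul_const]
    have h6 : (∫ z in ball p δ, (b - v z)) * D ≤ (b - v y) * volume.real (ball y (2 * δ)) * D :=
      mul_le_mul_of_nonneg_right hH (by positivity)
    refine h6.trans ?_
    have h7 : volume.real (ball y (2 * δ)) ≤ 2 ^ finrank ℝ (V n) * volume.real (closedBall (0 : V n) δ) := by
      rw [measureReal_def, measureReal_def, Measure.addHaar_ball_mul_of_pos volume y (by norm_num),
        ENNReal.toReal_mul, ENNReal.toReal_ofReal (by positivity)]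
      exact mul_le_mul_of_nonneg_left (ENNReal.toReal_mono measure_closedBall_lt_top.ne
        (measure_mono ball_subset_closedBall)) (by positivity)
    have h8 : (4 : ℝ) ^ finrank ℝ (V n) = 2 ^ finrank ℝ (V n) * 2 ^ finrank ℝ (V n) := by
      rw [← mul_pow]
      norm_num
    have hba : 0 ≤ b - v y := by
      have h0 : 0 ≤ 2 * B * (Real.log 3 / Real.log (R / δ)) := by positivity
      linarith
    calc (b - v y) * volume.real (ball y (2 * δ)) * D
        ≤ (b - v y) * (2 ^ finrank ℝ (V n) * volume.real (closedBall (0 : V n) δ)) * D := by gcongr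
      _ = _ := by
        rw [hD, ← ha, h8]
        field_simp
  have hmain := le_of_small hδ hδR (fun x _ => hvc.contDiffAt) hp hB hamax haB.1 hL hLR hq
  refine hmain.trans ?_
  have h9 : b - a = 2 * B * (Real.log 3 / Real.log (R / δ)) := by rw [hb]; ring
  have h10 : a ≤ b := by
    have h0 : 0 ≤ 2 * B * (Real.log 3 / Real.log (R / δ)) := by positivity
    linarith
  rw [h9] at h5
  have h11 : Cst n L * B / Real.log (R / δ) = 4 ^ finrank ℝ (V n) *
      (2 * B * (Real.log 3 / Real.log (R / δ))) + 2 * B * (Real.log L / Real.log (R / δ)) := by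
    unfold Cst
    field_simp
  rw [h11]
  linarith

theorem locInt_bdd {f : V n → ℝ} (hf : AEStronglyMeasurable f) {B : ℝ} (hB : ∀ t, |f t| ≤ B) :
    LocallyIntegrable f := by
  refine (locInt_const B).mono hf (Eventually.of_forall fun t => ?_)
  rw [Real.norm_eq_abs, Real.norm_eq_abs]
  exact (hB t).trans (le_abs_self _)

theorem moll_abs_le {f : V n → ℝ} (hf : LocallyIntegrable f) {δ B : ℝ} (h : 0 < δ)
    (hB : ∀ t, |f t| ≤ B) (x : V n) : |moll f δ x| ≤ B :=
  abs_le.2 ⟨le_moll' hf h (Eventually.of_forall fun t _ => (abs_le.1 (hB t)).1),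
    moll_le hf h (Eventually.of_forall fun t _ => (abs_le.1 (hB t)).2)⟩

theorem moll_swap (f : V n → ℝ) (δ : ℝ) (x : V n) : moll f δ x = ∫ t, rho n δ t * f (x - t) := by
  rw [moll_eq, ← integral_sub_left_eq_self (fun t => rho n δ t * f (x - t)) volume x]
  refine integral_congr_ae (Eventually.of_forall fun t => ?_)
  simp only [sub_sub_cancel]
  ring

theorem moll_ae_tendsto {f : V n → ℝ} (hf : LocallyIntegrable f) :
    ∀ᵐ x, Tendsto (fun k : ℕ => moll f (1 / ((k : ℝ) + 1)) x) atTop (𝓝 (f x)) := by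
  have hpos : ∀ k : ℕ, 0 < 1 / ((k : ℝ) + 1) := fun k => Nat.one_div_pos_of_nat
  have h := ContDiffBump.ae_convolution_tendsto_right_of_locallyIntegrable (μ := volume)
    (φ := fun k : ℕ => bmp n (hpos k)) (l := atTop) (K := 2) (g := f)
    tendsto_one_div_add_atTop_nhds_zero_nat (Eventually.of_forall fun k => by
      change 1 / ((k : ℝ) + 1) ≤ 2 * ((1 / ((k : ℝ) + 1)) / 2)
      linarith) hf
  filter_upwards [h] with x hx
  have e : ∀ k : ℕ, moll f (1 / ((k : ℝ) + 1)) x
      = MeasureTheory.convolution ((bmp n (hpos k)).normed volume) f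
        (ContinuousLinearMap.lsmul ℝ ℝ) volume x := by
    intro k
    rw [moll_swap, rho_eq (hpos k)]
    rfl
  simp only [e]
  exact hx

/-- **comparison for bounded functions** -/
theorem ess_le {f : V n → ℝ} (hf : AEStronglyMeasurable f) {B : ℝ} (hB : ∀ t, |f t| ≤ B)
    {p : V n} {R δ L κ : ℝ} (hκ : 0 < κ)
    (hp : ∀ κ', 0 < κ' → κ' < κ → ∀ x ∈ closedBall p R, ∀ ξ, 0 ≤ lv (moll f κ') x ξ)
    (hδ : 0 < δ) (h3 : 3 * δ ≤ R) (hL : 1 ≤ L) (hLR : L * δ ≤ R) :
    ∀ᵐ q, q ∈ closedBall p (L * δ) → f q ≤ moll f δ p + Cst n L * B / Real.log (R / δ) := by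
  have hfl := locInt_bdd hf hB
  have hpos : ∀ k : ℕ, 0 < 1 / ((k : ℝ) + 1) := fun k => Nat.one_div_pos_of_nat
  have hae := moll_ae_tendsto hfl
  -- the mollifications at `p`
  have hlim : Tendsto (fun k : ℕ => moll (moll f (1 / ((k : ℝ) + 1))) δ p) atTop
      (𝓝 (moll f δ p)) := by
    refine tendsto_integral_of_dominated_convergence (fun t => B * rho n δ (p - t)) ?_ ?_ ?_ ?_
    · intro k
      exact (moll_integrable (moll_contDiff hfl _).continuous.locallyIntegrable δ p).aestronglyMeasurable
    · exact moll_integrable (locInt_const B) δ p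
    · intro k
      refine Eventually.of_forall fun t => ?_
      rw [norm_smul, Real.norm_eq_abs, Real.norm_eq_abs, abs_of_nonneg (rho_nonneg δ (p - t))]
      exact mul_le_mul_of_nonneg_right (moll_abs_le hfl (hpos k) hB t) (rho_nonneg δ _)
    · filter_upwards [hae] with t ht
      exact ht.smul_const _
  filter_upwards [hae] with q hq hqm
  have hev : ∀ᶠ k : ℕ in atTop, moll f (1 / ((k : ℝ) + 1)) q
      ≤ moll (moll f (1 / ((k : ℝ) + 1))) δ p + Cst n L * B / Real.log (R / δ) := by
    have h1 : ∀ᶠ k : ℕ in atTop, 1 / ((k : ℝ) + 1) < κ :=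
      tendsto_one_div_add_atTop_nhds_zero_nat.eventually (gt_mem_nhds hκ)
    filter_upwards [h1] with k hk
    exact le_moll ((moll_contDiff hfl _).of_le (by norm_cast)) hδ h3 (hp _ (hpos k) hk)
      (fun x _ => moll_abs_le hfl (hpos k) hB x) hL hLR hqm
  exact le_of_tendsto_of_tendsto hq (hlim.add_const _) hev

end

end Crest.Agent.R269.GlueD_390
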