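import Crest.Agent.R269.GlueD_390

/-!
# R269 (S0411), leaf L8, part G1 (helper390): measures with `lv ≥ 0` weakly have bounded densities

* `ibp`      : `∫ χ lv w = ∫ w lv χ`
* `meas_le`  : local upper bound of the measure by Lebesgue measure
-/

set_option autoImplicit false
set_option linter.unusedSectionVars false

open MeasureTheory Set Metric Filter Topology Module
open scoped ContDiff Pointwise ENNReal NNReal Manifold

namespace Crest.Agent.R269.GlueE_390

open Crest.Agent.R273.C0d_390 Crest.Agent.R269.GlueB_390 Crest.Agent.R269.GlueC_390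
open Crest.Agent.R269.GlueD_390

noncomputable section

variable {n : ℕ}

/-- smooth cut-off near a compact set -/
theorem exists_cut {K Ω : Set (V n)} (hK : IsCompact K) (hΩ : IsOpen Ω) (h : K ⊆ Ω) :
    ∃ θ : V n → ℝ, ContDiff ℝ ∞ θ ∧ HasCompactSupport θ ∧ tsupport θ ⊆ Ω ∧
      (∀ᶠ x in 𝓝ˢ K, θ x = 1) ∧ ∀ x, θ x ∈ Icc (0 : ℝ) 1 := by
  obtain ⟨T, hT, hKT, hTΩ⟩ := exists_compact_between hK hΩ h
  obtain ⟨f, h1, h0, h01⟩ := exists_contMDiffMap_one_nhds_of_subset_interior (n := (⊤ : ℕ∞))
    𝓘(ℝ, V n) hK.isClosed hKT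
  have hsub : tsupport (f : V n → ℝ) ⊆ T := by
    refine closure_minimal (fun x hx => ?_) hT.isClosed
    by_contra hxT
    exact hx (h0 x hxT)
  exact ⟨f, f.contMDiff.contDiff, HasCompactSupport.of_support_subset_isCompact hT
    ((subset_tsupport _).trans hsub), hsub.trans hTΩ, h1, h01⟩

theorem lv_congr {u w : V n → ℝ} {x : V n} (h : u =ᶠ[𝓝 x] w) (ξ : V n) : lv u x ξ = lv w x ξ := by
  unfold lv
  have h1 : fderiv ℝ u =ᶠ[𝓝 x] fderiv ℝ w := h.fderiv
  rw [h1.fderiv_eq]

theorem lv_zero_of_notMem {χ : V n → ℝ} {z : V n} (h : z ∉ tsupport χ) (ξ : V n) :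
    lv χ z ξ = 0 := by
  have h1 : χ =ᶠ[𝓝 z] fun _ => 0 := notMem_tsupport_iff_eventuallyEq.1 h
  rw [lv_congr h1]
  unfold lv
  simp

theorem lv_continuous {u : V n → ℝ} (hu : ContDiff ℝ 2 u) (ξ : V n) :
    Continuous fun z => lv u z ξ := by
  have h1 : Continuous (fderiv ℝ (fderiv ℝ u)) :=
    (hu.fderiv_right (m := 1) (by norm_num)).continuous_fderiv one_ne_zero
  unfold lv
  exact ((h1.clm_apply continuous_const).clm_apply continuous_const).add
    ((h1.clm_apply continuous_const).clm_apply continuous_const)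

theorem cv_comm (f g : V n → ℝ) : cv volume f g = cv volume g f := by
  funext x
  unfold cv
  rw [← integral_sub_left_eq_self (fun t => g t • f (x - t)) volume x]
  refine integral_congr_ae (Eventually.of_forall fun t => ?_)
  simp only [sub_sub_cancel, smul_eq_mul]
  ring

theorem ibp_cpt {f g : V n → ℝ} (hf : ContDiff ℝ ∞ f) (hfc : HasCompactSupport f)
    (hg : ContDiff ℝ ∞ g) (hgc : HasCompactSupport g) (ξ : V n) :
    ∫ z, f z * lv g z ξ = ∫ z, g z * lv f z ξ := by
  set g' : V n → ℝ := fun t => g (-t) with hg'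
  have hg's : ContDiff ℝ ∞ g' := hg.comp contDiff_neg
  have hg'c : HasCompactSupport g' := hgc.comp_homeomorph (Homeomorph.neg (V n))
  have e1 := cv_lv (ν := volume) hf.continuous.locallyIntegrable hg's hg'c 0 ξ
  have e2 := cv_lv (ν := volume) hg's.continuous.locallyIntegrable hf hfc 0 ξ
  rw [cv_comm f g'] at e1
  have e3 : (fun t : V n => g' (0 - t)) = g := by
    funext t
    simp [hg']
  have e4 : ∀ t, lv g' (0 - t) ξ = lv g t ξ := by
    intro t
    rw [← lv_refl (hg's.of_le (by norm_cast)) 0 t ξ, e3]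
  simp only [e4] at e1
  rw [← e1, e2, ← integral_neg_eq_self (fun z => g z * lv f z ξ) volume]
  refine integral_congr_ae (Eventually.of_forall fun t => ?_)
  simp [hg']

/-- integration by parts -/
theorem ibp {χ w : V n → ℝ} {Ω : Set (V n)} (ho : IsOpen Ω) (hχ : ContDiff ℝ ∞ χ)
    (hc : HasCompactSupport χ) (hs : tsupport χ ⊆ Ω) (hw : ContDiffOn ℝ ∞ w Ω) (ξ : V n) :
    ∫ z, χ z * lv w z ξ = ∫ z, w z * lv χ z ξ := by
  obtain ⟨θ, hθ, hθc, hθs, hθ1, -⟩ := exists_cut hc ho hs
  set w' : V n → ℝ := fun z => θ z * w z with hw'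
  have hw's : ContDiff ℝ ∞ w' := by
    rw [contDiff_iff_contDiffAt]
    intro z
    by_cases hz : z ∈ Ω
    · exact hθ.contDiffAt.mul (hw.contDiffAt (ho.mem_nhds hz))
    · have h1 : w' =ᶠ[𝓝 z] fun _ => 0 := by
        filter_upwards [notMem_tsupport_iff_eventuallyEq.1 (fun h => hz (hθs h))] with y hy
        simp [hw', hy]
      exact contDiffAt_const.congr_of_eventuallyEq h1
  have hw'c : HasCompactSupport w' := hθc.mul_right
  have hev : ∀ z ∈ tsupport χ, w' =ᶠ[𝓝 z] w := by
    intro z hz
    filter_upwards [(eventually_nhdsSet_iff_forall.1 hθ1) z hz] with y hy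
    simp [hw', hy]
  have e1 : ∫ z, χ z * lv w z ξ = ∫ z, χ z * lv w' z ξ := by
    refine integral_congr_ae (Eventually.of_forall fun z => ?_)
    by_cases hz : z ∈ tsupport χ
    · change χ z * lv w z ξ = χ z * lv w' z ξ
      rw [lv_congr (hev z hz)]
    · change χ z * lv w z ξ = χ z * lv w' z ξ
      rw [image_eq_zero_of_notMem_tsupport hz, zero_mul, zero_mul]
  have e2 : ∫ z, w z * lv χ z ξ = ∫ z, w' z * lv χ z ξ := by
    refine integral_congr_ae (Eventually.of_forall fun z => ?_)
    by_cases hz : z ∈ tsupport χ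
    · change w z * lv χ z ξ = w' z * lv χ z ξ
      rw [(hev z hz).eq_of_nhds]
    · change w z * lv χ z ξ = w' z * lv χ z ξ
      rw [lv_zero_of_notMem hz, mul_zero, mul_zero]
  rw [e1, e2]
  exact ibp_cpt hχ hc hw's hw'c ξ

/-! ### translates of the mollifier as test functions -/

/-- the test function `t ↦ ρ_δ (x - t)` -/
def tf (δ : ℝ) (x : V n) : V n → ℝ := fun t => rho n δ (x - t)

theorem tf_contDiff (δ : ℝ) (x : V n) : ContDiff ℝ ∞ (tf δ x) :=
  (rho_contDiff δ).comp (contDiff_const.sub contDiff_id)

theorem tf_tsupport {δ : ℝ} (h : 0 < δ) (x : V n) : tsupport (tf δ x) ⊆ closedBall x δ := by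
  refine closure_minimal (fun t ht => ?_) isClosed_closedBall
  by_contra hn
  exact ht (rho_zero h fun h' => hn (ball_subset_closedBall h'))

theorem tf_cpt {δ : ℝ} (h : 0 < δ) (x : V n) : HasCompactSupport (tf δ x) :=
  HasCompactSupport.of_support_subset_isCompact (isCompact_closedBall x δ)
    ((subset_tsupport _).trans (tf_tsupport h x))

theorem tf_nonneg (δ : ℝ) (x t : V n) : 0 ≤ tf δ x t := rho_nonneg δ _

theorem tf_lv (δ : ℝ) (x t ξ : V n) : lv (tf δ x) t ξ = lv (rho n δ) (x - t) ξ :=
  lv_refl ((rho_contDiff δ).of_le (by norm_cast)) x t ξ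

theorem lv_tf_zero {δ : ℝ} (h : 0 < δ) {x t : V n} (ht : t ∉ closedBall x δ) (ξ : V n) :
    lv (tf δ x) t ξ = 0 := lv_zero_of_notMem (fun h' => ht (tf_tsupport h x h')) ξ

theorem lv_moll {f : V n → ℝ} (hf : LocallyIntegrable f) (δ : ℝ) (x ξ : V n) :
    lv (moll f δ) x ξ = ∫ t, f t * lv (tf δ x) t ξ := by
  rw [moll, cv_lv hf (rho_contDiff δ) (rho_cpt δ)]
  simp only [tf_lv]

/-- the weak inequality `lv ≥ 0` for the sum of a measure and a function -/
def WP (Ω : Set (V n)) (m : Measure (V n)) (d w : V n → ℝ) : Prop :=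
  ∀ χ : V n → ℝ, ContDiff ℝ ∞ χ → HasCompactSupport χ → tsupport χ ⊆ Ω → (∀ z, 0 ≤ χ z) →
    ∀ ξ : V n, 0 ≤ (∫ z, lv χ z ξ / d z ∂m) + ∫ z, w z * lv χ z ξ

/-- **local bound of the measure** -/
theorem meas_le {Ω : Set (V n)} (hΩ : IsOpen Ω) (m : Measure (V n)) [IsFiniteMeasure m]
    {d w : V n → ℝ} (hd : ContinuousOn d Ω) (hd0 : ∀ z ∈ Ω, 0 < d z) (hw : ContinuousOn w Ω)
    (H : WP Ω m d w) {z0 : V n} (hz0 : z0 ∈ Ω) :
    ∃ r > 0, ∃ C : ℝ≥0, ∀ E ⊆ ball z0 r, m E ≤ C * volume E := by
  obtain ⟨ε, hε, hsub⟩ := Metric.isOpen_iff.1 hΩ z0 hz0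
  set r := ε / 4 with hr
  have hr0 : 0 < r := by positivity
  have h3Ω : closedBall z0 (3 * r) ⊆ Ω := by
    refine Subset.trans (closedBall_subset_ball ?_) hsub
    rw [hr]
    linarith
  set K := closedBall z0 (3 * r) with hK
  have hKc : IsCompact K := isCompact_closedBall _ _
  have hKne : K.Nonempty := ⟨z0, mem_closedBall_self (by positivity)⟩
  have hdi : ContinuousOn (fun z => 1 / d z) K :=
    continuousOn_const.div (hd.mono h3Ω) fun z hz => (hd0 z (h3Ω hz)).ne'
  obtain ⟨zm, hzm, hmin⟩ := hKc.exists_isMinOn hKne hdi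
  set f0 := 1 / d zm with hf0
  have hf0p : 0 < f0 := one_div_pos.2 (hd0 zm (h3Ω hzm))
  have hf0le : ∀ z ∈ K, f0 ≤ 1 / d z := fun z hz => hmin hz
  obtain ⟨G, hG⟩ := hKc.exists_bound_of_continuousOn (hw.mono h3Ω)
  have hG0 : 0 ≤ G := (norm_nonneg _).trans (hG z0 (mem_closedBall_self (by positivity)))
  set f : V n → ℝ := K.indicator fun z => 1 / d z with hf
  set g : V n → ℝ := K.indicator w with hg
  have hf_nn : ∀ t, 0 ≤ f t := fun t => indicator_nonneg (fun z hz =>
    (one_div_pos.2 (hd0 z (h3Ω hz))).le) t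
  have hg_le : ∀ t, |g t| ≤ G := by
    intro t
    by_cases ht : t ∈ K
    · rw [hg, indicator_of_mem ht]
      exact hG t ht
    · rw [hg, indicator_of_notMem ht, abs_zero]
      exact hG0
  have hfi : Integrable f m := by
    rw [hf, integrable_indicator_iff hKc.measurableSet]
    exact hdi.integrableOn_compact hKc
  have hgi : Integrable g := by
    rw [hg, integrable_indicator_iff hKc.measurableSet]
    exact (hw.mono h3Ω).integrableOn_compact hKc
  have hfl := hfi.locallyIntegrable
  have hgl := hgi.locallyIntegrable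
  set If := ∫ z, f z ∂m with hIf
  have hIf0 : 0 ≤ If := integral_nonneg hf_nn
  have hVr : 0 < volume.real (ball (0 : V n) r) :=
    ENNReal.toReal_pos (measure_ball_pos _ _ hr0).ne' measure_ball_lt_top.ne
  set C1 := If / volume.real (ball (0 : V n) r) + 2 * G with hC1
  have hC10 : 0 ≤ C1 := by positivity
  -- upper bound of the mollification
  have key : ∀ δ, 0 < δ → δ < r → ∀ x ∈ closedBall z0 r, cv m f (rho n δ) x ≤ C1 := by
    intro δ hδ hδr x hx
    set u : V n → ℝ := fun y => cv m f (rho n δ) y + moll g δ y with hu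
    have hc1 : ContDiff ℝ ∞ (cv m f (rho n δ)) := cv_contDiff hfl (rho_contDiff δ) (rho_cpt δ)
    have hc2 : ContDiff ℝ ∞ (moll g δ) := moll_contDiff hgl δ
    have hxr : closedBall x r ⊆ closedBall z0 (2 * r) := by
      refine closedBall_subset_closedBall' ?_
      rw [mem_closedBall] at hx
      linarith
    have hlev : ∀ y ∈ closedBall x r, ∀ v, -((0 : ℝ) * ‖v‖ ^ 2) ≤ lv u y v := by
      intro y hy ξ
      have hyK : closedBall y δ ⊆ K := by
        refine closedBall_subset_closedBall' ?_
        have := hxr hy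
        rw [mem_closedBall] at this
        linarith
      have hH := H (tf δ y) (tf_contDiff δ y) (tf_cpt hδ y)
        ((tf_tsupport hδ y).trans (hyK.trans h3Ω)) (tf_nonneg δ y) ξ
      rw [zero_mul, neg_zero, hu, lv_add (hc1.contDiffAt.of_le (by norm_cast))
        (hc2.contDiffAt.of_le (by norm_cast)), lv_moll hgl, cv_lv hfl (rho_contDiff δ) (rho_cpt δ)]
      simp only [← tf_lv]
      refine hH.trans (le_of_eq ?_)
      congr 1
      · refine integral_congr_ae (Eventually.of_forall fun t => ?_)
        change lv (tf δ y) t ξ / d t = f t * lv (tf δ y) t ξ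
        by_cases ht : t ∈ K
        · rw [hf, indicator_of_mem ht]
          ring
        · rw [lv_tf_zero hδ (fun h => ht (hyK h)), zero_div, mul_zero]
      · refine integral_congr_ae (Eventually.of_forall fun t => ?_)
        change w t * lv (tf δ y) t ξ = g t * lv (tf δ y) t ξ
        by_cases ht : t ∈ K
        · rw [hg, indicator_of_mem ht]
        · rw [lv_tf_zero hδ (fun h => ht (hyK h)), mul_zero, mul_zero]
    have hsm := submean volume hr0.le le_rfl (u := u) (z := x) (fun y _ =>
      ((hc1.add hc2).contDiffAt.of_le (by norm_cast))) hlev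
    have hball : volume.real (ball x r) = volume.real (ball (0 : V n) r) := by
      rw [measureReal_def, measureReal_def, Measure.addHaar_ball_center]
    rw [hball] at hsm
    have hint1 : Integrable (cv m f (rho n δ)) :=
      (Integrable.convolution_integrand (μ := volume) (ν := m) (ContinuousLinearMap.lsmul ℝ ℝ) hfi
        ((rho_contDiff δ).continuous.integrable_of_hasCompactSupport
          (rho_cpt (n := n) δ))).integral_prod_left
    have hcv_nn : ∀ y, 0 ≤ cv m f (rho n δ) y := fun y =>
      integral_nonneg fun t => mul_nonneg (hf_nn t) (rho_nonneg δ _)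
    have hI1 : ∫ y, cv m f (rho n δ) y = If := by
      have := integral_convolution (ContinuousLinearMap.lsmul ℝ ℝ) (μ := volume) hfi
        ((rho_contDiff δ).continuous.integrable_of_hasCompactSupport (rho_cpt (n := n) δ))
      rw [rho_integral hδ] at this
      rw [hIf]
      refine Eq.trans ?_ (this.trans ?_)
      · rfl
      · simp
    have hI2 : ∫ y in ball x r, cv m f (rho n δ) y ≤ If := by
      rw [← hI1]
      exact setIntegral_le_integral hint1 (Eventually.of_forall hcv_nn)
    have hml : ∀ y, |moll g δ y| ≤ G := fun y => moll_abs_le hgl hδ hg_le y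
    have hI3 : ∫ y in ball x r, moll g δ y ≤ G * volume.real (ball (0 : V n) r) := by
      rw [← hball]
      have h1 : ∫ y in ball x r, moll g δ y ≤ ∫ y in ball x r, G := by
        refine setIntegral_mono_on ?_ (integrableOn_const measure_ball_lt_top.ne)
          measurableSet_ball fun y _ => (abs_le.1 (hml y)).2
        exact (hc2.continuous.locallyIntegrable.integrableOn_isCompact
          (isCompact_closedBall x r)).mono_set ball_subset_closedBall
      refine h1.trans (le_of_eq ?_)
      rw [setIntegral_const, smul_eq_mul, mul_comm]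
    have hI4 : ∫ y in ball x r, u y = (∫ y in ball x r, cv m f (rho n δ) y)
        + ∫ y in ball x r, moll g δ y :=
      integral_add hint1.integrableOn
        ((hc2.continuous.locallyIntegrable.integrableOn_isCompact
          (isCompact_closedBall x r)).mono_set ball_subset_closedBall)
    rw [hI4] at hsm
    have h5 : u x ≤ If / volume.real (ball (0 : V n) r) + G := by
      rw [div_add' _ _ _ hVr.ne', le_div_iff₀ hVr]
      linarith
    have h6 := (abs_le.1 (hml x)).1
    have h7 : u x = cv m f (rho n δ) x + moll g δ x := rfl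
    rw [hC1]
    linarith
  -- balls
  set N : ℝ := 2 ^ finrank ℝ (V n) with hN
  set C2 : ℝ≥0 := Real.toNNReal (C1 * N / f0) with hC2
  have hC2r : (C2 : ℝ) = C1 * N / f0 := Real.coe_toNNReal _ (by positivity)
  have hballs : ∀ x ∈ ball z0 r, ∀ s, 0 < s → 2 * s < r →
      m (closedBall x s) ≤ (C2 • (volume : Measure (V n))) (closedBall x s) := by
    intro x hx s hs hsr
    have h1 := key (2 * s) (by positivity) hsr x (ball_subset_closedBall hx)
    have hV2 : 0 < volume.real (closedBall (0 : V n) (2 * s)) :=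
      ENNReal.toReal_pos (measure_closedBall_pos _ _ (by positivity)).ne'
        measure_closedBall_lt_top.ne
    have hxK : closedBall x s ⊆ K := by
      refine closedBall_subset_closedBall' ?_
      rw [mem_ball] at hx
      linarith
    have h2 : f0 / volume.real (closedBall (0 : V n) (2 * s)) * m.real (closedBall x s)
        ≤ cv m f (rho n (2 * s)) x := by
      have e1 : ∫ t in closedBall x s, f0 / volume.real (closedBall (0 : V n) (2 * s)) ∂m
          ≤ ∫ t in closedBall x s, f t • rho n (2 * s) (x - t) ∂m := by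
        refine setIntegral_mono_on (integrableOn_const (measure_ne_top _ _))
          (cv_integrable hfl (rho_contDiff _).continuous (rho_cpt _) x).integrableOn
          measurableSet_closedBall fun t ht => ?_
        have h3 : f0 ≤ f t := by
          rw [hf, indicator_of_mem (hxK ht)]
          exact hf0le t (hxK ht)
        have h4 : 1 / volume.real (closedBall (0 : V n) (2 * s)) ≤ rho n (2 * s) (x - t) := by
          refine rho_ge (by positivity) ?_
          rw [mem_closedBall, dist_eq_norm, norm_sub_rev] at ht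
          linarith
        rw [div_eq_mul_one_div, smul_eq_mul]
        exact mul_le_mul h3 h4 (by positivity) (hf_nn t)
      rw [setIntegral_const, smul_eq_mul, mul_comm] at e1
      refine e1.trans ?_
      exact setIntegral_le_integral (cv_integrable hfl (rho_contDiff _).continuous (rho_cpt _) x)
        (Eventually.of_forall fun t => mul_nonneg (hf_nn t) (rho_nonneg _ _))
    have h3 : m.real (closedBall x s) ≤ C2 * volume.real (closedBall x s) := by
      have h4 : f0 * m.real (closedBall x s) ≤ C1 * volume.real (closedBall (0 : V n) (2 * s)) := by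
        have h5 := h2.trans h1
        rw [div_mul_eq_mul_div, div_le_iff₀ hV2] at h5
        exact h5
      have h6 : volume.real (closedBall (0 : V n) (2 * s)) = N * volume.real (closedBall x s) := by
        rw [measureReal_def, measureReal_def, Measure.addHaar_closedBall_mul volume 0 (by norm_num)
          hs.le, ENNReal.toReal_mul, ENNReal.toReal_ofReal (by positivity),
          Measure.addHaar_closedBall_center volume x s]
      rw [h6] at h4
      rw [hC2r, div_mul_eq_mul_div, le_div_iff₀ hf0p]
      linarith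
    rw [Measure.smul_apply, ENNReal.smul_def, smul_eq_mul]
    rw [measureReal_def, measureReal_def] at h3
    rw [← ENNReal.toReal_le_toReal (measure_ne_top _ _)
      (ENNReal.mul_ne_top ENNReal.coe_ne_top measure_closedBall_lt_top.ne), ENNReal.toReal_mul]
    exact h3
  refine ⟨r, hr0, C2, fun E hE => ?_⟩
  have h8 := (Besicovitch.vitaliFamily m).measure_le_of_frequently_le (ρ := m)
    (C2 • (volume : Measure (V n))) Measure.AbsolutelyContinuous.rfl E fun x hx => by
      have h9 : ∀ᶠ s in 𝓝[>] (0 : ℝ), m (closedBall x s)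
          ≤ (C2 • (volume : Measure (V n))) (closedBall x s) := by
        filter_upwards [Ioo_mem_nhdsGT (show (0 : ℝ) < r / 2 by positivity)] with s hs
        exact hballs x (hE hx) s hs.1 (by linarith [hs.2])
      exact (Besicovitch.tendsto_filterAt m x).frequently h9.frequently
  refine h8.trans (le_of_eq ?_)
  rw [Measure.smul_apply, ENNReal.smul_def, smul_eq_mul]

end

end Crest.Agent.R269.GlueE_390
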