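import Crest.Agent.R273.C0d_390
import Crest.Agent.R273.Kah_333

/-!
# R269 (S0411), task P9-INPUT (helper848): frozen statement of the regularisation theorem REG (Part 9)

`Pot A`      : a closed real `(1,1)`-form `γ` on `(M, A)` given by local potentials `w i`
               (`γ(v) = lv (w i) z v / 4` in the chart `i`).
`Weak K γ c μ` : the inequality `(γ + i∂∂̄ U)` "`≥ c`" in the sense of (8.4) of Blueprint_646, for
               `U dV = μ`, `dV = det g dz`, tested on the chart fields `χ b bᴴ / det g`.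
`Smooth K γ c e φ` : the same for a smooth function, with the error `e ω`.
`RegStmt`    : `Weak` for a finite measure gives, for every `e > 0`, a smooth `φ` with `Smooth`.
It is used twice: (8.4) → (9.5) with `c = c₀`, and (12.1) → (12.2) with `c = 0`.
-/

set_option autoImplicit false

open MeasureTheory Set
open scoped ContDiff ComplexConjugate Matrix

namespace Crest.Agent.R269.RegStmt_848

open Crest.Agent.R275.Geo Crest.Agent.R273.C0d_390 Crest.Agent.R273.Kah_333

noncomputable section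

variable {n : ℕ} {M : Type} [TopologicalSpace M] {A : Atl n M}

/-- the `k`-th column of a matrix as a tangent vector -/
def col (b : Matrix (Fin n) (Fin n) ℂ) (k : Fin n) : Cn n := WithLp.toLp 2 fun a => b a k

/-- `det g` read in the chart `i` -/
def dg (K : Kah A) (i : A.ι) (z : Cn n) : ℝ := (K.g i ((A.e i).symm z)).det.re

/-- `ω(v) = ∑ g_{a b̄} v_a conj v_b` read in the chart `i` -/
def om (K : Kah A) (i : A.ι) (z v : Cn n) : ℝ :=
  (∑ a, ∑ b, K.g i ((A.e i).symm z) a b * v a * conj (v b)).re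

/-- local potentials of a closed real `(1,1)`-form -/
structure Pot (A : Atl n M) where
  w : A.ι → Cn n → ℝ
  sm : ∀ i, ContDiffOn ℝ ∞ (w i) (A.e i).target
  tr : ∀ i j, ∀ z ∈ A.ov i j, ∀ v, lv (w i) z v =
    lv (w j) (A.e j ((A.e i).symm z)) (fderiv ℂ (fun y => A.e j ((A.e i).symm y)) z v)

/-- trace of the form `lv u z / 4` on the field `b bᴴ` -/
def trb (u : Cn n → ℝ) (z : Cn n) (b : Matrix (Fin n) (Fin n) ℂ) : ℝ := ∑ k, lv u z (col b k) / 4

/-- the weak inequality (8.4) for the measure `μ = U dV` -/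
def Weak [MeasurableSpace M] (K : Kah A) (γ : Pot A) (c : ℝ) (μ : Measure M) : Prop :=
  ∀ (i : A.ι) (χ : Cn n → ℝ), ContDiff ℝ ∞ χ → HasCompactSupport χ → tsupport χ ⊆ (A.e i).target →
    (∀ z, 0 ≤ χ z) → ∀ b : Matrix (Fin n) (Fin n) ℂ,
      n * c * ∫ z, χ z * (‖b.det‖ ^ 2 * dg K i z) ^ ((1 : ℝ) / n) ≤
        (∫ x in (A.e i).source, trb χ (A.e i x) b / dg K i (A.e i x) ∂μ) +
          ∫ z, χ z * trb (γ.w i) z b

/-- the inequality for a smooth function, up to `e ω` -/
structure Smooth (K : Kah A) (γ : Pot A) (c e : ℝ) (φ : M → ℝ) : Prop where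
  sm : A.Sm φ
  ma : ∀ i, ∀ z ∈ (A.e i).target, ∀ b : Matrix (Fin n) (Fin n) ℂ,
    n * c * (‖b.det‖ ^ 2 * dg K i z) ^ ((1 : ℝ) / n) ≤
      trb (fun y => γ.w i y + φ ((A.e i).symm y)) z b + e * ∑ k, om K i z (col b k)
  pos : ∀ i, ∀ z ∈ (A.e i).target, ∀ v : Cn n, v ≠ 0 →
    0 < lv (fun y => γ.w i y + φ ((A.e i).symm y)) z v / 4 + e * om K i z v

/-- THEOREM REG (Part 9) -/
def RegStmt : Prop :=
  ∀ (n : ℕ) [NeZero n] (M : Type) [TopologicalSpace M] [T2Space M] [CompactSpace M]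
    [MeasurableSpace M] [BorelSpace M] (A : Atl n M) [Finite A.ι], Nonempty (Part A) →
    ∀ (K : Kah A) (γ : Pot A) (c : ℝ), 0 ≤ c → ∀ (μ : Measure M) [IsFiniteMeasure μ],
      Weak K γ c μ → ∀ e : ℝ, 0 < e → ∃ φ : M → ℝ, Smooth K γ (c - e) e φ

end

end Crest.Agent.R269.RegStmt_848
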