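import Crest.Agent.R269.GlueE_390
import Crest.Agent.R269.RegStmt_848

/-!
# R269 (S0411), leaf L8, part G2 (helper390): density of the measure and the mollified inequality
in one chart
-/

set_option autoImplicit false
set_option linter.unusedSectionVars false

open MeasureTheory Set Metric Filter Topology Module
open scoped ContDiff Pointwise ENNReal NNReal

namespace Crest.Agent.R269.GlueF_390

open Crest.Agent.R273.C0d_390 Crest.Agent.R269.GlueB_390 Crest.Agent.R269.GlueC_390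
open Crest.Agent.R269.GlueD_390 Crest.Agent.R269.GlueE_390 Crest.Agent.R269.RegStmt_848

noncomputable section

variable {n : ℕ} {Ω K : Set (V n)} {m : Measure (V n)} {d w f : V n → ℝ} {c : ℝ}

instance hld (m : Measure (V n)) [IsFiniteMeasure m] : m.HaveLebesgueDecomposition volume :=
  Measure.haveLebesgueDecomposition_of_sigmaFinite _ _

/-- the full weak inequality in a chart -/
def WB (Ω : Set (V n)) (m : Measure (V n)) (d w : V n → ℝ) (c : ℝ) : Prop :=
  ∀ χ : V n → ℝ, ContDiff ℝ ∞ χ → HasCompactSupport χ → tsupport χ ⊆ Ω → (∀ z, 0 ≤ χ z) →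
    ∀ b : Matrix (Fin n) (Fin n) ℂ,
      n * c * ∫ z, χ z * (‖b.det‖ ^ 2 * d z) ^ ((1 : ℝ) / n) ≤
        ∑ k, ((∫ z, lv χ z (col b k) / d z ∂m) + ∫ z, w z * lv χ z (col b k)) / 4

theorem lv_zero_right (u : V n → ℝ) (z : V n) : lv u z 0 = 0 := by
  unfold lv
  simp

theorem WB.wp [NeZero n] (hc : 0 ≤ c) (hd0 : ∀ z ∈ Ω, 0 < d z) (H : WB Ω m d w c) :
    WP Ω m d w := by
  intro χ hχ hχc hχs hχ0 ξ
  set b : Matrix (Fin n) (Fin n) ℂ := Matrix.of fun a k => if k = 0 then ξ a else 0 with hb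
  have hb0 : col b 0 = ξ := by
    ext a
    simp [col, hb]
  have hbk : ∀ k, k ≠ 0 → col b k = 0 := by
    intro k hk
    ext a
    simp [col, hb, hk]
  have h1 := H χ hχ hχc hχs hχ0 b
  have h2 : 0 ≤ n * c * ∫ z, χ z * (‖b.det‖ ^ 2 * d z) ^ ((1 : ℝ) / n) := by
    refine mul_nonneg (by positivity) (integral_nonneg fun z => ?_)
    by_cases hz : z ∈ tsupport χ
    · exact mul_nonneg (hχ0 z) (Real.rpow_nonneg (mul_nonneg (by positivity) (hd0 z (hχs hz)).le) _)
    · change 0 ≤ χ z * _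
      rw [image_eq_zero_of_notMem_tsupport hz, zero_mul]
  have h3 := h2.trans h1
  rw [Finset.sum_eq_single 0 (fun k _ hk => ?_) (fun h => absurd (Finset.mem_univ _) h)] at h3
  · rw [hb0] at h3
    linarith
  · rw [hbk k hk]
    simp [lv_zero_right]

theorem ac (hΩ : IsOpen Ω) [IsFiniteMeasure m] (hd : ContinuousOn d Ω) (hd0 : ∀ z ∈ Ω, 0 < d z)
    (hw : ContinuousOn w Ω) (H : WP Ω m d w) (h0 : m Ωᶜ = 0) : m ≪ volume := by
  intro s hs
  have h1 : m (s ∩ Ω) = 0 := by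
    refine measure_null_of_locally_null _ fun x hx => ?_
    obtain ⟨r, hr, C, hC⟩ := meas_le hΩ m hd hd0 hw H hx.2
    refine ⟨s ∩ Ω ∩ ball x r, inter_mem self_mem_nhdsWithin
      (mem_nhdsWithin_of_mem_nhds (ball_mem_nhds x hr)), ?_⟩
    have h2 := hC (s ∩ Ω ∩ ball x r) inter_subset_right
    have h3 : volume (s ∩ Ω ∩ ball x r) = 0 :=
      measure_mono_null (inter_subset_left.trans inter_subset_left) hs
    rw [h3, mul_zero] at h2
    exact le_antisymm h2 zero_le
  have h2 : m s ≤ m (s ∩ Ω) + m Ωᶜ := by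
    refine (measure_mono fun x hx => ?_).trans (measure_union_le _ _)
    by_cases h : x ∈ Ω
    · exact Or.inl ⟨hx, h⟩
    · exact Or.inr h
  rw [h1, h0, add_zero] at h2
  exact le_antisymm h2 zero_le

theorem dens_ball [IsFiniteMeasure m] (hac : m ≪ volume) {z0 : V n} {r : ℝ} {C : ℝ≥0}
    (hC : ∀ E ⊆ ball z0 r, m E ≤ C * volume E) :
    ∀ᵐ z, z ∈ ball z0 r → m.rnDeriv volume z ≤ C := by
  rw [← ae_restrict_iff' measurableSet_ball]
  refine ae_le_of_forall_setLIntegral_le_of_sigmaFinite (Measure.measurable_rnDeriv _ _)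
    (g := fun _ => (C : ℝ≥0∞)) fun s hs _ => ?_
  rw [Measure.restrict_restrict hs, Measure.setLIntegral_rnDeriv hac, setLIntegral_const]
  exact hC _ inter_subset_right

theorem dens_le (hΩ : IsOpen Ω) [IsFiniteMeasure m] (hd : ContinuousOn d Ω)
    (hd0 : ∀ z ∈ Ω, 0 < d z) (hw : ContinuousOn w Ω) (H : WP Ω m d w) (h0 : m Ωᶜ = 0)
    (hK : IsCompact K) (hKΩ : K ⊆ Ω) :
    ∃ C : ℝ≥0, ∀ᵐ z, z ∈ K → m.rnDeriv volume z ≤ C := by
  have hac := ac hΩ hd hd0 hw H h0
  refine hK.induction_on (p := fun K => ∃ C : ℝ≥0, ∀ᵐ z, z ∈ K → m.rnDeriv volume z ≤ C) ?_ ?_ ?_ ?_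
  · exact ⟨0, Eventually.of_forall fun z hz => absurd hz (notMem_empty z)⟩
  · rintro s t hst ⟨C, hC⟩
    exact ⟨C, hC.mono fun z hz hzs => hz (hst hzs)⟩
  · rintro s t ⟨C, hC⟩ ⟨C', hC'⟩
    refine ⟨max C C', ?_⟩
    filter_upwards [hC, hC'] with z hz hz' hzs
    rcases hzs with h | h
    · exact (hz h).trans (by exact_mod_cast le_max_left C C')
    · exact (hz' h).trans (by exact_mod_cast le_max_right C C')
  · intro x hx
    obtain ⟨r, hr, C, hC⟩ := meas_le hΩ m hd hd0 hw H (hKΩ hx)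
    exact ⟨ball x r, mem_nhdsWithin_of_mem_nhds (ball_mem_nhds x hr), C, dens_ball hac hC⟩

/-- `f` is a bounded representative of `U + w` on `K` -/
structure Rep (K : Set (V n)) (m : Measure (V n)) (d w f : V n → ℝ) (B : ℝ) : Prop where
  meas : AEStronglyMeasurable f
  bdd : ∀ t, |f t| ≤ B
  ae : ∀ᵐ z, z ∈ K → f z = (m.rnDeriv volume z).toReal / d z + w z

theorem exists_rep (hΩ : IsOpen Ω) [IsFiniteMeasure m] (hd : ContinuousOn d Ω)
    (hd0 : ∀ z ∈ Ω, 0 < d z) (hw : ContinuousOn w Ω) (H : WP Ω m d w) (h0 : m Ωᶜ = 0)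
    (hK : IsCompact K) (hKΩ : K ⊆ Ω) : ∃ (f : V n → ℝ) (B : ℝ), Rep K m d w f B := by
  obtain ⟨C, hC⟩ := dens_le hΩ hd hd0 hw H h0 hK hKΩ
  have hdi : ContinuousOn (fun z => (d z)⁻¹) K :=
    (hd.mono hKΩ).inv₀ fun z hz => (hd0 z (hKΩ hz)).ne'
  obtain ⟨F, hF⟩ := hK.exists_bound_of_continuousOn hdi
  obtain ⟨G, hG⟩ := hK.exists_bound_of_continuousOn (hw.mono hKΩ)
  set D : V n → ℝ := fun z => (min (m.rnDeriv volume z) (C : ℝ≥0∞)).toReal with hD
  have hDm : Measurable D := ((Measure.measurable_rnDeriv m volume).min measurable_const).ennreal_toReal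
  have hD0 : ∀ z, 0 ≤ D z := fun z => ENNReal.toReal_nonneg
  have hDC : ∀ z, D z ≤ C := fun z => by
    have := ENNReal.toReal_mono ENNReal.coe_ne_top (min_le_right (m.rnDeriv volume z) (C : ℝ≥0∞))
    simpa using this
  refine ⟨K.indicator fun z => D z * (d z)⁻¹ + w z, C * |F| + |G|, ?_, ?_, ?_⟩
  · rw [aestronglyMeasurable_indicator_iff hK.measurableSet]
    exact ((hDm.aestronglyMeasurable).mul (hdi.aestronglyMeasurable hK.measurableSet)).add
      ((hw.mono hKΩ).aestronglyMeasurable hK.measurableSet)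
  · intro t
    by_cases ht : t ∈ K
    · rw [indicator_of_mem ht]
      refine (abs_add_le _ _).trans (add_le_add ?_ ((hG t ht).trans (le_abs_self G)))
      rw [abs_mul, abs_of_nonneg (hD0 t)]
      exact mul_le_mul (hDC t) ((hF t ht).trans (le_abs_self F)) (abs_nonneg _) C.2
    · rw [indicator_of_notMem ht, abs_zero]
      positivity
  · filter_upwards [hC] with z hz hzK
    rw [indicator_of_mem hzK, hD]
    simp only [min_eq_left (hz hzK)]
    rfl

/-- the weak form in terms of the representative -/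
theorem Rep.transfer {B : ℝ} (hf : Rep K m d w f B) (hac : m ≪ volume) [IsFiniteMeasure m]
    (hK : IsCompact K) (hKΩ : K ⊆ Ω) (hd : ContinuousOn d Ω) (hd0 : ∀ z ∈ Ω, 0 < d z)
    (hw : ContinuousOn w Ω)
    {χ : V n → ℝ} (hχ : ContDiff ℝ ∞ χ) (hχs : tsupport χ ⊆ K) (ξ : V n) :
    (∫ z, lv χ z ξ / d z ∂m) + ∫ z, w z * lv χ z ξ = ∫ z, f z * lv χ z ξ := by
  have hlc : Continuous fun z => lv χ z ξ := lv_continuous (hχ.of_le (by norm_cast)) ξ
  have hout : ∀ z ∉ K, lv χ z ξ = 0 := fun z hz => lv_zero_of_notMem (fun h => hz (hχs h)) ξ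
  have e1 : (fun z => lv χ z ξ / d z) = K.indicator fun z => lv χ z ξ / d z := by
    funext z
    by_cases hz : z ∈ K
    · rw [indicator_of_mem hz]
    · rw [indicator_of_notMem hz, hout z hz, zero_div]
  have e2 : (fun z => w z * lv χ z ξ) = K.indicator fun z => w z * lv χ z ξ := by
    funext z
    by_cases hz : z ∈ K
    · rw [indicator_of_mem hz]
    · rw [indicator_of_notMem hz, hout z hz, mul_zero]
  have i1 : Integrable (fun z => lv χ z ξ / d z) m := by
    rw [e1, integrable_indicator_iff hK.measurableSet]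
    exact (hlc.continuousOn.div (hd.mono hKΩ) fun z hz => (hd0 z (hKΩ hz)).ne').integrableOn_compact hK
  have i2 : Integrable (fun z => w z * lv χ z ξ) := by
    rw [e2, integrable_indicator_iff hK.measurableSet]
    exact ((hw.mono hKΩ).mul hlc.continuousOn).integrableOn_compact hK
  rw [← integral_rnDeriv_smul hac, ← integral_add ((integrable_rnDeriv_smul_iff hac).2 i1) i2]
  refine integral_congr_ae ?_
  filter_upwards [hf.ae] with z hz
  by_cases hzK : z ∈ K
  · rw [hz hzK, smul_eq_mul]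
    ring
  · rw [hout z hzK, zero_div, smul_zero, mul_zero, mul_zero, add_zero]

/-- `lv ≥ 0` for the mollification -/
theorem Rep.lv_nonneg {B : ℝ} (hf : Rep K m d w f B) (hac : m ≪ volume) [IsFiniteMeasure m]
    (hK : IsCompact K) (hKΩ : K ⊆ Ω) (hd : ContinuousOn d Ω) (hd0 : ∀ z ∈ Ω, 0 < d z)
    (hw : ContinuousOn w Ω) (H : WP Ω m d w) {δ : ℝ} (hδ : 0 < δ) {x : V n}
    (hx : closedBall x δ ⊆ K) (ξ : V n) : 0 ≤ lv (moll f δ) x ξ := by
  have h1 := H (tf δ x) (tf_contDiff δ x) (tf_cpt hδ x)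
    ((tf_tsupport hδ x).trans (hx.trans hKΩ)) (tf_nonneg δ x) ξ
  rw [hf.transfer hac hK hKΩ hd hd0 hw (tf_contDiff δ x) ((tf_tsupport hδ x).trans hx)] at h1
  rw [lv_moll (locInt_bdd hf.meas hf.bdd)]
  exact h1

/-- the determinant inequality for the mollification -/
theorem Rep.ma {B : ℝ} (hf : Rep K m d w f B) (hac : m ≪ volume) [IsFiniteMeasure m]
    (hK : IsCompact K) (hKΩ : K ⊆ Ω) (hd : ContinuousOn d Ω) (hd0 : ∀ z ∈ Ω, 0 < d z)
    (hw : ContinuousOn w Ω) (hc : 0 ≤ c) (H : WB Ω m d w c) {δ : ℝ} (hδ : 0 < δ) {x : V n}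
    (hx : closedBall x δ ⊆ K) {η : ℝ} (hη : 0 ≤ η) (hηd : ∀ t ∈ closedBall x δ, η ≤ d t)
    (b : Matrix (Fin n) (Fin n) ℂ) :
    n * c * (‖b.det‖ ^ 2 * η) ^ ((1 : ℝ) / n) ≤ trb (moll f δ) x b := by
  have h1 := H (tf δ x) (tf_contDiff δ x) (tf_cpt hδ x)
    ((tf_tsupport hδ x).trans (hx.trans hKΩ)) (tf_nonneg δ x) b
  have e : ∀ k, ((∫ z, lv (tf δ x) z (col b k) / d z ∂m) + ∫ z, w z * lv (tf δ x) z (col b k)) / 4
      = lv (moll f δ) x (col b k) / 4 := by
    intro k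
    rw [hf.transfer hac hK hKΩ hd hd0 hw (tf_contDiff δ x) ((tf_tsupport hδ x).trans hx),
      lv_moll (locInt_bdd hf.meas hf.bdd)]
  simp only [e] at h1
  refine le_trans ?_ h1
  refine mul_le_mul_of_nonneg_left ?_ (by positivity)
  have hn0 : (0 : ℝ) ≤ 1 / n := by positivity
  have hcb : ContinuousOn (fun t => (‖b.det‖ ^ 2 * d t) ^ ((1 : ℝ) / n)) K :=
    (continuousOn_const.mul (hd.mono hKΩ)).rpow_const fun z _ => Or.inr hn0
  have hg : Integrable (K.indicator fun t => tf δ x t * (‖b.det‖ ^ 2 * d t) ^ ((1 : ℝ) / n)) := by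
    rw [integrable_indicator_iff hK.measurableSet]
    exact ((tf_contDiff δ x).continuous.continuousOn.mul hcb).integrableOn_compact hK
  have hout : ∀ z ∉ K, tf δ x z = 0 := fun z hz =>
    image_eq_zero_of_notMem_tsupport fun h => hz (hx (tf_tsupport hδ x h))
  have e2 : (K.indicator fun t => tf δ x t * (‖b.det‖ ^ 2 * d t) ^ ((1 : ℝ) / n))
      = fun t => tf δ x t * (‖b.det‖ ^ 2 * d t) ^ ((1 : ℝ) / n) := by
    funext z
    by_cases hz : z ∈ K
    · rw [indicator_of_mem hz]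
    · rw [indicator_of_notMem hz, hout z hz, zero_mul]
  rw [e2] at hg
  have e3 : (‖b.det‖ ^ 2 * η) ^ ((1 : ℝ) / n)
      = ∫ t, tf δ x t * (‖b.det‖ ^ 2 * η) ^ ((1 : ℝ) / n) := by
    rw [integral_mul_const]
    unfold tf
    rw [rho_integral' hδ, one_mul]
  rw [e3]
  refine integral_mono_ae ?_ hg (Eventually.of_forall fun t => ?_)
  · refine Integrable.mul_const ?_ _
    exact (tf_contDiff δ x).continuous.integrable_of_hasCompactSupport (tf_cpt hδ x)
  · by_cases ht : t ∈ closedBall x δ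
    · refine mul_le_mul_of_nonneg_left (Real.rpow_le_rpow (by positivity) ?_ hn0) (tf_nonneg δ x t)
      exact mul_le_mul_of_nonneg_left (hηd t ht) (by positivity)
    · have h0 : tf δ x t = 0 := image_eq_zero_of_notMem_tsupport fun h => ht (tf_tsupport hδ x h)
      change tf δ x t * _ ≤ tf δ x t * _
      rw [h0, zero_mul, zero_mul]

end

end Crest.Agent.R269.GlueF_390
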