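import Crest.Agent.R269.GlueF_390
import Crest.Agent.R275.C1d_194
import Crest.Agent.R273.Levi_145
import Crest.Agent.R273.Vol_333

/-!
# R269 (S0411), leaf L8, part G0 (helper390): changes of charts
-/

set_option autoImplicit false
set_option linter.unusedSectionVars false

open MeasureTheory Set Metric Filter Topology Module
open scoped ContDiff Pointwise ENNReal NNReal Matrix ComplexConjugate

namespace Crest.Agent.R269.GlueG_390

open Crest.Agent.R275.Geo Crest.Agent.R275.Core144 Crest.Agent.R275.EDR890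
open Crest.Agent.R273.Kah_333 Crest.Agent.R273.Vol_333
open Crest.Agent.R273.C0d_390 Crest.Agent.R269.GlueB_390 Crest.Agent.R269.GlueC_390
open Crest.Agent.R269.GlueD_390 Crest.Agent.R269.GlueE_390 Crest.Agent.R269.GlueF_390
open Crest.Agent.R269.RegStmt_848

noncomputable section

variable {n : ℕ} {M : Type} [TopologicalSpace M] {A : Atl n M}

/-- the change of charts -/
def TT (A : Atl n M) (i j : A.ι) (z : Cn n) : Cn n := A.e j ((A.e i).symm z)

theorem TT_analytic {i j : A.ι} {z : Cn n} (hz : z ∈ A.ov i j) : AnalyticAt ℂ (TT A i j) z :=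
  Crest.Agent.R266.SCV.analyticOnNhd_of_differentiableOn (isOpen_ov i j) (A.holo i j) z hz

theorem TT_contDiffAt {i j : A.ι} {z : Cn n} (hz : z ∈ A.ov i j) (k : WithTop ℕ∞) :
    ContDiffAt ℝ k (TT A i j) z := (TT_analytic hz).contDiffAt.restrict_scalars ℝ

theorem TT_mem {i j : A.ι} {z : Cn n} (hz : z ∈ A.ov i j) : TT A i j z ∈ A.ov j i := by
  refine ⟨(A.e j).map_source hz.2, ?_⟩
  unfold TT
  rw [(A.e j).left_inv hz.2]
  exact (A.e i).map_target hz.1

theorem TT_symm {i j : A.ι} {z : Cn n} (hz : z ∈ A.ov i j) :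
    (A.e j).symm (TT A i j z) = (A.e i).symm z := (A.e j).left_inv hz.2

theorem TT_inv {i j : A.ι} {z : Cn n} (hz : z ∈ A.ov i j) : TT A j i (TT A i j z) = z := by
  change A.e i ((A.e j).symm (TT A i j z)) = z
  rw [TT_symm hz, (A.e i).right_inv hz.1]

theorem TT_injOn (i j : A.ι) : InjOn (TT A i j) (A.ov i j) := fun x hx y hy h => by
  rw [← TT_inv hx, ← TT_inv hy, h]

theorem TT_hasFDerivAt {i j : A.ι} {z : Cn n} (hz : z ∈ A.ov i j) :
    HasFDerivAt (TT A i j) ((fderiv ℂ (TT A i j) z).restrictScalars ℝ) z :=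
  (TT_analytic hz).differentiableAt.hasFDerivAt.restrictScalars ℝ

theorem TT_differentiableAt {i j : A.ι} {z : Cn n} (hz : z ∈ A.ov i j) :
    DifferentiableAt ℝ (TT A i j) z := (TT_hasFDerivAt hz).differentiableAt

theorem TT_continuousOn (i j : A.ι) : ContinuousOn (TT A i j) (A.ov i j) := fun _ hz =>
  (TT_hasFDerivAt hz).continuousAt.continuousWithinAt

/-- the derivative is the Jacobian matrix -/
theorem fderiv_TT_apply {i j : A.ι} {z : Cn n} (hz : z ∈ (A.e i).target) (v : Cn n) (b : Fin n) :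
    (fderiv ℂ (TT A i j) z v) b = ∑ a, Jm A i j ((A.e i).symm z) b a * v a := by
  have hv : v = ∑ c, v c • (EuclideanSpace.single c (1 : ℂ) : Cn n) := by
    ext d
    simp [Finset.sum_apply, Pi.single_apply]
  conv_lhs => rw [hv, map_sum]
  simp only [map_smul, PiLp.smul_apply, WithLp.ofLp_sum, Finset.sum_apply, smul_eq_mul,
    Jm_apply, Atl.J, (A.e i).right_inv hz]
  refine Finset.sum_congr rfl fun a _ => ?_
  rw [mul_comm]
  rfl

theorem fderiv_TT_col {i j : A.ι} {z : Cn n} (hz : z ∈ (A.e i).target)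
    (b : Matrix (Fin n) (Fin n) ℂ) (k : Fin n) :
    fderiv ℂ (TT A i j) z (col b k) = col (Jm A i j ((A.e i).symm z) * b) k := by
  ext a
  rw [fderiv_TT_apply hz]
  simp [col, Matrix.mul_apply]

theorem det_TT {i j : A.ι} {z : Cn n} (hz : z ∈ (A.e i).target) :
    |((fderiv ℂ (TT A i j) z).restrictScalars ℝ).det| = ‖(Jm A i j ((A.e i).symm z)).det‖ ^ 2 := by
  set L := fderiv ℂ (TT A i j) z with hL
  have h1 : LinearMap.det (L : Cn n →ₗ[ℂ] Cn n) = (Jm A i j ((A.e i).symm z)).det := by
    rw [← LinearMap.det_toMatrix (EuclideanSpace.basisFun (Fin n) ℂ).toBasis]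
    congr 1
    ext b a
    rw [LinearMap.toMatrix_apply]
    simp only [OrthonormalBasis.coe_toBasis, EuclideanSpace.basisFun_apply,
      OrthonormalBasis.coe_toBasis_repr_apply, EuclideanSpace.basisFun_repr]
    change (fderiv ℂ (TT A i j) z (EuclideanSpace.single a 1)) b = _
    rw [fderiv_TT_apply hz]
    simp [Pi.single_apply]
  have h2 : (L.restrictScalars ℝ).det = Algebra.norm ℝ (LinearMap.det (L : Cn n →ₗ[ℂ] Cn n)) := by
    rw [← LinearMap.det_restrictScalars]
    rfl
  rw [h2, h1, Algebra.norm_complex_apply, Complex.normSq_eq_norm_sq, abs_of_nonneg (by positivity)]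

theorem dg_tr (K : Kah A) {i j : A.ι} {z : Cn n} (hz : z ∈ A.ov i j) :
    dg K i z = ‖(Jm A i j ((A.e i).symm z)).det‖ ^ 2 * dg K j (TT A i j z) := by
  have hx : (A.e i).symm z ∈ (A.e i).source ∩ (A.e j).source := ⟨(A.e i).map_target hz.1, hz.2⟩
  unfold dg
  rw [TT_symm hz, K.tr i j _ hx, Matrix.det_mul, Matrix.det_mul, Matrix.det_transpose]
  have h1 : ((Jm A i j ((A.e i).symm z)).map conj).det = conj (Jm A i j ((A.e i).symm z)).det :=
    (RingHom.map_det (starRingEnd ℂ) _).symm
  rw [h1]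
  set D := (Jm A i j ((A.e i).symm z)).det
  rw [mul_comm D, mul_assoc, Complex.mul_conj, Complex.normSq_eq_norm_sq, Complex.re_mul_ofReal,
    mul_comm]

theorem dg_pos (K : Kah A) {i : A.ι} {z : Cn n} (hz : z ∈ (A.e i).target) : 0 < dg K i z :=
  det_re_pos (K.pos i _ ((A.e i).map_target hz))

theorem dg_continuousOn (K : Kah A) (i : A.ι) : ContinuousOn (dg K i) (A.e i).target := by
  have h1 : ContDiffOn ℝ ∞ (fun z => (K.g i ((A.e i).symm z)).det) (A.e i).target :=
    smAt_det (K.sm i)
  exact Complex.continuous_re.comp_continuousOn h1.continuousOn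

theorem om_tr (K : Kah A) {i j : A.ι} {z : Cn n} (hz : z ∈ A.ov i j) (v : Cn n) :
    om K i z v = om K j (TT A i j z) (fderiv ℂ (TT A i j) z v) := by
  have hx : (A.e i).symm z ∈ (A.e i).source ∩ (A.e j).source := ⟨(A.e i).map_target hz.1, hz.2⟩
  unfold om
  rw [TT_symm hz]
  have h1 : ∀ a b, K.g i ((A.e i).symm z) a b = ∑ c, ∑ d, K.g j ((A.e i).symm z) c d *
      Jm A i j ((A.e i).symm z) c a * conj (Jm A i j ((A.e i).symm z) d b) := by
    intro a b
    rw [K.tr i j _ hx]
    simp only [Matrix.mul_apply, Matrix.transpose_apply, Matrix.map_apply, Finset.sum_mul]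
    rw [Finset.sum_comm]
    refine Finset.sum_congr rfl fun c _ => Finset.sum_congr rfl fun d _ => ?_
    ring
  simp only [h1]
  rw [Crest.Agent.R273.Levi_145.quad_change (fun c d => K.g j ((A.e i).symm z) c d)
    (fun c a => Jm A i j ((A.e i).symm z) c a) (fun a => v a)]
  simp only [fderiv_TT_apply hz.1]
  simp only [mul_comm]

theorem lv_comp_hol {u : Cn n → ℝ} {i j : A.ι} {z : Cn n} (hz : z ∈ A.ov i j)
    (hu : ContDiffAt ℝ 2 u (TT A i j z)) (v : Cn n) :
    lv (fun w => u (TT A i j w)) z v = lv u (TT A i j z) (fderiv ℂ (TT A i j) z v) := by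
  have h := Crest.Agent.R273.Levi_145.lev_comp (TT_analytic hz) hu v
  unfold Crest.Agent.R273.Levi_145.lev at h
  unfold lv
  linarith

/-- null sets are preserved -/
theorem ae_TT {P : Cn n → Prop} (hP : ∀ᵐ y, P y) (i j : A.ι) :
    ∀ᵐ z, z ∈ A.ov i j → P (TT A i j z) := by
  rw [ae_iff] at hP ⊢
  have h1 : volume (TT A j i '' ({y | ¬ P y} ∩ A.ov j i)) = 0 := by
    refine addHaar_image_eq_zero_of_differentiableOn_of_addHaar_eq_zero volume
      (fun y hy => (TT_differentiableAt hy.2).differentiableWithinAt) ?_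
    exact measure_mono_null inter_subset_left hP
  refine measure_mono_null ?_ h1
  intro z hz
  simp only [mem_ofPred_eq, not_forall] at hz
  obtain ⟨hz1, hz2⟩ := hz
  exact ⟨TT A i j z, ⟨hz2, TT_mem hz1⟩, TT_inv hz1⟩

section Meas

variable [MeasurableSpace M] [BorelSpace M] (μ : Measure M) [IsFiniteMeasure μ]

/-- the measure in the chart `i` -/
def mi (A : Atl n M) (μ : Measure M) (i : A.ι) : Measure (Cn n) :=
  (μ.restrict (A.e i).source).map (A.e i)

theorem aem (i : A.ι) : AEMeasurable (A.e i) (μ.restrict (A.e i).source) :=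
  (A.e i).continuousOn.aemeasurable (A.e i).open_source.measurableSet

instance (i : A.ι) : IsFiniteMeasure (mi A μ i) := by
  unfold mi
  infer_instance

theorem mi_apply (i : A.ι) {s : Set (Cn n)} (hs : MeasurableSet s) :
    mi A μ i s = μ ((A.e i).source ∩ (A.e i) ⁻¹' s) := by
  unfold mi
  have h0 : NullMeasurableSet ((A.e i) ⁻¹' s) (μ.restrict (A.e i).source) :=
    (aem μ i).nullMeasurable hs
  rw [Measure.map_apply_of_aemeasurable (aem μ i) hs, Measure.restrict_apply₀ h0, inter_comm]

theorem mi_compl (i : A.ι) : mi A μ i ((A.e i).target)ᶜ = 0 := by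
  rw [mi_apply μ i (A.e i).open_target.measurableSet.compl]
  have : (A.e i).source ∩ (A.e i) ⁻¹' ((A.e i).target)ᶜ = ∅ := by
    ext x
    simp only [mem_inter_iff, mem_preimage, mem_compl_iff, mem_empty_iff_false, iff_false, not_and,
      not_not]
    exact fun hx => (A.e i).map_source hx
  rw [this, measure_empty]

variable {μ}

theorem dens_compat {i j : A.ι} (hi : mi A μ i ≪ volume) (hj : mi A μ j ≪ volume) :
    ∀ᵐ z, z ∈ A.ov i j → (mi A μ i).rnDeriv volume z =
      ENNReal.ofReal |((fderiv ℂ (TT A i j) z).restrictScalars ℝ).det| *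
        (mi A μ j).rnDeriv volume (TT A i j z) := by
  have ho : MeasurableSet (A.ov i j) := (isOpen_ov i j).measurableSet
  rw [← ae_restrict_iff' ho]
  have hdc : ContinuousOn (fun z => ((fderiv ℂ (TT A i j) z).restrictScalars ℝ).det) (A.ov i j) := by
    intro z hz
    have h1 : ContinuousAt (fderiv ℂ (TT A i j)) z := (TT_analytic hz).fderiv.continuousAt
    have h2 : Continuous fun L : Cn n →L[ℂ] Cn n => (L.restrictScalars ℝ).det := by
      exact ContinuousLinearMap.continuous_det.comp
        (ContinuousLinearMap.continuous_restrictScalars ℝ)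
    exact (h2.continuousAt.comp h1).continuousWithinAt
  have hm2 : AEMeasurable (fun z => ENNReal.ofReal |((fderiv ℂ (TT A i j) z).restrictScalars ℝ).det| *
        (mi A μ j).rnDeriv volume (TT A i j z)) (volume.restrict (A.ov i j)) := by
    refine AEMeasurable.mul ?_ ?_
    · exact ((continuous_abs.comp_continuousOn hdc).aemeasurable ho).ennreal_ofReal
    · exact (Measure.measurable_rnDeriv _ _).comp_aemeasurable ((TT_continuousOn i j).aemeasurable ho)
  refine ae_eq_of_forall_setLIntegral_eq_of_sigmaFinite₀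
    (Measure.measurable_rnDeriv _ _).aemeasurable hm2 fun s hs _ => ?_
  rw [Measure.restrict_restrict hs]
  set s' := s ∩ A.ov i j with hs'
  have hs'm : MeasurableSet s' := hs.inter ho
  have hs'o : s' ⊆ A.ov i j := inter_subset_right
  rw [Measure.setLIntegral_rnDeriv hi]
  have hinj : InjOn (TT A i j) s' := (TT_injOn i j).mono hs'o
  have himg : MeasurableSet (TT A i j '' s') :=
    measurable_image_of_fderivWithin hs'm (fun x hx => (TT_hasFDerivAt (hs'o hx)).hasFDerivWithinAt)
      hinj
  have h1 := lintegral_image_eq_lintegral_abs_det_fderiv_mul volume hs'm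
    (fun x hx => (TT_hasFDerivAt (hs'o hx)).hasFDerivWithinAt) hinj
    (fun y => (mi A μ j).rnDeriv volume y)
  rw [← h1, Measure.setLIntegral_rnDeriv hj, mi_apply μ i hs'm, mi_apply μ j himg]
  congr 1
  ext x
  simp only [mem_inter_iff, mem_preimage, mem_image]
  constructor
  · rintro ⟨hx, hxs⟩
    have hxo := hs'o hxs
    have e1 : (A.e i).symm (A.e i x) = x := (A.e i).left_inv hx
    have hxj : x ∈ (A.e j).source := by
      have := hxo.2
      rwa [e1] at this
    exact ⟨hxj, A.e i x, hxs, by unfold TT; rw [e1]⟩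
  · rintro ⟨hxj, y, hys, hyx⟩
    have hyo := hs'o hys
    have e1 : x = (A.e i).symm y := by
      have h3 := TT_symm hyo
      rw [hyx, (A.e j).left_inv hxj] at h3
      exact h3
    rw [e1, (A.e i).right_inv hyo.1]
    exact ⟨(A.e i).map_target hyo.1, hys⟩

/-- the density with respect to `dV` does not depend on the chart -/
theorem U_compat (K : Kah A) {i j : A.ι} (hi : mi A μ i ≪ volume) (hj : mi A μ j ≪ volume) :
    ∀ᵐ z, z ∈ A.ov i j → ((mi A μ i).rnDeriv volume z).toReal / dg K i z =
      ((mi A μ j).rnDeriv volume (TT A i j z)).toReal / dg K j (TT A i j z) := by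
  filter_upwards [dens_compat hi hj] with z hz hzo
  have h0 : 0 < dg K i z := dg_pos K hzo.1
  have h1 : 0 < dg K j (TT A i j z) := dg_pos K (TT_mem hzo).1
  have h2 := dg_tr K hzo
  rw [hz hzo, ENNReal.toReal_mul, ENNReal.toReal_ofReal (abs_nonneg _), det_TT hzo.1]
  have h3 : ‖(Jm A i j ((A.e i).symm z)).det‖ ^ 2 ≠ 0 := by
    intro h
    rw [h, zero_mul] at h2
    exact h0.ne' h2
  rw [h2, mul_div_mul_left _ _ h3]

end Meas

end

end Crest.Agent.R269.GlueG_390
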