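import Crest.Agent.R269.GlueG_390

/-!
# R269 (S0411), leaf L8, part G3 (helper390): the weak inequality in charts, comparison of the
mollifications in two charts
-/

set_option autoImplicit false
set_option linter.unusedSectionVars false

open MeasureTheory Set Metric Filter Topology Module
open scoped ContDiff Pointwise NNReal Matrix ComplexConjugate

namespace Crest.Agent.R269.GlueH_390

open Crest.Agent.R275.Geo Crest.Agent.R275.Core144 Crest.Agent.R275.EDR890
open Crest.Agent.R273.Kah_333 Crest.Agent.R273.Vol_333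
open Crest.Agent.R273.C0d_390 Crest.Agent.R269.GlueB_390 Crest.Agent.R269.GlueC_390
open Crest.Agent.R269.GlueD_390 Crest.Agent.R269.GlueE_390 Crest.Agent.R269.GlueF_390
open Crest.Agent.R269.GlueG_390 Crest.Agent.R269.RegStmt_848

noncomputable section

variable {n : ℕ} {M : Type} [TopologicalSpace M] {A : Atl n M}
variable [MeasurableSpace M] [BorelSpace M] {μ : Measure M} [IsFiniteMeasure μ]

theorem lv_continuousAt {u : Cn n → ℝ} {z : Cn n} (hu : ContDiffAt ℝ 2 u z) (ξ : Cn n) :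
    ContinuousAt (fun y => lv u y ξ) z := by
  have h1 : ContinuousAt (fderiv ℝ (fderiv ℝ u)) z :=
    ((hu.fderiv_right (m := 1) (by norm_num)).fderiv_right (m := 0) (by norm_num)).continuousAt
  unfold lv
  exact ((h1.clm_apply continuousAt_const).clm_apply continuousAt_const).add
    ((h1.clm_apply continuousAt_const).clm_apply continuousAt_const)

theorem two_le_inf : (2 : WithTop ℕ∞) ≤ ∞ := WithTop.coe_le_coe.2 (le_top : (2 : ℕ∞) ≤ ⊤)

theorem w_at (γ : Pot A) {i : A.ι} {z : Cn n} (hz : z ∈ (A.e i).target) {k : WithTop ℕ∞}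
    (hk : k ≤ ∞) : ContDiffAt ℝ k (γ.w i) z :=
  ((γ.sm i).contDiffAt ((A.e i).open_target.mem_nhds hz)).of_le hk

/-- the weak inequality in a chart -/
theorem weak_wb {K : Kah A} {γ : Pot A} {c : ℝ} (H : Weak K γ c μ) (i : A.ι) :
    WB (A.e i).target (mi A μ i) (dg K i) (γ.w i) c := by
  intro χ hχ hχc hχs hχ0 b
  refine (H i χ hχ hχc hχs hχ0 b).trans (le_of_eq ?_)
  have hlc : ∀ ξ, Continuous fun z => lv χ z ξ := lv_continuous (hχ.of_le two_le_inf)
  have hout : ∀ z ∉ tsupport χ, ∀ ξ, lv χ z ξ = 0 := fun z hz ξ => lv_zero_of_notMem hz ξ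
  have hK : IsCompact (tsupport χ) := hχc
  have hdc := (dg_continuousOn K i).mono hχs
  have hd0 : ∀ z ∈ tsupport χ, dg K i z ≠ 0 := fun z hz => (dg_pos K (hχs hz)).ne'
  have i1 : ∀ ξ, Integrable (fun z => lv χ z ξ / dg K i z) (mi A μ i) := by
    intro ξ
    have e1 : (fun z => lv χ z ξ / dg K i z)
        = (tsupport χ).indicator fun z => lv χ z ξ / dg K i z := by
      funext z
      by_cases hz : z ∈ tsupport χ
      · rw [indicator_of_mem hz]
      · rw [indicator_of_notMem hz, hout z hz, zero_div]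
    rw [e1, integrable_indicator_iff hK.measurableSet]
    exact ((hlc ξ).continuousOn.div hdc hd0).integrableOn_compact hK
  have i2 : ∀ ξ, Integrable (fun z => χ z * lv (γ.w i) z ξ) := by
    intro ξ
    have e1 : (fun z => χ z * lv (γ.w i) z ξ)
        = (tsupport χ).indicator fun z => χ z * lv (γ.w i) z ξ := by
      funext z
      by_cases hz : z ∈ tsupport χ
      · rw [indicator_of_mem hz]
      · rw [indicator_of_notMem hz, image_eq_zero_of_notMem_tsupport hz, zero_mul]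
    rw [e1, integrable_indicator_iff hK.measurableSet]
    have hcw : ContinuousOn (fun z => lv (γ.w i) z ξ) (tsupport χ) := fun z hz =>
      (lv_continuousAt (w_at γ (hχs hz) two_le_inf) ξ).continuousWithinAt
    exact (hχ.continuous.continuousOn.mul hcw).integrableOn_compact hK
  have e1 : ∫ x in (A.e i).source, trb χ (A.e i x) b / dg K i (A.e i x) ∂μ
      = ∑ k, (∫ z, lv χ z (col b k) / dg K i z ∂(mi A μ i)) / 4 := by
    have e2 : ∀ z, trb χ z b / dg K i z = ∑ k, lv χ z (col b k) / dg K i z / 4 := by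
      intro z
      unfold trb
      rw [Finset.sum_div]
      exact Finset.sum_congr rfl fun k _ => by ring
    have i3 : Integrable (fun z => trb χ z b / dg K i z) (mi A μ i) := by
      simp only [e2]
      exact integrable_finsetSum _ fun k _ => (i1 _).div_const 4
    have e3 := integral_map (aem μ i) i3.aestronglyMeasurable
    rw [← e3]
    change ∫ z, trb χ z b / dg K i z ∂(mi A μ i) = _
    simp only [e2]
    rw [integral_finsetSum _ fun k _ => (i1 _).div_const 4]
    exact Finset.sum_congr rfl fun k _ => integral_div _ _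
  have e4 : ∫ z, χ z * trb (γ.w i) z b = ∑ k, (∫ z, γ.w i z * lv χ z (col b k)) / 4 := by
    have e5 : ∀ z, χ z * trb (γ.w i) z b = ∑ k, χ z * lv (γ.w i) z (col b k) / 4 := by
      intro z
      unfold trb
      rw [Finset.mul_sum]
      exact Finset.sum_congr rfl fun k _ => by ring
    simp only [e5]
    rw [integral_finsetSum _ fun k _ => (i2 _).div_const 4]
    refine Finset.sum_congr rfl fun k _ => ?_
    rw [integral_div, ibp (A.e i).open_target hχ hχc hχs (γ.sm i)]
  rw [e1, e4, ← Finset.sum_add_distrib]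
  exact Finset.sum_congr rfl fun k _ => by ring

/-- local data for a chart: a bounded representative on a compact set -/
structure Loc (A : Atl n M) (K : Kah A) (γ : Pot A) (μ : Measure M) (i : A.ι) where
  Z : Set (Cn n)
  f : Cn n → ℝ
  B : ℝ
  cpt : IsCompact Z
  sub : Z ⊆ (A.e i).target
  rep : Rep Z (mi A μ i) (dg K i) (γ.w i) f B

theorem Loc.locInt {K : Kah A} {γ : Pot A} {i : A.ι} (D : Loc A K γ μ i) :
    LocallyIntegrable D.f := locInt_bdd D.rep.meas D.rep.bdd

theorem Loc.B_nonneg {K : Kah A} {γ : Pot A} {i : A.ι} (D : Loc A K γ μ i) : 0 ≤ D.B :=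
  (abs_nonneg _).trans (D.rep.bdd 0)

/-- absolute continuity in a chart -/
theorem mi_ac [NeZero n] {K : Kah A} {γ : Pot A} {c : ℝ} (hc : 0 ≤ c) (H : Weak K γ c μ)
    (i : A.ι) : mi A μ i ≪ volume :=
  ac (A.e i).open_target (dg_continuousOn K i) (fun _ hz => dg_pos K hz) (γ.sm i).continuousOn
    ((weak_wb H i).wp hc fun _ hz => dg_pos K hz) (mi_compl μ i)

theorem exists_loc [NeZero n] {K : Kah A} {γ : Pot A} {c : ℝ} (hc : 0 ≤ c) (H : Weak K γ c μ)
    (i : A.ι) {Z : Set (Cn n)} (hZ : IsCompact Z) (hZt : Z ⊆ (A.e i).target) :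
    ∃ D : Loc A K γ μ i, D.Z = Z := by
  obtain ⟨f, B, hf⟩ := exists_rep (A.e i).open_target (dg_continuousOn K i)
    (fun _ hz => dg_pos K hz) (γ.sm i).continuousOn
    ((weak_wb H i).wp hc fun _ hz => dg_pos K hz) (mi_compl μ i) hZ hZt
  exact ⟨⟨Z, f, B, hZ, hZt, hf⟩, rfl⟩

theorem Loc.lv_nonneg [NeZero n] {K : Kah A} {γ : Pot A} {c : ℝ} (hc : 0 ≤ c) (H : Weak K γ c μ)
    {i : A.ι} (D : Loc A K γ μ i) {δ : ℝ} (hδ : 0 < δ) {x : Cn n} (hx : closedBall x δ ⊆ D.Z)
    (ξ : Cn n) : 0 ≤ lv (moll D.f δ) x ξ :=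
  D.rep.lv_nonneg (mi_ac hc H i) D.cpt D.sub (dg_continuousOn K i) (fun _ hz => dg_pos K hz)
    (γ.sm i).continuousOn ((weak_wb H i).wp hc fun _ hz => dg_pos K hz) hδ hx ξ

theorem Loc.ma [NeZero n] {K : Kah A} {γ : Pot A} {c : ℝ} (hc : 0 ≤ c) (H : Weak K γ c μ)
    {i : A.ι} (D : Loc A K γ μ i) {δ : ℝ} (hδ : 0 < δ) {x : Cn n} (hx : closedBall x δ ⊆ D.Z)
    {η : ℝ} (hη : 0 ≤ η) (hηd : ∀ t ∈ closedBall x δ, η ≤ dg K i t)
    (b : Matrix (Fin n) (Fin n) ℂ) :
    n * c * (‖b.det‖ ^ 2 * η) ^ ((1 : ℝ) / n) ≤ trb (moll D.f δ) x b :=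
  D.rep.ma (mi_ac hc H i) D.cpt D.sub (dg_continuousOn K i) (fun _ hz => dg_pos K hz)
    (γ.sm i).continuousOn hc (weak_wb H i) hδ hx hη hηd b

/-- the local regularisation, as a function of the chart coordinate -/
def reg {K : Kah A} {γ : Pot A} {i : A.ι} (D : Loc A K γ μ i) (δ : ℝ) (z : Cn n) : ℝ :=
  moll D.f δ z - γ.w i z

/-- pointwise comparison in two charts -/
theorem cmp_point [NeZero n] {K : Kah A} {γ : Pot A} {c : ℝ} (hc : 0 ≤ c) (H : Weak K γ c μ)
    {i j : A.ι} (D : Loc A K γ μ i) (D' : Loc A K γ μ j) {x : Cn n} {δ R L L' κ : ℝ}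
    (hκ : 0 < κ) (hδ : 0 < δ) (h3 : 3 * δ ≤ R) (hL : 1 ≤ L) (hLR : L * δ ≤ R)
    (hxo : closedBall x δ ⊆ A.ov i j) (hxZ : closedBall x δ ⊆ D.Z)
    (hp : closedBall (TT A i j x) (R + κ) ⊆ D'.Z)
    (hT : ∀ z ∈ closedBall x δ, dist (TT A i j z) (TT A i j x) ≤ L * dist z x)
    (hh : ∀ z ∈ closedBall x δ, |(γ.w j (TT A i j z) - γ.w i z)
      - (γ.w j (TT A i j x) - γ.w i x)| ≤ L' * dist z x) :
    reg D δ x ≤ reg D' δ (TT A i j x) + (|L'| * δ + Cst n L * D'.B / Real.log (R / δ)) := by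
  set p := TT A i j x with hpdef
  have hlev : ∀ κ', 0 < κ' → κ' < κ → ∀ y ∈ closedBall p R, ∀ ξ, 0 ≤ lv (moll D'.f κ') y ξ := by
    intro κ' h0 h1 y hy ξ
    refine D'.lv_nonneg hc H h0 (Subset.trans (closedBall_subset_closedBall' ?_) hp) ξ
    rw [mem_closedBall] at hy
    linarith
  have h1 := ess_le D'.rep.meas D'.rep.bdd hκ hlev hδ h3 hL hLR
  have h2 := ae_TT h1 i j
  have h3' := ae_TT D'.rep.ae i j
  have h4 := U_compat (μ := μ) K (mi_ac hc H i) (mi_ac hc H j)
  have h5 : ∀ᵐ z, z ∈ ball x δ → D.f z ≤ moll D'.f δ p + Cst n L * D'.B / Real.log (R / δ)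
      - (γ.w j p - γ.w i x) + |L'| * δ := by
    filter_upwards [h2, h3', h4, D.rep.ae] with z hz2 hz3 hz4 hz5 hzb
    have hzc : z ∈ closedBall x δ := ball_subset_closedBall hzb
    have hzo := hxo hzc
    have hd : dist z x ≤ δ := hzc
    have hTz : TT A i j z ∈ closedBall p (L * δ) := by
      rw [mem_closedBall]
      exact (hT z hzc).trans (mul_le_mul_of_nonneg_left hd (by linarith))
    have hTZ : TT A i j z ∈ D'.Z := hp (closedBall_subset_closedBall (by linarith) hTz)
    have e1 := hz2 hzo hTz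
    have e2 := hz3 hzo hTZ
    have e3 := hz4 hzo
    have e4 := hz5 (hxZ hzc)
    have e5 := (abs_le.1 (hh z hzc)).1
    have e6 : L' * dist z x ≤ |L'| * δ :=
      mul_le_mul (le_abs_self L') hd dist_nonneg (abs_nonneg _)
    rw [e4, e3]
    linarith
  have h6 := moll_le D.locInt hδ h5
  unfold reg
  linarith

end

end Crest.Agent.R269.GlueH_390
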