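import Crest.Agent.R269.GlueH_390

/-!
# R269 (S0411), leaf L8, part G4a (helper390): uniform comparison, log-sum-exp, bounds on compacts
-/

set_option autoImplicit false
set_option linter.unusedSectionVars false

open MeasureTheory Set Metric Filter Topology Module
open scoped ContDiff Pointwise NNReal Matrix ComplexConjugate ComplexOrder

namespace Crest.Agent.R269.GlueI_390

open Crest.Agent.R275.Geo Crest.Agent.R275.Core144 Crest.Agent.R275.EDR890
open Crest.Agent.R273.Kah_333 Crest.Agent.R273.Vol_333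
open Crest.Agent.R273.C0d_390 Crest.Agent.R269.GlueB_390 Crest.Agent.R269.GlueC_390
open Crest.Agent.R269.GlueD_390 Crest.Agent.R269.GlueE_390 Crest.Agent.R269.GlueF_390
open Crest.Agent.R269.GlueG_390 Crest.Agent.R269.GlueH_390 Crest.Agent.R269.RegStmt_848

noncomputable section

variable {n : ℕ} {M : Type} [TopologicalSpace M] {A : Atl n M}

section Cmp

variable [MeasurableSpace M] [BorelSpace M] {μ : Measure M} [IsFiniteMeasure μ]

theorem fderiv_bound {F : Type*} [NormedAddCommGroup F] [NormedSpace ℝ F] {u : Cn n → F}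
    {X : Set (Cn n)} (hX : IsCompact X) (hu : ∀ z ∈ X, ContDiffAt ℝ 1 u z) :
    ∃ L : ℝ, 1 ≤ L ∧ ∀ z ∈ X, ‖fderiv ℝ u z‖ ≤ L := by
  have h1 : ContinuousOn (fderiv ℝ u) X := fun z hz =>
    ((hu z hz).fderiv_right (m := 0) (by norm_num)).continuousAt.continuousWithinAt
  obtain ⟨L, hL⟩ := hX.exists_bound_of_continuousOn h1
  exact ⟨max 1 L, le_max_left _ _, fun z hz => (hL z hz).trans (le_max_right _ _)⟩

theorem err_tendsto {R : ℝ} (hR : 0 < R) (a b : ℝ) :
    Tendsto (fun δ : ℝ => a * δ + b / Real.log (R / δ)) (𝓝[>] 0) (𝓝 0) := by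
  have h1 : Tendsto (fun δ : ℝ => R / δ) (𝓝[>] 0) atTop := by
    simp only [div_eq_mul_inv]
    exact tendsto_inv_nhdsGT_zero.const_mul_atTop hR
  have h2 : Tendsto (fun δ : ℝ => b / Real.log (R / δ)) (𝓝[>] 0) (𝓝 0) :=
    tendsto_const_nhds.div_atTop (Real.tendsto_log_atTop.comp h1)
  have h3 : Tendsto (fun δ : ℝ => a * δ) (𝓝[>] 0) (𝓝 (a * 0)) :=
    (tendsto_id.mono_left nhdsWithin_le_nhds).const_mul a
  rw [mul_zero] at h3
  simpa using h3.add h2

/-- **uniform comparison of the regularisations in two charts** -/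
theorem cmp_unif [NeZero n] {K : Kah A} {γ : Pot A} {c : ℝ} (hc : 0 ≤ c) (H : Weak K γ c μ)
    {i j : A.ι} (D : Loc A K γ μ i) (D' : Loc A K γ μ j) {S : Set M} (hS : IsCompact S)
    (hi : S ⊆ (A.e i).source) (hj : S ⊆ (A.e j).source) (hiZ : A.e i '' S ⊆ interior D.Z)
    (hjZ : A.e j '' S ⊆ interior D'.Z) {ε : ℝ} (hε : 0 < ε) :
    ∀ᶠ δ in 𝓝[>] (0 : ℝ), ∀ y ∈ S, reg D δ (A.e i y) ≤ reg D' δ (A.e j y) + ε := by
  set X := A.e i '' S with hX
  have hXc : IsCompact X := hS.image_of_continuousOn ((A.e i).continuousOn.mono hi)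
  have hYc : IsCompact (A.e j '' S) := hS.image_of_continuousOn ((A.e j).continuousOn.mono hj)
  have hXo : X ⊆ A.ov i j ∩ interior D.Z := by
    refine subset_inter ?_ hiZ
    rintro _ ⟨y, hy, rfl⟩
    exact mem_ov ⟨hi hy, hj hy⟩
  obtain ⟨r1, hr1, hr1s⟩ := hXc.exists_cthickening_subset_open
    ((isOpen_ov i j).inter isOpen_interior) hXo
  obtain ⟨r2, hr2, hr2s⟩ := hYc.exists_cthickening_subset_open isOpen_interior hjZ
  set X' := cthickening r1 X with hX'
  have hX'c : IsCompact X' := hXc.cthickening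
  have hX'o : X' ⊆ A.ov i j := hr1s.trans inter_subset_left
  obtain ⟨L, hL1, hL⟩ := fderiv_bound (u := TT A i j) hX'c fun z hz => TT_contDiffAt (hX'o hz) 1
  obtain ⟨L', hL'1, hL'⟩ := fderiv_bound (u := fun z => γ.w j (TT A i j z) - γ.w i z) hX'c
    fun z hz => by
      have h1 : ContDiffAt ℝ 1 (γ.w j) (TT A i j z) :=
        w_at γ (TT_mem (hX'o hz)).1 (by exact_mod_cast le_top)
      exact (h1.comp z (TT_contDiffAt (hX'o hz) 1)).sub
        (w_at γ (hX'o hz).1 (by exact_mod_cast le_top))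
  have hev1 := (err_tendsto (half_pos hr2) |L'| (Cst n L * D'.B)).eventually (gt_mem_nhds hε)
  have hδ1 : ∀ᶠ δ in 𝓝[>] (0 : ℝ), δ < r1 := nhdsWithin_le_nhds (gt_mem_nhds hr1)
  have hδ2 : ∀ᶠ δ in 𝓝[>] (0 : ℝ), δ < r2 / 2 / 3 :=
    nhdsWithin_le_nhds (gt_mem_nhds (by positivity))
  have hδ3 : ∀ᶠ δ in 𝓝[>] (0 : ℝ), δ < r2 / 2 / L :=
    nhdsWithin_le_nhds (gt_mem_nhds (by positivity))
  filter_upwards [hev1, hδ1, hδ2, hδ3, self_mem_nhdsWithin] with δ h1 h2 h3 h4 hδ y hy
  have hδ0 : 0 < δ := hδ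
  set x := A.e i y with hx
  have hxX : x ∈ X := mem_image_of_mem _ hy
  have hbX' : closedBall x δ ⊆ X' :=
    (closedBall_subset_cthickening hxX δ).trans (cthickening_mono h2.le X)
  have hTx : TT A i j x = A.e j y := by
    change A.e j ((A.e i).symm (A.e i y)) = A.e j y
    rw [(A.e i).left_inv (hi hy)]
  have hconv : Convex ℝ (closedBall x δ) := convex_closedBall x δ
  have hxm : x ∈ closedBall x δ := mem_closedBall_self hδ0.le
  have hcmp := cmp_point hc H D D' (x := x) (δ := δ) (R := r2 / 2) (L := L) (L' := L')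
    (κ := r2 / 2) (half_pos hr2) hδ0 (by linarith) hL1 (by
      rw [lt_div_iff₀ (by linarith)] at h4
      linarith) (hbX'.trans hX'o) (hbX'.trans ((hr1s.trans inter_subset_right).trans interior_subset))
    (by
      rw [hTx, add_halves]
      exact (closedBall_subset_cthickening (mem_image_of_mem _ hy) r2).trans
        (hr2s.trans interior_subset))
    (fun z hz => by
      rw [dist_eq_norm, dist_eq_norm]
      exact hconv.norm_image_sub_le_of_norm_fderiv_le
        (fun w hw => TT_differentiableAt (hX'o (hbX' hw))) (fun w hw => hL w (hbX' hw)) hxm hz)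
    (fun z hz => by
      rw [dist_eq_norm, ← Real.norm_eq_abs]
      refine hconv.norm_image_sub_le_of_norm_fderiv_le (f := fun z => γ.w j (TT A i j z) - γ.w i z)
        (fun w hw => ?_) (fun w hw => hL' w (hbX' hw)) hxm hz
      have hwo := hX'o (hbX' hw)
      have h1 : ContDiffAt ℝ 1 (γ.w j) (TT A i j w) :=
        w_at γ (TT_mem hwo).1 (by exact_mod_cast le_top)
      exact ((h1.comp w (TT_contDiffAt hwo 1)).sub
        (w_at γ hwo.1 (by exact_mod_cast le_top))).differentiableAt one_ne_zero)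
  rw [hTx] at hcmp
  linarith

end Cmp

/-! ### log-sum-exp -/

theorem lv_sum {ι : Type*} (s : Finset ι) {a : ι → V n → ℝ} {z : V n}
    (ha : ∀ k ∈ s, ContDiffAt ℝ 2 (a k) z) (v : V n) :
    lv (fun y => ∑ k ∈ s, a k y) z v = ∑ k ∈ s, lv (a k) z v := by
  classical
  induction s using Finset.induction_on with
  | empty =>
    simp only [Finset.sum_empty]
    unfold lv
    simp
  | insert k s hk ih =>
    simp only [Finset.sum_insert hk]
    rw [lv_add (ha k (Finset.mem_insert_self k s)) (ContDiffAt.sum fun j hj =>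
      ha j (Finset.mem_insert_of_mem hj)), ih fun j hj => ha j (Finset.mem_insert_of_mem hj)]

theorem lse {ι : Type*} (s : Finset ι) {a : ι → V n → ℝ} {S : V n → ℝ} {z0 : V n}
    (ha : ∀ k ∈ s, ContDiffAt ℝ 2 (a k) z0) (ha0 : ∀ k ∈ s, 0 < a k z0)
    (hS : ContDiffAt ℝ 2 S z0) (hS0 : 0 < S z0) (hle : ∀ᶠ z in 𝓝 z0, ∑ k ∈ s, a k z ≤ S z)
    (heq : ∑ k ∈ s, a k z0 = S z0) (v : V n) :
    ∑ k ∈ s, a k z0 / S z0 * lv (fun z => Real.log (a k z)) z0 v
      ≤ lv (fun z => Real.log (S z)) z0 v := by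
  set p : ι → ℝ := fun k => a k z0 / S z0 with hp
  have hp0 : ∀ k ∈ s, 0 ≤ p k := fun k hk => (div_pos (ha0 k hk) hS0).le
  have hp1 : ∑ k ∈ s, p k = 1 := by
    rw [hp]
    simp only
    rw [← Finset.sum_div, heq, div_self hS0.ne']
  have hlog : ∀ k ∈ s, ContDiffAt ℝ 2 (fun z => Real.log (a k z)) z0 := fun k hk =>
    (ha k hk).log (ha0 k hk).ne'
  have hplog : ∀ k ∈ s, ContDiffAt ℝ 2 (fun z => p k * Real.log (a k z)) z0 := fun k hk =>
    contDiffAt_const.mul (hlog k hk)
  have hSlog : ContDiffAt ℝ 2 (fun z => Real.log (S z)) z0 := hS.log hS0.ne'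
  set u : V n → ℝ := fun z => (∑ k ∈ s, p k * Real.log (a k z)) + (-1) * Real.log (S z) with hu
  have hmax : IsLocalMax u z0 := by
    have h1 : ∀ᶠ z in 𝓝 z0, ∀ k ∈ s, 0 < a k z := by
      rw [Finset.eventually_all]
      intro k hk
      exact (ha k hk).continuousAt.eventually (lt_mem_nhds (ha0 k hk))
    have h2 : ∀ᶠ z in 𝓝 z0, 0 < S z := hS.continuousAt.eventually (lt_mem_nhds hS0)
    filter_upwards [h1, h2, hle] with z hz1 hz2 hz3
    have hne : s.Nonempty := by
      by_contra hcon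
      rw [Finset.not_nonempty_iff_eq_empty] at hcon
      rw [hcon, Finset.sum_empty] at hp1
      exact zero_ne_one hp1
    have hj := strictConcaveOn_log_Ioi.concaveOn.le_map_sum (t := s) (w := p)
      (p := fun k => a k z / a k z0) hp0 hp1 fun k hk => div_pos (hz1 k hk) (ha0 k hk)
    simp only [smul_eq_mul] at hj
    have e1 : ∑ k ∈ s, p k * (a k z / a k z0) = (∑ k ∈ s, a k z) / S z0 := by
      rw [Finset.sum_div]
      refine Finset.sum_congr rfl fun k hk => ?_
      rw [hp]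
      have := (ha0 k hk).ne'
      field_simp
    rw [e1] at hj
    have e2 : ∀ k ∈ s, p k * Real.log (a k z / a k z0)
        = p k * Real.log (a k z) - p k * Real.log (a k z0) := by
      intro k hk
      rw [Real.log_div (hz1 k hk).ne' (ha0 k hk).ne']
      ring
    rw [Finset.sum_congr rfl e2, Finset.sum_sub_distrib] at hj
    have hpos : 0 < ∑ k ∈ s, a k z := Finset.sum_pos hz1 hne
    have e3 : Real.log ((∑ k ∈ s, a k z) / S z0) ≤ Real.log (S z) - Real.log (S z0) := by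
      rw [← Real.log_div hz2.ne' hS0.ne']
      exact Real.log_le_log (div_pos hpos hS0) (div_le_div_of_nonneg_right hz3 hS0.le)
    change (∑ k ∈ s, p k * Real.log (a k z)) + (-1) * Real.log (S z)
      ≤ (∑ k ∈ s, p k * Real.log (a k z0)) + (-1) * Real.log (S z0)
    linarith
  have hcu : ContDiffAt ℝ 2 u z0 :=
    (ContDiffAt.sum fun k hk => hplog k hk).add (contDiffAt_const.mul hSlog)
  have h3 := lv_nonpos hcu hmax v
  have e4 : lv u z0 v = (∑ k ∈ s, p k * lv (fun z => Real.log (a k z)) z0 v)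
      + (-1) * lv (fun z => Real.log (S z)) z0 v := by
    rw [hu, lv_add (ContDiffAt.sum fun k hk => hplog k hk) (contDiffAt_const.mul hSlog),
      lv_sum s hplog, lv_const_mul hSlog]
    congr 1
    exact Finset.sum_congr rfl fun k hk => lv_const_mul (hlog k hk) (p k) v
  rw [e4] at h3
  linarith

/-! ### quadratic bounds on compacts -/

theorem quad_bound {X : Set (Cn n)} (hX : IsCompact X) {f g : Cn n → Cn n → ℝ}
    (hf : ContinuousOn (fun p : Cn n × Cn n => f p.1 p.2) (X ×ˢ univ))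
    (hg : ContinuousOn (fun p : Cn n × Cn n => g p.1 p.2) (X ×ˢ univ))
    (hf2 : ∀ z ∈ X, ∀ (t : ℝ) v, f z (t • v) = t ^ 2 * f z v)
    (hg2 : ∀ z ∈ X, ∀ (t : ℝ) v, g z (t • v) = t ^ 2 * g z v)
    (hg0 : ∀ z ∈ X, ∀ v, v ≠ 0 → 0 < g z v) :
    ∃ C : ℝ, 0 ≤ C ∧ ∀ z ∈ X, ∀ v, f z v ≤ C * g z v := by
  have hK : IsCompact (X ×ˢ sphere (0 : Cn n) 1) := hX.prod (isCompact_sphere 0 1)
  have hsub : X ×ˢ sphere (0 : Cn n) 1 ⊆ X ×ˢ univ := prod_mono_right (subset_univ _)
  have hne : ∀ p ∈ X ×ˢ sphere (0 : Cn n) 1, g p.1 p.2 ≠ 0 := by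
    rintro ⟨z, v⟩ ⟨hz, hv⟩
    refine (hg0 z hz v ?_).ne'
    rintro rfl
    simp at hv
  have hq : ContinuousOn (fun p : Cn n × Cn n => f p.1 p.2 / g p.1 p.2)
      (X ×ˢ sphere (0 : Cn n) 1) := (hf.mono hsub).div (hg.mono hsub) hne
  obtain ⟨C, hC⟩ := hK.exists_bound_of_continuousOn hq
  refine ⟨|C|, abs_nonneg C, fun z hz v => ?_⟩
  by_cases hv : v = 0
  · subst hv
    have h1 := hf2 z hz 0 0
    have h2 := hg2 z hz 0 0
    rw [smul_zero] at h1 h2
    rw [h1, h2]
    simp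
  · have hn : 0 < ‖v‖ := norm_pos_iff.2 hv
    set w : Cn n := ‖v‖⁻¹ • v with hw
    have hwv : v = ‖v‖ • w := by rw [hw, smul_inv_smul₀ hn.ne']
    have hws : w ∈ sphere (0 : Cn n) 1 := by
      rw [mem_sphere_zero_iff_norm, hw, norm_smul, norm_inv, norm_norm, inv_mul_cancel₀ hn.ne']
    have h1 := hC (z, w) ⟨hz, hws⟩
    have hgw : 0 < g z w := hg0 z hz w (by rintro h0; rw [h0] at hws; simp at hws)
    have h2 : f z w ≤ |C| * g z w := by
      have h3 : f z w / g z w ≤ |C| := (le_abs_self _).trans (h1.trans (le_abs_self C))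
      rwa [div_le_iff₀ hgw] at h3
    rw [hwv, hf2 z hz, hg2 z hz]
    nlinarith [mul_le_mul_of_nonneg_left h2 (sq_nonneg ‖v‖)]

theorem lv_smul_real (u : V n → ℝ) (z v : V n) (t : ℝ) : lv u z (t • v) = t ^ 2 * lv u z v := by
  unfold lv
  rw [smul_comm Complex.I t v]
  simp only [map_smul, _root_.smul_apply, smul_eq_mul]
  ring

theorem gn_smul_real (u : V n → ℝ) (z v : V n) (t : ℝ) : gn u z (t • v) = t ^ 2 * gn u z v := by
  unfold gn
  rw [smul_comm Complex.I t v]
  simp only [map_smul, smul_eq_mul]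
  ring

theorem om_smul_real (K : Kah A) (i : A.ι) (z v : Cn n) (t : ℝ) :
    om K i z (t • v) = t ^ 2 * om K i z v := by
  unfold om
  rw [← Complex.re_ofReal_mul]
  congr 1
  rw [Finset.mul_sum]
  refine Finset.sum_congr rfl fun a _ => ?_
  rw [Finset.mul_sum]
  refine Finset.sum_congr rfl fun b _ => ?_
  simp only [PiLp.smul_apply, Complex.real_smul, map_mul, Complex.conj_ofReal]
  push_cast
  ring

theorem om_pos (K : Kah A) {i : A.ι} {z : Cn n} (hz : z ∈ (A.e i).target) {v : Cn n}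
    (hv : v ≠ 0) : 0 < om K i z v := by
  have h1 := (K.pos i _ ((A.e i).map_target hz))
  have h2 := h1.dotProduct_mulVec_pos (x := fun a => conj (v a)) (by
    intro h
    apply hv
    ext a
    have := congrFun h a
    simpa using this)
  have h3 : om K i z v = (star (fun a => conj (v a)) ⬝ᵥ (K.g i ((A.e i).symm z) *ᵥ
      fun a => conj (v a))).re := by
    unfold om
    congr 1
    simp only [dotProduct, Matrix.mulVec, Pi.star_apply, RCLike.star_def, Complex.conj_conj]
    refine Finset.sum_congr rfl fun a _ => ?_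
    rw [Finset.mul_sum]
    refine Finset.sum_congr rfl fun b _ => ?_
    ring
  rw [h3]
  exact (Complex.lt_def.1 h2).1

theorem om_nonneg (K : Kah A) {i : A.ι} {z : Cn n} (hz : z ∈ (A.e i).target) (v : Cn n) :
    0 ≤ om K i z v := by
  by_cases hv : v = 0
  · subst hv
    have := om_smul_real K i z 0 0
    rw [smul_zero] at this
    rw [this]
    simp
  · exact (om_pos K hz hv).le

theorem om_continuousOn (K : Kah A) (i : A.ι) :
    ContinuousOn (fun p : Cn n × Cn n => om K i p.1 p.2) ((A.e i).target ×ˢ univ) := by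
  unfold om
  refine Complex.continuous_re.comp_continuousOn ?_
  refine continuousOn_finsetSum _ fun a _ => continuousOn_finsetSum _ fun b _ => ?_
  have h1 : ContinuousOn (fun p : Cn n × Cn n => K.g i ((A.e i).symm p.1) a b)
      ((A.e i).target ×ˢ univ) := by
    have h2 : ContinuousOn (fun z : Cn n => K.g i ((A.e i).symm z) a b) (A.e i).target :=
      (K.sm i a b).continuousOn
    exact h2.comp continuous_fst.continuousOn fun p hp => hp.1
  have h3 : Continuous fun p : Cn n × Cn n => p.2 a :=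
    (EuclideanSpace.proj a : Cn n →L[ℂ] ℂ).continuous.comp continuous_snd
  have h4 : Continuous fun p : Cn n × Cn n => conj (p.2 b) :=
    Complex.continuous_conj.comp ((EuclideanSpace.proj b : Cn n →L[ℂ] ℂ).continuous.comp continuous_snd)
  exact (h1.mul h3.continuousOn).mul h4.continuousOn

theorem lv_continuousOn₂ {u : V n → ℝ} {X : Set (V n)} (hu : ∀ z ∈ X, ContDiffAt ℝ 2 u z) :
    ContinuousOn (fun p : V n × V n => lv u p.1 p.2) (X ×ˢ univ) := by
  rintro ⟨z, v⟩ ⟨hz, -⟩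
  have h1 : ContinuousAt (fderiv ℝ (fderiv ℝ u)) z :=
    (((hu z hz).fderiv_right (m := 1) (by norm_num)).fderiv_right (m := 0)
      (by norm_num)).continuousAt
  have h2 : ContinuousAt (fun p : V n × V n => fderiv ℝ (fderiv ℝ u) p.1) (z, v) :=
    ContinuousAt.comp (g := fderiv ℝ (fderiv ℝ u)) h1 continuousAt_fst
  have h3 : ContinuousAt (fun p : V n × V n => p.2) (z, v) := continuousAt_snd
  have h4 : ContinuousAt (fun p : V n × V n => Complex.I • p.2) (z, v) :=
    (continuous_const_smul Complex.I).continuousAt.comp h3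
  unfold lv
  exact (((h2.clm_apply h3).clm_apply h3).add ((h2.clm_apply h4).clm_apply h4)).continuousWithinAt

theorem gn_continuousOn₂ {u : V n → ℝ} {X : Set (V n)} (hu : ∀ z ∈ X, ContDiffAt ℝ 2 u z) :
    ContinuousOn (fun p : V n × V n => gn u p.1 p.2) (X ×ˢ univ) := by
  rintro ⟨z, v⟩ ⟨hz, -⟩
  have h1 : ContinuousAt (fderiv ℝ u) z :=
    ((hu z hz).fderiv_right (m := 1) (by norm_num)).continuousAt
  have h2 : ContinuousAt (fun p : V n × V n => fderiv ℝ u p.1) (z, v) :=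
    ContinuousAt.comp (g := fderiv ℝ u) h1 continuousAt_fst
  have h3 : ContinuousAt (fun p : V n × V n => p.2) (z, v) := continuousAt_snd
  have h4 : ContinuousAt (fun p : V n × V n => Complex.I • p.2) (z, v) :=
    (continuous_const_smul Complex.I).continuousAt.comp h3
  unfold gn
  exact (((h2.clm_apply h3).pow 2).add ((h2.clm_apply h4).pow 2)).continuousWithinAt

/-- `θ² lv (log θ²) ≥ - C ω` on compacts -/
theorem cut_bound (K : Kah A) (i : A.ι) {θ : Cn n → ℝ} {X : Set (Cn n)} (hX : IsCompact X)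
    (hXt : X ⊆ (A.e i).target) (hθ : ∀ z ∈ X, ContDiffAt ℝ 2 θ z) :
    ∃ C : ℝ, 0 ≤ C ∧ ∀ z ∈ X, θ z ≠ 0 → ∀ v,
      -(C * om K i z v) ≤ θ z ^ 2 * lv (fun y => Real.log (θ y ^ 2)) z v := by
  have h2 : ∀ z ∈ X, ContDiffAt ℝ 2 (fun y => θ y ^ 2) z := fun z hz => (hθ z hz).pow 2
  obtain ⟨C, hC0, hC⟩ := quad_bound hX
    (f := fun z v => 4 * gn θ z v - lv (fun y => θ y ^ 2) z v) (g := om K i)
    ((continuousOn_const.mul (gn_continuousOn₂ hθ)).sub (lv_continuousOn₂ h2))
    ((om_continuousOn K i).mono (prod_mono_left hXt))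
    (fun z _ t v => by rw [gn_smul_real, lv_smul_real]; ring)
    (fun z _ t v => om_smul_real K i z v t) (fun z hz v hv => om_pos K (hXt hz) hv)
  refine ⟨C, hC0, fun z hz h0 v => ?_⟩
  have h3 := hC z hz v
  have h4 := lv_log (u := fun y => θ y ^ 2) (pow_ne_zero 2 h0) (h2 z hz) v
  have h5 : gn (fun y => θ y ^ 2) z v = 4 * θ z ^ 2 * gn θ z v := by
    have hd : DifferentiableAt ℝ θ z := (hθ z hz).differentiableAt (by norm_num)
    have h6 : fderiv ℝ (fun y => θ y ^ 2) z = (2 * θ z) • fderiv ℝ θ z := by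
      have := hd.hasFDerivAt.pow 2
      rw [this.fderiv]
      simp
    unfold gn
    rw [h6]
    simp only [_root_.smul_apply, smul_eq_mul]
    ring
  rw [h4, h5]
  have h7 : θ z ^ 2 * (lv (fun y => θ y ^ 2) z v / θ z ^ 2 - 4 * θ z ^ 2 * gn θ z v / (θ z ^ 2) ^ 2)
      = lv (fun y => θ y ^ 2) z v - 4 * gn θ z v := by
    field_simp
  rw [h7]
  linarith

/-- `dg` varies little on small balls -/
theorem dg_unif (K : Kah A) (i : A.ι) {X : Set (Cn n)} (hX : IsCompact X)
    (hXt : X ⊆ (A.e i).target) {q : ℝ} (hq : q < 1) :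
    ∀ᶠ δ in 𝓝[>] (0 : ℝ), ∀ z ∈ X, ∀ t ∈ closedBall z δ, q * dg K i z ≤ dg K i t := by
  obtain ⟨r, hr, hrs⟩ := hX.exists_cthickening_subset_open (A.e i).open_target hXt
  set Y := cthickening r X with hY
  have hYc : IsCompact Y := hX.cthickening
  by_cases hne : X.Nonempty
  swap
  · rw [not_nonempty_iff_eq_empty] at hne
    subst hne
    exact Eventually.of_forall fun δ z hz => absurd hz (notMem_empty z)
  obtain ⟨z1, hz1, hmin⟩ := hX.exists_isMinOn hne ((dg_continuousOn K i).mono hXt)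
  set m0 := dg K i z1 with hm0
  have hm0p : 0 < m0 := dg_pos K (hXt hz1)
  have huc : UniformContinuousOn (dg K i) Y :=
    hYc.uniformContinuousOn_of_continuous ((dg_continuousOn K i).mono hrs)
  rw [Metric.uniformContinuousOn_iff] at huc
  obtain ⟨δ0, hδ0, hδ0s⟩ := huc ((1 - q) * m0) (mul_pos (by linarith) hm0p)
  have hd1 : ∀ᶠ δ in 𝓝[>] (0 : ℝ), δ < δ0 := nhdsWithin_le_nhds (gt_mem_nhds hδ0)
  have hd2 : ∀ᶠ δ in 𝓝[>] (0 : ℝ), δ < r := nhdsWithin_le_nhds (gt_mem_nhds hr)
  filter_upwards [hd1, hd2] with δ h1 h2 z hz t ht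
  have hzY : z ∈ Y := self_subset_cthickening X hz
  have htY : t ∈ Y := (closedBall_subset_cthickening hz δ).trans (cthickening_mono h2.le X) ht
  have h3 := hδ0s t htY z hzY (lt_of_le_of_lt ht h1)
  rw [Real.dist_eq, abs_lt] at h3
  have h4 : m0 ≤ dg K i z := hmin hz
  nlinarith [mul_le_mul_of_nonneg_left h4 (by linarith : (0 : ℝ) ≤ 1 - q)]

end

end Crest.Agent.R269.GlueI_390
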