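import Crest.Agent.R269.GlueI_390

/-!
# R269 (S0411), leaf L8 (helper390): THEOREM REG, proof of `RegStmt`

`regStmt : RegStmt`
-/

set_option autoImplicit false
set_option linter.unusedSectionVars false

open MeasureTheory Set Metric Filter Topology Module
open scoped ContDiff Pointwise NNReal Matrix ComplexConjugate ComplexOrder

namespace Crest.Agent.R269.GlueJ_390

open Crest.Agent.R275.Geo Crest.Agent.R275.Core144 Crest.Agent.R275.EDR890
open Crest.Agent.R273.Kah_333 Crest.Agent.R273.Vol_333 Crest.Agent.R275.C1d194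
open Crest.Agent.R273.C0d_390 Crest.Agent.R269.GlueB_390 Crest.Agent.R269.GlueC_390
open Crest.Agent.R269.GlueD_390 Crest.Agent.R269.GlueE_390 Crest.Agent.R269.GlueF_390
open Crest.Agent.R269.GlueG_390 Crest.Agent.R269.GlueH_390 Crest.Agent.R269.GlueI_390
open Crest.Agent.R269.RegStmt_848

noncomputable section

variable {n : ℕ} {M : Type} [TopologicalSpace M] {A : Atl n M}
variable [MeasurableSpace M] [BorelSpace M] {μ : Measure M} [IsFiniteMeasure μ]
variable (P : Part A) {K : Kah A} {γ : Pot A} (D : ∀ i, Loc A K γ μ i) (s δ : ℝ)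

/-- a summand of the soft maximum -/
def ak (k : A.ι) (x : M) : ℝ := P.χ k x ^ 2 * Real.exp (reg (D k) δ (A.e k x) / s)

theorem ak_nonneg (k : A.ι) (x : M) : 0 ≤ ak P D s δ k x :=
  mul_nonneg (sq_nonneg _) (Real.exp_pos _).le

theorem ak_pos {k : A.ι} {x : M} (h : P.χ k x ≠ 0) : 0 < ak P D s δ k x :=
  mul_pos (by positivity) (Real.exp_pos _)

theorem reg_contDiffOn (k : A.ι) : ContDiffOn ℝ ∞ (reg (D k) δ) (A.e k).target :=
  (moll_contDiff (D k).locInt δ).contDiffOn.sub (γ.sm k)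

theorem reg_at {k : A.ι} {z : Cn n} (hz : z ∈ (A.e k).target) : ContDiffAt ℝ 2 (reg (D k) δ) z :=
  ((reg_contDiffOn D δ k).contDiffAt ((A.e k).open_target.mem_nhds hz)).of_le two_le_inf

/-- the summand in its own chart -/
def Ak (k : A.ι) (y : Cn n) : ℝ :=
  P.χ k ((A.e k).symm y) ^ 2 * Real.exp (reg (D k) δ y / s)

theorem Ak_contDiffOn (k : A.ι) : ContDiffOn ℝ ∞ (Ak P D s δ k) (A.e k).target :=
  ((P.χ_sm k k).pow 2).mul (((reg_contDiffOn D δ k).div_const s).exp)

theorem ak_sm (k : A.ι) : A.Sm (ak P D s δ k) := by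
  refine sm_of_smAt (j := k) ?_ (isClosed_tsupport (P.χ k)) (P.χ_sub k) fun x hx => ?_
  · refine (Ak_contDiffOn P D s δ k).congr fun z hz => ?_
    unfold ak Ak
    rw [(A.e k).right_inv hz]
  · unfold ak
    rw [image_eq_zero_of_notMem_tsupport hx]
    ring

variable [Fintype A.ι]

/-- the sum -/
def Sk (x : M) : ℝ := ∑ k, ak P D s δ k x

theorem Sk_sm : A.Sm (Sk P D s δ) := by
  intro i
  have h : ContDiffOn ℝ ∞ (fun z => ∑ k, ak P D s δ k ((A.e i).symm z)) (A.e i).target :=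
    ContDiffOn.sum fun k _ => ak_sm P D s δ k i
  exact h

omit [MeasurableSpace M] [BorelSpace M] in
theorem exists_one (x : M) : ∃ l, x ∈ tsupport (P.χ l) ∧ P.χ l x = 1 := by
  have h1 : ∃ l, P.ψ l x ≠ 0 := by
    by_contra hcon
    push Not at hcon
    have := P.sum_one x
    simp only [hcon, finsum_zero] at this
    exact zero_ne_one this
  obtain ⟨l, hl⟩ := h1
  have h2 : P.χ l x = 1 := (P.χ_one l x (subset_tsupport _ hl)).self_of_nhds
  refine ⟨l, subset_tsupport _ ?_, h2⟩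
  rw [Function.mem_support, h2]
  exact one_ne_zero

theorem Sk_pos (x : M) : 0 < Sk P D s δ x := by
  obtain ⟨l, -, hl⟩ := exists_one P x
  exact Finset.sum_pos' (fun k _ => ak_nonneg P D s δ k x) ⟨l, Finset.mem_univ l,
    ak_pos P D s δ (by rw [hl]; exact one_ne_zero)⟩

/-- the regularisation -/
def phi (x : M) : ℝ := s * Real.log (Sk P D s δ x)

theorem phi_sm : A.Sm (phi P D s δ) := fun i =>
  contDiffOn_const.mul ((Sk_sm P D s δ i).log fun _ _ => (Sk_pos P D s δ _).ne')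

open Classical in
/-- the active charts -/
def act (x : M) : Finset A.ι := Finset.univ.filter fun k => P.χ k x ≠ 0

theorem mem_act {x : M} {k : A.ι} : k ∈ act P x ↔ P.χ k x ≠ 0 := by
  classical
  simp [act]

theorem sum_act (x : M) : ∑ k ∈ act P x, ak P D s δ k x = Sk P D s δ x := by
  classical
  refine Finset.sum_subset (Finset.subset_univ _) fun k _ hk => ?_
  rw [mem_act, not_not] at hk
  unfold ak
  rw [hk]
  ring

/-- the weights -/
def pk (k : A.ι) (x : M) : ℝ := ak P D s δ k x / Sk P D s δ x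

theorem pk_nonneg (k : A.ι) (x : M) : 0 ≤ pk P D s δ k x :=
  div_nonneg (ak_nonneg P D s δ k x) (Sk_pos P D s δ x).le

theorem sum_pk (x : M) : ∑ k ∈ act P x, pk P D s δ k x = 1 := by
  unfold pk
  rw [← Finset.sum_div, sum_act, div_self (Sk_pos P D s δ x).ne']

variable {s δ}

/-- the comparison hypothesis -/
def Cmp (s δ : ℝ) : Prop := ∀ k l, ∀ y ∈ tsupport (P.χ k) ∩ tsupport (P.χ l),
  reg (D k) δ (A.e k y) ≤ reg (D l) δ (A.e l y) + s

theorem q_le (hs : 0 < s) (hcmp : Cmp P D s δ) {x : M} {k : A.ι} (hk : x ∈ tsupport (P.χ k)) :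
    Real.exp (reg (D k) δ (A.e k x) / s) ≤ 3 * Sk P D s δ x := by
  obtain ⟨l, hl, hl1⟩ := exists_one P x
  have h1 := hcmp k l x ⟨hk, hl⟩
  have h2 : ak P D s δ l x ≤ Sk P D s δ x :=
    Finset.single_le_sum (f := fun k => ak P D s δ k x) (fun k _ => ak_nonneg P D s δ k x)
      (Finset.mem_univ l)
  unfold ak at h2
  rw [hl1, one_pow, one_mul] at h2
  have h3 : reg (D k) δ (A.e k x) / s ≤ 1 + reg (D l) δ (A.e l x) / s := by
    have h4 := div_le_div_of_nonneg_right h1 hs.le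
    rw [add_div, div_self hs.ne'] at h4
    linarith
  calc Real.exp (reg (D k) δ (A.e k x) / s)
      ≤ Real.exp (1 + reg (D l) δ (A.e l x) / s) := Real.exp_le_exp.2 h3
    _ = Real.exp 1 * Real.exp (reg (D l) δ (A.e l x) / s) := Real.exp_add _ _
    _ ≤ 3 * Sk P D s δ x := mul_le_mul Real.exp_one_lt_three.le h2 (Real.exp_pos _).le (by norm_num)

/-- `lv` of `log` of one summand -/
theorem lv_log_ak (hs : 0 < s) {i k : A.ι} {z0 : Cn n} (hz0 : z0 ∈ (A.e i).target)
    (hk : P.χ k ((A.e i).symm z0) ≠ 0) (v : Cn n) :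
    s * lv (fun z => Real.log (ak P D s δ k ((A.e i).symm z))) z0 v
      = s * lv (fun y => Real.log (P.χ k ((A.e k).symm y) ^ 2)) (TT A i k z0)
          (fderiv ℂ (TT A i k) z0 v)
        + (lv (moll (D k).f δ) (TT A i k z0) (fderiv ℂ (TT A i k) z0 v) - lv (γ.w i) z0 v) := by
  have hxs : (A.e i).symm z0 ∈ (A.e k).source := P.χ_sub k (subset_tsupport _ hk)
  have hzo : z0 ∈ A.ov i k := ⟨hz0, hxs⟩
  set y0 := TT A i k z0 with hy0
  set ξ := fderiv ℂ (TT A i k) z0 v with hξ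
  have hy0t : y0 ∈ (A.e k).target := (TT_mem hzo).1
  have hsy : (A.e k).symm y0 = (A.e i).symm z0 := TT_symm hzo
  have hAk : ContDiffAt ℝ 2 (Ak P D s δ k) y0 :=
    ((Ak_contDiffOn P D s δ k).contDiffAt ((A.e k).open_target.mem_nhds hy0t)).of_le two_le_inf
  have hθ : ContDiffAt ℝ 2 (fun y => P.χ k ((A.e k).symm y)) y0 :=
    ((P.χ_sm k k).contDiffAt ((A.e k).open_target.mem_nhds hy0t)).of_le two_le_inf
  have hθ0 : P.χ k ((A.e k).symm y0) ≠ 0 := by rwa [hsy]
  have hAk0 : Ak P D s δ k y0 ≠ 0 := mul_ne_zero (pow_ne_zero 2 hθ0) (Real.exp_pos _).ne'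
  have e1 : (fun z => Real.log (ak P D s δ k ((A.e i).symm z))) =ᶠ[𝓝 z0]
      fun z => Real.log (Ak P D s δ k (TT A i k z)) := by
    filter_upwards [(isOpen_ov i k).mem_nhds hzo] with z hz
    unfold ak Ak
    rw [TT_symm hz]
    rfl
  rw [lv_congr e1, lv_comp_hol (u := fun y => Real.log (Ak P D s δ k y)) hzo (hAk.log hAk0), ← hξ,
    ← hy0]
  have e2 : (fun y => Real.log (Ak P D s δ k y)) =ᶠ[𝓝 y0]
      fun y => Real.log (P.χ k ((A.e k).symm y) ^ 2) + s⁻¹ * reg (D k) δ y := by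
    filter_upwards [hθ.continuousAt.eventually_ne hθ0] with y hy
    unfold Ak
    rw [Real.log_mul (pow_ne_zero 2 hy) (Real.exp_pos _).ne', Real.log_exp]
    ring
  have hlogθ : ContDiffAt ℝ 2 (fun y => Real.log (P.χ k ((A.e k).symm y) ^ 2)) y0 :=
    (hθ.pow 2).log (pow_ne_zero 2 hθ0)
  have hreg := reg_at D δ hy0t
  have hm : ContDiffAt ℝ 2 (moll (D k).f δ) y0 :=
    ((moll_contDiff (D k).locInt δ).contDiffAt).of_le two_le_inf
  have hw : ContDiffAt ℝ 2 (γ.w k) y0 := w_at γ hy0t two_le_inf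
  have e3 : lv (reg (D k) δ) y0 ξ = lv (moll (D k).f δ) y0 ξ - lv (γ.w k) y0 ξ := by
    have e4 : reg (D k) δ = fun y => moll (D k).f δ y + (-1) * γ.w k y := by
      funext y
      unfold reg
      ring
    rw [e4, lv_add hm (contDiffAt_const.mul hw), lv_const_mul hw]
    ring
  have e5 : lv (γ.w i) z0 v = lv (γ.w k) y0 ξ := γ.tr i k z0 hzo v
  rw [lv_congr e2, lv_add hlogθ (contDiffAt_const.mul hreg), lv_const_mul hreg, e3, e5]
  field_simp

/-- **the core inequality** -/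
theorem core (hs : 0 < s) (hcmp : Cmp P D s δ) {C : A.ι → ℝ} (hC0 : ∀ k, 0 ≤ C k)
    (hC : ∀ k, ∀ z ∈ A.e k '' tsupport (P.χ k), P.χ k ((A.e k).symm z) ≠ 0 → ∀ v,
      -(C k * om K k z v) ≤ P.χ k ((A.e k).symm z) ^ 2 *
        lv (fun y => Real.log (P.χ k ((A.e k).symm y) ^ 2)) z v)
    {i : A.ι} {z0 : Cn n} (hz0 : z0 ∈ (A.e i).target) (v : Cn n) :
    (∑ k ∈ act P ((A.e i).symm z0), pk P D s δ k ((A.e i).symm z0) *
      lv (moll (D k).f δ) (TT A i k z0) (fderiv ℂ (TT A i k) z0 v))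
      - 3 * s * (∑ k, C k) * om K i z0 v
      ≤ lv (fun y => γ.w i y + phi P D s δ ((A.e i).symm y)) z0 v := by
  classical
  set x0 := (A.e i).symm z0 with hx0
  have hSat : ContDiffAt ℝ 2 (fun z => Sk P D s δ ((A.e i).symm z)) z0 :=
    ((Sk_sm P D s δ i).contDiffAt ((A.e i).open_target.mem_nhds hz0)).of_le two_le_inf
  have haat : ∀ k, ContDiffAt ℝ 2 (fun z => ak P D s δ k ((A.e i).symm z)) z0 := fun k =>
    ((ak_sm P D s δ k i).contDiffAt ((A.e i).open_target.mem_nhds hz0)).of_le two_le_inf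
  have hS0 : 0 < Sk P D s δ x0 := Sk_pos P D s δ x0
  have hlogS : ContDiffAt ℝ 2 (fun z => Real.log (Sk P D s δ ((A.e i).symm z))) z0 :=
    hSat.log hS0.ne'
  have hwi : ContDiffAt ℝ 2 (γ.w i) z0 := w_at γ hz0 two_le_inf
  have e0 : lv (fun y => γ.w i y + phi P D s δ ((A.e i).symm y)) z0 v
      = lv (γ.w i) z0 v + s * lv (fun z => Real.log (Sk P D s δ ((A.e i).symm z))) z0 v := by
    unfold phi
    rw [lv_add hwi (contDiffAt_const.mul hlogS), lv_const_mul hlogS]
  have hL := lse (act P x0) (a := fun k z => ak P D s δ k ((A.e i).symm z))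
    (S := fun z => Sk P D s δ ((A.e i).symm z)) (fun k _ => haat k)
    (fun k hk => ak_pos P D s δ ((mem_act P).1 hk)) hSat hS0
    (Eventually.of_forall fun z => Finset.sum_le_sum_of_subset_of_nonneg (Finset.subset_univ _)
      fun k _ _ => ak_nonneg P D s δ k _) (sum_act P D s δ x0) v
  have hL2 : ∑ k ∈ act P x0, pk P D s δ k x0 *
      (s * lv (fun z => Real.log (ak P D s δ k ((A.e i).symm z))) z0 v)
      ≤ s * lv (fun z => Real.log (Sk P D s δ ((A.e i).symm z))) z0 v := by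
    have := mul_le_mul_of_nonneg_left hL hs.le
    rw [Finset.mul_sum] at this
    refine le_trans (le_of_eq ?_) this
    refine Finset.sum_congr rfl fun k _ => ?_
    change ak P D s δ k x0 / Sk P D s δ x0 * _ = s * (ak P D s δ k x0 / Sk P D s δ x0 * _)
    ring
  have hterm : ∀ k ∈ act P x0, pk P D s δ k x0 *
      lv (moll (D k).f δ) (TT A i k z0) (fderiv ℂ (TT A i k) z0 v)
      - pk P D s δ k x0 * lv (γ.w i) z0 v - 3 * s * C k * om K i z0 v
      ≤ pk P D s δ k x0 * (s * lv (fun z => Real.log (ak P D s δ k ((A.e i).symm z))) z0 v) := by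
    intro k hk
    have hχ := (mem_act P).1 hk
    have hxt : x0 ∈ tsupport (P.χ k) := subset_tsupport _ hχ
    have hzo : z0 ∈ A.ov i k := ⟨hz0, P.χ_sub k hxt⟩
    rw [lv_log_ak P D hs hz0 hχ v]
    have hsy : (A.e k).symm (TT A i k z0) = x0 := TT_symm hzo
    have hyX : TT A i k z0 ∈ A.e k '' tsupport (P.χ k) := ⟨x0, hxt, rfl⟩
    have h1 := hC k _ hyX (by rwa [hsy]) (fderiv ℂ (TT A i k) z0 v)
    rw [hsy, ← om_tr K hzo v] at h1
    set Λ := lv (fun y => Real.log (P.χ k ((A.e k).symm y) ^ 2)) (TT A i k z0)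
      (fderiv ℂ (TT A i k) z0 v) with hΛ
    set E := Real.exp (reg (D k) δ (A.e k x0) / s) with hE
    have hq : E ≤ 3 * Sk P D s δ x0 := q_le P D hs hcmp hxt
    have hpk : pk P D s δ k x0 = P.χ k x0 ^ 2 * (E / Sk P D s δ x0) := by
      unfold pk ak
      ring
    have hq0 : 0 ≤ E / Sk P D s δ x0 := div_nonneg (Real.exp_pos _).le hS0.le
    have hq1 : E / Sk P D s δ x0 ≤ 3 := by rwa [div_le_iff₀ hS0]
    have hom : 0 ≤ om K i z0 v := om_nonneg K hz0 v
    have h2 : -(3 * (C k * om K i z0 v)) ≤ pk P D s δ k x0 * Λ := by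
      have h3 := mul_le_mul_of_nonneg_left h1 hq0
      have h4 : E / Sk P D s δ x0 * (C k * om K i z0 v) ≤ 3 * (C k * om K i z0 v) :=
        mul_le_mul_of_nonneg_right hq1 (mul_nonneg (hC0 k) hom)
      rw [hpk]
      nlinarith
    have h5 : -(3 * s * C k * om K i z0 v) ≤ pk P D s δ k x0 * (s * Λ) := by
      have := mul_le_mul_of_nonneg_left h2 hs.le
      linarith
    linarith
  have hsum := Finset.sum_le_sum hterm
  rw [Finset.sum_sub_distrib, Finset.sum_sub_distrib, ← Finset.sum_mul, sum_pk, one_mul] at hsum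
  have hCs : ∑ k ∈ act P x0, 3 * s * C k * om K i z0 v ≤ 3 * s * (∑ k, C k) * om K i z0 v := by
    have h6 : ∑ k ∈ act P x0, 3 * s * C k * om K i z0 v
        = 3 * s * (∑ k ∈ act P x0, C k) * om K i z0 v := by
      rw [Finset.mul_sum, Finset.sum_mul]
    rw [h6]
    have h7 : ∑ k ∈ act P x0, C k ≤ ∑ k, C k :=
      Finset.sum_le_sum_of_subset_of_nonneg (Finset.subset_univ _) fun k _ _ => hC0 k
    exact mul_le_mul_of_nonneg_right (mul_le_mul_of_nonneg_left h7 (by positivity))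
      (om_nonneg K hz0 v)
  rw [e0]
  linarith

end

end Crest.Agent.R269.GlueJ_390
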