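import Mathlib
import Crest.Agent.R269.Bez_19

/-!
# Row 269: the Hardy–Sobolev Banach algebra `HS s` (helper194)

`HS s` (`s : ℕ`, `[NeZero s]`) is the algebra of power series `F = ∑ a_k z^k` with
`∑ ((k+1)^s ‖a_k‖)^2 < ∞`.
-/

set_option autoImplicit false

open scoped ENNReal NNReal Topology
open Metric Set Filter

namespace Crest.Agent.R269.HS_194

/-- the weight `(k+1)^s` -/
def wt (s k : ℕ) : ℝ := ((k : ℝ) + 1) ^ s

theorem wt_pos (s k : ℕ) : 0 < wt s k := by unfold wt; positivity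

theorem one_le_wt (s k : ℕ) : 1 ≤ wt s k := one_le_pow₀ (by linarith [Nat.cast_nonneg (α := ℝ) k])

/-- sum of the inverse squares -/
theorem sum_inv_sq_le (n : ℕ) : ∑ i ∈ Finset.range n, 1 / ((i : ℝ) + 1) ^ 2 ≤ 2 := by
  have key : ∀ n : ℕ, ∑ i ∈ Finset.range (n + 1), 1 / ((i : ℝ) + 1) ^ 2 ≤ 2 - 1 / ((n : ℝ) + 1) := by
    intro n
    induction n with
    | zero => norm_num
    | succ n ih =>
      rw [Finset.sum_range_succ]
      have h1 : (0 : ℝ) < (n : ℝ) + 1 := by positivity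
      have : 1 / (((n + 1 : ℕ) : ℝ) + 1) ^ 2 ≤ 1 / ((n : ℝ) + 1) - 1 / (((n + 1 : ℕ) : ℝ) + 1) := by
        push_cast
        rw [div_sub_div _ _ h1.ne' (by positivity), div_le_div_iff₀ (by positivity) (by positivity)]
        nlinarith [h1]
      linarith
  cases n with
  | zero => simp
  | succ n =>
    have := key n
    have h2 : 0 ≤ 1 / ((n : ℝ) + 1) := by positivity
    linarith

/-- the kernel estimate -/
theorem sum_kernel_le (s k : ℕ) (hs : s ≠ 0) :
    ∑ p ∈ Finset.HasAntidiagonal.antidiagonal k, (wt s k / (wt s p.1 * wt s p.2)) ^ 2 ≤ (2 ^ (s + 1)) ^ 2 := by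
  obtain ⟨t, rfl⟩ := Nat.exists_eq_succ_of_ne_zero hs
  have hterm : ∀ p ∈ Finset.HasAntidiagonal.antidiagonal k,
      (wt (t + 1) k / (wt (t + 1) p.1 * wt (t + 1) p.2)) ^ 2 ≤
        2 ^ (2 * t + 1) * (1 / ((p.1 : ℝ) + 1) ^ 2 + 1 / ((p.2 : ℝ) + 1) ^ 2) := by
    intro p hp
    rw [Finset.HasAntidiagonal.mem_antidiagonal] at hp
    have hk : (k : ℝ) = p.1 + p.2 := by rw [← hp]; push_cast; ring
    have ha : (0 : ℝ) < (p.1 : ℝ) + 1 := by positivity
    have hb : (0 : ℝ) < (p.2 : ℝ) + 1 := by positivity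
    set a : ℝ := (p.1 : ℝ) + 1
    set b : ℝ := (p.2 : ℝ) + 1
    have ha1 : 1 ≤ a := by simp [a]
    have hb1 : 1 ≤ b := by simp [b]
    have hx : ((k : ℝ) + 1) / (a * b) ≤ 1 / a + 1 / b := by
      rw [div_add_div _ _ ha.ne' hb.ne', div_le_div_iff_of_pos_right (by positivity)]
      rw [hk]; simp only [a, b]; linarith
    have hx0 : 0 ≤ ((k : ℝ) + 1) / (a * b) := by positivity
    have e1 : (wt (t + 1) k / (wt (t + 1) p.1 * wt (t + 1) p.2)) =
        (((k : ℝ) + 1) / (a * b)) ^ (t + 1) := by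
      unfold wt; rw [div_pow, mul_pow]
    rw [e1, ← pow_mul]
    have hle2 : 1 / a + 1 / b ≤ 2 := by
      have h1 : 1 / a ≤ 1 := by rw [div_le_one ha]; exact ha1
      have h2 : 1 / b ≤ 1 := by rw [div_le_one hb]; exact hb1
      linarith
    have hab0 : 0 ≤ 1 / a + 1 / b := by positivity
    calc (((k : ℝ) + 1) / (a * b)) ^ ((t + 1) * 2) ≤ (1 / a + 1 / b) ^ ((t + 1) * 2) :=
          pow_le_pow_left₀ hx0 hx _
      _ = (1 / a + 1 / b) ^ (2 * t) * (1 / a + 1 / b) ^ 2 := by rw [← pow_add]; ring_nf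
      _ ≤ 2 ^ (2 * t) * (2 * (1 / a ^ 2 + 1 / b ^ 2)) := by
          apply mul_le_mul (pow_le_pow_left₀ hab0 hle2 _) _ (by positivity) (by positivity)
          have : 1 / a ^ 2 = (1 / a) ^ 2 := by rw [div_pow, one_pow]
          rw [this]
          have : 1 / b ^ 2 = (1 / b) ^ 2 := by rw [div_pow, one_pow]
          rw [this]
          nlinarith [sq_nonneg (1 / a - 1 / b)]
      _ = 2 ^ (2 * t + 1) * (1 / a ^ 2 + 1 / b ^ 2) := by ring
  refine (Finset.sum_le_sum hterm).trans ?_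
  rw [← Finset.mul_sum, Finset.sum_add_distrib]
  have h1 : ∑ p ∈ Finset.HasAntidiagonal.antidiagonal k, 1 / ((p.1 : ℝ) + 1) ^ 2 ≤ 2 := by
    rw [Finset.Nat.sum_antidiagonal_eq_sum_range_succ_mk]
    exact sum_inv_sq_le _
  have h2 : ∑ p ∈ Finset.HasAntidiagonal.antidiagonal k, 1 / ((p.2 : ℝ) + 1) ^ 2 ≤ 2 := by
    rw [← Finset.Nat.sum_antidiagonal_swap]
    exact h1
  calc (2 : ℝ) ^ (2 * t + 1) * _ ≤ 2 ^ (2 * t + 1) * (2 + 2) :=
        mul_le_mul_of_nonneg_left (add_le_add h1 h2) (by positivity)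
    _ ≤ (2 ^ (t + 1 + 1)) ^ 2 := by
        rw [← pow_mul]
        have : (2 : ℝ) ^ ((t + 1 + 1) * 2) = 2 ^ (2 * t + 1) * 8 := by
          rw [show (t + 1 + 1) * 2 = (2 * t + 1) + 3 by ring, pow_add]; norm_num
        rw [this]
        nlinarith [show (0 : ℝ) < 2 ^ (2 * t + 1) by positivity]

/-- Cauchy–Schwarz for one coefficient of the product. -/
theorem conv_coeff_sq_le (s k : ℕ) (hs : s ≠ 0) (a b : ℕ → ℂ) :
    (wt s k * ‖∑ p ∈ Finset.HasAntidiagonal.antidiagonal k, a p.1 * b p.2‖) ^ 2 ≤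
      (2 ^ (s + 1)) ^ 2 * ∑ p ∈ Finset.HasAntidiagonal.antidiagonal k, (wt s p.1 * ‖a p.1‖) ^ 2 * (wt s p.2 * ‖b p.2‖) ^ 2 := by
  have h1 : wt s k * ‖∑ p ∈ Finset.HasAntidiagonal.antidiagonal k, a p.1 * b p.2‖ ≤
      ∑ p ∈ Finset.HasAntidiagonal.antidiagonal k, (wt s k / (wt s p.1 * wt s p.2)) *
        ((wt s p.1 * ‖a p.1‖) * (wt s p.2 * ‖b p.2‖)) := by
    calc wt s k * ‖∑ p ∈ Finset.HasAntidiagonal.antidiagonal k, a p.1 * b p.2‖
        ≤ wt s k * ∑ p ∈ Finset.HasAntidiagonal.antidiagonal k, ‖a p.1‖ * ‖b p.2‖ := by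
          apply mul_le_mul_of_nonneg_left _ (wt_pos _ _).le
          refine (norm_sum_le _ _).trans (le_of_eq ?_)
          simp only [norm_mul]
      _ = _ := by
          rw [Finset.mul_sum]
          refine Finset.sum_congr rfl fun p _ => ?_
          have := (wt_pos s p.1).ne'
          have := (wt_pos s p.2).ne'
          field_simp
  have h0 : 0 ≤ wt s k * ‖∑ p ∈ Finset.HasAntidiagonal.antidiagonal k, a p.1 * b p.2‖ :=
    mul_nonneg (wt_pos _ _).le (norm_nonneg _)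
  refine (pow_le_pow_left₀ h0 h1 2).trans ?_
  refine (Finset.sum_mul_sq_le_sq_mul_sq _ _ _).trans ?_
  simp only [mul_pow]
  refine mul_le_mul_of_nonneg_right (sum_kernel_le s k hs) ?_
  exact Finset.sum_nonneg fun p _ => by positivity

/-- weighted square summability -/
def Sq (s : ℕ) (a : ℕ → ℂ) : Prop := Summable fun k => (wt s k * ‖a k‖) ^ 2

theorem conv_summable {s : ℕ} (hs : s ≠ 0) {a b : ℕ → ℂ} (ha : Sq s a) (hb : Sq s b) :
    Sq s (fun k => ∑ p ∈ Finset.HasAntidiagonal.antidiagonal k, a p.1 * b p.2) ∧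
    ∑' k, (wt s k * ‖∑ p ∈ Finset.HasAntidiagonal.antidiagonal k, a p.1 * b p.2‖) ^ 2 ≤
      (2 ^ (s + 1)) ^ 2 * ((∑' k, (wt s k * ‖a k‖) ^ 2) * ∑' k, (wt s k * ‖b k‖) ^ 2) := by
  have hA : Summable fun k => ‖(wt s k * ‖a k‖) ^ 2‖ := ha.norm
  have hB : Summable fun k => ‖(wt s k * ‖b k‖) ^ 2‖ := hb.norm
  have hAB := (summable_norm_sum_mul_antidiagonal_of_summable_norm hA hB).of_norm
  have hT := tsum_mul_tsum_eq_tsum_sum_antidiagonal_of_summable_norm hA hB
  have hle := fun k => conv_coeff_sq_le s k hs a b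
  have hS : Sq s (fun k => ∑ p ∈ Finset.HasAntidiagonal.antidiagonal k, a p.1 * b p.2) :=
    Summable.of_nonneg_of_le (fun k => sq_nonneg _) hle (hAB.mul_left _)
  refine ⟨hS, ?_⟩
  rw [hT, ← tsum_mul_left]
  exact Summable.tsum_le_tsum hle hS (hAB.mul_left _)

theorem Sq.add {s : ℕ} {a b : ℕ → ℂ} (ha : Sq s a) (hb : Sq s b) : Sq s (a + b) := by
  refine Summable.of_nonneg_of_le (fun k => sq_nonneg _) (fun k => ?_)
    ((Summable.mul_left 2 ha).add (Summable.mul_left 2 hb))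
  have h1 : wt s k * ‖(a + b) k‖ ≤ wt s k * ‖a k‖ + wt s k * ‖b k‖ := by
    rw [← mul_add]
    exact mul_le_mul_of_nonneg_left (norm_add_le _ _) (wt_pos _ _).le
  have h0 : 0 ≤ wt s k * ‖(a + b) k‖ := mul_nonneg (wt_pos _ _).le (norm_nonneg _)
  refine (pow_le_pow_left₀ h0 h1 2).trans ?_
  nlinarith [sq_nonneg (wt s k * ‖a k‖ - wt s k * ‖b k‖)]

theorem Sq.smul {s : ℕ} {a : ℕ → ℂ} (c : ℂ) (ha : Sq s a) : Sq s (c • a) := by
  have : (fun k => (wt s k * ‖(c • a) k‖) ^ 2) = fun k => ‖c‖ ^ 2 * (wt s k * ‖a k‖) ^ 2 := by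
    funext k; simp only [Pi.smul_apply, smul_eq_mul, norm_mul]; ring
  unfold Sq; rw [this]; exact Summable.mul_left _ ha

theorem Sq.zero (s : ℕ) : Sq s (0 : ℕ → ℂ) := by
  unfold Sq; simpa using summable_zero

theorem Sq.of_finite {s : ℕ} {a : ℕ → ℂ} (h : a.support.Finite) : Sq s a := by
  refine summable_of_finite_support (h.subset ?_)
  intro k hk hk'
  apply hk
  simp [hk']

/-- The subalgebra of `ℂ⟦X⟧` underlying `HS s`. -/
def hsSub (s : ℕ) [NeZero s] : Subalgebra ℂ (PowerSeries ℂ) where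
  carrier := {p | Sq s fun k => PowerSeries.coeff k p}
  mul_mem' := by
    intro p q hp hq
    have := (conv_summable (NeZero.ne s) hp hq).1
    simpa only [Set.mem_ofPred_eq, PowerSeries.coeff_mul] using this
  add_mem' := by
    intro p q hp hq
    simp only [Set.mem_ofPred_eq, map_add]
    exact Sq.add hp hq
  algebraMap_mem' := by
    intro c
    refine Sq.of_finite (Set.Finite.subset (Set.finite_singleton 0) ?_)
    intro k hk
    by_contra hk0
    apply hk
    have hk0' : k ≠ 0 := hk0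
    simp [PowerSeries.algebraMap_apply, PowerSeries.coeff_C, hk0']

/-- The Hardy–Sobolev algebra. -/
def HS (s : ℕ) [NeZero s] : Type := ↥(hsSub s)

variable {s : ℕ} [NeZero s]

noncomputable instance : CommRing (HS s) := inferInstanceAs (CommRing ↥(hsSub s))
noncomputable instance : Algebra ℂ (HS s) := inferInstanceAs (Algebra ℂ ↥(hsSub s))

namespace HS

/-- the Taylor coefficients -/
noncomputable def coeff (F : HS s) (k : ℕ) : ℂ := PowerSeries.coeff k (F.1 : PowerSeries ℂ)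

theorem sq (F : HS s) : Sq s F.coeff := F.2

/-- constructor from a sequence -/
def mk (a : ℕ → ℂ) (h : Sq s a) : HS s := ⟨PowerSeries.mk a, by
  show Sq s _
  simpa only [PowerSeries.coeff_mk] using h⟩

@[simp] theorem coeff_mk (a : ℕ → ℂ) (h : Sq s a) (k : ℕ) : (mk a h).coeff k = a k :=
  PowerSeries.coeff_mk _ _

@[ext] theorem ext {F G : HS s} (h : ∀ k, F.coeff k = G.coeff k) : F = G :=
  Subtype.ext (PowerSeries.ext h)

@[simp] theorem coeff_add (F G : HS s) (k : ℕ) : (F + G).coeff k = F.coeff k + G.coeff k :=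
  map_add (PowerSeries.coeff k) F.1 G.1

@[simp] theorem coeff_neg (F : HS s) (k : ℕ) : (-F).coeff k = -F.coeff k :=
  map_neg (PowerSeries.coeff k) F.1

@[simp] theorem coeff_sub (F G : HS s) (k : ℕ) : (F - G).coeff k = F.coeff k - G.coeff k :=
  map_sub (PowerSeries.coeff k) F.1 G.1

@[simp] theorem coeff_zero (k : ℕ) : (0 : HS s).coeff k = 0 :=
  map_zero (PowerSeries.coeff k)

@[simp] theorem coeff_smul (c : ℂ) (F : HS s) (k : ℕ) : (c • F).coeff k = c * F.coeff k := by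
  show PowerSeries.coeff k (c • F.1) = _
  simp [coeff]

theorem coeff_mul (F G : HS s) (k : ℕ) :
    (F * G).coeff k = ∑ p ∈ Finset.HasAntidiagonal.antidiagonal k, F.coeff p.1 * G.coeff p.2 :=
  PowerSeries.coeff_mul _ _ _

theorem coeff_one (k : ℕ) : (1 : HS s).coeff k = if k = 0 then 1 else 0 :=
  PowerSeries.coeff_one _

theorem coeff_algebraMap (c : ℂ) (k : ℕ) :
    (algebraMap ℂ (HS s) c).coeff k = if k = 0 then c else 0 := by
  rw [Algebra.algebraMap_eq_smul_one, coeff_smul, coeff_one]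
  split_ifs <;> simp

/-! ### norm -/

/-- the constant -/
noncomputable def cst (s : ℕ) : ℝ := 2 ^ (s + 1)

theorem cst_pos (s : ℕ) : 0 < cst s := by unfold cst; positivity

/-- map to `ℓ²` -/
noncomputable def toLpFun (F : HS s) : lp (fun _ : ℕ => ℂ) 2 :=
  ⟨fun k => ((cst s * wt s k : ℝ) : ℂ) * F.coeff k, by
    refine (memℓp_gen_iff (by norm_num)).2 ?_
    have : (fun k => ‖((cst s * wt s k : ℝ) : ℂ) * F.coeff k‖ ^ (2 : ℝ≥0∞).toReal) =
        fun k => cst s ^ 2 * (wt s k * ‖F.coeff k‖) ^ 2 := by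
      funext k
      simp only [norm_mul, Complex.norm_real, Real.norm_eq_abs, abs_mul, abs_of_pos (cst_pos s),
        abs_of_pos (wt_pos s k), ENNReal.toReal_ofNat, Real.rpow_ofNat]
      ring
    rw [this]
    exact Summable.mul_left _ F.sq⟩

/-- inverse map -/
noncomputable def ofLpFun (x : lp (fun _ : ℕ => ℂ) 2) : HS s :=
  mk (fun k => ((cst s * wt s k : ℝ) : ℂ)⁻¹ * x k) (by
    have h := (memℓp_gen_iff (p := 2) (by norm_num)).1 (lp.memℓp x)
    have : (fun k => (wt s k * ‖((cst s * wt s k : ℝ) : ℂ)⁻¹ * x k‖) ^ 2) =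
        fun k => (cst s)⁻¹ ^ 2 * ‖x k‖ ^ (2 : ℝ≥0∞).toReal := by
      funext k
      have h1 := (cst_pos s).ne'
      have h2 := (wt_pos s k).ne'
      simp only [norm_mul, norm_inv, Complex.norm_real, Real.norm_eq_abs, abs_mul, abs_of_pos (cst_pos s),
        abs_of_pos (wt_pos s k), ENNReal.toReal_ofNat, Real.rpow_ofNat]
      field_simp
    unfold Sq
    rw [this]
    exact Summable.mul_left _ h)

/-- linear equivalence with `ℓ²` -/
noncomputable def toLpEquiv : HS s ≃ₗ[ℂ] lp (fun _ : ℕ => ℂ) 2 where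
  toFun := toLpFun
  invFun := ofLpFun
  map_add' := by
    intro F G
    ext k
    simp only [toLpFun, coeff_add, lp.coeFn_add, Pi.add_apply]
    ring
  map_smul' := by
    intro c F
    ext k
    simp only [toLpFun, coeff_smul, RingHom.id_apply, lp.coeFn_smul, Pi.smul_apply, smul_eq_mul]
    ring
  left_inv := by
    intro F
    ext k
    have h1 := (cst_pos s).ne'
    have h2 := (wt_pos s k).ne'
    simp only [ofLpFun, toLpFun, coeff_mk]
    rw [← mul_assoc, inv_mul_cancel₀, one_mul]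
    exact_mod_cast mul_ne_zero h1 h2
  right_inv := by
    intro x
    ext k
    have h1 := (cst_pos s).ne'
    have h2 := (wt_pos s k).ne'
    simp only [ofLpFun, toLpFun, coeff_mk]
    rw [← mul_assoc, mul_inv_cancel₀, one_mul]
    exact_mod_cast mul_ne_zero h1 h2

noncomputable instance instNACG : NormedAddCommGroup (HS s) :=
  NormedAddCommGroup.induced (HS s) (lp (fun _ : ℕ => ℂ) 2) toLpEquiv.toLinearMap
    toLpEquiv.injective

theorem norm_def' (F : HS s) : ‖F‖ = ‖toLpEquiv F‖ := rfl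

theorem norm_sq_eq (F : HS s) : ‖F‖ ^ 2 = cst s ^ 2 * ∑' k, (wt s k * ‖F.coeff k‖) ^ 2 := by
  rw [norm_def']
  have h := lp.norm_rpow_eq_tsum (p := 2) (by norm_num) (toLpEquiv F)
  simp only [ENNReal.toReal_ofNat, Real.rpow_ofNat] at h
  rw [h, ← tsum_mul_left]
  refine tsum_congr fun k => ?_
  have : (toLpEquiv F : lp (fun _ : ℕ => ℂ) 2) k = ((cst s * wt s k : ℝ) : ℂ) * F.coeff k := rfl
  rw [this]
  simp only [norm_mul, Complex.norm_real, Real.norm_eq_abs, abs_mul, abs_of_pos (cst_pos s),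
        abs_of_pos (wt_pos s k)]
  ring

theorem norm_eq (F : HS s) : ‖F‖ = cst s * Real.sqrt (∑' k, (wt s k * ‖F.coeff k‖) ^ 2) := by
  have h := norm_sq_eq F
  have h0 : 0 ≤ ∑' k, (wt s k * ‖F.coeff k‖) ^ 2 := tsum_nonneg fun k => sq_nonneg _
  have : ‖F‖ ^ 2 = (cst s * Real.sqrt (∑' k, (wt s k * ‖F.coeff k‖) ^ 2)) ^ 2 := by
    rw [h, mul_pow, Real.sq_sqrt h0]
  exact (pow_left_inj₀ (norm_nonneg _) (mul_nonneg (cst_pos s).le (Real.sqrt_nonneg _))
    (by norm_num)).1 this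

noncomputable instance : NormedCommRing (HS s) :=
  { (inferInstance : CommRing (HS s)), (instNACG : NormedAddCommGroup (HS s)) with
    norm_mul_le := by
      intro F G
      have h := (conv_summable (NeZero.ne s) F.sq G.sq).2
      have e : ‖F * G‖ ^ 2 ≤ (‖F‖ * ‖G‖) ^ 2 := by
        rw [mul_pow, norm_sq_eq, norm_sq_eq, norm_sq_eq]
        have hc : 0 ≤ cst s ^ 2 := by positivity
        have h' : ∑' k, (wt s k * ‖(F * G).coeff k‖) ^ 2 ≤
            cst s ^ 2 * ((∑' k, (wt s k * ‖F.coeff k‖) ^ 2) * ∑' k, (wt s k * ‖G.coeff k‖) ^ 2) := by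
          simpa only [coeff_mul, cst] using h
        calc cst s ^ 2 * ∑' k, (wt s k * ‖(F * G).coeff k‖) ^ 2 ≤ cst s ^ 2 * _ :=
              mul_le_mul_of_nonneg_left h' hc
          _ = _ := by ring
      exact (pow_le_pow_iff_left₀ (norm_nonneg _) (by positivity) (by norm_num)).1 e }

noncomputable instance : NormedAlgebra ℂ (HS s) :=
  { (inferInstance : Algebra ℂ (HS s)) with
    norm_smul_le := by
      intro c F
      rw [norm_def', map_smul, norm_smul, ← norm_def'] }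

/-- `HS s` is isometric to `ℓ²`. -/
noncomputable def toLp : HS s ≃ₗᵢ[ℂ] lp (fun _ : ℕ => ℂ) 2 :=
  { toLpEquiv with norm_map' := fun _ => rfl }

instance : CompleteSpace (HS s) := by
  have e : HS s ≃ᵢ lp (fun _ : ℕ => ℂ) 2 := (toLp (s := s)).toIsometryEquiv
  exact e.completeSpace_iff.2 inferInstance

/-! ### evaluation on the closed disc -/

theorem sum_inv_wt_sq_le (s : ℕ) (hs : s ≠ 0) (t : Finset ℕ) : ∑ k ∈ t, (1 / wt s k) ^ 2 ≤ 2 := by
  obtain ⟨n, hn⟩ : ∃ n, t ⊆ Finset.range n := ⟨t.sup id + 1, fun k hk =>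
    Finset.mem_range.2 (Nat.lt_succ_of_le (Finset.le_sup (f := id) hk))⟩
  calc ∑ k ∈ t, (1 / wt s k) ^ 2 ≤ ∑ k ∈ Finset.range n, (1 / wt s k) ^ 2 :=
        Finset.sum_le_sum_of_subset_of_nonneg hn fun _ _ _ => sq_nonneg _
    _ ≤ ∑ k ∈ Finset.range n, 1 / ((k : ℝ) + 1) ^ 2 := by
        refine Finset.sum_le_sum fun k _ => ?_
        rw [div_pow, one_pow]
        refine one_div_le_one_div_of_le (by positivity) ?_
        refine pow_le_pow_left₀ (by positivity) ?_ 2
        unfold wt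
        exact le_self_pow₀ (by linarith [Nat.cast_nonneg (α := ℝ) k]) hs
    _ ≤ 2 := sum_inv_sq_le n

theorem tsum_sq_nonneg (F : HS s) : 0 ≤ ∑' k, (wt s k * ‖F.coeff k‖) ^ 2 :=
  tsum_nonneg fun _ => sq_nonneg _

theorem sum_norm_coeff_le (F : HS s) (t : Finset ℕ) : ∑ k ∈ t, ‖F.coeff k‖ ≤ ‖F‖ / 2 := by
  have h1 : ∑ k ∈ t, ‖F.coeff k‖ = ∑ k ∈ t, (1 / wt s k) * (wt s k * ‖F.coeff k‖) := by
    refine Finset.sum_congr rfl fun k _ => ?_
    have := (wt_pos s k).ne'
    field_simp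
  have h2 : (∑ k ∈ t, ‖F.coeff k‖) ^ 2 ≤ (‖F‖ / 2) ^ 2 := by
    rw [h1]
    refine (Finset.sum_mul_sq_le_sq_mul_sq _ _ _).trans ?_
    have h3 := sum_inv_wt_sq_le s (NeZero.ne s) t
    have h4 : ∑ k ∈ t, (wt s k * ‖F.coeff k‖) ^ 2 ≤ ∑' k, (wt s k * ‖F.coeff k‖) ^ 2 :=
      Summable.sum_le_tsum t (fun k _ => sq_nonneg _) F.sq
    have h5 : (‖F‖ / 2) ^ 2 = (cst s ^ 2 / 4) * ∑' k, (wt s k * ‖F.coeff k‖) ^ 2 := by
      rw [div_pow, norm_sq_eq]; ring
    rw [h5]
    have h6 : (2 : ℝ) ≤ cst s ^ 2 / 4 := by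
      unfold cst
      have : (2 : ℝ) ^ 2 ≤ 2 ^ (s + 1) :=
        pow_le_pow_right₀ (by norm_num) (by have := Nat.pos_of_ne_zero (NeZero.ne s); omega)
      nlinarith
    exact mul_le_mul (h3.trans h6) h4 (Finset.sum_nonneg fun _ _ => sq_nonneg _) (by positivity)
  exact (pow_le_pow_iff_left₀ (Finset.sum_nonneg fun _ _ => norm_nonneg _)
    (by positivity) (by norm_num)).1 h2

theorem summable_norm_coeff (F : HS s) : Summable fun k => ‖F.coeff k‖ :=
  summable_of_sum_le (fun _ => norm_nonneg _) F.sum_norm_coeff_le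

theorem tsum_norm_coeff_le (F : HS s) : ∑' k, ‖F.coeff k‖ ≤ ‖F‖ / 2 :=
  Real.tsum_le_of_sum_le (fun _ => norm_nonneg _) F.sum_norm_coeff_le

theorem norm_coeff_le (F : HS s) (k : ℕ) : cst s * (wt s k * ‖F.coeff k‖) ≤ ‖F‖ := by
  have h1 : (wt s k * ‖F.coeff k‖) ^ 2 ≤ ∑' k, (wt s k * ‖F.coeff k‖) ^ 2 :=
    F.sq.le_tsum k fun _ _ => sq_nonneg _
  have h2 : (cst s * (wt s k * ‖F.coeff k‖)) ^ 2 ≤ ‖F‖ ^ 2 := by
    rw [norm_sq_eq, mul_pow]
    exact mul_le_mul_of_nonneg_left h1 (sq_nonneg _)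
  exact (pow_le_pow_iff_left₀ (mul_nonneg (cst_pos s).le (mul_nonneg (wt_pos _ _).le (norm_nonneg _)))
    (norm_nonneg _) (by norm_num)).1 h2

/-- the value of `F` at `z` (`‖z‖ ≤ 1`). -/
noncomputable def ev (F : HS s) (z : ℂ) : ℂ := ∑' k, F.coeff k * z ^ k

theorem norm_term_le (F : HS s) {z : ℂ} (hz : ‖z‖ ≤ 1) (k : ℕ) :
    ‖F.coeff k * z ^ k‖ ≤ ‖F.coeff k‖ := by
  rw [norm_mul, norm_pow]
  exact mul_le_of_le_one_right (norm_nonneg _) (pow_le_one₀ (norm_nonneg _) hz)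

theorem summable_norm_term (F : HS s) {z : ℂ} (hz : ‖z‖ ≤ 1) :
    Summable fun k => ‖F.coeff k * z ^ k‖ :=
  Summable.of_nonneg_of_le (fun _ => norm_nonneg _) (F.norm_term_le hz) F.summable_norm_coeff

theorem summable_term (F : HS s) {z : ℂ} (hz : ‖z‖ ≤ 1) :
    Summable fun k => F.coeff k * z ^ k := (F.summable_norm_term hz).of_norm

theorem hasSum_ev (F : HS s) {z : ℂ} (hz : ‖z‖ ≤ 1) :
    HasSum (fun k => F.coeff k * z ^ k) (F.ev z) := (F.summable_term hz).hasSum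

theorem norm_ev_le_tsum (F : HS s) {z : ℂ} (hz : ‖z‖ ≤ 1) : ‖F.ev z‖ ≤ ∑' k, ‖F.coeff k‖ :=
  (norm_tsum_le_tsum_norm (F.summable_norm_term hz)).trans
    (Summable.tsum_le_tsum (F.norm_term_le hz) (F.summable_norm_term hz) F.summable_norm_coeff)

theorem norm_ev_le (F : HS s) {z : ℂ} (hz : ‖z‖ ≤ 1) : ‖F.ev z‖ ≤ ‖F‖ :=
  (F.norm_ev_le_tsum hz).trans (F.tsum_norm_coeff_le.trans (by linarith [norm_nonneg F]))

theorem ev_add (F G : HS s) {z : ℂ} (hz : ‖z‖ ≤ 1) : (F + G).ev z = F.ev z + G.ev z := by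
  unfold ev
  rw [← (F.summable_term hz).tsum_add (G.summable_term hz)]
  exact tsum_congr fun k => by rw [coeff_add]; ring

theorem ev_smul (c : ℂ) (F : HS s) (z : ℂ) : (c • F).ev z = c * F.ev z := by
  unfold ev
  rw [← tsum_mul_left]
  exact tsum_congr fun k => by rw [coeff_smul]; ring

theorem ev_mul (F G : HS s) {z : ℂ} (hz : ‖z‖ ≤ 1) : (F * G).ev z = F.ev z * G.ev z := by
  unfold ev
  rw [tsum_mul_tsum_eq_tsum_sum_antidiagonal_of_summable_norm (F.summable_norm_term hz)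
    (G.summable_norm_term hz)]
  refine tsum_congr fun k => ?_
  rw [coeff_mul, Finset.sum_mul]
  refine Finset.sum_congr rfl fun p hp => ?_
  rw [Finset.HasAntidiagonal.mem_antidiagonal] at hp
  rw [← hp, pow_add]; ring

theorem ev_one (z : ℂ) : (1 : HS s).ev z = 1 := by
  unfold ev
  rw [tsum_eq_single 0]
  · simp [coeff_one]
  · intro k hk; simp [coeff_one, hk]

theorem ev_zero' (z : ℂ) : (0 : HS s).ev z = 0 := by
  unfold ev; simp

theorem ev_algebraMap (c : ℂ) (z : ℂ) : (algebraMap ℂ (HS s) c).ev z = c := by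
  rw [Algebra.algebraMap_eq_smul_one, ev_smul, ev_one, mul_one]

/-- evaluation at a point of the closed disc, as an algebra homomorphism -/
noncomputable def evHom (s : ℕ) [NeZero s] (z : ℂ) (hz : ‖z‖ ≤ 1) : HS s →ₐ[ℂ] ℂ where
  toFun := fun F => F.ev z
  map_one' := ev_one z
  map_mul' := fun F G => ev_mul F G hz
  map_zero' := ev_zero' z
  map_add' := fun F G => ev_add F G hz
  commutes' := fun c => by
    show (algebraMap ℂ (HS s) c).ev z = _
    rw [ev_algebraMap]; rfl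

@[simp] theorem evHom_apply (z : ℂ) (hz : ‖z‖ ≤ 1) (F : HS s) : evHom s z hz F = F.ev z := rfl

/-- evaluation at a point of the closed disc, as a continuous linear map -/
noncomputable def evL (s : ℕ) [NeZero s] (z : ℂ) (hz : ‖z‖ ≤ 1) : HS s →L[ℂ] ℂ :=
  (evHom s z hz).toLinearMap.mkContinuous 1 (fun F => by
    rw [one_mul]; exact F.norm_ev_le hz)

@[simp] theorem evL_apply (z : ℂ) (hz : ‖z‖ ≤ 1) (F : HS s) : evL s z hz F = F.ev z := rfl

theorem ev_neg (F : HS s) {z : ℂ} (hz : ‖z‖ ≤ 1) : (-F).ev z = -F.ev z := map_neg (evHom s z hz) F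
theorem ev_sub (F G : HS s) {z : ℂ} (hz : ‖z‖ ≤ 1) : (F - G).ev z = F.ev z - G.ev z :=
  map_sub (evHom s z hz) F G
theorem ev_pow (F : HS s) (n : ℕ) {z : ℂ} (hz : ‖z‖ ≤ 1) : (F ^ n).ev z = F.ev z ^ n :=
  map_pow (evHom s z hz) F n
theorem ev_sum {ι : Type*} (t : Finset ι) (F : ι → HS s) {z : ℂ} (hz : ‖z‖ ≤ 1) :
    (∑ i ∈ t, F i).ev z = ∑ i ∈ t, (F i).ev z := map_sum (evHom s z hz) F t
theorem ev_prod {ι : Type*} (t : Finset ι) (F : ι → HS s) {z : ℂ} (hz : ‖z‖ ≤ 1) :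
    (∏ i ∈ t, F i).ev z = ∏ i ∈ t, (F i).ev z := map_prod (evHom s z hz) F t
theorem ev_aeval_mv {ι : Type*} (p : MvPolynomial ι ℂ) (F : ι → HS s) {z : ℂ} (hz : ‖z‖ ≤ 1) :
    (MvPolynomial.aeval F p).ev z = MvPolynomial.eval (fun i => (F i).ev z) p := by
  rw [← evHom_apply z hz, MvPolynomial.comp_aeval_apply]
  simp only [evHom_apply, MvPolynomial.aeval_eq_eval]

theorem continuous_ev (z : ℂ) (hz : ‖z‖ ≤ 1) : Continuous fun F : HS s => F.ev z :=
  (evL s z hz).continuous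

theorem continuousOn_ev (F : HS s) : ContinuousOn F.ev (closedBall 0 1) :=
  continuousOn_tsum (fun k => by fun_prop) F.summable_norm_coeff
    (fun k z hz => F.norm_term_le (by simpa using hz) k)

theorem differentiableOn_ev (F : HS s) : DifferentiableOn ℂ F.ev (ball 0 1) := by
  refine Complex.differentiableOn_tsum_of_summable_norm F.summable_norm_coeff
    (fun k => by fun_prop) isOpen_ball (fun k z hz => F.norm_term_le (le_of_lt (by simpa using hz)) k)

theorem diffContOnCl_ev (F : HS s) : DiffContOnCl ℂ F.ev (ball 0 1) :=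
  ⟨F.differentiableOn_ev, by
    rw [closure_ball (0 : ℂ) one_ne_zero]; exact F.continuousOn_ev⟩

theorem ev_at_zero (F : HS s) : F.ev 0 = F.coeff 0 := by
  unfold ev
  rw [tsum_eq_single 0]
  · simp
  · intro k hk; simp [hk]

theorem hasFPowerSeriesOnBall_ev (F : HS s) :
    HasFPowerSeriesOnBall F.ev (FormalMultilinearSeries.ofScalars ℂ F.coeff) 0 1 := by
  refine ⟨?_, one_pos, ?_⟩
  · refine FormalMultilinearSeries.le_radius_of_summable_norm _ ?_
    simp only [FormalMultilinearSeries.ofScalars_norm, NNReal.coe_one, one_pow, mul_one]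
    exact F.summable_norm_coeff
  · intro y hy
    have hy' : ‖y‖ ≤ 1 := by
      have h1 : y ∈ ball (0 : ℂ) 1 := by
        have := hy
        rw [← ENNReal.ofReal_one, Metric.eball_ofReal] at this
        exact this
      exact le_of_lt (by simpa using h1)
    rw [zero_add]
    simpa [FormalMultilinearSeries.ofScalars_apply_eq, smul_eq_mul, mul_comm] using F.hasSum_ev hy'

theorem analyticOnNhd_ev (F : HS s) : AnalyticOnNhd ℂ F.ev (ball 0 1) :=
  F.differentiableOn_ev.analyticOnNhd isOpen_ball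

/-- an element is determined by its values near `0` -/
theorem eq_of_ev_eventuallyEq {F G : HS s} (h : F.ev =ᶠ[𝓝 0] G.ev) : F = G := by
  have h1 := F.hasFPowerSeriesOnBall_ev.hasFPowerSeriesAt
  have h2 := G.hasFPowerSeriesOnBall_ev.hasFPowerSeriesAt
  have h3 := h1.eq_formalMultilinearSeries (h2.congr h.symm)
  ext k
  have h4 := congrArg (fun p : FormalMultilinearSeries ℂ ℂ ℂ => p.coeff k) h3
  simpa using h4

theorem eq_of_ev_eqOn_ball {F G : HS s} (h : ∀ z ∈ ball (0 : ℂ) 1, F.ev z = G.ev z) : F = G :=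
  eq_of_ev_eventuallyEq (Filter.eventuallyEq_of_mem (isOpen_ball.mem_nhds (mem_ball_self one_pos)) h)

theorem hasDerivAt_ev_zero (F : HS s) : HasDerivAt F.ev (F.coeff 1) 0 := by
  have := F.hasFPowerSeriesOnBall_ev.hasFPowerSeriesAt.hasDerivAt
  simpa using this

theorem deriv_ev_zero (F : HS s) : deriv F.ev 0 = F.coeff 1 := F.hasDerivAt_ev_zero.deriv


/-! ### the variable `X`, polynomials -/

/-- the coordinate function -/
noncomputable def X : HS s := mk (fun k => if k = 1 then 1 else 0) (by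
  refine Sq.of_finite (Set.Finite.subset (Set.finite_singleton 1) ?_)
  intro k hk
  by_contra hk0
  exact hk (if_neg hk0))

theorem coeff_X (k : ℕ) : (X : HS s).coeff k = if k = 1 then 1 else 0 := coeff_mk _ _ _

theorem ev_X (z : ℂ) : (X : HS s).ev z = z := by
  unfold ev
  rw [tsum_eq_single 1]
  · simp [coeff_X]
  · intro k hk; simp [coeff_X, hk]

theorem coeff_X_mul_zero (F : HS s) : (X * F).coeff 0 = 0 := by
  rw [coeff_mul]; simp [coeff_X]

theorem coeff_X_mul_succ (F : HS s) (k : ℕ) : (X * F).coeff (k + 1) = F.coeff k := by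
  rw [coeff_mul, Finset.sum_eq_single (1, k)]
  · simp [coeff_X]
  · rintro ⟨i, j⟩ hij hne
    rw [Finset.HasAntidiagonal.mem_antidiagonal] at hij
    simp only [coeff_X]
    split_ifs with h
    · exfalso; apply hne
      simp only at h hij
      subst h
      have : j = k := by omega
      rw [this]
    · simp
  · intro h
    exfalso; apply h
    rw [Finset.HasAntidiagonal.mem_antidiagonal]; ring

theorem coeff_X_pow (n k : ℕ) : ((X : HS s) ^ n).coeff k = if k = n then 1 else 0 := by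
  induction n generalizing k with
  | zero => rw [pow_zero, coeff_one]
  | succ n ih =>
    rw [pow_succ']
    cases k with
    | zero => rw [coeff_X_mul_zero]; simp
    | succ k => rw [coeff_X_mul_succ, ih]; simp

theorem norm_X_pow (n : ℕ) : ‖(X : HS s) ^ n‖ = cst s * wt s n := by
  rw [norm_eq]
  congr 1
  rw [tsum_eq_single n]
  · rw [coeff_X_pow]; simp [Real.sqrt_sq (wt_pos s n).le]
  · intro k hk; rw [coeff_X_pow]; simp [hk]

theorem coeff_aeval_X (p : Polynomial ℂ) (k : ℕ) :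
    (Polynomial.aeval (X : HS s) p).coeff k = p.coeff k := by
  induction p using Polynomial.induction_on' with
  | add p q hp hq => rw [map_add, coeff_add, hp, hq, Polynomial.coeff_add]
  | monomial n c =>
    rw [Polynomial.aeval_monomial, ← Algebra.smul_def, coeff_smul, coeff_X_pow,
      Polynomial.coeff_monomial]
    by_cases h : k = n
    · simp [h]
    · rw [if_neg h, if_neg (Ne.symm h), mul_zero]

theorem ev_aeval_X (p : Polynomial ℂ) {z : ℂ} (hz : ‖z‖ ≤ 1) :
    (Polynomial.aeval (X : HS s) p).ev z = p.eval z := by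
  rw [← evHom_apply z hz, ← Polynomial.aeval_algHom_apply, evHom_apply, ev_X,
    Polynomial.coe_aeval_eq_eval]

/-- the Taylor series converges in norm -/
theorem hasSum_X_pow (F : HS s) : HasSum (fun k => F.coeff k • (X : HS s) ^ k) F := by
  have h := lp.hasSum_single (p := 2) (by norm_num) (toLp F)
  have h2 := h.map (toLp (s := s)).symm.toLinearIsometry.toContinuousLinearMap
    (toLp (s := s)).symm.toLinearIsometry.toContinuousLinearMap.continuous
  have e1 : (toLp (s := s)).symm.toLinearIsometry.toContinuousLinearMap (toLp F) = F :=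
    (toLp (s := s)).symm_apply_apply F
  rw [e1] at h2
  convert h2 using 1
  funext k
  have hk : toLp (F.coeff k • (X : HS s) ^ k) = lp.single 2 k ((toLp F) k) := by
    ext j
    have h3 : (toLp (F.coeff k • (X : HS s) ^ k)) j =
      ((cst s * wt s j : ℝ) : ℂ) * (F.coeff k • (X : HS s) ^ k).coeff j := rfl
    have h4 : (toLp F) k = ((cst s * wt s k : ℝ) : ℂ) * F.coeff k := rfl
    rw [h3, h4, coeff_smul, coeff_X_pow, lp.single_apply]
    by_cases hjk : j = k
    · subst hjk; simp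
    · simp [hjk]
  show _ = (toLp (s := s)).symm (lp.single 2 k ((toLp F) k))
  rw [← hk, LinearIsometryEquiv.symm_apply_apply]

theorem dense_aeval_X : Dense (Set.range fun p : Polynomial ℂ => Polynomial.aeval (X : HS s) p) := by
  intro F
  refine mem_closure_of_tendsto (F.hasSum_X_pow.tendsto_sum_nat) (Filter.Eventually.of_forall ?_)
  intro n
  refine ⟨∑ k ∈ Finset.range n, Polynomial.monomial k (F.coeff k), ?_⟩
  simp only [map_sum, Polynomial.aeval_monomial, ← Algebra.smul_def]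

/-! ### Bezout and inverses -/

theorem norm_X_pow_le (k : ℕ) : ‖(X : HS s) ^ k‖ ≤ cst s * ((k : ℝ) + 1) ^ s := by
  rw [norm_X_pow]; rfl

/-- **Bezout in `HS s`** -/
theorem bezout {ι : Type*} [Fintype ι] (M : ι → HS s)
    (hM : ∀ z : ℂ, ‖z‖ ≤ 1 → ∃ j, (M j).ev z ≠ 0) : ∃ G : ι → HS s, ∑ j, G j * M j = 1 :=
  Bez_19.bezout_algebra' (X : HS s) norm_X_pow_le dense_aeval_X (fun z F => F.ev z)
    continuous_ev (fun _ hz p => ev_aeval_X p hz) M hM

theorem isUnit_of_ne_zero (F : HS s) (hF : ∀ z : ℂ, ‖z‖ ≤ 1 → F.ev z ≠ 0) : IsUnit F :=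
  Bez_19.isUnit_of_ne_zero (X : HS s) norm_X_pow_le dense_aeval_X (fun z F => F.ev z)
    continuous_ev (fun _ hz p => ev_aeval_X p hz) F hF

theorem isUnit_iff (F : HS s) : IsUnit F ↔ ∀ z : ℂ, ‖z‖ ≤ 1 → F.ev z ≠ 0 := by
  refine ⟨fun h z hz => ?_, isUnit_of_ne_zero F⟩
  have := h.map (evHom s z hz)
  exact this.ne_zero

theorem exists_inv (F : HS s) (hF : ∀ z : ℂ, ‖z‖ ≤ 1 → F.ev z ≠ 0) :
    ∃ G : HS s, F * G = 1 ∧ ∀ z : ℂ, ‖z‖ ≤ 1 → G.ev z = (F.ev z)⁻¹ := by
  obtain ⟨u, hu⟩ := isUnit_of_ne_zero F hF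
  refine ⟨↑u⁻¹, by rw [← hu]; exact u.mul_inv, fun z hz => ?_⟩
  have h : F.ev z * (↑u⁻¹ : HS s).ev z = 1 := by
    rw [← ev_mul _ _ hz, ← hu, u.mul_inv, ev_one]
  exact eq_inv_of_mul_eq_one_right h

/-! ### division by `X` -/

theorem sq_shift (F : HS s) : Sq s (fun k => F.coeff (k + 1)) := by
  have h := (summable_nat_add_iff 1).2 F.sq
  refine Summable.of_nonneg_of_le (fun _ => sq_nonneg _) (fun k => ?_) h
  refine pow_le_pow_left₀ (mul_nonneg (wt_pos _ _).le (norm_nonneg _)) ?_ 2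
  refine mul_le_mul_of_nonneg_right ?_ (norm_nonneg _)
  unfold wt
  exact pow_le_pow_left₀ (by positivity) (by push_cast; linarith) s

/-- `(F - F 0) / X` -/
noncomputable def divX (F : HS s) : HS s := mk (fun k => F.coeff (k + 1)) F.sq_shift

theorem coeff_divX (F : HS s) (k : ℕ) : F.divX.coeff k = F.coeff (k + 1) := coeff_mk _ _ _

theorem eq_X_mul_divX (F : HS s) : F = algebraMap ℂ (HS s) (F.coeff 0) + X * F.divX := by
  ext k
  cases k with
  | zero => rw [coeff_add, coeff_algebraMap, coeff_X_mul_zero]; simp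
  | succ k => rw [coeff_add, coeff_algebraMap, coeff_X_mul_succ, coeff_divX]; simp

theorem eq_X_mul_divX_of_ev_zero (F : HS s) (h : F.ev 0 = 0) : F = X * F.divX := by
  have := F.eq_X_mul_divX
  rw [← ev_at_zero, h, map_zero, zero_add] at this
  exact this

theorem norm_divX_le (F : HS s) : ‖F.divX‖ ≤ ‖F‖ := by
  have h : ‖F.divX‖ ^ 2 ≤ ‖F‖ ^ 2 := by
    rw [norm_sq_eq, norm_sq_eq]
    refine mul_le_mul_of_nonneg_left ?_ (sq_nonneg _)
    have h1 := (summable_nat_add_iff 1).2 F.sq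
    have h2 : ∑' k, (wt s k * ‖F.divX.coeff k‖) ^ 2 ≤ ∑' k, (wt s (k + 1) * ‖F.coeff (k + 1)‖) ^ 2 := by
      refine Summable.tsum_le_tsum (fun k => ?_) F.divX.sq h1
      rw [coeff_divX]
      refine pow_le_pow_left₀ (mul_nonneg (wt_pos _ _).le (norm_nonneg _)) ?_ 2
      refine mul_le_mul_of_nonneg_right ?_ (norm_nonneg _)
      unfold wt
      exact pow_le_pow_left₀ (by positivity) (by push_cast; linarith) s
    refine h2.trans ?_
    rw [F.sq.tsum_eq_zero_add]
    linarith [sq_nonneg (wt s 0 * ‖F.coeff 0‖)]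
  exact (pow_le_pow_iff_left₀ (norm_nonneg _) (norm_nonneg _) (by norm_num)).1 h

/-- `divX` as a continuous linear map -/
noncomputable def divXL (s : ℕ) [NeZero s] : HS s →L[ℂ] HS s :=
  LinearMap.mkContinuous
    { toFun := divX
      map_add' := fun F G => by ext k; simp only [coeff_divX, coeff_add]
      map_smul' := fun c F => by ext k; simp only [coeff_divX, coeff_smul, RingHom.id_apply] } 1
    (fun F => by rw [one_mul]; exact F.norm_divX_le)

@[simp] theorem divXL_apply (F : HS s) : divXL s F = F.divX := rfl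

/-! ### dilations and rotations -/

theorem sq_dil (F : HS s) {r : ℂ} (hr : ‖r‖ ≤ 1) : Sq s (fun k => r ^ k * F.coeff k) := by
  refine Summable.of_nonneg_of_le (fun _ => sq_nonneg _) (fun k => ?_) F.sq
  refine pow_le_pow_left₀ (mul_nonneg (wt_pos _ _).le (norm_nonneg _)) ?_ 2
  refine mul_le_mul_of_nonneg_left ?_ (wt_pos _ _).le
  rw [norm_mul, norm_pow]
  exact mul_le_of_le_one_left (norm_nonneg _) (pow_le_one₀ (norm_nonneg _) hr)

/-- the dilation `F ↦ F (r ·)`, `‖r‖ ≤ 1`. -/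
noncomputable def dil (r : ℂ) (hr : ‖r‖ ≤ 1) : HS s →ₐ[ℂ] HS s where
  toFun := fun F => mk (fun k => r ^ k * F.coeff k) (F.sq_dil hr)
  map_one' := by ext k; rw [coeff_mk, coeff_one]; by_cases h : k = 0 <;> simp [h]
  map_mul' := fun F G => by
    ext k
    rw [coeff_mk, coeff_mul, coeff_mul, Finset.mul_sum]
    refine Finset.sum_congr rfl fun p hp => ?_
    rw [Finset.HasAntidiagonal.mem_antidiagonal] at hp
    rw [coeff_mk, coeff_mk, ← hp, pow_add]; ring
  map_zero' := by ext k; rw [coeff_mk, coeff_zero, mul_zero]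
  map_add' := fun F G => by ext k; rw [coeff_mk, coeff_add, coeff_add, coeff_mk, coeff_mk]; ring
  commutes' := fun c => by
    ext k; rw [coeff_mk, coeff_algebraMap]; by_cases h : k = 0 <;> simp [h]

theorem coeff_dil (r : ℂ) (hr : ‖r‖ ≤ 1) (F : HS s) (k : ℕ) :
    (dil r hr F).coeff k = r ^ k * F.coeff k := coeff_mk _ (F.sq_dil hr) k

theorem ev_dil (r : ℂ) (hr : ‖r‖ ≤ 1) (F : HS s) (z : ℂ) : (dil r hr F).ev z = F.ev (r * z) := by
  unfold ev
  exact tsum_congr fun k => by rw [coeff_dil, mul_pow]; ring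

theorem norm_dil_le (r : ℂ) (hr : ‖r‖ ≤ 1) (F : HS s) : ‖dil r hr F‖ ≤ ‖F‖ := by
  have h : ‖dil r hr F‖ ^ 2 ≤ ‖F‖ ^ 2 := by
    rw [norm_sq_eq, norm_sq_eq]
    refine mul_le_mul_of_nonneg_left ?_ (sq_nonneg _)
    refine Summable.tsum_le_tsum (fun k => ?_) (dil r hr F).sq F.sq
    refine pow_le_pow_left₀ (mul_nonneg (wt_pos _ _).le (norm_nonneg _)) ?_ 2
    refine mul_le_mul_of_nonneg_left ?_ (wt_pos _ _).le
    rw [coeff_dil, norm_mul, norm_pow]
    exact mul_le_of_le_one_left (norm_nonneg _) (pow_le_one₀ (norm_nonneg _) hr)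
  exact (pow_le_pow_iff_left₀ (norm_nonneg _) (norm_nonneg _) (by norm_num)).1 h

/-- dilations converge in norm, along any net of parameters tending to `1` in the closed disc -/
theorem tendsto_dil {α : Type*} {l : Filter α} (r : α → ℂ) (hr : ∀ a, ‖r a‖ ≤ 1)
    (h : Tendsto r l (𝓝 1)) (F : HS s) : Tendsto (fun a => dil (r a) (hr a) F) l (𝓝 F) := by
  rw [tendsto_iff_norm_sub_tendsto_zero]
  have h1 : Tendsto (fun a => ‖dil (r a) (hr a) F - F‖ ^ 2) l (𝓝 0) := by
    simp only [norm_sq_eq]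
    have h2 : Tendsto (fun a => ∑' k, (wt s k * ‖(dil (r a) (hr a) F - F).coeff k‖) ^ 2) l
        (𝓝 (∑' _ : ℕ, (0 : ℝ))) := by
      refine tendsto_tsum_of_dominated_convergence (bound := fun k => 4 * (wt s k * ‖F.coeff k‖) ^ 2)
        (Summable.mul_left _ F.sq) (fun k => ?_) (Filter.Eventually.of_forall fun a k => ?_)
      · have h3 : Tendsto (fun a => (wt s k * ‖(r a ^ k - 1) * F.coeff k‖) ^ 2) l
            (𝓝 ((wt s k * ‖((1 : ℂ) ^ k - 1) * F.coeff k‖) ^ 2)) :=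
          (((((h.pow k).sub_const 1).mul_const _).norm).const_mul _).pow 2
        simp only [one_pow, sub_self, zero_mul, norm_zero, mul_zero] at h3
        refine (h3.congr fun a => ?_).trans (by norm_num)
        rw [coeff_sub, coeff_dil, sub_mul, one_mul]
      · rw [Real.norm_eq_abs, abs_of_nonneg (sq_nonneg _), coeff_sub, coeff_dil]
        have h4 : ‖r a ^ k * F.coeff k - F.coeff k‖ ≤ 2 * ‖F.coeff k‖ := by
          refine (norm_sub_le _ _).trans ?_
          rw [norm_mul, norm_pow]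
          have := mul_le_of_le_one_left (norm_nonneg (F.coeff k))
            (pow_le_one₀ (n := k) (norm_nonneg _) (hr a))
          linarith
        calc (wt s k * ‖r a ^ k * F.coeff k - F.coeff k‖) ^ 2
            ≤ (wt s k * (2 * ‖F.coeff k‖)) ^ 2 :=
              pow_le_pow_left₀ (mul_nonneg (wt_pos _ _).le (norm_nonneg _))
                (mul_le_mul_of_nonneg_left h4 (wt_pos _ _).le) 2
          _ = _ := by ring
    rw [tsum_zero] at h2
    simpa using h2.const_mul (cst s ^ 2)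
  have h5 := (Real.continuous_sqrt.tendsto 0).comp h1
  rw [Real.sqrt_zero] at h5
  refine h5.congr fun a => ?_
  simp only [Function.comp_apply]
  rw [Real.sqrt_sq (norm_nonneg _)]

end HS

end Crest.Agent.R269.HS_194
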