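import Mathlib

/-!
# R269 (S0411), (11.2) of Blueprint_646, disc part (helper993)

Scalar form of the Jensen / AM-GM chain on the circle `|z| = 1/2`.  For a disc with the orthonormal
frame `b` of (3.3) for `a = g⁻¹` (so `D(H, b) = 1` on the unit circle) and a lift `H` with `|H| = 1` on
the unit circle put `h = log |H|²`, `d = log D(H, b)`, `S = s(H, b)` (holomorphic), so that
`|s|² = |S|² exp(h - m₁ d)`, `T = -h(0)`, `k = -d(0)`.

* `avg_exp_ge`   : Jensen's inequality `exp (avg u) ≤ avg (exp u)` for circle averages;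
* `avg_log_le`   : `avg_{1/2} log(|s|² + τ) ≤ log 2 + avg_{1/2} (h - m₁ d)`;
* `rate_half`    : the lower bound of the Levi sum of `Θ_τ` by `exp(-k_δ/n)`.
-/

set_option autoImplicit false

open Set Filter Topology Metric Real

noncomputable section

namespace Crest.Agent.R269.Half_993

variable {R : ℝ}

theorem ci {f : ℂ → ℝ} (hf : ContinuousOn f (sphere 0 |R|)) : CircleIntegrable f 0 R :=
  hf.circleIntegrable'

/-- Jensen's inequality for `exp` -/
theorem avg_exp_ge {u : ℂ → ℝ} (hu : ContinuousOn u (sphere 0 |R|)) :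
    Real.exp (circleAverage u 0 R) ≤ circleAverage (fun z => Real.exp (u z)) 0 R := by
  set m := circleAverage u 0 R with hm
  have h1 : circleAverage (fun z => Real.exp m * (1 + (u z - m))) 0 R = Real.exp m := by
    have e1 : circleAverage (fun z => Real.exp m * (1 + (u z - m))) 0 R =
        Real.exp m * circleAverage (fun z => 1 + (u z - m)) 0 R := by
      have := circleAverage_fun_smul (𝕜 := ℝ) (a := Real.exp m) (f := fun z => 1 + (u z - m))
        (c := 0) (R := R)
      simpa using this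
    have e2 : circleAverage (fun z => 1 + (u z - m)) 0 R = 1 := by
      have : (fun z => 1 + (u z - m)) = fun z => (1 - m) + u z := by
        funext z; ring
      rw [this, circleAverage_fun_add (circleIntegrable_const _ _ _) (ci hu),
        circleAverage_const, ← hm]
      ring
    rw [e1, e2, mul_one]
  rw [← h1]
  refine circleAverage_mono ?_ ?_ ?_
  · exact ci (continuousOn_const.mul (continuousOn_const.add (hu.sub continuousOn_const)))
  · exact ci (Real.continuous_exp.comp_continuousOn hu)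
  · intro z _
    have h2 := Real.add_one_le_exp (u z - m)
    calc Real.exp m * (1 + (u z - m)) ≤ Real.exp m * Real.exp (u z - m) :=
          mul_le_mul_of_nonneg_left (by linarith) (Real.exp_pos _).le
      _ = Real.exp (u z) := by rw [← Real.exp_add]; congr 1; ring

/-- the data of one disc -/
structure Dat where
  /-- `log |H|²` -/
  h : ℂ → ℝ
  /-- `log D(H, b)` -/
  d : ℂ → ℝ
  /-- `s(H, b)` -/
  S : ℂ → ℂ
  hc : ContinuousOn h (closedBall 0 1)
  dc : ContinuousOn d (closedBall 0 1)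
  Sc : ContinuousOn S (closedBall 0 1)
  h1 : ∀ z ∈ sphere (0 : ℂ) 1, h z = 0
  d1 : ∀ z ∈ sphere (0 : ℂ) 1, d z = 0
  S1 : ∀ z ∈ sphere (0 : ℂ) 1, ‖S z‖ ≤ 1

namespace Dat

variable (D : Dat)

theorem sub : sphere (0 : ℂ) |(1 / 2 : ℝ)| ⊆ closedBall 0 1 := by
  intro z hz
  rw [mem_sphere_zero_iff_norm] at hz
  rw [mem_closedBall_zero_iff, hz]
  norm_num [abs_of_pos]

theorem h_half : ContinuousOn D.h (sphere 0 |(1 / 2 : ℝ)|) := D.hc.mono sub
theorem d_half : ContinuousOn D.d (sphere 0 |(1 / 2 : ℝ)|) := D.dc.mono sub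
theorem S_half : ContinuousOn D.S (sphere 0 |(1 / 2 : ℝ)|) := D.Sc.mono sub

/-- `|s|²` -/
def s2 (m₁ : ℝ) (z : ℂ) : ℝ := ‖D.S z‖ ^ 2 * Real.exp (D.h z - m₁ * D.d z)

theorem s2_nonneg (m₁ : ℝ) (z : ℂ) : 0 ≤ D.s2 m₁ z := by unfold s2; positivity

theorem s2_half (m₁ : ℝ) : ContinuousOn (D.s2 m₁) (sphere 0 |(1 / 2 : ℝ)|) :=
  (D.S_half.norm.pow 2).mul
    (Real.continuous_exp.comp_continuousOn (D.h_half.sub (D.d_half.const_smul m₁)))

theorem pos_add (S : ℂ → ℂ) {t : ℝ} (ht : 0 < t) (z : ℂ) : 0 < ‖S z‖ ^ 2 + t := by positivity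

theorem s2_pos (m₁ : ℝ) {τ : ℝ} (hτ : 0 < τ) (z : ℂ) : 0 < D.s2 m₁ z + τ :=
  add_pos_of_nonneg_of_pos (D.s2_nonneg m₁ z) hτ

/-- `avg_{1/2} log(|s|² + τ) ≤ log 2 + avg_{1/2}(h - m₁ d)` -/
theorem avg_log_le {m₁ R τ : ℝ} (hτ : 0 < τ) (hR : τ * Real.exp R ≤ 1)
    (hb : ∀ z ∈ sphere (0 : ℂ) (1 / 2), m₁ * D.d z - D.h z ≤ R)
    (hmono : ∀ t : ℝ, 0 < t → circleAverage (fun z => Real.log (‖D.S z‖ ^ 2 + t)) 0 (1 / 2) ≤
      circleAverage (fun z => Real.log (‖D.S z‖ ^ 2 + t)) 0 1) :
    circleAverage (fun z => Real.log (D.s2 m₁ z + τ)) 0 (1 / 2) ≤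
      Real.log 2 + circleAverage (fun z => D.h z - m₁ * D.d z) 0 (1 / 2) := by
  have hE : 0 < Real.exp R := Real.exp_pos _
  set t := τ * Real.exp R with ht
  have ht0 : 0 < t := mul_pos hτ hE
  have hs : ContinuousOn (fun z => Real.log (‖D.S z‖ ^ 2 + t)) (sphere 0 |(1 / 2 : ℝ)|) :=
    ((D.S_half.norm.pow 2).add continuousOn_const).log fun z _ => (pos_add D.S ht0 z).ne'
  have hhd : ContinuousOn (fun z => D.h z - m₁ * D.d z) (sphere 0 |(1 / 2 : ℝ)|) :=
    D.h_half.sub (D.d_half.const_smul m₁)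
  have step1 : circleAverage (fun z => Real.log (D.s2 m₁ z + τ)) 0 (1 / 2) ≤
      circleAverage (fun z => Real.log (‖D.S z‖ ^ 2 + t) + (D.h z - m₁ * D.d z)) 0 (1 / 2) := by
    refine circleAverage_mono ?_ (ci (hs.add hhd)) fun z hz => ?_
    · exact ci (((D.s2_half m₁).add continuousOn_const).log fun z _ => (D.s2_pos m₁ hτ z).ne')
    · have hz' : z ∈ sphere (0 : ℂ) (1 / 2) := by
        rwa [abs_of_pos (by norm_num : (0 : ℝ) < 1 / 2)] at hz
      have e1 := Real.exp_pos (D.h z - m₁ * D.d z)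
      have h2 : D.s2 m₁ z + τ ≤ (‖D.S z‖ ^ 2 + t) * Real.exp (D.h z - m₁ * D.d z) := by
        unfold s2
        have h3 : 1 ≤ Real.exp R * Real.exp (D.h z - m₁ * D.d z) := by
          rw [← Real.exp_add, Real.one_le_exp_iff]
          linarith [hb z hz']
        have h4 : τ ≤ t * Real.exp (D.h z - m₁ * D.d z) := by
          rw [ht, mul_assoc]
          exact le_mul_of_one_le_right hτ.le h3
        nlinarith
      have h5 := D.s2_nonneg m₁ z
      calc Real.log (D.s2 m₁ z + τ)
          ≤ Real.log ((‖D.S z‖ ^ 2 + t) * Real.exp (D.h z - m₁ * D.d z)) :=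
            Real.log_le_log (by positivity) h2
        _ = _ := by rw [Real.log_mul (by positivity) e1.ne', Real.log_exp]
  rw [circleAverage_fun_add (ci hs) (ci hhd)] at step1
  have step2 : circleAverage (fun z => Real.log (‖D.S z‖ ^ 2 + t)) 0 1 ≤ Real.log 2 := by
    refine circleAverage_mono_on_of_le_circle ?_ fun z hz => ?_
    · refine ContinuousOn.circleIntegrable' ?_
      refine ((((D.Sc.mono ?_).norm.pow 2)).add continuousOn_const).log
        fun z _ => (pos_add D.S ht0 z).ne'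
      rw [abs_one]
      exact sphere_subset_closedBall
    · rw [abs_one] at hz
      have h1 := D.S1 z hz
      refine Real.log_le_log (by positivity) ?_
      have : ‖D.S z‖ ^ 2 ≤ 1 := by
        rw [sq_le_one_iff₀ (norm_nonneg _)]; exact h1
      linarith
  linarith [hmono t ht0]

/-- (11.2), the lower bound of `∑ Levi Θ_τ = (1/4) avg_{1/2} ∑_i ω_b(b_i)`.
`q z` is the integrand `∑_i ω_b(b_i(z))`, `hq` the pointwise AM-GM inequality. -/
theorem rate_half {n : ℕ} (hn : 0 < n) {m₁ δ R τ c : ℝ} (hδ : 0 ≤ δ) (hc : 0 < c) (hτ : 0 < τ)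
    (hR : τ * Real.exp R ≤ 1)
    (hb : ∀ z ∈ sphere (0 : ℂ) (1 / 2), m₁ * D.d z - D.h z ≤ R)
    (hmono : ∀ t : ℝ, 0 < t → circleAverage (fun z => Real.log (‖D.S z‖ ^ 2 + t)) 0 (1 / 2) ≤
      circleAverage (fun z => Real.log (‖D.S z‖ ^ 2 + t)) 0 1)
    {q : ℂ → ℝ} (hqc : ContinuousOn q (sphere 0 (1 / 2)))
    (hq : ∀ z ∈ sphere (0 : ℂ) (1 / 2),
      n * Real.exp ((Real.log c - δ * Real.log (D.s2 m₁ z + τ) + D.d z) / n) ≤ q z) :
    n * Real.exp ((Real.log c - δ * Real.log 2 +
        ((1 + δ * m₁) * circleAverage D.d 0 (1 / 2) - δ * circleAverage D.h 0 (1 / 2))) / n) ≤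
      circleAverage q 0 (1 / 2) := by
  have hn' : (0 : ℝ) < n := by exact_mod_cast hn
  have habs : |(1 / 2 : ℝ)| = 1 / 2 := abs_of_pos (by norm_num)
  set u : ℂ → ℝ := fun z => (Real.log c - δ * Real.log (D.s2 m₁ z + τ) + D.d z) / n with hu
  have hlc : ContinuousOn (fun z => Real.log (D.s2 m₁ z + τ)) (sphere 0 |(1 / 2 : ℝ)|) :=
    ((D.s2_half m₁).add continuousOn_const).log fun z _ => (D.s2_pos m₁ hτ z).ne'
  have huc : ContinuousOn u (sphere 0 |(1 / 2 : ℝ)|) :=
    ((continuousOn_const.sub (continuousOn_const.mul hlc)).add D.d_half).div_const _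
  have h1 : circleAverage (fun z => n * Real.exp (u z)) 0 (1 / 2) ≤ circleAverage q 0 (1 / 2) := by
    refine circleAverage_mono ?_ (ContinuousOn.circleIntegrable' (by rwa [habs])) fun z hz => ?_
    · exact ci (continuousOn_const.mul (Real.continuous_exp.comp_continuousOn huc))
    · rw [habs] at hz
      exact hq z hz
  have h2 : circleAverage (fun z => n * Real.exp (u z)) 0 (1 / 2) =
      n * circleAverage (fun z => Real.exp (u z)) 0 (1 / 2) := by
    have := circleAverage_fun_smul (𝕜 := ℝ) (a := (n : ℝ)) (f := fun z => Real.exp (u z))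
      (c := 0) (R := 1 / 2)
    simpa using this
  have h3 := avg_exp_ge huc
  have h4 : circleAverage u 0 (1 / 2) = (Real.log c -
      δ * circleAverage (fun z => Real.log (D.s2 m₁ z + τ)) 0 (1 / 2) +
      circleAverage D.d 0 (1 / 2)) / n := by
    have e1 : u = fun z => (n : ℝ)⁻¹ • (Real.log c + (-δ * Real.log (D.s2 m₁ z + τ) + D.d z)) := by
      funext z
      simp only [hu, smul_eq_mul]
      field_simp
      ring
    have c1 : CircleIntegrable (fun z => -δ * Real.log (D.s2 m₁ z + τ)) 0 (1 / 2) :=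
      ci (continuousOn_const.mul hlc)
    have c2 : CircleIntegrable (fun z => -δ * Real.log (D.s2 m₁ z + τ) + D.d z) 0 (1 / 2) :=
      ci ((continuousOn_const.mul hlc).add D.d_half)
    rw [e1, circleAverage_fun_smul, circleAverage_fun_add (circleIntegrable_const _ _ _) c2,
      circleAverage_const, circleAverage_fun_add c1 (ci D.d_half)]
    have e2 : circleAverage (fun z => -δ * Real.log (D.s2 m₁ z + τ)) 0 (1 / 2) =
        -δ * circleAverage (fun z => Real.log (D.s2 m₁ z + τ)) 0 (1 / 2) := by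
      have := circleAverage_fun_smul (𝕜 := ℝ) (a := -δ)
        (f := fun z => Real.log (D.s2 m₁ z + τ)) (c := 0) (R := 1 / 2)
      simpa using this
    rw [e2, smul_eq_mul]
    field_simp
    ring
  have h5 := D.avg_log_le (m₁ := m₁) hτ hR hb hmono
  have h6 : circleAverage (fun z => D.h z - m₁ * D.d z) 0 (1 / 2) =
      circleAverage D.h 0 (1 / 2) - m₁ * circleAverage D.d 0 (1 / 2) := by
    have c1 : CircleIntegrable (fun z => m₁ * D.d z) 0 (1 / 2) :=
      ci (continuousOn_const.mul D.d_half)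
    rw [circleAverage_fun_sub (ci D.h_half) c1]
    have := circleAverage_fun_smul (𝕜 := ℝ) (a := m₁) (f := D.d) (c := 0) (R := 1 / 2)
    simp only [smul_eq_mul] at this
    rw [this]
  rw [h6] at h5
  refine le_trans ?_ h1
  rw [h2]
  refine mul_le_mul_of_nonneg_left (le_trans ?_ h3) hn'.le
  rw [h4]
  refine Real.exp_le_exp.2 (div_le_div_of_nonneg_right ?_ hn'.le)
  nlinarith

end Dat

end Crest.Agent.R269.Half_993
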