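import Crest.Agent.R269.SubM_79

/-!
# R269 (S0411), leaf L2 (helper79): `∂∂̄` of explicit functions, barrier, growth bounds (4.5)
-/

set_option autoImplicit false

open Set Filter Topology Metric Complex Asymptotics Real

noncomputable section

namespace Crest.Agent.R269.LevP_79

open SubM_79

/-! ### functions of class `C²` -/

/-- second order Peano expansion -/
theorem peano2 {E : Type*} [NormedAddCommGroup E] [NormedSpace ℝ E] {u : E → ℝ} {z : E}
    (hu : ContDiffAt ℝ 2 u z) :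
    (fun w : E => u (z + w) - u z - fderiv ℝ u z w - (1 / 2) * fderiv ℝ (fderiv ℝ u) z w w)
      =o[𝓝 0] fun w : E => ‖w‖ ^ 2 := by
  have hsymm : IsSymmSndFDerivAt ℝ u z := by
    refine ContDiffAt.isSymmSndFDerivAt hu ?_
    simp
  set D2 := fderiv ℝ (fderiv ℝ u) z with hD2
  have hd1 : ∀ᶠ x in 𝓝 z, DifferentiableAt ℝ u x := by
    have h1 := hu.eventually (by simp)
    filter_upwards [h1] with x hx
    exact hx.differentiableAt (by simp)
  have hd2 : HasFDerivAt (fderiv ℝ u) D2 z := by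
    have : ContDiffAt ℝ 1 (fderiv ℝ u) z := hu.fderiv_right (by norm_num)
    exact (this.differentiableAt (by simp)).hasFDerivAt
  refine IsLittleO.of_bound fun ε hε => ?_
  have h1 := hd2.isLittleO.def hε
  have h2 := h1.and hd1
  obtain ⟨r, hr, hball⟩ := Metric.eventually_nhds_iff_ball.1 h2
  filter_upwards [Metric.ball_mem_nhds (0 : E) hr] with w hw
  rw [mem_ball_zero_iff] at hw
  -- the function `g x = u (z + x) - u z - Du x - (1/2) D2 x x` on the closed ball of radius `|w|`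
  set g : E → ℝ := fun x => u (z + x) - u z - fderiv ℝ u z x - (1 / 2) * D2 x x with hg
  have hgd : ∀ x ∈ closedBall (0 : E) ‖w‖, HasFDerivWithinAt g
      (fderiv ℝ u (z + x) - fderiv ℝ u z - D2 x) (closedBall (0 : E) ‖w‖) x := by
    intro x hx
    rw [mem_closedBall_zero_iff] at hx
    have hzx : z + x ∈ ball z r := by
      rw [mem_ball, dist_eq_norm, add_sub_cancel_left]; linarith
    have hux := (hball _ hzx).2.hasFDerivAt
    have e1 : HasFDerivAt (fun x => u (z + x)) (fderiv ℝ u (z + x)) x := by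
      have h3 : HasFDerivAt (fun x : E => z + x) (ContinuousLinearMap.id ℝ E) x :=
        (hasFDerivAt_id x).const_add z
      have := hux.comp x h3
      rwa [ContinuousLinearMap.comp_id] at this
    have e2 : HasFDerivAt (fun x => fderiv ℝ u z x) (fderiv ℝ u z) x :=
      (fderiv ℝ u z).hasFDerivAt
    have e3 : HasFDerivAt (fun x => (1 / 2 : ℝ) * D2 x x) (D2 x) x := by
      have h4 : HasFDerivAt (fun x => D2 x x) (D2 x + D2.flip x) x := by
        have h5 : HasFDerivAt (fun x => D2 x) D2 x := D2.hasFDerivAt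
        have h6 : HasFDerivAt (fun x : E => x) (ContinuousLinearMap.id ℝ E) x := hasFDerivAt_id x
        have := h5.clm_apply h6
        refine this.congr_fderiv ?_
        ext v
        simp
      have h7 := h4.const_mul (1 / 2 : ℝ)
      refine h7.congr_fderiv ?_
      ext v
      have hs : D2 v x = D2 x v := (hsymm.eq v x)
      simp only [FunLike.coe_smul, Pi.smul_apply, _root_.add_apply,
        ContinuousLinearMap.flip_apply, smul_eq_mul, hs]
      ring
    have := ((e1.sub_const (u z)).sub e2).sub e3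
    exact this.hasFDerivWithinAt
  have hbound : ∀ x ∈ closedBall (0 : E) ‖w‖,
      ‖fderiv ℝ u (z + x) - fderiv ℝ u z - D2 x‖ ≤ ε * ‖w‖ := by
    intro x hx
    rw [mem_closedBall_zero_iff] at hx
    have hzx : z + x ∈ ball z r := by
      rw [mem_ball, dist_eq_norm, add_sub_cancel_left]; linarith
    have := (hball _ hzx).1
    rw [add_sub_cancel_left] at this
    exact this.trans (mul_le_mul_of_nonneg_left hx hε.le)
  have hmv := (convex_closedBall (0 : E) ‖w‖).norm_image_sub_le_of_norm_hasFDerivWithin_le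
    hgd hbound (mem_closedBall_self (norm_nonneg w)) (y := w)
    (by rw [mem_closedBall_zero_iff])
  have hg0 : g 0 = 0 := by simp [hg]
  rw [hg0, sub_zero, sub_zero] at hmv
  show ‖g w‖ ≤ ε * ‖‖w‖ ^ 2‖
  rw [Real.norm_eq_abs (‖w‖ ^ 2), abs_of_nonneg (sq_nonneg _)]
  calc ‖g w‖ ≤ ε * ‖w‖ * ‖w‖ := hmv
    _ = ε * ‖w‖ ^ 2 := by ring

/-- the Levi form in one variable -/
def lev (u : ℂ → ℝ) (z : ℂ) : ℝ :=
  (fderiv ℝ (fderiv ℝ u) z 1 1 + fderiv ℝ (fderiv ℝ u) z I I) / 4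

theorem hasL_of_contDiffAt {u : ℂ → ℝ} {z : ℂ} (hu : ContDiffAt ℝ 2 u z) :
    HasL u z (lev u z) := by
  have h := peano2 hu
  set D := fderiv ℝ u z
  set D2 := fderiv ℝ (fderiv ℝ u) z with hD2
  set e : ℂ → ℝ := fun w => u (z + w) - u z - D w - (1 / 2) * D2 w w with he
  have hI : (fun w : ℂ => e (I * w)) =o[𝓝 0] fun w : ℂ => ‖w‖ ^ 2 := by
    have ht : Tendsto (fun w : ℂ => I * w) (𝓝 0) (𝓝 0) := by
      have : Continuous fun w : ℂ => I * w := by fun_prop
      simpa using this.tendsto 0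
    refine (h.comp_tendsto ht).congr_right fun w => ?_
    simp
  have hneg : (fun w : ℂ => e (-w)) =o[𝓝 0] fun w : ℂ => ‖w‖ ^ 2 := by
    have ht : Tendsto (fun w : ℂ => -w) (𝓝 0) (𝓝 0) := by
      have : Continuous fun w : ℂ => -w := by fun_prop
      simpa using this.tendsto 0
    refine (h.comp_tendsto ht).congr_right fun w => ?_
    simp
  have hnI : (fun w : ℂ => e (-(I * w))) =o[𝓝 0] fun w : ℂ => ‖w‖ ^ 2 := by
    have ht : Tendsto (fun w : ℂ => -(I * w)) (𝓝 0) (𝓝 0) := by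
      have : Continuous fun w : ℂ => -(I * w) := by fun_prop
      simpa using this.tendsto 0
    refine (h.comp_tendsto ht).congr_right fun w => ?_
    simp
  have hsum := (((h.add hI).add hneg).add hnI).const_mul_left (1 / 4)
  refine hsum.congr_left fun w => ?_
  have hq : D2 w w + D2 (I * w) (I * w) = (D2 1 1 + D2 I I) * ‖w‖ ^ 2 := by
    have hw : w = w.re • (1 : ℂ) + w.im • I := by
      simp [Complex.re_add_im]
    have hIw : I * w = w.re • I + (-w.im) • (1 : ℂ) := by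
      apply Complex.ext <;> simp
    have h1 : D2 w w = w.re ^ 2 * D2 1 1 + w.re * w.im * (D2 1 I + D2 I 1)
        + w.im ^ 2 * D2 I I := by
      conv_lhs => rw [hw]
      simp only [map_add, map_smul, _root_.add_apply, FunLike.coe_smul,
        Pi.smul_apply, smul_eq_mul]
      ring
    have h2 : D2 (I * w) (I * w) = w.re ^ 2 * D2 I I - w.re * w.im * (D2 1 I + D2 I 1)
        + w.im ^ 2 * D2 1 1 := by
      rw [hIw]
      simp only [map_add, map_smul, _root_.add_apply, FunLike.coe_smul,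
        Pi.smul_apply, smul_eq_mul]
      ring
    rw [h1, h2, ← Complex.normSq_eq_norm_sq, Complex.normSq_apply]
    ring
  simp only [he, m4, lev, ← hD2, sub_eq_add_neg z, map_neg, _root_.neg_apply]
  linear_combination (1 / 4 : ℝ) * (-hq)


/-! ### holomorphic functions -/

/-- real parts of holomorphic functions -/
theorem hasL_re {k : ℂ → ℂ} {z : ℂ} (hk : AnalyticAt ℂ k z) : HasL (fun x => (k x).re) z 0 := by
  obtain ⟨p, hp⟩ := hk
  have h3 := hp.isBigO_sub_partialSum_pow 3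
  set e : ℂ → ℂ := fun w => k (z + w) - p.partialSum 3 w with he
  have hsum : ∀ w, p.partialSum 3 w = p.coeff 0 + w * p.coeff 1 + w ^ 2 * p.coeff 2 := by
    intro w
    simp [FormalMultilinearSeries.partialSum, Finset.sum_range_succ]
  have hlo : (fun w : ℂ => ‖w‖ ^ 3) =o[𝓝 0] fun w : ℂ => ‖w‖ ^ 2 := by
    have h1 : (fun w : ℂ => ‖w‖) =o[𝓝 0] fun _ : ℂ => (1 : ℝ) := by
      rw [isLittleO_one_iff]
      simpa using (continuous_norm (E := ℂ)).tendsto 0
    have h2 := h1.mul_isBigO (isBigO_refl (fun w : ℂ => ‖w‖ ^ 2) (𝓝 0))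
    refine (h2.congr_left fun w => ?_).congr_right fun w => ?_
    · ring
    · ring
  have h : e =o[𝓝 0] fun w : ℂ => ‖w‖ ^ 2 := h3.trans_isLittleO hlo
  have hc : ∀ a : ℂ, ‖a‖ = 1 → (fun w : ℂ => e (a * w)) =o[𝓝 0] fun w : ℂ => ‖w‖ ^ 2 := by
    intro a ha
    have ht : Tendsto (fun w : ℂ => a * w) (𝓝 0) (𝓝 0) := by
      have : Continuous fun w : ℂ => a * w := by fun_prop
      simpa using this.tendsto 0
    refine (h.comp_tendsto ht).congr_right fun w => ?_
    simp [ha]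
  have htot := ((((hc 1 (by simp)).add (hc I (by simp))).add (hc (-1) (by simp))).add
    (hc (-I) (by simp)))
  have hre : (fun w : ℂ => (1 / 4 : ℝ) * (e (1 * w) + e (I * w) + e (-1 * w) + e (-I * w)).re)
      =o[𝓝 0] fun w : ℂ => ‖w‖ ^ 2 := by
    refine IsLittleO.const_mul_left ?_ _
    refine IsBigO.trans_isLittleO (IsBigO.of_bound 1 (Eventually.of_forall fun w => ?_)) htot
    exact (Complex.abs_re_le_norm _).trans (le_of_eq (one_mul _).symm)
  refine hre.congr_left fun w => ?_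
  have hz : k z = p.coeff 0 := by
    exact (hp.coeff_zero 1).symm
  simp only [m4, he, hsum, hz, sub_eq_add_neg z]
  have e1 : (1 * w) = w := one_mul w
  have e2 : (-1 * w) = -w := by ring
  have e3 : (-I * w) = -(I * w) := by ring
  rw [e1, e2, e3]
  simp only [Complex.add_re, Complex.sub_re]
  have e4 : ((w * p.coeff 1 : ℂ)).re + ((I * w) * p.coeff 1 : ℂ).re + ((-w) * p.coeff 1 : ℂ).re
      + ((-(I * w)) * p.coeff 1 : ℂ).re = 0 := by
    simp
    ring
  have e5 : ((w ^ 2 * p.coeff 2 : ℂ)).re + ((I * w) ^ 2 * p.coeff 2 : ℂ).re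
      + ((-w) ^ 2 * p.coeff 2 : ℂ).re + ((-(I * w)) ^ 2 * p.coeff 2 : ℂ).re = 0 := by
    rw [mul_pow, neg_sq, neg_sq, mul_pow, I_sq]
    simp
  linear_combination (-1 / 4 : ℝ) * e4 + (-1 / 4 : ℝ) * e5

/-- `log |h|` for `h` holomorphic and zero free -/
theorem hasL_log_norm {h : ℂ → ℂ} {z : ℂ} (hh : AnalyticAt ℂ h z) (h0 : h z ≠ 0) :
    HasL (fun x => Real.log ‖h x‖) z 0 := by
  -- `log |h| = log |h z| + Re log (h / h z)`
  have h1 : AnalyticAt ℂ (fun x => h x / h z) z := hh.div_const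
  have h2 : AnalyticAt ℂ (fun x => Complex.log (h x / h z)) z :=
    h1.clog (by simp [div_self h0])
  have h3 := (hasL_re h2).add (hasL_const (Real.log ‖h z‖) z)
  rw [add_zero] at h3
  refine h3.congr ?_
  have hne : ∀ᶠ x in 𝓝 z, h x ≠ 0 := hh.continuousAt.eventually_ne h0
  filter_upwards [hne] with x hx
  rw [Complex.log_re, norm_div, Real.log_div (norm_ne_zero_iff.2 hx) (norm_ne_zero_iff.2 h0)]
  ring

section Vec

variable {E : Type*} [NormedAddCommGroup E] [InnerProductSpace ℂ E]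

/-- `‖q‖²` at a zero of a differentiable map -/
theorem hasL_normSq_zero {q : ℂ → E} {z : ℂ} {q' : E} (hq : HasDerivAt q q' z) (h0 : q z = 0) :
    HasL (fun x => ‖q x‖ ^ 2) z (‖q'‖ ^ 2) := by
  have h1 : (fun w : ℂ => q (z + w) - w • q') =o[𝓝 0] fun w : ℂ => w := by
    have := hasDerivAt_iff_isLittleO_nhds_zero.1 hq
    simpa [h0] using this
  have h2 : (fun w : ℂ => ‖q (z + w)‖ ^ 2 - ‖q'‖ ^ 2 * ‖w‖ ^ 2) =o[𝓝 0]
      fun w : ℂ => ‖w‖ ^ 2 := by
    have hb : (fun w : ℂ => ‖q (z + w)‖ + ‖w • q'‖) =O[𝓝 0] fun w : ℂ => ‖w‖ := by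
      have h3 : (fun w : ℂ => w • q') =O[𝓝 0] fun w : ℂ => w := by
        refine IsBigO.of_bound ‖q'‖ (Eventually.of_forall fun w => ?_)
        rw [norm_smul, mul_comm]
      have h4 : (fun w : ℂ => q (z + w)) =O[𝓝 0] fun w : ℂ => w := by
        have := h1.isBigO.add h3
        simpa using this
      exact (h4.norm_norm.add h3.norm_norm)
    have ha : (fun w : ℂ => ‖q (z + w)‖ - ‖w • q'‖) =o[𝓝 0] fun w : ℂ => ‖w‖ := by
      refine IsBigO.trans_isLittleO (IsBigO.of_bound 1 (Eventually.of_forall fun w => ?_))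
        h1.norm_norm
      rw [one_mul, Real.norm_eq_abs, Real.norm_eq_abs, abs_norm]
      exact abs_norm_sub_norm_le _ _
    refine ((ha.mul_isBigO hb).congr_left fun w => ?_).congr_right fun w => ?_
    · rw [norm_smul]; ring
    · ring
  have hc : ∀ a : ℂ, ‖a‖ = 1 →
      (fun w : ℂ => ‖q (z + a * w)‖ ^ 2 - ‖q'‖ ^ 2 * ‖w‖ ^ 2) =o[𝓝 0]
        fun w : ℂ => ‖w‖ ^ 2 := by
    intro a ha
    have ht : Tendsto (fun w : ℂ => a * w) (𝓝 0) (𝓝 0) := by
      have : Continuous fun w : ℂ => a * w := by fun_prop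
      simpa using this.tendsto 0
    refine ((h2.comp_tendsto ht).congr_left fun w => ?_).congr_right fun w => ?_
    · simp [ha]
    · simp [ha]
  have htot := ((((hc 1 (by simp)).add (hc I (by simp))).add (hc (-1) (by simp))).add
    (hc (-I) (by simp))).const_mul_left (1 / 4)
  refine htot.congr_left fun w => ?_
  have e1 : (1 * w) = w := one_mul w
  have e2 : z + (-1 * w) = z - w := by ring
  have e3 : z + (-I * w) = z - I * w := by ring
  simp only [m4, h0, norm_zero, e1, e2, e3]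
  ring

/-- Fubini-Study square norm of `v` at `p` -/
def fs (p v : E) : ℝ := (‖v‖ ^ 2 * ‖p‖ ^ 2 - ‖inner ℂ p v‖ ^ 2) / ‖p‖ ^ 4

theorem fs_nonneg (p v : E) : 0 ≤ fs p v := by
  have h := norm_inner_le_norm (𝕜 := ℂ) p v
  have h2 := pow_le_pow_left₀ (norm_nonneg _) h 2
  exact div_nonneg (by nlinarith) (by positivity)


theorem norm_sub_proj_sq (p v : E) (hp : p ≠ 0) :
    ‖v - (inner ℂ p v / (‖p‖ : ℂ) ^ 2) • p‖ ^ 2 / ‖p‖ ^ 2 = fs p v := by
  have hp' : ‖p‖ ≠ 0 := norm_ne_zero_iff.2 hp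
  have hpc : (‖p‖ : ℂ) ≠ 0 := by exact_mod_cast hp'
  have h1 : ‖(inner ℂ p v / (‖p‖ : ℂ) ^ 2) • p‖ ^ 2 = ‖inner ℂ p v‖ ^ 2 / ‖p‖ ^ 2 := by
    rw [norm_smul, norm_div, norm_pow, Complex.norm_real, norm_norm, mul_pow, div_pow]
    field_simp
  have h2 : RCLike.re (inner ℂ v ((inner ℂ p v / (‖p‖ : ℂ) ^ 2) • p))
      = ‖inner ℂ p v‖ ^ 2 / ‖p‖ ^ 2 := by
    rw [inner_smul_right]
    have h3 : inner ℂ v p = (starRingEnd ℂ) (inner ℂ p v) := (inner_conj_symm v p).symm
    rw [h3]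
    have h4 : inner ℂ p v / (‖p‖ : ℂ) ^ 2 * (starRingEnd ℂ) (inner ℂ p v)
        = ((‖inner ℂ p v‖ ^ 2 / ‖p‖ ^ 2 : ℝ) : ℂ) := by
      rw [div_mul_eq_mul_div, Complex.mul_conj, Complex.normSq_eq_norm_sq]
      push_cast
      rfl
    rw [h4]
    exact Complex.ofReal_re _
  rw [@norm_sub_sq ℂ, h1, h2, fs]
  field_simp
  ring

/-- `(∀ δ > 0, ∂∂̄ u ≥ c - δ) → ∂∂̄ u ≥ c` -/
theorem lge_of_forall {u : ℂ → ℝ} {z : ℂ} {c : ℝ} (h : ∀ δ > 0, LGe u z (c - δ)) : LGe u z c := by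
  intro ε hε
  filter_upwards [h (ε / 2) (half_pos hε) (ε / 2) (half_pos hε)] with w hw
  refine le_trans (le_of_eq ?_) hw
  ring

theorem hasL_log_one_add {y : ℂ → ℝ} {z : ℂ} {c : ℝ} (hy : HasL y z c) (hc : 0 ≤ c)
    (hy0 : ∀ x, 0 ≤ y x) (hyz : y z = 0) (hcont : ContinuousAt y z) :
    HasL (fun x => Real.log (1 + y x)) z c := by
  rw [hasL_iff]
  constructor
  · refine lge_of_forall fun δ hδ => ?_
    obtain ⟨e, he0, he1, he2⟩ : ∃ e : ℝ, 0 < e ∧ e < 1 ∧ e * c ≤ δ := by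
      refine ⟨min (1 / 2) (δ / (c + 1)), by positivity, ?_, ?_⟩
      · exact (min_le_left _ _).trans_lt (by norm_num)
      · calc min (1 / 2) (δ / (c + 1)) * c ≤ δ / (c + 1) * c :=
              mul_le_mul_of_nonneg_right (min_le_right _ _) hc
          _ ≤ δ := by
              rw [div_mul_eq_mul_div, div_le_iff₀ (by positivity)]
              nlinarith
    have h1 : LGe (fun x => (1 - e) * y x) z (c - δ) :=
      ((hy.const_mul (1 - e)).lge).mono (by nlinarith)
    refine h1.of_le ?_ (by simp [hyz])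
    have h2 : ∀ᶠ x in 𝓝 z, y x < e := hcont.eventually (gt_mem_nhds (by rwa [hyz]))
    filter_upwards [h2] with x hx
    have h3 := Real.one_sub_inv_le_log_of_pos (x := 1 + y x) (by linarith [hy0 x])
    refine le_trans ?_ h3
    have h4 : 1 - (1 + y x)⁻¹ = y x / (1 + y x) := by
      have : 1 + y x ≠ 0 := by linarith [hy0 x]
      field_simp
      ring
    rw [h4, le_div_iff₀ (by linarith [hy0 x])]
    nlinarith [hy0 x, mul_nonneg (hy0 x) (hy0 x)]
  · refine hy.lle.of_ge (Eventually.of_forall fun x => ?_) (by simp [hyz])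
    have := Real.log_le_sub_one_of_pos (x := 1 + y x) (by linarith [hy0 x])
    linarith

/-- `∂∂̄ log ‖F‖²` for a holomorphic vector valued function -/
theorem hasL_log_normSq {F : ℂ → E} {z : ℂ} (hF : AnalyticAt ℂ F z) (h0 : F z ≠ 0) :
    HasL (fun x => Real.log (‖F x‖ ^ 2)) z (fs (F z) (deriv F z)) := by
  set p := F z with hp
  have hp' : ‖p‖ ≠ 0 := norm_ne_zero_iff.2 h0
  have hp2 : 0 < ‖p‖ := norm_pos_iff.2 h0
  have hpc : (‖p‖ : ℂ) ≠ 0 := by exact_mod_cast hp'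
  set s : ℂ → ℂ := fun x => inner ℂ p (F x) / (‖p‖ : ℂ) ^ 2 with hs
  have hs_an : AnalyticAt ℂ s z := by
    have h1 : AnalyticAt ℂ (fun x => (innerSL ℂ p) (F x)) z :=
      ((innerSL ℂ p).analyticAt _).comp hF
    exact h1.div_const
  have hsz : s z = 1 := by
    simp only [hs, ← hp, inner_self_eq_norm_sq_to_K]
    exact div_self (pow_ne_zero 2 hpc)
  have hs_d : HasDerivAt s (inner ℂ p (deriv F z) / (‖p‖ : ℂ) ^ 2) z := by
    have h1 : HasDerivAt (fun x => (innerSL ℂ p) (F x)) ((innerSL ℂ p) (deriv F z)) z :=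
      (innerSL ℂ p).hasFDerivAt.comp_hasDerivAt z hF.differentiableAt.hasDerivAt
    exact h1.div_const _
  set q : ℂ → E := fun x => (s x)⁻¹ • F x - p with hq
  have hq_d : HasDerivAt q
      (deriv F z - (inner ℂ p (deriv F z) / (‖p‖ : ℂ) ^ 2) • p) z := by
    have h1 := (hs_d.inv (by rw [hsz]; exact one_ne_zero)).smul
      hF.differentiableAt.hasDerivAt
    have h2 := h1.sub_const p
    refine h2.congr_deriv ?_
    rw [Pi.inv_apply, hsz, ← hp]
    simp
    abel
  have hqz : q z = 0 := by simp [hq, hsz, ← hp]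
  have hne : ∀ᶠ x in 𝓝 z, s x ≠ 0 :=
    hs_an.continuousAt.eventually_ne (by rw [hsz]; exact one_ne_zero)
  have hy : HasL (fun x => (1 / ‖p‖ ^ 2) * ‖q x‖ ^ 2) z (fs p (deriv F z)) := by
    have := (hasL_normSq_zero hq_d hqz).const_mul (1 / ‖p‖ ^ 2)
    rw [← norm_sub_proj_sq p _ h0]
    refine Eq.subst (motive := fun t => HasL _ z t) ?_ this
    ring
  have hlog := hasL_log_one_add hy (fs_nonneg _ _) (fun x => by positivity)
    (by simp [hqz]) ((hq_d.continuousAt.norm.pow 2).const_mul _)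
  have hs_log := (hasL_log_norm hs_an (by rw [hsz]; exact one_ne_zero)).const_mul 2
  have htot := (hs_log.add (hasL_const (Real.log (‖p‖ ^ 2)) z)).add hlog
  have e0 : (2 * 0 + 0 + fs p (deriv F z) : ℝ) = fs p (deriv F z) := by ring
  rw [e0] at htot
  refine htot.congr ?_
  filter_upwards [hne] with x hx
  have hFx : F x = s x • (p + q x) := by
    simp only [hq]
    rw [add_sub_cancel, smul_smul, mul_inv_cancel₀ hx, one_smul]
  have horth : inner ℂ p (q x) = 0 := by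
    simp only [hq]
    rw [inner_sub_right, inner_smul_right, inner_self_eq_norm_sq_to_K]
    have : inner ℂ p (F x) = s x * (‖p‖ : ℂ) ^ 2 := by
      simp only [hs]
      field_simp
    rw [this, ← mul_assoc, inv_mul_cancel₀ hx, one_mul]
    exact sub_self _
  have hpyth : ‖p + q x‖ ^ 2 = ‖p‖ ^ 2 + ‖q x‖ ^ 2 := by
    have := @norm_add_sq ℂ _ _ _ _ p (q x)
    rw [this, horth]
    simp
  have hsx : 0 < ‖s x‖ := norm_pos_iff.2 hx
  have hnF : ‖F x‖ ^ 2 = ‖s x‖ ^ 2 * (‖p‖ ^ 2 * (1 + 1 / ‖p‖ ^ 2 * ‖q x‖ ^ 2)) := by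
    conv_lhs => rw [hFx]
    rw [norm_smul, mul_pow, hpyth]
    field_simp
  have hpos : (0 : ℝ) < 1 + 1 / ‖p‖ ^ 2 * ‖q x‖ ^ 2 := by positivity
  rw [hnF, Real.log_mul (by positivity) (by positivity), Real.log_mul (by positivity) hpos.ne',
    show Real.log (‖s x‖ ^ 2) = 2 * Real.log ‖s x‖ by
      rw [Real.log_pow]; norm_num]
  ring

end Vec

/-! ### barrier -/

theorem HasL.comp {u : ℂ → ℝ} {z : ℂ} {c G : ℝ} {φ : ℝ → ℝ} {φ1 φ2 : ℝ} (hu : HasL u z c)
    (hG : HasL (fun x => (u x - u z) ^ 2) z G)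
    (hO : (fun w => u (z + w) - u z) =O[𝓝 0] fun w : ℂ => ‖w‖)
    (hφ : (fun y => φ (u z + y) - φ (u z) - φ1 * y - φ2 / 2 * y ^ 2) =o[𝓝 0]
      fun y : ℝ => y ^ 2) :
    HasL (fun x => φ (u x)) z (φ1 * c + φ2 / 2 * G) := by
  have hT : Tendsto (fun w => u (z + w) - u z) (𝓝 0) (𝓝 0) := by
    refine hO.trans_tendsto ?_
    simpa using (continuous_norm (E := ℂ)).tendsto 0
  set e : ℂ → ℝ := fun w => φ (u (z + w)) - φ (u z) - φ1 * (u (z + w) - u z)
    - φ2 / 2 * (u (z + w) - u z) ^ 2 with he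
  have h1 : e =o[𝓝 0] fun w : ℂ => ‖w‖ ^ 2 := by
    have h2 := hφ.comp_tendsto hT
    have h3 : (fun w => (u (z + w) - u z) ^ 2) =O[𝓝 0] fun w : ℂ => ‖w‖ ^ 2 := hO.pow 2
    refine (h2.trans_isBigO h3).congr_left fun w => ?_
    simp only [Function.comp, he]
    rw [add_sub_cancel]
  have hc : ∀ a : ℂ, ‖a‖ = 1 → (fun w : ℂ => e (a * w)) =o[𝓝 0] fun w : ℂ => ‖w‖ ^ 2 := by
    intro a ha
    have ht : Tendsto (fun w : ℂ => a * w) (𝓝 0) (𝓝 0) := by
      have : Continuous fun w : ℂ => a * w := by fun_prop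
      simpa using this.tendsto 0
    refine (h1.comp_tendsto ht).congr_right fun w => ?_
    simp [ha]
  have htot := ((((hc 1 (by simp)).add (hc I (by simp))).add (hc (-1) (by simp))).add
    (hc (-I) (by simp))).const_mul_left (1 / 4)
  have h5 := (htot.add (IsLittleO.const_mul_left hu φ1)).add
    (IsLittleO.const_mul_left hG (φ2 / 2))
  refine h5.congr_left fun w => ?_
  have e1 : (1 * w) = w := one_mul w
  have e2 : z + (-1 * w) = z - w := by ring
  have e3 : z + (-I * w) = z - I * w := by ring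
  simp only [m4, he, e1, e2, e3]
  ring

theorem hasL_normSq_sq (z : ℂ) :
    HasL (fun x => (‖x‖ ^ 2 - ‖z‖ ^ 2) ^ 2) z (2 * ‖z‖ ^ 2) := by
  have hlo : (fun w : ℂ => ‖w‖ ^ 2 * ‖w‖ ^ 2) =o[𝓝 0] fun w : ℂ => ‖w‖ ^ 2 := by
    have h1 : (fun w : ℂ => ‖w‖ ^ 2) =o[𝓝 0] fun _ : ℂ => (1 : ℝ) := by
      rw [isLittleO_one_iff]
      have : Continuous fun w : ℂ => ‖w‖ ^ 2 := by fun_prop
      simpa using this.tendsto 0
    have h2 := h1.mul_isBigO (isBigO_refl (fun w : ℂ => ‖w‖ ^ 2) (𝓝 0))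
    simpa using h2
  refine hlo.congr_left fun w => ?_
  simp only [m4, ← Complex.normSq_eq_norm_sq, Complex.normSq_apply]
  simp only [add_re, add_im, sub_re, sub_im, mul_re, mul_im, I_re, I_im]
  ring

theorem normSq_isBigO (z : ℂ) :
    (fun w => ‖z + w‖ ^ 2 - ‖z‖ ^ 2) =O[𝓝 0] fun w : ℂ => ‖w‖ := by
  refine IsBigO.of_bound (2 * ‖z‖ + 1) ?_
  filter_upwards [Metric.ball_mem_nhds (0 : ℂ) one_pos] with w hw
  rw [mem_ball_zero_iff] at hw
  have h1 : |‖z + w‖ - ‖z‖| ≤ ‖w‖ := by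
    have := abs_norm_sub_norm_le (z + w) z
    simpa using this
  have h2 : ‖z + w‖ ≤ ‖z‖ + ‖w‖ := norm_add_le _ _
  have e : ‖z + w‖ ^ 2 - ‖z‖ ^ 2 = (‖z + w‖ - ‖z‖) * (‖z + w‖ + ‖z‖) := by ring
  rw [e, norm_mul, Real.norm_eq_abs, norm_norm, Real.norm_eq_abs,
    abs_of_nonneg (by positivity : 0 ≤ ‖z + w‖ + ‖z‖)]
  nlinarith [abs_nonneg (‖z + w‖ - ‖z‖), norm_nonneg w, norm_nonneg z, norm_nonneg (z + w),
    mul_le_mul h1 (by linarith : ‖z + w‖ + ‖z‖ ≤ 2 * ‖z‖ + 1) (by positivity) (norm_nonneg w)]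

/-- second order expansion of `log (A - s)` -/
theorem log_peano (A s : ℝ) (h : s < A) :
    (fun y => Real.log (A - (s + y)) - Real.log (A - s) - (-(1 / (A - s))) * y
      - (-(1 / (A - s) ^ 2)) / 2 * y ^ 2) =o[𝓝 0] fun y : ℝ => y ^ 2 := by
  set t := A - s with ht
  have ht0 : 0 < t := by rw [ht]; linarith
  have hO : (fun y => Real.log (A - (s + y)) - Real.log t - (-(1 / t)) * y
      - (-(1 / t ^ 2)) / 2 * y ^ 2) =O[𝓝 0] fun y : ℝ => y ^ 3 := by
    refine IsBigO.of_bound (2 / t ^ 3) ?_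
    filter_upwards [Metric.ball_mem_nhds (0 : ℝ) (half_pos ht0)] with y hy
    rw [mem_ball_zero_iff, Real.norm_eq_abs] at hy
    have hyt : |y / t| < 1 / 2 := by
      rw [abs_div, abs_of_pos ht0, div_lt_iff₀ ht0]; linarith
    have h1 := Real.abs_log_sub_add_sum_range_le (x := y / t) (by linarith) 2
    simp only [Finset.sum_range_succ, Finset.sum_range_zero] at h1
    have e1 : Real.log (A - (s + y)) = Real.log t + Real.log (1 - y / t) := by
      rw [← Real.log_mul ht0.ne' (by linarith [(abs_lt.1 hyt).2])]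
      congr 1
      field_simp
      rw [ht]; ring
    have e2 : Real.log (A - (s + y)) - Real.log t - (-(1 / t)) * y
      - (-(1 / t ^ 2)) / 2 * y ^ 2 = (0 + (y / t) ^ (0 + 1) / ((0 : ℕ) + 1)
        + (y / t) ^ (1 + 1) / ((1 : ℕ) + 1)) + Real.log (1 - y / t) := by
      rw [e1]
      push_cast
      field_simp
      ring
    rw [e2, Real.norm_eq_abs]
    refine h1.trans ?_
    rw [Real.norm_eq_abs, abs_pow]
    have h3 : |y / t| ^ (2 + 1) = |y| ^ 3 / t ^ 3 := by
      rw [abs_div, abs_of_pos ht0, div_pow]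
    rw [h3, div_le_iff₀ (by linarith)]
    have h4 : 0 ≤ |y| ^ 3 / t ^ 3 := by positivity
    have h5 : 2 / t ^ 3 * |y| ^ 3 * (1 - |y / t|) = 2 * (|y| ^ 3 / t ^ 3) * (1 - |y / t|) := by
      ring
    rw [h5]
    nlinarith
  refine hO.trans_isLittleO ?_
  have h1 : (fun y : ℝ => y) =o[𝓝 0] fun _ : ℝ => (1 : ℝ) := by
    rw [isLittleO_one_iff]; exact tendsto_id
  have h2 := h1.mul_isBigO (isBigO_refl (fun y : ℝ => y ^ 2) (𝓝 0))
  refine (h2.congr_left fun y => ?_).congr_right fun y => ?_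
  · ring
  · ring

/-- the barrier -/
def bar (η : ℝ) (x : ℂ) : ℝ := Real.log (1 + η - ‖x‖ ^ 2)

theorem hasL_bar {η : ℝ} {z : ℂ} (h : ‖z‖ ^ 2 < 1 + η) :
    HasL (bar η) z (-(1 + η) / (1 + η - ‖z‖ ^ 2) ^ 2) := by
  have h1 := HasL.comp (φ := fun s => Real.log (1 + η - s)) (hasL_normSq z) (hasL_normSq_sq z)
    (normSq_isBigO z) (log_peano (1 + η) (‖z‖ ^ 2) h)
  have e : -(1 / (1 + η - ‖z‖ ^ 2)) * 1 + -(1 / (1 + η - ‖z‖ ^ 2) ^ 2) / 2 * (2 * ‖z‖ ^ 2)
      = -(1 + η) / (1 + η - ‖z‖ ^ 2) ^ 2 := by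
    have : 1 + η - ‖z‖ ^ 2 ≠ 0 := by linarith
    field_simp
    ring
  rw [e] at h1
  exact h1

theorem bar_cont {η : ℝ} (hη : 0 < η) : ContinuousOn (bar η) (closedBall 0 1) := by
  intro x hx
  rw [mem_closedBall_zero_iff] at hx
  have : 1 + η - ‖x‖ ^ 2 ≠ 0 := by nlinarith [norm_nonneg x]
  have h1 : ContinuousAt (fun x : ℂ => 1 + η - ‖x‖ ^ 2) x := by fun_prop
  exact (h1.log this).continuousWithinAt

/-- (4.5), lower form: `∂∂̄ u ≥ -c/(1+η-|z|²)²` gives `u(0) ≤ avg u + c log ((1+η)/η)` -/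
theorem le_avg_add {u : ℂ → ℝ} {c η : ℝ} (hη : 0 < η) (hc : 0 ≤ c)
    (hu : ContinuousOn u (closedBall 0 1))
    (hL : ∀ z ∈ ball (0 : ℂ) 1, LGe u z (-(c / (1 + η - ‖z‖ ^ 2) ^ 2))) :
    u 0 ≤ circleAverage u 0 1 + c * Real.log ((1 + η) / η) := by
  have h1 : ContinuousOn (fun x => u x + -c * bar η x) (closedBall 0 1) :=
    hu.add (continuousOn_const.mul (bar_cont hη))
  have h2 : ∀ z ∈ ball (0 : ℂ) 1, LGe (fun x => u x + -c * bar η x) z 0 := by
    intro z hz
    have hz1 : ‖z‖ < 1 := by rwa [mem_ball_zero_iff] at hz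
    have hz2 : ‖z‖ ^ 2 < 1 + η := by nlinarith [norm_nonneg z]
    have h3 := (hL z hz).add ((hasL_bar hz2).const_mul (-c)).lge
    refine h3.mono ?_
    have h4 : 0 < (1 + η - ‖z‖ ^ 2) ^ 2 := by
      have : 0 < 1 + η - ‖z‖ ^ 2 := by linarith
      positivity
    have e : -(c / (1 + η - ‖z‖ ^ 2) ^ 2) + -c * (-(1 + η) / (1 + η - ‖z‖ ^ 2) ^ 2)
        = c * η / (1 + η - ‖z‖ ^ 2) ^ 2 := by
      field_simp
      ring
    rw [e]
    positivity
  have h3 := le_circleAverage one_pos h1 h2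
  have h4 : circleAverage (fun x => u x + -c * bar η x) 0 1
      = circleAverage u 0 1 + -c * Real.log η := by
    have e1 : Set.EqOn (fun x => u x + -c * bar η x) (fun x => u x + -c * Real.log η)
        (sphere 0 |1|) := by
      intro x hx
      rw [abs_one, mem_sphere_zero_iff_norm] at hx
      simp [bar, hx]
    rw [circleAverage_congr_sphere e1]
    have hci : CircleIntegrable u 0 1 := by
      refine ContinuousOn.circleIntegrable (by norm_num) (hu.mono sphere_subset_closedBall)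
    have := circleAverage_fun_add hci (circleIntegrable_const (-c * Real.log η) 0 1)
    rw [this, circleAverage_const]
  rw [h4] at h3
  have e2 : bar η 0 = Real.log (1 + η) := by simp [bar]
  rw [e2] at h3
  rw [Real.log_div (by positivity) hη.ne']
  nlinarith

/-- (4.5), upper form -/
theorem avg_le_add {u : ℂ → ℝ} {c η : ℝ} (hη : 0 < η) (hc : 0 ≤ c)
    (hu : ContinuousOn u (closedBall 0 1))
    (hL : ∀ z ∈ ball (0 : ℂ) 1, LLe u z (c / (1 + η - ‖z‖ ^ 2) ^ 2)) :
    circleAverage u 0 1 ≤ u 0 + c * Real.log ((1 + η) / η) := by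
  have h := le_avg_add (u := fun x => -u x) hη hc hu.neg fun z hz => (hL z hz).neg
  have e : circleAverage (fun x => -u x) 0 1 = -circleAverage u 0 1 := by
    have := circleAverage_fun_smul (a := (-1 : ℝ)) (f := u) (c := 0) (R := 1)
    simpa using this
  rw [e] at h
  linarith

/-- (4.5), bound of frames: `φ = |V|²`, `∂∂̄ log φ ≥ -c/(1+η-|z|²)²` where `φ > 0`, `φ ≤ M` on the
circle, gives `φ(z) ≤ M ((1+η-|z|²)/η)^c` -/
theorem norm_bound {φ : ℂ → ℝ} {M c η : ℝ} (hη : 0 < η) (hc : 0 ≤ c) (hM : 0 ≤ M)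
    (hφ : ContinuousOn φ (closedBall 0 1))
    (hL : ∀ z ∈ ball (0 : ℂ) 1, 0 < φ z →
      LGe (fun x => Real.log (φ x)) z (-(c / (1 + η - ‖z‖ ^ 2) ^ 2)))
    (hb : ∀ z, ‖z‖ = 1 → φ z ≤ M) :
    ∀ z, ‖z‖ ≤ 1 → φ z ≤ M * ((1 + η - ‖z‖ ^ 2) / η) ^ c := by
  intro z hz
  have hcl : closure (ball (0 : ℂ) 1) = closedBall 0 1 := closure_ball _ one_ne_zero
  have hfr : frontier (ball (0 : ℂ) 1) = sphere 0 1 := frontier_ball _ one_ne_zero
  have key := max_principle_log (Ω := ball (0 : ℂ) 1) isOpen_ball isBounded_ball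
    (φ := φ) (B := fun x => -c * bar η x) (M := M * Real.exp (-c * Real.log η)) (by positivity)
    (by rwa [hcl]) (by rw [hcl]; exact continuousOn_const.mul (bar_cont hη))
    (fun x hx hpos => by
      have hx1 : ‖x‖ < 1 := by rwa [mem_ball_zero_iff] at hx
      have hx2 : ‖x‖ ^ 2 < 1 + η := by nlinarith [norm_nonneg x]
      refine ((hL x hx hpos).add ((hasL_bar hx2).const_mul (-c)).lge).mono ?_
      have h4 : 0 < (1 + η - ‖x‖ ^ 2) ^ 2 := by
        have : 0 < 1 + η - ‖x‖ ^ 2 := by linarith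
        positivity
      have e : -(c / (1 + η - ‖x‖ ^ 2) ^ 2) + -c * (-(1 + η) / (1 + η - ‖x‖ ^ 2) ^ 2)
          = c * η / (1 + η - ‖x‖ ^ 2) ^ 2 := by
        field_simp
        ring
      rw [e]
      positivity)
    (fun x hx => by
      rw [hfr, mem_sphere_zero_iff_norm] at hx
      have : bar η x = Real.log η := by simp [bar, hx]
      rw [this]
      exact mul_le_mul_of_nonneg_right (hb x hx) (Real.exp_pos _).le)
    z (by rw [hcl, mem_closedBall_zero_iff]; exact hz)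
  have hpos : 0 < 1 + η - ‖z‖ ^ 2 := by nlinarith [norm_nonneg z]
  rw [Real.rpow_def_of_pos (by positivity), Real.log_div hpos.ne' hη.ne']
  have e1 : φ z = φ z * Real.exp (-c * bar η z) * Real.exp (c * bar η z) := by
    rw [mul_assoc, ← Real.exp_add]
    simp
  have e2 : M * Real.exp ((Real.log (1 + η - ‖z‖ ^ 2) - Real.log η) * c)
      = M * Real.exp (-c * Real.log η) * Real.exp (c * bar η z) := by
    rw [mul_assoc, ← Real.exp_add]
    congr 2
    simp only [bar]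
    ring
  rw [e1, e2]
  exact mul_le_mul_of_nonneg_right key (Real.exp_pos _).le

/-- small discs: `∂∂̄ u ≥ -c` gives `u(a) ≤ avg u + c R²` -/
theorem le_avg_add_ball {u : ℂ → ℝ} {a : ℂ} {c R : ℝ} (hR : 0 < R)
    (hu : ContinuousOn u (closedBall a R)) (hL : ∀ z ∈ ball a R, LGe u z (-c)) :
    u a ≤ circleAverage u a R + c * R ^ 2 := by
  have hq : ∀ z, HasL (fun x => ‖x - a‖ ^ 2) z 1 := by
    intro z
    refine (isLittleO_zero (fun w : ℂ => ‖w‖ ^ 2) (𝓝 0)).congr_left fun w => ?_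
    simp only [m4, ← Complex.normSq_eq_norm_sq, Complex.normSq_apply]
    simp only [add_re, add_im, sub_re, sub_im, mul_re, mul_im, I_re, I_im]
    ring
  have h1 : ContinuousOn (fun x => u x + c * ‖x - a‖ ^ 2) (closedBall a R) :=
    hu.add (by fun_prop)
  have h2 : ∀ z ∈ ball a R, LGe (fun x => u x + c * ‖x - a‖ ^ 2) z 0 := by
    intro z hz
    refine ((hL z hz).add ((hq z).const_mul c).lge).mono ?_
    linarith
  have h3 := le_circleAverage hR h1 h2
  have h4 : circleAverage (fun x => u x + c * ‖x - a‖ ^ 2) a R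
      = circleAverage u a R + c * R ^ 2 := by
    have e1 : Set.EqOn (fun x => u x + c * ‖x - a‖ ^ 2) (fun x => u x + c * R ^ 2)
        (sphere a |R|) := by
      intro x hx
      rw [abs_of_pos hR, mem_sphere, dist_eq_norm] at hx
      simp [hx]
    rw [circleAverage_congr_sphere e1]
    have hci : CircleIntegrable u a R :=
      ContinuousOn.circleIntegrable hR.le (hu.mono sphere_subset_closedBall)
    have := circleAverage_fun_add hci (circleIntegrable_const (c * R ^ 2) a R)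
    rw [this, circleAverage_const]
  rw [h4] at h3
  simpa using h3

theorem avg_le_add_ball {u : ℂ → ℝ} {a : ℂ} {c R : ℝ} (hR : 0 < R)
    (hu : ContinuousOn u (closedBall a R)) (hL : ∀ z ∈ ball a R, LLe u z c) :
    circleAverage u a R ≤ u a + c * R ^ 2 := by
  have h := le_avg_add_ball (u := fun x => -u x) hR hu.neg fun z hz => (hL z hz).neg
  have e : circleAverage (fun x => -u x) a R = -circleAverage u a R := by
    have := circleAverage_fun_smul (a := (-1 : ℝ)) (f := u) (c := a) (R := R)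
    simpa using this
  rw [e] at h
  linarith

/-- `1/(1-|z|+η)² ≤ 4/(1+η-|z|²)²` -/
theorem bar_compare {η : ℝ} {z : ℂ} (hη : 0 < η) (hz : ‖z‖ < 1) :
    1 / (1 - ‖z‖ + η) ^ 2 ≤ 4 / (1 + η - ‖z‖ ^ 2) ^ 2 := by
  have h1 : 0 < 1 - ‖z‖ + η := by linarith
  have h2 : 0 < 1 + η - ‖z‖ ^ 2 := by nlinarith [norm_nonneg z]
  have h3 : 1 + η - ‖z‖ ^ 2 ≤ 2 * (1 - ‖z‖ + η) := by nlinarith [norm_nonneg z]
  rw [div_le_div_iff₀ (by positivity) (by positivity)]
  nlinarith [mul_le_mul h3 h3 h2.le (by positivity)]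

end Crest.Agent.R269.LevP_79
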