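import Mathlib
import Crest.Agent.R269.LevP_79
import Crest.Agent.R269.Half_993

/-!
# R269 (S0411), LINE B, (11) = (A_δ), disc part in the OPEN disc (helper993)

For a normalised lift `H : D → Cone`, the Wold frame `V` of `(H, a)` and the section `s` of `m K_X - A`:
`h = log |H|²` (`≤ 0`, circle averages `→ 0`), `d = log DD(H, V)`, `S(z) = s(H(z), V(z))` holomorphic,
`ns(H) = ‖S‖² exp(h - m d)`.

* `mono_log`    : `avg_r log(‖S‖² + t)` is nondecreasing in `r`;
* `avg_S_le`    : `avg_{1/2} log(‖S‖² + t) ≤ log 2 + B + m C₁`, `0 < t ≤ 1`;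
* `avg_ns_le`   : `avg_{1/2} log(ns + τ) ≤ log 2 + B + m C₁ + avg_{1/2}(h - m d)`;
* `rate`        : lower bound of the summed second variation by `exp(-k_δ/n)`.
-/

set_option autoImplicit false

open Set Filter Topology Metric Real

noncomputable section

namespace Crest.Agent.R269.Half2_993

open Crest.Agent.R269.Half_993 Crest.Agent.R269.SubM_79 Crest.Agent.R269.LevP_79

theorem mono_log {S : ℂ → ℂ} (hS : DifferentiableOn ℂ S (ball 0 1)) {t : ℝ} (ht : 0 < t)
    {r ρ : ℝ} (hr : 0 ≤ r) (hrρ : r ≤ ρ) (hρ : ρ < 1) :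
    circleAverage (fun z => Real.log (‖S z‖ ^ 2 + t)) 0 r ≤
      circleAverage (fun z => Real.log (‖S z‖ ^ 2 + t)) 0 ρ := by
  have hsub : closedBall (0 : ℂ) ρ ⊆ ball 0 1 := closedBall_subset_ball hρ
  refine circleAverage_mono_radius hr hrρ ?_ ?_
  · exact (((hS.continuousOn.mono hsub).norm.pow 2).add continuousOn_const).log
      fun z _ => (by positivity : 0 < ‖S z‖ ^ 2 + t).ne'
  · intro z hz
    have hz' : z ∈ ball (0 : ℂ) 1 := ball_subset_ball hρ.le hz
    have hSa : AnalyticAt ℂ S z := hS.analyticAt (isOpen_ball.mem_nhds hz')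
    set F : ℂ → EuclideanSpace ℂ (Fin 2) := fun z => !₂[S z, ((√t : ℝ) : ℂ)] with hF
    have hFn : ∀ z, ‖F z‖ ^ 2 = ‖S z‖ ^ 2 + t := by
      intro z
      rw [EuclideanSpace.norm_sq_eq]
      simp [hF, Fin.sum_univ_two, Real.sq_sqrt ht.le]
    have hFa : AnalyticAt ℂ F z := by
      have h1 : AnalyticAt ℂ (fun z => ![S z, ((√t : ℝ) : ℂ)]) z := by
        refine AnalyticAt.pi fun i => ?_
        fin_cases i
        · exact hSa
        · exact analyticAt_const
      exact ((PiLp.continuousLinearEquiv 2 ℂ (fun _ : Fin 2 => ℂ)).symm.toContinuousLinearMap.analyticAt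
        _).comp h1
    have hF0 : F z ≠ 0 := by
      intro h0
      have := hFn z
      rw [h0, norm_zero] at this
      have : 0 < ‖S z‖ ^ 2 + t := by positivity
      simp_all
    have h2 := (hasL_log_normSq hFa hF0).lge.mono (fs_nonneg _ _)
    simpa only [hFn] using h2

/-- the data of one disc (normalised lift `H`, frame `V`) -/
structure Dat where
  /-- `log |H|²` -/
  h : ℂ → ℝ
  /-- `log DD(H, V)` -/
  d : ℂ → ℝ
  /-- `s(H, V)` -/
  S : ℂ → ℂ
  hc : ContinuousOn h (ball 0 1)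
  dc : ContinuousOn d (ball 0 1)
  Sd : DifferentiableOn ℂ S (ball 0 1)
  hle : ∀ z ∈ ball (0 : ℂ) 1, h z ≤ 0
  /-- circle averages of `P = -h` tend to zero -/
  hP : ∀ ε > 0, ∀ r₀ < 1, ∃ ρ, r₀ < ρ ∧ 0 ≤ ρ ∧ ρ < 1 ∧ -ε ≤ circleAverage h 0 ρ

namespace Dat

variable (D : Dat)

theorem sub {r : ℝ} (h0 : 0 ≤ r) (h1 : r < 1) : sphere (0 : ℂ) |r| ⊆ ball 0 1 := by
  rw [abs_of_nonneg h0]
  exact sphere_subset_closedBall.trans (closedBall_subset_ball h1)

theorem half_sub : sphere (0 : ℂ) |(1 / 2 : ℝ)| ⊆ ball 0 1 := sub (by norm_num) (by norm_num)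

theorem h_half : ContinuousOn D.h (sphere 0 |(1 / 2 : ℝ)|) := D.hc.mono half_sub
theorem d_half : ContinuousOn D.d (sphere 0 |(1 / 2 : ℝ)|) := D.dc.mono half_sub
theorem S_half : ContinuousOn D.S (sphere 0 |(1 / 2 : ℝ)|) := D.Sd.continuousOn.mono half_sub

/-- `ns(H) = |s|²` -/
def s2 (m : ℝ) (z : ℂ) : ℝ := ‖D.S z‖ ^ 2 * Real.exp (D.h z - m * D.d z)

theorem s2_nonneg (m : ℝ) (z : ℂ) : 0 ≤ D.s2 m z := by unfold s2; positivity

theorem s2_half (m : ℝ) : ContinuousOn (D.s2 m) (sphere 0 |(1 / 2 : ℝ)|) :=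
  (D.S_half.norm.pow 2).mul
    (Real.continuous_exp.comp_continuousOn (D.h_half.sub (D.d_half.const_smul m)))

theorem s2_pos (m : ℝ) {τ : ℝ} (hτ : 0 < τ) (z : ℂ) : 0 < D.s2 m z + τ :=
  add_pos_of_nonneg_of_pos (D.s2_nonneg m z) hτ

/-- `avg_{1/2} log(‖S‖² + t) ≤ log 2 + B + m C₁` -/
theorem avg_S_le {m B C₁ C₂ t : ℝ} (hm : 0 ≤ m) (hB : 0 ≤ B) (hC₁ : 0 ≤ C₁) (hC₂ : 0 ≤ C₂)
    (ht : 0 < t) (ht1 : t ≤ 1)
    (hs : ∀ z ∈ ball (0 : ℂ) 1, D.s2 m z ≤ Real.exp B)
    (hd : ∀ z ∈ ball (0 : ℂ) 1, D.d z ≤ C₁ + C₂ * (-D.h z)) :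
    circleAverage (fun z => Real.log (‖D.S z‖ ^ 2 + t)) 0 (1 / 2) ≤
      Real.log 2 + B + m * C₁ := by
  refine le_of_forall_pos_le_add fun ε hε => ?_
  have hK : 0 < m * C₂ + 1 := by positivity
  obtain ⟨ρ, h1, h2, h3, h4⟩ := D.hP (ε / (m * C₂ + 1)) (by positivity) (1 / 2) (by norm_num)
  refine (mono_log D.Sd ht (by norm_num) h1.le h3).trans ?_
  have hsub := sub h2 h3
  have hcS : ContinuousOn (fun z => Real.log (‖D.S z‖ ^ 2 + t)) (sphere 0 |ρ|) :=
    (((D.Sd.continuousOn.mono hsub).norm.pow 2).add continuousOn_const).log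
      fun z _ => (by positivity : 0 < ‖D.S z‖ ^ 2 + t).ne'
  have hch : ContinuousOn D.h (sphere 0 |ρ|) := D.hc.mono hsub
  have hcw : ContinuousOn (fun z => -(m * C₂ + 1) * D.h z) (sphere 0 |ρ|) :=
    continuousOn_const.mul hch
  have h5 : circleAverage (fun z => Real.log (‖D.S z‖ ^ 2 + t)) 0 ρ ≤
      circleAverage (fun z => (Real.log 2 + B + m * C₁) + -(m * C₂ + 1) * D.h z) 0 ρ := by
    refine circleAverage_mono (ci hcS) (ci (continuousOn_const.add hcw)) fun z hz => ?_
    have hz' := hsub hz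
    have e1 := hs z hz'
    have e2 := hd z hz'
    have e3 := D.hle z hz'
    set w := B + m * C₁ + (m * C₂ + 1) * (-D.h z) with hw
    have hw0 : 0 ≤ w := by
      have := mul_nonneg hm hC₁
      have := mul_nonneg hK.le (neg_nonneg.2 e3)
      positivity
    have e4 : ‖D.S z‖ ^ 2 ≤ Real.exp w := by
      have e5 : ‖D.S z‖ ^ 2 = D.s2 m z * Real.exp (m * D.d z - D.h z) := by
        unfold s2
        rw [mul_assoc, ← Real.exp_add]
        simp
      rw [e5]
      calc D.s2 m z * Real.exp (m * D.d z - D.h z)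
          ≤ Real.exp B * Real.exp (m * D.d z - D.h z) :=
            mul_le_mul_of_nonneg_right e1 (Real.exp_pos _).le
        _ = Real.exp (B + (m * D.d z - D.h z)) := by rw [Real.exp_add]
        _ ≤ Real.exp w := by
            refine Real.exp_le_exp.2 ?_
            have := mul_le_mul_of_nonneg_left e2 hm
            rw [hw]
            nlinarith
    have e6 : t ≤ Real.exp w := ht1.trans (Real.one_le_exp hw0)
    calc Real.log (‖D.S z‖ ^ 2 + t) ≤ Real.log (2 * Real.exp w) :=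
          Real.log_le_log (by positivity) (by linarith)
      _ = Real.log 2 + w := by
          rw [Real.log_mul (by norm_num) (Real.exp_pos _).ne', Real.log_exp]
      _ = _ := by rw [hw]; ring
  have h6 : circleAverage (fun z => (Real.log 2 + B + m * C₁) + -(m * C₂ + 1) * D.h z) 0 ρ =
      (Real.log 2 + B + m * C₁) + -(m * C₂ + 1) * circleAverage D.h 0 ρ := by
    rw [circleAverage_fun_add (circleIntegrable_const _ _ _) (ci hcw), circleAverage_const]
    have := circleAverage_fun_smul (𝕜 := ℝ) (a := -(m * C₂ + 1)) (f := D.h) (c := 0) (R := ρ)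
    simp only [smul_eq_mul] at this
    rw [this]
  rw [h6] at h5
  refine h5.trans ?_
  have h7 : (m * C₂ + 1) * (-circleAverage D.h 0 ρ) ≤ ε := by
    have : -circleAverage D.h 0 ρ ≤ ε / (m * C₂ + 1) := by linarith
    calc (m * C₂ + 1) * (-circleAverage D.h 0 ρ) ≤ (m * C₂ + 1) * (ε / (m * C₂ + 1)) :=
          mul_le_mul_of_nonneg_left this hK.le
      _ = ε := by field_simp
  linarith

/-- `avg_{1/2} log(ns + τ) ≤ K + avg_{1/2}(h - m d)` if `avg_{1/2} log(‖S‖² + t) ≤ K`, `0 < t ≤ 1` -/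
theorem avg_ns_le {m K R τ : ℝ} (hτ : 0 < τ) (hR : τ * Real.exp R ≤ 1)
    (hb : ∀ z ∈ sphere (0 : ℂ) (1 / 2), m * D.d z - D.h z ≤ R)
    (hK : ∀ t : ℝ, 0 < t → t ≤ 1 →
      circleAverage (fun z => Real.log (‖D.S z‖ ^ 2 + t)) 0 (1 / 2) ≤ K) :
    circleAverage (fun z => Real.log (D.s2 m z + τ)) 0 (1 / 2) ≤
      K + circleAverage (fun z => D.h z - m * D.d z) 0 (1 / 2) := by
  have hE : 0 < Real.exp R := Real.exp_pos _
  set t := τ * Real.exp R with ht
  have ht0 : 0 < t := mul_pos hτ hE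
  have hs : ContinuousOn (fun z => Real.log (‖D.S z‖ ^ 2 + t)) (sphere 0 |(1 / 2 : ℝ)|) :=
    ((D.S_half.norm.pow 2).add continuousOn_const).log
      fun z _ => (by positivity : 0 < ‖D.S z‖ ^ 2 + t).ne'
  have hhd : ContinuousOn (fun z => D.h z - m * D.d z) (sphere 0 |(1 / 2 : ℝ)|) :=
    D.h_half.sub (D.d_half.const_smul m)
  have step1 : circleAverage (fun z => Real.log (D.s2 m z + τ)) 0 (1 / 2) ≤
      circleAverage (fun z => Real.log (‖D.S z‖ ^ 2 + t) + (D.h z - m * D.d z)) 0 (1 / 2) := by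
    refine circleAverage_mono ?_ (ci (hs.add hhd)) fun z hz => ?_
    · exact ci (((D.s2_half m).add continuousOn_const).log fun z _ => (D.s2_pos m hτ z).ne')
    · have hz' : z ∈ sphere (0 : ℂ) (1 / 2) := by
        rwa [abs_of_pos (by norm_num : (0 : ℝ) < 1 / 2)] at hz
      have e1 := Real.exp_pos (D.h z - m * D.d z)
      have h2 : D.s2 m z + τ ≤ (‖D.S z‖ ^ 2 + t) * Real.exp (D.h z - m * D.d z) := by
        unfold s2
        have h3 : 1 ≤ Real.exp R * Real.exp (D.h z - m * D.d z) := by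
          rw [← Real.exp_add, Real.one_le_exp_iff]
          linarith [hb z hz']
        have h4 : τ ≤ t * Real.exp (D.h z - m * D.d z) := by
          rw [ht, mul_assoc]
          exact le_mul_of_one_le_right hτ.le h3
        nlinarith
      have h5 := D.s2_nonneg m z
      calc Real.log (D.s2 m z + τ)
          ≤ Real.log ((‖D.S z‖ ^ 2 + t) * Real.exp (D.h z - m * D.d z)) :=
            Real.log_le_log (by positivity) h2
        _ = _ := by rw [Real.log_mul (by positivity) e1.ne', Real.log_exp]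
  rw [circleAverage_fun_add (ci hs) (ci hhd)] at step1
  linarith [hK t ht0 hR]

/-- (11), the lower bound of the summed second variation.  `q z` is the integrand
`∑_i (C ω + L b_τ)(V_i(z))`, `hq` the pointwise determinant inequality of (11.1). -/
theorem rate {n : ℕ} (hn : 0 < n) {m δ K R τ c k T C₃ C₄ : ℝ} (hm : 0 ≤ m) (hδ : 0 ≤ δ)
    (hτ : 0 < τ) (hR : τ * Real.exp R ≤ 1)
    (hb : ∀ z ∈ sphere (0 : ℂ) (1 / 2), m * D.d z - D.h z ≤ R)
    (hK : ∀ t : ℝ, 0 < t → t ≤ 1 →
      circleAverage (fun z => Real.log (‖D.S z‖ ^ 2 + t)) 0 (1 / 2) ≤ K)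
    (hd : -C₃ - k ≤ circleAverage D.d 0 (1 / 2)) (hh : circleAverage D.h 0 (1 / 2) ≤ C₄ - T)
    {q : ℂ → ℝ} (hqc : ContinuousOn q (sphere 0 (1 / 2)))
    (hq : ∀ z ∈ sphere (0 : ℂ) (1 / 2),
      n * Real.exp ((Real.log c - δ * Real.log (D.s2 m z + τ) + D.d z) / n) ≤ q z) :
    n * Real.exp ((Real.log c - δ * K - (1 + δ * m) * C₃ - δ * C₄ -
      ((1 + δ * m) * k - δ * T)) / n) ≤ circleAverage q 0 (1 / 2) := by
  have hn' : (0 : ℝ) < n := by exact_mod_cast hn
  have habs : |(1 / 2 : ℝ)| = 1 / 2 := abs_of_pos (by norm_num)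
  set u : ℂ → ℝ := fun z => (Real.log c - δ * Real.log (D.s2 m z + τ) + D.d z) / n with hu
  have hlc : ContinuousOn (fun z => Real.log (D.s2 m z + τ)) (sphere 0 |(1 / 2 : ℝ)|) :=
    ((D.s2_half m).add continuousOn_const).log fun z _ => (D.s2_pos m hτ z).ne'
  have huc : ContinuousOn u (sphere 0 |(1 / 2 : ℝ)|) :=
    ((continuousOn_const.sub (continuousOn_const.mul hlc)).add D.d_half).div_const _
  have h1 : circleAverage (fun z => n * Real.exp (u z)) 0 (1 / 2) ≤ circleAverage q 0 (1 / 2) := by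
    refine circleAverage_mono ?_ (ContinuousOn.circleIntegrable' (by rwa [habs])) fun z hz => ?_
    · exact ci (continuousOn_const.mul (Real.continuous_exp.comp_continuousOn huc))
    · rw [habs] at hz
      exact hq z hz
  have h2 : circleAverage (fun z => n * Real.exp (u z)) 0 (1 / 2) =
      n * circleAverage (fun z => Real.exp (u z)) 0 (1 / 2) := by
    have := circleAverage_fun_smul (𝕜 := ℝ) (a := (n : ℝ)) (f := fun z => Real.exp (u z))
      (c := 0) (R := 1 / 2)
    simpa using this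
  have h3 := avg_exp_ge huc
  have h4 : circleAverage u 0 (1 / 2) = (Real.log c -
      δ * circleAverage (fun z => Real.log (D.s2 m z + τ)) 0 (1 / 2) +
      circleAverage D.d 0 (1 / 2)) / n := by
    have e1 : u = fun z => (n : ℝ)⁻¹ • (Real.log c + (-δ * Real.log (D.s2 m z + τ) + D.d z)) := by
      funext z
      simp only [hu, smul_eq_mul]
      field_simp
      ring
    have c1 : CircleIntegrable (fun z => -δ * Real.log (D.s2 m z + τ)) 0 (1 / 2) :=
      ci (continuousOn_const.mul hlc)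
    have c2 : CircleIntegrable (fun z => -δ * Real.log (D.s2 m z + τ) + D.d z) 0 (1 / 2) :=
      ci ((continuousOn_const.mul hlc).add D.d_half)
    rw [e1, circleAverage_fun_smul, circleAverage_fun_add (circleIntegrable_const _ _ _) c2,
      circleAverage_const, circleAverage_fun_add c1 (ci D.d_half)]
    have e2 : circleAverage (fun z => -δ * Real.log (D.s2 m z + τ)) 0 (1 / 2) =
        -δ * circleAverage (fun z => Real.log (D.s2 m z + τ)) 0 (1 / 2) := by
      have := circleAverage_fun_smul (𝕜 := ℝ) (a := -δ)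
        (f := fun z => Real.log (D.s2 m z + τ)) (c := 0) (R := 1 / 2)
      simpa using this
    rw [e2, smul_eq_mul]
    field_simp
    ring
  have h5 := D.avg_ns_le (m := m) hτ hR hb hK
  have h6 : circleAverage (fun z => D.h z - m * D.d z) 0 (1 / 2) =
      circleAverage D.h 0 (1 / 2) - m * circleAverage D.d 0 (1 / 2) := by
    have c1 : CircleIntegrable (fun z => m * D.d z) 0 (1 / 2) :=
      ci (continuousOn_const.mul D.d_half)
    rw [circleAverage_fun_sub (ci D.h_half) c1]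
    have := circleAverage_fun_smul (𝕜 := ℝ) (a := m) (f := D.d) (c := 0) (R := 1 / 2)
    simp only [smul_eq_mul] at this
    rw [this]
  rw [h6] at h5
  refine le_trans ?_ h1
  rw [h2]
  refine mul_le_mul_of_nonneg_left (le_trans ?_ h3) hn'.le
  rw [h4]
  refine Real.exp_le_exp.2 (div_le_div_of_nonneg_right ?_ hn'.le)
  have h7 : (1 + δ * m) * (-C₃ - k) ≤ (1 + δ * m) * circleAverage D.d 0 (1 / 2) :=
    mul_le_mul_of_nonneg_left hd (by positivity)
  have h8 := mul_le_mul_of_nonneg_left h5 hδ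
  have h9 := mul_le_mul_of_nonneg_left hh hδ
  nlinarith

end Dat

end Crest.Agent.R269.Half2_993
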