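import Crest.Agent.R269.Sec2_669
import Crest.Agent.R269.LevBr_901
import Crest.Agent.R269.Iface_731
import Crest.Agent.R269.Half2_993
import Crest.Agent.R269.StMax_528

/-!
# R269 (S0411), LINE B, (11) = THETA over Defs_58 / DefsS_731 / Iface_731 (helper993)

* `Fr I H V`    : `V` is a frame along the disc `H`: tangent, `wdg (V_i) H` holomorphic, `DD > 0`;
* `rep`, `unw_wdg` : holomorphic / smooth representatives of `V` modulo `H`;
* `S_diff`      : `z ↦ S (H z) (V z)` is holomorphic for `S : HolSec`;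
* `logDD_cont`, `dens_cont` : continuity of `log DD (H, V)`, `E (H z) (V z)` for `Dens I E`;
* `exists_R`    : `|H|` is bounded below on `|z| ≤ 1/2` by `|H(0)|` (compactness, Brody);
* `theta`       : the lower bound of the summed second variation of `Θ_τ = TE (C ω + dd^c b_τ) · (1/2)`.
-/

set_option autoImplicit false

open MvPolynomial Crest.AlgGeometry.ProjEmb Set Filter Topology Metric
open scoped ContDiff ComplexConjugate

noncomputable section

namespace Crest.Agent.R269.Half3_993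

open Crest.Agent.R269.Geo_328 (EE VV CC Cone Tan nsq ConeChart)
open Crest.Agent.R269.Defs_58 (omg SmX lev alpha DD TanFam HolSec BigP)
open Crest.Agent.R269.DefsS_731 (TE TG cav wdg IsDisc Normal FinE)
open Crest.Agent.R269.Iface_731 (unw dens)
open Crest.Agent.R269.StFun_528 (Dens)

variable {N n : ℕ} {I : Ideal (HomCoordRing N)}

/-! ### representatives -/

/-- local holomorphic representative of `wdg V p` -/
def rep (j : Fin (N + 1)) (v : VV N) (p : EE N) : EE N := fun k => v k j / p j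

theorem rep_wdg {j : Fin (N + 1)} {p : EE N} (hj : p j ≠ 0) (V : EE N) :
    rep j (wdg V p) p = V + (-(V j / p j)) • p := by
  funext k
  simp only [rep, wdg, Pi.add_apply, Pi.smul_apply, smul_eq_mul]
  field_simp
  ring

theorem unw_wdg {p : EE N} (hp : p ≠ 0) (V : EE N) :
    unw p (wdg V p) = V + (-((∑ j, V j * conj (p j)) / (nsq p : ℂ))) • p := by
  have h0 : (nsq p : ℂ) ≠ 0 := by
    exact_mod_cast (Sec_669.nsq_pos hp).ne'
  have h1 : (∑ j, p j * conj (p j)) = (nsq p : ℂ) := by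
    unfold Geo_328.nsq
    push_cast
    refine Finset.sum_congr rfl fun i _ => ?_
    rw [Complex.mul_conj, Complex.normSq_eq_norm_sq]
    push_cast
    rfl
  funext k
  simp only [unw, wdg, Pi.add_apply, Pi.smul_apply, smul_eq_mul]
  have h2 : ∑ j, (V k * p j - V j * p k) * conj (p j) =
      V k * (nsq p : ℂ) - (∑ j, V j * conj (p j)) * p k := by
    rw [← h1, Finset.mul_sum, Finset.sum_mul, ← Finset.sum_sub_distrib]
    refine Finset.sum_congr rfl fun j _ => ?_
    ring
  rw [h2]
  field_simp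
  ring

/-- a frame along the disc `H` (vectors are only meant modulo `H`) -/
structure Fr (I : Ideal (HomCoordRing N)) (H : ℂ → EE N) (V : Fin n → ℂ → EE N) : Prop where
  tan : ∀ i, ∀ z ∈ ball (0 : ℂ) 1, V i z ∈ Tan I (H z)
  hol : ∀ i, DifferentiableOn ℂ (fun z => wdg (V i z) (H z)) (ball 0 1)
  pos : ∀ z ∈ ball (0 : ℂ) 1, 0 < DD (H z) (fun i => V i z)

theorem DD_add (p : EE N) (b : Fin n → EE N) (r : Fin n → ℂ) :
    DD p (fun i => b i + r i • p) = DD p b := by
  have := Sec_669.DD_mix p b 1 r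
  simpa [Matrix.one_apply] using this

theorem S_add {m : ℕ} {j : ℤ} {S : EE N → (Fin n → EE N) → ℂ} (h : HolSec I n m j S) {p : EE N}
    (hp : p ∈ Cone I) {b : Fin n → EE N} (hb : TanFam I p b) (r : Fin n → ℂ) :
    S p (fun i => b i + r i • p) = S p b := by
  have := h.mix p hp b hb 1 r
  simpa [Matrix.one_apply] using this

section disc

variable {H : ℂ → EE N} {V : Fin n → ℂ → EE N}

theorem ne_zero (hd : IsDisc I H) {z : ℂ} (hz : z ∈ ball (0 : ℂ) 1) : H z ≠ 0 := (hd.cone z hz).2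

theorem Fr.tanFam (hV : Fr I H V) {z : ℂ} (hz : z ∈ ball (0 : ℂ) 1) :
    TanFam I (H z) (fun i => V i z) := fun i => hV.tan i z hz

theorem analyticAt_apply (hd : IsDisc I H) {z : ℂ} (hz : z ∈ ball (0 : ℂ) 1) (j : Fin (N + 1)) :
    AnalyticAt ℂ (fun z => H z j) z :=
  ((differentiableOn_pi.1 hd.hol) j).analyticAt (isOpen_ball.mem_nhds hz)

theorem analyticAt_rep (hd : IsDisc I H) (hV : Fr I H V) {z : ℂ} (hz : z ∈ ball (0 : ℂ) 1)
    {j : Fin (N + 1)} (hj : H z j ≠ 0) (i : Fin n) :
    AnalyticAt ℂ (fun z => rep j (wdg (V i z) (H z)) (H z)) z := by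
  have h1 : ∀ k l, AnalyticAt ℂ (fun z => wdg (V i z) (H z) k l) z := fun k l =>
    ((differentiableOn_pi.1 ((differentiableOn_pi.1 (hV.hol i)) k)) l).analyticAt
      (isOpen_ball.mem_nhds hz)
  refine AnalyticAt.pi fun k => ?_
  exact (h1 k j).div (analyticAt_apply hd hz j) hj

/-- `z ↦ S (H z) (V z)` is holomorphic -/
theorem S_diff (hI : I.IsPrime) (hX : IsSmoothProjective I n) {m : ℕ} {j : ℤ}
    {S : EE N → (Fin n → EE N) → ℂ} (h : HolSec I n m j S) (hd : IsDisc I H) (hV : Fr I H V) :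
    DifferentiableOn ℂ (fun z => S (H z) (fun i => V i z)) (ball 0 1) := by
  intro z₀ hz₀
  obtain ⟨l, hl⟩ := Function.ne_iff.1 (ne_zero hd hz₀)
  have hl' : H z₀ l ≠ 0 := hl
  have h1 : AnalyticAt ℂ H z₀ := hd.hol.analyticAt (isOpen_ball.mem_nhds hz₀)
  have h2 := fun i => analyticAt_rep hd hV hz₀ hl' i
  have hne : ∀ᶠ z in 𝓝 z₀, H z l ≠ 0 :=
    (analyticAt_apply hd hz₀ l).continuousAt.eventually_ne hl'
  have hb : ∀ᶠ z in 𝓝 z₀, z ∈ ball (0 : ℂ) 1 := isOpen_ball.mem_nhds hz₀
  have hev : ∀ᶠ z in 𝓝 z₀, H z ∈ Cone I ∧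
      TanFam I (H z) (fun i => rep l (wdg (V i z) (H z)) (H z)) := by
    filter_upwards [hne, hb] with z hz hz1
    refine ⟨hd.cone z hz1, fun i => ?_⟩
    show rep l (wdg (V i z) (H z)) (H z) ∈ Tan I (H z)
    rw [rep_wdg hz]
    exact Submodule.add_mem _ (hV.tan i z hz1)
      (Submodule.smul_mem _ _ (Geo_328.self_mem_Tan hX (hd.cone z hz1).1))
  have h3 := Sec_669.along hI hX h h1 h2 hev
  have h4 : (fun z => S (H z) (fun i => rep l (wdg (V i z) (H z)) (H z))) =ᶠ[𝓝 z₀]
      fun z => S (H z) (fun i => V i z) := by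
    filter_upwards [hne, hb] with z hz hz1
    have : (fun i => rep l (wdg (V i z) (H z)) (H z)) =
        fun i => V i z + (-(V i z l / H z l)) • H z := funext fun i => rep_wdg hz _
    rw [this]
    exact S_add h (hd.cone z hz1) (hV.tanFam hz1) _
  exact (h3.congr h4).differentiableAt.differentiableWithinAt

/-- the smooth representative `unw (wdg V H)` is continuous -/
theorem cont_unw (hd : IsDisc I H) {W : ℂ → EE N}
    (hW : ContinuousOn (fun z => wdg (W z) (H z)) (ball 0 1)) :
    ContinuousOn (fun z => unw (H z) (wdg (W z) (H z))) (ball 0 1) := by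
  have hH := hd.hol.continuousOn
  have hHi : ∀ i, ContinuousOn (fun z => H z i) (ball (0 : ℂ) 1) := fun i =>
    (continuous_apply i).comp_continuousOn hH
  have hWi : ∀ i j, ContinuousOn (fun z => wdg (W z) (H z) i j) (ball (0 : ℂ) 1) := fun i j =>
    continuousOn_pi.1 (continuousOn_pi.1 hW i) j
  have hn : ContinuousOn (fun z => (nsq (H z) : ℂ)) (ball (0 : ℂ) 1) := by
    refine Complex.continuous_ofReal.comp_continuousOn ?_
    unfold Geo_328.nsq
    exact continuousOn_finsetSum _ fun i _ => (hHi i).norm.pow 2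
  refine continuousOn_pi.2 fun i => ?_
  unfold unw
  refine ContinuousOn.div ?_ hn fun z hz => ?_
  · exact continuousOn_finsetSum _ fun j _ =>
      (hWi i j).mul (Complex.continuous_conj.comp_continuousOn (hHi j))
  · exact_mod_cast (Sec_669.nsq_pos (ne_zero hd hz)).ne'

theorem dens_cont (hX : IsSmoothProjective I n) {E : EE N → EE N → ℝ} (hE : Dens I E)
    (hd : IsDisc I H) {W : ℂ → EE N} (ht : ∀ z ∈ ball (0 : ℂ) 1, W z ∈ Tan I (H z))
    (hW : ContinuousOn (fun z => wdg (W z) (H z)) (ball 0 1)) :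
    ContinuousOn (fun z => E (H z) (W z)) (ball 0 1) := by
  have h1 := cont_unw hd hW
  have h2 : ∀ z ∈ ball (0 : ℂ) 1, unw (H z) (wdg (W z) (H z)) ∈ Tan I (H z) := by
    intro z hz
    rw [unw_wdg (ne_zero hd hz)]
    exact Submodule.add_mem _ (ht z hz)
      (Submodule.smul_mem _ _ (Geo_328.self_mem_Tan hX (hd.cone z hz).1))
  have h3 : ContinuousOn (fun z => (H z, unw (H z) (wdg (W z) (H z)))) (ball (0 : ℂ) 1) :=
    hd.hol.continuousOn.prodMk h1
  refine (hE.cont.comp h3 fun z hz => ⟨hd.cone z hz, h2 z hz⟩).congr fun z hz => ?_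
  have := hE.inv (H z) (hd.cone z hz) (W z) (ht z hz) 1 one_ne_zero
    (-((∑ j, W z j * conj (H z j)) / (nsq (H z) : ℂ)))
  rw [one_smul, one_smul] at this
  simp only [Function.comp_apply]
  rw [unw_wdg (ne_zero hd hz), this]

theorem DD_cont (hd : IsDisc I H) (hV : Fr I H V) :
    ContinuousOn (fun z => DD (H z) (fun i => V i z)) (ball 0 1) := by
  have h1 : ∀ i, ContinuousOn (fun z => unw (H z) (wdg (V i z) (H z))) (ball 0 1) := fun i =>
    cont_unw hd (hV.hol i).continuousOn
  have h2 : ContinuousOn (fun z => DD (H z) (fun i => unw (H z) (wdg (V i z) (H z))))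
      (ball 0 1) := by
    have hH := hd.hol.continuousOn
    have hHi : ∀ i, ContinuousOn (fun z => H z i) (ball (0 : ℂ) 1) := fun i =>
      (continuous_apply i).comp_continuousOn hH
    unfold DD
    refine ContinuousOn.div ?_ ?_ fun z hz => (pow_pos (Sec_669.nsq_pos (ne_zero hd hz)) _).ne'
    · unfold Defs_58.wedgeSq
      refine Complex.continuous_re.comp_continuousOn ?_
      refine ContinuousOn.comp (t := Set.univ) (Continuous.continuousOn (Continuous.matrix_det
        continuous_id)) ?_ (fun _ _ => Set.mem_univ _)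
      refine continuousOn_pi.2 fun a => continuousOn_pi.2 fun b => ?_
      simp only [Matrix.of_apply]
      refine continuousOn_finsetSum _ fun k _ => ?_
      have h3 : ∀ a : Fin (n + 1), ContinuousOn (fun z => (Fin.cons (H z)
          (fun i => unw (H z) (wdg (V i z) (H z))) : Fin (n + 1) → EE N) a k) (ball 0 1) := by
        intro a
        refine Fin.cases ?_ (fun i => ?_) a
        · simpa using hHi k
        · simpa using continuousOn_pi.1 (h1 i) k
      exact (h3 a).mul (Complex.continuous_conj.comp_continuousOn (h3 b))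
    · refine ContinuousOn.pow ?_ _
      unfold Geo_328.nsq
      exact continuousOn_finsetSum _ fun i _ => (hHi i).norm.pow 2
  refine h2.congr fun z hz => ?_
  have : (fun i => unw (H z) (wdg (V i z) (H z))) = fun i => V i z +
      (-((∑ j, V i z j * conj (H z j)) / (nsq (H z) : ℂ))) • H z :=
    funext fun i => unw_wdg (ne_zero hd hz) _
  simp only
  rw [this, DD_add]

theorem logDD_cont (hd : IsDisc I H) (hV : Fr I H V) :
    ContinuousOn (fun z => Real.log (DD (H z) (fun i => V i z))) (ball 0 1) :=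
  (DD_cont hd hV).log fun z hz => (hV.pos z hz).ne'

end disc

/-! ### lower bound of `|H|` on `|z| ≤ 1/2` -/

theorem exists_R (hX : IsSmoothProjective I n) (hc : EntireCurvesConstant I) (R : ℝ) :
    ∃ R' : ℝ, ∀ H : ℂ → EE N, IsDisc I H → (∀ z ∈ ball (0 : ℂ) 1, nsq (H z) ≤ 1) →
      Real.exp (-R) ≤ nsq (H 0) → ∀ z ∈ closedBall (0 : ℂ) (1 / 2), -Real.log (nsq (H z)) ≤ R' := by
  by_contra hcon
  push Not at hcon
  obtain ⟨A, hA, hB⟩ := StMax_528.exists_brody hX hc
  choose Hm h1 h2 h3 zm h4 h5 using fun k : ℕ => hcon k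
  set u : Ultrafilter ℕ := Filter.hyperfilter ℕ with hu
  obtain ⟨H, hH, hHu, -, -⟩ := StCpt_528.compact_lifts (LevBr_901.isClosed_affineCone I) hB u
    (Real.exp_pos (-R)) (fun k => StFun_528.isDisc_iff.1 (h1 k)) (fun k => h2 k) (fun k => h3 k)
  obtain ⟨z, hz, hzu⟩ := (isCompact_closedBall (0 : ℂ) (1 / 2)).ultrafilter_le_nhds (u.map zm)
    (by
      rw [Ultrafilter.coe_map, Filter.le_principal_iff]
      exact Filter.mem_map.2 (Filter.univ_mem' h4))
  have hsub : closedBall (0 : ℂ) (1 / 2) ⊆ ball 0 1 := closedBall_subset_ball (by norm_num)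
  have hzt : Tendsto zm u (𝓝 z) := hzu
  have hzw : Tendsto zm u (𝓝[ball 0 1] z) := by
    rw [isOpen_ball.nhdsWithin_eq (hsub hz)]; exact hzt
  have h6 : Tendsto (fun k => Hm k (zm k)) u (𝓝 (H z)) :=
    hHu.tendsto_comp (hH.diff.continuousOn z (hsub hz)) (hsub hz) hzw
  have h7 : Tendsto (fun k => -Real.log (nsq (Hm k (zm k)))) u (𝓝 (-Real.log (nsq (H z)))) := by
    have hne : nsq (H z) ≠ 0 := (Sec_669.nsq_pos (hH.ne z (hsub hz))).ne'
    have hcn : Continuous (nsq : EE N → ℝ) := LevBr_901.continuous_nsq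
    exact ((hcn.tendsto _).comp h6 |>.log hne).neg
  have h8 : ∀ᶠ k in (u : Filter ℕ), -Real.log (nsq (Hm k (zm k))) < -Real.log (nsq (H z)) + 1 :=
    h7.eventually (gt_mem_nhds (by linarith))
  have h9 : ∀ᶠ k : ℕ in (u : Filter ℕ), -Real.log (nsq (H z)) + 1 < k := by
    have : (u : Filter ℕ) ≤ atTop := by
      rw [hu, ← Nat.cofinite_eq_atTop]; exact Filter.hyperfilter_le_cofinite
    exact this (Filter.Tendsto.eventually_gt_atTop tendsto_natCast_atTop_atTop _)
  obtain ⟨k, h10, h11⟩ := (h8.and h9).exists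
  linarith [h5 k]

/-! ### Jensen for smooth functions -/

theorem jensen_smX {u : EE N → ℝ} (hu : SmX I u) {H : ℂ → EE N} (hH : IsDisc I H) {s : ℝ}
    (h0 : 0 ≤ s) (h1 : s < 1) :
    TE (fun p v => lev u p v) H s = cav u H s - u (H 0) := by
  have hC : ∀ z ∈ ball (0 : ℂ) 1, ContDiffAt ℝ 2 u (H z) := fun z hz =>
    LevBr_901.smX_two hu (hH.cone z hz)
  have hu2 : ContDiffOn ℝ 2 (fun z => u (H z)) (ball 0 1) := by
    intro z hz
    apply ContDiffAt.contDiffWithinAt
    have han : AnalyticAt ℂ H z := hH.hol.analyticAt (isOpen_ball.mem_nhds hz)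
    exact (hC z hz).comp z (han.restrictScalars (𝕜 := ℝ)).contDiffAt
  have hj := Green_740.jensen hu2 h0 h1
  have e : TE (fun p v => lev u p v) H s =
      Green_740.TG (fun z => LevC_653.lev (fun z => u (H z)) z 1) s := by
    refine StFun_528.TG_congr h0 h1 (fun z hz => ?_)
    have han : AnalyticAt ℂ H z := hH.hol.analyticAt (isOpen_ball.mem_nhds hz)
    have h3 := Lev_901.lev_comp_curve (hC z hz) han 1
    rw [h3, one_smul]
    exact StMax_528.lev_eq u (H z) (deriv H z)
  rw [e, hj]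
  rfl

/-! ### THETA -/

theorem dens_eq (C : ℝ) (u : EE N → ℝ) (p v : EE N) :
    dens I n 0 C u p v = C * omg p v + lev u p v := by
  simp [dens]

theorem theta (hI : I.IsPrime) (hX : IsSmoothProjective I n) (hn : 1 ≤ n)
    (hc : EntireCurvesConstant I) {m : ℕ} {S : EE N → (Fin n → EE N) → ℂ}
    (hS : HolSec I n m (-1) S) {ns : EE N → ℝ} (hns : ∀ p ∈ Cone I, 0 ≤ ns p ∧ ns p ≤ 1)
    (hSn : ∀ p ∈ Cone I, ∀ b : Fin n → EE N, TanFam I p b →
      ‖S p b‖ ^ 2 * nsq p = ns p * DD p b ^ m)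
    {dl C c : ℝ} {b : ℝ → EE N → ℝ} (hdl : 0 < dl) (hC : 0 < C) (hc0 : 0 < c)
    (hb : ∀ τ, 0 < τ → τ ≤ 1 → SmX I (b τ) ∧ (∀ q ∈ Cone I, 0 ≤ b τ q ∧ b τ q ≤ C) ∧
      (∀ q ∈ Cone I, ∀ v ∈ Tan I q, omg q v ≤ C * omg q v + lev (b τ) q v) ∧
      ∀ q ∈ Cone I, ∀ V : Fin n → EE N, TanFam I q V →
        n * (c * (ns q + τ) ^ (-dl) * DD q V) ^ ((n : ℝ)⁻¹) ≤
          ∑ i, (C * omg q (V i) + lev (b τ) q (V i)))
    {C₁ C₂ : ℝ} (C₃ : ℝ) (hC₁ : 0 ≤ C₁) (hC₂ : 0 ≤ C₂) :
    ∃ c' CΘ : ℝ, 0 < c' ∧ ∀ R : ℝ, ∃ τ, 0 < τ ∧ τ ≤ 1 ∧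
      (∀ H, IsDisc I H → |TE (dens I n 0 C (b τ)) H (1 / 2)| ≤ CΘ) ∧
      ∀ (H : ℂ → EE N) (V : Fin n → ℂ → EE N) (k T : ℝ), IsDisc I H → Normal H → Fr I H V →
        -Real.log (nsq (H 0)) = T → T ≤ R →
        (∀ z ∈ ball (0 : ℂ) 1, Real.log (DD (H z) (fun i => V i z)) ≤
          C₁ + C₂ * (-Real.log (nsq (H z)))) →
        (-C₃ - k ≤ Real.circleAverage (fun z => Real.log (DD (H z) (fun i => V i z))) 0 (1 / 2)) →
        c' * Real.exp (-(((1 + dl * m) * k - dl * T) / n)) ≤
          ∑ i, (1 / 2) ^ 2 *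
            Real.circleAverage (fun z => dens I n 0 C (b τ) (H z) (V i z)) 0 (1 / 2) := by
  have := hI
  have hn' : (0 : ℝ) < n := by exact_mod_cast hn
  obtain ⟨A, hA, hB⟩ := StMax_528.exists_brody hX hc
  have hhalf0 : (0 : ℝ) ≤ 1 / 2 := by norm_num
  have hhalf1 : (1 / 2 : ℝ) < 1 := by norm_num
  have hTE : ∀ H, IsDisc I H → TE (fun p v => omg p v) H (1 / 2) ≤ A ^ 2 := fun H hH => by
    have := StMax_528.TE_omg_le hB hH hhalf0 hhalf1
    refine this.trans (le_of_eq ?_)
    ring
  have hdE : ∀ τ, 0 < τ → τ ≤ 1 → Dens I (fun p v => dens I n 0 C (b τ) p v) := fun τ h1 h2 => by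
    have := (StMax_528.dens_omg (I := I)).const_mul C |>.add (StMax_528.dens_lev hX (hb τ h1 h2).1)
    simpa only [dens_eq] using this
  set K : ℝ := Real.log 2 + 0 + m * C₁ with hK
  refine ⟨n / 4 * Real.exp ((Real.log c - dl * K - (1 + dl * m) * C₃ - dl * A ^ 2) / n),
    C * A ^ 2 + C, by positivity, fun R => ?_⟩
  obtain ⟨R', hR'⟩ := exists_R hX hc R
  set R2 : ℝ := m * C₁ + (m * C₂ + 1) * |R'| with hR2
  have hR20 : 0 ≤ R2 := by positivity
  refine ⟨Real.exp (-R2), Real.exp_pos _, Real.exp_le_one_iff.2 (by linarith), ?_, ?_⟩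
  · intro H hH
    obtain ⟨hb1, hb2, hb3, -⟩ := hb _ (Real.exp_pos (-R2)) (Real.exp_le_one_iff.2 (by linarith))
    have hE := hdE _ (Real.exp_pos (-R2)) (Real.exp_le_one_iff.2 (by linarith))
    have e1 : TE (dens I n 0 C (b (Real.exp (-R2)))) H (1 / 2) =
        C * TE (fun p v => omg p v) H (1 / 2) + (cav (b (Real.exp (-R2))) H (1 / 2) -
          b (Real.exp (-R2)) (H 0)) := by
      rw [← jensen_smX hb1 hH hhalf0 hhalf1, ← StMax_528.TE_const_mul]
      have hsub : closedBall (0 : ℂ) (1 / 2) ⊆ ball 0 1 := closedBall_subset_ball hhalf1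
      have h3 := Green_740.TG_add hhalf0
        (((StMax_528.dens_omg (I := I)).const_mul C).continuousOn hH |>.mono hsub)
        ((StMax_528.dens_lev hX hb1).continuousOn hH |>.mono hsub)
      have h4 : TE (dens I n 0 C (b (Real.exp (-R2)))) H (1 / 2) = Green_740.TG
          (fun z => C * omg (H z) (deriv H z) + lev (b (Real.exp (-R2))) (H z) (deriv H z))
          (1 / 2) := by
        unfold TE
        simp only [dens_eq]
        rfl
      rw [h4, h3]
      rfl
    have h0 : H 0 ∈ Cone I := hH.cone 0 (mem_ball_self one_pos)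
    have hcc : ContinuousOn (b (Real.exp (-R2))) (Cone I) := fun p hp =>
      (hb1.1 p hp).continuousAt.continuousWithinAt
    have h2 := StMax_528.abs_cav_le (M := C) hcc (fun p hp => by
      rw [abs_of_nonneg (hb2 p hp).1]; exact (hb2 p hp).2) hH hhalf0 hhalf1
    have h3 := abs_le.1 h2
    have h4 := hb2 _ h0
    have h5 := hTE H hH
    have h6 : 0 ≤ TE (dens I n 0 C (b (Real.exp (-R2)))) H (1 / 2) := by
      refine StMax_528.TE_nonneg hE (fun p hp v hv => ?_) hH hhalf0 hhalf1
      rw [dens_eq]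
      exact (StMax_528.omg_nonneg p v).trans (hb3 p hp v hv)
    rw [abs_of_nonneg h6, e1]
    have h7 := mul_le_mul_of_nonneg_left h5 hC.le
    linarith [h3.2, h4.1]
  · intro H V k T hH hN hV hT hTR hup hlow
    obtain ⟨hb1, hb2, hb3, hb4⟩ := hb _ (Real.exp_pos (-R2)) (Real.exp_le_one_iff.2 (by linarith))
    have hE := hdE _ (Real.exp_pos (-R2)) (Real.exp_le_one_iff.2 (by linarith))
    set τ := Real.exp (-R2) with hτ
    have hτ0 : 0 < τ := Real.exp_pos _
    have hnp : ∀ z ∈ ball (0 : ℂ) 1, 0 < nsq (H z) := fun z hz =>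
      Sec_669.nsq_pos (ne_zero hH hz)
    -- the data of the disc
    let D : Half2_993.Dat :=
      { h := fun z => Real.log (nsq (H z))
        d := fun z => Real.log (DD (H z) (fun i => V i z))
        S := fun z => S (H z) (fun i => V i z)
        hc := by
          refine ContinuousOn.log ?_ fun z hz => (hnp z hz).ne'
          exact LevBr_901.continuous_nsq.comp_continuousOn hH.hol.continuousOn
        dc := logDD_cont hH hV
        Sd := S_diff hI hX hS hH hV
        hle := fun z hz => Real.log_nonpos (hnp z hz).le (hN.le_one z hz)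
        hP := by
          intro ε hε r₀ hr₀
          have h1 : ∀ᶠ s in 𝓝[<] (1 : ℝ),
              -ε < Real.circleAverage (fun z => Real.log (nsq (H z))) 0 s :=
            hN.avg.eventually (lt_mem_nhds (by linarith))
          have h2 : ∀ᶠ s in 𝓝[<] (1 : ℝ), s ∈ Ioo (max r₀ 0) 1 :=
            Ioo_mem_nhdsLT (max_lt hr₀ one_pos)
          obtain ⟨s, h3, h4⟩ := (h1.and h2).exists
          exact ⟨s, (le_max_left _ _).trans_lt h4.1, ((le_max_right _ _).trans_lt h4.1).le, h4.2,
            h3.le⟩ }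
    have hs2 : ∀ z ∈ ball (0 : ℂ) 1, D.s2 m z = ns (H z) := by
      intro z hz
      have h1 := hSn (H z) (hH.cone z hz) (fun i => V i z) (hV.tanFam hz)
      have h2 := hV.pos z hz
      have h3 := hnp z hz
      show ‖S (H z) (fun i => V i z)‖ ^ 2 * Real.exp (Real.log (nsq (H z)) -
        m * Real.log (DD (H z) (fun i => V i z))) = ns (H z)
      rw [Real.exp_sub, Real.exp_log h3, ← Real.log_pow, Real.exp_log (by positivity)]
      rw [← mul_div_assoc, h1]
      field_simp
    have hS1 : ∀ t : ℝ, 0 < t → t ≤ 1 →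
        Real.circleAverage (fun z => Real.log (‖D.S z‖ ^ 2 + t)) 0 (1 / 2) ≤ K := by
      intro t ht ht1
      refine D.avg_S_le (B := 0) (C₁ := C₁) (C₂ := C₂) (by positivity) le_rfl hC₁ hC₂ ht ht1
        (fun z hz => ?_) (fun z hz => hup z hz)
      rw [hs2 z hz, Real.exp_zero]
      exact (hns _ (hH.cone z hz)).2
    have hsub : sphere (0 : ℂ) (1 / 2) ⊆ ball 0 1 :=
      sphere_subset_closedBall.trans (closedBall_subset_ball hhalf1)
    have hR1 : ∀ z ∈ sphere (0 : ℂ) (1 / 2), m * D.d z - D.h z ≤ R2 := by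
      intro z hz
      have h1 := hup z (hsub hz)
      have h2 := hR' H hH hN.le_one (by
        rw [← Real.exp_log (hnp 0 (mem_ball_self one_pos))]
        exact Real.exp_le_exp.2 (by linarith)) z (sphere_subset_closedBall hz)
      have h3 := h2.trans (le_abs_self R')
      show m * Real.log (DD (H z) (fun i => V i z)) - Real.log (nsq (H z)) ≤ R2
      have h4 := mul_le_mul_of_nonneg_left h1 (Nat.cast_nonneg m : (0 : ℝ) ≤ m)
      have h5 : (m * C₂ + 1) * (-Real.log (nsq (H z))) ≤ (m * C₂ + 1) * |R'| :=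
        mul_le_mul_of_nonneg_left h3 (by positivity)
      rw [hR2]
      nlinarith
    have hh : Real.circleAverage D.h 0 (1 / 2) ≤ A ^ 2 - T := by
      have h1 := StMax_528.Tom_eq_TE hH hhalf0 hhalf1
      unfold StCpt_528.Tom at h1
      have h2 := hTE H hH
      have h3 : Real.circleAverage D.h 0 (1 / 2) - Real.log (nsq (H 0)) =
        TE (fun p v => omg p v) H (1 / 2) := h1
      linarith
    set q : ℂ → ℝ := fun z => ∑ i, dens I n 0 C (b τ) (H z) (V i z) with hq
    have hqi : ∀ i, ContinuousOn (fun z => dens I n 0 C (b τ) (H z) (V i z)) (ball 0 1) := fun i =>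
      dens_cont hX hE hH (hV.tan i) (hV.hol i).continuousOn
    have hqc : ContinuousOn q (sphere 0 (1 / 2)) :=
      (continuousOn_finsetSum _ fun i _ => hqi i).mono hsub
    have hrate := D.rate (n := n) hn (m := m) (δ := dl) (K := K) (R := R2) (τ := τ) (c := c)
      (k := k) (T := T) (C₃ := C₃) (C₄ := A ^ 2) (by positivity) hdl.le hτ0
      (by rw [hτ, ← Real.exp_add]; simp) hR1 hS1 hlow hh hqc (by
        intro z hz
        have hz' := hsub hz
        have h1 := hb4 (H z) (hH.cone z hz') (fun i => V i z) (hV.tanFam hz')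
        have h2 := hV.pos z hz'
        have h3 := (hns _ (hH.cone z hz')).1
        have h4 : 0 < ns (H z) + τ := by positivity
        rw [hs2 z hz']
        refine le_trans (le_of_eq ?_) (h1.trans (le_of_eq ?_))
        · congr 1
          rw [Real.rpow_def_of_pos (by positivity)]
          congr 1
          rw [Real.log_mul (by positivity) h2.ne', Real.log_mul hc0.ne' (by positivity),
            Real.log_rpow h4]
          have e5 : D.d z = Real.log (DD (H z) (fun i => V i z)) := rfl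
          rw [e5, div_eq_mul_inv]
          ring
        · simp only [hq, dens_eq])
    have hci : ∀ i ∈ (Finset.univ : Finset (Fin n)), CircleIntegrable
        (fun z => dens I n 0 C (b τ) (H z) (V i z)) 0 (1 / 2) := fun i _ => by
      refine ContinuousOn.circleIntegrable' ((hqi i).mono ?_)
      rw [abs_of_nonneg hhalf0]; exact hsub
    have hsum : Real.circleAverage q 0 (1 / 2) = ∑ i, Real.circleAverage
        (fun z => dens I n 0 C (b τ) (H z) (V i z)) 0 (1 / 2) := by
      rw [hq]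
      exact Real.circleAverage_fun_sum hci
    rw [← Finset.mul_sum, ← hsum]
    refine le_trans (le_of_eq ?_) (mul_le_mul_of_nonneg_left hrate (by positivity))
    rw [mul_assoc, ← Real.exp_add]
    have : (Real.log c - dl * K - (1 + dl * m) * C₃ - dl * A ^ 2) / n +
        -(((1 + dl * m) * k - dl * T) / n) = (Real.log c - dl * K - (1 + dl * m) * C₃ -
          dl * A ^ 2 - ((1 + dl * m) * k - dl * T)) / n := by
      field_simp
      ring
    rw [this]
    ring

end Crest.Agent.R269.Half3_993
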