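import Crest.Agent.R269.Half3_993
import Crest.Agent.R269.WF_731
import Crest.Agent.R269.BGl1_653
import Crest.Agent.R269.Alp6_927
import Crest.Agent.R269.FldE_620
import Crest.Agent.R269.GeoChart_328

/-!
# R269 (S0411), LINE B: `HintStmt` of WF_731 from the function `b` of helper653 (helper993)

* `ref_omg`, `dom_alpha`, `dom_lev`, `finE_normal`, `TE1_omg` : the characteristics of a normalised disc;
* `EBStmt` : the statement of helper653's `exists_b`;
* `hint_of : EBStmt → HintStmt`.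
-/

set_option autoImplicit false

open MvPolynomial Crest.AlgGeometry.ProjEmb Set Filter Topology Metric
open scoped ContDiff ComplexConjugate

noncomputable section

namespace Crest.Agent.R269.Half4_993

open Crest.Agent.R269.Geo_328 (EE VV CC Cone Tan nsq ConeChart)
open Crest.Agent.R269.Defs_58 (omg SmX lev alpha DD TanFam HolSec BigP PosField)
open Crest.Agent.R269.DefsS_731 (TE TG cav wdg IsDisc Normal FinE)
open Crest.Agent.R269.Iface_731 (unw dens)
open Crest.Agent.R269.TE_499 (TE1 bav Ref Dom CDens TB)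
open Crest.Agent.R269.WF_731 (Jf LJf WF kdl HintStmt)
open Crest.Agent.R269.Half3_993 (Fr)

variable {N n : ℕ} {I : Ideal (HomCoordRing N)}

/-! ### the reference density -/

theorem ref_omg : Ref I (fun p v => omg p v) :=
  ⟨(StMax_528.dens_omg (I := I)).cont, fun p _ v _ => StMax_528.omg_nonneg p v⟩

theorem cdens_alpha (hI : I.IsPrime) (hX : IsSmoothProjective I n) :
    CDens I (fun p v => alpha I n p v) := by
  have := hI
  intro x₀ hx
  have hp : x₀.1 ∈ Cone I := hx.1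
  obtain ⟨G, hG⟩ := Alp_927.exists_eqs hX hp
  have g1 : ContinuousAt (fun x : EE N × EE N => LevC_653.lev (Alp_927.lG G) x.1 x.2) x₀ :=
    Lev_901.continuousAt_lev (Alp_927.contDiffAt_lG hG.pos.ne') x₀.2
  have g2 : ContinuousAt (fun x : EE N × EE N => omg x.1 x.2) x₀ :=
    Alp_927.continuous_omg_at (v := x₀.2) hp.2
  have h1 : ContinuousAt (fun x : EE N × EE N =>
      LevC_653.lev (Alp_927.lG G) x.1 x.2 - (n + 1) * omg x.1 x.2) x₀ :=
    g1.sub (continuousAt_const.mul g2)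
  have h2 : ∀ᶠ x : EE N × EE N in 𝓝 x₀, Alp_927.WS (Alp_927.gM G x.1) ≠ 0 :=
    continuousAt_fst.eventually (Alp_927.eventually_WS_ne hG.pos.ne')
  have h3 : ∀ᶠ x : EE N × EE N in 𝓝[TB I] x₀, alpha I n x.1 x.2
      = LevC_653.lev (Alp_927.lG G) x.1 x.2 - (n + 1) * omg x.1 x.2 := by
    filter_upwards [nhdsWithin_le_nhds h2, self_mem_nhdsWithin] with x k1 k2
    exact Alp_927.alpha_eq Geo_328.chartStmt hX k2.1 k2.2 (Alp_927.eqs_of_ne hG.mem k1)
  exact (h1.continuousWithinAt (s := TB I)).congr_of_eventuallyEq h3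
    (h3.self_of_nhdsWithin hx)

theorem dom_alpha (hI : I.IsPrime) (hX : IsSmoothProjective I n) :
    ∃ C : ℝ, 0 ≤ C ∧ Dom I (fun p v => omg p v) (fun p v => alpha I n p v) C := by
  obtain ⟨C, h0, h⟩ := Alp_927.alpha_bdd Geo_328.chartStmt (hI := hI) hX
  exact ⟨C, h0, cdens_alpha hI hX, h⟩

theorem dom_lev (hI : I.IsPrime) (hX : IsSmoothProjective I n) {u : EE N → ℝ} (hu : SmX I u) :
    ∃ C : ℝ, 0 ≤ C ∧ (∀ p ∈ Cone I, |u p| ≤ C) ∧
      Dom I (fun p v => omg p v) (fun p v => LevC_653.lev u p v) C := by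
  obtain ⟨C, h0, h⟩ := BGl1_653.exists_bound hI hX hu
  have := hI
  have h2 := (StMax_528.dens_lev hX hu).cont
  simp only [StMax_528.lev_eq] at h2
  exact ⟨C, h0, fun p hp => (h p hp).1, h2, fun p hp v hv => ((h p hp).2 v hv).1⟩

/-! ### normalised discs -/

section disc

variable {H : ℂ → EE N}

theorem TE_omg_eq (hH : IsDisc I H) {s : ℝ} (h0 : 0 ≤ s) (h1 : s < 1) :
    TE (fun p v => omg p v) H s =
      Real.circleAverage (fun z => Real.log (nsq (H z))) 0 s - Real.log (nsq (H 0)) := by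
  rw [← StMax_528.Tom_eq_TE hH h0 h1]
  rfl

theorem finE_normal (hH : IsDisc I H) (hN : Normal H) : FinE (fun p v => omg p v) H := by
  refine ⟨-Real.log (nsq (H 0)), fun s hs => ?_⟩
  rw [TE_omg_eq hH hs.1.le hs.2]
  have hsub : sphere (0 : ℂ) |s| ⊆ ball 0 1 := by
    rw [abs_of_pos hs.1]
    exact sphere_subset_closedBall.trans (closedBall_subset_ball hs.2)
  have hnp : ∀ z ∈ ball (0 : ℂ) 1, 0 < nsq (H z) := fun z hz =>
    Sec_669.nsq_pos (hH.cone z hz).2
  have hci : CircleIntegrable (fun z => Real.log (nsq (H z))) 0 s := by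
    refine ContinuousOn.circleIntegrable' (ContinuousOn.mono ?_ hsub)
    exact ContinuousOn.log (LevBr_901.continuous_nsq.comp_continuousOn hH.hol.continuousOn)
      fun z hz => (hnp z hz).ne'
  have h2 : Real.circleAverage (fun z => Real.log (nsq (H z))) 0 s ≤ 0 :=
    Real.circleAverage_mono_on_of_le_circle hci
      (fun z hz => Real.log_nonpos (hnp z (hsub hz)).le (hN.le_one z (hsub hz)))
  linarith

theorem TE1_omg (hH : IsDisc I H) (hN : Normal H) :
    TE1 (fun p v => omg p v) H = -Real.log (nsq (H 0)) := by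
  apply TE_499.TE1_unique
  have h1 := hN.avg.sub_const (Real.log (nsq (H 0)))
  rw [zero_sub] at h1
  refine h1.congr' ?_
  filter_upwards [TE_499.mem_Ioo_nhdsLT (zero_lt_one)] with s hs
  exact (TE_omg_eq hH hs.1.le hs.2).symm

/-- `|bav u H| ≤ sup |u|` -/
theorem abs_bav_le (hI : I.IsPrime) (hX : IsSmoothProjective I n) {u : EE N → ℝ} (hu : SmX I u)
    {M : ℝ} (hM : ∀ p ∈ Cone I, |u p| ≤ M) (hH : IsDisc I H) (hf : FinE (fun p v => omg p v) H) :
    |bav u H| ≤ M := by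
  obtain ⟨C, -, -, hC⟩ := dom_lev hI hX hu
  have h1 := (TE_499.tendsto_cav ref_omg (fun p hp => LevBr_901.smX_two hu hp) hC hH hf).abs
  refine le_of_tendsto h1 ?_
  filter_upwards [TE_499.mem_Ioo_nhdsLT (zero_lt_one)] with s hs
  exact StMax_528.abs_cav_le (fun p hp => (hu.1 p hp).continuousAt.continuousWithinAt) hM hH
    hs.1.le hs.2

end disc

/-! ### the statement of helper653's `exists_b` -/

def EBStmt : Prop := ∀ (N n : ℕ) (I : Ideal (HomCoordRing N)), I.IsPrime →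
  IsSmoothProjective I n → 0 < n → ∀ (ns : EE N → ℝ) (B : ℝ),
    (∀ q ∈ Cone I, 0 ≤ ns q ∧ ns q ≤ B) →
    (∀ q ∈ Cone I, ∀ c : ℂ, c ≠ 0 → ns (c • q) = ns q) →
    (∀ p ∈ Cone I, ∀ C : ConeChart I n p, ∃ s : CC n → ℂ, AnalyticAt ℂ s 0 ∧
      (¬ ∀ᶠ z in 𝓝 (0 : CC n), s z = 0) ∧
      ∃ C₁ : ℝ, ∀ᶠ z in 𝓝 (0 : CC n), ‖s z‖ ^ 2 ≤ C₁ * ns (C.σ z)) →
    ∃ (dl C c : ℝ) (b : ℝ → EE N → ℝ), 0 < dl ∧ 0 < C ∧ 0 < c ∧ ∀ τ, 0 < τ → τ ≤ 1 →
      SmX I (b τ) ∧ (∀ q ∈ Cone I, 0 ≤ b τ q ∧ b τ q ≤ C) ∧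
      (∀ q ∈ Cone I, ∀ v ∈ Tan I q, omg q v ≤ C * omg q v + lev (b τ) q v) ∧
      ∀ q ∈ Cone I, ∀ V : Fin n → EE N, TanFam I q V →
        n * (c * (ns q + τ) ^ (-dl) * DD q V) ^ ((n : ℝ)⁻¹) ≤
          ∑ i, (C * omg q (V i) + lev (b τ) q (V i))

/-- **(11)** -/
theorem hint_of (hEB : EBStmt) : HintStmt := by
  intro N n I hI hX hn hc hBig a ha C hC
  have := hI
  obtain ⟨m, -, S, hS, ns, hns, hns01, hSn, -, hloc⟩ := Sec_669.bigNorm hI hX hBig
  obtain ⟨dl, Cb, cb, b, hdl, hCb, hcb, hb⟩ := hEB N n I hI hX (by omega) ns 1 hns01 hns.2 hloc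
  obtain ⟨D, hD, hD0, hDD⟩ := FldE_620.exists_detF hI hX ha
  have hlD : SmX I (fun p => Real.log (D p)) := LevBr_901.smX_log hD fun p hp => (hD0 p hp).ne'
  obtain ⟨CD, hCD0, hCD, -⟩ := dom_lev hI hX hlD
  obtain ⟨Ca, hCa0, hCa⟩ := dom_alpha hI hX
  obtain ⟨A, hA, hB⟩ := StMax_528.exists_brody hX hc
  have hhalf0 : (0 : ℝ) ≤ 1 / 2 := by norm_num
  have hhalf1 : (1 / 2 : ℝ) < 1 := by norm_num
  obtain ⟨c', CΘ, hc', hθ⟩ := Half3_993.theta hI hX hn hc hS hns01 hSn hdl hCb hcb hb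
    (C₁ := C) (C₂ := C) (CD + Ca * A ^ 2) hC hC
  refine ⟨m, dl, c', CΘ, Nat.cast_nonneg m, hdl, hc', fun R => ?_⟩
  obtain ⟨τ, hτ0, hτ1, hθ1, hθ2⟩ := hθ R
  obtain ⟨hb1, hb2, hb3, hb4⟩ := hb τ hτ0 hτ1
  have hJ : ∀ H, IsDisc I H → Jf 0 Cb (b τ) (1 / 2) H = TE (dens I n 0 Cb (b τ)) H (1 / 2) := by
    intro H hH
    have hsub : closedBall (0 : ℂ) (1 / 2) ⊆ ball 0 1 := closedBall_subset_ball hhalf1
    have h3 := Green_740.TG_add hhalf0
      (((StMax_528.dens_omg (I := I)).const_mul Cb).continuousOn hH |>.mono hsub)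
      ((StMax_528.dens_lev hX hb1).continuousOn hH |>.mono hsub)
    have h4 : TE (dens I n 0 Cb (b τ)) H (1 / 2) = Green_740.TG
        (fun z => Cb * omg (H z) (deriv H z) + lev (b τ) (H z) (deriv H z)) (1 / 2) := by
      unfold TE
      simp only [Half3_993.dens_eq]
      rfl
    have h5 := Half3_993.jensen_smX hb1 hH hhalf0 hhalf1
    have h6 := StMax_528.TE_const_mul (fun p v => omg p v) Cb H (1 / 2)
    unfold Jf
    rw [h4, h3, ← h5, zero_mul, zero_add]
    congr 1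
    exact h6.symm
  refine ⟨Cb, b τ, hb1, fun H hH => ?_, fun H V hH hN hR hW => ?_⟩
  · rw [hJ H hH]; exact hθ1 H hH
  · have hfin := finE_normal hH hN
    have hV : Fr I H V := ⟨hW.tan, hW.hol, hW.pos⟩
    have hT := TE1_omg hH hN
    have hdet := hW.det D hD hD0 hDD (1 / 2) ⟨hhalf0, hhalf1⟩
    have hbav := abs_bav_le hI hX hlD hCD hH hfin
    have hTa := TE_499.abs_TE_le hCa.cont (ref_omg (I := I)).cont hCa.bd hH hhalf0 hhalf1
    have hTo : TE (fun p v => omg p v) H (1 / 2) ≤ A ^ 2 := by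
      refine (StMax_528.TE_omg_le hB hH hhalf0 hhalf1).trans (le_of_eq ?_)
      ring
    have hlow : -(CD + Ca * A ^ 2) - TE1 (alpha I n) H ≤
        Real.circleAverage (fun z => Real.log (DD (H z) (fun i => V i z))) 0 (1 / 2) := by
      have h1 := (abs_le.1 hbav).1
      have h2 := (abs_le.1 hTa).1
      have h3 := mul_le_mul_of_nonneg_left hTo hCa0
      have h4 : TE (fun p v => alpha I n p v) H (1 / 2) = TE (alpha I n) H (1 / 2) := rfl
      rw [h4] at h2
      linarith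
    have hmain := hθ2 H V (TE1 (alpha I n) H) (TE1 omg H) hH hN hV hT.symm hR
      (fun z hz => (hW.up z hz).trans (le_of_eq (by ring))) hlow
    refine hmain.trans (le_of_eq ?_)
    refine Finset.sum_congr rfl fun i _ => ?_
    -- the sum over the circle
    have hsub : sphere (0 : ℂ) |(1 / 2 : ℝ)| ⊆ ball 0 1 := by
      rw [abs_of_pos (by norm_num : (0 : ℝ) < 1 / 2)]
      exact sphere_subset_closedBall.trans (closedBall_subset_ball hhalf1)
    have hc1 : ContinuousOn (fun z => omg (H z) (V i z)) (ball 0 1) :=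
      Half3_993.dens_cont hX StMax_528.dens_omg hH (hW.tan i) (hW.hol i).continuousOn
    have hc2 : ContinuousOn (fun z => lev (b τ) (H z) (V i z)) (ball 0 1) :=
      Half3_993.dens_cont hX (StMax_528.dens_lev hX hb1) hH (hW.tan i) (hW.hol i).continuousOn
    have hi1 : CircleIntegrable (fun z => omg (H z) (V i z)) 0 (1 / 2) :=
      (hc1.mono hsub).circleIntegrable'
    have hi2 : CircleIntegrable (fun z => lev (b τ) (H z) (V i z)) 0 (1 / 2) :=
      (hc2.mono hsub).circleIntegrable'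
    have e : ∀ f : ℂ → ℝ, Real.circleAverage (fun z => ‖z‖ ^ 2 * f z) 0 (1 / 2) =
        (1 / 2) ^ 2 * Real.circleAverage f 0 (1 / 2) := by
      intro f
      rw [← smul_eq_mul ((1 / 2 : ℝ) ^ 2), ← Real.circleAverage_fun_smul]
      apply Real.circleAverage_congr_sphere
      intro z hz
      have : ‖z‖ = 1 / 2 := by simpa using hz
      simp only [this, smul_eq_mul]
    unfold LJf
    rw [e, e]
    simp only [Half3_993.dens_eq]
    have e2 : Real.circleAverage (fun z => Cb * omg (H z) (V i z) + lev (b τ) (H z) (V i z)) 0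
        (1 / 2) = Cb * Real.circleAverage (fun z => omg (H z) (V i z)) 0 (1 / 2) +
          Real.circleAverage (fun z => lev (b τ) (H z) (V i z)) 0 (1 / 2) := by
      have h1 : CircleIntegrable (fun z => Cb * omg (H z) (V i z)) 0 (1 / 2) :=
        ((continuousOn_const.mul hc1).mono hsub).circleIntegrable'
      rw [Real.circleAverage_fun_add h1 hi2]
      congr 1
      rw [← smul_eq_mul Cb, ← Real.circleAverage_fun_smul]
      rfl
    rw [e2]
    ring

end Crest.Agent.R269.Half4_993
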