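import Crest.Agent.R269.HolSec_307

/-!
# R269 (S0411), leaf BIG-OUT, part B: identity theorem, smooth functions on the cone from local data
(helper307)
-/

set_option autoImplicit false

open MvPolynomial Crest.AlgGeometry.ProjEmb
open scoped ContDiff Topology ComplexConjugate

namespace Crest.Agent.R269.HolSec_307

open Crest.Agent.R269.Geo_328

noncomputable section

variable {N n : ℕ} {I : Ideal (HomCoordRing N)}

/-! ### Identity theorem -/

namespace HolSec

variable {m : ℕ} {j : ℤ}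

/-- `S` vanishes at `p` -/
def VanAt (S : HolSec I n m j) (p : EE N) : Prop :=
  ∀ b : Fin n → EE N, (∀ k, b k ∈ Tan I p) → S.S p b = 0

theorem VanAt.smul (hX : IsSmoothProjective I n) {S : HolSec I n m j} {p : EE N}
    (hp : p ∈ Cone I) (h : S.VanAt p) {a : ℂ} (ha : a ≠ 0) : S.VanAt (a • p) := by
  intro b hb
  have hb' : ∀ k, a⁻¹ • b k ∈ Tan I p := fun k => by
    rw [Tan_smul hX p ha] at hb
    exact Submodule.smul_mem _ _ (hb k)
  have h1 := S.smul p hp (fun k => a⁻¹ • b k) hb' a ha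
  have h2 : (fun k => a • a⁻¹ • b k) = b := by
    funext k
    rw [smul_smul, mul_inv_cancel₀ ha, one_smul]
  rw [h2, h _ hb', mul_zero] at h1
  exact h1

theorem vanAt_iff_chart (hX : IsSmoothProjective I n) (S : HolSec I n m j) {p₀ : EE N}
    (c : ConeChart I n p₀) {p : EE N} (hp : p ∈ Cone I) (hW : p ∈ c.W) :
    S.VanAt p ↔ S.chart c (ratio c.i c.J p₀ p) = 0 := by
  obtain ⟨hz, hpe⟩ := c.surj p hp hW
  have hi : p c.i ≠ 0 := c.W_ne _ hW
  constructor
  · intro h
    have h1 : S.VanAt (c.σ (ratio c.i c.J p₀ p)) := by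
      have h2 := h.smul hX hp (inv_ne_zero hi)
      rw [hpe, smul_smul] at h2
      simp only [Pi.smul_apply, c.σ_i _ hz, smul_eq_mul, mul_one, inv_mul_cancel₀ hi,
        one_smul] at h2
      exact h2
    exact h1 _ fun k => dσ_mem c hz k
  · intro h b hb
    rw [S.local_formula hX c hp hW hb]
    unfold val
    rw [h, mul_zero]

theorem chart_zero_of_vanAt {S : HolSec I n m j} {p₀ : EE N}
    (c : ConeChart I n p₀) {z : CC n} (hz : z ∈ Metric.ball (0 : CC n) c.R)
    (h : S.VanAt (c.σ z)) : S.chart c z = 0 := h _ fun k => dσ_mem c hz k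

/-- IDENTITY THEOREM on a connected cone -/
theorem vanAt_of_eventually (hX : IsSmoothProjective I n)
    (hch : ∀ p ∈ Cone I, Nonempty (ConeChart I n p)) (hcon : IsPreconnected (Cone I))
    (S : HolSec I n m j) {p : EE N} (hp : p ∈ Cone I)
    (hv : ∀ᶠ q in 𝓝[Cone I] p, S.VanAt q) : ∀ q ∈ Cone I, S.VanAt q := by
  have hcs : PreconnectedSpace (Cone I) := isPreconnected_iff_preconnectedSpace.1 hcon
  let Z : Set (Cone I) := {q : Cone I | ∀ᶠ q' : Cone I in 𝓝 q, S.VanAt (q' : EE N)}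
  have hZo : IsOpen Z := by
    exact isOpen_setOfPred_eventually_nhds (p := fun q' : Cone I => S.VanAt (q' : EE N))
  have hZc : IsClosed Z := by
    rw [← closure_subset_iff_isClosed]
    intro q hq
    obtain ⟨c⟩ := hch q q.2
    have hWn : ∀ᶠ q' : Cone I in 𝓝 q, (q' : EE N) ∈ c.W :=
      continuous_subtype_val.continuousAt.preimage_mem_nhds (c.W_open.mem_nhds c.mem_W)
    obtain ⟨q', hq'W, hq'Z⟩ := mem_closure_iff_nhds.1 hq _ hWn
    obtain ⟨hz, hpe⟩ := c.surj q' q'.2 hq'W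
    set z' := ratio c.i c.J (q : EE N) q' with hz'
    have hi : (q' : EE N) c.i ≠ 0 := c.W_ne _ hq'W
    -- the chart function vanishes near z'
    have h1 : S.chart c =ᶠ[𝓝 z'] 0 := by
      have hcont : ContinuousAt (fun z : CC n => (q' : EE N) c.i • c.σ z) z' :=
        ContinuousAt.fun_smul continuousAt_const (c.an z' hz).continuousAt
      have hq'Z' : ∀ᶠ y in 𝓝 (q' : EE N), y ∈ Cone I → S.VanAt y := by
        have := hq'Z
        change ∀ᶠ q'' : Cone I in 𝓝 q', S.VanAt (q'' : EE N) at this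
        rw [nhds_subtype_eq_comap, Filter.eventually_comap] at this
        filter_upwards [this] with y hy hyc
        exact hy ⟨y, hyc⟩ rfl
      have h2 : ∀ᶠ z in 𝓝 z', (q' : EE N) c.i • c.σ z ∈ Cone I →
          S.VanAt ((q' : EE N) c.i • c.σ z) := by
        refine hcont.eventually (p := fun y => y ∈ Cone I → S.VanAt y) ?_
        beta_reduce
        rw [← hpe]
        exact hq'Z'
      filter_upwards [h2, Metric.isOpen_ball.mem_nhds hz] with z h3 hzb
      have h4 := h3 (smul_mem_Cone hX (c.σ_cone z hzb) hi)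
      have h5 := h4.smul hX (smul_mem_Cone hX (c.σ_cone z hzb) hi) (inv_ne_zero hi)
      rw [smul_smul, inv_mul_cancel₀ hi, one_smul] at h5
      exact chart_zero_of_vanAt c hzb h5
    have h2 : Set.EqOn (S.chart c) 0 (Metric.ball 0 c.R) :=
      AnalyticOnNhd.eqOn_of_preconnected_of_eventuallyEq (fun z hz => S.chart_analyticAt c hz)
        (fun z _ => analyticAt_const) (convex_ball _ _).isPreconnected hz h1
    change ∀ᶠ q' : Cone I in 𝓝 q, S.VanAt (q' : EE N)
    filter_upwards [hWn] with y hy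
    rw [vanAt_iff_chart hX S c y.2 hy]
    exact h2 (c.surj y y.2 hy).1
  have hne : Z.Nonempty := by
    refine ⟨⟨p, hp⟩, ?_⟩
    change ∀ᶠ q' : Cone I in 𝓝 (⟨p, hp⟩ : Cone I), S.VanAt (q' : EE N)
    rw [nhds_subtype_eq_comap, Filter.eventually_comap]
    rw [eventually_nhdsWithin_iff] at hv
    filter_upwards [hv] with y hy a ha
    rw [ha]
    exact hy (ha ▸ a.2)
  have hall := IsClopen.eq_univ ⟨hZc, hZo⟩ hne
  intro q hq
  have : (⟨q, hq⟩ : Cone I) ∈ Z := by rw [hall]; trivial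
  exact this.self_of_nhds

end HolSec

/-! ### Smooth functions on the cone from local data -/

theorem nsq_pos {p : EE N} (hp : p ≠ 0) : 0 < nsq p := by
  obtain ⟨i, hi⟩ : ∃ i, p i ≠ 0 := by
    by_contra h
    push Not at h
    exact hp (funext h)
  exact lt_of_lt_of_le (by positivity : (0 : ℝ) < ‖p i‖ ^ 2)
    (Finset.single_le_sum (f := fun i => ‖p i‖ ^ 2) (fun _ _ => by positivity) (Finset.mem_univ i))

theorem nsq_contDiff : ContDiff ℝ ∞ (nsq : EE N → ℝ) := by
  unfold nsq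
  refine ContDiff.sum fun i _ => ?_
  exact (contDiff_apply ℝ ℂ i).norm_sq ℝ

/-- the normalisation `p ↦ p / |p|` -/
def nrm (p : EE N) : EE N := (Real.sqrt (nsq p))⁻¹ • p

theorem nrm_contDiffAt {p : EE N} (hp : p ≠ 0) : ContDiffAt ℝ ∞ (nrm : EE N → EE N) p := by
  have h1 : ContDiffAt ℝ ∞ (fun q : EE N => (Real.sqrt (nsq q))⁻¹) p :=
    ((nsq_contDiff.contDiffAt).sqrt (nsq_pos hp).ne').inv
      (Real.sqrt_pos.2 (nsq_pos hp)).ne'
  exact h1.smul contDiffAt_id

theorem nsq_smul (c : ℝ) (p : EE N) : nsq (c • p) = c ^ 2 * nsq p := by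
  unfold nsq
  rw [Finset.mul_sum]
  refine Finset.sum_congr rfl fun i _ => ?_
  rw [Pi.smul_apply, norm_smul, mul_pow, Real.norm_eq_abs, sq_abs]

theorem nsq_nrm {p : EE N} (hp : p ≠ 0) : nsq (nrm p) = 1 := by
  unfold nrm
  rw [nsq_smul, inv_pow, Real.sq_sqrt (nsq_pos hp).le, inv_mul_cancel₀ (nsq_pos hp).ne']

theorem nrm_eq {p : EE N} : nrm p = ((Real.sqrt (nsq p))⁻¹ : ℂ) • p := by
  unfold nrm
  funext i
  simp

theorem isClosed_affineCone : IsClosed (affineCone I) := by
  have : affineCone I = ⋂ F ∈ I, {p | MvPolynomial.eval p F = 0} := by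
    ext p; simp [affineCone]
  rw [this]
  exact isClosed_biInter fun F _ => isClosed_eq (MvPolynomial.continuous_eval F) continuous_const

theorem isCompact_sphereCone : IsCompact {p : EE N | p ∈ affineCone I ∧ nsq p = 1} := by
  refine Metric.isCompact_of_isClosed_isBounded ?_ ?_
  · exact isClosed_affineCone.inter (isClosed_eq nsq_contDiff.continuous continuous_const)
  · refine (Metric.isBounded_closedBall (x := (0 : EE N)) (r := 1)).subset ?_
    rintro p ⟨-, hp⟩
    rw [mem_closedBall_zero_iff, pi_norm_le_iff_of_nonneg zero_le_one]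
    intro i
    have h1 : ‖p i‖ ^ 2 ≤ nsq p :=
      Finset.single_le_sum (f := fun i => ‖p i‖ ^ 2) (fun _ _ => by positivity) (Finset.mem_univ i)
    rw [hp] at h1
    nlinarith [norm_nonneg (p i)]

/-- GLUING: a `ℂ^*`-invariant function on the cone which near every cone point has a smooth
extension, has one smooth extension to a neighbourhood of the cone. -/
theorem exists_smooth_of_local (hX : IsSmoothProjective I n) {Y : Type*} [NormedAddCommGroup Y]
    [NormedSpace ℝ Y] (f : EE N → Y) (hf : ∀ p ∈ Cone I, ∀ c : ℂ, c ≠ 0 → f (c • p) = f p)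
    (hloc : ∀ p ∈ Cone I, ∃ (W : Set (EE N)) (g : EE N → Y), IsOpen W ∧ p ∈ W ∧
      (∀ q ∈ W, ContDiffAt ℝ ∞ g q) ∧ ∀ q ∈ W, q ∈ Cone I → g q = f q) :
    ∃ u : EE N → Y, (∀ p ∈ Cone I, ContDiffAt ℝ ∞ u p) ∧ ∀ p ∈ Cone I, u p = f p := by
  classical
  choose! W g hWo hpW hgs hgf using hloc
  -- bump functions
  have hb : ∀ p ∈ Cone I, ∃ ρ : EE N → ℝ, ContDiff ℝ ∞ ρ ∧ tsupport ρ ⊆ W p ∧ (∀ q, 0 ≤ ρ q) ∧
      0 < ρ p := by
    intro p hp
    obtain ⟨ρ, h1, h2, h3, h4, h5⟩ := exists_contDiff_tsupport_subset (E := EE N) (n := (⊤ : ℕ∞))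
      ((hWo p hp).mem_nhds (hpW p hp))
    refine ⟨ρ, h3, h1, fun q => (h4 (Set.mem_range_self q)).1, ?_⟩
    rw [h5]; exact one_pos
  choose! ρ hρs hρt hρ0 hρp using hb
  set K := {p : EE N | p ∈ affineCone I ∧ nsq p = 1} with hK
  have hKC : ∀ p ∈ K, p ∈ Cone I := by
    rintro p ⟨h1, h2⟩
    refine ⟨h1, ?_⟩
    rintro rfl
    simp [nsq] at h2
  obtain ⟨t, htK, htc⟩ := (isCompact_sphereCone (I := I)).elim_nhds_subcover
    (fun p => {q | 0 < ρ p q}) (fun p hp =>
      (isOpen_lt continuous_const (hρs p (hKC p hp)).continuous).mem_nhds (hρp p (hKC p hp)))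
  let den : EE N → ℝ := fun q => ∑ p ∈ t, ρ p (nrm q)
  let num : EE N → Y := fun q => ∑ p ∈ t, ρ p (nrm q) • g p (nrm q)
  have hden : ∀ q ∈ Cone I, 0 < den q := by
    intro q hq
    have hq0 : (Real.sqrt (nsq q))⁻¹ ≠ 0 := inv_ne_zero (Real.sqrt_pos.2 (nsq_pos hq.2)).ne'
    have hqK : nrm q ∈ K := by
      refine ⟨?_, nsq_nrm hq.2⟩
      rw [nrm_eq]
      exact smul_mem_affineCone hX hq.1 _
    obtain ⟨p, hpt, hpq⟩ := Set.mem_iUnion₂.1 (htc hqK)
    exact lt_of_lt_of_le hpq (Finset.single_le_sum (f := fun p => ρ p (nrm q))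
      (fun p hp => hρ0 p (hKC p (htK p hp)) _) hpt)
  have hterm : ∀ p ∈ t, ∀ y, ContDiffAt ℝ ∞ (fun q => ρ p q • g p q) y := by
    intro p hp y
    have hpC := hKC p (htK p hp)
    by_cases hy : y ∈ W p
    · exact (hρs p hpC).contDiffAt.smul (hgs p hpC y hy)
    · have hy' : y ∉ tsupport (ρ p) := fun h => hy (hρt p hpC h)
      have h0 : (fun q => ρ p q • g p q) =ᶠ[𝓝 y] fun _ => 0 := by
        have := (isClosed_tsupport (ρ p)).isOpen_compl.mem_nhds hy'
        filter_upwards [this] with q hq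
        rw [image_eq_zero_of_notMem_tsupport hq, zero_smul]
      exact contDiffAt_const.congr_of_eventuallyEq h0
  refine ⟨fun q => (den q)⁻¹ • num q, fun p hp => ?_, fun p hp => ?_⟩
  · have h1 := nrm_contDiffAt hp.2
    refine ContDiffAt.smul (ContDiffAt.inv ?_ (hden p hp).ne') ?_
    · refine ContDiffAt.sum fun a ha => ?_
      exact ((hρs a (hKC a (htK a ha))).contDiffAt).comp p h1
    · refine ContDiffAt.sum fun a ha => ?_
      exact (hterm a ha (nrm p)).comp p h1
  · have hq0 : ((Real.sqrt (nsq p))⁻¹ : ℂ) ≠ 0 := by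
      rw [← Complex.ofReal_inv]
      exact Complex.ofReal_ne_zero.2 (inv_ne_zero (Real.sqrt_pos.2 (nsq_pos hp.2)).ne')
    have hf1 : f (nrm p) = f p := by
      rw [nrm_eq]; exact hf p hp _ hq0
    have hnC : nrm p ∈ Cone I := by rw [nrm_eq]; exact smul_mem_Cone hX hp hq0
    have hnum : num p = den p • f p := by
      change ∑ a ∈ t, ρ a (nrm p) • g a (nrm p) = (∑ a ∈ t, ρ a (nrm p)) • f p
      rw [Finset.sum_smul]
      refine Finset.sum_congr rfl fun a ha => ?_
      have haC := hKC a (htK a ha)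
      by_cases hy : nrm p ∈ W a
      · rw [hgf a haC _ hy hnC, hf1]
      · have hy' : nrm p ∉ tsupport (ρ a) := fun h => hy (hρt a haC h)
        rw [image_eq_zero_of_notMem_tsupport hy', zero_smul, zero_smul]
    change (den p)⁻¹ • num p = f p
    rw [hnum, smul_smul, inv_mul_cancel₀ (hden p hp).ne', one_smul]

end

end Crest.Agent.R269.HolSec_307
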