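import Crest.Agent.R269.HolSecB_307
import Crest.Agent.R269.Defs_58

/-!
# R269 (S0411), leaf BIG-OUT, part C: bridge to `Defs_58.HolSec`, the norm of a section (helper307)
-/

set_option autoImplicit false

open MvPolynomial Crest.AlgGeometry.ProjEmb
open scoped ContDiff Topology ComplexConjugate Matrix ComplexOrder

namespace Crest.Agent.R269.HolSec_307

open Crest.Agent.R269.Geo_328 Crest.Agent.R269.Defs_58

noncomputable section

variable {N n : ℕ} {I : Ideal (HomCoordRing N)}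

/-! ### Bridge -/

theorem HolSec.toHol {m : ℕ} {j : ℤ} (S : HolSec I n m j) : Defs_58.HolSec I n m j S.S where
  hom p hp b hb c hc := S.smul p hp b hb c hc
  mix p hp b hb M r := S.lin p hp b hb M r
  hol d F b z₀ hF hb hev := S.hol d F b z₀ hF hb hev

/-- bundle a section -/
def ofHol {m : ℕ} {j : ℤ} {S : EE N → (Fin n → EE N) → ℂ} (h : Defs_58.HolSec I n m j S) :
    HolSec I n m j where
  S := S
  smul p hp b hb c hc := h.hom p hp b hb c hc
  lin p hp b hb A r := h.mix p hp b hb A r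
  hol d F b z₀ hF hb hev := h.hol d F b z₀ hF hb hev

@[simp] theorem ofHol_S {m : ℕ} {j : ℤ} {S : EE N → (Fin n → EE N) → ℂ}
    (h : Defs_58.HolSec I n m j S) : (ofHol h).S = S := rfl

/-! ### The density `DD` -/

/-- Gram matrix -/
def gram {k : ℕ} (w : Fin k → EE N) : Matrix (Fin k) (Fin k) ℂ :=
  Matrix.of fun i j : Fin k => ∑ l, w i l * conj (w j l)

theorem wedgeSq_eq {k : ℕ} (w : Fin k → EE N) : wedgeSq w = (gram w).det.re := rfl

theorem gram_eq {k : ℕ} (w : Fin k → EE N) :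
    gram w = (Matrix.of w) * (Matrix.of w)ᴴ := by
  ext i j
  simp [gram, Matrix.mul_apply, Matrix.conjTranspose_apply]

theorem wedgeSq_mul {k : ℕ} (A : Matrix (Fin k) (Fin k) ℂ) (w : Fin k → EE N) :
    wedgeSq (fun i => ∑ l, A i l • w l) = ‖A.det‖ ^ 2 * wedgeSq w := by
  have h1 : (Matrix.of (fun i => ∑ l, A i l • w l) : Matrix (Fin k) (Fin (N + 1)) ℂ) =
      A * Matrix.of w := by
    ext i j
    simp [Matrix.mul_apply, Finset.sum_apply]
  rw [wedgeSq_eq, wedgeSq_eq, gram_eq, gram_eq, h1, Matrix.conjTranspose_mul]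
  rw [show A * Matrix.of w * ((Matrix.of w)ᴴ * Aᴴ) = A * (Matrix.of w * (Matrix.of w)ᴴ) * Aᴴ by
    simp only [Matrix.mul_assoc]]
  rw [Matrix.det_mul, Matrix.det_mul, Matrix.det_conjTranspose]
  rw [show A.det * (Matrix.of w * (Matrix.of w)ᴴ).det * star A.det =
    (A.det * star A.det) * (Matrix.of w * (Matrix.of w)ᴴ).det by ring]
  rw [Complex.star_def, Complex.mul_conj, Complex.normSq_eq_norm_sq]
  rw [Complex.re_ofReal_mul]

theorem wedgeSq_nonneg {k : ℕ} (w : Fin k → EE N) : 0 ≤ wedgeSq w := by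
  rw [wedgeSq_eq, gram_eq]
  have h := (Matrix.posSemidef_self_mul_conjTranspose (Matrix.of w)).det_nonneg
  exact (Complex.le_def.1 h).1

theorem wedgeSq_pos {k : ℕ} {w : Fin k → EE N} (hw : LinearIndependent ℂ w) : 0 < wedgeSq w := by
  rw [wedgeSq_eq, gram_eq]
  have h : (Matrix.of w * (Matrix.of w)ᴴ).PosDef := by
    refine Matrix.PosDef.mul_conjTranspose_self _ ?_
    intro x y hxy
    have := Fintype.linearIndependent_iff.1 hw
    have h2 : ∑ i, (x i - y i) • w i = 0 := by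
      funext l
      have h3 := congrFun hxy l
      simp only [Matrix.vecMul, dotProduct, Matrix.of_apply] at h3
      simp only [Finset.sum_apply, Pi.smul_apply, smul_eq_mul, Pi.zero_apply, sub_mul,
        Finset.sum_sub_distrib, h3, sub_self]
    funext i
    exact sub_eq_zero.1 (this _ h2 i)
  exact (Complex.lt_def.1 h.det_pos).1

theorem nsq_csmul (c : ℂ) (p : EE N) : nsq (c • p) = ‖c‖ ^ 2 * nsq p := by
  unfold nsq
  rw [Finset.mul_sum]
  refine Finset.sum_congr rfl fun i _ => ?_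
  rw [Pi.smul_apply, norm_smul, mul_pow]

/-- the mixing matrix -/
def mixM (M : Matrix (Fin n) (Fin n) ℂ) (r : Fin n → ℂ) (c : ℂ) :
    Matrix (Fin (n + 1)) (Fin (n + 1)) ℂ :=
  Matrix.of (Fin.cons (Fin.cons c 0) fun k => Fin.cons (r k) (M k))

theorem det_mixM (M : Matrix (Fin n) (Fin n) ℂ) (r : Fin n → ℂ) (c : ℂ) :
    (mixM M r c).det = c * M.det := by
  rw [Matrix.det_succ_row_zero, Fin.sum_univ_succ]
  have h0 : ∀ i : Fin n, mixM M r c 0 i.succ = 0 := fun i => by simp [mixM]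
  simp only [h0, mul_zero, zero_mul, Finset.sum_const_zero, add_zero]
  have h1 : (mixM M r c).submatrix Fin.succ (Fin.succAbove 0) = M := by
    ext i j
    simp [mixM]
  rw [h1]
  simp [mixM]

theorem cons_mix (p : EE N) (b : Fin n → EE N) (M : Matrix (Fin n) (Fin n) ℂ) (r : Fin n → ℂ)
    (c : ℂ) : (Fin.cons (c • p) (fun i => (∑ k, M i k • b k) + r i • p) : Fin (n + 1) → EE N) =
      fun i => ∑ l, mixM M r c i l • (Fin.cons p b : Fin (n + 1) → EE N) l := by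
  funext i
  refine Fin.cases ?_ (fun i => ?_) i
  · rw [Fin.sum_univ_succ]; simp [mixM]
  · rw [Fin.sum_univ_succ]; simp [mixM, add_comm]

theorem DD_mix (p : EE N) (b : Fin n → EE N) (M : Matrix (Fin n) (Fin n) ℂ) (r : Fin n → ℂ) :
    DD p (fun i => (∑ k, M i k • b k) + r i • p) = ‖M.det‖ ^ 2 * DD p b := by
  unfold DD
  have h := cons_mix p b M r 1
  rw [one_smul] at h
  rw [h, wedgeSq_mul, det_mixM, one_mul, mul_div_assoc]

theorem DD_hom {p : EE N} (hp : p ≠ 0) (b : Fin n → EE N) {c : ℂ} (hc : c ≠ 0) :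
    DD (c • p) (fun i => c • b i) = DD p b := by
  unfold DD
  have h : (Fin.cons (c • p) (fun i => c • b i) : Fin (n + 1) → EE N) =
      fun i => ∑ l, (c • (1 : Matrix (Fin (n + 1)) (Fin (n + 1)) ℂ)) i l •
        (Fin.cons p b : Fin (n + 1) → EE N) l := by
    funext i
    simp only [Matrix.smul_apply, Matrix.one_apply, smul_eq_mul, mul_ite, mul_one, mul_zero,
      ite_smul, zero_smul, Finset.sum_ite_eq, Finset.mem_univ, if_true]
    refine Fin.cases ?_ (fun i => ?_) i <;> simp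
  rw [h, wedgeSq_mul, Matrix.det_smul, Matrix.det_one, mul_one, Fintype.card_fin, nsq_csmul,
    mul_pow, norm_pow, ← pow_mul, ← pow_mul, mul_comm (n + 1) 2]
  have h1 : (‖c‖ : ℝ) ^ (2 * (n + 1)) ≠ 0 := pow_ne_zero _ (norm_ne_zero_iff.2 hc)
  have h2 : nsq p ^ (n + 1) ≠ 0 := pow_ne_zero _ (nsq_pos hp).ne'
  field_simp

theorem DD_nonneg (p : EE N) (b : Fin n → EE N) : 0 ≤ DD p b :=
  div_nonneg (wedgeSq_nonneg _) (pow_nonneg (Finset.sum_nonneg fun _ _ => by positivity) _)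

theorem DD_pos {p : EE N} {b : Fin n → EE N} (hp : p ≠ 0)
    (h : LinearIndependent ℂ (Fin.cons p b : Fin (n + 1) → EE N)) : 0 < DD p b :=
  div_pos (wedgeSq_pos h) (pow_pos (nsq_pos hp) _)

theorem linInd_chart {p₀ : EE N} (c : ConeChart I n p₀) {z : CC n}
    (hz : z ∈ Metric.ball (0 : CC n) c.R) :
    LinearIndependent ℂ (Fin.cons (c.σ z) (dσ c z) : Fin (n + 1) → EE N) := by
  rw [Fintype.linearIndependent_iff]
  intro g hg
  rw [Fin.sum_univ_succ] at hg
  simp only [Fin.cons_zero, Fin.cons_succ] at hg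
  have hi := congrFun hg c.i
  simp only [Pi.add_apply, Pi.smul_apply, smul_eq_mul, c.σ_i z hz, mul_one, Finset.sum_apply, dσ,
    fderiv_σ_i c hz, mul_zero, Finset.sum_const_zero, add_zero, Pi.zero_apply] at hi
  intro i
  refine Fin.cases hi (fun k => ?_) i
  have hk := congrFun hg (c.J k)
  simp only [Pi.add_apply, Pi.smul_apply, smul_eq_mul, Finset.sum_apply, dσ, hi, zero_mul,
    fderiv_σ_J c hz, Pi.zero_apply, zero_add, Pi.single_apply, mul_ite, mul_one, mul_zero,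
    Finset.sum_ite_eq, Finset.mem_univ, if_true] at hk
  exact hk

theorem DD_chart_pos {p₀ : EE N} (c : ConeChart I n p₀) {z : CC n}
    (hz : z ∈ Metric.ball (0 : CC n) c.R) : 0 < DD (c.σ z) (dσ c z) :=
  DD_pos (c.σ_cone z hz).2 (linInd_chart c hz)

/-- `DD` through the chart -/
theorem DD_formula (hX : IsSmoothProjective I n) {p₀ : EE N} (c : ConeChart I n p₀) {p : EE N}
    (hp : p ∈ Cone I) (hW : p ∈ c.W) {b : Fin n → EE N} (hb : ∀ k, b k ∈ Tan I p) :
    DD p b = ‖(Xm c.i c.J p b).det‖ ^ 2 *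
      DD (c.σ (ratio c.i c.J p₀ p)) (dσ c (ratio c.i c.J p₀ p)) := by
  obtain ⟨r, hr⟩ := decomp c hX hp hW hb
  obtain ⟨hz, hpe⟩ := c.surj p hp hW
  have hpi : p c.i ≠ 0 := c.W_ne p hW
  rw [← DD_mix _ _ _ r]
  have h2 := DD_hom (c.σ_cone _ hz).2 (fun k => ∑ l, Xm c.i c.J p b k l •
      dσ c (ratio c.i c.J p₀ p) l + r k • c.σ (ratio c.i c.J p₀ p)) hpi
  rw [← hpe, ← hr] at h2
  exact h2

/-! ### Smoothness of `DD` -/

theorem contDiffAt_apply' {E : Type*} [NormedAddCommGroup E] [NormedSpace ℝ E] {F : E → EE N}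
    {x : E} (h : ContDiffAt ℝ ∞ F x) (k : Fin (N + 1)) : ContDiffAt ℝ ∞ (fun y => F y k) x :=
  contDiffAt_pi.1 h k

theorem contDiffAt_det {E : Type*} [NormedAddCommGroup E] [NormedSpace ℝ E] {k : ℕ}
    {M : E → Matrix (Fin k) (Fin k) ℂ} {x : E}
    (h : ∀ i j, ContDiffAt ℝ ∞ (fun y => M y i j) x) :
    ContDiffAt ℝ ∞ (fun y => (M y).det) x := by
  simp only [Matrix.det_apply]
  refine ContDiffAt.sum fun σ _ => ?_
  refine ContDiffAt.const_smul _ ?_
  exact contDiffAt_prod fun i _ => h (σ i) i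

theorem contDiffAt_wedgeSq {E : Type*} [NormedAddCommGroup E] [NormedSpace ℝ E] {k : ℕ}
    {w : E → Fin k → EE N} {x : E} (h : ∀ i, ContDiffAt ℝ ∞ (fun y => w y i) x) :
    ContDiffAt ℝ ∞ (fun y => wedgeSq (w y)) x := by
  simp only [wedgeSq_eq]
  have h1 : ContDiffAt ℝ ∞ (fun y => (gram (w y)).det) x := by
    refine contDiffAt_det fun i j => ?_
    simp only [gram, Matrix.of_apply]
    refine ContDiffAt.sum fun l _ => ?_
    exact (contDiffAt_apply' (h i) l).mul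
      (Complex.conjCLE.contDiff.contDiffAt.comp x (contDiffAt_apply' (h j) l))
  exact Complex.reCLM.contDiff.contDiffAt.comp x h1

theorem contDiffAt_DD {E : Type*} [NormedAddCommGroup E] [NormedSpace ℝ E]
    {F : E → EE N} {b : Fin n → E → EE N} {x : E} (hF : ContDiffAt ℝ ∞ F x)
    (hb : ∀ i, ContDiffAt ℝ ∞ (b i) x) (h0 : F x ≠ 0) :
    ContDiffAt ℝ ∞ (fun y => DD (F y) (fun i => b i y)) x := by
  unfold DD
  refine ContDiffAt.div ?_ ?_ (pow_ne_zero _ (nsq_pos h0).ne')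
  · refine contDiffAt_wedgeSq fun i => ?_
    refine Fin.cases ?_ (fun i => ?_) i
    · simpa using hF
    · simpa using hb i
  · exact (nsq_contDiff.contDiffAt.comp x hF).pow _

/-! ### The norm of a section -/

/-- squared norm of a section -/
def sqn (m : ℕ) (j : ℤ) (S : EE N → (Fin n → EE N) → ℂ) (p : EE N) (b : Fin n → EE N) : ℝ :=
  ‖S p b‖ ^ 2 * nsq p ^ (-j) / DD p b ^ m

/-- the squared norm in the chart -/
theorem sqn_formula (hX : IsSmoothProjective I n) {m : ℕ} {j : ℤ}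
    {S : EE N → (Fin n → EE N) → ℂ} (h : Defs_58.HolSec I n m j S)
    {p₀ : EE N} (c : ConeChart I n p₀) {p : EE N} (hp : p ∈ Cone I) (hW : p ∈ c.W)
    {b : Fin n → EE N} (hb : ∀ k, b k ∈ Tan I p) (hD : DD p b ≠ 0) :
    sqn m j S p b = ‖(ofHol h).chart c (ratio c.i c.J p₀ p)‖ ^ 2 *
      nsq (c.σ (ratio c.i c.J p₀ p)) ^ (-j) /
      DD (c.σ (ratio c.i c.J p₀ p)) (dσ c (ratio c.i c.J p₀ p)) ^ m := by
  obtain ⟨hz, hpe⟩ := c.surj p hp hW
  have hpi : p c.i ≠ 0 := c.W_ne p hW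
  have h1 := (ofHol h).local_formula hX c hp hW hb
  rw [ofHol_S] at h1
  have h2 := DD_formula hX c hp hW hb
  have h3 := DD_chart_pos c hz
  unfold sqn
  rw [h1, h2]
  rw [h2] at hD
  have hdet : ‖(Xm c.i c.J p b).det‖ ^ 2 ≠ 0 := fun h0 => hD (by rw [h0, zero_mul])
  have hdet1 : ‖(Xm c.i c.J p b).det‖ ≠ 0 := fun h0 => hdet (by rw [h0]; simp)
  have h4 : nsq p = ‖p c.i‖ ^ 2 * nsq (c.σ (ratio c.i c.J p₀ p)) := by
    conv_lhs => rw [hpe]
    rw [nsq_csmul]
  rw [h4]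
  unfold val
  rw [norm_mul, norm_mul, norm_pow, norm_zpow, mul_pow, mul_pow, mul_pow, mul_zpow]
  have h5 : (‖p c.i‖ : ℝ) ≠ 0 := norm_ne_zero_iff.2 hpi
  have h6 : (‖p c.i‖ ^ j) ^ 2 * (‖p c.i‖ ^ 2) ^ (-j) = 1 := by
    rw [← zpow_natCast, ← zpow_mul, ← zpow_natCast (‖p c.i‖) 2, ← zpow_mul, ← zpow_add₀ h5]
    have : j * (2 : ℕ) + (2 : ℕ) * -j = 0 := by ring
    rw [this, zpow_zero]
  have h7 : (‖(Xm c.i c.J p b).det‖ ^ m) ^ 2 = (‖(Xm c.i c.J p b).det‖ ^ 2) ^ m := by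
    rw [← pow_mul, ← pow_mul, mul_comm]
  have h8 : (‖(Xm c.i c.J p b).det‖ ^ 2) ^ m ≠ 0 := pow_ne_zero _ hdet
  rw [h7]
  generalize nsq (c.σ (ratio c.i c.J p₀ p)) ^ (-j) = A at *
  generalize (‖p c.i‖ ^ 2) ^ (-j) = B at *
  generalize (‖p c.i‖ ^ j) ^ 2 = C at *
  have h9 : DD (c.σ (ratio c.i c.J p₀ p)) (dσ c (ratio c.i c.J p₀ p)) ^ m ≠ 0 :=
    pow_ne_zero _ h3.ne'
  rw [show C * (‖(Xm c.i c.J p b).det‖ ^ 2) ^ m *
      ‖(ofHol h).chart c (ratio c.i c.J p₀ p)‖ ^ 2 * (B * A) =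
      (C * B) * ((‖(Xm c.i c.J p b).det‖ ^ 2) ^ m *
        (‖(ofHol h).chart c (ratio c.i c.J p₀ p)‖ ^ 2 * A)) by ring, h6, one_mul]
  rw [mul_div_mul_left _ _ h8]

theorem isOpen_chartDom {p₀ : EE N} (c : ConeChart I n p₀) :
    IsOpen {q | q ∈ c.W ∧ ratio c.i c.J p₀ q ∈ Metric.ball (0 : CC n) c.R} := by
  have h : ContinuousOn (fun q : EE N => ratio c.i c.J p₀ q) c.W := by
    refine continuousOn_pi.2 fun k => ?_
    unfold ratio
    exact ((continuous_apply (c.J k)).continuousOn.div (continuous_apply c.i).continuousOn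
      fun q hq => c.W_ne q hq).sub continuousOn_const
  exact h.isOpen_inter_preimage c.W_open Metric.isOpen_ball

theorem contDiffAt_ratio {p₀ : EE N} (c : ConeChart I n p₀) {q : EE N} (hq : q ∈ c.W) :
    ContDiffAt ℝ ∞ (fun q : EE N => ratio c.i c.J p₀ q) q := by
  have h1 : AnalyticAt ℂ (fun q : EE N => ratio c.i c.J p₀ q) q :=
    ratio_analyticAt analyticAt_id (c.W_ne q hq)
  exact (h1.contDiffAt (n := ∞)).restrict_scalars ℝ

/-- smooth chart function of the squared norm -/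
theorem contDiffAt_chartNorm {m : ℕ} {j : ℤ} (S : HolSec I n m j) {p₀ : EE N}
    (c : ConeChart I n p₀) {z : CC n} (hz : z ∈ Metric.ball (0 : CC n) c.R) :
    ContDiffAt ℝ ∞ (fun z => ‖S.chart c z‖ ^ 2 * nsq (c.σ z) ^ (-j) /
      DD (c.σ z) (dσ c z) ^ m) z := by
  have hσ : ContDiffAt ℝ ∞ c.σ z := ((c.an z hz).contDiffAt (n := ∞)).restrict_scalars ℝ
  have hd : ∀ k, ContDiffAt ℝ ∞ (fun y => dσ c y k) z := fun k =>
    ((dσ_analyticAt c hz k).contDiffAt (n := ∞)).restrict_scalars ℝ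
  have hS : ContDiffAt ℝ ∞ (S.chart c) z :=
    ((S.chart_analyticAt c hz).contDiffAt (n := ∞)).restrict_scalars ℝ
  have h0 := (c.σ_cone z hz).2
  refine ContDiffAt.div (ContDiffAt.mul (hS.norm_sq ℝ) ?_) ?_ (pow_ne_zero _ (DD_chart_pos c hz).ne')
  · have h1 : ContDiffAt ℝ ∞ (fun y => nsq (c.σ y)) z := nsq_contDiff.contDiffAt.comp z hσ
    have h2 : nsq (c.σ z) ≠ 0 := (nsq_pos h0).ne'
    rcases Int.eq_nat_or_neg (-j) with ⟨k, hk | hk⟩
    · rw [hk]; simp only [zpow_natCast]; exact h1.pow k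
    · rw [hk]; simp only [zpow_neg, zpow_natCast]
      exact (h1.pow k).inv (pow_ne_zero _ h2)
  · exact (contDiffAt_DD hσ hd h0).pow m

/-- THE SQUARED NORM OF A SECTION IS A SMOOTH FUNCTION ON `X` -/
theorem exists_norm (hX : IsSmoothProjective I n)
    (hch : ∀ p ∈ Cone I, Nonempty (ConeChart I n p)) {m : ℕ} {j : ℤ}
    {S : EE N → (Fin n → EE N) → ℂ} (h : Defs_58.HolSec I n m j S) :
    ∃ u : EE N → ℝ, SmX I u ∧ (∀ p ∈ Cone I, 0 ≤ u p) ∧
      ∀ p ∈ Cone I, ∀ b, TanFam I p b → ‖S p b‖ ^ 2 * nsq p ^ (-j) = u p * DD p b ^ m := by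
  classical
  let f : EE N → ℝ := fun p =>
    if h : ∃ b : Fin n → EE N, TanFam I p b ∧ DD p b ≠ 0 then sqn m j S p h.choose else 0
  have hf : ∀ p (hp : p ∈ Cone I) (p₀ : EE N) (c : ConeChart I n p₀), p ∈ c.W → f p =
      ‖(ofHol h).chart c (ratio c.i c.J p₀ p)‖ ^ 2 * nsq (c.σ (ratio c.i c.J p₀ p)) ^ (-j) /
      DD (c.σ (ratio c.i c.J p₀ p)) (dσ c (ratio c.i c.J p₀ p)) ^ m := by
    intro p hp p₀ c hW
    obtain ⟨hz, hpe⟩ := c.surj p hp hW
    have hpi : p c.i ≠ 0 := c.W_ne p hW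
    have hex : ∃ b : Fin n → EE N, TanFam I p b ∧ DD p b ≠ 0 := by
      refine ⟨fun k => p c.i • dσ c (ratio c.i c.J p₀ p) k, fun k => ?_, ?_⟩
      · have hT : Tan I p = Tan I (c.σ (ratio c.i c.J p₀ p)) := by
          have := Tan_smul hX (c.σ (ratio c.i c.J p₀ p)) hpi
          rwa [← hpe] at this
        rw [hT]
        exact Submodule.smul_mem _ _ (dσ_mem c hz k)
      · have := DD_hom (c.σ_cone _ hz).2 (dσ c (ratio c.i c.J p₀ p)) hpi
        rw [← hpe] at this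
        rw [this]
        exact (DD_chart_pos c hz).ne'
    change (if h : ∃ b : Fin n → EE N, TanFam I p b ∧ DD p b ≠ 0 then sqn m j S p h.choose
      else 0) = _
    rw [dif_pos hex]
    exact sqn_formula hX h c hp hW hex.choose_spec.1 hex.choose_spec.2
  have hinv : ∀ p ∈ Cone I, ∀ a : ℂ, a ≠ 0 → f (a • p) = f p := by
    intro p hp a ha
    obtain ⟨c⟩ := hch p hp
    rw [hf p hp p c c.mem_W, hf (a • p) (smul_mem_Cone hX hp ha) p c (c.W_smul a ha p c.mem_W),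
      ratio_smul _ _ _ _ ha]
  obtain ⟨u, hu1, hu2⟩ := exists_smooth_of_local hX f hinv (by
    intro p hp
    obtain ⟨c⟩ := hch p hp
    refine ⟨{q | q ∈ c.W ∧ ratio c.i c.J p q ∈ Metric.ball (0 : CC n) c.R},
      fun q => ‖(ofHol h).chart c (ratio c.i c.J p q)‖ ^ 2 *
        nsq (c.σ (ratio c.i c.J p q)) ^ (-j) /
        DD (c.σ (ratio c.i c.J p q)) (dσ c (ratio c.i c.J p q)) ^ m,
      isOpen_chartDom c, ⟨c.mem_W, (c.surj p hp c.mem_W).1⟩, ?_, ?_⟩
    · rintro q ⟨hqW, hqb⟩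
      exact (contDiffAt_chartNorm (ofHol h) c hqb).comp q (contDiffAt_ratio c hqW)
    · rintro q ⟨hqW, -⟩ hqC
      exact (hf q hqC p c hqW).symm)
  refine ⟨u, ⟨hu1, fun p hp a ha => ?_⟩, fun p hp => ?_, fun p hp b hb => ?_⟩
  · rw [hu2 p hp, hu2 _ (smul_mem_Cone hX hp ha), hinv p hp a ha]
  · obtain ⟨c⟩ := hch p hp
    rw [hu2 p hp, hf p hp p c c.mem_W]
    refine div_nonneg (mul_nonneg (by positivity) (zpow_nonneg ?_ _)) (pow_nonneg (DD_nonneg _ _) _)
    exact Finset.sum_nonneg fun _ _ => by positivity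
  · obtain ⟨c⟩ := hch p hp
    rw [hu2 p hp]
    by_cases hD : DD p b = 0
    · rcases Nat.eq_zero_or_pos m with rfl | hm
      · -- m = 0: the value does not depend on the frame
        obtain ⟨hz, hpe⟩ := c.surj p hp c.mem_W
        have hpi : p c.i ≠ 0 := c.W_ne p c.mem_W
        rw [pow_zero, mul_one, hf p hp p c c.mem_W]
        have h1 := (ofHol h).local_formula hX c hp c.mem_W hb
        rw [ofHol_S] at h1
        rw [h1]
        unfold val
        rw [pow_zero, pow_zero, mul_one, div_one]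
        have h4 : nsq p = ‖p c.i‖ ^ 2 * nsq (c.σ (ratio c.i c.J p p)) := by
          conv_lhs => rw [hpe]
          rw [nsq_csmul]
        rw [h4, norm_mul, norm_zpow, mul_pow, mul_zpow]
        have h5 : (‖p c.i‖ : ℝ) ≠ 0 := norm_ne_zero_iff.2 hpi
        have h6 : (‖p c.i‖ ^ j) ^ 2 * (‖p c.i‖ ^ 2) ^ (-j) = 1 := by
          rw [← zpow_natCast, ← zpow_mul, ← zpow_natCast (‖p c.i‖) 2, ← zpow_mul, ← zpow_add₀ h5]
          have : j * (2 : ℕ) + (2 : ℕ) * -j = 0 := by ring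
          rw [this, zpow_zero]
        generalize nsq (c.σ (ratio c.i c.J p p)) ^ (-j) = A at *
        generalize (‖p c.i‖ ^ 2) ^ (-j) = B at *
        generalize (‖p c.i‖ ^ j) ^ 2 = C at *
        calc C * ‖(ofHol h).chart c (ratio c.i c.J p p)‖ ^ 2 * (B * A) =
            (C * B) * (‖(ofHol h).chart c (ratio c.i c.J p p)‖ ^ 2 * A) := by ring
          _ = _ := by rw [h6, one_mul]
      · have h1 := (ofHol h).local_formula hX c hp c.mem_W hb
        rw [ofHol_S] at h1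
        have h2 := DD_formula hX c hp c.mem_W hb
        rw [hD] at h2
        have h3 := DD_chart_pos c (c.surj p hp c.mem_W).1
        have h4 : (Xm c.i c.J p b).det = 0 := by
          rcases mul_eq_zero.1 h2.symm with h5 | h5
          · simpa using h5
          · exact absurd h5 h3.ne'
        rw [h1, hD]
        unfold val
        rw [h4, zero_pow hm.ne', zero_pow hm.ne']
        simp
    · rw [hf p hp p c c.mem_W, ← sqn_formula hX h c hp c.mem_W hb hD]
      unfold sqn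
      rw [div_mul_cancel₀ _ (pow_ne_zero _ hD)]

/-- a smooth function on `X` is bounded on the cone -/
theorem SmX_bdd (hX : IsSmoothProjective I n) {u : EE N → ℝ} (hu : SmX I u) :
    ∃ C : ℝ, ∀ p ∈ Cone I, |u p| ≤ C := by
  have hc : ContinuousOn (fun p => |u p|) {p : EE N | p ∈ affineCone I ∧ nsq p = 1} := by
    intro p hp
    have hp' : p ∈ Cone I := ⟨hp.1, by rintro rfl; simp [nsq] at hp⟩
    exact ((hu.1 p hp').continuousAt.abs).continuousWithinAt
  obtain ⟨C, hC⟩ := isCompact_sphereCone.bddAbove_image hc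
  refine ⟨C, fun p hp => ?_⟩
  have hq0 : ((Real.sqrt (nsq p))⁻¹ : ℂ) ≠ 0 := by
    rw [← Complex.ofReal_inv]
    exact Complex.ofReal_ne_zero.2 (inv_ne_zero (Real.sqrt_pos.2 (nsq_pos hp.2)).ne')
  have h1 : u (nrm p) = u p := by rw [nrm_eq]; exact hu.2 p hp _ hq0
  rw [← h1]
  refine hC ⟨nrm p, ⟨?_, nsq_nrm hp.2⟩, rfl⟩
  rw [nrm_eq]
  exact smul_mem_affineCone hX hp.1 _

end

end Crest.Agent.R269.HolSec_307
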