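import Crest.Agent.R269.GeoT_328

/-!
# R269 (S0411), leaf BIG-OUT: holomorphic sections of `m K_X + j A` (helper307)

A section is a function `S p b` (`p` in the cone, `b_1..b_n` in `Tan I p`), `det^m`-homogeneous in `b`
modulo `p`, of weight `j` under `ℂ^*`, holomorphic along holomorphic families.
Everything is reduced to chart functions by the local formula
`S p b = (p i)^j * (det X(p,b))^m * φ (ratio i J p₀ p)`.
-/

set_option autoImplicit false

open MvPolynomial Crest.AlgGeometry.ProjEmb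
open scoped ContDiff Topology ComplexConjugate

namespace Crest.Agent.R269.HolSec_307

open Crest.Agent.R269.Geo_328

noncomputable section

variable {N n : ℕ}

/-! ### The chart matrix -/

/-- differential of the ratio coordinates at `p`, applied to `b` -/
def Xm (i : Fin (N + 1)) (J : Fin n → Fin (N + 1)) (p : EE N) (b : Fin n → EE N) :
    Matrix (Fin n) (Fin n) ℂ :=
  Matrix.of fun k l => (p i * b k (J l) - p (J l) * b k i) / p i ^ 2

theorem Xm_apply (i : Fin (N + 1)) (J : Fin n → Fin (N + 1)) (p : EE N) (b : Fin n → EE N)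
    (k l : Fin n) : Xm i J p b k l = (p i * b k (J l) - p (J l) * b k i) / p i ^ 2 := rfl

theorem Xm_smul (i : Fin (N + 1)) (J : Fin n → Fin (N + 1)) (p : EE N) (b : Fin n → EE N)
    {c : ℂ} (hc : c ≠ 0) : Xm i J (c • p) (fun k => c • b k) = Xm i J p b := by
  ext k l
  simp only [Xm_apply, Pi.smul_apply, smul_eq_mul]
  have h2 : c ^ 2 ≠ 0 := pow_ne_zero 2 hc
  rw [show c * p i * (c * b k (J l)) - c * p (J l) * (c * b k i) =
    c ^ 2 * (p i * b k (J l) - p (J l) * b k i) by ring, mul_pow, mul_div_mul_left _ _ h2]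

theorem Xm_lin (i : Fin (N + 1)) (J : Fin n → Fin (N + 1)) (p : EE N) (b : Fin n → EE N)
    (A : Matrix (Fin n) (Fin n) ℂ) (r : Fin n → ℂ) :
    Xm i J p (fun k => ∑ l, A k l • b l + r k • p) = A * Xm i J p b := by
  ext k l
  simp only [Xm_apply, Matrix.mul_apply, Pi.add_apply, Finset.sum_apply, Pi.smul_apply,
    smul_eq_mul]
  have : p i * (∑ x, A k x * b x (J l) + r k * p (J l)) -
      p (J l) * (∑ x, A k x * b x i + r k * p i) =
      ∑ x, A k x * (p i * b x (J l) - p (J l) * b x i) := by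
    rw [mul_add, mul_add, Finset.mul_sum, Finset.mul_sum]
    rw [show (∑ x, p i * (A k x * b x (J l)) + p i * (r k * p (J l)) -
      (∑ x, p (J l) * (A k x * b x i) + p (J l) * (r k * p i))) =
      ∑ x, p i * (A k x * b x (J l)) - ∑ x, p (J l) * (A k x * b x i) by ring]
    rw [← Finset.sum_sub_distrib]
    exact Finset.sum_congr rfl fun x _ => by ring
  rw [this, Finset.sum_div]
  exact Finset.sum_congr rfl fun x _ => by rw [mul_div_assoc]

theorem ratio_smul (i : Fin (N + 1)) (J : Fin n → Fin (N + 1)) (p₀ p : EE N) {c : ℂ}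
    (hc : c ≠ 0) : ratio i J p₀ (c • p) = ratio i J p₀ p := by
  funext k
  simp only [ratio, Pi.smul_apply, smul_eq_mul]
  rw [mul_div_mul_left _ _ hc]

/-- the local value of the section of `m K + j A` with chart function `φ` -/
def val (m : ℕ) (j : ℤ) (i : Fin (N + 1)) (J : Fin n → Fin (N + 1)) (p₀ : EE N) (φ : CC n → ℂ)
    (p : EE N) (b : Fin n → EE N) : ℂ :=
  p i ^ j * (Xm i J p b).det ^ m * φ (ratio i J p₀ p)

section val

variable (m : ℕ) (j : ℤ) (i : Fin (N + 1)) (J : Fin n → Fin (N + 1)) (p₀ : EE N) (φ : CC n → ℂ)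

theorem val_smul (p : EE N) (b : Fin n → EE N) {c : ℂ} (hc : c ≠ 0) :
    val m j i J p₀ φ (c • p) (fun k => c • b k) = c ^ j * val m j i J p₀ φ p b := by
  unfold val
  rw [Xm_smul i J p b hc, ratio_smul i J p₀ p hc, Pi.smul_apply, smul_eq_mul, mul_zpow]
  ring

theorem val_lin (p : EE N) (b : Fin n → EE N) (A : Matrix (Fin n) (Fin n) ℂ) (r : Fin n → ℂ) :
    val m j i J p₀ φ p (fun k => ∑ l, A k l • b l + r k • p) =
      A.det ^ m * val m j i J p₀ φ p b := by
  unfold val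
  rw [Xm_lin, Matrix.det_mul, mul_pow]
  ring

end val

theorem analyticAt_apply {E : Type*} [NormedAddCommGroup E] [NormedSpace ℂ E] {ι : Type*}
    [Fintype ι] {F : E → ι → ℂ} {x : E} (h : AnalyticAt ℂ F x) (k : ι) :
    AnalyticAt ℂ (fun y => F y k) x :=
  (ContinuousLinearMap.proj (R := ℂ) (φ := fun _ : ι => ℂ) k).analyticAt _ |>.comp h

theorem Xm_analyticAt {E : Type*} [NormedAddCommGroup E] [NormedSpace ℂ E]
    {i : Fin (N + 1)} {J : Fin n → Fin (N + 1)} {F : E → EE N} {b : Fin n → E → EE N} {x : E}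
    (hF : AnalyticAt ℂ F x) (hb : ∀ k, AnalyticAt ℂ (b k) x) (hi : F x i ≠ 0) (k l : Fin n) :
    AnalyticAt ℂ (fun y => Xm i J (F y) (fun k => b k y) k l) x := by
  simp only [Xm_apply]
  refine AnalyticAt.fun_div ?_ ?_ (pow_ne_zero 2 hi)
  · exact ((analyticAt_apply hF i).fun_mul (analyticAt_apply (hb k) (J l))).fun_sub
      ((analyticAt_apply hF (J l)).fun_mul (analyticAt_apply (hb k) i))
  · exact (analyticAt_apply hF i).fun_pow 2

theorem det_analyticAt {E : Type*} [NormedAddCommGroup E] [NormedSpace ℂ E]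
    {M : E → Matrix (Fin n) (Fin n) ℂ} {x : E} (h : ∀ k l, AnalyticAt ℂ (fun y => M y k l) x) :
    AnalyticAt ℂ (fun y => (M y).det) x := by
  simp only [Matrix.det_apply]
  refine Finset.analyticAt_fun_sum _ fun σ _ => ?_
  exact (Finset.analyticAt_fun_prod _ fun k _ => h (σ k) k).const_smul

theorem ratio_analyticAt {E : Type*} [NormedAddCommGroup E] [NormedSpace ℂ E]
    {i : Fin (N + 1)} {J : Fin n → Fin (N + 1)} {p₀ : EE N} {F : E → EE N} {x : E}
    (hF : AnalyticAt ℂ F x) (hi : F x i ≠ 0) :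
    AnalyticAt ℂ (fun y => ratio i J p₀ (F y)) x := by
  refine analyticAt_pi_iff.2 fun k => ?_
  unfold ratio
  exact ((analyticAt_apply hF (J k)).fun_div (analyticAt_apply hF i) hi).fun_sub analyticAt_const

theorem val_analyticAt {E : Type*} [NormedAddCommGroup E] [NormedSpace ℂ E] (m : ℕ) (j : ℤ)
    {i : Fin (N + 1)} {J : Fin n → Fin (N + 1)} {p₀ : EE N} {φ : CC n → ℂ}
    {F : E → EE N} {b : Fin n → E → EE N} {x : E}
    (hF : AnalyticAt ℂ F x) (hb : ∀ k, AnalyticAt ℂ (b k) x) (hi : F x i ≠ 0)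
    (hφ : AnalyticAt ℂ φ (ratio i J p₀ (F x))) :
    AnalyticAt ℂ (fun y => val m j i J p₀ φ (F y) (fun k => b k y)) x := by
  unfold val
  refine AnalyticAt.fun_mul (AnalyticAt.fun_mul ?_ ?_) ?_
  · exact (analyticAt_apply hF i).zpow hi
  · exact (det_analyticAt fun k l => Xm_analyticAt hF hb hi k l).fun_pow m
  · exact AnalyticAt.fun_comp hφ (ratio_analyticAt hF hi)

/-! ### Decomposition of frames in a chart -/

section chart

variable {I : Ideal (HomCoordRing N)} {p₀ : EE N} (c : ConeChart I n p₀)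

/-- the `k`-th partial derivative of the chart -/
def dσ (z : CC n) (k : Fin n) : EE N := fderiv ℂ c.σ z (Pi.single k 1)

theorem hasFDerivAt_σ {z : CC n} (hz : z ∈ Metric.ball (0 : CC n) c.R) :
    HasFDerivAt c.σ (fderiv ℂ c.σ z) z :=
  (c.an z hz).differentiableAt.hasFDerivAt

theorem fderiv_σ_i {z : CC n} (hz : z ∈ Metric.ball (0 : CC n) c.R) (x : CC n) :
    fderiv ℂ c.σ z x c.i = 0 := by
  have h1 : HasFDerivAt (fun y => c.σ y c.i)
      ((ContinuousLinearMap.proj (R := ℂ) (φ := fun _ : Fin (N + 1) => ℂ) c.i).comp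
        (fderiv ℂ c.σ z)) z :=
    (ContinuousLinearMap.proj (R := ℂ) (φ := fun _ : Fin (N + 1) => ℂ) c.i).hasFDerivAt.comp z
      (hasFDerivAt_σ c hz)
  have h2 : (fun y => c.σ y c.i) =ᶠ[𝓝 z] fun _ => (1 : ℂ) := by
    filter_upwards [Metric.isOpen_ball.mem_nhds hz] with y hy using c.σ_i y hy
  have h3 := h1.unique ((hasFDerivAt_const (1 : ℂ) z).congr_of_eventuallyEq h2)
  have h4 := DFunLike.congr_fun h3 x
  simpa using h4

theorem fderiv_σ_J {z : CC n} (hz : z ∈ Metric.ball (0 : CC n) c.R) (x : CC n) (k : Fin n) :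
    fderiv ℂ c.σ z x (c.J k) = x k := by
  have h1 : HasFDerivAt (fun y => c.σ y (c.J k))
      ((ContinuousLinearMap.proj (R := ℂ) (φ := fun _ : Fin (N + 1) => ℂ) (c.J k)).comp
        (fderiv ℂ c.σ z)) z :=
    (ContinuousLinearMap.proj (R := ℂ) (φ := fun _ : Fin (N + 1) => ℂ) (c.J k)).hasFDerivAt.comp z
      (hasFDerivAt_σ c hz)
  have h2 : (fun y => c.σ y (c.J k)) =ᶠ[𝓝 z] fun y => p₀ (c.J k) / p₀ c.i + y k := by
    filter_upwards [Metric.isOpen_ball.mem_nhds hz] with y hy using c.σ_J y hy k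
  have h0 : HasFDerivAt (fun y : CC n => p₀ (c.J k) / p₀ c.i + y k)
      (ContinuousLinearMap.proj (R := ℂ) (φ := fun _ : Fin n => ℂ) k) z :=
    ((ContinuousLinearMap.proj (R := ℂ) (φ := fun _ : Fin n => ℂ) k).hasFDerivAt).const_add _
  have h3 := h1.unique (h0.congr_of_eventuallyEq h2)
  have h4 := DFunLike.congr_fun h3 x
  simpa using h4

theorem fderiv_σ_eq (z x : CC n) : fderiv ℂ c.σ z x = ∑ l, x l • dσ c z l := by
  conv_lhs => rw [pi_eq_sum_univ' x]
  rw [map_sum]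
  refine Finset.sum_congr rfl fun l _ => ?_
  simp only [dσ]
  rw [← map_smul]

theorem σ_i_ne {z : CC n} (hz : z ∈ Metric.ball (0 : CC n) c.R) : c.σ z c.i ≠ 0 := by
  rw [c.σ_i z hz]; exact one_ne_zero

theorem ratio_σ {z : CC n} (hz : z ∈ Metric.ball (0 : CC n) c.R) : ratio c.i c.J p₀ (c.σ z) = z := by
  funext k
  simp only [ratio, c.σ_i z hz, c.σ_J z hz k, div_one]
  ring

theorem self_mem (hX : IsSmoothProjective I n) {z : CC n} (hz : z ∈ Metric.ball (0 : CC n) c.R) :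
    c.σ z ∈ Tan I (c.σ z) := self_mem_Tan hX (c.σ_cone z hz).1

theorem dσ_mem {z : CC n} (hz : z ∈ Metric.ball (0 : CC n) c.R) (k : Fin n) :
    dσ c z k ∈ Tan I (c.σ z) := (c.tan z hz _).2 ⟨0, _, by rw [zero_smul, zero_add]; rfl⟩

theorem Xm_dσ {z : CC n} (hz : z ∈ Metric.ball (0 : CC n) c.R) :
    Xm c.i c.J (c.σ z) (dσ c z) = 1 := by
  ext k l
  rw [Xm_apply, c.σ_i z hz]
  unfold dσ
  rw [fderiv_σ_i c hz, fderiv_σ_J c hz]
  simp [Matrix.one_apply, Pi.single_apply, eq_comm]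

/-- every tangent frame at a cone point of the chart, expressed through `σ` and `∂σ` -/
theorem decomp (hX : IsSmoothProjective I n) {p : EE N} (hp : p ∈ Cone I) (hW : p ∈ c.W)
    {b : Fin n → EE N} (hb : ∀ k, b k ∈ Tan I p) :
    ∃ r : Fin n → ℂ, b = fun k => p c.i • (∑ l, Xm c.i c.J p b k l •
      dσ c (ratio c.i c.J p₀ p) l + r k • c.σ (ratio c.i c.J p₀ p)) := by
  obtain ⟨hz, hpe⟩ := c.surj p hp hW
  set z := ratio c.i c.J p₀ p with hzdef
  have hpi : p c.i ≠ 0 := c.W_ne p hW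
  have key : ∀ k, ∃ rk : ℂ, b k = p c.i • (∑ l, Xm c.i c.J p b k l • dσ c z l + rk • c.σ z) := by
    intro k
    have h1 : b k ∈ Tan I (c.σ z) := by
      have := hb k
      rw [hpe, Tan_smul hX _ hpi] at this
      exact this
    have h2 : (p c.i)⁻¹ • b k ∈ Tan I (c.σ z) := Submodule.smul_mem _ _ h1
    obtain ⟨r, x, hrx⟩ := (c.tan z hz _).1 h2
    refine ⟨r, ?_⟩
    have hi := congrFun hrx c.i
    simp only [Pi.smul_apply, Pi.add_apply, smul_eq_mul, c.σ_i z hz, fderiv_σ_i c hz, mul_one,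
      add_zero] at hi
    have hx : ∀ l, x l = Xm c.i c.J p b k l := by
      intro l
      have hl := congrFun hrx (c.J l)
      simp only [Pi.smul_apply, Pi.add_apply, smul_eq_mul, fderiv_σ_J c hz] at hl
      have hpl : p (c.J l) = p c.i * c.σ z (c.J l) := by
        conv_lhs => rw [hpe]
        rfl
      rw [Xm_apply]
      rw [eq_div_iff (pow_ne_zero 2 hpi), hpl]
      have e1 : x l = (p c.i)⁻¹ * b k (c.J l) - r * c.σ z (c.J l) := by rw [hl]; ring
      rw [e1, ← hi]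
      field_simp
    have h3 : b k = p c.i • ((p c.i)⁻¹ • b k) := by rw [smul_smul, mul_inv_cancel₀ hpi, one_smul]
    have h4 : r • c.σ z + fderiv ℂ c.σ z x =
        ∑ l, Xm c.i c.J p b k l • dσ c z l + r • c.σ z := by
      rw [fderiv_σ_eq, add_comm]
      congr 1
      exact Finset.sum_congr rfl fun l _ => by rw [hx]
    rw [h3, hrx, h4]
  choose r hr using key
  exact ⟨r, funext hr⟩

end chart

/-! ### Holomorphic sections of `m K_X + j A` -/

/-- a holomorphic section of `m K_X + j A` as a function of (cone point, tangent frame) -/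
structure HolSec (I : Ideal (HomCoordRing N)) (n m : ℕ) (j : ℤ) where
  S : EE N → (Fin n → EE N) → ℂ
  smul : ∀ p ∈ Cone I, ∀ b : Fin n → EE N, (∀ k, b k ∈ Tan I p) → ∀ c : ℂ, c ≠ 0 →
    S (c • p) (fun k => c • b k) = c ^ j * S p b
  lin : ∀ p ∈ Cone I, ∀ b : Fin n → EE N, (∀ k, b k ∈ Tan I p) →
    ∀ (A : Matrix (Fin n) (Fin n) ℂ) (r : Fin n → ℂ),
    S p (fun k => ∑ l, A k l • b l + r k • p) = A.det ^ m * S p b
  hol : ∀ (d : ℕ) (F : CC d → EE N) (b : Fin n → CC d → EE N) (z₀ : CC d), AnalyticAt ℂ F z₀ →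
    (∀ k, AnalyticAt ℂ (b k) z₀) → (∀ᶠ z in 𝓝 z₀, F z ∈ Cone I ∧ ∀ k, b k z ∈ Tan I (F z)) →
    AnalyticAt ℂ (fun z => S (F z) (fun k => b k z)) z₀

/-- the chart function of a section -/
def HolSec.chart {I : Ideal (HomCoordRing N)} {m : ℕ} {j : ℤ} (S : HolSec I n m j) {p₀ : EE N}
    (c : ConeChart I n p₀) (z : CC n) : ℂ := S.S (c.σ z) (dσ c z)

theorem dσ_analyticAt {I : Ideal (HomCoordRing N)} {p₀ : EE N} (c : ConeChart I n p₀)
    {z : CC n} (hz : z ∈ Metric.ball (0 : CC n) c.R) (k : Fin n) :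
    AnalyticAt ℂ (fun y => dσ c y k) z := by
  have h1 : AnalyticAt ℂ (fderiv ℂ c.σ) z := (c.an z hz).fderiv
  exact (ContinuousLinearMap.apply ℂ (EE N) (Pi.single k (1 : ℂ) : CC n)).analyticAt _ |>.comp h1

theorem HolSec.chart_analyticAt {I : Ideal (HomCoordRing N)} {m : ℕ} {j : ℤ} (S : HolSec I n m j)
    {p₀ : EE N} (c : ConeChart I n p₀) {z : CC n} (hz : z ∈ Metric.ball (0 : CC n) c.R) :
    AnalyticAt ℂ (S.chart c) z := by
  refine S.hol n c.σ (fun k y => dσ c y k) z (c.an z hz) (fun k => dσ_analyticAt c hz k) ?_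
  filter_upwards [Metric.isOpen_ball.mem_nhds hz] with y hy
  exact ⟨c.σ_cone y hy, fun k => dσ_mem c hy k⟩

/-- the local formula -/
theorem HolSec.local_formula {I : Ideal (HomCoordRing N)} (hX : IsSmoothProjective I n) {m : ℕ}
    {j : ℤ} (S : HolSec I n m j)
    {p₀ : EE N} (c : ConeChart I n p₀) {p : EE N} (hp : p ∈ Cone I) (hW : p ∈ c.W)
    {b : Fin n → EE N} (hb : ∀ k, b k ∈ Tan I p) :
    S.S p b = val m j c.i c.J p₀ (S.chart c) p b := by
  obtain ⟨r, hr⟩ := decomp c hX hp hW hb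
  obtain ⟨hz, hpe⟩ := c.surj p hp hW
  have hpi : p c.i ≠ 0 := c.W_ne p hW
  have hT : ∀ k, dσ c (ratio c.i c.J p₀ p) k ∈ Tan I (c.σ (ratio c.i c.J p₀ p)) :=
    fun k => dσ_mem c hz k
  have h1 := S.lin _ (c.σ_cone _ hz) _ hT (Xm c.i c.J p b) r
  have hT2 : ∀ k, (∑ l, Xm c.i c.J p b k l • dσ c (ratio c.i c.J p₀ p) l +
      r k • c.σ (ratio c.i c.J p₀ p)) ∈ Tan I (c.σ (ratio c.i c.J p₀ p)) := fun k =>
    Submodule.add_mem _ (Submodule.sum_mem _ fun l _ => Submodule.smul_mem _ _ (hT l))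
      (Submodule.smul_mem _ _ (self_mem c hX hz))
  have h2 := S.smul _ (c.σ_cone _ hz) _ hT2 (p c.i) hpi
  rw [← hpe, ← hr, h1] at h2
  rw [h2]
  unfold val HolSec.chart
  ring

/-- the value in the chart, on the chart frame -/
theorem val_dσ {I : Ideal (HomCoordRing N)} (m : ℕ) (j : ℤ)
    {p₀ : EE N} (c : ConeChart I n p₀) (φ : CC n → ℂ) {z : CC n}
    (hz : z ∈ Metric.ball (0 : CC n) c.R) :
    val m j c.i c.J p₀ φ (c.σ z) (dσ c z) = φ z := by
  unfold val
  rw [Xm_dσ c hz, Matrix.det_one, ratio_σ c hz, c.σ_i z hz]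
  simp

/-! ### Sections from chart functions -/

/-- a covering family of cone charts with chart functions of a section of `m K + j A` -/
structure ChartFam (I : Ideal (HomCoordRing N)) (n m : ℕ) (j : ℤ) (A : Type*) where
  p₀ : A → EE N
  c : ∀ a, ConeChart I n (p₀ a)
  cov : ∀ p ∈ Cone I, ∃ a, p ∈ (c a).W
  φ : A → CC n → ℂ
  an : ∀ a, AnalyticOnNhd ℂ (φ a) (Metric.ball 0 (c a).R)
  compat : ∀ a a' z, z ∈ Metric.ball (0 : CC n) (c a).R → (c a).σ z ∈ (c a').W →
    φ a z = val m j (c a').i (c a').J (p₀ a') (φ a') ((c a).σ z) (dσ (c a) z)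

namespace ChartFam

variable {I : Ideal (HomCoordRing N)} {m : ℕ} {j : ℤ} {A : Type*} (D : ChartFam I n m j A)

/-- local value in the chart `a` -/
def v (a : A) (p : EE N) (b : Fin n → EE N) : ℂ :=
  val m j (D.c a).i (D.c a).J (D.p₀ a) (D.φ a) p b

theorem v_eq (hX : IsSmoothProjective I n) (a a' : A) {p : EE N} (hp : p ∈ Cone I)
    (hW : p ∈ (D.c a).W) (hW' : p ∈ (D.c a').W) {b : Fin n → EE N} (hb : ∀ k, b k ∈ Tan I p) :
    D.v a p b = D.v a' p b := by
  obtain ⟨r, hr⟩ := decomp (D.c a) hX hp hW hb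
  obtain ⟨hz, hpe⟩ := (D.c a).surj p hp hW
  set z := ratio (D.c a).i (D.c a).J (D.p₀ a) p with hzd
  have hpi : p (D.c a).i ≠ 0 := (D.c a).W_ne p hW
  have hσW : (D.c a).σ z ∈ (D.c a').W := by
    have h := (D.c a').W_smul (p (D.c a).i)⁻¹ (inv_ne_zero hpi) p hW'
    rwa [hpe, smul_smul, Pi.smul_apply, (D.c a).σ_i z hz, smul_eq_mul, mul_one,
      inv_mul_cancel₀ hpi, one_smul] at h
  have e : ∀ a'', D.v a'' p b = p (D.c a).i ^ j * ((Xm (D.c a).i (D.c a).J p b).det ^ m *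
      D.v a'' ((D.c a).σ z) (dσ (D.c a) z)) := by
    intro a''
    unfold v
    rw [← val_lin m j _ _ _ _ ((D.c a).σ z) (dσ (D.c a) z) (Xm (D.c a).i (D.c a).J p b) r,
      ← val_smul m j _ _ _ _ _ _ hpi, ← hpe, ← hr]
  rw [e a, e a']
  congr 2
  rw [show D.v a ((D.c a).σ z) (dσ (D.c a) z) = D.φ a z from val_dσ m j (D.c a) (D.φ a) hz]
  exact D.compat a a' z hz hσW

open Classical in
/-- THE SECTION DEFINED BY CHART FUNCTIONS -/
def toSec (hX : IsSmoothProjective I n) : HolSec I n m j where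
  S p b := if h : ∃ a, p ∈ (D.c a).W then D.v h.choose p b else 0
  smul := by
    intro p hp b hb c hc
    obtain ⟨a, ha⟩ := D.cov p hp
    have h1 : ∃ a, p ∈ (D.c a).W := ⟨a, ha⟩
    have ha' : c • p ∈ (D.c a).W := (D.c a).W_smul c hc p ha
    have h2 : ∃ a, c • p ∈ (D.c a).W := ⟨a, ha'⟩
    rw [dif_pos h1, dif_pos h2,
      D.v_eq hX h1.choose a hp h1.choose_spec ha hb,
      D.v_eq hX h2.choose a (smul_mem_Cone hX hp hc) h2.choose_spec ha'
        (fun k => by rw [Tan_smul hX p hc]; exact Submodule.smul_mem _ _ (hb k))]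
    exact val_smul m j _ _ _ _ p b hc
  lin := by
    intro p hp b hb A r
    obtain ⟨a, ha⟩ := D.cov p hp
    have h1 : ∃ a, p ∈ (D.c a).W := ⟨a, ha⟩
    have hT : ∀ k, (∑ l, A k l • b l + r k • p) ∈ Tan I p := fun k =>
      Submodule.add_mem _ (Submodule.sum_mem _ fun l _ => Submodule.smul_mem _ _ (hb l))
        (Submodule.smul_mem _ _ (self_mem_Tan hX hp.1))
    rw [dif_pos h1, dif_pos h1,
      D.v_eq hX h1.choose a hp h1.choose_spec ha hb,
      D.v_eq hX h1.choose a hp h1.choose_spec ha hT]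
    exact val_lin m j _ _ _ _ p b A r
  hol := by
    intro d F b z₀ hF hb hev
    have h0 := hev.self_of_nhds
    obtain ⟨a, ha⟩ := D.cov _ h0.1
    have hz := ((D.c a).surj _ h0.1 ha).1
    have h1 : AnalyticAt ℂ (fun z => D.v a (F z) (fun k => b k z)) z₀ :=
      val_analyticAt m j hF hb ((D.c a).W_ne _ ha) (D.an a _ hz)
    refine h1.congr ?_
    filter_upwards [hev, hF.continuousAt.preimage_mem_nhds ((D.c a).W_open.mem_nhds ha)]
      with z hz1 hz2
    have h2 : ∃ a, F z ∈ (D.c a).W := ⟨a, hz2⟩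
    rw [dif_pos h2, D.v_eq hX h2.choose a hz1.1 h2.choose_spec hz2 hz1.2]

open Classical in
theorem toSec_apply (hX : IsSmoothProjective I n) (a : A) {p : EE N} (hp : p ∈ Cone I)
    (hW : p ∈ (D.c a).W) {b : Fin n → EE N} (hb : ∀ k, b k ∈ Tan I p) :
    (D.toSec hX).S p b = D.v a p b := by
  have h1 : ∃ a, p ∈ (D.c a).W := ⟨a, hW⟩
  change (if h : ∃ a, p ∈ (D.c a).W then D.v h.choose p b else 0) = _
  rw [dif_pos h1]
  exact D.v_eq hX h1.choose a hp h1.choose_spec hW hb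

theorem toSec_chart (hX : IsSmoothProjective I n) (a : A) {z : CC n}
    (hz : z ∈ Metric.ball (0 : CC n) (D.c a).R) : (D.toSec hX).chart (D.c a) z = D.φ a z := by
  unfold HolSec.chart
  rw [D.toSec_apply hX a ((D.c a).σ_cone z hz) ((D.c a).σ_W z hz) (fun k => dσ_mem (D.c a) hz k)]
  exact val_dσ m j (D.c a) (D.φ a) hz

end ChartFam

/-! ### Algebra of sections -/

namespace HolSec

variable {I : Ideal (HomCoordRing N)} {m m' : ℕ} {j j' : ℤ}

/-- sum -/
def add (S T : HolSec I n m j) : HolSec I n m j where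
  S p b := S.S p b + T.S p b
  smul p hp b hb c hc := by rw [S.smul p hp b hb c hc, T.smul p hp b hb c hc, mul_add]
  lin p hp b hb A r := by rw [S.lin p hp b hb A r, T.lin p hp b hb A r, mul_add]
  hol d F b z₀ hF hb hev := (S.hol d F b z₀ hF hb hev).fun_add (T.hol d F b z₀ hF hb hev)

/-- scalar multiple -/
def csmul (a : ℂ) (S : HolSec I n m j) : HolSec I n m j where
  S p b := a * S.S p b
  smul p hp b hb c hc := by rw [S.smul p hp b hb c hc]; ring
  lin p hp b hb A r := by rw [S.lin p hp b hb A r]; ring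
  hol d F b z₀ hF hb hev := analyticAt_const.fun_mul (S.hol d F b z₀ hF hb hev)

/-- product -/
def mul (S : HolSec I n m j) (T : HolSec I n m' j') : HolSec I n (m + m') (j + j') where
  S p b := S.S p b * T.S p b
  smul p hp b hb c hc := by
    rw [S.smul p hp b hb c hc, T.smul p hp b hb c hc, zpow_add₀ hc]; ring
  lin p hp b hb A r := by rw [S.lin p hp b hb A r, T.lin p hp b hb A r, pow_add]; ring
  hol d F b z₀ hF hb hev := (S.hol d F b z₀ hF hb hev).fun_mul (T.hol d F b z₀ hF hb hev)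

theorem evalPoly_analyticAt {E : Type*} [NormedAddCommGroup E] [NormedSpace ℂ E]
    (G : HomCoordRing N) {F : E → EE N} {x : E} (hF : AnalyticAt ℂ F x) :
    AnalyticAt ℂ (fun y => MvPolynomial.eval (F y) G) x := by
  induction G using MvPolynomial.induction_on with
  | C a => simpa using analyticAt_const
  | add p q hp hq => simpa using hp.fun_add hq
  | mul_X p i hp => simpa using hp.fun_mul (analyticAt_apply hF i)

/-- multiplication by a homogeneous polynomial of degree `d` -/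
def mulPoly {d : ℕ} (G : HomCoordRing N) (hG : G.IsHomogeneous d) (S : HolSec I n m j) :
    HolSec I n m (j + d) where
  S p b := MvPolynomial.eval p G * S.S p b
  smul p hp b hb c hc := by
    rw [S.smul p hp b hb c hc, eval_smul_hom hG, zpow_add₀ hc, zpow_natCast]; ring
  lin p hp b hb A r := by rw [S.lin p hp b hb A r]; ring
  hol _ F b z₀ hF hb hev := (evalPoly_analyticAt G hF).fun_mul (S.hol _ F b z₀ hF hb hev)

/-- DIVISION: `S = G T` in every chart of a covering family gives `T` globally -/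
theorem exists_div (hX : IsSmoothProjective I n) (S : HolSec I n m j) {d : ℕ}
    {G : HomCoordRing N} (hG : G.IsHomogeneous d) {A : Type*} (p₀ : A → EE N)
    (c : ∀ a, ConeChart I n (p₀ a)) (cov : ∀ p ∈ Cone I, ∃ a, p ∈ (c a).W)
    (χ : A → CC n → ℂ) (hχ : ∀ a, AnalyticOnNhd ℂ (χ a) (Metric.ball 0 (c a).R))
    (hdiv : ∀ a, ∀ z ∈ Metric.ball (0 : CC n) (c a).R,
      S.chart (c a) z = MvPolynomial.eval ((c a).σ z) G * χ a z)
    (hdense : ∀ a, ∀ z ∈ Metric.ball (0 : CC n) (c a).R,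
      ∃ᶠ y in 𝓝 z, MvPolynomial.eval ((c a).σ y) G ≠ 0) :
    ∃ T : HolSec I n m (j - d), (∀ a, ∀ z ∈ Metric.ball (0 : CC n) (c a).R,
      T.chart (c a) z = χ a z) ∧ ∀ p ∈ Cone I, ∀ b : Fin n → EE N, (∀ k, b k ∈ Tan I p) →
      S.S p b = MvPolynomial.eval p G * T.S p b := by
  have comp : ∀ a a' z, z ∈ Metric.ball (0 : CC n) (c a).R → (c a).σ z ∈ (c a').W →
      χ a z = val m (j - d) (c a').i (c a').J (p₀ a') (χ a') ((c a).σ z) (dσ (c a) z) := by
    intro a a' z hz hW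
    have h1 : AnalyticAt ℂ (fun y => val m (j - d) (c a').i (c a').J (p₀ a') (χ a') ((c a).σ y)
        (fun k => dσ (c a) y k)) z :=
      val_analyticAt m _ ((c a).an z hz) (fun k => dσ_analyticAt (c a) hz k)
        ((c a').W_ne _ hW) (hχ a' _ ((c a').surj _ ((c a).σ_cone z hz) hW).1)
    by_contra hne
    have h2 : ∀ᶠ y in 𝓝 z, χ a y ≠ val m (j - d) (c a').i (c a').J (p₀ a') (χ a') ((c a).σ y)
        (fun k => dσ (c a) y k) :=
      (hχ a z hz).continuousAt.ne_iff_eventually_ne h1.continuousAt |>.1 hne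
    have h3 : ∀ᶠ y in 𝓝 z, (c a).σ y ∈ (c a').W :=
      ((c a).an z hz).continuousAt.preimage_mem_nhds ((c a').W_open.mem_nhds hW)
    obtain ⟨y, hGy, hy, hyW, hyb⟩ :=
      ((hdense a z hz).and_eventually (h2.and (h3.and (Metric.isOpen_ball.mem_nhds hz)))).exists
    apply hy
    have hyc : (c a).σ y ∈ Cone I := (c a).σ_cone y hyb
    obtain ⟨hb', hpe⟩ := (c a').surj _ hyc hyW
    set z' := ratio (c a').i (c a').J (p₀ a') ((c a).σ y) with hz'
    have hi : (c a).σ y (c a').i ≠ 0 := (c a').W_ne _ hyW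
    have e1 : S.chart (c a) y = val m j (c a').i (c a').J (p₀ a') (S.chart (c a')) ((c a).σ y)
        (dσ (c a) y) :=
      S.local_formula hX (c a') hyc hyW (fun k => dσ_mem (c a) hyb k)
    have e2 : MvPolynomial.eval ((c a).σ y) G =
        (c a).σ y (c a').i ^ d * MvPolynomial.eval ((c a').σ z') G := by
      conv_lhs => rw [hpe]
      rw [eval_smul_hom hG]
    refine mul_left_cancel₀ hGy ?_
    rw [← hdiv a y hyb, e1]
    unfold val
    rw [← hz', hdiv a' z' hb', e2, zpow_sub₀ hi, zpow_natCast]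
    have : (c a).σ y (c a').i ^ d ≠ 0 := pow_ne_zero _ hi
    field_simp
  let D : ChartFam I n m (j - d) A := ⟨p₀, c, cov, χ, hχ, comp⟩
  refine ⟨D.toSec hX, fun a z hz => D.toSec_chart hX a hz, fun p hp b hb => ?_⟩
  obtain ⟨a, ha⟩ := cov p hp
  obtain ⟨hz, hpe⟩ := (c a).surj p hp ha
  have hi : p (c a).i ≠ 0 := (c a).W_ne _ ha
  rw [D.toSec_apply hX a hp ha hb, S.local_formula hX (c a) hp ha hb]
  unfold ChartFam.v val
  have e2 : MvPolynomial.eval p G = p (c a).i ^ d *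
      MvPolynomial.eval ((c a).σ (ratio (c a).i (c a).J (p₀ a) p)) G := by
    conv_lhs => rw [hpe]
    rw [eval_smul_hom hG]
  rw [hdiv a _ hz, e2]
  change _ = _ * (p (c a).i ^ (j - (d : ℤ)) * (Xm (c a).i (c a).J p b).det ^ m *
    χ a (ratio (c a).i (c a).J (p₀ a) p))
  rw [zpow_sub₀ hi, zpow_natCast]
  have : p (c a).i ^ d ≠ 0 := pow_ne_zero _ hi
  field_simp

end HolSec

end

end Crest.Agent.R269.HolSec_307
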