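import Mathlib
import Crest.Agent.R269.Dual_271

/-!
Row 269, Parts 8 and 12 of Blueprint_646: from (T) and the resolvent (7.1) to the measure `U`,
against an abstract interface `FieldData` (compact space, fields `s`, operators `L_s`, adjoints
`rho_s`).
-/

set_option autoImplicit false
noncomputable section

open MeasureTheory Set

namespace Crest.Agent.R269.Part8_271

open Crest.Agent.R269.Dual271

/-- Abstract interface for "smooth Hermitian fields on the cotangent space of a compact Kähler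
manifold `X`".  `𝒮` = smooth functions, `V` = smooth Hermitian fields, `pos` = positive definite
fields, `L s u = tr (s (i∂∂̄ u))`, `rho s = L_s^* 1`, `dt s = (det_g s)^{1/n}`, `g0 = g⁻¹`. -/
structure FieldData (X : Type*) [TopologicalSpace X] [CompactSpace X] [T2Space X]
    [MeasurableSpace X] [BorelSpace X] (V : Type*) [AddCommGroup V] [Module ℝ V] where
  /-- the volume measure -/
  vol : Measure X
  vol_fin : IsFiniteMeasure vol
  /-- smooth functions -/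
  Sm : Submodule ℝ C(X, ℝ)
  one_mem : (1 : C(X, ℝ)) ∈ Sm
  /-- positive definite fields -/
  pos : Set V
  pos_add : ∀ a ∈ pos, ∀ b ∈ pos, a + b ∈ pos
  pos_smul : ∀ t : ℝ, 0 < t → ∀ a ∈ pos, t • a ∈ pos
  /-- the operator `L_s` -/
  L : V →ₗ[ℝ] (Sm →ₗ[ℝ] C(X, ℝ))
  L_one : ∀ s, L s ⟨1, one_mem⟩ = 0
  /-- the adjoint applied to `1` -/
  rho : V →ₗ[ℝ] C(X, ℝ)
  integral_L : ∀ (s : V) (u : Sm), ∫ x, L s u x ∂vol = ∫ x, (u : C(X, ℝ)) x * rho s x ∂vol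
  /-- `(det_g s)^{1/n}` -/
  dt : V → C(X, ℝ)
  dt_add : ∀ a ∈ pos, ∀ b ∈ pos, ∀ x, dt a x + dt b x ≤ dt (a + b) x
  dt_smul : ∀ t : ℝ, 0 < t → ∀ a ∈ pos, ∀ x, dt (t • a) x = t * dt a x
  dt_nonneg : ∀ a ∈ pos, ∀ x, 0 ≤ dt a x
  /-- `g⁻¹` -/
  g0 : V
  g0_pos : g0 ∈ pos
  rho_g0 : rho g0 = 0
  dt_g0 : ∀ x, dt g0 x = 1

namespace FieldData

variable {X : Type*} [TopologicalSpace X] [CompactSpace X] [T2Space X] [MeasurableSpace X]
  [BorelSpace X] {V : Type*} [AddCommGroup V] [Module ℝ V]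

omit [T2Space X] in
theorem integrable (μ : Measure X) [IsFiniteMeasure μ] (f : C(X, ℝ)) : Integrable f μ := by
  have h1 : HasCompactSupport (f : X → ℝ) := HasCompactSupport.of_compactSpace f
  exact f.continuous.integrable_of_hasCompactSupport h1

variable (𝓕 : FieldData X V)

/-- `J(s) = ∫ tr(s θ) - N ∫ (det_g s)^{1/n}`, `θ` a smooth form, `tb s = tr (s θ)`. -/
def J (tb : V →ₗ[ℝ] C(X, ℝ)) (N : ℝ) (s : V) : ℝ :=
  ∫ x, tb s x ∂𝓕.vol - N * ∫ x, 𝓕.dt s x ∂𝓕.vol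

/-- The sub-solutions: (T) and the resolvent give `J ≥ 0` on `{rho s ≤ lam dt s}`. -/
theorem J_nonneg_of_rho_le (tb : V →ₗ[ℝ] C(X, ℝ)) (N lam : ℝ)
    (hT : ∀ s ∈ 𝓕.pos, ∀ u : 𝓕.Sm,
      (∀ x, tb s x + 𝓕.L s u x ≤ (N + lam * (u : C(X, ℝ)) x) * 𝓕.dt s x) →
      ∀ x, 0 ≤ (u : C(X, ℝ)) x)
    (hR : ∀ s ∈ 𝓕.pos, ∀ δ : ℝ, 0 < δ → ∃ u : 𝓕.Sm,
      (∀ x, tb s x - N * 𝓕.dt s x ≤ lam * 𝓕.dt s x * (u : C(X, ℝ)) x - 𝓕.L s u x) ∧
      (∀ x, lam * 𝓕.dt s x * (u : C(X, ℝ)) x - 𝓕.L s u x ≤ tb s x - N * 𝓕.dt s x + δ))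
    (s : V) (hs : s ∈ 𝓕.pos) (hrho : ∀ x, 𝓕.rho s x - lam * 𝓕.dt s x ≤ 0) :
    0 ≤ 𝓕.J tb N s := by
  have := 𝓕.vol_fin
  have key : ∀ δ : ℝ, 0 < δ → 0 ≤ 𝓕.J tb N s + δ * 𝓕.vol.real univ := by
    intro δ hδ
    obtain ⟨u, hu1, hu2⟩ := hR s hs δ hδ
    have hu : ∀ x, 0 ≤ (u : C(X, ℝ)) x := by
      refine hT s hs u fun x => ?_
      have := hu1 x
      linarith
    have i1 := integrable 𝓕.vol (tb s)
    have i2 := integrable 𝓕.vol (𝓕.dt s)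
    have i3 := integrable 𝓕.vol (𝓕.L s u)
    have i4 : Integrable (fun x => 𝓕.dt s x * (u : C(X, ℝ)) x) 𝓕.vol :=
      integrable 𝓕.vol (𝓕.dt s * (u : C(X, ℝ)))
    have i5 : Integrable (fun x => (u : C(X, ℝ)) x * 𝓕.rho s x) 𝓕.vol :=
      integrable 𝓕.vol ((u : C(X, ℝ)) * 𝓕.rho s)
    have h1 : ∫ x, (lam * (𝓕.dt s x * (u : C(X, ℝ)) x) - 𝓕.L s u x) ∂𝓕.vol ≤
        ∫ x, (tb s x - N * 𝓕.dt s x + δ) ∂𝓕.vol := by
      refine integral_mono ((i4.const_mul lam).sub i3)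
        ((i1.sub (i2.const_mul N)).add (integrable_const δ)) fun x => ?_
      have := hu2 x
      simp only
      linarith
    have h2 : ∫ x, (tb s x - N * 𝓕.dt s x + δ) ∂𝓕.vol = 𝓕.J tb N s + δ * 𝓕.vol.real univ := by
      have e1 : ∫ x, (tb s x - N * 𝓕.dt s x + δ) ∂𝓕.vol =
          ∫ x, (tb s x - N * 𝓕.dt s x) ∂𝓕.vol + ∫ _x, δ ∂𝓕.vol :=
        integral_add (i1.sub (i2.const_mul N)) (integrable_const δ)
      have e2 : ∫ x, (tb s x - N * 𝓕.dt s x) ∂𝓕.vol =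
          ∫ x, tb s x ∂𝓕.vol - ∫ x, N * 𝓕.dt s x ∂𝓕.vol :=
        integral_sub i1 (i2.const_mul N)
      rw [e1, e2, integral_const_mul, integral_const]
      simp [J, mul_comm]
    have h3 : ∫ x, (lam * (𝓕.dt s x * (u : C(X, ℝ)) x) - 𝓕.L s u x) ∂𝓕.vol =
        ∫ x, (u : C(X, ℝ)) x * (lam * 𝓕.dt s x - 𝓕.rho s x) ∂𝓕.vol := by
      rw [integral_sub (i4.const_mul lam) i3, 𝓕.integral_L, ← integral_sub (i4.const_mul lam) i5]
      congr 1
      ext x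
      ring
    have h4 : 0 ≤ ∫ x, (u : C(X, ℝ)) x * (lam * 𝓕.dt s x - 𝓕.rho s x) ∂𝓕.vol := by
      refine integral_nonneg fun x => mul_nonneg (hu x) ?_
      have := hrho x
      linarith
    linarith
  by_contra hneg
  push Not at hneg
  have hv : 0 ≤ 𝓕.vol.real univ := measureReal_nonneg
  have h5 := key (-(𝓕.J tb N s) / (2 * (𝓕.vol.real univ + 1)))
    (div_pos (by linarith) (by positivity))
  have h6 : -(𝓕.J tb N s) / (2 * (𝓕.vol.real univ + 1)) * 𝓕.vol.real univ ≤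
      -(𝓕.J tb N s) / 2 := by
    rw [div_mul_eq_mul_div, div_le_div_iff₀ (by positivity) two_pos]
    nlinarith
  linarith

theorem J_add_le (tb : V →ₗ[ℝ] C(X, ℝ)) {N : ℝ} (hN : 0 ≤ N) (a b : V) (ha : a ∈ 𝓕.pos)
    (hb : b ∈ 𝓕.pos) : 𝓕.J tb N (a + b) ≤ 𝓕.J tb N a + 𝓕.J tb N b := by
  have := 𝓕.vol_fin
  have i1 := integrable 𝓕.vol (tb a)
  have i2 := integrable 𝓕.vol (tb b)
  have j1 := integrable 𝓕.vol (𝓕.dt a)
  have j2 := integrable 𝓕.vol (𝓕.dt b)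
  have h1 : ∫ x, tb (a + b) x ∂𝓕.vol = ∫ x, tb a x ∂𝓕.vol + ∫ x, tb b x ∂𝓕.vol := by
    rw [← integral_add i1 i2, map_add]
    rfl
  have h2 : ∫ x, 𝓕.dt a x ∂𝓕.vol + ∫ x, 𝓕.dt b x ∂𝓕.vol ≤ ∫ x, 𝓕.dt (a + b) x ∂𝓕.vol := by
    rw [← integral_add j1 j2]
    exact integral_mono (j1.add j2) (integrable 𝓕.vol (𝓕.dt (a + b)))
      fun x => 𝓕.dt_add a ha b hb x
  rw [J, J, J, h1]
  nlinarith

theorem J_smul (tb : V →ₗ[ℝ] C(X, ℝ)) (N : ℝ) (t : ℝ) (ht : 0 < t) (a : V) (ha : a ∈ 𝓕.pos) :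
    𝓕.J tb N (t • a) = t * 𝓕.J tb N a := by
  have h1 : ∫ x, tb (t • a) x ∂𝓕.vol = t * ∫ x, tb a x ∂𝓕.vol := by
    rw [← integral_const_mul, map_smul]
    rfl
  have h2 : ∫ x, 𝓕.dt (t • a) x ∂𝓕.vol = t * ∫ x, 𝓕.dt a x ∂𝓕.vol := by
    rw [← integral_const_mul]
    congr 1
    ext x
    exact 𝓕.dt_smul t ht a ha x
  rw [J, J, h1, h2]
  ring

/-- **(8.3)**: there is a finite measure `U ≥ 0` of mass at most `J(g0)/lam`, with
`∫ rho_s dU + ∫ tr(s θ) - N ∫ (det_g s)^{1/n} ≥ lam ∫ (det_g s)^{1/n} dU ≥ 0`. -/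
theorem exists_measure_T (tb : V →ₗ[ℝ] C(X, ℝ)) (N lam : ℝ) (hN : 0 ≤ N) (hlam : 0 < lam)
    (hT : ∀ s ∈ 𝓕.pos, ∀ u : 𝓕.Sm,
      (∀ x, tb s x + 𝓕.L s u x ≤ (N + lam * (u : C(X, ℝ)) x) * 𝓕.dt s x) →
      ∀ x, 0 ≤ (u : C(X, ℝ)) x)
    (hR : ∀ s ∈ 𝓕.pos, ∀ δ : ℝ, 0 < δ → ∃ u : 𝓕.Sm,
      (∀ x, tb s x - N * 𝓕.dt s x ≤ lam * 𝓕.dt s x * (u : C(X, ℝ)) x - 𝓕.L s u x) ∧
      (∀ x, lam * 𝓕.dt s x * (u : C(X, ℝ)) x - 𝓕.L s u x ≤ tb s x - N * 𝓕.dt s x + δ)) :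
    ∃ U : Measure X, U.Regular ∧ IsFiniteMeasure U ∧ U.real univ ≤ 𝓕.J tb N 𝓕.g0 / lam ∧
      ∀ s ∈ 𝓕.pos,
        N * ∫ x, 𝓕.dt s x ∂𝓕.vol + lam * ∫ x, 𝓕.dt s x ∂U ≤
          ∫ x, 𝓕.rho s x ∂U + ∫ x, tb s x ∂𝓕.vol := by
  obtain ⟨U, hreg, hfin, hmass, hU⟩ := exists_measure_slater 𝓕.pos 𝓕.pos_add 𝓕.pos_smul
    (fun s => 𝓕.rho s - lam • 𝓕.dt s) (𝓕.J tb N)
    (fun a ha b hb => 𝓕.J_add_le tb hN a b ha hb)
    (fun t ht a ha => 𝓕.J_smul tb N t ht a ha)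
    (by
      intro a ha b hb x
      have h1 := 𝓕.dt_add a ha b hb x
      simp only [map_add, ContinuousMap.sub_apply, ContinuousMap.add_apply,
        ContinuousMap.smul_apply, smul_eq_mul]
      nlinarith)
    (by
      intro t ht a ha x
      have h1 := 𝓕.dt_smul t ht a ha x
      simp only [map_smul, ContinuousMap.sub_apply, ContinuousMap.smul_apply, smul_eq_mul]
      rw [h1]
      ring)
    𝓕.g0 𝓕.g0_pos lam hlam
    (by
      intro x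
      simp only [𝓕.rho_g0, ContinuousMap.sub_apply, ContinuousMap.zero_apply,
        ContinuousMap.smul_apply, smul_eq_mul, 𝓕.dt_g0]
      linarith)
    (by
      intro s hs hrho
      exact 𝓕.J_nonneg_of_rho_le tb N lam hT hR s hs (by
        intro x
        have := hrho x
        simpa using this))
  refine ⟨U, hreg, hfin, hmass, fun s hs => ?_⟩
  have h1 := hU s hs
  have h2 : ∫ x, (𝓕.rho s - lam • 𝓕.dt s) x ∂U =
      ∫ x, 𝓕.rho s x ∂U - lam * ∫ x, 𝓕.dt s x ∂U := by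
    rw [← integral_const_mul, ← integral_sub (integrable U _) ((integrable U _).const_mul lam)]
    rfl
  rw [h2, J] at h1
  linarith

/-- **(12.1)**: the version for `(T_delta)`. -/
theorem exists_measure_Tdelta (tb : V →ₗ[ℝ] C(X, ℝ)) (C3 : ℝ) (hC3 : 0 ≤ C3)
    (hT : ∀ s ∈ 𝓕.pos, ∀ u : 𝓕.Sm,
      (∀ x, tb s x + 𝓕.L s u x ≤ (u : C(X, ℝ)) x) → ∀ x, -C3 ≤ (u : C(X, ℝ)) x)
    (hR : ∀ s ∈ 𝓕.pos, ∀ δ : ℝ, 0 < δ → ∃ u : 𝓕.Sm,
      (∀ x, tb s x ≤ (u : C(X, ℝ)) x - 𝓕.L s u x) ∧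
      (∀ x, (u : C(X, ℝ)) x - 𝓕.L s u x ≤ tb s x + δ)) :
    ∃ U : Measure X, U.Regular ∧ IsFiniteMeasure U ∧
      U.real univ ≤ C3 * 𝓕.vol.real univ ∧
      ∀ s ∈ 𝓕.pos, 0 ≤ ∫ x, 𝓕.rho s x ∂U + ∫ x, tb s x ∂𝓕.vol := by
  have := 𝓕.vol_fin
  have hv : 0 ≤ 𝓕.vol.real univ := measureReal_nonneg
  obtain ⟨U, hreg, hfin, hmass, hU⟩ := exists_measure 𝓕.pos ⟨_, 𝓕.g0_pos⟩ 𝓕.pos_add 𝓕.pos_smul
    𝓕.rho (fun s => ∫ x, tb s x ∂𝓕.vol)
    (by
      intro a ha b hb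
      rw [← integral_add (integrable 𝓕.vol (tb a)) (integrable 𝓕.vol (tb b)), map_add]
      rfl)
    (by
      intro t ht a ha
      rw [← integral_const_mul, map_smul]
      rfl)
    (C3 * 𝓕.vol.real univ) (by positivity)
    (by
      intro s hs M hM hrho
      -- the inequality with `M' > M`, `δ > 0`
      have key : ∀ M' : ℝ, M < M' → ∀ δ : ℝ, 0 < δ →
          0 ≤ ∫ x, tb s x ∂𝓕.vol + C3 * 𝓕.vol.real univ * M' + M' * (δ * 𝓕.vol.real univ) := by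
        intro M' hM' δ hδ
        have hM'pos : 0 < M' := lt_of_le_of_lt hM hM'
        have ha : M'⁻¹ • s ∈ 𝓕.pos := 𝓕.pos_smul _ (inv_pos.mpr hM'pos) s hs
        obtain ⟨u, hu1, hu2⟩ := hR _ ha δ hδ
        have hu : ∀ x, -C3 ≤ (u : C(X, ℝ)) x := by
          refine hT _ ha u fun x => ?_
          have := hu1 x
          linarith
        have i1 := integrable 𝓕.vol (tb s)
        have i3 := integrable 𝓕.vol (𝓕.L s u)
        have i4 := integrable 𝓕.vol (u : C(X, ℝ))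
        have i5 : Integrable (fun x => (u : C(X, ℝ)) x * 𝓕.rho s x) 𝓕.vol :=
          integrable 𝓕.vol ((u : C(X, ℝ)) * 𝓕.rho s)
        have i6 := integrable 𝓕.vol (𝓕.rho s)
        have h0 : ∫ x, 𝓕.rho s x ∂𝓕.vol = 0 := by
          have h1 := 𝓕.integral_L s ⟨1, 𝓕.one_mem⟩
          rw [𝓕.L_one] at h1
          simpa using h1.symm
        have h1 : ∫ x, (M' * (u : C(X, ℝ)) x - 𝓕.L s u x) ∂𝓕.vol ≤
            ∫ x, (tb s x + M' * δ) ∂𝓕.vol := by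
          refine integral_mono ((i4.const_mul M').sub i3) (i1.add (integrable_const _))
            fun x => ?_
          have h2 := hu2 x
          simp only [map_smul, LinearMap.smul_apply, ContinuousMap.smul_apply,
            smul_eq_mul] at h2
          have h3 : M' * ((u : C(X, ℝ)) x - M'⁻¹ * 𝓕.L s u x) ≤ M' * (M'⁻¹ * tb s x + δ) :=
            mul_le_mul_of_nonneg_left h2 hM'pos.le
          have h4 : M' * ((u : C(X, ℝ)) x - M'⁻¹ * 𝓕.L s u x) =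
              M' * (u : C(X, ℝ)) x - 𝓕.L s u x := by
            field_simp
          have h5 : M' * (M'⁻¹ * tb s x + δ) = tb s x + M' * δ := by
            field_simp
          rw [h4, h5] at h3
          exact h3
        have h2 : ∫ x, (tb s x + M' * δ) ∂𝓕.vol =
            ∫ x, tb s x ∂𝓕.vol + M' * (δ * 𝓕.vol.real univ) := by
          rw [integral_add i1 (integrable_const _), integral_const, smul_eq_mul]
          ring
        have h3 : ∫ x, (M' * (u : C(X, ℝ)) x - 𝓕.L s u x) ∂𝓕.vol =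
            ∫ x, (u : C(X, ℝ)) x * (M' - 𝓕.rho s x) ∂𝓕.vol := by
          rw [integral_sub (i4.const_mul M') i3, 𝓕.integral_L, ← integral_sub (i4.const_mul M') i5]
          congr 1
          ext x
          ring
        have h4 : ∫ x, (-C3) * (M' - 𝓕.rho s x) ∂𝓕.vol ≤
            ∫ x, (u : C(X, ℝ)) x * (M' - 𝓕.rho s x) ∂𝓕.vol := by
          have i7 : Integrable (fun x => (u : C(X, ℝ)) x * (M' - 𝓕.rho s x)) 𝓕.vol := by
            have := (i4.const_mul M').sub i5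
            refine this.congr (Filter.Eventually.of_forall fun x => ?_)
            simp only [Pi.sub_apply]
            ring
          refine integral_mono (((integrable_const M').sub i6).const_mul (-C3)) i7 fun x => ?_
          have h5 := hrho x
          exact mul_le_mul_of_nonneg_right (hu x) (by linarith)
        have h5 : ∫ x, (-C3) * (M' - 𝓕.rho s x) ∂𝓕.vol = -(C3 * 𝓕.vol.real univ * M') := by
          rw [integral_const_mul, integral_sub (integrable_const M') i6, h0, integral_const,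
            smul_eq_mul]
          ring
        linarith
      -- let `δ → 0`, `M' → M`
      by_contra hneg
      push Not at hneg
      set I := ∫ x, tb s x ∂𝓕.vol + C3 * 𝓕.vol.real univ * M with hI
      set K := C3 * 𝓕.vol.real univ + (M + 1) * 𝓕.vol.real univ + 1 with hK
      have hKpos : 0 < K := by positivity
      set e := min 1 (-I / (2 * K)) with he
      have he0 : 0 < e := lt_min one_pos (div_pos (by linarith) (by positivity))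
      have he1 : e ≤ 1 := min_le_left _ _
      have he2 : e ≤ -I / (2 * K) := min_le_right _ _
      have h1 := key (M + e) (by linarith) e he0
      have h2 : e * K ≤ -I / 2 := by
        calc e * K ≤ (-I / (2 * K)) * K := mul_le_mul_of_nonneg_right he2 hKpos.le
          _ = -I / 2 := by field_simp
      have h3 : (M + e) * (e * 𝓕.vol.real univ) ≤ (M + 1) * (e * 𝓕.vol.real univ) :=
        mul_le_mul_of_nonneg_right (by linarith) (by positivity)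
      have h4 : ∫ x, tb s x ∂𝓕.vol + C3 * 𝓕.vol.real univ * (M + e) +
          (M + e) * (e * 𝓕.vol.real univ) ≤ I + e * K := by
        rw [hI, hK]
        nlinarith
      linarith)
  refine ⟨U, hreg, hfin, hmass, fun s hs => ?_⟩
  have := hU s hs
  linarith

/-- **(8.4)**, passage to semi-positive fields: `s + δ g0 ∈ pos` for all `δ > 0` and
`f ≤ dt (s + δ g0)` pointwise. -/
theorem semipos_of_pos (tb : V →ₗ[ℝ] C(X, ℝ)) (N : ℝ) (hN : 0 ≤ N) (U : Measure X)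
    [IsFiniteMeasure U]
    (hU : ∀ s ∈ 𝓕.pos, N * ∫ x, 𝓕.dt s x ∂𝓕.vol ≤ ∫ x, 𝓕.rho s x ∂U + ∫ x, tb s x ∂𝓕.vol)
    (s : V) (hs : ∀ δ : ℝ, 0 < δ → s + δ • 𝓕.g0 ∈ 𝓕.pos) (f : X → ℝ)
    (hfi : Integrable f 𝓕.vol)
    (hf : ∀ δ : ℝ, 0 < δ → ∀ x, f x ≤ 𝓕.dt (s + δ • 𝓕.g0) x) :
    N * ∫ x, f x ∂𝓕.vol ≤ ∫ x, 𝓕.rho s x ∂U + ∫ x, tb s x ∂𝓕.vol := by
  have := 𝓕.vol_fin
  have key : ∀ δ : ℝ, 0 < δ → N * ∫ x, f x ∂𝓕.vol ≤
      (∫ x, 𝓕.rho s x ∂U + ∫ x, tb s x ∂𝓕.vol) + δ * ∫ x, tb 𝓕.g0 x ∂𝓕.vol := by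
    intro δ hδ
    have h1 := hU _ (hs δ hδ)
    have h2 : ∫ x, f x ∂𝓕.vol ≤ ∫ x, 𝓕.dt (s + δ • 𝓕.g0) x ∂𝓕.vol :=
      integral_mono hfi (integrable 𝓕.vol _) (hf δ hδ)
    have h3 : 𝓕.rho (s + δ • 𝓕.g0) = 𝓕.rho s := by
      rw [map_add, map_smul, 𝓕.rho_g0, smul_zero, add_zero]
    have h4 : ∫ x, tb (s + δ • 𝓕.g0) x ∂𝓕.vol =
        ∫ x, tb s x ∂𝓕.vol + δ * ∫ x, tb 𝓕.g0 x ∂𝓕.vol := by
      rw [← integral_const_mul, ← integral_add (integrable 𝓕.vol _)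
        ((integrable 𝓕.vol _).const_mul δ), map_add, map_smul]
      rfl
    rw [h3, h4] at h1
    have h5 := mul_le_mul_of_nonneg_left h2 hN
    linarith
  set a := N * ∫ x, f x ∂𝓕.vol
  set b := ∫ x, 𝓕.rho s x ∂U + ∫ x, tb s x ∂𝓕.vol
  set c := ∫ x, tb 𝓕.g0 x ∂𝓕.vol
  by_contra hneg
  push Not at hneg
  have h1 := key ((a - b) / (2 * (|c| + 1))) (div_pos (by linarith) (by positivity))
  have h2 : (a - b) / (2 * (|c| + 1)) * c ≤ (a - b) / 2 := by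
    rw [div_mul_eq_mul_div, div_le_div_iff₀ (by positivity) two_pos]
    have h3 : c ≤ |c| + 1 := by linarith [le_abs_self c]
    nlinarith
  linarith

end FieldData

end Crest.Agent.R269.Part8_271
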