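import Crest.Agent.R269.AdjLoc_851
import Crest.Agent.R269.DualAsm_128
import Crest.Agent.R269.Part8_271
import Crest.Agent.R269.DetIneq_271

/-!
# R269 (S0411), leaf GEO-ADJ, part 4 (helper851): the instances

* `pack K P : DualAsm_128.Pack M (Fld A)`
* `fieldData K P : Part8_271.FieldData M (Fld A)`
* `trC K β` : `s ↦ tr (s β)` as a linear map `Fld A →ₗ C(M, ℝ)`
-/

set_option autoImplicit false
set_option linter.unusedSectionVars false

open Set Filter Topology Complex MeasureTheory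
open scoped ContDiff Matrix ComplexConjugate ComplexOrder

namespace Crest.Agent.R269.Inst_851

open Crest.Agent.R275 Crest.Agent.R275.Geo Crest.Agent.R275.Core144 Crest.Agent.R275.EDR890
open Crest.Agent.R275.Pai323 Crest.Agent.R275.C1d194
open Crest.Agent.R273.Defs_333 Crest.Agent.R273.Hess_333 Crest.Agent.R273.HessB_333
open Crest.Agent.R273.HM_333 Crest.Agent.R273.Kah_333 Crest.Agent.R273.Vol_333
open Crest.Agent.R273.Vm_333
open Crest.Agent.R273.Green_5 Crest.Agent.R273.GreenM_5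
open Crest.Agent.R269.Fld_851 Crest.Agent.R269.Adj_851 Crest.Agent.R269.AdjLoc_851
open Crest.Agent.R269

noncomputable section

variable {n : ℕ} {M : Type} [TopologicalSpace M] {A : Atl n M}

theorem Sm.add {u v : M → ℝ} (hu : A.Sm u) (hv : A.Sm v) : A.Sm (fun x => u x + v x) :=
  fun i => ContDiffOn.add (hu i) (hv i)

theorem Sm.cmul (c : ℝ) {u : M → ℝ} (hu : A.Sm u) : A.Sm (fun x => c * u x) :=
  fun i => ContDiffOn.mul contDiffOn_const (hu i)

theorem Sm.const (c : ℝ) : A.Sm (fun _ : M => c) := fun _ => contDiffOn_const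

/-- the smooth functions in `C(M, ℝ)` -/
def FunS (A : Atl n M) : Submodule ℝ C(M, ℝ) where
  carrier := {u | A.Sm (fun x => u x)}
  add_mem' := fun hu hv => Sm.add hu hv
  zero_mem' := Sm.const 0
  smul_mem' := fun c _ hu => Sm.cmul c hu

theorem mem_FunS {u : C(M, ℝ)} : u ∈ FunS A ↔ A.Sm (fun x => u x) := Iff.rfl

/-- the positive fields -/
def PosS (A : Atl n M) : Set (Fld A) := {s | ∀ i, ∀ x ∈ (A.e i).source, (s.1 i x).PosDef}

theorem PosS_add {s t : Fld A} (hs : s ∈ PosS A) (ht : t ∈ PosS A) : s + t ∈ PosS A :=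
  fun i x hx => (hs i x hx).add (ht i x hx)

theorem PosS_smul {c : ℝ} (hc : 0 < c) {s : Fld A} (hs : s ∈ PosS A) : c • s ∈ PosS A := by
  intro i x hx
  have h1 : (c • s).1 i x = (c : ℂ) • s.1 i x := by
    ext a b
    simp [Complex.real_smul]
  rw [h1]
  exact (hs i x hx).smul (by exact_mod_cast hc)

theorem gIF_mem (K : Kah A) : gIF K ∈ PosS A := fun _ _ hx => gI_posDef K hx

theorem rtF_dn (K : Kah A) {s : A.ι → M → Matrix (Fin n) (Fin n) ℂ} (hs : Tc A s) {i : A.ι} {x : M}
    (hx : x ∈ (A.e i).source) (h : (s i x).PosSemidef) :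
    rtF K s x = DetIneq271.dn (s i x) * DetIneq271.dn (K.g i x) := by
  unfold rtF DetIneq271.dn
  rw [dtF_mul K hs hx h.1, Fintype.card_fin, one_div,
    Real.mul_rpow (DetIneq271.det_re_nonneg h) (DetIneq271.det_re_pos (K.pos i x hx)).le]

theorem rtF_nonneg (K : Kah A) {s : A.ι → M → Matrix (Fin n) (Fin n) ℂ} (hs : Tc A s) {i : A.ι}
    {x : M} (hx : x ∈ (A.e i).source) (h : (s i x).PosSemidef) : 0 ≤ rtF K s x :=
  Real.rpow_nonneg (dtF_nonneg K hs hx h) _

theorem rtF_pos (K : Kah A) {s : A.ι → M → Matrix (Fin n) (Fin n) ℂ} (hs : Tc A s) {i : A.ι}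
    {x : M} (hx : x ∈ (A.e i).source) (h : (s i x).PosDef) : 0 < rtF K s x :=
  Real.rpow_pos_of_pos (dtF_pos K hs hx h) _

/-- Minkowski's inequality -/
theorem rtF_add [NeZero n] (K : Kah A) {s t : A.ι → M → Matrix (Fin n) (Fin n) ℂ} (hs : Tc A s)
    (ht : Tc A t) (hst : Tc A (s + t)) {i : A.ι} {x : M} (hx : x ∈ (A.e i).source)
    (h : (s i x).PosSemidef) (h' : (t i x).PosSemidef) :
    rtF K s x + rtF K t x ≤ rtF K (s + t) x := by
  have : Nonempty (Fin n) := ⟨0⟩
  have h2 : ((s + t) i x).PosSemidef := h.add h'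
  rw [rtF_dn K hs hx h, rtF_dn K ht hx h', rtF_dn K hst hx h2, ← add_mul]
  exact mul_le_mul_of_nonneg_right (DetIneq271.dn_add h h')
    (DetIneq271.dn_nonneg (K.pos i x hx).posSemidef)

theorem rtF_smul [NeZero n] (K : Kah A) {c : ℝ} (hc : 0 ≤ c)
    (s : A.ι → M → Matrix (Fin n) (Fin n) ℂ) {x : M} (h : 0 ≤ dtF K s x) :
    rtF K (c • s) x = c * rtF K s x := by
  unfold rtF
  rw [dtF_smul, Real.mul_rpow (pow_nonneg hc _) h, one_div,
    Real.pow_rpow_inv_natCast hc (NeZero.ne n)]

theorem sm_rtF (K : Kah A) {s : Fld A} (hs : s ∈ PosS A) : A.Sm (rtF K s.1) := by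
  intro i
  have h1 : ContDiffOn ℝ ∞ (fun z => (dtF K s.1 ((A.e i).symm z)) ^ ((1 : ℝ) / n))
      (A.e i).target :=
    ContDiffOn.rpow_const_of_ne (sm_dtF K s.2.tc s.2.sm i) fun z hz =>
      (dtF_pos K s.2.tc ((A.e i).map_target hz) (hs i _ ((A.e i).map_target hz))).ne'
  exact h1

section top

theorem smc {W : Type*} [NormedAddCommGroup W] [NormedSpace ℝ W] {f : M → W} (hf : A.Sm f) :
    Continuous f := by
  rw [continuous_iff_continuousAt]
  intro x
  obtain ⟨i, hi⟩ := A.cover x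
  have h1 : ContinuousAt (fun z => f ((A.e i).symm z)) (A.e i x) :=
    (hf i).continuousOn.continuousAt ((A.e i).open_target.mem_nhds ((A.e i).map_source hi))
  have h2 : ContinuousAt (fun y => f ((A.e i).symm (A.e i y))) x :=
    ContinuousAt.comp (g := fun z => f ((A.e i).symm z)) h1 ((A.e i).continuousAt hi)
  refine h2.congr ?_
  filter_upwards [(A.e i).open_source.mem_nhds hi] with y hy
  rw [(A.e i).left_inv hy]

theorem continuous_rtF (K : Kah A) (s : Fld A) : Continuous (rtF K s.1) := by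
  have h1 : Continuous (dtF K s.1) := smc (sm_dtF K s.2.tc s.2.sm)
  exact h1.rpow_const fun _ => Or.inr (by positivity)

/-- `(det_g s)^{1/n}` as a continuous function -/
def rtC (K : Kah A) (s : Fld A) : C(M, ℝ) := ⟨rtF K s.1, continuous_rtF K s⟩

@[simp] theorem rtC_apply (K : Kah A) (s : Fld A) (x : M) : rtC K s x = rtF K s.1 x := rfl

end top

section meas

variable [T2Space M] [CompactSpace M] [MeasurableSpace M] [BorelSpace M] [Finite A.ι]

open Classical in
/-- `tr (s ∂∂̄u)` -/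
def LopC (s : Fld A) (u : C(M, ℝ)) : C(M, ℝ) :=
  if h : A.Sm (fun x => u x) then ⟨Lop s.1 (fun x => u x), smc (sm_Lop s.2 h)⟩ else 0

theorem LopC_apply (s : Fld A) {u : C(M, ℝ)} (h : A.Sm (fun x => u x)) (x : M) :
    LopC s u x = Lop s.1 (fun x => u x) x := by
  unfold LopC
  rw [dif_pos h]
  rfl

/-- the linear map `s ↦ tr (s β)` -/
def trC {β : A.ι → M → Matrix (Fin n) (Fin n) ℂ} (hβ : Tn A β)
    (hβ' : ∀ i a b, A.SmAt i (fun x => β i x a b)) : Fld A →ₗ[ℝ] C(M, ℝ) where
  toFun s := ⟨trF s.1 β, smc (sm_trF s.2.tc hβ s.2.sm hβ')⟩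
  map_add' s t := by
    ext x
    exact trF_add_left s.1 t.1 β x
  map_smul' c s := by
    ext x
    exact trF_smul_left c s.1 β x

@[simp] theorem trC_apply {β : A.ι → M → Matrix (Fin n) (Fin n) ℂ} (hβ : Tn A β)
    (hβ' : ∀ i a b, A.SmAt i (fun x => β i x a b)) (s : Fld A) (x : M) :
    trC hβ hβ' s x = trF s.1 β x := rfl

theorem trC_mem {β : A.ι → M → Matrix (Fin n) (Fin n) ℂ} (hβ : Tn A β)
    (hβ' : ∀ i a b, A.SmAt i (fun x => β i x a b)) (s : Fld A) : trC hβ hβ' s ∈ FunS A :=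
  sm_trF s.2.tc hβ s.2.sm hβ'

/-- `s ↦ ρ_s` -/
def rhoL (K : Kah A) (P : Part A) : Fld A →ₗ[ℝ] C(M, ℝ) where
  toFun s := ⟨rho K P s.1, continuous_rho K P s.2⟩
  map_add' s t := by
    ext x
    exact rho_add K P s.2 t.2 x
  map_smul' c s := by
    ext x
    exact rho_smul K P c s.2 x

@[simp] theorem rhoL_apply (K : Kah A) (P : Part A) (s : Fld A) (x : M) :
    rhoL K P s x = rho K P s.1 x := rfl

theorem rhoL_mem (K : Kah A) (P : Part A) (s : Fld A) : rhoL K P s ∈ FunS A := sm_rho K P s.2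

/-- **the instance of helper128's interface** -/
def pack [NeZero n] (K : Kah A) (P : Part A) : DualAsm_128.Pack M (Fld A) where
  dV := vm (volK K)
  Fun := FunS A
  Pos := PosS A
  s0 := gIF K
  rt := rtC K
  Lop := LopC
  rho := rhoL K P
  fin := isFinite_vm (volK K)
  one_mem := Sm.const 1
  s0_mem := gIF_mem K
  add_mem _ ha _ hb := PosS_add ha hb
  smul_mem _ ht _ ha := PosS_smul ht ha
  rt_mem _ ha := sm_rtF K ha
  rt_smul t ht a ha := by
    ext x
    obtain ⟨i, hi⟩ := A.cover x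
    exact rtF_smul K ht.le a.1 (dtF_nonneg K a.2.tc hi (ha i x hi).posSemidef)
  rt_add a ha b hb x := by
    obtain ⟨i, hi⟩ := A.cover x
    exact rtF_add K a.2.tc b.2.tc (a + b).2.tc hi (ha i x hi).posSemidef (hb i x hi).posSemidef
  rt_s0 := by
    ext x
    exact rtF_gI K x
  rho_s0 := by
    ext x
    exact rho_gI K P x
  Lop_one a _ := by
    ext x
    rw [LopC_apply a (Sm.const 1)]
    exact Lop_const a.1 1 x
  adj a _ u hu := by
    have h1 := integral_Lop K P a.2 (u := fun x => u x) hu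
    have h2 : (fun x => LopC a u x) = Lop a.1 (fun x => u x) := funext fun x => LopC_apply a hu x
    rw [h2]
    exact h1

/-- **the instance of helper271's interface** -/
def fieldData [NeZero n] (K : Kah A) (P : Part A) : Part8_271.FieldData M (Fld A) where
  vol := vm (volK K)
  vol_fin := isFinite_vm (volK K)
  Sm := FunS A
  one_mem := Sm.const 1
  pos := PosS A
  pos_add _ ha _ hb := PosS_add ha hb
  pos_smul _ ht _ ha := PosS_smul ht ha
  L :=
    { toFun := fun s =>
        { toFun := fun u => ⟨Lop s.1 (fun x => u.1 x), smc (sm_Lop s.2 u.2)⟩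
          map_add' := fun u v => by
            ext x
            exact Lop_add_right s.1 u.2 v.2 x
          map_smul' := fun c u => by
            ext x
            exact Lop_smul_right c s.1 u.2 x }
      map_add' := fun s t => by
        ext u x
        exact Lop_add_left s.1 t.1 _ x
      map_smul' := fun c s => by
        ext u x
        exact Lop_smul_left c s.1 _ x }
  L_one s := by
    ext x
    exact Lop_const s.1 1 x
  rho := rhoL K P
  integral_L s u := integral_Lop K P s.2 (u := fun x => u.1 x) u.2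
  dt := rtC K
  dt_add a ha b hb x := by
    obtain ⟨i, hi⟩ := A.cover x
    exact rtF_add K a.2.tc b.2.tc (a + b).2.tc hi (ha i x hi).posSemidef (hb i x hi).posSemidef
  dt_smul t ht a ha x := by
    obtain ⟨i, hi⟩ := A.cover x
    exact rtF_smul K ht.le a.1 (dtF_nonneg K a.2.tc hi (ha i x hi).posSemidef)
  dt_nonneg a ha x := by
    obtain ⟨i, hi⟩ := A.cover x
    exact rtF_nonneg K a.2.tc hi (ha i x hi).posSemidef
  g0 := gIF K
  g0_pos := gIF_mem K
  rho_g0 := by
    ext x
    exact rho_gI K P x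
  dt_g0 x := rtF_gI K x

end meas

end

end Crest.Agent.R269.Inst_851
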