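import Mathlib
import Crest.Agent.R269.DetIneq_271

/-!
Row 269, leaf [K] of 730's stationary proof: the matrix key estimate (7).
`tr R ≤ n e^x`, `det R ≥ e^{-x}` imply `R ≥ (1 - √((4n+2)x)) I`.
-/

set_option autoImplicit false
noncomputable section

open Matrix
open scoped ComplexOrder MatrixOrder

namespace Crest.Agent.R269.KEst271

open Crest.Agent.R269.DetIneq271

/-- `-log l ≥ (1 - l) + (1 - l)^2/2` for `0 < l ≤ 1`. -/
theorem neg_log_ge {l : ℝ} (h0 : 0 < l) (h1 : l ≤ 1) :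
    (1 - l) + (1 - l) ^ 2 / 2 ≤ -Real.log l := by
  have habs : |1 - l| < 1 := by
    rw [abs_lt]
    constructor <;> linarith
  have hs := Real.hasSum_pow_div_log_of_abs_lt_one habs
  have h2 := sum_le_hasSum (Finset.range 2) (fun i _ => by
    have : 0 ≤ 1 - l := by linarith
    positivity) hs
  simp only [Finset.sum_range_succ, Finset.range_zero, Finset.sum_empty, zero_add,
    Nat.cast_zero, Nat.cast_one, pow_one] at h2
  have h3 : 1 - (1 - l) = l := by ring
  rw [h3] at h2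
  norm_num at h2
  linarith

/-- Scalar form of the key estimate. -/
theorem scalar_key {ι : Type*} [Fintype ι] (l : ι → ℝ) (hl : ∀ i, 0 ≤ l i) {x : ℝ} (hx : 0 ≤ x)
    (hsum : ∑ i, l i ≤ Fintype.card ι * Real.exp x) (hprod : Real.exp (-x) ≤ ∏ i, l i) (j : ι) :
    1 - √((4 * Fintype.card ι + 2) * x) ≤ l j := by
  classical
  set c := √((4 * (Fintype.card ι : ℝ) + 2) * x) with hc
  have hn : (1 : ℝ) ≤ Fintype.card ι := by
    exact_mod_cast Fintype.card_pos_iff.mpr ⟨j⟩
  have hc0 : 0 ≤ c := Real.sqrt_nonneg _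
  have hcsq : c ^ 2 = (4 * (Fintype.card ι : ℝ) + 2) * x := Real.sq_sqrt (by positivity)
  by_cases hc1 : 1 ≤ c
  · linarith [hl j]
  push Not at hc1
  by_cases hlj : 1 ≤ l j
  · linarith
  push Not at hlj
  have hx1 : x ≤ 1 := by
    have h1 : c ^ 2 ≤ 1 := by nlinarith
    nlinarith
  have hpos : ∀ i, 0 < l i := by
    intro i
    refine lt_of_le_of_ne (hl i) (fun h => ?_)
    have h1 : ∏ i, l i = 0 := Finset.prod_eq_zero (Finset.mem_univ i) h.symm
    rw [h1] at hprod
    exact absurd hprod (not_le.mpr (Real.exp_pos _))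
  have hlog : -x ≤ ∑ i, Real.log (l i) := by
    rw [← Real.log_prod (fun i _ => (hpos i).ne')]
    rw [← Real.log_exp (-x)]
    exact Real.log_le_log (Real.exp_pos _) hprod
  have hexp : Real.exp x ≤ 1 + 2 * x := by
    have h1 := Real.exp_bound' hx hx1 (n := 2) (by norm_num)
    simp only [Finset.sum_range_succ, Finset.range_zero, Finset.sum_empty, zero_add, pow_zero,
      pow_one, Nat.factorial] at h1
    norm_num at h1
    nlinarith
  have hterm : ∀ i, 0 ≤ l i - 1 - Real.log (l i) := by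
    intro i
    have := Real.log_le_sub_one_of_pos (hpos i)
    linarith
  have hsum2 : ∑ i, (l i - 1 - Real.log (l i)) ≤ (2 * Fintype.card ι + 1) * x := by
    rw [Finset.sum_sub_distrib, Finset.sum_sub_distrib]
    simp only [Finset.sum_const, Finset.card_univ, nsmul_eq_mul, mul_one]
    have h1 : (Fintype.card ι : ℝ) * Real.exp x ≤ Fintype.card ι * (1 + 2 * x) :=
      mul_le_mul_of_nonneg_left hexp (by positivity)
    linarith
  have hj : l j - 1 - Real.log (l j) ≤ (2 * Fintype.card ι + 1) * x :=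
    (Finset.single_le_sum (f := fun i => l i - 1 - Real.log (l i))
      (fun i _ => hterm i) (Finset.mem_univ j)).trans hsum2
  have h2 := neg_log_ge (hpos j) hlj.le
  have h3 : (1 - l j) ^ 2 ≤ c ^ 2 := by
    rw [hcsq]
    linarith
  have h4 : 1 - l j ≤ c := (sq_le_sq₀ (by linarith) hc0).mp h3
  linarith

variable {ι : Type*} [Fintype ι] [DecidableEq ι]

/-- `R ≥ (1 - √((4n+2)x)) I`. -/
theorem loewner_key {R : Matrix ι ι ℂ} (hR : R.PosSemidef) {x : ℝ} (hx : 0 ≤ x)
    (htr : R.trace.re ≤ Fintype.card ι * Real.exp x) (hdet : Real.exp (-x) ≤ R.det.re) :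
    (R - ((1 - √((4 * Fintype.card ι + 2) * x) : ℝ) : ℂ) • (1 : Matrix ι ι ℂ)).PosSemidef := by
  have htr' : R.trace.re = ∑ i, hR.1.eigenvalues i := by
    rw [hR.1.trace_eq_sum_eigenvalues]
    simp
  have hdet' : R.det.re = ∏ i, hR.1.eigenvalues i := by
    rw [hR.1.det_eq_prod_eigenvalues, ← RCLike.ofReal_prod]
    exact Complex.ofReal_re _
  rw [htr'] at htr
  rw [hdet'] at hdet
  have key := scalar_key hR.1.eigenvalues (fun i => hR.eigenvalues_nonneg i) hx htr hdet
  set c := (1 - √((4 * (Fintype.card ι : ℝ) + 2) * x)) with hc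
  have h1 : algebraMap ℝ (Matrix ι ι ℂ) c ≤ R := by
    refine algebraMap_le_of_le_spectrum (p := IsSelfAdjoint) ?_ hR.1
    intro y hy
    rw [hR.1.spectrum_real_eq_range_eigenvalues] at hy
    obtain ⟨i, rfl⟩ := hy
    exact key i
  have h2 : algebraMap ℝ (Matrix ι ι ℂ) c = (c : ℂ) • (1 : Matrix ι ι ℂ) := by
    rw [Algebra.algebraMap_eq_smul_one]
    ext i j
    simp
  rw [h2] at h1
  exact Matrix.le_iff.mp h1

/-- `tr (R ω) ≥ (1 - √((4n+2)x)) tr ω`. -/
theorem trace_key {R w : Matrix ι ι ℂ} (hR : R.PosSemidef) (hw : w.PosSemidef) {x : ℝ}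
    (hx : 0 ≤ x) (htr : R.trace.re ≤ Fintype.card ι * Real.exp x)
    (hdet : Real.exp (-x) ≤ R.det.re) :
    (1 - √((4 * Fintype.card ι + 2) * x)) * w.trace.re ≤ (R * w).trace.re := by
  have h1 := trace_mul_posSemidef_nonneg (loewner_key hR hx htr hdet) hw
  rw [Matrix.sub_mul, Matrix.trace_sub, Matrix.smul_mul, Matrix.one_mul, Matrix.trace_smul,
    Complex.sub_re, smul_eq_mul, Complex.re_ofReal_mul] at h1
  linarith

/-- The key estimate for vectors: `V_i = ∑_j c_ij b_j`, `‖C‖² ≤ n e^x`, `|det C|² ≥ e^{-x}`; `W` the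
Gram matrix of a positive semidefinite Hermitian form in the basis `b`:
`∑_i ω(V_i) ≥ (1 - √((4n+2)x)) ∑_j ω(b_j)`. Here `∑_i ω(V_i) = tr (C̄ᵀ...)`; stated with
`R = Cᴴ C`. -/
theorem gram_key {C w : Matrix ι ι ℂ} (hw : w.PosSemidef) {x : ℝ} (hx : 0 ≤ x)
    (htr : (Cᴴ * C).trace.re ≤ Fintype.card ι * Real.exp x)
    (hdet : Real.exp (-x) ≤ ‖C.det‖ ^ 2) :
    (1 - √((4 * Fintype.card ι + 2) * x)) * w.trace.re ≤ (C * w * Cᴴ).trace.re := by
  have hR : (Cᴴ * C).PosSemidef := Matrix.posSemidef_conjTranspose_mul_self C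
  have hdet' : (Cᴴ * C).det.re = ‖C.det‖ ^ 2 := by
    rw [Matrix.det_mul, Matrix.det_conjTranspose, mul_comm,
      show star C.det = (starRingEnd ℂ) C.det from rfl, Complex.mul_conj,
      Complex.normSq_eq_norm_sq, Complex.ofReal_re]
  have h1 := trace_key hR hw hx htr (by rw [hdet']; exact hdet)
  have h2 : (C * w * Cᴴ).trace = (Cᴴ * C * w).trace := by
    rw [Matrix.mul_assoc, Matrix.trace_mul_comm, Matrix.mul_assoc, Matrix.trace_mul_comm,
      Matrix.mul_assoc]
  rw [h2]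
  exact h1

/-- Relative version: `a` positive definite, `h = a⁻¹`. -/
theorem trace_key_rel {a R w : Matrix ι ι ℂ} (ha : a.PosDef) (hR : R.PosSemidef)
    (hw : w.PosSemidef) {x : ℝ} (hx : 0 ≤ x)
    (htr : (a⁻¹ * R).trace.re ≤ Fintype.card ι * Real.exp x)
    (hdet : Real.exp (-x) ≤ (a⁻¹ * R).det.re) :
    (1 - √((4 * Fintype.card ι + 2) * x)) * (a * w).trace.re ≤ (R * w).trace.re := by
  set P := CFC.sqrt a with hPdef
  have hP0 : P.PosSemidef := (CFC.sqrt_nonneg a).posSemidef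
  have hPP : P * P = a := CFC.sqrt_mul_sqrt_self a ha.posSemidef.nonneg
  have hPH : Pᴴ = P := hP0.isHermitian
  have hdetP : IsUnit P.det := by
    have h1 : IsUnit a.det := (Matrix.isUnit_iff_isUnit_det a).mp ha.isUnit
    rw [← hPP, Matrix.det_mul] at h1
    exact isUnit_of_mul_isUnit_left h1
  have hPi : P⁻¹ * P = 1 := Matrix.nonsing_inv_mul P hdetP
  have hPi' : P * P⁻¹ = 1 := Matrix.mul_nonsing_inv P hdetP
  have hPiH : (P⁻¹)ᴴ = P⁻¹ := by rw [Matrix.conjTranspose_nonsing_inv, hPH]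
  have hai : a⁻¹ = P⁻¹ * P⁻¹ := by rw [← hPP, Matrix.mul_inv_rev]
  have hR' : (P⁻¹ * R * P⁻¹).PosSemidef := by
    have := hR.mul_mul_conjTranspose_same P⁻¹
    rwa [hPiH] at this
  have hw' : (P * w * P).PosSemidef := by
    have := hw.mul_mul_conjTranspose_same P
    rwa [hPH] at this
  have e1 : (P⁻¹ * R * P⁻¹).trace = (a⁻¹ * R).trace := by
    rw [hai, Matrix.trace_mul_comm, Matrix.mul_assoc]
  have e2 : (P⁻¹ * R * P⁻¹).det = (a⁻¹ * R).det := by
    rw [hai]
    simp only [Matrix.det_mul]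
    ring
  have e3 : (P * w * P).trace = (a * w).trace := by
    rw [← hPP, Matrix.trace_mul_comm, Matrix.mul_assoc]
  have e4 : (P⁻¹ * R * P⁻¹ * (P * w * P)).trace = (R * w).trace := by
    have h1 : P⁻¹ * R * P⁻¹ * (P * w * P) = P⁻¹ * (R * w * P) := by
      calc P⁻¹ * R * P⁻¹ * (P * w * P) = P⁻¹ * R * (P⁻¹ * P) * w * P := by
            simp only [Matrix.mul_assoc]
        _ = P⁻¹ * (R * w * P) := by
            rw [hPi, Matrix.mul_one]
            simp only [Matrix.mul_assoc]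
    rw [h1, Matrix.trace_mul_comm, Matrix.mul_assoc, hPi', Matrix.mul_one]
  have h1 := trace_key hR' hw' hx (by rw [e1]; exact htr) (by rw [e2]; exact hdet)
  rw [e3, e4] at h1
  exact h1

end Crest.Agent.R269.KEst271
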