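import Mathlib
import Crest.Agent.R269.Ker3_430
import Crest.Agent.R269.FldE_620
import Crest.Agent.R269.FldD_620

/-!
# R269 (S0411), LINE B, leaf B8 KER, part 4 (helper430): the fields `pos`, `k1`, `low`, `up` of 731's `WF`
-/

set_option autoImplicit false

open MeasureTheory MvPolynomial Crest.AlgGeometry.ProjEmb Crest.Agent.R269.Geo_328
open Crest.Agent.R269.Defs_58 Crest.Agent.R269.DefsS_731
open Crest.Agent.R269.Ker2_430 Crest.Agent.R269.Ker3_430 Metric Set Filter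
open scoped Topology ComplexConjugate

noncomputable section

namespace Crest.Agent.R269.Ker4_430

variable {N n : ℕ} {I : Ideal (HomCoordRing N)}

/-- `log DD` of the representing frames is bounded -/
theorem log_DD_bdd (hI : I.IsPrime) (hX : IsSmoothProjective I n) {a : EE N → VV N}
    (ha : PosField I n a) : ∃ C : ℝ, 0 ≤ C ∧ ∀ p ∈ Cone I, ∀ b : Fin n → EE N, Rep I a p b →
      0 < DD p b ∧ |Real.log (DD p b)| ≤ C := by
  obtain ⟨D, hD, hD0, hDD⟩ := FldE_620.exists_detF hI hX ha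
  obtain ⟨C, hC, h⟩ := LevBr_901.smX_bdd hX (FldE_620.smX_log hD hD0)
  refine ⟨C, hC, fun p hp b hb => ?_⟩
  rw [hDD p hp b hb]
  exact ⟨hD0 p hp, h p hp⟩

theorem sum_omg_nonneg {m : ℕ} (p : EE N) (W : Fin m → EE N) : 0 ≤ ∑ k, omg p (W k) :=
  Finset.sum_nonneg fun _ _ => LevBr_901.omg_nonneg _ _

/-- `k1` is monotone in the constant -/
theorem k1_mono {C C' : ℝ} (hC : C ≤ C') {p : EE N} (hp : nsq p ≤ 1) {m m' : ℕ} {b : Fin m → EE N}
    {V : Fin m' → EE N} (h : (1 - C * (1 - nsq p)) * ∑ k, omg p (b k) ≤ ∑ i, omg p (V i)) :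
    (1 - C' * (1 - nsq p)) * ∑ k, omg p (b k) ≤ ∑ i, omg p (V i) := by
  refine le_trans (mul_le_mul_of_nonneg_right ?_ (sum_omg_nonneg p b)) h
  have : C * (1 - nsq p) ≤ C' * (1 - nsq p) := mul_le_mul_of_nonneg_right hC (by linarith)
  linarith

/-- **(F1)** the fields `k1`, `pos`, `low` -/
theorem fields (hI : I.IsPrime) (hX : IsSmoothProjective I n) {a : EE N → VV N}
    (ha : PosField I n a) (Y : Flds I) {Q : EE N → (Fin Y.M → ℂ) → ℝ} (hQ : QIn I n a Y Q) :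
    ∃ C : ℝ, 0 ≤ C ∧ ∀ C' : ℝ, C ≤ C' → ∀ p ∈ Cone I, nsq p ≤ 1 → ∀ V : Fin n → EE N,
      TanFam I p V → KRep I Y Q p V →
      0 < DD p V ∧ (∀ b : Fin n → EE N, Rep I a p b →
        (1 - C' * (1 - nsq p)) * ∑ k, omg p (b k) ≤ ∑ i, omg p (V i)) ∧
      -C' + C' * Real.log (nsq p) ≤ Real.log (DD p V) := by
  obtain ⟨C₁, K, hC₁, hker⟩ := ker_pt hX ha Y hQ
  obtain ⟨C₂, hC₂, hdet⟩ := log_DD_bdd hI hX ha
  refine ⟨C₁ + K + C₂ + |Real.log C₁|, by positivity, ?_⟩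
  intro C' hC' p hp hp1 V hV hrep
  obtain ⟨b₀, hb₀, -⟩ := ha.rep p hp
  have hp0 := Alp_927.nsq_pos hp.2
  obtain ⟨hd0, hdl⟩ := hdet p hp b₀ hb₀
  have k2 := (hker p hp V hV hrep b₀ hb₀).2
  have hK : 0 < nsq p ^ K := by positivity
  have hpos : 0 < DD p V := by
    have : 0 < C₁ * DD p V := lt_of_lt_of_le (mul_pos hK hd0) k2
    exact (mul_pos_iff_of_pos_left hC₁).1 this
  refine ⟨hpos, fun b hb => ?_, ?_⟩
  · refine k1_mono ?_ hp1 (hker p hp V hV hrep b hb).1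
    have : 0 ≤ |Real.log C₁| := abs_nonneg _
    have : (0 : ℝ) ≤ K := Nat.cast_nonneg _
    linarith
  · have h1 := Real.log_le_log (mul_pos hK hd0) k2
    rw [Real.log_mul hK.ne' hd0.ne', Real.log_mul hC₁.ne' hpos.ne', Real.log_pow] at h1
    have h2 : Real.log (nsq p) ≤ 0 := Real.log_nonpos hp0.le hp1
    have h3 := (abs_le.1 hdl).1
    have h4 := le_abs_self (Real.log C₁)
    have h5 : (C' - K) * Real.log (nsq p) ≤ 0 := by
      refine mul_nonpos_of_nonneg_of_nonpos ?_ h2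
      have : 0 ≤ |Real.log C₁| := abs_nonneg _
      linarith
    have h6 : (0 : ℝ) ≤ K := Nat.cast_nonneg _
    nlinarith

/-- **(F2)** the field `up` -/
theorem up (hn : 1 ≤ n) {B : ℝ} : ∃ C : ℝ, 0 ≤ C ∧ ∀ C' : ℝ, C ≤ C' → ∀ p : EE N, p ≠ 0 →
    nsq p ≤ 1 → ∀ V : Fin n → EE N, 0 < DD p V →
    ∑ i, ∑ j, ∑ k, ‖wdg (V i) p j k‖ ^ 2 ≤ B → Real.log (DD p V) ≤ C' - C' * Real.log (nsq p) := by
  have hn0 : (0 : ℝ) < n := by exact_mod_cast hn
  refine ⟨n * |Real.log (|B| + 1)| + 2 * n, by positivity, ?_⟩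
  intro C' hC' p hp hp1 V hV hB
  have hp0 := Alp_927.nsq_pos hp
  have h1 := FldD_620.amgm hp V
  have h2 : ∑ i, omg p (V i) ≤ (|B| + 1) / nsq p ^ 2 := by
    have e1 : 2 * nsq p ^ 2 * ∑ i, omg p (V i) ≤ B := by
      rw [Finset.mul_sum]
      refine le_trans (le_of_eq ?_) hB
      exact Finset.sum_congr rfl fun i _ => (sum_wdg_sq hp (V i)).symm
    rw [le_div_iff₀ (by positivity)]
    have e2 := sum_omg_nonneg p V
    have e3 : 0 ≤ (∑ i, omg p (V i)) * nsq p ^ 2 := by positivity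
    have := le_abs_self B
    nlinarith
  have h3 : 0 < DD p V ^ ((n : ℝ)⁻¹) := Real.rpow_pos_of_pos hV _
  have h4 : DD p V ^ ((n : ℝ)⁻¹) ≤ (|B| + 1) / nsq p ^ 2 := by
    have e1 : (1 : ℝ) ≤ n := by exact_mod_cast hn
    calc DD p V ^ ((n : ℝ)⁻¹) ≤ n * DD p V ^ ((n : ℝ)⁻¹) := le_mul_of_one_le_left h3.le e1
      _ ≤ _ := h1
      _ ≤ _ := h2
  have h5 := Real.log_le_log h3 h4
  have hB1 : 0 < |B| + 1 := by positivity
  rw [Real.log_rpow hV, Real.log_div hB1.ne' (by positivity), Real.log_pow] at h5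
  have h6 : Real.log (DD p V) ≤ n * (Real.log (|B| + 1) - 2 * Real.log (nsq p)) := by
    have : (n : ℝ) * ((n : ℝ)⁻¹ * Real.log (DD p V)) = Real.log (DD p V) := by
      rw [← mul_assoc, mul_inv_cancel₀ hn0.ne', one_mul]
    rw [← this]
    exact mul_le_mul_of_nonneg_left (by exact_mod_cast h5) hn0.le
  have h7 : Real.log (nsq p) ≤ 0 := Real.log_nonpos hp0.le hp1
  have h8 := le_abs_self (Real.log (|B| + 1))
  have h9 : n * Real.log (|B| + 1) ≤ n * |Real.log (|B| + 1)| := mul_le_mul_of_nonneg_left h8 hn0.le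
  have h10 : (C' - 2 * n) * Real.log (nsq p) ≤ 0 := by
    refine mul_nonpos_of_nonneg_of_nonpos ?_ h7
    have : 0 ≤ n * |Real.log (|B| + 1)| := by positivity
    linarith
  nlinarith

end Crest.Agent.R269.Ker4_430
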