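import Mathlib

/-!
# R269 (S0411), key estimate (7) of core post 1368 (helper536)

`key` : if `c` is an `n × n` matrix with `tr (cᴴ c) ≤ n e^x` and `|det c|² ≥ e^{-x}`, `0 ≤ x ≤ 1`,
then `c cᴴ ≥ (1 - 2 √((2n+1) x)) · 1`, in particular
`tr (cᴴ Ω c) ≥ (1 - 2 √((2n+1) x)) tr Ω` for every positive semidefinite `Ω`.
-/

set_option autoImplicit false

open Matrix Finset
open scoped ComplexOrder MatrixOrder

noncomputable section

namespace Crest.Agent.R269.Key_536

variable {ι : Type*} [Fintype ι] [DecidableEq ι]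

omit [DecidableEq ι] in
/-- real numbers: `∑ μ ≤ n e^x`, `∏ μ ≥ e^{-x}` force `μ i ≥ 1 - 2 √((2n+1)x)` -/
theorem eig_ge (μ : ι → ℝ) (hμ : ∀ i, 0 ≤ μ i) {x : ℝ} (h0 : 0 ≤ x) (h1 : x ≤ 1)
    (hs : ∑ i, μ i ≤ Fintype.card ι * Real.exp x) (hp : Real.exp (-x) ≤ ∏ i, μ i) (i : ι) :
    1 - 2 * Real.sqrt ((2 * Fintype.card ι + 1) * x) ≤ μ i := by
  have hpos : ∀ j, 0 < μ j := by
    intro j
    refine lt_of_le_of_ne (hμ j) fun h => ?_
    have : ∏ i, μ i = 0 := Finset.prod_eq_zero (mem_univ j) h.symm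
    rw [this] at hp
    exact absurd (Real.exp_pos (-x)) (not_lt.2 hp)
  have hexp : Real.exp x ≤ 1 + 2 * x := by
    have h := convexOn_exp.2 (Set.mem_univ (0 : ℝ)) (Set.mem_univ (1 : ℝ))
      (show (0 : ℝ) ≤ 1 - x by linarith) h0 (by ring)
    simp only [smul_eq_mul, mul_zero, mul_one, zero_add, Real.exp_zero] at h
    have he := Real.exp_one_lt_d9
    nlinarith
  have hlog : ∑ j, Real.log (μ j) ≥ -x := by
    rw [← Real.log_prod (fun j _ => (hpos j).ne')]
    have := Real.log_le_log (Real.exp_pos _) hp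
    rwa [Real.log_exp] at this
  have hsq : ∀ j, 1 + Real.log (μ j) / 2 ≤ Real.sqrt (μ j) := by
    intro j
    have h := Real.add_one_le_exp (Real.log (Real.sqrt (μ j)))
    rw [Real.exp_log (Real.sqrt_pos.2 (hpos j)), Real.log_sqrt (hμ j)] at h
    linarith
  have hsum : (Fintype.card ι : ℝ) - x / 2 ≤ ∑ j, Real.sqrt (μ j) := by
    have h := Finset.sum_le_sum (fun j (_ : j ∈ (univ : Finset ι)) => hsq j)
    rw [Finset.sum_add_distrib, ← Finset.sum_div] at h
    simp only [Finset.sum_const, Finset.card_univ, nsmul_eq_mul, mul_one] at h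
    linarith
  have hdev : ∑ j, (Real.sqrt (μ j) - 1) ^ 2 ≤ (2 * Fintype.card ι + 1) * x := by
    have e : ∀ j, (Real.sqrt (μ j) - 1) ^ 2 = μ j - 2 * Real.sqrt (μ j) + 1 := by
      intro j
      have := Real.sq_sqrt (hμ j)
      nlinarith
    simp only [e, Finset.sum_add_distrib, Finset.sum_sub_distrib, ← Finset.mul_sum,
      Finset.sum_const, Finset.card_univ, nsmul_eq_mul, mul_one]
    have hn : (0 : ℝ) ≤ Fintype.card ι := Nat.cast_nonneg _
    nlinarith
  have h3 : (Real.sqrt (μ i) - 1) ^ 2 ≤ (2 * Fintype.card ι + 1) * x :=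
    (Finset.single_le_sum (f := fun j => (Real.sqrt (μ j) - 1) ^ 2)
      (fun j _ => sq_nonneg _) (mem_univ i)).trans hdev
  have h4 : 1 - Real.sqrt (μ i) ≤ Real.sqrt ((2 * Fintype.card ι + 1) * x) := by
    refine (le_abs_self _).trans ?_
    rw [← Real.sqrt_sq_eq_abs]
    refine Real.sqrt_le_sqrt ?_
    calc (1 - Real.sqrt (μ i)) ^ 2 = (Real.sqrt (μ i) - 1) ^ 2 := by ring
      _ ≤ _ := h3
  have h5 := Real.sqrt_nonneg (μ i)
  have h6 := Real.sq_sqrt (hμ i)
  nlinarith [sq_nonneg (Real.sqrt (μ i) - 1)]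

/-- lower bound of a positive semidefinite matrix by its trace and determinant -/
theorem posSemidef_sub {M : Matrix ι ι ℂ} (hM : M.PosSemidef) {x : ℝ} (h0 : 0 ≤ x) (h1 : x ≤ 1)
    (hs : M.trace.re ≤ Fintype.card ι * Real.exp x) (hp : Real.exp (-x) ≤ M.det.re) :
    (M - ((1 - 2 * Real.sqrt ((2 * Fintype.card ι + 1) * x) : ℝ) : ℂ) • (1 : Matrix ι ι ℂ)).PosSemidef := by
  set m : ℝ := 1 - 2 * Real.sqrt ((2 * Fintype.card ι + 1) * x) with hm
  have hH := hM.isHermitian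
  have htr : M.trace.re = ∑ i, hH.eigenvalues i := by
    rw [hH.trace_eq_sum_eigenvalues]
    simp
  have hdet : M.det.re = ∏ i, hH.eigenvalues i := by
    rw [hH.det_eq_prod_eigenvalues]
    norm_cast
  have hge := eig_ge hH.eigenvalues hM.eigenvalues_nonneg h0 h1 (by rw [← htr]; exact hs)
    (by rw [← hdet]; exact hp)
  set U : Matrix ι ι ℂ := (hH.eigenvectorUnitary : Matrix ι ι ℂ) with hU
  have hUU : U * Uᴴ = 1 := by
    have := Unitary.coe_mul_star_self hH.eigenvectorUnitary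
    simpa [hU, star_eq_conjTranspose] using this
  have hspec : M = U * diagonal (fun i => ((hH.eigenvalues i : ℝ) : ℂ)) * Uᴴ := by
    have := hH.spectral_theorem
    rw [Unitary.conjStarAlgAut_apply] at this
    exact this
  have e : M - (m : ℂ) • (1 : Matrix ι ι ℂ)
      = U * diagonal (fun i => (((hH.eigenvalues i - m : ℝ)) : ℂ)) * Uᴴ := by
    have hd : diagonal (fun i => (((hH.eigenvalues i - m : ℝ)) : ℂ))
        = diagonal (fun i => ((hH.eigenvalues i : ℝ) : ℂ)) - (m : ℂ) • (1 : Matrix ι ι ℂ) := by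
      ext i j
      by_cases h : i = j
      · subst h; simp
      · simp [h, one_apply_ne h]
    rw [hd, Matrix.mul_sub, Matrix.sub_mul, ← hspec, Matrix.mul_smul, Matrix.mul_one,
      Matrix.smul_mul, hUU]
  rw [e]
  refine PosSemidef.mul_mul_conjTranspose_same ?_ U
  refine PosSemidef.diagonal fun i => ?_
  have := hge i
  rw [Pi.zero_apply, Complex.zero_le_real]
  linarith

/-- **Key estimate** (7) of post 1368. -/
theorem key (c Ω : Matrix ι ι ℂ) (hΩ : Ω.PosSemidef) {x : ℝ} (h0 : 0 ≤ x) (h1 : x ≤ 1)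
    (hs : (cᴴ * c).trace.re ≤ Fintype.card ι * Real.exp x) (hp : Real.exp (-x) ≤ ‖c.det‖ ^ 2) :
    (1 - 2 * Real.sqrt ((2 * Fintype.card ι + 1) * x)) * Ω.trace.re ≤ (cᴴ * Ω * c).trace.re := by
  set m : ℝ := 1 - 2 * Real.sqrt ((2 * Fintype.card ι + 1) * x) with hm
  have hM : (c * cᴴ).PosSemidef := posSemidef_self_mul_conjTranspose c
  have htr : (c * cᴴ).trace.re ≤ Fintype.card ι * Real.exp x := by
    rwa [Matrix.trace_mul_comm]
  have hdet : (c * cᴴ).det.re = ‖c.det‖ ^ 2 := by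
    rw [det_mul, det_conjTranspose, Complex.star_def, Complex.mul_conj, Complex.ofReal_re,
      Complex.normSq_eq_norm_sq]
  have hN := posSemidef_sub hM h0 h1 htr (by rw [hdet]; exact hp)
  -- `tr (Ω N) ≥ 0`
  obtain ⟨B, hB⟩ : ∃ B : Matrix ι ι ℂ, Ω = Bᴴ * B := by
    obtain ⟨X, hX, -, hX'⟩ := CFC.exists_sqrt_of_isSelfAdjoint_of_quasispectrumRestricts
      hΩ.isHermitian (QuasispectrumRestricts.nnreal_of_nonneg hΩ.nonneg)
    exact ⟨X, by rw [← hX']; congr 1; exact hX.star_eq.symm⟩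
  have hpos : 0 ≤ (Ω * (c * cᴴ - (m : ℂ) • (1 : Matrix ι ι ℂ))).trace.re := by
    have h2 : (Ω * (c * cᴴ - (m : ℂ) • (1 : Matrix ι ι ℂ))).trace
        = (B * (c * cᴴ - (m : ℂ) • (1 : Matrix ι ι ℂ)) * Bᴴ).trace := by
      rw [hB, Matrix.mul_assoc, Matrix.trace_mul_comm]
    rw [h2]
    have h3 := (hN.mul_mul_conjTranspose_same B).trace_nonneg
    exact (Complex.nonneg_iff.1 h3).1
  have e1 : (cᴴ * Ω * c).trace = (Ω * (c * cᴴ)).trace := by
    rw [Matrix.mul_assoc, Matrix.trace_mul_comm, Matrix.mul_assoc]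
  rw [e1]
  rw [Matrix.mul_sub, Matrix.trace_sub, Complex.sub_re, Matrix.mul_smul, Matrix.mul_one,
    Matrix.trace_smul, smul_eq_mul, Complex.re_ofReal_mul] at hpos
  linarith

end Crest.Agent.R269.Key_536
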