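import Mathlib

/-!
# R269, leaf LEVI, part 1 (helper599): the Levi form of a function on a complex normed space

`levi φ p v = (1/4) (D²φ(p)(v,v) + D²φ(p)(iv,iv))`, for `φ : E → W`, `E` a complex normed space, `W` a
real normed space (both possibly infinite dimensional).

* second derivative `D2`, chain rule `D2_comp`, symmetry `D2_symm`;
* algebra: `levi_add`, `levi_sub`, `levi_sum`, `levi_clm`, `levi_const_mul`, `levi_smul_vec`;
* `levi_comp`: general chain rule; `levi_holo`: holomorphic maps have zero Levi form;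
* `levi_comp_holo`: composition with a holomorphic map;
* `levi_comp_real`: composition with a function of one real variable; `levi_log`, `levi_exp`;
* `levi_bilin`, `levi_normSq`, `levi_normSq_holo`: `levi ‖F‖² = ‖dF v‖²` for holomorphic `F`;
* `levi_log_norm_holo`: `log ‖h‖²` has zero Levi form for `h` scalar holomorphic without zero.
-/

set_option autoImplicit false

open Complex Topology Filter
open scoped ContDiff

namespace Crest.Agent.R269.Levi1_599

noncomputable section

variable {X Y Z : Type*} [NormedAddCommGroup X] [NormedSpace ℝ X] [NormedAddCommGroup Y]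
  [NormedSpace ℝ Y] [NormedAddCommGroup Z] [NormedSpace ℝ Z]
variable {E F : Type*} [NormedAddCommGroup E] [NormedSpace ℂ E] [NormedAddCommGroup F]
  [NormedSpace ℂ F]
variable {W W' : Type*} [NormedAddCommGroup W] [NormedSpace ℝ W] [NormedAddCommGroup W']
  [NormedSpace ℝ W']

/-! ### the second derivative -/

/-- second derivative of `φ : X → W` over the reals -/
def D2 (φ : X → W) (p : X) (v w : X) : W := fderiv ℝ (fderiv ℝ φ) p v w

theorem D2_congr {φ ψ : X → W} {p : X} (h : φ =ᶠ[𝓝 p] ψ) (v w : X) : D2 φ p v w = D2 ψ p v w := by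
  have h1 : fderiv ℝ φ =ᶠ[𝓝 p] fderiv ℝ ψ := h.fderiv
  simp [D2, h1.fderiv_eq]

@[simp] theorem D2_const (c : W) (p v w : X) : D2 (fun _ : X => c) p v w = 0 := by
  have h1 : fderiv ℝ (fun _ : X => c) = fun _ => 0 := by
    funext x; simp
  simp [D2, h1]

theorem diff_fderiv {φ : X → W} {p : X} (h : ContDiffAt ℝ 2 φ p) :
    DifferentiableAt ℝ (fderiv ℝ φ) p := by
  have : ContDiffAt ℝ 1 (fderiv ℝ φ) p := h.fderiv_right (by norm_num)
  exact this.differentiableAt (by norm_num)

theorem evdiff {φ : X → W} {p : X} (h : ContDiffAt ℝ 2 φ p) :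
    ∀ᶠ x in 𝓝 p, DifferentiableAt ℝ φ x := by
  have := h.eventually (by norm_num)
  filter_upwards [this] with x hx
  exact hx.differentiableAt (by norm_num)

theorem D2_symm {φ : X → W} {p : X} (h : ContDiffAt ℝ 2 φ p) (v w : X) :
    D2 φ p v w = D2 φ p w v := by
  have : IsSymmSndFDerivAt ℝ φ p := h.isSymmSndFDerivAt (by simp)
  exact this v w

theorem D2_add {φ ψ : X → W} {p : X} (h : ContDiffAt ℝ 2 φ p) (k : ContDiffAt ℝ 2 ψ p) (v w : X) :
    D2 (fun x => φ x + ψ x) p v w = D2 φ p v w + D2 ψ p v w := by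
  have h1 : fderiv ℝ (fun x => φ x + ψ x) =ᶠ[𝓝 p] fun x => fderiv ℝ φ x + fderiv ℝ ψ x := by
    filter_upwards [evdiff h, evdiff k] with x hx kx
    exact fderiv_fun_add hx kx
  rw [D2, h1.fderiv_eq, ((diff_fderiv h).hasFDerivAt.fun_add (diff_fderiv k).hasFDerivAt).fderiv]
  simp [D2]

/-- chain rule of second order -/
theorem D2_comp {φ : Y → W} {F : X → Y} {q : X} (h : ContDiffAt ℝ 2 φ (F q))
    (k : ContDiffAt ℝ 2 F q) (v w : X) :
    D2 (fun x => φ (F x)) q v w =
      D2 φ (F q) (fderiv ℝ F q v) (fderiv ℝ F q w) + fderiv ℝ φ (F q) (D2 F q v w) := by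
  have h1 : fderiv ℝ (fun x => φ (F x)) =ᶠ[𝓝 q]
      fun x => (fderiv ℝ φ (F x)).comp (fderiv ℝ F x) := by
    have hF := k.continuousAt.eventually (evdiff h)
    filter_upwards [hF, evdiff k] with x hx kx
    exact fderiv_comp x hx kx
  have hA : HasFDerivAt (fun x => fderiv ℝ φ (F x))
      ((fderiv ℝ (fderiv ℝ φ) (F q)).comp (fderiv ℝ F q)) q :=
    (diff_fderiv h).hasFDerivAt.comp q (k.differentiableAt (by norm_num)).hasFDerivAt
  have hB : HasFDerivAt (fun x => fderiv ℝ F x) (fderiv ℝ (fderiv ℝ F) q) q :=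
    (diff_fderiv k).hasFDerivAt
  have h2 := (hA.clm_comp hB).fderiv
  rw [D2, h1.fderiv_eq, h2]
  simp only [add_apply, ContinuousLinearMap.comp_apply, ContinuousLinearMap.compL_apply,
    ContinuousLinearMap.flip_apply, D2]
  rw [add_comm]

theorem D2_clm (L : W →L[ℝ] W') {φ : X → W} {p : X} (h : ContDiffAt ℝ 2 φ p) (v w : X) :
    D2 (fun x => L (φ x)) p v w = L (D2 φ p v w) := by
  rw [D2_comp (φ := fun y => L y) L.contDiff.contDiffAt h]
  have h1 : fderiv ℝ (fun y => L y) = fun _ => L := by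
    funext y; exact L.fderiv
  have h2 : D2 (fun y => L y) (φ p) (fderiv ℝ φ p v) (fderiv ℝ φ p w) = 0 := by
    simp [D2, h1]
  rw [h2, h1]
  simp

/-! ### the Levi form -/

/-- Levi form of `φ : E → W` -/
def levi (φ : E → W) (p v : E) : W :=
  (1 / 4 : ℝ) • (D2 φ p v v + D2 φ p (I • v) (I • v))

theorem levi_congr {φ ψ : E → W} {p : E} (h : φ =ᶠ[𝓝 p] ψ) (v : E) : levi φ p v = levi ψ p v := by
  simp [levi, D2_congr h]

@[simp] theorem levi_const (c : W) (p v : E) : levi (fun _ : E => c) p v = 0 := by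
  simp [levi]

@[simp] theorem levi_zero_vec (φ : E → W) (p : E) : levi φ p 0 = 0 := by
  simp [levi, D2]

theorem levi_add {φ ψ : E → W} {p : E} (h : ContDiffAt ℝ 2 φ p) (k : ContDiffAt ℝ 2 ψ p) (v : E) :
    levi (fun x => φ x + ψ x) p v = levi φ p v + levi ψ p v := by
  simp only [levi, D2_add h k, ← smul_add]
  congr 1
  abel

/-- composition with a continuous real-linear map -/
theorem levi_clm (L : W →L[ℝ] W') {φ : E → W} {p : E} (h : ContDiffAt ℝ 2 φ p) (v : E) :
    levi (fun x => L (φ x)) p v = L (levi φ p v) := by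
  simp [levi, D2_clm L h]

theorem levi_const_smul (c : ℝ) {φ : E → W} {p : E} (h : ContDiffAt ℝ 2 φ p) (v : E) :
    levi (fun x => c • φ x) p v = c • levi φ p v := by
  simpa using levi_clm (c • ContinuousLinearMap.id ℝ W) h v

theorem levi_const_mul (c : ℝ) {φ : E → ℝ} {p : E} (h : ContDiffAt ℝ 2 φ p) (v : E) :
    levi (fun x => c * φ x) p v = c * levi φ p v := by
  simpa using levi_const_smul c h v

theorem levi_neg {φ : E → W} {p : E} (h : ContDiffAt ℝ 2 φ p) (v : E) :
    levi (fun x => - φ x) p v = - levi φ p v := by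
  simpa using levi_const_smul (-1) h v

theorem levi_sub {φ ψ : E → W} {p : E} (h : ContDiffAt ℝ 2 φ p) (k : ContDiffAt ℝ 2 ψ p) (v : E) :
    levi (fun x => φ x - ψ x) p v = levi φ p v - levi ψ p v := by
  have := levi_add h k.neg v
  simp only [sub_eq_add_neg]
  rw [this]
  congr 1
  exact levi_neg k v

theorem levi_sum {ι : Type*} (s : Finset ι) {φ : ι → E → W} {p : E}
    (h : ∀ i ∈ s, ContDiffAt ℝ 2 (φ i) p) (v : E) :
    levi (fun x => ∑ i ∈ s, φ i x) p v = ∑ i ∈ s, levi (φ i) p v := by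
  classical
  induction s using Finset.induction_on with
  | empty => simp
  | insert a s ha ih =>
    simp only [Finset.sum_insert ha]
    rw [levi_add (h a (Finset.mem_insert_self _ _))
      (ContDiffAt.sum fun i hi => h i (Finset.mem_insert_of_mem hi)),
      ih fun i hi => h i (Finset.mem_insert_of_mem hi)]

theorem levi_smul_vec {φ : E → W} {p : E} (h : ContDiffAt ℝ 2 φ p) (c : ℂ) (v : E) :
    levi φ p (c • v) = (‖c‖ ^ 2) • levi φ p v := by
  have hs := D2_symm h v (I • v)
  have e1 : c • v = c.re • v + c.im • (I • v) := by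
    conv_lhs => rw [← Complex.re_add_im c]
    rw [add_smul, mul_smul]
    simp
  have e2 : I • (c • v) = c.re • (I • v) - c.im • v := by
    rw [e1]
    rw [smul_add, smul_comm I c.re, smul_comm I c.im, smul_smul I I, Complex.I_mul_I]
    simp [sub_eq_add_neg]
  have hn : ‖c‖ ^ 2 = c.re * c.re + c.im * c.im := by
    rw [← Complex.normSq_eq_norm_sq, Complex.normSq_apply]
  rw [levi, e2, e1, levi, hn]
  unfold D2 at *
  simp only [map_add, map_sub, map_smul, add_apply, sub_apply, smul_apply, hs]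
  module

/-- general chain rule for the Levi form -/
theorem levi_comp {φ : Y → W} {F : E → Y} {q : E} (h : ContDiffAt ℝ 2 φ (F q))
    (k : ContDiffAt ℝ 2 F q) (v : E) :
    levi (fun x => φ (F x)) q v =
      (1 / 4 : ℝ) • (D2 φ (F q) (fderiv ℝ F q v) (fderiv ℝ F q v) +
        D2 φ (F q) (fderiv ℝ F q (I • v)) (fderiv ℝ F q (I • v))) +
      fderiv ℝ φ (F q) (levi F q v) := by
  rw [levi, D2_comp h k, D2_comp h k, levi, (fderiv ℝ φ (F q)).map_smul (1 / 4 : ℝ), map_add]
  module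

/-! ### holomorphic maps -/

theorem fderiv_real_of_holo {G : E → F} {x : E} (h : DifferentiableAt ℂ G x) :
    fderiv ℝ G x = (fderiv ℂ G x).restrictScalars ℝ :=
  (h.hasFDerivAt.restrictScalars ℝ).fderiv

/-- second derivative of a holomorphic map is complex bilinear -/
theorem D2_holo {G : E → F} {q : E} (k : ContDiffAt ℂ 2 G q) (v w : E) :
    D2 G q v w = fderiv ℂ (fderiv ℂ G) q v w := by
  have hk : ∀ᶠ x in 𝓝 q, DifferentiableAt ℂ G x := by
    have := k.eventually (by norm_num)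
    filter_upwards [this] with x hx
    exact hx.differentiableAt (by norm_num)
  have h1 : fderiv ℝ G =ᶠ[𝓝 q]
      fun x => (ContinuousLinearMap.restrictScalarsL ℂ E F ℝ ℝ) (fderiv ℂ G x) := by
    filter_upwards [hk] with x hx
    rw [fderiv_real_of_holo hx]
    rfl
  have h2 : DifferentiableAt ℂ (fderiv ℂ G) q := by
    have : ContDiffAt ℂ 1 (fderiv ℂ G) q := k.fderiv_right (by norm_num)
    exact this.differentiableAt (by norm_num)
  have h3 : HasFDerivAt (fun x => (ContinuousLinearMap.restrictScalarsL ℂ E F ℝ ℝ) (fderiv ℂ G x))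
      ((ContinuousLinearMap.restrictScalarsL ℂ E F ℝ ℝ).comp
        ((fderiv ℂ (fderiv ℂ G) q).restrictScalars ℝ)) q :=
    (ContinuousLinearMap.restrictScalarsL ℂ E F ℝ ℝ).hasFDerivAt.comp q
      (h2.hasFDerivAt.restrictScalars ℝ)
  rw [D2, h1.fderiv_eq, h3.fderiv]
  rfl

theorem contDiffAt_real {G : E → F} {q : E} {n : WithTop ℕ∞} (k : ContDiffAt ℂ n G q) :
    ContDiffAt ℝ n G q := k.restrict_scalars ℝ

/-- holomorphic maps have zero Levi form -/
theorem levi_holo {G : E → F} {q : E} (k : ContDiffAt ℂ 2 G q) (v : E) : levi G q v = 0 := by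
  rw [levi, D2_holo k, D2_holo k]
  simp only [map_smul, smul_apply]
  rw [smul_smul, I_mul_I]
  simp

/-- **composition with a holomorphic map** -/
theorem levi_comp_holo {φ : F → W} {G : E → F} {q : E} (h : ContDiffAt ℝ 2 φ (G q))
    (k : ContDiffAt ℂ 2 G q) (v : E) :
    levi (fun x => φ (G x)) q v = levi φ (G q) (fderiv ℂ G q v) := by
  rw [levi_comp h (contDiffAt_real k), levi_holo k]
  rw [fderiv_real_of_holo (k.differentiableAt (by norm_num))]
  simp [levi]

/-! ### composition with functions of one real variable -/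

theorem D2_real (θ : ℝ → ℝ) (t a b : ℝ) :
    D2 θ t a b = a * b * deriv (deriv θ) t := by
  have h1 : fderiv ℝ θ = fun t => (ContinuousLinearMap.smulRightL ℝ ℝ ℝ (1 : ℝ →L[ℝ] ℝ)) (deriv θ t) := by
    funext t
    ext
    simp
  by_cases hd : DifferentiableAt ℝ (deriv θ) t
  · have h2 : HasFDerivAt (fderiv ℝ θ) ((ContinuousLinearMap.smulRightL ℝ ℝ ℝ (1 : ℝ →L[ℝ] ℝ)).comp
        (fderiv ℝ (deriv θ) t)) t := by
      rw [h1]
      exact (ContinuousLinearMap.smulRightL ℝ ℝ ℝ (1 : ℝ →L[ℝ] ℝ)).hasFDerivAt.comp t hd.hasFDerivAt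
    rw [D2, h2.fderiv]
    simp only [ContinuousLinearMap.comp_apply, ContinuousLinearMap.smulRightL_apply_apply,
      ContinuousLinearMap.smulRight_apply]
    have : fderiv ℝ (deriv θ) t a = a * deriv (deriv θ) t := by
      rw [fderiv_eq_smul_deriv, smul_eq_mul]
    simp [this]
    ring
  · have h3 : ¬ DifferentiableAt ℝ (fderiv ℝ θ) t := by
      intro hh
      apply hd
      have : deriv θ = fun t => fderiv ℝ θ t 1 := by
        funext t; simp
      rw [this]
      exact hh.clm_apply (differentiableAt_const _)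
    rw [D2, fderiv_zero_of_not_differentiableAt h3, deriv_zero_of_not_differentiableAt hd]
    simp

/-- composition with a real function of one variable -/
theorem levi_comp_real {θ : ℝ → ℝ} {φ : E → ℝ} {q : E} (h : ContDiffAt ℝ 2 θ (φ q))
    (k : ContDiffAt ℝ 2 φ q) (v : E) :
    levi (fun x => θ (φ x)) q v =
      deriv θ (φ q) * levi φ q v + deriv (deriv θ) (φ q) *
        ((1 / 4) * ((fderiv ℝ φ q v) ^ 2 + (fderiv ℝ φ q (I • v)) ^ 2)) := by
  rw [levi_comp h k, D2_real, D2_real]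
  have : fderiv ℝ θ (φ q) (levi φ q v) = levi φ q v * deriv θ (φ q) := by
    rw [fderiv_eq_smul_deriv, smul_eq_mul]
  rw [this]
  simp only [smul_eq_mul]
  ring

theorem levi_exp {φ : E → ℝ} {q : E} (k : ContDiffAt ℝ 2 φ q) (v : E) :
    levi (fun x => Real.exp (φ x)) q v =
      Real.exp (φ q) * (levi φ q v +
        (1 / 4) * ((fderiv ℝ φ q v) ^ 2 + (fderiv ℝ φ q (I • v)) ^ 2)) := by
  rw [levi_comp_real Real.contDiff_exp.contDiffAt k]
  simp
  ring

theorem levi_log {φ : E → ℝ} {q : E} (k : ContDiffAt ℝ 2 φ q) (h0 : φ q ≠ 0) (v : E) :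
    levi (fun x => Real.log (φ x)) q v =
      levi φ q v / φ q - (1 / 4) * ((fderiv ℝ φ q v) ^ 2 + (fderiv ℝ φ q (I • v)) ^ 2) / φ q ^ 2 := by
  rw [levi_comp_real (Real.contDiffAt_log.2 h0) k]
  have h1 : deriv (deriv Real.log) (φ q) = - (φ q ^ 2)⁻¹ := by
    have : deriv Real.log = fun x => x⁻¹ := by
      funext x; exact Real.deriv_log x
    rw [this, deriv_inv]
  rw [Real.deriv_log, h1]
  field_simp
  ring

/-! ### bilinear expressions -/

theorem D2_bilin (B : Y →L[ℝ] Z →L[ℝ] W) {f : X → Y} {g : X → Z} {q : X} (hf : ContDiffAt ℝ 2 f q)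
    (hg : ContDiffAt ℝ 2 g q) (v w : X) :
    D2 (fun x => B (f x) (g x)) q v w =
      B (D2 f q v w) (g q) + B (f q) (D2 g q v w) + B (fderiv ℝ f q v) (fderiv ℝ g q w) +
        B (fderiv ℝ f q w) (fderiv ℝ g q v) := by
  have h1 : fderiv ℝ (fun x => B (f x) (g x)) =ᶠ[𝓝 q]
      fun x => (B.precompR X (f x) (fderiv ℝ g x)) + (B.precompL X (fderiv ℝ f x) (g x)) := by
    filter_upwards [evdiff hf, evdiff hg] with x hx kx
    exact (B.hasFDerivAt_of_bilinear hx.hasFDerivAt kx.hasFDerivAt).fderiv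
  have hA := (B.precompR X).hasFDerivAt_of_bilinear
    (hf.differentiableAt (by norm_num)).hasFDerivAt (diff_fderiv hg).hasFDerivAt
  have hB := (B.precompL X).hasFDerivAt_of_bilinear
    (diff_fderiv hf).hasFDerivAt (hg.differentiableAt (by norm_num)).hasFDerivAt
  rw [D2, h1.fderiv_eq, (hA.fun_add hB).fderiv]
  simp only [add_apply, ContinuousLinearMap.precompR_apply, ContinuousLinearMap.precompL_apply, D2,
    ContinuousLinearMap.comp_apply, ContinuousLinearMap.compL_apply]
  abel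

theorem levi_bilin (B : Y →L[ℝ] Z →L[ℝ] W) {f : E → Y} {g : E → Z} {q : E}
    (hf : ContDiffAt ℝ 2 f q) (hg : ContDiffAt ℝ 2 g q) (v : E) :
    levi (fun x => B (f x) (g x)) q v =
      B (levi f q v) (g q) + B (f q) (levi g q v) +
        (1 / 2 : ℝ) • (B (fderiv ℝ f q v) (fderiv ℝ g q v) +
          B (fderiv ℝ f q (I • v)) (fderiv ℝ g q (I • v))) := by
  simp only [levi, D2_bilin B hf hg, map_smul, map_add, add_apply, smul_apply]
  module

theorem levi_mul {f g : E → ℝ} {q : E} (hf : ContDiffAt ℝ 2 f q) (hg : ContDiffAt ℝ 2 g q) (v : E) :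
    levi (fun x => f x * g x) q v =
      levi f q v * g q + f q * levi g q v +
        (1 / 2) * (fderiv ℝ f q v * fderiv ℝ g q v +
          fderiv ℝ f q (I • v) * fderiv ℝ g q (I • v)) := by
  simpa using levi_bilin (ContinuousLinearMap.mul ℝ ℝ) hf hg v

/-- Levi form of the square of the norm, real Hilbert space valued maps -/
theorem levi_normSq {V : Type*} [NormedAddCommGroup V] [InnerProductSpace ℝ V] {f : E → V} {q : E}
    (hf : ContDiffAt ℝ 2 f q) (v : E) :
    levi (fun x => ‖f x‖ ^ 2) q v =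
      2 * inner ℝ (f q) (levi f q v) +
        (1 / 2) * (‖fderiv ℝ f q v‖ ^ 2 + ‖fderiv ℝ f q (I • v)‖ ^ 2) := by
  have h1 : (fun x => ‖f x‖ ^ 2) = fun x => (innerSL ℝ (f x)) (f x) := by
    funext x
    simp
  rw [h1, levi_bilin (innerSL ℝ) hf hf v]
  change inner ℝ (levi f q v) (f q) + inner ℝ (f q) (levi f q v) +
    (1 / 2 : ℝ) * (inner ℝ (fderiv ℝ f q v) (fderiv ℝ f q v) +
      inner ℝ (fderiv ℝ f q (I • v)) (fderiv ℝ f q (I • v))) = _
  rw [real_inner_self_eq_norm_sq, real_inner_self_eq_norm_sq,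
    real_inner_comm (f q) (levi f q v)]
  ring

theorem fderiv_normSq {V : Type*} [NormedAddCommGroup V] [InnerProductSpace ℝ V] {f : X → V} {q : X}
    (hf : DifferentiableAt ℝ f q) (v : X) :
    fderiv ℝ (fun x => ‖f x‖ ^ 2) q v = 2 * inner ℝ (f q) (fderiv ℝ f q v) := by
  have := (hf.hasFDerivAt.norm_sq).fderiv
  rw [this]
  simp

variable {H : Type*} [NormedAddCommGroup H] [InnerProductSpace ℂ H]

/-- Levi form of the square of the norm of a holomorphic Hilbert space valued map -/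
theorem levi_normSq_holo {f : E → H} {q : E} (hf : ContDiffAt ℂ 2 f q) (v : E) :
    levi (fun x => ‖f x‖ ^ 2) q v = ‖fderiv ℂ f q v‖ ^ 2 := by
  let _ : InnerProductSpace ℝ H := InnerProductSpace.complexToReal
  rw [levi_normSq (contDiffAt_real hf), levi_holo hf,
    fderiv_real_of_holo (hf.differentiableAt (by norm_num))]
  simp only [inner_zero_right, mul_zero, zero_add, ContinuousLinearMap.coe_restrictScalars',
    map_smul, norm_smul, norm_I, one_mul]
  ring

theorem fderiv_normSq_holo {f : E → H} {q : E} (hf : DifferentiableAt ℂ f q) (v : E) :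
    fderiv ℝ (fun x => ‖f x‖ ^ 2) q v = 2 * (inner ℂ (f q) (fderiv ℂ f q v)).re := by
  let _ : InnerProductSpace ℝ H := InnerProductSpace.complexToReal
  rw [fderiv_normSq (hf.restrictScalars ℝ), fderiv_real_of_holo hf]
  rfl

theorem contDiffAt_normSq {f : E → H} {q : E} (hf : ContDiffAt ℂ 2 f q) :
    ContDiffAt ℝ 2 (fun x => ‖f x‖ ^ 2) q := by
  let _ : InnerProductSpace ℝ H := InnerProductSpace.complexToReal
  exact (contDiffAt_real hf).norm_sq ℝ

theorem contDiffAt_log_normSq {f : E → H} {q : E} (hf : ContDiffAt ℂ 2 f q) (h0 : f q ≠ 0) :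
    ContDiffAt ℝ 2 (fun x => Real.log (‖f x‖ ^ 2)) q :=
  (contDiffAt_normSq hf).log (pow_ne_zero 2 (norm_ne_zero_iff.2 h0))

/-- Levi form of `log ‖f‖²` for `f` holomorphic, Hilbert space valued -/
theorem levi_log_normSq {f : E → H} {q : E} (hf : ContDiffAt ℂ 2 f q) (h0 : f q ≠ 0) (v : E) :
    levi (fun x => Real.log (‖f x‖ ^ 2)) q v =
      (‖f q‖ ^ 2 * ‖fderiv ℂ f q v‖ ^ 2 - ‖inner ℂ (f q) (fderiv ℂ f q v)‖ ^ 2) /
        (‖f q‖ ^ 2) ^ 2 := by
  have h1 : ‖f q‖ ≠ 0 := norm_ne_zero_iff.2 h0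
  rw [levi_log (contDiffAt_normSq hf) (pow_ne_zero 2 h1), levi_normSq_holo hf,
    fderiv_normSq_holo (hf.differentiableAt (by norm_num)),
    fderiv_normSq_holo (hf.differentiableAt (by norm_num))]
  have h2 : (inner ℂ (f q) (fderiv ℂ f q (I • v))).re = - (inner ℂ (f q) (fderiv ℂ f q v)).im := by
    rw [map_smul, inner_smul_right]
    simp
  rw [h2]
  have h3 : ‖inner ℂ (f q) (fderiv ℂ f q v)‖ ^ 2 =
      (inner ℂ (f q) (fderiv ℂ f q v)).re ^ 2 + (inner ℂ (f q) (fderiv ℂ f q v)).im ^ 2 := by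
    rw [← Complex.normSq_eq_norm_sq, Complex.normSq_apply]
    ring
  rw [h3]
  field_simp
  ring

/-- `log |h|²` has zero Levi form if `h` is holomorphic without zero -/
theorem levi_log_norm_holo {h : E → ℂ} {q : E} (hf : ContDiffAt ℂ 2 h q) (h0 : h q ≠ 0) (v : E) :
    levi (fun x => Real.log (‖h x‖ ^ 2)) q v = 0 := by
  rw [levi_log_normSq hf h0]
  have : ‖inner ℂ (h q) (fderiv ℂ h q v)‖ = ‖h q‖ * ‖fderiv ℂ h q v‖ := by
    rw [RCLike.inner_apply, norm_mul, RCLike.norm_conj, mul_comm]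
  rw [this]
  ring

/-- nonnegativity -/
theorem levi_log_normSq_nonneg {f : E → H} {q : E} (hf : ContDiffAt ℂ 2 f q) (h0 : f q ≠ 0)
    (v : E) : 0 ≤ levi (fun x => Real.log (‖f x‖ ^ 2)) q v := by
  rw [levi_log_normSq hf h0]
  apply div_nonneg _ (by positivity)
  have := norm_inner_le_norm (𝕜 := ℂ) (f q) (fderiv ℂ f q v)
  have h2 : ‖inner ℂ (f q) (fderiv ℂ f q v)‖ ^ 2 ≤ (‖f q‖ * ‖fderiv ℂ f q v‖) ^ 2 := by
    gcongr
  nlinarith

end

end Crest.Agent.R269.Levi1_599
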