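import Crest.Agent.R269.Lift_173
/-
R269 L6.3 (helper173).  Uniform convergence toolbox, convergence of lifts, uniqueness of lifts,
convergence of circle averages.
-/
set_option autoImplicit false

open Metric Set Filter Topology Complex
open scoped ComplexConjugate

noncomputable section

namespace Crest.Agent.R269.LiftC_173

open Crest.Agent.R269.PHol_173

/-- composition with a function continuous near the (compact) image of the limit -/
theorem unif_comp {X α E F : Type*} [TopologicalSpace X] [PseudoMetricSpace E] [ProperSpace E]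
    [PseudoMetricSpace F] {p : Filter α} {K : Set X} (hK : IsCompact K) {f : X → E}
    (hf : ContinuousOn f K) {fm : α → X → E} (h : TendstoUniformlyOn fm f p K) {U : Set E}
    (hU : IsOpen U) (hfU : ∀ x ∈ K, f x ∈ U) {φ : E → F} (hφ : ContinuousOn φ U) :
    (∀ᶠ m in p, ∀ x ∈ K, fm m x ∈ U) ∧
    TendstoUniformlyOn (fun m x => φ (fm m x)) (fun x => φ (f x)) p K := by
  have hL : IsCompact (f '' K) := hK.image_of_continuousOn hf
  have hLU : f '' K ⊆ U := by
    rintro _ ⟨x, hx, rfl⟩
    exact hfU x hx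
  obtain ⟨δ, hδ, hsub⟩ := hL.exists_cthickening_subset_open hU hLU
  have hev : ∀ᶠ m in p, ∀ x ∈ K, fm m x ∈ cthickening δ (f '' K) := by
    filter_upwards [Metric.tendstoUniformlyOn_iff.1 h δ hδ] with m hm x hx
    refine mem_cthickening_of_dist_le (fm m x) (f x) δ _ ⟨x, hx, rfl⟩ ?_
    rw [dist_comm]
    exact (hm x hx).le
  refine ⟨hev.mono fun m hm x hx => hsub (hm x hx), ?_⟩
  have hcomp : IsCompact (cthickening δ (f '' K)) := hL.cthickening
  have huc : UniformContinuousOn φ (cthickening δ (f '' K)) :=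
    hcomp.uniformContinuousOn_of_continuous (hφ.mono hsub)
  refine UniformContinuousOn.comp_tendstoUniformlyOn_eventually hev ?_ huc h
  intro x hx
  exact self_subset_cthickening _ ⟨x, hx, rfl⟩

/-- circle averages converge -/
theorem circleAverage_tendsto {α : Type*} {p : Filter α} {c : ℂ} {R : ℝ} {fm : α → ℂ → ℝ}
    {f : ℂ → ℝ} (hfm : ∀ᶠ m in p, ContinuousOn (fm m) (sphere c |R|))
    (hf : ContinuousOn f (sphere c |R|)) (h : TendstoUniformlyOn fm f p (sphere c |R|)) :
    Tendsto (fun m => Real.circleAverage (fm m) c R) p (𝓝 (Real.circleAverage f c R)) := by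
  rw [Metric.tendsto_nhds]
  intro ε hε
  filter_upwards [hfm, Metric.tendstoUniformlyOn_iff.1 h (ε / 2) (by positivity)] with m h1 h2
  have i1 : CircleIntegrable (fm m) c R := ContinuousOn.circleIntegrable' h1
  have i2 : CircleIntegrable f c R := ContinuousOn.circleIntegrable' hf
  have i3 : CircleIntegrable (fun z => |fm m z - f z|) c R :=
    ContinuousOn.circleIntegrable' (h1.sub hf).abs
  rw [Real.dist_eq, ← Real.circleAverage_fun_sub i1 i2]
  have h3 : |Real.circleAverage (fun z => fm m z - f z) c R| ≤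
      Real.circleAverage (fun z => |fm m z - f z|) c R :=
    Real.abs_circleAverage_le_circleAverage_abs
  have h4 : Real.circleAverage (fun z => |fm m z - f z|) c R ≤ ε / 2 := by
    refine Real.circleAverage_mono_on_of_le_circle i3 ?_
    intro z hz
    have := h2 z hz
    rw [Real.dist_eq, abs_sub_comm] at this
    exact this.le
  linarith

variable {ι : Type*} [Fintype ι]

lemma continuous_act : Continuous fun x : (ι → ι → ℂ) × (ι → ℂ) =>
    act x.1 (fun l => conj (x.2 l)) := by
  unfold act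
  fun_prop

lemma continuous_quad : Continuous fun x : (ι → ι → ℂ) × (ι → ℂ) => quad x.1 x.2 := by
  unfold quad
  refine continuous_finsetSum _ fun k _ => ?_
  exact ((continuous_apply k).comp continuous_snd).mul ((continuous_apply k).comp continuous_act)

/-- uniqueness: proportionality of vectors with the same projector -/
theorem prj_eq_iff {p q : ι → ℂ} (hp : p ≠ 0) (hq : q ≠ 0) :
    prj p = prj q ↔ ∃ c : ℂ, c ≠ 0 ∧ q = c • p := by
  constructor
  · intro h
    have h1 : act (prj p) q = q := by rw [h]; exact act_prj_self hq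
    rw [act_prj] at h1
    refine ⟨_, ?_, h1.symm⟩
    intro h0
    rw [h0, zero_smul] at h1
    exact hq h1.symm
  · rintro ⟨c, hc, rfl⟩
    rw [prj_smul hc]

/-- if `G·p = 1` and `prj q = prj p` then `q = (G·q) p` -/
theorem eq_smul_of_prj_eq {p q G : ι → ℂ} (hG : ∑ i, G i * p i = 1) (hq : q ≠ 0)
    (h : prj q = prj p) : q = (∑ i, G i * q i) • p ∧ ∑ i, G i * q i ≠ 0 := by
  have hp : p ≠ 0 := by
    rintro rfl
    simp at hG
  obtain ⟨c, hc, rfl⟩ := (prj_eq_iff hp hq).1 h.symm
  have : ∑ i, G i * (c • p) i = c := by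
    have e : ∀ i, G i * (c • p) i = c * (G i * p i) := fun i => by
      simp only [Pi.smul_apply, smul_eq_mul]; ring
    simp only [e]
    rw [← Finset.mul_sum, hG, mul_one]
  rw [this]
  exact ⟨rfl, hc⟩

/-- **LIFTS CONVERGE.** `G·H = 1`, `P∘H_m → P∘H` uniformly; then `G·H_m ≠ 0` for large `m` and
`H_m / (G·H_m) → H` uniformly. -/
theorem lift_tendsto {X α : Type*} [TopologicalSpace X] {p : Filter α} {K : Set X}
    (hK : IsCompact K) {H G : X → ι → ℂ} (hH : ContinuousOn H K) (hG : ContinuousOn G K)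
    (hbez : ∀ x ∈ K, ∑ i, G x i * H x i = 1) {Hm : α → X → ι → ℂ}
    (hm : ∀ m, ∀ x ∈ K, Hm m x ≠ 0)
    (hF : TendstoUniformlyOn (fun m x => prj (Hm m x)) (fun x => prj (H x)) p K) :
    (∀ᶠ m in p, ∀ x ∈ K, ∑ i, G x i * Hm m x i ≠ 0) ∧
    TendstoUniformlyOn (fun m x => (∑ i, G x i * Hm m x i)⁻¹ • Hm m x) H p K := by
  have hH0 : ∀ x ∈ K, H x ≠ 0 := by
    intro x hx h0
    have := hbez x hx
    rw [h0] at this
    simp at this
  have hprj : ContinuousOn (fun x => prj (H x)) K := by
    have hk : ∀ k, ContinuousOn (fun x => H x k) K := fun k =>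
      (continuous_apply k).comp_continuousOn hH
    refine continuousOn_pi.2 fun i => continuousOn_pi.2 fun j => ?_
    simp only [prj]
    refine ContinuousOn.div ((hk i).mul (Complex.continuous_conj.comp_continuousOn (hk j))) ?_
      (fun z hz => nsq_ne (hH0 z hz))
    refine Complex.continuous_ofReal.comp_continuousOn ?_
    simp only [nsq]
    exact continuousOn_finsetSum _ fun k _ => (hk k).norm.pow 2
  have hpair : TendstoUniformlyOn (fun (m : α) x => ((prj (Hm m x), G x) : (ι → ι → ℂ) × (ι → ℂ)))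
      (fun x => (prj (H x), G x)) p K := by
    rw [Metric.tendstoUniformlyOn_iff] at hF ⊢
    intro ε hε
    filter_upwards [hF ε hε] with m h1 x hx
    rw [Prod.dist_eq]
    refine max_lt (h1 x hx) ?_
    simpa using hε
  have hcont : ContinuousOn (fun x => ((prj (H x), G x) : (ι → ι → ℂ) × (ι → ℂ))) K :=
    hprj.prodMk hG
  let U : Set ((ι → ι → ℂ) × (ι → ℂ)) := {x | quad x.1 x.2 ≠ 0}
  have hU : IsOpen U := isOpen_compl_singleton.preimage continuous_quad
  have hfU : ∀ x ∈ K, ((prj (H x), G x) : (ι → ι → ℂ) × (ι → ℂ)) ∈ U := by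
    intro x hx
    show quad (prj (H x)) (G x) ≠ 0
    rw [quad_ne_iff (hH0 x hx), hbez x hx]
    exact one_ne_zero
  let φ : (ι → ι → ℂ) × (ι → ℂ) → ι → ℂ := fun x =>
    (quad x.1 x.2)⁻¹ • act x.1 (fun l => conj (x.2 l))
  have hφ : ContinuousOn φ U := by
    have h1 : ContinuousOn (fun x : (ι → ι → ℂ) × (ι → ℂ) => (quad x.1 x.2)⁻¹) U :=
      continuous_quad.continuousOn.inv₀ fun x hx => hx
    exact h1.smul continuous_act.continuousOn
  obtain ⟨h1, h2⟩ := unif_comp hK hcont hpair hU hfU hφ
  have hform : ∀ (q g : ι → ℂ), q ≠ 0 → quad (prj q) g ≠ 0 →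
      φ (prj q, g) = (∑ i, g i * q i)⁻¹ • q := by
    intro q g hq hqg
    have h3 := (quad_ne_iff hq g).1 hqg
    show (quad (prj q) g)⁻¹ • act (prj q) (fun l => conj (g l)) = _
    rw [act_conj_prj hq g h3, smul_smul]
    congr 1
    field_simp
  refine ⟨?_, ?_⟩
  · filter_upwards [h1] with m h3 x hx
    exact (quad_ne_iff (hm m x hx) (G x)).1 (h3 x hx)
  · have h3 : ∀ x ∈ K, φ (prj (H x), G x) = H x := by
      intro x hx
      rw [hform _ _ (hH0 x hx) (hfU x hx), hbez x hx, inv_one, one_smul]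
    have h4 : ∀ᶠ m in p, ∀ x ∈ K, φ (prj (Hm m x), G x) =
        (∑ i, G x i * Hm m x i)⁻¹ • Hm m x := by
      filter_upwards [h1] with m h5 x hx
      exact hform _ _ (hm m x hx) (h5 x hx)
    intro u hu
    filter_upwards [h2 u hu, h4] with m h5 h6 x hx
    rw [← h3 x hx, ← h6 x hx]
    exact h5 x hx

end Crest.Agent.R269.LiftC_173

end
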