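import Crest.Agent.R269.Sec_173
/-
R269 L6.2 (helper173).  LIFT THEOREM: a holomorphic disc in projective space, continuous up to the circle
(projector picture, PHol), has a holomorphic lift, continuous up to the circle, nowhere zero, with an
explicit formula on the circle:  H = Q(z) F(z) conj(v(z)) / (v^T F conj v),  Q, v polynomials.
-/
set_option autoImplicit false

open Metric Set Filter Topology Complex
open scoped ComplexConjugate

noncomputable section

namespace Crest.Agent.R269.PHol_173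

variable {ι : Type*} [Fintype ι]

/-- value of a polynomial vector -/
def ev (v : ι → Polynomial ℂ) (z : ℂ) : ι → ℂ := fun i => (v i).eval z

omit [Fintype ι] in
lemma continuous_ev (v : ι → Polynomial ℂ) : Continuous (ev v) :=
  continuous_pi fun i => (v i).continuous

/-- the local lift with `i`-th coordinate `1` -/
def loc (F : ℂ → ι → ι → ℂ) (i : ι) (z : ℂ) : ι → ℂ := fun k => F z k i / F z i i

lemma IsRP.eq_prj_loc {A : ι → ι → ℂ} (h : IsRP A) {i : ι} (hi : A i i ≠ 0) :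
    A = prj (fun k => A k i / A i i) ∧ (fun k => A k i / A i i) ≠ 0 := by
  have e : (fun k => A k i / A i i) = (A i i)⁻¹ • (fun k => A k i) := by
    funext k; simp [div_eq_inv_mul]
  constructor
  · rw [e, prj_smul (inv_ne_zero hi)]
    exact h.eq_prj_col hi
  · rw [e]
    exact smul_ne_zero (inv_ne_zero hi) (h.col_ne hi)

/-- `act A (conj v) = (quad A v / (v·p)) p` for any `p` with `A = prj p` -/
lemma act_conj_prj {p : ι → ℂ} (hp : p ≠ 0) (v : ι → ℂ) (hv : ∑ l, v l * p l ≠ 0) :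
    act (prj p) (fun l => conj (v l)) = (quad (prj p) v / ∑ l, v l * p l) • p := by
  rw [act_prj, quad_prj]
  congr 1
  have : (∑ l, conj (p l) * conj (v l) : ℂ) = conj (∑ l, v l * p l) := by
    rw [map_sum]
    exact Finset.sum_congr rfl fun l _ => by rw [map_mul, mul_comm]
  rw [this]
  have := nsq_ne hp
  field_simp

/-- zeros of a polynomial vector paired with the disc are isolated inside, finite in number -/
lemma zero_finite {F : ℂ → ι → ι → ℂ} (hF : PHol F) {v : ι → Polynomial ℂ}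
    (hv : ∀ z ∈ sphere (0 : ℂ) 1, quad (F z) (ev v z) ≠ 0) :
    {z | z ∈ closedBall (0 : ℂ) 1 ∧ quad (F z) (ev v z) = 0}.Finite ∧
    ∀ z0 ∈ ball (0 : ℂ) 1, ∀ᶠ z in 𝓝[≠] z0, quad (F z) (ev v z) ≠ 0 := by
  classical
  -- continuity of quad
  have hqc : ContinuousOn (fun z => quad (F z) (ev v z)) (closedBall 0 1) := by
    unfold quad
    refine continuousOn_finsetSum _ fun k _ => ContinuousOn.mul ?_ ?_
    · exact ((continuous_apply k).comp (continuous_ev v)).continuousOn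
    · have := continuousOn_act hF.cont (w := fun z l => conj (ev v z l)) (s := closedBall 0 1)
        (continuous_pi fun l => Complex.continuous_conj.comp
          ((continuous_apply l).comp (continuous_ev v))).continuousOn
      exact (continuous_apply k).comp_continuousOn this
  -- local holomorphic function
  have hloc : ∀ z0 ∈ ball (0 : ℂ) 1, ∃ g : ℂ → ℂ, AnalyticAt ℂ g z0 ∧
      ∀ᶠ z in 𝓝 z0, (quad (F z) (ev v z) = 0 ↔ g z = 0) := by
    intro z0 hz0
    obtain ⟨i, hi⟩ := (hF.rp z0 (ball_subset_closedBall hz0)).exists_diag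
    have hopen := hF.isOpen_chart i
    have hmem : z0 ∈ {z | z ∈ ball (0 : ℂ) 1 ∧ F z i i ≠ 0} := ⟨hz0, hi⟩
    refine ⟨fun z => ∑ l, ev v z l * loc F i z l, ?_, ?_⟩
    · refine DifferentiableOn.analyticAt (s := {z | z ∈ ball (0 : ℂ) 1 ∧ F z i i ≠ 0}) ?_
        (hopen.mem_nhds hmem)
      refine DifferentiableOn.fun_sum fun l _ => DifferentiableOn.mul ?_ (hF.hol i l)
      exact (v l).differentiable.differentiableOn
    · filter_upwards [hopen.mem_nhds hmem] with z hz
      obtain ⟨h1, h2⟩ := (hF.rp z (ball_subset_closedBall hz.1)).eq_prj_loc hz.2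
      have := quad_ne_iff h2 (ev v z)
      rw [← h1] at this
      exact not_iff_not.1 this
  -- closedness of interior of the zero set
  let W : Set ℂ := {z0 | ∀ᶠ z in 𝓝 z0, quad (F z) (ev v z) = 0}
  have hW : IsOpen W := isOpen_setOfPred_eventually_nhds
  have hdich : ∀ z0 ∈ ball (0 : ℂ) 1, z0 ∈ W ∨ ∀ᶠ z in 𝓝[≠] z0, quad (F z) (ev v z) ≠ 0 := by
    intro z0 hz0
    obtain ⟨g, hg, hgq⟩ := hloc z0 hz0
    rcases hg.eventually_eq_zero_or_eventually_ne_zero with h | h
    · left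
      show ∀ᶠ z in 𝓝 z0, quad (F z) (ev v z) = 0
      filter_upwards [h, hgq] with z h1 h2
      exact h2.2 h1
    · right
      filter_upwards [h, hgq.filter_mono nhdsWithin_le_nhds] with z h1 h2
      exact fun h3 => h1 (h2.1 h3)
  have hWempty : ∀ z0 ∈ ball (0 : ℂ) 1, z0 ∉ W := by
    -- the complement within the ball is open
    let W' : Set ℂ := {z0 | ∀ᶠ z in 𝓝[≠] z0, quad (F z) (ev v z) ≠ 0}
    have hW' : IsOpen W' := by
      have : W' = {z0 | ∀ᶠ z in 𝓝[≠] z0, z ∈ {z | quad (F z) (ev v z) ≠ 0}} := rfl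
      rw [isOpen_iff_mem_nhds]
      intro z0 hz0
      have h1 : ∀ᶠ z in 𝓝[≠] z0, ∀ᶠ w in 𝓝 z, quad (F w) (ev v w) ≠ 0 := by
        have := eventually_eventually_nhdsWithin.2 hz0
        filter_upwards [this, self_mem_nhdsWithin] with z h2 h3
        have h4 : 𝓝[≠] z0 ≤ ⊤ := le_top
        have h5 : ({z0}ᶜ : Set ℂ) ∈ 𝓝 z := isOpen_compl_singleton.mem_nhds h3
        rwa [nhdsWithin_eq_nhds.2 h5] at h2
      rw [eventually_nhdsWithin_iff] at h1
      filter_upwards [h1] with z h2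
      by_cases h3 : z = z0
      · rw [h3]; exact hz0
      · exact (h2 h3).filter_mono nhdsWithin_le_nhds
    have hconn : IsPreconnected (ball (0 : ℂ) 1) := (convex_ball (0 : ℂ) 1).isPreconnected
    intro z0 hz0 hz0W
    -- W' meets the ball
    have hne : ∃ z ∈ ball (0 : ℂ) 1, z ∈ W' := by
      have h1 : quad (F 1) (ev v 1) ≠ 0 := hv 1 (by simp)
      have h2 : ContinuousWithinAt (fun z => quad (F z) (ev v z)) (ball 0 1) 1 :=
        (hqc 1 (by simp)).mono ball_subset_closedBall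
      have h3 : ∀ᶠ z in 𝓝[ball 0 1] (1 : ℂ), quad (F z) (ev v z) ≠ 0 :=
        h2.eventually (isOpen_compl_singleton.mem_nhds h1)
      have h4 : (1 : ℂ) ∈ closure (ball (0 : ℂ) 1) := by
        rw [closure_ball (0 : ℂ) one_ne_zero]; simp
      have h5 : (𝓝[ball 0 1] (1 : ℂ)).NeBot := mem_closure_iff_nhdsWithin_neBot.1 h4
      obtain ⟨z, hz1, hz2⟩ := (h3.and self_mem_nhdsWithin).exists
      refine ⟨z, hz2, ?_⟩
      rcases hdich z hz2 with h6 | h6
      · exact absurd h6.self_of_nhds hz1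
      · exact h6
    obtain ⟨z1, hz1, hz1'⟩ := hne
    have hcover : ball (0 : ℂ) 1 ⊆ W ∪ W' := fun z hz => hdich z hz
    obtain ⟨z2, hz2, hz2W, hz2W'⟩ := hconn W W' hW hW' hcover ⟨z0, hz0, hz0W⟩ ⟨z1, hz1, hz1'⟩
    have hz2W'' : ∀ᶠ z in 𝓝[≠] z2, quad (F z) (ev v z) = 0 := hz2W.filter_mono nhdsWithin_le_nhds
    obtain ⟨z3, h1, h2⟩ := (hz2W''.and hz2W').exists
    exact h2 h1
  have hpunct : ∀ z0 ∈ ball (0 : ℂ) 1, ∀ᶠ z in 𝓝[≠] z0, quad (F z) (ev v z) ≠ 0 :=
    fun z0 hz0 => (hdich z0 hz0).resolve_left (hWempty z0 hz0)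
  refine ⟨?_, hpunct⟩
  set Z : Set ℂ := {z | z ∈ closedBall (0 : ℂ) 1 ∧ quad (F z) (ev v z) = 0} with hZ
  have hZc : IsCompact Z := by
    have h1 := hqc.preimage_isClosed_of_isClosed isClosed_closedBall (isClosed_singleton (x := (0 : ℂ)))
    have h2 : Z = closedBall (0 : ℂ) 1 ∩ (fun z => quad (F z) (ev v z)) ⁻¹' {0} := by
      ext z; simp [hZ]
    rw [h2]
    exact (isCompact_closedBall (0 : ℂ) 1).of_isClosed_subset h1 inter_subset_left
  by_contra hinf
  obtain ⟨z0, hz0, hacc⟩ := Set.Infinite.exists_accPt_of_subset_isCompact hinf hZc Subset.rfl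
  have hz0b : z0 ∈ ball (0 : ℂ) 1 := by
    rcases (mem_closedBall_zero_iff.1 hz0.1).lt_or_eq with h | h
    · simpa using h
    · exact absurd hz0.2 (hv z0 (by simpa using h))
  have h1 := hpunct z0 hz0b
  rw [AccPt, inf_comm] at hacc
  have h2 : ∀ᶠ z in 𝓟 Z ⊓ 𝓝[≠] z0, quad (F z) (ev v z) ≠ 0 := h1.filter_mono inf_le_right
  have h3 : ∀ᶠ z in 𝓟 Z ⊓ 𝓝[≠] z0, z ∈ Z :=
    (Filter.eventually_principal.2 fun z hz => hz).filter_mono inf_le_left
  obtain ⟨z, h4, h5⟩ := (h2.and h3).exists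
  exact h4 h5.2

/-- local structure at a zero: a local holomorphic lift `p`, and `v·p = (z-a)^m u`, `u ≠ 0` -/
lemma local_factor {F : ℂ → ι → ι → ℂ} (hF : PHol F) {v : ι → Polynomial ℂ}
    (hv : ∀ z0 ∈ ball (0 : ℂ) 1, ∀ᶠ z in 𝓝[≠] z0, quad (F z) (ev v z) ≠ 0) {a : ℂ}
    (ha : a ∈ ball (0 : ℂ) 1) :
    ∃ (i : ι) (m : ℕ) (u : ℂ → ℂ), F a i i ≠ 0 ∧ AnalyticAt ℂ u a ∧ u a ≠ 0 ∧
      ∀ᶠ z in 𝓝 a, ∑ l, ev v z l * loc F i z l = (z - a) ^ m * u z := by
  obtain ⟨i, hi⟩ := (hF.rp a (ball_subset_closedBall ha)).exists_diag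
  have hopen := hF.isOpen_chart i
  have hmem : a ∈ {z | z ∈ ball (0 : ℂ) 1 ∧ F z i i ≠ 0} := ⟨ha, hi⟩
  have hg : AnalyticAt ℂ (fun z => ∑ l, ev v z l * loc F i z l) a := by
    refine DifferentiableOn.analyticAt (s := {z | z ∈ ball (0 : ℂ) 1 ∧ F z i i ≠ 0}) ?_
      (hopen.mem_nhds hmem)
    refine DifferentiableOn.fun_sum fun l _ => DifferentiableOn.mul ?_ (hF.hol i l)
    exact (v l).differentiable.differentiableOn
  have hne : ¬ ∀ᶠ z in 𝓝 a, ∑ l, ev v z l * loc F i z l = 0 := by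
    intro h
    have h1 : ∀ᶠ z in 𝓝[≠] a, ∑ l, ev v z l * loc F i z l = 0 := h.filter_mono nhdsWithin_le_nhds
    have h2' : ∀ᶠ z in 𝓝 a, z ∈ {z | z ∈ ball (0 : ℂ) 1 ∧ F z i i ≠ 0} := hopen.mem_nhds hmem
    have h2 : ∀ᶠ z in 𝓝[≠] a, z ∈ {z | z ∈ ball (0 : ℂ) 1 ∧ F z i i ≠ 0} :=
      h2'.filter_mono nhdsWithin_le_nhds
    obtain ⟨z, ⟨h3, h4⟩, h5⟩ := ((h1.and h2).and (hv a ha)).exists
    obtain ⟨h6, h7⟩ := (hF.rp z (ball_subset_closedBall h4.1)).eq_prj_loc h4.2
    have := quad_ne_iff h7 (ev v z)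
    rw [← h6] at this
    exact (this.1 h5) h3
  obtain ⟨m, u, hu, hu0, hev⟩ := hg.exists_eventuallyEq_pow_smul_nonzero_iff.2 hne
  refine ⟨i, m, u, hi, hu, hu0, ?_⟩
  simpa [smul_eq_mul] using hev

/-- LIFT THEOREM -/
theorem exists_lift {F : ℂ → ι → ι → ℂ} (hF : PHol F) :
    ∃ (v : ι → Polynomial ℂ) (Q : Polynomial ℂ) (H : ℂ → ι → ℂ),
      ContinuousOn H (closedBall 0 1) ∧ DifferentiableOn ℂ H (ball 0 1) ∧
      (∀ z ∈ closedBall (0 : ℂ) 1, H z ≠ 0 ∧ prj (H z) = F z) ∧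
      (∀ z ∈ sphere (0 : ℂ) 1, quad (F z) (ev v z) ≠ 0 ∧ Q.eval z ≠ 0) ∧
      ∀ z ∈ closedBall (0 : ℂ) 1, quad (F z) (ev v z) ≠ 0 →
        H z = (Q.eval z / quad (F z) (ev v z)) • act (F z) (fun l => conj (ev v z l)) := by
  classical
  obtain ⟨v, hv⟩ := exists_polyVec hF.cont hF.rp
  obtain ⟨hfin, hpunct⟩ := zero_finite hF (v := v) hv
  set Z : Set ℂ := {z | z ∈ closedBall (0 : ℂ) 1 ∧ quad (F z) (ev v z) = 0} with hZ
  have hZb : ∀ a ∈ Z, a ∈ ball (0 : ℂ) 1 := by
    intro a ha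
    rcases (mem_closedBall_zero_iff.1 ha.1).lt_or_eq with h | h
    · simpa using h
    · exact absurd ha.2 (hv a (by simpa using h))
  have hdata : ∀ a : ℂ, a ∈ Z → ∃ (i : ι) (m : ℕ) (u : ℂ → ℂ), F a i i ≠ 0 ∧ AnalyticAt ℂ u a ∧
      u a ≠ 0 ∧ ∀ᶠ z in 𝓝 a, ∑ l, ev v z l * loc F i z l = (z - a) ^ m * u z :=
    fun a ha => local_factor hF hpunct (hZb a ha)
  have hne : Nonempty ι := ⟨(hF.rp 0 (by simp)).exists_diag.choose⟩
  choose! ci cm cu hd1 hd2 hd3 hd4 using hdata
  let S : Finset ℂ := hfin.toFinset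
  have hS : ∀ a, a ∈ S ↔ a ∈ Z := fun a => hfin.mem_toFinset
  let Q : Polynomial ℂ := ∏ a ∈ S, (Polynomial.X - Polynomial.C a) ^ cm a
  have hQeval : ∀ z, Q.eval z = ∏ a ∈ S, (z - a) ^ cm a := by
    intro z
    simp [Q, Polynomial.eval_prod]
  have hQne : ∀ z, z ∉ Z → Q.eval z ≠ 0 := by
    intro z hz
    rw [hQeval]
    refine Finset.prod_ne_zero_iff.2 fun a ha => pow_ne_zero _ (sub_ne_zero.2 ?_)
    rintro rfl
    exact hz ((hS z).1 ha)
  let Qa : ℂ → ℂ → ℂ := fun a z => ∏ b ∈ S.erase a, (z - b) ^ cm b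
  have hQfac : ∀ a ∈ Z, ∀ z, Q.eval z = (z - a) ^ cm a * Qa a z := by
    intro a ha z
    rw [hQeval, ← Finset.mul_prod_erase S _ ((hS a).2 ha)]
  have hQa : ∀ a, Qa a a ≠ 0 := by
    intro a
    refine Finset.prod_ne_zero_iff.2 fun b hb => pow_ne_zero _ (sub_ne_zero.2 ?_)
    exact (Finset.ne_of_mem_erase hb).symm
  let H : ℂ → ι → ℂ := fun z => if quad (F z) (ev v z) = 0 then (Qa z z / cu z z) • loc F (ci z) z
    else (Q.eval z / quad (F z) (ev v z)) • act (F z) (fun l => conj (ev v z l))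
  have hHne : ∀ z, quad (F z) (ev v z) ≠ 0 →
      H z = (Q.eval z / quad (F z) (ev v z)) • act (F z) (fun l => conj (ev v z l)) :=
    fun z hz => if_neg hz
  have hHeq : ∀ z, quad (F z) (ev v z) = 0 → H z = (Qa z z / cu z z) • loc F (ci z) z :=
    fun z hz => if_pos hz
  -- formula in a chart
  have hchart : ∀ z ∈ closedBall (0 : ℂ) 1, ∀ i, F z i i ≠ 0 → quad (F z) (ev v z) ≠ 0 →
      ∑ l, ev v z l * loc F i z l ≠ 0 ∧ H z = (Q.eval z / ∑ l, ev v z l * loc F i z l) • loc F i z := by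
    intro z hz i hi hq
    obtain ⟨h6, h7⟩ := (hF.rp z hz).eq_prj_loc hi
    have h8 := quad_ne_iff h7 (ev v z)
    rw [← h6] at h8
    have h9 := h8.1 hq
    refine ⟨h9, ?_⟩
    rw [hHne z hq]
    have h10 := act_conj_prj h7 (ev v z) h9
    rw [← h6] at h10
    rw [h10, smul_smul]
    congr 1
    have h11 : ∑ l, ev v z l * loc F i z l ≠ 0 := h9
    show Q.eval z / quad (F z) (ev v z) * (quad (F z) (ev v z) / ∑ l, ev v z l * loc F i z l) = _
    field_simp
  -- analyticity at every interior point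
  have hdiff : ∀ z0 ∈ ball (0 : ℂ) 1, DifferentiableAt ℂ H z0 := by
    intro z0 hz0
    by_cases hq0 : quad (F z0) (ev v z0) = 0
    · have hz0Z : z0 ∈ Z := ⟨ball_subset_closedBall hz0, hq0⟩
      have hopen := hF.isOpen_chart (ci z0)
      have hmem : z0 ∈ {z | z ∈ ball (0 : ℂ) 1 ∧ F z (ci z0) (ci z0) ≠ 0} := ⟨hz0, hd1 z0 hz0Z⟩
      have hloc : DifferentiableAt ℂ (loc F (ci z0)) z0 := by
        refine differentiableAt_pi.2 fun k => ?_
        exact (hF.hol (ci z0) k).differentiableAt (hopen.mem_nhds hmem)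
      have hcu := (hd2 z0 hz0Z).differentiableAt
      have hQad : DifferentiableAt ℂ (Qa z0) z0 := by
        have : Qa z0 = fun z => (∏ b ∈ S.erase z0, (Polynomial.X - Polynomial.C b) ^ cm b).eval z := by
          funext z; simp [Qa, Polynomial.eval_prod]
        rw [this]
        exact (Polynomial.differentiable _).differentiableAt
      have hmodel : DifferentiableAt ℂ (fun z => (Qa z0 z / cu z0 z) • loc F (ci z0) z) z0 :=
        (hQad.div hcu (hd3 z0 hz0Z)).smul hloc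
      refine hmodel.congr_of_eventuallyEq ?_
      have hcu0 : ∀ᶠ z in 𝓝 z0, cu z0 z ≠ 0 :=
        (hd2 z0 hz0Z).continuousAt.eventually_ne (hd3 z0 hz0Z)
      have hp : ∀ᶠ z in 𝓝 z0, z ≠ z0 → quad (F z) (ev v z) ≠ 0 := by
        have := hpunct z0 hz0
        rw [eventually_nhdsWithin_iff] at this
        exact this
      filter_upwards [hopen.mem_nhds hmem, hd4 z0 hz0Z, hcu0, hp] with z h1 h2 h3 h4
      by_cases hzz : z = z0
      · rw [hzz, hHeq z0 hq0]
      · obtain ⟨h5, h6⟩ := hchart z (ball_subset_closedBall h1.1) (ci z0) h1.2 (h4 hzz)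
        rw [h6, h2, hQfac z0 hz0Z z]
        congr 1
        have h7 : (z - z0) ^ cm z0 ≠ 0 := pow_ne_zero _ (sub_ne_zero.2 hzz)
        field_simp
    · obtain ⟨i, hi⟩ := (hF.rp z0 (ball_subset_closedBall hz0)).exists_diag
      have hopen := hF.isOpen_chart i
      have hmem : z0 ∈ {z | z ∈ ball (0 : ℂ) 1 ∧ F z i i ≠ 0} := ⟨hz0, hi⟩
      have hloc : DifferentiableAt ℂ (loc F i) z0 := by
        refine differentiableAt_pi.2 fun k => ?_
        exact (hF.hol i k).differentiableAt (hopen.mem_nhds hmem)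
      have hsum : DifferentiableAt ℂ (fun z => ∑ l, ev v z l * loc F i z l) z0 := by
        refine DifferentiableAt.fun_sum fun l _ => DifferentiableAt.mul ?_ ?_
        · exact (v l).differentiable.differentiableAt
        · exact (differentiableAt_pi.1 hloc) l
      obtain ⟨h5, _⟩ := hchart z0 (ball_subset_closedBall hz0) i hi hq0
      have hmodel : DifferentiableAt ℂ
          (fun z => (Q.eval z / ∑ l, ev v z l * loc F i z l) • loc F i z) z0 :=
        ((Polynomial.differentiable Q).differentiableAt.div hsum h5).smul hloc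
      refine hmodel.congr_of_eventuallyEq ?_
      have hsum0 : ∀ᶠ z in 𝓝 z0, ∑ l, ev v z l * loc F i z l ≠ 0 :=
        hsum.continuousAt.eventually_ne h5
      filter_upwards [hopen.mem_nhds hmem, hsum0] with z h1 h2
      have h3 : quad (F z) (ev v z) ≠ 0 := by
        obtain ⟨h6, h7⟩ := (hF.rp z (ball_subset_closedBall h1.1)).eq_prj_loc h1.2
        have h8 := quad_ne_iff h7 (ev v z)
        rw [← h6] at h8
        exact h8.2 h2
      exact (hchart z (ball_subset_closedBall h1.1) i h1.2 h3).2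
  -- continuity of quad
  have hactc : ContinuousOn (fun z => act (F z) (fun l => conj (ev v z l))) (closedBall 0 1) :=
    continuousOn_act hF.cont (w := fun z l => conj (ev v z l)) (s := closedBall 0 1)
      (continuous_pi fun l => Complex.continuous_conj.comp
        ((continuous_apply l).comp (continuous_ev v))).continuousOn
  have hqc : ContinuousOn (fun z => quad (F z) (ev v z)) (closedBall 0 1) := by
    unfold quad
    refine continuousOn_finsetSum _ fun k _ => ContinuousOn.mul ?_ ?_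
    · exact ((continuous_apply k).comp (continuous_ev v)).continuousOn
    · exact (continuous_apply k).comp_continuousOn hactc
  refine ⟨v, Q, H, ?_, fun z hz => (hdiff z hz).differentiableWithinAt, ?_, ?_, fun z _ h => hHne z h⟩
  · intro z0 hz0
    rcases (mem_closedBall_zero_iff.1 hz0).lt_or_eq with h | h
    · exact (hdiff z0 (by simpa using h)).continuousAt.continuousWithinAt
    · have hq0 : quad (F z0) (ev v z0) ≠ 0 := hv z0 (by simpa using h)
      have hmodel : ContinuousWithinAt (fun z => (Q.eval z / quad (F z) (ev v z)) •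
          act (F z) (fun l => conj (ev v z l))) (closedBall 0 1) z0 :=
        ((Polynomial.continuous Q).continuousWithinAt.div (hqc z0 hz0) hq0).smul (hactc z0 hz0)
      refine hmodel.congr_of_eventuallyEq ?_ (hHne z0 hq0)
      have : ∀ᶠ z in 𝓝[closedBall 0 1] z0, quad (F z) (ev v z) ≠ 0 :=
        (hqc z0 hz0).eventually_ne hq0
      filter_upwards [this] with z hz
      exact hHne z hz
  · intro z hz
    by_cases hq : quad (F z) (ev v z) = 0
    · have hzZ : z ∈ Z := ⟨hz, hq⟩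
      obtain ⟨h6, h7⟩ := (hF.rp z hz).eq_prj_loc (hd1 z hzZ)
      have hc : Qa z z / cu z z ≠ 0 := div_ne_zero (hQa z) (hd3 z hzZ)
      rw [hHeq z hq]
      refine ⟨smul_ne_zero hc h7, ?_⟩
      rw [prj_smul hc]
      exact h6.symm
    · obtain ⟨i, hi⟩ := (hF.rp z hz).exists_diag
      obtain ⟨h5, h6⟩ := hchart z hz i hi hq
      obtain ⟨h8, h7⟩ := (hF.rp z hz).eq_prj_loc hi
      have hzZ : z ∉ Z := fun h => hq h.2
      have hc : Q.eval z / ∑ l, ev v z l * loc F i z l ≠ 0 := div_ne_zero (hQne z hzZ) h5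
      rw [h6]
      refine ⟨smul_ne_zero hc h7, ?_⟩
      rw [prj_smul hc]
      exact h8.symm
  · intro z hz
    refine ⟨hv z hz, hQne z fun h => hv z hz h.2⟩

end Crest.Agent.R269.PHol_173

end
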