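import Crest.Agent.R269.Defs_58

/-!
# R269: variant of the red theorem without `SolvStmt` (the resolvent is supplied on the atlas by helper19)
-/

set_option autoImplicit false

open Crest.AlgGeometry.ProjEmb Crest.Agent.R269.Geo_328 Crest.Agent.R269.Defs_58

namespace Crest.Agent.R269.Red2_58

/-- Parts 7, 8, 9 together -/
def MAStmt2 : Prop := ∀ (N n : ℕ) (I : Ideal (HomCoordRing N)), I.IsPrime →
  IsSmoothProjective I n → 1 ≤ n → TP I n → MAP I n

/-- Parts 7, 12 together -/
def PosStmt2 : Prop := ∀ (N n : ℕ) (I : Ideal (HomCoordRing N)), I.IsPrime →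
  IsSmoothProjective I n → 1 ≤ n → TDelP I n → PosP I n

theorem MAStmt2.of (h : MAStmt) (hs : SolvStmt) : MAStmt2 :=
  fun N n I hI hX hn ht => h N n I hI hX hn ht (hs N n I hI hX hn)

theorem PosStmt2.of (h : PosStmt) (hs : SolvStmt) : PosStmt2 :=
  fun N n I hI hX hn ht => h N n I hI hX hn ht (hs N n I hI hX hn)

/-- THE RED THEOREM, second form -/
theorem of_all2 (hT : TStmt) (hM : MAStmt2) (hB : BigStmt) (hD : TDelStmt)
    (hP : PosStmt2) (hA : AmpStmt) (N n : ℕ) (I : Ideal (HomCoordRing N)) [hI : I.IsPrime]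
    (hX : IsSmoothProjective I n) (hn : 1 ≤ n) (hc : EntireCurvesConstant I) :
    IsCanonicallyAmple I n := by
  have h2 := hM N n I hI hX hn (hT N n I hI hX hn hc)
  have h3 := hB N n I hI hX hn h2
  exact hA N n I hX hn (hP N n I hI hX hn (hD N n I hI hX hn hc h3))

end Crest.Agent.R269.Red2_58
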