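import Crest.Agent.R269.DualAsm_128
import Crest.Agent.R269.Red2_58
import Crest.Agent.R269.RegAmb_848
import Crest.Agent.R269.Inst_851
import Crest.Agent.R269.Weak_411
import Crest.Agent.R269.AtlX_632
import Crest.Agent.R269.Alp5_927
import Crest.Agent.R269.DictE_886

/-!
# R269 (S0411), task 268 MA-ASM (helper128): Parts 8 + 9 and 12, assembly

Inputs (as hypotheses): `Res1`, `Res2` (resolvent on the atlas, helper19) or `SolvP` (resolvent in
ambient form), `RegStmt` (Part 9, helper390).  The field dictionary `FldDict` is helper886's `F1_up`.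

* `dual_MA`, `dual_Pos` : the measures of Parts 8 and 12;
* `map_of_dual`, `pos_of_dual` : `MAP`, `PosP`;
* `res1_of_solv`, `res2_of_solv` : `SolvP` gives the resolvent on the atlas;
* `maStmt`, `posStmt` : `RegStmt → MAStmt`, `RegStmt → PosStmt`;
* `maStmt2`, `posStmt2` : `RegStmt → ResStmt → MAStmt2`, `RegStmt → ResStmt → PosStmt2`.
-/

set_option autoImplicit false
set_option linter.unusedSectionVars false

open MvPolynomial Crest.AlgGeometry.ProjEmb Set Filter Topology MeasureTheory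
open scoped ContDiff ComplexConjugate Matrix ComplexOrder

namespace Crest.Agent.R269.MAAsm_128

open Crest.Agent.R269.Geo_328 Crest.Agent.R275.Geo Crest.Agent.R269.CAtl_886
open Crest.Agent.R269.DictA_886
open Crest.Agent.R269.Defs_58 Crest.Agent.R269.RegStmt_848 Crest.Agent.R269.Fld_851
open Crest.Agent.R269.Adj_851 (Lop rho)
open Crest.Agent.R269.Inst_851 Crest.Agent.R269.DualAsm_128
open Crest.Agent.R273.Kah_333 Crest.Agent.R273.Vol_333
open Crest.Agent.R273.Vm_333 (vm)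
open Crest.Agent.R273.FS_333
open Crest.Agent.R275.Core144 (Jm)

noncomputable section

variable {N n : ℕ} {I : Ideal (HomCoordRing N)} {A : Atl n (XX I)}

/-! ### the interfaces -/

/-- fields: atlas to ambient -/
def FldDict (CA : CAtl I A) : Prop :=
  ∀ s : Fld A, s ∈ PosS A →
    ∃ a, PosField I n a ∧ ∀ p (hp : p ∈ Cone I) (b : Fin n → EE N), Rep I a p b →
      DD p b = dtF (fsKah CA.projD) s.1 (pt p hp) ∧
      (∀ u, SmX I u → ∑ m, lev u p (b m) = Lop s.1 (dn u) (pt p hp)) ∧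
      ∑ m, omg p (b m) = trF s.1 (fsKah CA.projD).g (pt p hp) ∧
      ∑ m, alpha I n p (b m) = trF s.1 (Pot.can (fsKah CA.projD)).mat (pt p hp)

/-- resolvent with the density `lam (det_g s)^{1/n}` -/
def Res1 {M : Type} [TopologicalSpace M] {A : Atl n M} (K : Kah A) : Prop :=
  ∀ s : Fld A, s ∈ PosS A → ∀ lam : ℝ, 0 < lam → ∀ h : M → ℝ, A.Sm h → ∀ δ : ℝ, 0 < δ →
    ∃ u : M → ℝ, A.Sm u ∧ ∀ x, |lam * rtF K s.1 x * u x - Lop s.1 u x - h x| ≤ δ

/-- resolvent with a constant density -/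
def Res2 {M : Type} [TopologicalSpace M] (A : Atl n M) : Prop :=
  ∀ s : Fld A, s ∈ PosS A → ∀ m : ℝ, 0 < m → ∀ h : M → ℝ, A.Sm h → ∀ δ : ℝ, 0 < δ →
    ∃ u : M → ℝ, A.Sm u ∧ ∀ x, |m * u x - Lop s.1 u x - h x| ≤ δ

/-! ### the forms `can + e ω`, `t can - δ ω` -/

section Forms

variable (CA : CAtl I A)

theorem mat_smul {M : Type} [TopologicalSpace M] {A : Atl n M} (γ : Pot A) (r : ℝ) {i : A.ι}
    {x : M} (hx : x ∈ (A.e i).source) : (γ.smul r).mat i x = (r : ℂ) • γ.mat i x := by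
  have hz := (A.e i).map_source hx
  exact Crest.Agent.R273.HessB_333.hess_const_mul r (γ.contDiffAt hz)

theorem trF_congr {M : Type} [TopologicalSpace M] {A : Atl n M}
    {s β β' : A.ι → M → Matrix (Fin n) (Fin n) ℂ} {x : M}
    (h : ∀ i, x ∈ (A.e i).source → β i x = β' i x) : trF s β x = trF s β' x := by
  unfold trF prF
  rw [h _ (Crest.Agent.R273.GreenM_5.mem_ci x)]

theorem trF_smul_right {M : Type} [TopologicalSpace M] {A : Atl n M} (r : ℝ)
    (s β : A.ι → M → Matrix (Fin n) (Fin n) ℂ) (x : M) :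
    trF s (fun i y => (r : ℂ) • β i y) x = r * trF s β x := by
  unfold trF prF
  rw [← Complex.re_ofReal_mul, Finset.mul_sum]
  congr 1
  refine Finset.sum_congr rfl fun a _ => ?_
  rw [Finset.mul_sum]
  refine Finset.sum_congr rfl fun b _ => ?_
  simp only [Matrix.smul_apply, smul_eq_mul]
  ring

theorem trF_smul {M : Type} [TopologicalSpace M] {A : Atl n M} (γ : Pot A) (r : ℝ)
    (s : A.ι → M → Matrix (Fin n) (Fin n) ℂ) (x : M) :
    trF s (γ.smul r).mat x = r * trF s γ.mat x := by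
  rw [← trF_smul_right]
  exact trF_congr fun i hx => mat_smul γ r hx

theorem trF_add {M : Type} [TopologicalSpace M] {A : Atl n M} (γ γ' : Pot A)
    (s : A.ι → M → Matrix (Fin n) (Fin n) ℂ) (x : M) :
    trF s (γ.add γ').mat x = trF s γ.mat x + trF s γ'.mat x := by
  rw [← trF_add_right]
  exact trF_congr fun i hx => Pot.mat_add γ γ' hx

theorem mat_fs : (Pot.ofHM (fs CA.projD)).mat = (fsKah CA.projD).g := rfl

theorem trF_form (t e : ℝ) (s : A.ι → XX I → Matrix (Fin n) (Fin n) ℂ) (x : XX I) :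
    trF s (((Pot.can (fsKah CA.projD)).smul t).add ((Pot.ofHM (fs CA.projD)).smul e)).mat x =
      t * trF s (Pot.can (fsKah CA.projD)).mat x + e * trF s (fsKah CA.projD).g x := by
  rw [trF_add, trF_smul, trF_smul, mat_fs]

theorem trF_form1 (e : ℝ) (s : A.ι → XX I → Matrix (Fin n) (Fin n) ℂ) (x : XX I) :
    trF s ((Pot.can (fsKah CA.projD)).add ((Pot.ofHM (fs CA.projD)).smul e)).mat x =
      trF s (Pot.can (fsKah CA.projD)).mat x + e * trF s (fsKah CA.projD).g x := by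
  rw [trF_add, trF_smul, mat_fs]

end Forms

/-! ### comparison principles on the atlas -/

section Comp

variable (CA : CAtl I A) [Finite A.ι] (P : Part A)

include CA P in
/-- an ambient function `u` with `dn u = f` -/
theorem exists_amb {f : XX I → ℝ} (hf : A.Sm f) : ∃ u : EE N → ℝ, SmX I u ∧ dn u = f ∧
    ∀ p (hp : p ∈ Cone I), u p = f (pt p hp) := by
  obtain ⟨u, h1, h2, h3⟩ := exists_up CA P hf
  refine ⟨u, ⟨h1, fun p _ c hc => h2 c hc p⟩, ?_, h3⟩
  funext x
  unfold dn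
  rw [h3 _ (lift_cone x), pt_lift]

theorem rpow_eq (x : ℝ) : x ^ ((n : ℝ)⁻¹) = x ^ ((1 : ℝ) / n) := by rw [one_div]

include P in
/-- (T) on the atlas -/
theorem comp_MA (hF : FldDict CA) {c₀ lam e : ℝ}
    (hT : ∀ a, PosField I n a → ∀ u, SmX I u →
      (∀ p ∈ Cone I, ∀ b : Fin n → EE N, Rep I a p b →
        ∑ i, (alpha I n p (b i) + e * omg p (b i) + lev u p (b i)) ≤
          (n * c₀ + lam * u p) * DD p b ^ ((n : ℝ)⁻¹)) → ∀ p ∈ Cone I, 0 ≤ u p)
    (s : Fld A) (hs : s ∈ PosS A) (f : XX I → ℝ) (hf : A.Sm f)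
    (h : ∀ x, trF s.1 ((Pot.can (fsKah CA.projD)).add ((Pot.ofHM (fs CA.projD)).smul e)).mat x +
      Lop s.1 f x ≤ (n * c₀ + lam * f x) * rtF (fsKah CA.projD) s.1 x) (x : XX I) : 0 ≤ f x := by
  obtain ⟨a, ha, hab⟩ := hF s hs
  obtain ⟨u, hu, hdn, hup⟩ := exists_amb CA P hf
  have h1 := hT a ha u hu (fun p hp b hb => by
    obtain ⟨e1, e2, e3, e4⟩ := hab p hp b hb
    have h2 := h (pt p hp)
    rw [trF_form1] at h2
    have e5 : ∑ i, (alpha I n p (b i) + e * omg p (b i) + lev u p (b i)) =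
        trF s.1 (Pot.can (fsKah CA.projD)).mat (pt p hp) + e * trF s.1 (fsKah CA.projD).g (pt p hp)
          + Lop s.1 f (pt p hp) := by
      rw [Finset.sum_add_distrib, Finset.sum_add_distrib, ← Finset.mul_sum, e2 u hu, e3, e4, hdn]
    rw [e5, hup p hp, e1, rpow_eq]
    exact h2) (lift x) (lift_cone x)
  rw [hup _ (lift_cone x), pt_lift] at h1
  exact h1

include P in
/-- `(T_δ)` on the atlas -/
theorem comp_Pos (hF : FldDict CA) {t δ C : ℝ}
    (hT : ∀ a, PosField I n a → ∀ u, SmX I u →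
      (∀ p ∈ Cone I, ∀ b : Fin n → EE N, Rep I a p b →
        ∑ i, (t * alpha I n p (b i) - δ * omg p (b i) + lev u p (b i)) ≤ u p) →
      ∀ p ∈ Cone I, -C ≤ u p)
    (s : Fld A) (hs : s ∈ PosS A) (m : ℝ) (hm : 0 < m) (f : XX I → ℝ) (hf : A.Sm f)
    (h : ∀ x, trF s.1 (((Pot.can (fsKah CA.projD)).smul t).add
      ((Pot.ofHM (fs CA.projD)).smul (-δ))).mat x + Lop s.1 f x ≤ m * f x) (x : XX I) :
    -C ≤ f x := by
  obtain ⟨a, ha, hab⟩ := hF (m⁻¹ • s) (PosS_smul (inv_pos.2 hm) hs)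
  obtain ⟨u, hu, hdn, hup⟩ := exists_amb CA P hf
  have h1 := hT a ha u hu (fun p hp b hb => by
    obtain ⟨-, e2, e3, e4⟩ := hab p hp b hb
    have h2 := h (pt p hp)
    rw [trF_form] at h2
    have k1 : (m⁻¹ • s : Fld A).1 = m⁻¹ • s.1 := rfl
    have e5 : ∑ i, (t * alpha I n p (b i) - δ * omg p (b i) + lev u p (b i)) =
        m⁻¹ * (t * trF s.1 (Pot.can (fsKah CA.projD)).mat (pt p hp) +
          -δ * trF s.1 (fsKah CA.projD).g (pt p hp) + Lop s.1 f (pt p hp)) := by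
      rw [Finset.sum_add_distrib, Finset.sum_sub_distrib, ← Finset.mul_sum, ← Finset.mul_sum,
        e2 u hu, e3, e4, hdn, k1]
      unfold Adj_851.Lop
      rw [trF_smul_left, trF_smul_left, trF_smul_left]
      ring
    rw [e5, hup p hp]
    have h3 := mul_le_mul_of_nonneg_left h2 (inv_pos.2 hm).le
    rwa [← mul_assoc m⁻¹ m, inv_mul_cancel₀ hm.ne', one_mul] at h3) (lift x) (lift_cone x)
  rw [hup _ (lift_cone x), pt_lift] at h1
  exact h1

end Comp

/-! ### the resolvent from its ambient form -/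

section Solv

variable (CA : CAtl I A) [Finite A.ι] (P : Part A)

include P in
theorem res_of_solv (hF : FldDict CA) (hS : SolvP I n) (s : Fld A) (hs : s ∈ PosS A)
    (ρ : XX I → ℝ) (hρ : A.Sm ρ) (hρ0 : ∀ x, 0 < ρ x) (h : XX I → ℝ) (hh : A.Sm h) (δ : ℝ)
    (hδ : 0 < δ) : ∃ u : XX I → ℝ, A.Sm u ∧ ∀ x, |ρ x * u x - Lop s.1 u x - h x| ≤ δ := by
  obtain ⟨a, ha, hab⟩ := hF s hs
  obtain ⟨ρ', hρ', -, hρp⟩ := exists_amb CA P hρ
  obtain ⟨h', hh', -, hhp⟩ := exists_amb CA P hh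
  obtain ⟨u, hu, hup⟩ := hS a ha ρ' hρ' (fun p hp => by rw [hρp p hp]; exact hρ0 _) h' hh' δ hδ
  refine ⟨dn u, dn_sm CA hu.1 fun c hc p hp => hu.2 p hp c hc, fun x => ?_⟩
  obtain ⟨b, hb, -⟩ := ha.rep (lift x) (lift_cone x)
  have h1 := hup (lift x) (lift_cone x) b hb
  obtain ⟨-, e2, -, -⟩ := hab (lift x) (lift_cone x) b hb
  rw [e2 u hu, hρp _ (lift_cone x), hhp _ (lift_cone x), pt_lift] at h1
  exact h1

include P in
theorem res1_of_solv (hF : FldDict CA) (hS : SolvP I n) : Res1 (fsKah CA.projD) := by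
  intro s hs lam hlam h hh δ hδ
  exact res_of_solv CA P hF hS s hs (fun x => lam * rtF (fsKah CA.projD) s.1 x)
    (Sm.cmul lam (sm_rtF _ hs)) (fun x => by
      obtain ⟨i, hi⟩ := A.cover x
      exact mul_pos hlam (rtF_pos _ s.2.tc hi (hs i x hi))) h hh δ hδ

include P in
theorem res2_of_solv (hF : FldDict CA) (hS : SolvP I n) : Res2 A := by
  intro s hs m hm h hh δ hδ
  exact res_of_solv CA P hF hS s hs (fun _ => m) (Sm.const m) (fun _ => hm) h hh δ hδ

end Solv

/-! ### the dual measures -/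

section Dual

variable [NeZero n] (CA : CAtl I A) [Finite A.ι] (P : Part A) [CompactSpace (XX I)]

include P

/-- **Part 8** -/
theorem dual_MA (hF : FldDict CA) (hR : Res1 (fsKah CA.projD)) {c₀ lam e : ℝ} (hc : 0 ≤ c₀)
    (hlam : 0 < lam)
    (hT : ∀ a, PosField I n a → ∀ u, SmX I u →
      (∀ p ∈ Cone I, ∀ b : Fin n → EE N, Rep I a p b →
        ∑ i, (alpha I n p (b i) + e * omg p (b i) + lev u p (b i)) ≤
          (n * c₀ + lam * u p) * DD p b ^ ((n : ℝ)⁻¹)) → ∀ p ∈ Cone I, 0 ≤ u p) :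
    ∃ μ : Measure (XX I), IsFiniteMeasure μ ∧
      Weak (fsKah CA.projD)
        ((Pot.can (fsKah CA.projD)).add ((Pot.ofHM (fs CA.projD)).smul e)) c₀ μ := by
  set K := fsKah CA.projD with hK
  set γ := (Pot.can K).add ((Pot.ofHM (fs CA.projD)).smul e) with hγ
  set pk := pack K P with hpk
  obtain ⟨μ, -, hfin, -, hμ⟩ := pk.exists_measure_MA
    (trC (Weak_411.mat_tn γ) (Weak_411.mat_smAt γ))
    (fun s _ => trC_mem (Weak_411.mat_tn γ) (Weak_411.mat_smAt γ) s)
    (lam := lam) (c := n * c₀) hlam (by positivity)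
    (fun s hs h hh δ hδ => by
      obtain ⟨u, hu, hux⟩ := hR s hs lam hlam (fun x => h x) hh δ hδ
      refine ⟨⟨u, smc hu⟩, hu, fun x => ?_⟩
      have h1 : pk.Lop s ⟨u, smc hu⟩ x = Lop s.1 u x := LopC_apply s (u := ⟨u, smc hu⟩) hu x
      rw [h1]
      exact hux x)
    (fun s hs u hu h x => by
      refine comp_MA CA P hF hT s hs (fun x => u x) hu (fun x => ?_) x
      have h1 : pk.Lop s u x = Lop s.1 (fun x => u x) x := LopC_apply s hu x
      rw [← h1]
      exact h x)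
  refine ⟨μ, hfin, Weak_411.weak_of_pos K P γ hc μ fun s hs => ?_⟩
  have h1 := hμ s hs
  have h2 : 0 ≤ lam * ∫ x, pk.rt s x ∂μ := by
    refine mul_nonneg hlam.le (integral_nonneg fun x => ?_)
    obtain ⟨i, hi⟩ := A.cover x
    exact (rtF_pos K s.2.tc hi (hs i x hi)).le
  refine le_trans ?_ h1
  exact le_add_of_nonneg_right h2

/-- **Part 12**, the measure -/
theorem dual_Pos (hF : FldDict CA) (hR : Res2 A) {t δ C : ℝ}
    (hT : ∀ a, PosField I n a → ∀ u, SmX I u →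
      (∀ p ∈ Cone I, ∀ b : Fin n → EE N, Rep I a p b →
        ∑ i, (t * alpha I n p (b i) - δ * omg p (b i) + lev u p (b i)) ≤ u p) →
      ∀ p ∈ Cone I, -C ≤ u p) :
    ∃ μ : Measure (XX I), IsFiniteMeasure μ ∧
      Weak (fsKah CA.projD) (((Pot.can (fsKah CA.projD)).smul t).add
        ((Pot.ofHM (fs CA.projD)).smul (-δ))) 0 μ := by
  set K := fsKah CA.projD with hK
  set γ := ((Pot.can K).smul t).add ((Pot.ofHM (fs CA.projD)).smul (-δ)) with hγ
  set pk := pack K P with hpk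
  obtain ⟨μ, -, hfin, -, hμ⟩ := pk.exists_measure_pos
    (trC (Weak_411.mat_tn γ) (Weak_411.mat_smAt γ))
    (fun s _ => trC_mem (Weak_411.mat_tn γ) (Weak_411.mat_smAt γ) s)
    (C3 := max C 0) (le_max_right _ _)
    (fun s hs m hm h hh δ hδ => by
      obtain ⟨u, hu, hux⟩ := hR s hs m hm (fun x => h x) hh δ hδ
      refine ⟨⟨u, smc hu⟩, hu, fun x => ?_⟩
      have h1 : pk.Lop s ⟨u, smc hu⟩ x = Lop s.1 u x := LopC_apply s (u := ⟨u, smc hu⟩) hu x
      rw [h1]
      exact hux x)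
    (fun s hs m hm u hu h x => by
      have h2 := comp_Pos CA P hF hT s hs m hm (fun x => u x) hu (fun x => by
        have h1 : pk.Lop s u x = Lop s.1 (fun x => u x) x := LopC_apply s hu x
        rw [← h1]
        exact h x) x
      exact le_trans (neg_le_neg (le_max_left _ _)) h2)
  refine ⟨μ, hfin, Weak_411.weak_of_pos K P γ le_rfl μ fun s hs => ?_⟩
  have h1 := hμ s hs
  simp only [mul_zero, zero_mul]
  exact h1

/-- **Parts 8 + 9** -/
theorem map_of_dual (hReg : RegStmt) (hI : I.IsPrime) (hX : IsSmoothProjective I n)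
    (hF : FldDict CA) (hR : Res1 (fsKah CA.projD)) (hT : TP I n) : MAP I n := by
  obtain ⟨c₀, hc₀, lam, hlam, hT⟩ := hT
  refine RegAmb_848.map_of_smooth CA P Alp_927.alphaFamStmt hI hX hc₀ fun s e hs he => ?_
  obtain ⟨μ, hμ, hW⟩ := dual_MA CA P hF hR hc₀.le hlam (hT s hs.le)
  exact hReg n (XX I) A ⟨P⟩ _ _ c₀ hc₀.le μ hW e he

/-- **Part 12** -/
theorem pos_of_dual (hReg : RegStmt) (hI : I.IsPrime) (hX : IsSmoothProjective I n)
    (hF : FldDict CA) (hR : Res2 A) (hT : TDelP I n) : PosP I n := by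
  obtain ⟨t, ht, δ, hδ, C, hT⟩ := hT
  obtain ⟨μ, hμ, hW⟩ := dual_Pos CA P hF hR hT
  obtain ⟨φ, hφ⟩ := hReg n (XX I) A ⟨P⟩ _ _ 0 le_rfl μ hW δ hδ
  exact RegAmb_848.pos_of_smooth CA P Alp_927.alphaFamStmt hI hX (by linarith) le_rfl hφ

end Dual

/-! ### the statements -/

/-- the field dictionary holds -/
theorem fldDict (CA : CAtl I A) [Finite A.ι] (P : Part A) (hI : I.IsPrime)
    (hX : IsSmoothProjective I n) : FldDict CA := by
  intro s hs
  obtain ⟨a, ha, h, -⟩ := DictE_886.F1_up CA P hI hX s.2 hs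
  exact ⟨a, ha, fun p hp b hb => ⟨(h p hp b hb).dd, (h p hp b hb).lev, (h p hp b hb).omg,
    (h p hp b hb).alpha⟩⟩

/-- the resolvent on compact Kaehler manifolds -/
def ResStmt : Prop := ∀ (n : ℕ) [NeZero n] (M : Type) [TopologicalSpace M] [T2Space M]
  [CompactSpace M] [MeasurableSpace M] [BorelSpace M] (A : Atl n M) [Finite A.ι],
  Nonempty (Part A) → ∀ K : Kah A, Res1 K ∧ Res2 A

/-- **Parts 8 + 9** of the blueprint -/
theorem maStmt (hReg : RegStmt) : MAStmt := by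
  intro N n I hI hX hn hT hS
  obtain ⟨X⟩ := AtlX_632.nonempty_atlX hI hX
  have := X.fin
  have : NeZero n := ⟨by omega⟩
  have := AtlX_632.compactSpace_XX hX
  have hD : FldDict X.CA := fldDict X.CA X.P hI hX
  exact map_of_dual X.CA X.P hReg hI hX hD (res1_of_solv X.CA X.P hD hS) hT

/-- **Part 12** of the blueprint -/
theorem posStmt (hReg : RegStmt) : PosStmt := by
  intro N n I hI hX hn hT hS
  obtain ⟨X⟩ := AtlX_632.nonempty_atlX hI hX
  have := X.fin
  have : NeZero n := ⟨by omega⟩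
  have := AtlX_632.compactSpace_XX hX
  have hD : FldDict X.CA := fldDict X.CA X.P hI hX
  exact pos_of_dual X.CA X.P hReg hI hX hD (res2_of_solv X.CA X.P hD hS) hT

/-- **Parts 7 + 8 + 9**, resolvent on the atlas -/
theorem maStmt2 (hReg : RegStmt) (hR : ResStmt) : Red2_58.MAStmt2 := by
  intro N n I hI hX hn hT
  obtain ⟨X⟩ := AtlX_632.nonempty_atlX hI hX
  have := X.fin
  have : NeZero n := ⟨by omega⟩
  have := AtlX_632.compactSpace_XX hX
  have hD : FldDict X.CA := fldDict X.CA X.P hI hX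
  exact map_of_dual X.CA X.P hReg hI hX hD (hR n (XX I) X.A ⟨X.P⟩ _).1 hT

/-- **Parts 7 + 12**, resolvent on the atlas -/
theorem posStmt2 (hReg : RegStmt) (hR : ResStmt) : Red2_58.PosStmt2 := by
  intro N n I hI hX hn hT
  obtain ⟨X⟩ := AtlX_632.nonempty_atlX hI hX
  have := X.fin
  have : NeZero n := ⟨by omega⟩
  have := AtlX_632.compactSpace_XX hX
  have hD : FldDict X.CA := fldDict X.CA X.P hI hX
  exact pos_of_dual X.CA X.P hReg hI hX hD (hR n (XX I) X.A ⟨X.P⟩ (fsKah X.CA.projD)).2 hT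

end

end Crest.Agent.R269.MAAsm_128
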