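import Mathlib

/-!
# STAT-LIFT (row 269, route #1368 step (2)): normalised lifts

`E` any complex normed space, `F : ℂ → E` holomorphic and nowhere zero on the unit disc.

* `exists_poly_re`: real continuous functions on `|z| = s` are uniformly approximated by real parts
  of polynomials `q` with `Im q(0) = 0`;
* `circleAverage_log_norm_mono`, `log_norm_zero_le`: `s ↦ avg_{|z|=s} log ‖F‖` is nondecreasing on `[0,1)`;
* `exists_normalizer`: if the averages are bounded above there is a holomorphic `φ` on the disc with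
  `log ‖F z‖ ≤ Re φ z`, `Im φ 0 = 0` and `avg_{|z|=s} log ‖F‖ → Re φ 0` as `s → 1⁻`
  (no least harmonic majorant, no Montel, no Hurwitz: Borel-Carathéodory + completeness);
* `exists_normalized_lift`: `H = exp(-φ) F` has `‖H‖ ≤ 1`, `H ≠ 0`, `avg_{|z|=s} log ‖H‖ → 0`;
* `ae_norm_eq_one`: if `H (s_j e^{iθ}) → H* θ` for a.e. `θ` along one sequence `s_j → 1⁻`, then `‖H*‖ = 1` a.e.
-/

open Complex Metric Real Set Filter Topology
open scoped Polynomial

namespace Crest.Agent.R269.NLift_371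

/-- The class of functions on the circle all of whose complex multiples have real part equal to the
real part of a polynomial in `z = s e^{iθ}`. -/
def RePoly (s : ℝ) (f : AddCircle (2 * π) → ℂ) : Prop :=
  ∀ c : ℂ, ∃ q : ℂ[X], ∀ θ : ℝ, (c * f (θ : AddCircle (2 * π))).re = (q.eval (circleMap 0 s θ)).re

lemma rePoly_fourier {s : ℝ} (hs : s ≠ 0) (n : ℤ) :
    RePoly s (fun x => fourier n x) := by
  intro c
  have hsc : (s : ℂ) ≠ 0 := by exact_mod_cast hs
  rcases le_total 0 n with hn | hn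
  · lift n to ℕ using hn
    refine ⟨Polynomial.C (c * ((s : ℂ) ^ n)⁻¹) * Polynomial.X ^ n, fun θ => ?_⟩
    congr 1
    simp only [Polynomial.eval_mul, Polynomial.eval_C, Polynomial.eval_pow, Polynomial.eval_X]
    rw [fourier_coe_apply, circleMap]
    have h2 : (2 * (π : ℂ) * I * ((n : ℤ) : ℂ) * (θ : ℂ) / ((2 * π : ℝ) : ℂ)) = n * (θ * I) := by
      have : (π : ℂ) ≠ 0 := by exact_mod_cast Real.pi_ne_zero
      push_cast
      field_simp
    rw [h2, Complex.exp_nat_mul, zero_add, mul_pow]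
    field_simp
  · obtain ⟨m, rfl⟩ : ∃ m : ℕ, n = -(m : ℤ) := ⟨n.natAbs, by omega⟩
    refine ⟨Polynomial.C (starRingEnd ℂ c * ((s : ℂ) ^ m)⁻¹) * Polynomial.X ^ m, fun θ => ?_⟩
    rw [← Complex.conj_re]
    congr 1
    simp only [Polynomial.eval_mul, Polynomial.eval_C, Polynomial.eval_pow, Polynomial.eval_X]
    rw [fourier_neg, map_mul, Complex.conj_conj, fourier_coe_apply, circleMap]
    have h2 : (2 * (π : ℂ) * I * ((m : ℤ) : ℂ) * (θ : ℂ) / ((2 * π : ℝ) : ℂ)) = m * (θ * I) := by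
      have : (π : ℂ) ≠ 0 := by exact_mod_cast Real.pi_ne_zero
      push_cast
      field_simp
    rw [h2, Complex.exp_nat_mul, zero_add, mul_pow]
    field_simp

lemma rePoly_span {s : ℝ} (hs : s ≠ 0) (f : C(AddCircle (2 * π), ℂ))
    (hf : f ∈ Submodule.span ℂ (Set.range (fourier (T := 2 * π)))) : RePoly s f := by
  induction hf using Submodule.span_induction with
  | mem x hx =>
    obtain ⟨n, rfl⟩ := hx
    exact rePoly_fourier hs n
  | zero =>
    intro c
    exact ⟨0, fun θ => by simp⟩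
  | add x y _ _ hx hy =>
    intro c
    obtain ⟨q, hq⟩ := hx c
    obtain ⟨r, hr⟩ := hy c
    refine ⟨q + r, fun θ => ?_⟩
    rw [Polynomial.eval_add, Complex.add_re, ← hq, ← hr, ContinuousMap.add_apply, mul_add,
      Complex.add_re]
  | smul a x _ hx =>
    intro c
    obtain ⟨q, hq⟩ := hx (c * a)
    refine ⟨q, fun θ => ?_⟩
    rw [← hq, ContinuousMap.smul_apply, smul_eq_mul, mul_assoc]

/-- Every real continuous function on the circle `|z| = s` is uniformly approximated by real parts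
of polynomials `q` with `Im q(0) = 0`. -/
theorem exists_poly_re {s : ℝ} (hs : 0 < s) {g : ℂ → ℝ} (hg : ContinuousOn g (sphere 0 s))
    {ε : ℝ} (hε : 0 < ε) :
    ∃ q : ℂ[X], (q.eval 0).im = 0 ∧ ∀ z ∈ sphere (0 : ℂ) s, |g z - (q.eval z).re| ≤ ε := by
  have : Fact (0 < 2 * π) := ⟨Real.two_pi_pos⟩
  have hcont : Continuous fun x : AddCircle (2 * π) =>
      ((g ((s : ℂ) * (AddCircle.toCircle x : ℂ)) : ℝ) : ℂ) := by
    refine Complex.continuous_ofReal.comp ?_
    refine hg.comp_continuous ?_ ?_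
    · exact continuous_const.mul (continuous_subtype_val.comp AddCircle.continuous_toCircle)
    · intro x
      rw [mem_sphere_zero_iff_norm, norm_mul, Circle.norm_coe, mul_one, Complex.norm_real, Real.norm_of_nonneg hs.le]
  set G : C(AddCircle (2 * π), ℂ) := ⟨_, hcont⟩ with hG
  have hmem : G ∈ (Submodule.span ℂ (Set.range (fourier (T := 2 * π)))).topologicalClosure := by
    rw [span_fourier_closure_eq_top]; trivial
  rw [← SetLike.mem_coe, Submodule.topologicalClosure_coe, Metric.mem_closure_iff] at hmem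
  obtain ⟨P, hP, hdist⟩ := hmem ε hε
  obtain ⟨q, hq⟩ := rePoly_span hs.ne' P hP 1
  refine ⟨q - Polynomial.C (((q.eval 0).im : ℂ) * I), ?_, ?_⟩
  · simp
  · intro z hz
    have hz' : z ∈ Set.range (circleMap 0 s) := by
      rw [range_circleMap, abs_of_pos hs]; exact hz
    obtain ⟨θ, rfl⟩ := hz'
    have h1 : (Polynomial.eval (circleMap 0 s θ) (q - Polynomial.C (((q.eval 0).im : ℂ) * I))).re
        = (P (θ : AddCircle (2 * π))).re := by
      rw [Polynomial.eval_sub, Polynomial.eval_C, Complex.sub_re, ← hq]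
      simp
    have h2 : G (θ : AddCircle (2 * π)) = ((g (circleMap 0 s θ) : ℝ) : ℂ) := by
      show ((g ((s : ℂ) * (AddCircle.toCircle (θ : AddCircle (2 * π)) : ℂ)) : ℝ) : ℂ) = _
      congr 2
      rw [AddCircle.toCircle_apply_mk, circleMap, zero_add, Circle.coe_exp]
      congr 2
      push_cast
      have : (π : ℂ) ≠ 0 := by exact_mod_cast Real.pi_ne_zero
      field_simp
    rw [h1]
    have h3 : dist (G (θ : AddCircle (2 * π))) (P (θ : AddCircle (2 * π))) < ε :=
      lt_of_le_of_lt (ContinuousMap.dist_apply_le_dist _) hdist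
    rw [dist_eq_norm, h2] at h3
    calc |g (circleMap 0 s θ) - (P (θ : AddCircle (2 * π))).re|
        = |(((g (circleMap 0 s θ) : ℝ) : ℂ) - P (θ : AddCircle (2 * π))).re| := by
          simp
      _ ≤ ‖((g (circleMap 0 s θ) : ℝ) : ℂ) - P (θ : AddCircle (2 * π))‖ := Complex.abs_re_le_norm _
      _ ≤ ε := h3.le

section main

variable {E : Type*} [NormedAddCommGroup E] [NormedSpace ℂ E]

lemma continuousOn_log_norm {F : ℂ → E} (hF : DifferentiableOn ℂ F (ball 0 1))
    (hF0 : ∀ z ∈ ball (0 : ℂ) 1, F z ≠ 0) : ContinuousOn (fun z => Real.log ‖F z‖) (ball 0 1) :=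
  ContinuousOn.log hF.continuousOn.norm fun z hz => norm_ne_zero_iff.2 (hF0 z hz)

lemma circleIntegrable_of_continuousOn {g : ℂ → ℝ} (hg : ContinuousOn g (ball 0 1)) {s : ℝ}
    (hs0 : 0 ≤ s) (hs : s < 1) : CircleIntegrable g 0 s := by
  refine ContinuousOn.circleIntegrable hs0 (hg.mono fun z hz => ?_)
  rw [mem_sphere_zero_iff_norm] at hz
  rw [mem_ball_zero_iff, hz]; exact hs

lemma circleAverage_re_poly (q : ℂ[X]) (s : ℝ) :
    circleAverage (fun z => (q.eval z).re) 0 s = (q.eval 0).re := by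
  have h1 : circleAverage (fun z => q.eval z) 0 s = q.eval 0 :=
    (q.differentiable.diffContOnCl).circleAverage
  have h2 := Complex.reCLM.circleAverage_comp_comm (f := fun z => q.eval z) (c := 0) (R := s)
    (q.continuous.continuousOn.circleIntegrable')
  rw [← h1]
  exact h2

/-- one radius -/
lemma exists_q {F : ℂ → E} (hF : DifferentiableOn ℂ F (ball 0 1))
    (hF0 : ∀ z ∈ ball (0 : ℂ) 1, F z ≠ 0) {s : ℝ} (hs0 : 0 < s) (hs : s < 1) {ε : ℝ}
    (hε : 0 < ε) :
    ∃ q : ℂ[X], (q.eval 0).im = 0 ∧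
      (∀ z ∈ closedBall (0 : ℂ) s, Real.log ‖F z‖ ≤ (q.eval z).re + ε) ∧
      (∀ z ∈ sphere (0 : ℂ) s, (q.eval z).re ≤ Real.log ‖F z‖ + ε) ∧
      |circleAverage (fun z => Real.log ‖F z‖) 0 s - (q.eval 0).re| ≤ ε := by
  have hsub : closedBall (0 : ℂ) s ⊆ ball 0 1 := closedBall_subset_ball hs
  have hcl := continuousOn_log_norm hF hF0
  obtain ⟨q, hq0, hq⟩ := exists_poly_re hs0 (g := fun z => Real.log ‖F z‖)
    (hcl.mono (sphere_subset_closedBall.trans hsub)) hε
  refine ⟨q, hq0, ?_, ?_, ?_⟩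
  · intro z hz
    have hd : DiffContOnCl ℂ (fun z => Complex.exp (-(q.eval z)) • F z) (ball 0 s) := by
      apply DifferentiableOn.diffContOnCl
      rw [closure_ball _ hs0.ne']
      exact ((q.differentiable.neg.cexp).differentiableOn).smul (hF.mono hsub)
    have hb : ∀ z ∈ frontier (ball (0 : ℂ) s), ‖Complex.exp (-(q.eval z)) • F z‖ ≤ Real.exp ε := by
      intro z hz
      rw [frontier_ball _ hs0.ne'] at hz
      have hz1 : z ∈ ball (0 : ℂ) 1 := hsub (sphere_subset_closedBall hz)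
      rw [norm_smul, Complex.norm_exp, ← Real.exp_log (norm_pos_iff.2 (hF0 z hz1)), ← Real.exp_add]
      apply Real.exp_le_exp.2
      have := (abs_le.1 (hq z hz)).2
      rw [Complex.neg_re]
      linarith
    have := Complex.norm_le_of_forall_mem_frontier_norm_le Metric.isBounded_ball hd hb
      (z := z) (by rw [closure_ball _ hs0.ne']; exact hz)
    rw [norm_smul, Complex.norm_exp, ← Real.exp_log (norm_pos_iff.2 (hF0 z (hsub hz))),
      ← Real.exp_add, Real.exp_le_exp, Complex.neg_re] at this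
    linarith
  · intro z hz
    have := (abs_le.1 (hq z hz)).1
    linarith
  · have hI1 : CircleIntegrable (fun z => Real.log ‖F z‖) 0 s :=
      circleIntegrable_of_continuousOn hcl hs0.le hs
    have hI2 : CircleIntegrable (fun z => (q.eval z).re) 0 s :=
      (Complex.continuous_re.comp q.continuous).continuousOn.circleIntegrable'
    rw [← circleAverage_re_poly q s, ← circleAverage_fun_sub hI1 hI2]
    refine abs_circleAverage_le_circleAverage_abs.trans ?_
    refine circleAverage_mono_on_of_le_circle ?_ ?_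
    · exact (hI1.sub hI2).abs
    · intro z hz
      rw [abs_of_pos hs0] at hz
      exact hq z hz

theorem circleAverage_log_norm_mono {F : ℂ → E} (hF : DifferentiableOn ℂ F (ball 0 1))
    (hF0 : ∀ z ∈ ball (0 : ℂ) 1, F z ≠ 0) {r s : ℝ} (hr0 : 0 ≤ r) (hrs : r ≤ s) (hs : s < 1) :
    circleAverage (fun z => Real.log ‖F z‖) 0 r ≤ circleAverage (fun z => Real.log ‖F z‖) 0 s := by
  rcases (hr0.trans hrs).eq_or_lt with h0 | hs0
  · have : r = s := by linarith
    rw [this]
  refine le_of_forall_pos_le_add fun ε hε => ?_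
  obtain ⟨q, -, hq1, -, hq3⟩ := exists_q hF hF0 hs0 hs (half_pos hε)
  have hcl := continuousOn_log_norm hF hF0
  have hI1 : CircleIntegrable (fun z => Real.log ‖F z‖) 0 r :=
    circleIntegrable_of_continuousOn hcl hr0 (hrs.trans_lt hs)
  have hI2 : CircleIntegrable (fun z => (q.eval z).re + ε / 2) 0 r :=
    ((Complex.continuous_re.comp q.continuous).add continuous_const).continuousOn.circleIntegrable'
  have h1 := circleAverage_mono hI1 hI2 (fun z hz => by
    rw [abs_of_nonneg hr0, mem_sphere_zero_iff_norm] at hz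
    exact hq1 z (by rw [mem_closedBall_zero_iff, hz]; exact hrs))
  have h2 : circleAverage (fun z => (q.eval z).re + ε / 2) 0 r = (q.eval 0).re + ε / 2 := by
    have hI3 : CircleIntegrable (fun z => (q.eval z).re) 0 r :=
      (Complex.continuous_re.comp q.continuous).continuousOn.circleIntegrable'
    have hI4 : CircleIntegrable (fun _ : ℂ => ε / 2) 0 r :=
      continuous_const.continuousOn.circleIntegrable'
    rw [circleAverage_fun_add hI3 hI4, circleAverage_re_poly, circleAverage_const]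
  rw [h2] at h1
  have := (abs_le.1 hq3).1
  linarith

lemma log_norm_zero_le {F : ℂ → E} (hF : DifferentiableOn ℂ F (ball 0 1))
    (hF0 : ∀ z ∈ ball (0 : ℂ) 1, F z ≠ 0) {s : ℝ} (hs0 : 0 ≤ s) (hs : s < 1) :
    Real.log ‖F 0‖ ≤ circleAverage (fun z => Real.log ‖F z‖) 0 s := by
  have := circleAverage_log_norm_mono hF hF0 le_rfl hs0 hs
  rwa [circleAverage_zero] at this

omit [NormedSpace ℂ E] in
/-- comparison of two approximants -/
lemma norm_sub_le {F : ℂ → E}
    {s s' : ℝ} (hs0 : 0 < s) (hss : s ≤ s') (hs1 : s < 1) {ε ε' : ℝ} (hε : 0 < ε)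
    (hε' : 0 < ε') {q q' : ℂ[X]} (hq0 : (q.eval 0).im = 0) (hq0' : (q'.eval 0).im = 0)
    (hq : ∀ z ∈ sphere (0 : ℂ) s, (q.eval z).re ≤ Real.log ‖F z‖ + ε)
    (hq' : ∀ z ∈ closedBall (0 : ℂ) s', Real.log ‖F z‖ ≤ (q'.eval z).re + ε')
    {δ : ℝ} (hδ : |(q.eval 0).re - (q'.eval 0).re| ≤ δ) {R : ℝ} (hRs : R < s)
    {z : ℂ} (hz : z ∈ closedBall (0 : ℂ) R) :
    ‖q.eval z - q'.eval z‖ ≤ (2 * (ε + ε') + 2 * δ) / (s - R) := by
  have hR0 : 0 ≤ R := by
    rw [mem_closedBall_zero_iff] at hz; exact (norm_nonneg z).trans hz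
  have hd : DiffContOnCl ℂ (fun z => Complex.exp (q.eval z - q'.eval z)) (ball 0 s) :=
    ((q.differentiable.sub q'.differentiable).cexp).diffContOnCl
  have hb : ∀ z ∈ frontier (ball (0 : ℂ) s),
      ‖Complex.exp (q.eval z - q'.eval z)‖ ≤ Real.exp (ε + ε') := by
    intro z hz
    rw [frontier_ball _ hs0.ne'] at hz
    rw [Complex.norm_exp, Real.exp_le_exp, Complex.sub_re]
    have h1 := hq z hz
    have h2 := hq' z (closedBall_subset_closedBall hss (sphere_subset_closedBall hz))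
    linarith
  have hmt : MapsTo (fun z => q.eval z - q'.eval z) (ball 0 s) {z | z.re ≤ ε + ε'} := by
    intro z hz
    have := Complex.norm_le_of_forall_mem_frontier_norm_le Metric.isBounded_ball hd hb
      (z := z) (subset_closure hz)
    rw [Complex.norm_exp, Real.exp_le_exp] at this
    exact this
  have hzn : ‖z‖ ≤ R := by rwa [mem_closedBall_zero_iff] at hz
  have hBC := Complex.borelCaratheodory (M := ε + ε') (R := s) (z := z) (by positivity)
    ((q.differentiable.sub q'.differentiable).differentiableOn) hmt hs0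
    (by rw [mem_ball_zero_iff]; linarith)
  have h0 : ‖q.eval 0 - q'.eval 0‖ ≤ δ := by
    have : q.eval 0 - q'.eval 0 = (((q.eval 0).re - (q'.eval 0).re : ℝ) : ℂ) := by
      apply Complex.ext
      · simp
      · simp [hq0, hq0']
    rw [this, Complex.norm_real]
    exact hδ
  have hδ0 : 0 ≤ δ := (abs_nonneg _).trans hδ
  refine hBC.trans ?_
  have hzs : 0 < s - ‖z‖ := by linarith
  rw [← add_div]
  have hnum : 2 * (ε + ε') * ‖z‖ + ‖q.eval 0 - q'.eval 0‖ * (s + ‖z‖) ≤ 2 * (ε + ε') + 2 * δ := by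
    have h1 : ‖z‖ ≤ 1 := by linarith
    have h2 : s + ‖z‖ ≤ 2 := by linarith
    have h3 : 2 * (ε + ε') * ‖z‖ ≤ 2 * (ε + ε') * 1 :=
      mul_le_mul_of_nonneg_left h1 (by positivity)
    have h4 : ‖q.eval 0 - q'.eval 0‖ * (s + ‖z‖) ≤ δ * 2 :=
      mul_le_mul h0 h2 (by positivity) hδ0
    linarith
  have hsR : 0 < s - R := by linarith
  refine (div_le_div_of_nonneg_right hnum hzs.le).trans ?_
  exact div_le_div_of_nonneg_left (by positivity) hsR (by linarith)

/-- **Normalised lift.** -/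
theorem exists_normalizer {F : ℂ → E} (hF : DifferentiableOn ℂ F (ball 0 1))
    (hF0 : ∀ z ∈ ball (0 : ℂ) 1, F z ≠ 0) {C : ℝ}
    (hC : ∀ s : ℝ, 0 < s → s < 1 → circleAverage (fun z => Real.log ‖F z‖) 0 s ≤ C) :
    ∃ φ : ℂ → ℂ, DifferentiableOn ℂ φ (ball 0 1) ∧ (φ 0).im = 0 ∧
      (∀ z ∈ ball (0 : ℂ) 1, Real.log ‖F z‖ ≤ (φ z).re) ∧
      Tendsto (fun s => circleAverage (fun z => Real.log ‖F z‖) 0 s) (𝓝[<] 1) (𝓝 (φ 0).re) := by
  set L : ℝ → ℝ := fun s => circleAverage (fun z => Real.log ‖F z‖) 0 s with hL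
  have hmono : ∀ r s, 0 ≤ r → r ≤ s → s < 1 → L r ≤ L s := fun r s h1 h2 h3 =>
    circleAverage_log_norm_mono hF hF0 h1 h2 h3
  set S : ℕ → ℝ := fun n => 1 - 1 / ((n : ℝ) + 2) with hS
  set e : ℕ → ℝ := fun n => 1 / ((n : ℝ) + 1) with he
  have he0 : ∀ n, 0 < e n := fun n => by positivity
  have hetend : Tendsto e atTop (𝓝 0) := tendsto_one_div_add_atTop_nhds_zero_nat
  have hS0 : ∀ n, 0 < S n := fun n => by
    have : (1 : ℝ) / ((n : ℝ) + 2) < 1 := by
      rw [div_lt_one (by positivity)]; linarith [(Nat.cast_nonneg n : (0 : ℝ) ≤ n)]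
    simp only [hS]; linarith
  have hS1 : ∀ n, S n < 1 := fun n => by
    have : (0 : ℝ) < 1 / ((n : ℝ) + 2) := by positivity
    simp only [hS]; linarith
  have hSmono : Monotone S := by
    intro m n hmn
    simp only [hS]
    have : (1 : ℝ) / ((n : ℝ) + 2) ≤ 1 / ((m : ℝ) + 2) :=
      one_div_le_one_div_of_le (by positivity) (by
        have : (m : ℝ) ≤ n := by exact_mod_cast hmn
        linarith)
    linarith
  have hStend : Tendsto S atTop (𝓝 1) := by
    have h1 : Tendsto (fun n : ℕ => 1 / ((n : ℝ) + 2)) atTop (𝓝 0) := by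
      have := (tendsto_const_div_atTop_nhds_zero_nat (1 : ℝ)).comp (tendsto_add_atTop_nat 2)
      refine this.congr fun n => ?_
      simp
    simpa [hS] using (tendsto_const_nhds (x := (1 : ℝ))).sub h1
  choose q hq0 hq1 hq2 hq3 using fun n => exists_q hF hF0 (hS0 n) (hS1 n) (he0 n)
  -- the averages converge
  have hLmono : Monotone fun n => L (S n) := fun m n hmn =>
    hmono _ _ (hS0 m).le (hSmono hmn) (hS1 n)
  have hLbdd : BddAbove (Set.range fun n => L (S n)) :=
    ⟨C, by rintro _ ⟨n, rfl⟩; exact hC _ (hS0 n) (hS1 n)⟩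
  have hLtend : Tendsto (fun n => L (S n)) atTop (𝓝 (⨆ n, L (S n))) :=
    tendsto_atTop_ciSup hLmono hLbdd
  set ℓ : ℝ := ⨆ n, L (S n) with hℓ
  have hqtend : Tendsto (fun n => ((q n).eval 0).re) atTop (𝓝 ℓ) := by
    have h1 : Tendsto (fun n => L (S n) - ((q n).eval 0).re) atTop (𝓝 0) := by
      refine squeeze_zero_norm (fun n => ?_) hetend
      rw [Real.norm_eq_abs]; exact hq3 n
    have h2 := hLtend.sub h1
    simpa using h2
  -- uniform Cauchy on closed balls
  have hUC : ∀ R : ℝ, R < 1 → UniformCauchySeqOn (fun n z => (q n).eval z) atTop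
      (closedBall (0 : ℂ) R) := by
    intro R hR
    rw [Metric.uniformCauchySeqOn_iff]
    intro δ hδ
    -- choose R' between
    obtain ⟨R', hRR', hR'1⟩ := exists_between hR
    have hc : 0 < R' - R := by linarith
    have hev : ∀ᶠ n in atTop, R' < S n := hStend.eventually (lt_mem_nhds hR'1)
    obtain ⟨N1, hN1⟩ := eventually_atTop.1 hev
    have hcs : CauchySeq fun n => ((q n).eval 0).re := hqtend.cauchySeq
    obtain ⟨N2, hN2⟩ := Metric.cauchySeq_iff.1 hcs (δ * (R' - R) / 8) (by positivity)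
    obtain ⟨N3, hN3⟩ := eventually_atTop.1
      (hetend.eventually (gt_mem_nhds (show (0 : ℝ) < δ * (R' - R) / 8 by positivity)))
    have key : ∀ m n, max (max N1 N2) N3 ≤ m → m ≤ n → ∀ z ∈ closedBall (0 : ℂ) R,
        ‖(q m).eval z - (q n).eval z‖ < δ := by
      intro m n hm hmn z hz
      have hm1 : N1 ≤ m := (le_max_left _ _).trans ((le_max_left _ _).trans hm)
      have hm2 : N2 ≤ m := (le_max_right _ _).trans ((le_max_left _ _).trans hm)
      have hm3 : N3 ≤ m := (le_max_right _ _).trans hm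
      have hSm : R' < S m := hN1 m hm1
      have hRm : R < S m := hRR'.trans hSm
      have hem : e m < δ * (R' - R) / 8 := hN3 m hm3
      have hen : e n < δ * (R' - R) / 8 := hN3 n (hm3.trans hmn)
      have hd := hN2 m hm2 n (hm2.trans hmn)
      rw [Real.dist_eq] at hd
      have h1 := norm_sub_le (hS0 m) (hSmono hmn) (hS1 m) (he0 m) (he0 n) (hq0 m) (hq0 n)
        (hq2 m) (hq1 n) hd.le hRm hz
      refine h1.trans_lt ?_
      rw [div_lt_iff₀ (by linarith)]
      have h2 : δ * (R' - R) ≤ δ * (S m - R) := mul_le_mul_of_nonneg_left (by linarith) hδ.le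
      nlinarith
    refine ⟨max (max N1 N2) N3, fun m hm n hn z hz => ?_⟩
    rw [dist_eq_norm]
    rcases le_total m n with h | h
    · exact key m n hm h z hz
    · rw [norm_sub_rev]; exact key n m hn h z hz
  have hptCauchy : ∀ z ∈ ball (0 : ℂ) 1, ∃ w : ℂ, Tendsto (fun n => (q n).eval z) atTop (𝓝 w) := by
    intro z hz
    rw [mem_ball_zero_iff] at hz
    have := (hUC ‖z‖ hz).cauchySeq (x := z) (by rw [mem_closedBall_zero_iff])
    exact cauchySeq_tendsto_of_complete this
  choose! φ hφ using hptCauchy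
  have hTU : ∀ R : ℝ, R < 1 → TendstoUniformlyOn (fun n z => (q n).eval z) φ atTop
      (closedBall (0 : ℂ) R) := fun R hR =>
    (hUC R hR).tendstoUniformlyOn_of_tendsto fun z hz =>
      hφ z (closedBall_subset_ball hR hz)
  have hTLU : TendstoLocallyUniformlyOn (fun n z => (q n).eval z) φ atTop (ball (0 : ℂ) 1) := by
    rw [tendstoLocallyUniformlyOn_iff_forall_isCompact isOpen_ball]
    intro K hK hKc
    obtain ⟨R, hR, hKR⟩ : ∃ R : ℝ, R < 1 ∧ K ⊆ closedBall 0 R := by
      rcases K.eq_empty_or_nonempty with rfl | hne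
      · exact ⟨0, one_pos, empty_subset _⟩
      obtain ⟨z0, hz0, hmax⟩ := hKc.exists_isMaxOn hne continuous_norm.continuousOn
      exact ⟨‖z0‖, by simpa using hK hz0, fun z hz => by
        rw [mem_closedBall_zero_iff]; exact hmax hz⟩
    exact (hTU R hR).mono hKR
  refine ⟨φ, hTLU.differentiableOn (Eventually.of_forall fun n =>
    (q n).differentiable.differentiableOn) isOpen_ball, ?_, ?_, ?_⟩
  · have h1 := (Complex.continuous_im.tendsto _).comp (hφ 0 (mem_ball_self one_pos))
    have h2 : Tendsto (fun n => ((q n).eval 0).im) atTop (𝓝 0) := by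
      simp only [hq0]; exact tendsto_const_nhds
    exact tendsto_nhds_unique h1 h2
  · intro z hz
    have h1 := ((Complex.continuous_re.tendsto _).comp (hφ z hz)).add hetend
    rw [add_zero] at h1
    refine ge_of_tendsto h1 ?_
    have hev : ∀ᶠ n in atTop, ‖z‖ < S n :=
      hStend.eventually (lt_mem_nhds (by simpa using hz))
    filter_upwards [hev] with n hn
    exact hq1 n z (by rw [mem_closedBall_zero_iff]; exact hn.le)
  · have hφ0 : (φ 0).re = ℓ :=
      tendsto_nhds_unique ((Complex.continuous_re.tendsto _).comp (hφ 0 (mem_ball_self one_pos)))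
        hqtend
    rw [hφ0]
    have hle : ∀ s, 0 ≤ s → s < 1 → L s ≤ ℓ := by
      intro s hs0 hs1
      obtain ⟨n, hn⟩ := (hStend.eventually (lt_mem_nhds hs1)).exists
      exact (hmono s (S n) hs0 hn.le (hS1 n)).trans (le_ciSup hLbdd n)
    rw [tendsto_order]
    constructor
    · intro a ha
      obtain ⟨n, hn⟩ := (hLtend.eventually (lt_mem_nhds ha)).exists
      filter_upwards [Ioo_mem_nhdsLT (hS1 n)] with s hs
      exact hn.trans_le (hmono _ _ (hS0 n).le hs.1.le hs.2)
    · intro a ha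
      filter_upwards [Ioo_mem_nhdsLT (show (0 : ℝ) < 1 from one_pos)] with s hs
      exact (hle s hs.1.le hs.2).trans_lt ha

/-- **Normalised lift**, second form. -/
theorem exists_normalized_lift {F : ℂ → E} (hF : DifferentiableOn ℂ F (ball 0 1))
    (hF0 : ∀ z ∈ ball (0 : ℂ) 1, F z ≠ 0) {C : ℝ}
    (hC : ∀ s : ℝ, 0 < s → s < 1 → circleAverage (fun z => Real.log ‖F z‖) 0 s ≤ C) :
    ∃ φ : ℂ → ℂ, DifferentiableOn ℂ φ (ball 0 1) ∧ (φ 0).im = 0 ∧
      DifferentiableOn ℂ (fun z => Complex.exp (-φ z) • F z) (ball 0 1) ∧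
      (∀ z ∈ ball (0 : ℂ) 1, Complex.exp (-φ z) • F z ≠ 0) ∧
      (∀ z ∈ ball (0 : ℂ) 1, ‖Complex.exp (-φ z) • F z‖ ≤ 1) ∧
      (∀ z ∈ ball (0 : ℂ) 1,
        Real.log ‖Complex.exp (-φ z) • F z‖ = Real.log ‖F z‖ - (φ z).re) ∧
      Tendsto (fun s => circleAverage (fun z => Real.log ‖F z‖) 0 s) (𝓝[<] 1) (𝓝 (φ 0).re) ∧
      Tendsto (fun s => circleAverage (fun z => Real.log ‖Complex.exp (-φ z) • F z‖) 0 s)
        (𝓝[<] 1) (𝓝 0) := by
  obtain ⟨φ, hφ, hφ0, hle, hlim⟩ := exists_normalizer hF hF0 hC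
  have hlog : ∀ z ∈ ball (0 : ℂ) 1,
      Real.log ‖Complex.exp (-φ z) • F z‖ = Real.log ‖F z‖ - (φ z).re := by
    intro z hz
    rw [norm_smul, Real.log_mul (norm_ne_zero_iff.2 (Complex.exp_ne_zero _))
      (norm_ne_zero_iff.2 (hF0 z hz)), Complex.norm_exp, Real.log_exp, Complex.neg_re]
    ring
  refine ⟨φ, hφ, hφ0, (hφ.neg.cexp).smul hF, fun z hz => smul_ne_zero (Complex.exp_ne_zero _)
    (hF0 z hz), fun z hz => ?_, hlog, hlim, ?_⟩
  · have h1 : Real.log ‖Complex.exp (-φ z) • F z‖ ≤ 0 := by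
      rw [hlog z hz]; linarith [hle z hz]
    have h2 : 0 < ‖Complex.exp (-φ z) • F z‖ :=
      norm_pos_iff.2 (smul_ne_zero (Complex.exp_ne_zero _) (hF0 z hz))
    rwa [Real.log_nonpos_iff h2.le] at h1
  · have h1 : Tendsto (fun s => circleAverage (fun z => Real.log ‖F z‖) 0 s - (φ 0).re) (𝓝[<] 1)
        (𝓝 0) := by
      simpa using hlim.sub_const (φ 0).re
    refine h1.congr' ?_
    filter_upwards [Ioo_mem_nhdsLT (show (0 : ℝ) < 1 from one_pos)] with s hs
    have hsub : closedBall (0 : ℂ) s ⊆ ball 0 1 := closedBall_subset_ball hs.2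
    have hI1 : CircleIntegrable (fun z => Real.log ‖F z‖) 0 s :=
      circleIntegrable_of_continuousOn (continuousOn_log_norm hF hF0) hs.1.le hs.2
    have hI2 : CircleIntegrable (fun z => (φ z).re) 0 s :=
      circleIntegrable_of_continuousOn (Complex.continuous_re.comp_continuousOn hφ.continuousOn)
        hs.1.le hs.2
    have hI3 : CircleIntegrable φ 0 s :=
      (hφ.continuousOn.mono (sphere_subset_closedBall.trans hsub)).circleIntegrable hs.1.le
    have h2 : circleAverage φ 0 s = φ 0 := by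
      apply DiffContOnCl.circleAverage
      rw [abs_of_pos hs.1]
      apply DifferentiableOn.diffContOnCl
      rw [closure_ball _ hs.1.ne']
      exact hφ.mono hsub
    have h3 : circleAverage (fun z => (φ z).re) 0 s = (φ 0).re := by
      have := Complex.reCLM.circleAverage_comp_comm (f := φ) (c := 0) (R := s) hI3
      rw [← h2]; exact this
    rw [← h3, ← circleAverage_fun_sub hI1 hI2]
    apply circleAverage_congr_sphere
    intro z hz
    rw [abs_of_pos hs.1] at hz
    exact (hlog z (hsub (sphere_subset_closedBall hz))).symm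

omit [NormedSpace ℂ E] in
/-- The radial limits of a normalised lift have norm one a.e. -/
theorem ae_norm_eq_one {H : ℂ → E} (hH : ContinuousOn H (ball 0 1))
    (hH0 : ∀ z ∈ ball (0 : ℂ) 1, H z ≠ 0) (hH1 : ∀ z ∈ ball (0 : ℂ) 1, ‖H z‖ ≤ 1)
    {u : ℕ → ℝ} (hu0 : ∀ n, 0 ≤ u n) (hu1 : ∀ n, u n < 1)
    (hlim : Tendsto (fun n => circleAverage (fun z => Real.log ‖H z‖) 0 (u n)) atTop (𝓝 0))
    {Hs : ℝ → E}
    (hHs : ∀ᵐ θ ∂(MeasureTheory.volume.restrict (Ioc 0 (2 * π))),
      Tendsto (fun n => H (circleMap 0 (u n) θ)) atTop (𝓝 (Hs θ))) :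
    ∀ᵐ θ ∂(MeasureTheory.volume.restrict (Ioc 0 (2 * π))), ‖Hs θ‖ = 1 := by
  set μ := MeasureTheory.volume.restrict (Ioc (0 : ℝ) (2 * π)) with hμ
  have hmem : ∀ n θ, circleMap 0 (u n) θ ∈ ball (0 : ℂ) 1 := fun n θ => by
    rw [mem_ball_zero_iff, norm_circleMap_zero, abs_of_nonneg (hu0 n)]; exact hu1 n
  have hcont : ∀ n, Continuous fun θ => H (circleMap 0 (u n) θ) := fun n =>
    hH.comp_continuous (continuous_circleMap 0 (u n)) (hmem n)
  have hcl : ∀ n, Continuous fun θ => Real.log ‖H (circleMap 0 (u n) θ)‖ := fun n =>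
    (hcont n).norm.log fun θ => norm_ne_zero_iff.2 (hH0 _ (hmem n θ))
  -- the integrals of `1 - ‖H‖`
  have hint : ∀ n, ∫ θ, (1 - ‖H (circleMap 0 (u n) θ)‖) ∂μ ≤
      - (2 * π * circleAverage (fun z => Real.log ‖H z‖) 0 (u n)) := by
    intro n
    have h1 : (2 * π * circleAverage (fun z => Real.log ‖H z‖) 0 (u n)) =
        ∫ θ, Real.log ‖H (circleMap 0 (u n) θ)‖ ∂μ := by
      rw [circleAverage_def, smul_eq_mul, ← mul_assoc, mul_inv_cancel₀ (by positivity), one_mul,
        intervalIntegral.integral_of_le (by positivity)]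
    rw [h1, ← MeasureTheory.integral_neg]
    refine MeasureTheory.integral_mono ?_ ?_ fun θ => ?_
    · exact ((continuous_const.sub (hcont n).norm).intervalIntegrable 0 (2 * π)).1
    · exact ((hcl n).neg.intervalIntegrable 0 (2 * π)).1
    · have h2 : 0 < ‖H (circleMap 0 (u n) θ)‖ := norm_pos_iff.2 (hH0 _ (hmem n θ))
      have := Real.log_le_sub_one_of_pos h2
      show 1 - ‖H (circleMap 0 (u n) θ)‖ ≤ - Real.log ‖H (circleMap 0 (u n) θ)‖
      linarith
  have hint0 : Tendsto (fun n => ∫ θ, (1 - ‖H (circleMap 0 (u n) θ)‖) ∂μ) atTop (𝓝 0) := by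
    refine squeeze_zero (fun n => ?_) hint ?_
    · exact MeasureTheory.integral_nonneg fun θ => sub_nonneg.2 (hH1 _ (hmem n θ))
    · have := (hlim.const_mul (2 * π)).neg
      simpa using this
  -- dominated convergence
  have hdom : Tendsto (fun n => ∫ θ, (1 - ‖H (circleMap 0 (u n) θ)‖) ∂μ) atTop
      (𝓝 (∫ θ, (1 - ‖Hs θ‖) ∂μ)) := by
    refine MeasureTheory.tendsto_integral_of_dominated_convergence (fun _ => (1 : ℝ)) ?_ ?_ ?_ ?_
    · exact fun n => (continuous_const.sub (hcont n).norm).aestronglyMeasurable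
    · exact MeasureTheory.integrable_const _
    · intro n
      refine Eventually.of_forall fun θ => ?_
      rw [Real.norm_of_nonneg (sub_nonneg.2 (hH1 _ (hmem n θ)))]
      linarith [norm_nonneg (H (circleMap 0 (u n) θ))]
    · filter_upwards [hHs] with θ hθ
      exact tendsto_const_nhds.sub hθ.norm
  have hzero : ∫ θ, (1 - ‖Hs θ‖) ∂μ = 0 := tendsto_nhds_unique hdom hint0
  have hnn : 0 ≤ᵐ[μ] fun θ => 1 - ‖Hs θ‖ := by
    filter_upwards [hHs] with θ hθ
    have : ‖Hs θ‖ ≤ 1 := le_of_tendsto hθ.norm (Eventually.of_forall fun n => hH1 _ (hmem n θ))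
    exact sub_nonneg.2 this
  have hint1 : MeasureTheory.Integrable (fun θ => 1 - ‖Hs θ‖) μ := by
    refine MeasureTheory.Integrable.mono' (MeasureTheory.integrable_const (1 : ℝ)) ?_ ?_
    · have hsm : MeasureTheory.AEStronglyMeasurable (fun θ => ‖Hs θ‖) μ :=
        aestronglyMeasurable_of_tendsto_ae atTop (fun n => (hcont n).norm.aestronglyMeasurable)
          (by filter_upwards [hHs] with θ hθ using hθ.norm)
      exact MeasureTheory.aestronglyMeasurable_const.sub hsm
    · filter_upwards [hnn] with θ hθ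
      rw [Real.norm_of_nonneg hθ]
      linarith [norm_nonneg (Hs θ)]
  have := (MeasureTheory.integral_eq_zero_iff_of_nonneg_ae hnn hint1).1 hzero
  filter_upwards [this] with θ hθ
  have h3 : 1 - ‖Hs θ‖ = 0 := hθ
  linarith

end main

end Crest.Agent.R269.NLift_371
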