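import Crest.Agent.R269.Peak6_976

/-!
# R269, P10-PEAK-ASM (helper976), part 1: linear algebra

`det_lower` : the linear form of the Monge-Ampère inequality gives positivity and the determinant
bound.
-/

set_option autoImplicit false

open Matrix Finset

noncomputable section

namespace Crest.Agent.R269.PAsm1_976

open Crest.Agent.R276.LM3_976

variable {n : ℕ}

lemma hq_eigen {P : Matrix (Fin n) (Fin n) ℂ} (hP : P.IsHermitian) (i : Fin n) (s : ℝ) :
    hq P ((s : ℂ) • (WithLp.ofLp (hP.eigenvectorBasis i))) = s ^ 2 * hP.eigenvalues i := by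
  have h1 := hP.mulVec_eigenvectorBasis i
  have h2 : star (WithLp.ofLp (hP.eigenvectorBasis i)) ⬝ᵥ (WithLp.ofLp (hP.eigenvectorBasis i)) =
      (1 : ℂ) := by
    have h3 : inner ℂ (hP.eigenvectorBasis i) (hP.eigenvectorBasis i) = (1 : ℂ) := by
      rw [inner_self_eq_norm_sq_to_K, hP.eigenvectorBasis.norm_eq_one]
      simp
    rw [EuclideanSpace.inner_eq_star_dotProduct] at h3
    rw [dotProduct_comm]
    exact h3
  rw [hq_smul]
  unfold hq
  rw [h1, dotProduct_smul, h2]
  simp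

lemma det_rows {P : Matrix (Fin n) (Fin n) ℂ} (hP : P.IsHermitian) (t : Fin n → ℝ)
    (ht : ∀ i, 0 ≤ t i) :
    ‖(Matrix.of fun i => ((t i : ℂ) • (WithLp.ofLp (hP.eigenvectorBasis i)))).det‖ = ∏ i, t i := by
  have h1 : (Matrix.of fun i => ((t i : ℂ) • (WithLp.ofLp (hP.eigenvectorBasis i)))) =
      Matrix.diagonal (fun i => (t i : ℂ)) * (hP.eigenvectorUnitary : Matrix (Fin n) (Fin n) ℂ)ᵀ := by
    ext i j
    rw [diagonal_mul]
    simp [Matrix.IsHermitian.eigenvectorUnitary_apply]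
  have h2 : ‖(hP.eigenvectorUnitary : Matrix (Fin n) (Fin n) ℂ).det‖ = 1 := by
    have h3 := Matrix.det_of_mem_unitary hP.eigenvectorUnitary.2
    exact CStarRing.norm_of_mem_unitary h3
  rw [h1, det_mul, det_diagonal, det_transpose, norm_mul, h2, mul_one, norm_prod]
  exact prod_congr rfl fun i _ => by rw [Complex.norm_real, Real.norm_of_nonneg (ht i)]

/-- the linear Monge-Ampère inequality, `P` Hermitian -/
theorem det_lower (hn : 0 < n) {P : Matrix (Fin n) (Fin n) ℂ} (hP : P.IsHermitian) {c g : ℝ}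
    (hc : 0 < c) (hg : 0 < g)
    (h : ∀ w : Fin n → Fin n → ℂ,
      n * c * (‖(Matrix.of w).det‖ ^ 2 * g) ^ ((n : ℝ)⁻¹) ≤ ∑ i, hq P (w i)) :
    (∀ i, 0 < hP.eigenvalues i) ∧ c ^ n * g ≤ P.det.re := by
  have hnr : (0 : ℝ) < n := by exact_mod_cast hn
  -- the scalar inequality
  have key : ∀ s : Fin n → ℝ, (∀ i, 0 ≤ s i) →
      n * c * ((∏ i, s i) * g) ^ ((n : ℝ)⁻¹) ≤ ∑ i, s i * hP.eigenvalues i := by
    intro s hs
    have h1 := h fun i => (((Real.sqrt (s i) : ℝ) : ℂ) • (WithLp.ofLp (hP.eigenvectorBasis i)))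
    rw [det_rows hP (fun i => Real.sqrt (s i)) fun i => Real.sqrt_nonneg _] at h1
    simp only [hq_eigen, Real.sq_sqrt (hs _)] at h1
    rw [← prod_pow] at h1
    simp only [Real.sq_sqrt (hs _)] at h1
    exact h1
  have hpos : ∀ j, 0 < hP.eigenvalues j := by
    intro j
    by_contra hj
    push Not at hj
    set K := ∑ i, |hP.eigenvalues i| with hK
    have hK0 : 0 ≤ K := sum_nonneg fun i _ => abs_nonneg _
    -- large multiple in the direction `j`
    set T := ((K + 1) / (n * c)) ^ n / g with hT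
    have hT0 : 0 < T := by positivity
    have h1 := key (Function.update (fun _ => (1 : ℝ)) j T) (by
      intro i
      by_cases hi : i = j
      · subst hi; simp [hT0.le]
      · simp [hi])
    have h2 : ∏ i, Function.update (fun _ => (1 : ℝ)) j T i = T := by
      rw [prod_update_of_mem (mem_univ j)]
      simp
    rw [h2] at h1
    have h3 : n * c * (T * g) ^ ((n : ℝ)⁻¹) = K + 1 := by
      rw [hT, div_mul_cancel₀ _ hg.ne', ← Real.rpow_natCast, ← Real.rpow_mul (by positivity),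
        mul_inv_cancel₀ hnr.ne', Real.rpow_one]
      field_simp
    have h4 : ∑ i, Function.update (fun _ => (1 : ℝ)) j T i * hP.eigenvalues i ≤ K := by
      refine sum_le_sum fun i _ => ?_
      by_cases hi : i = j
      · subst hi
        simp only [Function.update_self]
        exact (mul_nonpos_of_nonneg_of_nonpos hT0.le hj).trans (abs_nonneg _)
      · simp only [Function.update_of_ne hi, one_mul]
        exact le_abs_self _
    linarith
  refine ⟨hpos, ?_⟩
  have h1 := key (fun i => (hP.eigenvalues i)⁻¹) fun i => (inv_pos.2 (hpos i)).le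
  have h2 : ∑ i, (hP.eigenvalues i)⁻¹ * hP.eigenvalues i = n := by
    rw [sum_congr rfl fun i _ => inv_mul_cancel₀ (hpos i).ne']
    simp
  rw [h2, prod_inv_distrib] at h1
  have hprod : 0 < ∏ i, hP.eigenvalues i := prod_pos fun i _ => hpos i
  have h3 : P.det.re = ∏ i, hP.eigenvalues i := by
    rw [hP.det_eq_prod_eigenvalues]
    have : (∏ i, ((hP.eigenvalues i : ℝ) : ℂ)) = ((∏ i, hP.eigenvalues i : ℝ) : ℂ) := by
      push_cast; rfl
    exact (congrArg Complex.re this).trans (Complex.ofReal_re _)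
  rw [h3]
  set D := ∏ i, hP.eigenvalues i with hD
  have h4 : c * (D⁻¹ * g) ^ ((n : ℝ)⁻¹) ≤ 1 := by
    have : (n : ℝ) * (c * (D⁻¹ * g) ^ ((n : ℝ)⁻¹)) ≤ n * 1 := by linarith
    exact le_of_mul_le_mul_left this hnr
  have h5 : (c * (D⁻¹ * g) ^ ((n : ℝ)⁻¹)) ^ n ≤ 1 := pow_le_one₀ (by positivity) h4
  rw [mul_pow, ← Real.rpow_natCast ((D⁻¹ * g) ^ ((n : ℝ)⁻¹)), ← Real.rpow_mul (by positivity),
    inv_mul_cancel₀ hnr.ne', Real.rpow_one] at h5
  have h6 : c ^ n * (D⁻¹ * g) = c ^ n * g / D := by field_simp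
  rw [h6, div_le_one hprod] at h5
  exact h5

open scoped ComplexOrder in
/-- positivity of `hq` from the eigenvalues -/
theorem hq_pos {P : Matrix (Fin n) (Fin n) ℂ} (hP : P.IsHermitian)
    (h : ∀ i, 0 < hP.eigenvalues i) {w : Fin n → ℂ} (hw : w ≠ 0) : 0 < hq P w := by
  have h1 : P.PosDef := hP.posDef_iff_eigenvalues_pos.2 h
  have h2 := h1.dotProduct_mulVec_pos hw
  exact (Complex.pos_iff.1 h2).1

end Crest.Agent.R269.PAsm1_976
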