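import Crest.Agent.R269.PAsm1_976

/-!
# R269, P10-PEAK-ASM (helper976), part 2: PK2 along the natural numbers
-/

set_option autoImplicit false

open Set Filter MeasureTheory Matrix Topology Metric
open scoped ENNReal ComplexOrder

noncomputable section

namespace Crest.Agent.R269.PAsm2_976

open Crest.Agent.R276.LM3_976 Crest.Agent.R269.Peak4_976 Crest.Agent.R269.Peak5_976
open Crest.Agent.R269.Peak6_976
open Crest.Agent.R271 Crest.Agent.R271.Ho51

/-- **PK2 for natural exponents, `ψ0 = 0`.** -/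
theorem pk2N {n : ℕ} (hn : 0 < n) : ∃ C : ℝ, 0 < C ∧
    ∀ (M : Type) [TopologicalSpace M] [T2Space M] [SecondCountableTopology M] [RDom n M]
      [MeasurableSpace M] [BorelSpace M] (μ : Measure M), IsLeb μ →
    ∀ ρ : M → ℝ, Sm ρ → (∀ c, IsCompact {x | ρ x ≤ c}) → (∀ x w, nsq w ≤ Levi ρ x w) →
    ∀ (ψ : M → ℝ) (hψ : Sm ψ),
      (∀ k : ℕ, FiniteDimensional ℂ (W μ (fun y => k * ψ y)
        ((Sm.const (k : ℝ)).mulR hψ).continuous.measurable)) →
      (∀ x, ∀ w, w ≠ 0 → 0 < Levi ψ x w) →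
    ∀ a : ℝ≥0∞, a < ∫⁻ x, ENNReal.ofReal ((PL ψ x).det.re) ∂μ →
      ∀ᶠ k : ℕ in atTop, ENNReal.ofReal ((k : ℝ) ^ n / C) * a <
        Module.finrank ℂ (W μ (fun y => k * ψ y)
          ((Sm.const (k : ℝ)).mulR hψ).continuous.measurable) := by
  obtain ⟨C, hC, hpeak⟩ := peak hn
  refine ⟨C, hC, ?_⟩
  intro M _ _ _ _ _ _ μ hμ ρ hρ hρc hρL ψ hψ hfd hSp a ha
  have hcont : ∀ k : ℝ, Continuous fun y => k * ψ y := fun k =>
    ((Sm.const k).mulR hψ).continuous
  have hk1 : ∀ k : ℝ, (0 : ℝ) ≤ k → ∀ x w, 0 ≤ Levi (fun y => k * ψ y + (fun _ => (0 : ℝ)) y) x w := by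
    intro k hk x w
    rw [Levi_comb hψ (Sm.const 0)]
    by_cases hw : w = 0
    · subst hw
      simp [Levi]
    have h1 : Levi (fun _ : M => (0 : ℝ)) x w = 0 := by
      have h2 := Levi_comb (ψ := fun _ : M => (0 : ℝ)) (ψ0 := fun _ : M => (0 : ℝ)) (Sm.const 0)
        (Sm.const 0) 1 x w
      simp only [mul_zero, add_zero, one_mul] at h2
      linarith
    rw [h1, add_zero]
    exact mul_nonneg hk (hSp x w hw).le
  have hT : ∀ k : ℕ, ∃ T : M → ℝ≥0∞, AEMeasurable T μ ∧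
      (∫⁻ x, T x ∂μ = Module.finrank ℂ (W μ (fun y => k * ψ y) (hcont k).measurable)) ∧
      ∀ x, ∀ F : M → ℂ, Crest.Agent.R271.Ho51.Hol F →
        ∫⁻ x, ENNReal.ofReal (‖F x‖ ^ 2 * Real.exp (-(k * ψ x))) ∂μ < ∞ →
        ENNReal.ofReal (‖F x‖ ^ 2 * Real.exp (-(k * ψ x))) ≤
          T x * ∫⁻ x, ENNReal.ofReal (‖F x‖ ^ 2 * Real.exp (-(k * ψ x))) ∂μ := by
    intro k
    have := hfd k
    exact exists_T hμ (hcont k)
  choose T hTm hTk using hT
  -- pointwise lower bound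
  have hpt : ∀ x, ENNReal.ofReal (1 / C) * ENNReal.ofReal ((PL ψ x).det.re) ≤
      liminf (fun k : ℕ => T k x * (ENNReal.ofReal ((k : ℝ) ^ n))⁻¹) atTop := by
    intro x
    obtain ⟨k0, hk0, hk⟩ := hpeak M μ hμ ρ hρ hρc hρL ψ (fun _ => 0) hψ (Sm.const 0) 0 hk1 x (hSp x)
    refine le_liminf_of_le (by isBoundedDefault) ?_
    filter_upwards [tendsto_natCast_atTop_atTop.eventually_ge_atTop k0] with k h1
    have hkp : (0 : ℝ) < k := hk0.trans_le h1
    have hdet : 0 < (PL ψ x).det.re :=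
      (Complex.pos_iff.1 (PL_posDef hψ (hSp x)).det_pos).1
    obtain ⟨F, hF, hFx, hFn⟩ := hk k h1
    simp only [add_zero] at hFn
    have h3 := (hTk k).2 x F hF (hFn.trans_lt ENNReal.ofReal_lt_top)
    rw [hFx, norm_one, one_pow, one_mul] at h3
    set E := Real.exp (-(k * ψ x)) with hE
    have hE0 : 0 < E := Real.exp_pos _
    have h4 : ENNReal.ofReal E ≤ T k x * ENNReal.ofReal (C * E / (k ^ n * (PL ψ x).det.re)) :=
      h3.trans (by gcongr)
    have h5 : ENNReal.ofReal (C * E / (k ^ n * (PL ψ x).det.re)) *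
        ENNReal.ofReal ((k ^ n * (PL ψ x).det.re) / (C * E)) = 1 := by
      rw [← ENNReal.ofReal_mul (by positivity), div_mul_div_cancel₀ (by positivity),
        div_self (by positivity), ENNReal.ofReal_one]
    have hkn : ENNReal.ofReal ((k : ℝ) ^ n) ≠ 0 := by
      have : (0 : ℝ) < (k : ℝ) ^ n := by positivity
      exact (ENNReal.ofReal_pos.2 this).ne'
    rw [← div_eq_mul_inv, ENNReal.le_div_iff_mul_le (Or.inl hkn) (Or.inl ENNReal.ofReal_ne_top)]
    calc ENNReal.ofReal (1 / C) * ENNReal.ofReal ((PL ψ x).det.re) * ENNReal.ofReal ((k : ℝ) ^ n)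
        = ENNReal.ofReal E * ENNReal.ofReal ((k ^ n * (PL ψ x).det.re) / (C * E)) := by
          rw [← ENNReal.ofReal_mul (by positivity), ← ENNReal.ofReal_mul (by positivity),
            ← ENNReal.ofReal_mul (by positivity)]
          congr 1
          field_simp
      _ ≤ T k x * ENNReal.ofReal (C * E / (k ^ n * (PL ψ x).det.re)) *
          ENNReal.ofReal ((k ^ n * (PL ψ x).det.re) / (C * E)) := by gcongr
      _ = T k x := by rw [mul_assoc, h5, mul_one]
  have hC1 : ENNReal.ofReal (1 / C) ≠ 0 := by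
    have : 0 < 1 / C := by positivity
    simpa using this
  have h1 : ENNReal.ofReal (1 / C) * a <
      liminf (fun k : ℕ => ∫⁻ x, T k x * (ENNReal.ofReal ((k : ℝ) ^ n))⁻¹ ∂μ) atTop := by
    calc ENNReal.ofReal (1 / C) * a
        < ENNReal.ofReal (1 / C) * ∫⁻ x, ENNReal.ofReal ((PL ψ x).det.re) ∂μ :=
          ENNReal.mul_lt_mul_right hC1 ENNReal.ofReal_ne_top ha
      _ = ∫⁻ x, ENNReal.ofReal (1 / C) * ENNReal.ofReal ((PL ψ x).det.re) ∂μ :=
          (lintegral_const_mul' _ _ ENNReal.ofReal_ne_top).symm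
      _ ≤ ∫⁻ x, liminf (fun k : ℕ => T k x * (ENNReal.ofReal ((k : ℝ) ^ n))⁻¹) atTop ∂μ :=
          lintegral_mono hpt
      _ ≤ _ := lintegral_liminf_le' fun k => (hTm k).mul_const _
  have h2 := eventually_lt_of_lt_liminf h1
  filter_upwards [h2, eventually_gt_atTop 0] with k hk hkp
  have hkp' : (0 : ℝ) < k := by exact_mod_cast hkp
  have hkn : (0 : ℝ) < (k : ℝ) ^ n := by positivity
  have hkn0 : ENNReal.ofReal ((k : ℝ) ^ n) ≠ 0 := (ENNReal.ofReal_pos.2 hkn).ne'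
  rw [lintegral_mul_const'' _ (hTm k), (hTk k).1, ← div_eq_mul_inv,
    ENNReal.lt_div_iff_mul_lt (Or.inl hkn0) (Or.inl ENNReal.ofReal_ne_top)] at hk
  refine lt_of_eq_of_lt ?_ hk
  have h3 : ENNReal.ofReal ((k : ℝ) ^ n / C) = ENNReal.ofReal (1 / C) * ENNReal.ofReal ((k : ℝ) ^ n) := by
    rw [← ENNReal.ofReal_mul (by positivity)]
    congr 1; ring
  rw [h3]; ring

end Crest.Agent.R269.PAsm2_976
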