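import Crest.Agent.R269.PAsm2_976
import Crest.Agent.R269.Amp3_243
import Crest.Agent.R269.Lev_901
import Crest.Agent.R269.Defs_58
import Crest.Agent.R269.GeoP_328

/-!
# R269, P10-PEAK-ASM (helper976), part 3: the Levi form of the weight on `M`
-/

set_option autoImplicit false

open Set Filter Topology Complex MeasureTheory Metric
open scoped ENNReal ComplexConjugate ContDiff

noncomputable section

namespace Crest.Agent.R269.PAsm3_976

open Crest.AlgGeometry.ProjEmb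
open Crest.Agent.R271 Crest.Agent.R271.Defs710 Crest.Agent.R271.Rd692
open Crest.Agent.R271.Ho51 hiding EE nsq
open Crest.Agent.R269.Amp1_243 Crest.Agent.R269.Geo_328 Crest.Agent.R269.Amp3_243
open Crest.Agent.R269.Defs_58

variable {N n : ℕ} {I : Ideal (HomCoordRing N)}

/-! ### bridges -/

lemma lev58_eq {ι : Type} [Fintype ι] (φ : (ι → ℂ) → ℝ) (p v : ι → ℂ) :
    Defs_58.lev φ p v = LevC_653.lev φ p v := by
  unfold Defs_58.lev LevC_653.lev
  rw [iteratedFDeriv_two_apply, iteratedFDeriv_two_apply]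
  simp

lemma levE_eq {f : (Fin n → ℂ) → ℝ} {z : Fin n → ℂ} (hf : ContDiffAt ℝ 2 f z) (w : Fin n → ℂ) :
    levE f z w = LevC_653.lev f z w := by
  have hd : DifferentiableAt ℝ (fderiv ℝ f) z :=
    (hf.fderiv_right (m := 1) (by norm_num)).differentiableAt (by norm_num)
  have h : ∀ v : Fin n → ℂ, fderiv ℝ (fun z => fderiv ℝ f z v) z v = fderiv ℝ (fderiv ℝ f) z v v := by
    intro v
    have h1 : HasFDerivAt (fun z => fderiv ℝ f z v)
        ((ContinuousLinearMap.apply ℝ ℝ v).comp (fderiv ℝ (fderiv ℝ f) z)) z :=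
      ((ContinuousLinearMap.apply ℝ ℝ v).hasFDerivAt).comp z hd.hasFDerivAt
    rw [h1.fderiv]
    rfl
  unfold levE LevC_653.lev
  rw [h w, h (Complex.I • w)]
  ring

lemma wedgeSq_eq (p : EE N) (b : Fin n → EE N) :
    wedgeSq (Fin.cons p b : Fin (n + 1) → EE N) =
      gdet (Matrix.of (Fin.cons p b : Fin (n + 1) → EE N)) := by
  unfold wedgeSq gdet
  congr 2

/-- the frame `∂_k x` -/
def db (X : XC I n) (y : X.B →ₐ[ℂ] ℂ) (k : Fin n) : EE N := fun l => y (X.der k (X.x l))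

/-- the differential of the point map -/
def dp (X : XC I n) (y : X.B →ₐ[ℂ] ℂ) (w : Fin n → ℂ) : EE N := ∑ k, w k • db X y k

/-- `DD` of the coordinate frame -/
lemma DD_db {X : XC I n} (y : X.B →ₐ[ℂ] ℂ) :
    DD (pt X y) (db X y) = gr X y / ns X y ^ (n + 1) := by
  unfold DD
  rw [wedgeSq_eq]
  rfl

lemma DD_db_pos {X : XC I n} (y : X.B →ₐ[ℂ] ℂ) : 0 < DD (pt X y) (db X y) := by
  rw [DD_db]
  exact div_pos (gr_pos y) (pow_pos (ns_pos y) _)

/-- the curve in the cone given by a chart -/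
def sg {X : XC I n} {y : X.B →ₐ[ℂ] ℂ} (C : Chart X.z y) (ζ : CC n) : EE N := pt X (C.s ζ)

lemma sg_zero {X : XC I n} {y : X.B →ₐ[ℂ] ℂ} (C : Chart X.z y) : sg C 0 = pt X y := by
  unfold sg
  rw [C.s_zero]

lemma sg_anal {X : XC I n} {y : X.B →ₐ[ℂ] ℂ} (C : Chart X.z y) {ζ : CC n}
    (hζ : ζ ∈ ball (0 : CC n) C.r) : AnalyticAt ℂ (sg C) ζ := by
  rw [analyticAt_pi_iff]
  intro l
  exact C.anal (X.x l) ζ hζ

/-- smooth functions in a chart -/
lemma sm_chart {X : XC I n} {f : (X.B →ₐ[ℂ] ℂ) → ℝ} (hf : Sm f) {y : X.B →ₐ[ℂ] ℂ}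
    (C : Chart X.z y) : ContDiffAt ℝ (⊤ : ℕ∞) (fun ζ => f (C.s ζ)) 0 := by
  have h1 := hf y
  have h2 : (fun w => f ((ch y).symm w)) =ᶠ[𝓝 (cp y)] fun w => f (C.s (w - cp y)) := by
    filter_upwards [ch_symm_eventuallyEq C] with w hw
    rw [hw]
  have h3 : ContDiffAt ℝ (⊤ : ℕ∞) (fun w => f (C.s (w - cp y))) (cp y) :=
    ContDiffAt.congr_of_eventuallyEq h1 h2.symm
  have h4 : ContDiffAt ℝ (⊤ : ℕ∞) (fun w => f (C.s (w - cp y))) ((0 : CC n) + cp y) := by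
    rw [zero_add]; exact h3
  have h5 : ContDiffAt ℝ (⊤ : ℕ∞) (fun ζ : CC n => ζ + cp y) 0 :=
    contDiffAt_id.add contDiffAt_const
  have h6 := ContDiffAt.comp (g := fun w => f (C.s (w - cp y))) (0 : CC n) h4 h5
  refine h6.congr_of_eventuallyEq (Eventually.of_forall fun ζ => ?_)
  simp only [Function.comp_apply]
  rw [add_sub_cancel_right]

lemma fderiv_sg {X : XC I n} {y : X.B →ₐ[ℂ] ℂ} (C : Chart X.z y) {ζ : CC n}
    (hζ : ζ ∈ ball (0 : CC n) C.r) (w : CC n) : fderiv ℂ (sg C) ζ w = dp X (C.s ζ) w := by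
  have h := frs_chart C hζ
  have h1 : ∀ k : Fin n, fderiv ℂ (sg C) ζ (Pi.single k 1) = db X (C.s ζ) k := by
    intro k
    exact congrFun h k.succ
  have h2 : w = ∑ k, w k • (Pi.single k (1 : ℂ) : CC n) := by
    funext j
    simp [Finset.sum_apply, Pi.single_apply]
  conv_lhs => rw [h2]
  rw [map_sum]
  unfold dp
  exact Finset.sum_congr rfl fun k _ => by rw [map_smul, h1]

/-- holomorphic curves in the cone are tangent to the cone -/
lemma tan_of_curve {σ : CC n → EE N} {z : CC n} (hσ : DifferentiableAt ℂ σ z)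
    (h : ∀ᶠ ζ in 𝓝 z, σ ζ ∈ Cone I) (w : CC n) : fderiv ℂ σ z w ∈ Tan I (σ z) := by
  rw [mem_Tan]
  intro F hF
  have h1 : HasFDerivAt (fun ζ => MvPolynomial.eval (σ ζ) F) ((dPL F (σ z)).comp (fderiv ℂ σ z)) z :=
    (hasFDerivAt_eval F (σ z)).comp z hσ.hasFDerivAt
  have h2 : (fun ζ => MvPolynomial.eval (σ ζ) F) =ᶠ[𝓝 z] fun _ => 0 := by
    filter_upwards [h] with ζ hζ
    exact hζ.1 F hF
  have h3 : (dPL F (σ z)).comp (fderiv ℂ σ z) = 0 := by
    rw [← h1.fderiv, h2.fderiv_eq]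
    simp
  have h4 := DFunLike.congr_fun h3 w
  simpa using h4

lemma dp_mem {X : XC I n} (y : X.B →ₐ[ℂ] ℂ) (w : CC n) : dp X y w ∈ Tan I (pt X y) := by
  obtain ⟨C⟩ := X.hch y
  have h0 : (0 : CC n) ∈ ball (0 : CC n) C.r := mem_ball_self C.r_pos
  have h1 := tan_of_curve (I := I) (sg_anal C h0).differentiableAt
    (Eventually.of_forall fun ζ => pt_mem _) w
  rw [fderiv_sg C h0, C.s_zero, sg_zero] at h1
  exact h1

lemma db_eq {X : XC I n} (y : X.B →ₐ[ℂ] ℂ) (k : Fin n) : db X y k = dp X y (Pi.single k 1) := by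
  unfold dp
  simp [Pi.single_apply, Finset.sum_ite_eq']

lemma db_mem {X : XC I n} (y : X.B →ₐ[ℂ] ℂ) (k : Fin n) : db X y k ∈ Tan I (pt X y) := by
  rw [db_eq]
  exact dp_mem y _

/-- the potential of the weight -/
def uu (φ : EE N → ℝ) (e : ℝ) (p : EE N) : ℝ := φ p + e * Real.log (nsq p)

lemma contDiffAt_lognsq {p : EE N} (hp : p ≠ 0) {k : WithTop ℕ∞} :
    ContDiffAt ℝ k (fun p : EE N => Real.log (nsq p)) p := by
  have h0 : 0 < nsq p := by
    obtain ⟨i, hi⟩ := Function.ne_iff.1 hp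
    have h1 : 0 < ‖p i‖ ^ 2 := by
      have : 0 < ‖p i‖ := norm_pos_iff.2 hi
      positivity
    exact lt_of_lt_of_le h1 (Finset.single_le_sum (f := fun i => ‖p i‖ ^ 2)
      (fun _ _ => by positivity) (Finset.mem_univ i))
  have h1 : ContDiffAt ℝ k (fun p : EE N => nsq p) p := Lev_901.contDiffAt_nsq p
  exact h1.log h0.ne'

lemma sm_uu {φ : EE N → ℝ} (hφ : ∀ p ∈ Cone I, ContDiffAt ℝ ∞ φ p) (e : ℝ) :
    ∀ p ∈ Cone I, ContDiffAt ℝ ∞ (uu φ e) p := fun p hp =>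
  (hφ p hp).add (contDiffAt_const.mul (contDiffAt_lognsq hp.2))

/-- **the Levi form of the weight** -/
theorem lev_Psi (hA : AlphaFamStmt) (hI : I.IsPrime) (hX : IsSmoothProjective I n) (X : XC I n)
    {φ : EE N → ℝ} (hφ : ∀ p ∈ Cone I, ContDiffAt ℝ ∞ φ p) (e : ℝ) (y : X.B →ₐ[ℂ] ℂ) (w : CC n) :
    W792.lev (Psi X (uu φ e)) y w = alpha I n (pt X y) (dp X y w) + e * omg (pt X y) (dp X y w) +
      Defs_58.lev φ (pt X y) (dp X y w) := by
  obtain ⟨C⟩ := X.hch y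
  have hb : ball (0 : CC n) C.r ∈ 𝓝 (0 : CC n) := isOpen_ball.mem_nhds (mem_ball_self C.r_pos)
  have h0 : (0 : CC n) ∈ ball (0 : CC n) C.r := mem_ball_self C.r_pos
  have hσ : AnalyticAt ℂ (sg C) 0 := sg_anal C h0
  -- `Psi` in the chart
  have hPsi : (fun ζ => Psi X (uu φ e) (C.s ζ)) =ᶠ[𝓝 0] fun ζ =>
      Real.log (DD (sg C ζ) (fun k => fderiv ℂ (sg C) ζ (Pi.single k 1))) +
        (φ (sg C ζ) + e * Real.log (∑ i, ‖sg C ζ i‖ ^ 2)) := by
    filter_upwards [hb] with ζ hζ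
    have h1 : (fun k => fderiv ℂ (sg C) ζ (Pi.single k 1)) = db X (C.s ζ) := by
      funext k
      rw [fderiv_sg C hζ, db_eq]
    rw [h1]
    have h2 : DD (sg C ζ) (db X (C.s ζ)) = gr X (C.s ζ) / ns X (C.s ζ) ^ (n + 1) := DD_db _
    rw [h2, Real.log_div (gr_pos _).ne' (pow_pos (ns_pos _) _).ne', Real.log_pow]
    unfold Psi uu lns sg
    push_cast
    rfl
  have hbA : ∀ k : Fin n, AnalyticAt ℂ (fun ζ => fderiv ℂ (sg C) ζ (Pi.single k 1)) 0 := by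
    intro k
    have h1 : AnalyticAt ℂ (fderiv ℂ (sg C)) 0 := hσ.fderiv
    exact ((ContinuousLinearMap.apply ℂ (EE N) (Pi.single k (1 : ℂ) : CC n)).analyticAt _).comp h1
  have hbv : (fun k => fderiv ℂ (sg C) 0 (Pi.single k 1)) = db X y := by
    funext k
    rw [fderiv_sg C h0, C.s_zero, db_eq]
  have hpos : 0 < DD (sg C 0) (fun k => fderiv ℂ (sg C) 0 (Pi.single k 1)) := by
    rw [hbv, sg_zero]
    exact DD_db_pos y
  have hcone : ∀ᶠ ζ in 𝓝 (0 : CC n), sg C ζ ∈ Cone I := Eventually.of_forall fun ζ => pt_mem _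
  have htan : ∀ᶠ ζ in 𝓝 (0 : CC n),
      TanFam I (sg C ζ) (fun k => fderiv ℂ (sg C) ζ (Pi.single k 1)) := by
    filter_upwards [hb] with ζ hζ k
    exact tan_of_curve (sg_anal C hζ).differentiableAt (Eventually.of_forall fun ζ => pt_mem _) _
  have hAl := hA N n I hI hX n (sg C) (fun k ζ => fderiv ℂ (sg C) ζ (Pi.single k 1)) 0 w
    ⟨hσ, hcone⟩ hbA htan hpos
  rw [lev58_eq, fderiv_sg C h0, C.s_zero, sg_zero] at hAl
  -- smoothness
  have hpσ : ContDiffAt ℝ 2 (sg C) 0 := hσ.contDiffAt.restrict_scalars ℝ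
  have hφ2 : ContDiffAt ℝ 2 φ (sg C 0) := (hφ _ (pt_mem _)).of_le (by norm_cast)
  have hl2 : ContDiffAt ℝ 2 (fun p : EE N => Real.log (∑ i, ‖p i‖ ^ 2)) (sg C 0) :=
    contDiffAt_lognsq (pt_ne _)
  have hc1 : ContDiffAt ℝ 2 (fun ζ => φ (sg C ζ)) 0 := hφ2.comp _ hpσ
  have hc2 : ContDiffAt ℝ 2 (fun ζ => Real.log (∑ i, ‖sg C ζ i‖ ^ 2)) 0 :=
    ContDiffAt.comp (g := fun p : EE N => Real.log (∑ i, ‖p i‖ ^ 2)) (0 : CC n) hl2 hpσ
  have hall : ContDiffAt ℝ 2 (fun ζ => Psi X (uu φ e) (C.s ζ)) 0 :=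
    (sm_chart (sm_Psi (sm_uu hφ e)) C).of_le (by norm_cast)
  have hDD : ContDiffAt ℝ 2 (fun ζ =>
      Real.log (DD (sg C ζ) (fun k => fderiv ℂ (sg C) ζ (Pi.single k 1)))) 0 := by
    have h7 : ContDiffAt ℝ 2 (fun ζ => φ (sg C ζ) + e * Real.log (∑ i, ‖sg C ζ i‖ ^ 2)) 0 :=
      hc1.add (contDiffAt_const.mul hc2)
    refine (hall.sub h7).congr_of_eventuallyEq ?_
    filter_upwards [hPsi] with ζ hζ
    rw [hζ]
    ring
  rw [lev_chart _ C, levE_eq hall, LevC_653.lev_congr hPsi, LevC_653.lev_add hDD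
    (hc1.add (contDiffAt_const.mul hc2)), LevC_653.lev_add hc1 (contDiffAt_const.mul hc2),
    LevC_653.lev_const_mul e hc2, Lev_901.lev_comp_hol hφ2 hσ,
    Lev_901.lev_comp_hol (u := fun p : EE N => Real.log (∑ i, ‖p i‖ ^ 2)) hl2 hσ,
    fderiv_sg C h0, C.s_zero, sg_zero, Lev_901.lev_log_sum_nsq (pt_ne _), hAl, lev58_eq]
  unfold omg
  ring

end Crest.Agent.R269.PAsm3_976
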