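import Crest.Agent.R269.PAsm3_976

/-!
# R269, P10-PEAK-ASM (helper976), part 4: positivity, determinant, assembly of (10.1)
-/

set_option autoImplicit false

open Set Filter Topology Complex MeasureTheory Metric
open scoped ENNReal ComplexConjugate ContDiff

noncomputable section

namespace Crest.Agent.R269.PAsm4_976

open Crest.AlgGeometry.ProjEmb
open Crest.Agent.R271 Crest.Agent.R271.Defs710 Crest.Agent.R271.Rd692
open Crest.Agent.R271.Ho51 hiding EE nsq
open Crest.Agent.R269.Amp1_243 Crest.Agent.R269.Geo_328 Crest.Agent.R269.Amp3_243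
open Crest.Agent.R269.Defs_58 Crest.Agent.R269.PAsm3_976
open Crest.Agent.R276.LM3_976 Crest.Agent.R269.Peak4_976 Crest.Agent.R269.Peak6_976

variable {N n : ℕ} {I : Ideal (HomCoordRing N)}

/-- change of frame in the Gram determinant -/
lemma gdet_mul (B : Matrix (Fin (n + 1)) (Fin (n + 1)) ℂ) (A : Matrix (Fin (n + 1)) (Fin (N + 1)) ℂ) :
    gdet (B * A) = ‖B.det‖ ^ 2 * gdet A := by
  unfold gdet
  have h : B * A * (B * A).conjTranspose = B * (A * A.conjTranspose) * B.conjTranspose := by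
    rw [Matrix.conjTranspose_mul]
    simp only [Matrix.mul_assoc]
  rw [h, Matrix.det_mul, Matrix.det_mul, Matrix.det_conjTranspose]
  have h2 : B.det * (A * A.conjTranspose).det * star B.det =
      ((‖B.det‖ ^ 2 : ℝ) : ℂ) * (A * A.conjTranspose).det := by
    have h3 : B.det * star B.det = ((‖B.det‖ ^ 2 : ℝ) : ℂ) := by
      have := Complex.mul_conj' B.det
      push_cast
      exact this
    rw [← h3]; ring
  rw [h2, Complex.re_ofReal_mul]

lemma DD_lin (p : EE N) (b : Fin n → EE N) (w : Fin n → Fin n → ℂ) :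
    DD p (fun i => ∑ k, w i k • b k) = ‖(Matrix.of w).det‖ ^ 2 * DD p b := by
  unfold DD
  rw [wedgeSq_eq, wedgeSq_eq, ← mul_div_assoc]
  congr 1
  let B : Matrix (Fin (n + 1)) (Fin (n + 1)) ℂ :=
    Matrix.of (Fin.cons (Pi.single 0 1) (fun i => Fin.cons 0 (w i)) : Fin (n + 1) → Fin (n + 1) → ℂ)
  have hB : B.det = (Matrix.of w).det := by
    rw [Matrix.det_succ_row_zero, Finset.sum_eq_single 0]
    · have h1 : B 0 0 = 1 := by simp [B]
      rw [h1]
      simp only [Fin.val_zero, pow_zero, one_mul]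
      congr 1
    · intro j _ hj
      have : B 0 j = 0 := by
        simp [B, Pi.single_eq_of_ne hj]
      rw [this]; simp
    · intro h; exact absurd (Finset.mem_univ _) h
  have hBA : (Matrix.of (Fin.cons p (fun i => ∑ k, w i k • b k) : Fin (n + 1) → EE N) :
      Matrix (Fin (n + 1)) (Fin (N + 1)) ℂ) = B * Matrix.of (Fin.cons p b : Fin (n + 1) → EE N) := by
    ext a l
    rw [Matrix.mul_apply, Fin.sum_univ_succ]
    refine Fin.cases ?_ (fun i => ?_) a
    · simp [B, Pi.single_apply]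
    · simp [B, Finset.sum_apply]
  rw [hBA, gdet_mul, hB]

/-- the determinant inequality on `M` -/
theorem ma_chart (hA : AlphaFamStmt) (hI : I.IsPrime) (hX : IsSmoothProjective I n) (hn : 1 ≤ n)
    (X : XC I n) {c₁ e : ℝ} (hc : 0 < c₁) {φ : EE N → ℝ}
    (hφ : ∀ p ∈ Cone I, ContDiffAt ℝ ∞ φ p)
    (h : ∀ p ∈ Cone I, ∀ b : Fin n → EE N,
    TanFam I p b → n * c₁ * DD p b ^ ((n : ℝ)⁻¹) ≤
      ∑ i, (alpha I n p (b i) + e * omg p (b i) + Defs_58.lev φ p (b i))) (y : X.B →ₐ[ℂ] ℂ) :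
    (∀ w, w ≠ 0 → 0 < Levi (Psi X (uu φ e)) y w) ∧
      c₁ ^ n * (gr X y / ns X y ^ (n + 1)) ≤ (PL (Psi X (uu φ e)) y).det.re := by
  have hsm : Sm (Psi X (uu φ e)) := sm_Psi (sm_uu hφ e)
  have hH := PL_herm hsm y
  have hg : 0 < gr X y / ns X y ^ (n + 1) := div_pos (gr_pos y) (pow_pos (ns_pos y) _)
  have hq1 : ∀ w, hq (PL (Psi X (uu φ e)) y) w = alpha I n (pt X y) (dp X y w) +
      e * omg (pt X y) (dp X y w) + Defs_58.lev φ (pt X y) (dp X y w) := by
    intro w
    rw [hq_PL, W792.Levi_eq_lev hsm, lev_Psi hA hI hX X hφ e y w]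
  have key := PAsm1_976.det_lower hn hH hc hg (by
    intro w
    have h1 := h (pt X y) (pt_mem y) (fun i => dp X y (w i)) (fun i => dp_mem y _)
    have h2 : DD (pt X y) (fun i => dp X y (w i)) =
        ‖(Matrix.of w).det‖ ^ 2 * (gr X y / ns X y ^ (n + 1)) := by
      rw [← DD_db]
      exact DD_lin _ _ _
    rw [h2] at h1
    refine h1.trans (le_of_eq ?_)
    exact Finset.sum_congr rfl fun i _ => (hq1 (w i)).symm)
  refine ⟨fun w hw => ?_, key.2⟩
  rw [← hq_PL]
  exact PAsm1_976.hq_pos hH key.1 hw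

/-- smooth functions on `X` are bounded above -/
theorem bdd_above (hX : IsSmoothProjective I n) {φ : EE N → ℝ} (hφ : SmX I φ) :
    ∃ B : ℝ, ∀ p ∈ Cone I, φ p ≤ B := by
  have hcl : IsClosed (affineCone I) := by
    have : affineCone I = ⋂ F ∈ I, {p : EE N | MvPolynomial.eval p F = 0} := by
      ext p; simp [affineCone]
    rw [this]
    exact isClosed_biInter fun F _ => isClosed_eq (continuous_eval F) continuous_const
  have hK : IsCompact (affineCone I ∩ Metric.sphere (0 : EE N) 1) :=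
    (isCompact_sphere _ _).inter_left hcl
  have hKc : affineCone I ∩ Metric.sphere (0 : EE N) 1 ⊆ Cone I := by
    rintro p ⟨h1, h2⟩
    refine ⟨h1, ?_⟩
    rintro rfl
    simp at h2
  have hcont : ContinuousOn φ (affineCone I ∩ Metric.sphere (0 : EE N) 1) := fun p hp =>
    (hφ.1 p (hKc hp)).continuousAt.continuousWithinAt
  obtain ⟨B, hB⟩ := (hK.image_of_continuousOn hcont).bddAbove
  refine ⟨B, fun p hp => ?_⟩
  have hp0 : ‖p‖ ≠ 0 := norm_ne_zero_iff.2 hp.2
  have hc0 : ((‖p‖ : ℂ))⁻¹ ≠ 0 := inv_ne_zero (by exact_mod_cast hp0)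
  rw [← hφ.2 p hp _ hc0]
  refine hB ⟨_, ⟨(smul_mem_Cone hX hp hc0).1, ?_⟩, rfl⟩
  rw [mem_sphere_zero_iff_norm, norm_smul, norm_inv, Complex.norm_real, norm_norm,
    inv_mul_cancel₀ hp0]

end Crest.Agent.R269.PAsm4_976
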