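import Mathlib
/-
R269 L6 (helper173).  Maps of the closed disc into projective space in the projector picture:
F z = p p^* / |p|^2.  Definition PHol, closure under uniform limits.
-/
set_option autoImplicit false

open Metric Set Filter Topology Complex
open scoped ComplexConjugate

noncomputable section

namespace Crest.Agent.R269.PHol_173

variable {ι : Type*} [Fintype ι]

/-- `|p|^2` (Hermitian) -/
def nsq (p : ι → ℂ) : ℝ := ∑ k, ‖p k‖ ^ 2

/-- the orthogonal projector onto the line of `p` -/
def prj (p : ι → ℂ) : ι → ι → ℂ := fun i j => p i * conj (p j) / (nsq p : ℂ)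

lemma nsq_nonneg (p : ι → ℂ) : 0 ≤ nsq p := Finset.sum_nonneg fun _ _ => by positivity

lemma nsq_pos {p : ι → ℂ} (hp : p ≠ 0) : 0 < nsq p := by
  obtain ⟨i, hi⟩ := Function.ne_iff.1 hp
  refine Finset.sum_pos' (fun _ _ => by positivity) ⟨i, Finset.mem_univ i, ?_⟩
  have : 0 < ‖p i‖ := norm_pos_iff.2 hi
  positivity

lemma nsq_ne {p : ι → ℂ} (hp : p ≠ 0) : (nsq p : ℂ) ≠ 0 := by
  exact_mod_cast (nsq_pos hp).ne'

lemma nsq_smul (c : ℂ) (p : ι → ℂ) : nsq (c • p) = ‖c‖ ^ 2 * nsq p := by
  simp [nsq, Finset.mul_sum, mul_pow]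

lemma sum_mul_conj (p : ι → ℂ) : ∑ k, p k * conj (p k) = (nsq p : ℂ) := by
  simp only [nsq, Complex.mul_conj, Complex.normSq_eq_norm_sq]
  push_cast
  rfl

lemma prj_smul {c : ℂ} (hc : c ≠ 0) (p : ι → ℂ) : prj (c • p) = prj p := by
  funext i j
  simp only [prj, nsq_smul, Pi.smul_apply, smul_eq_mul, map_mul]
  have h1 : (‖c‖ ^ 2 : ℂ) = c * conj c := by
    rw [Complex.mul_conj, Complex.normSq_eq_norm_sq]; push_cast; rfl
  have h2 : conj c ≠ 0 := by simpa using hc
  push_cast
  rw [h1]
  have : c * p i * (conj c * conj (p j)) = (c * conj c) * (p i * conj (p j)) := by ring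
  rw [this, mul_div_mul_left _ _ (mul_ne_zero hc h2)]

/-- rank one projectors, described by closed conditions -/
structure IsRP (A : ι → ι → ℂ) : Prop where
  minor : ∀ k l i, A k l * A i i = A k i * A i l
  herm : ∀ i l, A i l = conj (A l i)
  tr : ∑ l, A l l = 1

lemma isRP_prj {p : ι → ℂ} (hp : p ≠ 0) : IsRP (prj p) where
  minor := fun k l i => by simp only [prj]; ring
  herm := fun i l => by simp only [prj, map_div₀, map_mul, Complex.conj_conj, Complex.conj_ofReal]; ring
  tr := by
    simp only [prj]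
    rw [← Finset.sum_div, sum_mul_conj, div_self (nsq_ne hp)]

namespace IsRP

variable {A : ι → ι → ℂ}

lemma exists_diag (h : IsRP A) : ∃ i, A i i ≠ 0 := by
  by_contra hc
  push Not at hc
  have := h.tr
  simp [hc] at this

lemma nsq_col (h : IsRP A) (i : ι) : (nsq (fun k => A k i) : ℂ) = A i i := by
  rw [← sum_mul_conj]
  have : ∀ k, A k i * conj (A k i) = A i i * A k k := by
    intro k
    rw [← h.herm i k, mul_comm (A k i), ← h.minor i i k]
  simp only [this]
  rw [← Finset.mul_sum, h.tr, mul_one]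

lemma col_ne (h : IsRP A) {i : ι} (hi : A i i ≠ 0) : (fun k => A k i) ≠ 0 := fun hc =>
  hi (by simpa using congrFun hc i)

lemma eq_prj_col (h : IsRP A) {i : ι} (hi : A i i ≠ 0) : A = prj (fun k => A k i) := by
  funext k l
  simp only [prj]
  rw [h.nsq_col i, eq_div_iff hi, h.minor k l i, h.herm i l]

lemma exists_prj (h : IsRP A) : ∃ p : ι → ℂ, p ≠ 0 ∧ A = prj p := by
  obtain ⟨i, hi⟩ := h.exists_diag
  exact ⟨_, h.col_ne hi, h.eq_prj_col hi⟩

lemma diag_re (h : IsRP A) (i : ι) : A i i = ((A i i).re : ℂ) := by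
  have := h.herm i i
  exact (Complex.conj_eq_iff_re.1 this.symm).symm

lemma diag_nonneg (h : IsRP A) (i : ι) : 0 ≤ (A i i).re := by
  rw [← h.nsq_col i]
  simpa using nsq_nonneg _

lemma sum_re (h : IsRP A) : ∑ i, (A i i).re = 1 := by
  have := congrArg Complex.re h.tr
  simpa using this

lemma diag_le_one (h : IsRP A) (i : ι) : (A i i).re ≤ 1 := by
  rw [← h.sum_re]
  exact Finset.single_le_sum (fun j _ => h.diag_nonneg j) (Finset.mem_univ i)

lemma norm_diag (h : IsRP A) (i : ι) : ‖A i i‖ = (A i i).re := by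
  rw [h.diag_re i, Complex.norm_real, Complex.ofReal_re, Real.norm_of_nonneg (h.diag_nonneg i)]

lemma norm_sq_entry (h : IsRP A) (i j : ι) : ‖A i j‖ ^ 2 = (A i i).re * (A j j).re := by
  have h1 : A i j * conj (A i j) = A i i * A j j := by
    rw [← h.herm j i, ← h.minor i i j]
  have h2 : (‖A i j‖ ^ 2 : ℂ) = A i j * conj (A i j) := by
    rw [Complex.mul_conj, Complex.normSq_eq_norm_sq]; push_cast; rfl
  rw [h1, h.diag_re i, h.diag_re j] at h2
  exact_mod_cast h2

lemma norm_entry_le (h : IsRP A) (i j : ι) : ‖A i j‖ ≤ 1 := by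
  have h1 := h.norm_sq_entry i j
  have h2 : (A i i).re * (A j j).re ≤ 1 := by
    have := mul_le_mul (h.diag_le_one i) (h.diag_le_one j) (h.diag_nonneg j) zero_le_one
    simpa using this
  have h3 : ‖A i j‖ ^ 2 ≤ 1 ^ 2 := by rw [h1]; simpa using h2
  exact le_of_sq_le_sq h3 zero_le_one

lemma exists_big_diag (h : IsRP A) [Nonempty ι] : ∃ i, 1 / (Fintype.card ι : ℝ) ≤ (A i i).re := by
  by_contra hc
  push Not at hc
  have h1 : ∑ i, (A i i).re < ∑ _i : ι, 1 / (Fintype.card ι : ℝ) :=
    Finset.sum_lt_sum_of_nonempty Finset.univ_nonempty (fun i _ => hc i)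
  rw [h.sum_re, Finset.sum_const, Finset.card_univ, nsmul_eq_mul, mul_one_div, div_self] at h1
  · exact lt_irrefl _ h1
  · exact_mod_cast Fintype.card_ne_zero

end IsRP

lemma isRP_iff {A : ι → ι → ℂ} : IsRP A ↔ ∃ p : ι → ℂ, p ≠ 0 ∧ A = prj p :=
  ⟨fun h => h.exists_prj, fun ⟨_, hp, h⟩ => h ▸ isRP_prj hp⟩

lemma isClosed_isRP : IsClosed {A : ι → ι → ℂ | IsRP A} := by
  have : {A : ι → ι → ℂ | IsRP A} =
      (⋂ k, ⋂ l, ⋂ i, {A | A k l * A i i = A k i * A i l}) ∩
      ((⋂ i, ⋂ l, {A | A i l = conj (A l i)}) ∩ {A | ∑ l, A l l = 1}) := by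
    ext A
    simp only [mem_setOf_eq, mem_inter_iff, mem_iInter]
    exact ⟨fun h => ⟨h.minor, h.herm, h.tr⟩, fun h => ⟨h.1, h.2.1, h.2.2⟩⟩
  rw [this]
  refine IsClosed.inter ?_ (IsClosed.inter ?_ ?_)
  · refine isClosed_iInter fun k => isClosed_iInter fun l => isClosed_iInter fun i => ?_
    exact isClosed_eq (by fun_prop) (by fun_prop)
  · refine isClosed_iInter fun i => isClosed_iInter fun l => ?_
    exact isClosed_eq (by fun_prop) (Complex.continuous_conj.comp (by fun_prop))
  · exact isClosed_eq (by fun_prop) continuous_const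

/-- ratios of entries of `prj p` -/
lemma prj_ratio {p : ι → ℂ} (hp : p ≠ 0) (k i : ι) (hi : p i ≠ 0) :
    prj p k i / prj p i i = p k / p i := by
  simp only [prj]
  have h1 := nsq_ne hp
  have h2 : conj (p i) ≠ 0 := by simpa using hi
  field_simp

lemma prj_diag_ne {p : ι → ℂ} (hp : p ≠ 0) {i : ι} : prj p i i ≠ 0 ↔ p i ≠ 0 := by
  simp only [prj]
  constructor
  · intro h hc
    simp [hc] at h
  · intro h
    have h2 : conj (p i) ≠ 0 := by simpa using h
    exact div_ne_zero (mul_ne_zero h h2) (nsq_ne hp)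

/-- holomorphic discs in projective space, continuous up to the circle (projector picture) -/
structure PHol (F : ℂ → ι → ι → ℂ) : Prop where
  cont : ContinuousOn F (closedBall 0 1)
  rp : ∀ z ∈ closedBall (0 : ℂ) 1, IsRP (F z)
  hol : ∀ i k, DifferentiableOn ℂ (fun z => F z k i / F z i i) {z | z ∈ ball (0 : ℂ) 1 ∧ F z i i ≠ 0}

namespace PHol

variable {F : ℂ → ι → ι → ℂ}

lemma cont_entry (h : PHol F) (i k : ι) : ContinuousOn (fun z => F z i k) (closedBall 0 1) := by
  have h1 : Continuous fun A : ι → ι → ℂ => A i k := by fun_prop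
  exact h1.comp_continuousOn h.cont

lemma isOpen_chart (h : PHol F) (i : ι) : IsOpen {z | z ∈ ball (0 : ℂ) 1 ∧ F z i i ≠ 0} := by
  have h1 : ContinuousOn (fun z => F z i i) (ball 0 1) :=
    (h.cont_entry i i).mono ball_subset_closedBall
  have h2 := h1.isOpen_inter_preimage isOpen_ball (isOpen_compl_singleton (x := (0 : ℂ)))
  convert h2 using 1
  ext z
  simp

end PHol

/-- the projector map of a lift -/
lemma phol_of_lift {H : ℂ → ι → ℂ} (hc : ContinuousOn H (closedBall 0 1))
    (hd : DifferentiableOn ℂ H (ball 0 1)) (h0 : ∀ z ∈ closedBall (0 : ℂ) 1, H z ≠ 0) :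
    PHol (fun z => prj (H z)) where
  cont := by
    have hk : ∀ k, ContinuousOn (fun z => H z k) (closedBall 0 1) := fun k =>
      (continuous_apply k).comp_continuousOn hc
    refine continuousOn_pi.2 fun i => continuousOn_pi.2 fun j => ?_
    simp only [prj]
    refine ContinuousOn.div ((hk i).mul (Complex.continuous_conj.comp_continuousOn (hk j))) ?_
      (fun z hz => nsq_ne (h0 z hz))
    refine Complex.continuous_ofReal.comp_continuousOn ?_
    simp only [nsq]
    exact continuousOn_finsetSum _ fun k _ => (hk k).norm.pow 2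
  rp := fun z hz => isRP_prj (h0 z hz)
  hol := by
    intro i k
    have hk : ∀ k, DifferentiableOn ℂ (fun z => H z k) (ball 0 1) := fun k z hz =>
      (differentiableWithinAt_pi.1 (hd z hz)) k
    have h1 : DifferentiableOn ℂ (fun z => H z k / H z i)
        {z | z ∈ ball (0 : ℂ) 1 ∧ prj (H z) i i ≠ 0} := by
      refine DifferentiableOn.div ((hk k).mono fun z hz => hz.1) ((hk i).mono fun z hz => hz.1) ?_
      intro z hz
      exact (prj_diag_ne (h0 z (ball_subset_closedBall hz.1))).1 hz.2
    refine h1.congr fun z hz => ?_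
    have hz0 := h0 z (ball_subset_closedBall hz.1)
    exact prj_ratio hz0 k i ((prj_diag_ne hz0).1 hz.2)

/-- closure of `PHol` under uniform limits -/
theorem phol_of_tendsto {F : ℂ → ι → ι → ℂ} {G : ℕ → ℂ → ι → ι → ℂ} (hG : ∀ m, PHol (G m))
    (h : TendstoUniformlyOn G F atTop (closedBall 0 1)) : PHol F where
  cont := h.continuousOn (Eventually.of_forall fun m => (hG m).cont).frequently
  rp := fun z hz => isClosed_isRP.mem_of_tendsto (h.tendsto_at hz)
    (Eventually.of_forall fun m => (hG m).rp z hz)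
  hol := by
    have hcont : ContinuousOn F (closedBall 0 1) :=
      h.continuousOn (Eventually.of_forall fun m => (hG m).cont).frequently
    intro i k z0 hz0
    obtain ⟨hz0b, hz0n⟩ := hz0
    -- entry continuity
    have hent : ContinuousOn (fun z => F z i i) (closedBall 0 1) :=
      (by fun_prop : Continuous fun A : ι → ι → ℂ => A i i).comp_continuousOn hcont
    set c := ‖F z0 i i‖ / 2 with hc
    have hcpos : 0 < c := by have := norm_pos_iff.2 hz0n; positivity
    -- small ball
    have hnear : ∀ᶠ z in 𝓝 z0, z ∈ ball (0 : ℂ) 1 ∧ c < ‖F z i i‖ := by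
      have h1 : ContinuousAt (fun z => ‖F z i i‖) z0 :=
        ((hent.mono ball_subset_closedBall).continuousAt (isOpen_ball.mem_nhds hz0b)).norm
      have h2 : c < ‖F z0 i i‖ := by rw [hc]; have := norm_pos_iff.2 hz0n; linarith
      filter_upwards [isOpen_ball.mem_nhds hz0b, h1.eventually (lt_mem_nhds h2)] with z a b
      exact ⟨a, b⟩
    obtain ⟨r, hr, hball⟩ := Metric.eventually_nhds_iff_ball.1 hnear
    -- uniform convergence of entries
    have hunif : ∀ a b, TendstoUniformlyOn (fun m z => G m z a b) (fun z => F z a b) atTop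
        (closedBall 0 1) := by
      intro a b
      have hu : UniformContinuous fun A : ι → ι → ℂ => A a b :=
        (Pi.uniformContinuous_proj _ b).comp (Pi.uniformContinuous_proj _ a)
      exact hu.comp_tendstoUniformlyOn h
    have hsub : ball z0 r ⊆ closedBall (0 : ℂ) 1 := fun z hz => ball_subset_closedBall (hball z hz).1
    -- eventually the denominators are bounded below
    have hden : ∀ᶠ m in atTop, ∀ z ∈ ball z0 r, c / 2 < ‖G m z i i‖ := by
      have := Metric.tendstoUniformlyOn_iff.1 (hunif i i) (c / 2) (by positivity)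
      filter_upwards [this] with m hm z hz
      have h1 := hm z (hsub hz)
      have h2 := (hball z hz).2
      rw [dist_eq_norm] at h1
      have h3 : ‖F z i i‖ ≤ ‖F z i i - G m z i i‖ + ‖G m z i i‖ := by
        simpa using norm_add_le (F z i i - G m z i i) (G m z i i)
      linarith
    -- holomorphy of approximations
    have hhol : ∀ᶠ m in atTop, DifferentiableOn ℂ (fun z => G m z k i / G m z i i) (ball z0 r) := by
      filter_upwards [hden] with m hm
      refine ((hG m).hol i k).mono fun z hz => ⟨(hball z hz).1, ?_⟩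
      have := hm z hz
      intro hc'
      rw [hc', norm_zero] at this
      linarith
    -- uniform convergence of the ratios
    have hratio : TendstoUniformlyOn (fun m z => G m z k i / G m z i i)
        (fun z => F z k i / F z i i) atTop (ball z0 r) := by
      rw [Metric.tendstoUniformlyOn_iff]
      intro ε hε
      have e1 := Metric.tendstoUniformlyOn_iff.1 (hunif k i) (min (ε * c / 8) 1) (by positivity)
      have e2 := Metric.tendstoUniformlyOn_iff.1 (hunif i i) (ε * c ^ 2 / 8) (by positivity)
      filter_upwards [hden, e1, e2] with m hm h1 h2 z hz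
      have g1 := h1 z (hsub hz)
      have g2 := h2 z (hsub hz)
      have g3 := hm z hz
      have g4 := (hball z hz).2
      rw [dist_eq_norm] at g1 g2
      have hFn : F z i i ≠ 0 := fun h0 => by rw [h0, norm_zero] at g4; linarith
      have hGn : G m z i i ≠ 0 := fun h0 => by rw [h0, norm_zero] at g3; linarith
      have hFk : ‖F z k i‖ ≤ 1 :=
        (isClosed_isRP.mem_of_tendsto (h.tendsto_at (hsub hz))
          (Eventually.of_forall fun m => (hG m).rp z (hsub hz)) : IsRP (F z)).norm_entry_le k i
      rw [dist_eq_norm]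
      have key : F z k i / F z i i - G m z k i / G m z i i =
          (F z k i * (G m z i i - F z i i) + (F z k i - G m z k i) * F z i i) /
            (F z i i * G m z i i) := by
        field_simp
        ring
      rw [key, norm_div, norm_mul, div_lt_iff₀ (by positivity)]
      have n1 : ‖F z k i * (G m z i i - F z i i) + (F z k i - G m z k i) * F z i i‖ ≤
          1 * (ε * c ^ 2 / 8) + (ε * c / 8) * ‖F z i i‖ := by
        refine (norm_add_le _ _).trans (add_le_add ?_ ?_)
        · rw [norm_mul]
          refine mul_le_mul hFk ?_ (norm_nonneg _) zero_le_one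
          rw [norm_sub_rev]; exact g2.le
        · rw [norm_mul]
          exact mul_le_mul_of_nonneg_right (g1.le.trans (min_le_left _ _)) (norm_nonneg _)
      have n2 : 1 * (ε * c ^ 2 / 8) + (ε * c / 8) * ‖F z i i‖ < ε * (‖F z i i‖ * (c / 2)) := by
        nlinarith [mul_pos hε hcpos, mul_pos (mul_pos hε hcpos) (sub_pos.2 g4)]
      have n3 : ε * (‖F z i i‖ * (c / 2)) ≤ ε * (‖F z i i‖ * ‖G m z i i‖) := by
        have : 0 ≤ ‖F z i i‖ := norm_nonneg _
        gcongr
      linarith
    have hloc : DifferentiableOn ℂ (fun z => F z k i / F z i i) (ball z0 r) :=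
      hratio.tendstoLocallyUniformlyOn.differentiableOn hhol isOpen_ball
    exact (hloc.differentiableAt (isOpen_ball.mem_nhds (mem_ball_self hr))).differentiableWithinAt

end Crest.Agent.R269.PHol_173

end
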