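import Mathlib

/-!
# Row 269 (S0411), Part 5 of the blueprint: the abstract path theorem

Formalism independent.  `HasLevi φ L` : the Levi form `∂_w ∂_{w̄} φ (0) = L`, defined by the mean over the
four points `r, ir, -r, -ir` (no integral).  `Scales D` : the scaled norms on arcs.  `Admissible` : what a
functional has to satisfy.  `path` : the path theorem (5.2).
-/

open Filter Topology Asymptotics Complex

namespace Crest.Agent.R269.PathAbs_427

noncomputable section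

/-! ### Levi forms by four point means -/

section Levi

variable {E F : Type*} [NormedAddCommGroup E] [NormedSpace ℝ E]
  [NormedAddCommGroup F] [NormedSpace ℝ F]

/-- The mean of `φ` over the four points `r, ir, -r, -ir`. -/
def m4 (φ : ℂ → E) (r : ℝ) : E :=
  (4 : ℝ)⁻¹ • (φ (r : ℂ) + φ ((r : ℂ) * I) + φ (-(r : ℂ)) + φ (-((r : ℂ) * I)))

/-- `φ` has Levi form `L` at `0` (i.e. `∂_w ∂_{w̄} φ (0) = L`). -/
def HasLevi (φ : ℂ → E) (L : E) : Prop :=
  Tendsto (fun r : ℝ => (r ^ 2)⁻¹ • (m4 φ r - φ 0)) (𝓝[>] 0) (𝓝 L)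

theorem HasLevi.unique {φ : ℂ → E} {L L' : E} (h : HasLevi φ L) (h' : HasLevi φ L') : L = L' :=
  tendsto_nhds_unique h h'

theorem m4_add (φ ψ : ℂ → E) (r : ℝ) : m4 (fun w => φ w + ψ w) r = m4 φ r + m4 ψ r := by
  simp only [m4, ← smul_add]
  congr 1
  abel

theorem m4_sub (φ ψ : ℂ → E) (r : ℝ) : m4 (fun w => φ w - ψ w) r = m4 φ r - m4 ψ r := by
  simp only [m4, ← smul_sub]
  congr 1
  abel

theorem m4_const (c : E) (r : ℝ) : m4 (fun _ => c) r = c := by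
  simp only [m4]
  have : c + c + c + c = (4 : ℝ) • c := by
    rw [show (4 : ℝ) = 1 + 1 + 1 + 1 by norm_num, add_smul, add_smul, add_smul, one_smul]
  rw [this, smul_smul]
  norm_num

theorem m4_clm (φ : ℂ → E) (T : E →L[ℝ] F) (r : ℝ) : m4 (fun w => T (φ w)) r = T (m4 φ r) := by
  simp only [m4, map_smul, map_add]

theorem HasLevi.add {φ ψ : ℂ → E} {L L' : E} (h : HasLevi φ L) (h' : HasLevi ψ L') :
    HasLevi (fun w => φ w + ψ w) (L + L') := by
  refine (Tendsto.add h h').congr fun r => ?_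
  rw [m4_add]
  module

theorem HasLevi.sub {φ ψ : ℂ → E} {L L' : E} (h : HasLevi φ L) (h' : HasLevi ψ L') :
    HasLevi (fun w => φ w - ψ w) (L - L') := by
  refine (Tendsto.sub h h').congr fun r => ?_
  rw [m4_sub]
  module

theorem hasLevi_const (c : E) : HasLevi (fun _ => c) (0 : E) := by
  refine tendsto_const_nhds.congr fun r => ?_
  rw [m4_const, sub_self, smul_zero]

theorem HasLevi.clm {φ : ℂ → E} {L : E} (h : HasLevi φ L) (T : E →L[ℝ] F) :
    HasLevi (fun w => T (φ w)) (T L) := by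
  refine ((T.continuous.tendsto L).comp h).congr fun r => ?_
  rw [m4_clm]
  simp only [Function.comp, map_smul, map_sub]

theorem HasLevi.const_smul {φ : ℂ → E} {L : E} (h : HasLevi φ L) (c : ℝ) :
    HasLevi (fun w => c • φ w) (c • L) := by
  simpa using h.clm (c • ContinuousLinearMap.id ℝ E)

theorem HasLevi.const_mul {φ : ℂ → ℝ} {L : ℝ} (h : HasLevi φ L) (c : ℝ) :
    HasLevi (fun w => c * φ w) (c * L) := by
  simpa using h.const_smul c

theorem HasLevi.neg {φ : ℂ → E} {L : E} (h : HasLevi φ L) : HasLevi (fun w => - φ w) (-L) := by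
  simpa using h.const_smul (-1)

theorem HasLevi.add_const {φ : ℂ → E} {L : E} (h : HasLevi φ L) (c : E) :
    HasLevi (fun w => φ w + c) L := by
  simpa using h.add (hasLevi_const c)

theorem HasLevi.sub_const {φ : ℂ → E} {L : E} (h : HasLevi φ L) (c : E) :
    HasLevi (fun w => φ w - c) L := by
  simpa using h.sub (hasLevi_const c)

theorem HasLevi.sum {ι : Type*} (s : Finset ι) {φ : ι → ℂ → E} {L : ι → E}
    (h : ∀ i ∈ s, HasLevi (φ i) (L i)) : HasLevi (fun w => ∑ i ∈ s, φ i w) (∑ i ∈ s, L i) := by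
  classical
  induction s using Finset.induction_on with
  | empty => simpa using hasLevi_const (0 : E)
  | insert a s ha ih =>
    simp only [Finset.sum_insert ha]
    exact (h a (by simp)).add (ih fun i hi => h i (by simp [hi]))

/-- the four points tend to `0`. -/
theorem tendsto_pt (u : ℂ) : Tendsto (fun r : ℝ => (r : ℂ) * u) (𝓝[>] 0) (𝓝 0) := by
  have : Tendsto (fun r : ℝ => (r : ℂ) * u) (𝓝 0) (𝓝 (((0 : ℝ) : ℂ) * u)) :=
    ((continuous_ofReal.mul continuous_const).tendsto 0)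
  simpa using this.mono_left nhdsWithin_le_nhds

theorem m4_eq (φ : ℂ → E) (r : ℝ) : m4 φ r =
    (4 : ℝ)⁻¹ • (φ ((r : ℂ) * 1) + φ ((r : ℂ) * I) + φ ((r : ℂ) * (-1)) + φ ((r : ℂ) * (-I))) := by
  simp [m4]

theorem hasLevi_of_isLittleO {φ : ℂ → E} (h : φ =o[𝓝 0] fun w => ‖w‖ ^ 2) : HasLevi φ 0 := by
  have h0 : φ 0 = 0 := by
    have := (h.def one_pos).self_of_nhds
    simpa using this
  have key : ∀ u : ℂ, ‖u‖ = 1 → (fun r : ℝ => φ ((r : ℂ) * u)) =o[𝓝[>] 0] fun r : ℝ => r ^ 2 := by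
    intro u hu
    have := h.comp_tendsto (tendsto_pt u)
    refine this.congr (fun _ => rfl) fun r => ?_
    simp [Function.comp, hu]
  have hsum : (fun r : ℝ => m4 φ r - φ 0) =o[𝓝[>] 0] fun r : ℝ => r ^ 2 := by
    simp only [m4_eq, h0, sub_zero]
    refine IsLittleO.const_smul_left ?_ _
    refine (((key 1 (by simp)).add (key I (by simp))).add (key (-1) (by simp))).add (key (-I) (by simp))
  exact hsum.tendsto_inv_smul_nhds_zero

theorem HasLevi.congr_isLittleO {φ ψ : ℂ → E} {L : E} (h : HasLevi φ L)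
    (h' : (fun w => ψ w - φ w) =o[𝓝 0] fun w => ‖w‖ ^ 2) : HasLevi ψ L := by
  have := h.add (hasLevi_of_isLittleO h')
  simpa using this

theorem HasLevi.congr_eventuallyEq {φ ψ : ℂ → E} {L : E} (h : HasLevi φ L)
    (h' : ψ =ᶠ[𝓝 0] φ) : HasLevi ψ L := by
  refine h.congr_isLittleO ?_
  refine IsLittleO.congr' (isLittleO_zero _ _) (h'.mono fun w hw => ?_) EventuallyEq.rfl
  simp [hw]

/-- Real-homogeneous quadratic maps. -/
theorem hasLevi_quadratic {Q : ℂ → E} (hQ : ∀ (r : ℝ) (w : ℂ), Q ((r : ℂ) * w) = r ^ 2 • Q w) :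
    HasLevi Q ((2 : ℝ)⁻¹ • (Q 1 + Q I)) := by
  have h0 : Q 0 = 0 := by simpa using hQ 0 0
  have hm1 : Q (-1) = Q 1 := by simpa using hQ (-1) 1
  have hmI : Q (-I) = Q I := by simpa using hQ (-1) I
  refine tendsto_const_nhds.congr' ?_
  filter_upwards [self_mem_nhdsWithin] with r (hr : 0 < r)
  rw [m4_eq, hQ, hQ, hQ, hQ, h0, sub_zero, hm1, hmI, ← smul_add, ← smul_add, ← smul_add,
    smul_comm (4 : ℝ)⁻¹, smul_smul, inv_mul_cancel₀ (by positivity), one_smul]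
  have : Q 1 + Q I + Q 1 + Q I = (2 : ℝ) • (Q 1 + Q I) := by
    rw [two_smul]; abel
  rw [this, smul_smul]
  norm_num

/-- If `φ ≤ φ 0` near `0`, then the Levi form is `≤ 0`. -/
theorem HasLevi.nonpos {φ : ℂ → ℝ} {L : ℝ} (h : HasLevi φ L) (hle : ∀ᶠ w in 𝓝 0, φ w ≤ φ 0) :
    L ≤ 0 := by
  refine le_of_tendsto h ?_
  have key : ∀ u : ℂ, ∀ᶠ r : ℝ in 𝓝[>] 0, φ ((r : ℂ) * u) ≤ φ 0 := fun u => (tendsto_pt u).eventually hle
  filter_upwards [key 1, key I, key (-1), key (-I)] with r h1 h2 h3 h4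
  rw [m4_eq, smul_eq_mul, smul_eq_mul]
  refine mul_nonpos_of_nonneg_of_nonpos (by positivity) ?_
  linarith

/-- second order Taylor expansion of a function of one real variable at `a`. -/
def HasTaylor2 (g : ℝ → ℝ) (a g1 g2 : ℝ) : Prop :=
  (fun x => g x - g a - g1 * (x - a) - g2 / 2 * (x - a) ^ 2) =o[𝓝 a] fun x => (x - a) ^ 2

/-- Chain rule for the Levi form. -/
theorem HasLevi.comp {φ : ℂ → ℝ} {L : ℝ} {ℓ : ℂ →L[ℝ] ℝ} (hL : HasLevi φ L)
    (hd : HasFDerivAt φ ℓ 0) {g : ℝ → ℝ} {g1 g2 : ℝ} (hg : HasTaylor2 g (φ 0) g1 g2) :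
    HasLevi (fun w => g (φ w)) (g1 * L + g2 / 4 * (ℓ 1 ^ 2 + ℓ I ^ 2)) := by
  have hO : (fun w => φ w - φ 0) =O[𝓝 0] fun w : ℂ => ‖w‖ := by
    have := hd.isBigO_sub
    simpa using this.norm_right
  have ho : (fun w => φ w - φ 0 - ℓ w) =o[𝓝 0] fun w : ℂ => ‖w‖ := by
    have := hd.isLittleO
    simpa using this.norm_right
  have hℓO : (fun w : ℂ => ℓ w) =O[𝓝 0] fun w : ℂ => ‖w‖ := by
    simpa using (ℓ.isBigO_id (𝓝 0)).norm_right
  have hsq : (fun w => (φ w - φ 0) ^ 2 - ℓ w ^ 2) =o[𝓝 0] fun w : ℂ => ‖w‖ ^ 2 := by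
    have := ho.mul_isBigO (hO.add hℓO)
    refine this.congr (fun w => by ring) (fun w => by ring)
  have hT : (fun w => g (φ w) - g (φ 0) - g1 * (φ w - φ 0) - g2 / 2 * (φ w - φ 0) ^ 2)
      =o[𝓝 0] fun w : ℂ => ‖w‖ ^ 2 := by
    have h1 := IsLittleO.comp_tendsto hg hd.continuousAt
    have h2 : ((fun x => (x - φ 0) ^ 2) ∘ φ) =O[𝓝 0] fun w : ℂ => ‖w‖ ^ 2 := by
      simpa [Function.comp_def] using hO.pow 2
    exact h1.trans_isBigO h2
  have hquad : HasLevi (fun w => ℓ w ^ 2) ((2 : ℝ)⁻¹ • (ℓ 1 ^ 2 + ℓ I ^ 2)) := by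
    refine hasLevi_quadratic (Q := fun w => ℓ w ^ 2) fun r w => ?_
    have : ℓ ((r : ℂ) * w) = r * ℓ w := by
      rw [← smul_eq_mul (r : ℝ), ← map_smul]; simp
    simp only [this, smul_eq_mul]
    ring
  have hmain : HasLevi (fun w => g1 * (φ w - φ 0) + g2 / 2 * ℓ w ^ 2 + g (φ 0))
      (g1 * L + g2 / 4 * (ℓ 1 ^ 2 + ℓ I ^ 2)) := by
    have := ((hL.sub_const (φ 0)).const_mul g1).add ((hquad).const_mul (g2 / 2))
    have := this.add_const (g (φ 0))
    convert this using 1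
    simp only [smul_eq_mul]
    ring
  refine hmain.congr_isLittleO ?_
  have := hT.add (hsq.const_mul_left (g2 / 2))
  refine this.congr (fun w => by ring) (fun w => rfl)

theorem hasTaylor2_exp (μ a : ℝ) :
    HasTaylor2 (fun x => Real.exp (μ * x)) a (μ * Real.exp (μ * a)) (μ ^ 2 * Real.exp (μ * a)) := by
  have h1 := Real.exp_sub_sum_range_succ_isLittleO_pow 2
  have ht : Tendsto (fun x : ℝ => μ * (x - a)) (𝓝 a) (𝓝 0) := by
    have : Tendsto (fun x : ℝ => μ * (x - a)) (𝓝 a) (𝓝 (μ * (a - a))) :=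
      (continuous_const.mul (continuous_id.sub continuous_const)).tendsto a
    simpa using this
  have h2 := h1.comp_tendsto ht
  have h3 : ((fun x : ℝ => x ^ 2) ∘ fun x : ℝ => μ * (x - a)) =O[𝓝 a] fun x => (x - a) ^ 2 := by
    refine IsBigO.of_bound (μ ^ 2) (Eventually.of_forall fun x => ?_)
    simp [mul_pow]
  have h4 := (h2.trans_isBigO h3).const_mul_left (Real.exp (μ * a))
  refine h4.congr (fun x => ?_) (fun x => rfl)
  have : Real.exp (μ * x) = Real.exp (μ * a) * Real.exp (μ * (x - a)) := by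
    rw [← Real.exp_add]; congr 1; ring
  simp only [Function.comp, Finset.sum_range_succ, Finset.sum_range_zero, this]
  simp
  ring

/-- Levi form of `exp (μ φ)`. -/
theorem HasLevi.exp {φ : ℂ → ℝ} {L : ℝ} {ℓ : ℂ →L[ℝ] ℝ} (hL : HasLevi φ L)
    (hd : HasFDerivAt φ ℓ 0) (μ : ℝ) :
    HasLevi (fun w => Real.exp (μ * φ w))
      (Real.exp (μ * φ 0) * (μ * L + μ ^ 2 * (ℓ 1 ^ 2 + ℓ I ^ 2) / 4)) := by
  have := hL.comp hd (hasTaylor2_exp μ (φ 0))
  convert this using 1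
  ring

/-- Levi form of `‖q‖²` for a map into a real inner product space. -/
theorem HasLevi.norm_sq {H : Type*} [NormedAddCommGroup H] [InnerProductSpace ℝ H] {q : ℂ → H}
    {Lq : H} {A : ℂ →L[ℝ] H} (hL : HasLevi q Lq) (hd : HasFDerivAt q A 0) :
    HasLevi (fun w => ‖q w‖ ^ 2) ((‖A 1‖ ^ 2 + ‖A I‖ ^ 2) / 2 + 2 * inner ℝ (q 0) Lq) := by
  have hO : (fun w => q w - q 0) =O[𝓝 0] fun w : ℂ => ‖w‖ := by
    have := hd.isBigO_sub
    simpa using this.norm_right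
  have ho : (fun w => q w - q 0 - A w) =o[𝓝 0] fun w : ℂ => ‖w‖ := by
    have := hd.isLittleO
    simpa using this.norm_right
  have hAO : (fun w : ℂ => A w) =O[𝓝 0] fun w : ℂ => ‖w‖ := by
    simpa using (A.isBigO_id (𝓝 0)).norm_right
  have hsq : (fun w => ‖q w - q 0‖ ^ 2 - ‖A w‖ ^ 2) =o[𝓝 0] fun w : ℂ => ‖w‖ ^ 2 := by
    have h1 : (fun w => ‖q w - q 0‖ - ‖A w‖) =o[𝓝 0] fun w : ℂ => ‖w‖ := by
      refine IsBigO.trans_isLittleO ?_ ho
      refine IsBigO.of_bound 1 (Eventually.of_forall fun w => ?_)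
      simpa using abs_norm_sub_norm_le (q w - q 0) (A w)
    have h2 := h1.mul_isBigO (hO.norm_left.add hAO.norm_left)
    refine h2.congr (fun w => by ring) (fun w => by ring)
  have hquad : HasLevi (fun w => ‖A w‖ ^ 2) ((2 : ℝ)⁻¹ • (‖A 1‖ ^ 2 + ‖A I‖ ^ 2)) := by
    refine hasLevi_quadratic (Q := fun w => ‖A w‖ ^ 2) fun r w => ?_
    have : A ((r : ℂ) * w) = r • A w := by
      rw [← map_smul]; simp
    simp only [this, norm_smul, smul_eq_mul, mul_pow, Real.norm_eq_abs, sq_abs]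
  have h1 : HasLevi (fun w => inner ℝ (q 0) (q w)) (inner ℝ (q 0) Lq) := by
    simpa using hL.clm (innerSL ℝ (q 0))
  have hmain : HasLevi (fun w => ‖A w‖ ^ 2 + 2 * inner ℝ (q 0) (q w) - ‖q 0‖ ^ 2)
      ((‖A 1‖ ^ 2 + ‖A I‖ ^ 2) / 2 + 2 * inner ℝ (q 0) Lq) := by
    have := (hquad.add (h1.const_mul 2)).sub_const (‖q 0‖ ^ 2)
    convert this using 1
    simp only [smul_eq_mul]
    ring
  refine hmain.congr_isLittleO (hsq.congr (fun w => ?_) fun w => rfl)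
  rw [norm_sub_sq_real, real_inner_comm (q 0) (q w)]
  ring

end Levi

/-! ### Penalty calculus -/

/-- What the path theorem needs to know about the squared scaled distance `ψ(w) = y_a(f_w, g)²`
along a family of discs. -/
def PenVar (C : ℝ) (ψ : ℂ → ℝ) : Prop :=
  ∃ (ℓ : ℂ →L[ℝ] ℝ) (L : ℝ), HasFDerivAt ψ ℓ 0 ∧ HasLevi ψ L ∧ L ≤ C ∧
    (ℓ 1) ^ 2 ≤ C ^ 2 * ψ 0 ∧ (ℓ I) ^ 2 ≤ C ^ 2 * ψ 0

/-- `ψ = ‖q‖²` for a map `q` into a real inner product space with bounded first derivative and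
bounded Levi form. -/
theorem penVar_of_inner {H : Type*} [NormedAddCommGroup H] [InnerProductSpace ℝ H] {q : ℂ → H}
    {Lq : H} {A : ℂ →L[ℝ] H} {C R : ℝ} (hL : HasLevi q Lq) (hd : HasFDerivAt q A 0)
    (hA1 : ‖A 1‖ ≤ C) (hAI : ‖A I‖ ≤ C) (hLq : ‖Lq‖ ≤ C) (hR : ‖q 0‖ ≤ R) :
    PenVar (C ^ 2 + 2 * C * R + 2 * C) (fun w => ‖q w‖ ^ 2) := by
  have hC : 0 ≤ C := (norm_nonneg _).trans hA1
  have hR0 : 0 ≤ R := (norm_nonneg _).trans hR
  have hd2 : HasFDerivAt (fun w => ‖q w‖ ^ 2) (2 • (innerSL ℝ (q 0)).comp A) 0 := hd.norm_sq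
  refine ⟨_, _, hd2, hL.norm_sq hd, ?_, ?_, ?_⟩
  · have h1 : inner ℝ (q 0) Lq ≤ R * C :=
      (real_inner_le_norm _ _).trans (mul_le_mul hR hLq (norm_nonneg _) hR0)
    have h2 : ‖A 1‖ ^ 2 ≤ C ^ 2 := pow_le_pow_left₀ (norm_nonneg _) hA1 2
    have h3 : ‖A I‖ ^ 2 ≤ C ^ 2 := pow_le_pow_left₀ (norm_nonneg _) hAI 2
    nlinarith
  · have h1 : |inner ℝ (q 0) (A 1)| ≤ ‖q 0‖ * C :=
      (abs_real_inner_le_norm _ _).trans (mul_le_mul_of_nonneg_left hA1 (norm_nonneg _))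
    have h2 : (inner ℝ (q 0) (A 1)) ^ 2 ≤ (‖q 0‖ * C) ^ 2 := sq_le_sq' (by linarith [neg_abs_le (inner ℝ (q 0) (A 1))]) (le_of_abs_le h1)
    have h3 : (2 • (innerSL ℝ (q 0)).comp A) 1 = 2 * inner ℝ (q 0) (A 1) := by simp
    rw [h3]
    have h4 : (2 * C) ^ 2 ≤ (C ^ 2 + 2 * C * R + 2 * C) ^ 2 := by
      apply pow_le_pow_left₀ (by positivity)
      nlinarith [mul_nonneg hC hR0, sq_nonneg C]
    calc (2 * inner ℝ (q 0) (A 1)) ^ 2 = 4 * (inner ℝ (q 0) (A 1)) ^ 2 := by ring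
      _ ≤ 4 * (‖q 0‖ * C) ^ 2 := by linarith
      _ = (2 * C) ^ 2 * ‖q 0‖ ^ 2 := by ring
      _ ≤ _ := mul_le_mul_of_nonneg_right h4 (by positivity)
  · have h1 : |inner ℝ (q 0) (A I)| ≤ ‖q 0‖ * C :=
      (abs_real_inner_le_norm _ _).trans (mul_le_mul_of_nonneg_left hAI (norm_nonneg _))
    have h2 : (inner ℝ (q 0) (A I)) ^ 2 ≤ (‖q 0‖ * C) ^ 2 := sq_le_sq' (by linarith [neg_abs_le (inner ℝ (q 0) (A I))]) (le_of_abs_le h1)
    have h3 : (2 • (innerSL ℝ (q 0)).comp A) I = 2 * inner ℝ (q 0) (A I) := by simp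
    rw [h3]
    have h4 : (2 * C) ^ 2 ≤ (C ^ 2 + 2 * C * R + 2 * C) ^ 2 := by
      apply pow_le_pow_left₀ (by positivity)
      nlinarith [mul_nonneg hC hR0, sq_nonneg C]
    calc (2 * inner ℝ (q 0) (A I)) ^ 2 = 4 * (inner ℝ (q 0) (A I)) ^ 2 := by ring
      _ ≤ 4 * (‖q 0‖ * C) ^ 2 := by linarith
      _ = (2 * C) ^ 2 * ‖q 0‖ ^ 2 := by ring
      _ ≤ _ := mul_le_mul_of_nonneg_right h4 (by positivity)

/-- The penalty `σ⁻¹ exp (Y / (C₀ σ))`, `σ` = shifted time, `Y = y²`. -/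
def pen (C0 σ Y : ℝ) : ℝ := σ⁻¹ * Real.exp (Y / (C0 * σ))

/-- twice the guaranteed decrease rate of `pen`. -/
def rate (C0 σ Y : ℝ) : ℝ := (σ ^ 2)⁻¹ * (1 + Y / (C0 * σ)) * Real.exp (Y / (C0 * σ))

theorem pen_pos {C0 σ Y : ℝ} (hσ : 0 < σ) : 0 < pen C0 σ Y := by
  unfold pen; positivity

theorem rate_nonneg {C0 σ Y : ℝ} (hσ : 0 < σ) (hC0 : 0 < C0) (hY : 0 ≤ Y) : 0 ≤ rate C0 σ Y := by
  unfold rate; positivity

/-- time decrease of the penalty. -/
theorem pen_sub_ge {C0 σ Y h Ymax : ℝ} (hC0 : 0 < C0) (hσ : 0 < σ) (hY : 0 ≤ Y) (hYm : Y ≤ Ymax)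
    (hh : 0 ≤ h) (h1 : h ≤ σ / 4) (h2 : 4 * Ymax * h ≤ C0 * σ ^ 2) :
    h * (rate C0 σ Y / 2) ≤ pen C0 σ Y - pen C0 (σ + h) Y := by
  unfold pen rate
  set a := Y / (C0 * σ) with ha
  set b := Y / (C0 * (σ + h)) with hb
  have hab : a - b = Y * h / (C0 * σ * (σ + h)) := by
    rw [ha, hb]; field_simp; ring
  have hab0 : 0 ≤ a - b := by rw [hab]; positivity
  have hab1 : a - b ≤ 1 / 4 := by
    rw [hab, div_le_iff₀ (by positivity)]
    have : Y * h ≤ Ymax * h := mul_le_mul_of_nonneg_right hYm hh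
    nlinarith [mul_nonneg (mul_nonneg hC0.le hσ.le) hh]
  have hea : Real.exp a = Real.exp b * Real.exp (a - b) := by rw [← Real.exp_add]; congr 1; ring
  have he1 : 1 + (a - b) ≤ Real.exp (a - b) := by linarith [Real.add_one_le_exp (a - b)]
  have heb : Real.exp b = Real.exp a * Real.exp (-(a - b)) := by rw [← Real.exp_add]; congr 1; ring
  have he2 : 3 / 4 ≤ Real.exp (-(a - b)) := by linarith [Real.add_one_le_exp (-(a - b))]
  have hb34 : 3 / 4 * Real.exp a ≤ Real.exp b := by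
    rw [heb]; nlinarith [Real.exp_pos a]
  have step1 : Real.exp b * (σ⁻¹ * (1 + (a - b)) - (σ + h)⁻¹) ≤
      σ⁻¹ * Real.exp a - (σ + h)⁻¹ * Real.exp b := by
    have : Real.exp b * (1 + (a - b)) ≤ Real.exp a := by
      rw [hea]; exact mul_le_mul_of_nonneg_left he1 (Real.exp_pos b).le
    have h3 : σ⁻¹ * (Real.exp b * (1 + (a - b))) ≤ σ⁻¹ * Real.exp a :=
      mul_le_mul_of_nonneg_left this (by positivity)
    linarith
  refine le_trans ?_ step1
  have step2 : σ⁻¹ * (1 + (a - b)) - (σ + h)⁻¹ = h * (σ * (σ + h))⁻¹ * (1 + a) := by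
    rw [hab, ha]; field_simp; ring
  rw [step2]
  have ha0 : 0 ≤ a := by rw [ha]; positivity
  have hinv : 4 / 5 * (σ ^ 2)⁻¹ ≤ (σ * (σ + h))⁻¹ := by
    rw [show 4 / 5 * (σ ^ 2)⁻¹ = (5 / 4 * σ ^ 2)⁻¹ by rw [mul_inv]; norm_num]
    apply inv_anti₀ (by positivity)
    nlinarith
  have h5 : 1 / 2 * (σ ^ 2)⁻¹ * Real.exp a ≤ Real.exp b * (σ * (σ + h))⁻¹ := by
    calc 1 / 2 * (σ ^ 2)⁻¹ * Real.exp a ≤ (3 / 4 * Real.exp a) * (4 / 5 * (σ ^ 2)⁻¹) := by
          have : 0 ≤ (σ ^ 2)⁻¹ * Real.exp a := by positivity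
          nlinarith
      _ ≤ Real.exp b * (σ * (σ + h))⁻¹ :=
          mul_le_mul hb34 hinv (by positivity) (by positivity)
  have h6 : 0 ≤ h * (1 + a) := by positivity
  calc h * ((σ ^ 2)⁻¹ * (1 + a) * Real.exp a / 2)
      = (1 / 2 * (σ ^ 2)⁻¹ * Real.exp a) * (h * (1 + a)) := by ring
    _ ≤ (Real.exp b * (σ * (σ + h))⁻¹) * (h * (1 + a)) := mul_le_mul_of_nonneg_right h5 h6
    _ = _ := by ring

/-- Levi form of the penalty along a family. -/
theorem penVar_levi {C C0 σ : ℝ} {n : ℕ} {ψ : ℂ → ℝ} (hψ : PenVar C ψ) (hC : 0 ≤ C) (h0 : 0 ≤ ψ 0)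
    (hσ : 0 < σ) (hC0 : 2 * (n + 1) * (C + C ^ 2 + 1) ≤ C0) :
    ∃ L', HasLevi (fun w => pen C0 σ (ψ w)) L' ∧ n * L' ≤ rate C0 σ (ψ 0) / 2 := by
  obtain ⟨ℓ, L, hd, hL, hLC, h1, h2⟩ := hψ
  have hC0pos : 0 < C0 := lt_of_lt_of_le (by positivity) hC0
  set μ : ℝ := (C0 * σ)⁻¹ with hμ
  have hμpos : 0 < μ := by positivity
  have hlevi := (hL.exp hd μ).const_mul σ⁻¹
  refine ⟨_, (hlevi.congr_eventuallyEq (Eventually.of_forall fun w => ?_)), ?_⟩
  · simp only [pen, hμ]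
    congr 2
    rw [div_eq_inv_mul]
  · have e1 : ψ 0 / (C0 * σ) = μ * ψ 0 := by rw [hμ, div_eq_inv_mul]
    unfold rate
    rw [e1]
    have hexp := Real.exp_pos (μ * ψ 0)
    have key : n * (μ * L + μ ^ 2 * (ℓ 1 ^ 2 + ℓ I ^ 2) / 4) ≤ σ⁻¹ * (1 + μ * ψ 0) / 2 := by
      have hA : μ * L + μ ^ 2 * (ℓ 1 ^ 2 + ℓ I ^ 2) / 4 ≤ μ * C + μ ^ 2 * (C ^ 2 * ψ 0) / 2 := by
        have := mul_le_mul_of_nonneg_left hLC hμpos.le
        have h3 : μ ^ 2 * (ℓ 1 ^ 2 + ℓ I ^ 2) ≤ μ ^ 2 * (C ^ 2 * ψ 0 + C ^ 2 * ψ 0) :=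
          mul_le_mul_of_nonneg_left (add_le_add h1 h2) (by positivity)
        linarith
      have hB : μ * C + μ ^ 2 * (C ^ 2 * ψ 0) / 2 ≤ μ * (C + C ^ 2 + 1) * (1 + μ * ψ 0) := by
        have := mul_nonneg hμpos.le h0
        have h4 : 0 ≤ μ * (μ * ψ 0) := by positivity
        nlinarith [mul_nonneg h4 hC, mul_nonneg h4 (sq_nonneg C), mul_nonneg hμpos.le (sq_nonneg C)]
      have hσμ : σ⁻¹ = C0 * μ := by rw [hμ]; field_simp
      have hn : (0 : ℝ) ≤ n := Nat.cast_nonneg n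
      calc n * (μ * L + μ ^ 2 * (ℓ 1 ^ 2 + ℓ I ^ 2) / 4)
          ≤ n * (μ * (C + C ^ 2 + 1) * (1 + μ * ψ 0)) :=
            mul_le_mul_of_nonneg_left (hA.trans hB) hn
        _ = (n * (C + C ^ 2 + 1)) * (μ * (1 + μ * ψ 0)) := by ring
        _ ≤ (C0 / 2) * (μ * (1 + μ * ψ 0)) := by
            apply mul_le_mul_of_nonneg_right _ (by positivity)
            nlinarith [sq_nonneg C]
        _ = _ := by rw [hσμ]; ring
    calc (n : ℝ) * (σ⁻¹ * (Real.exp (μ * ψ 0) * (μ * L + μ ^ 2 * (ℓ 1 ^ 2 + ℓ I ^ 2) / 4)))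
        = σ⁻¹ * Real.exp (μ * ψ 0) * (n * (μ * L + μ ^ 2 * (ℓ 1 ^ 2 + ℓ I ^ 2) / 4)) := by ring
      _ ≤ σ⁻¹ * Real.exp (μ * ψ 0) * (σ⁻¹ * (1 + μ * ψ 0) / 2) :=
          mul_le_mul_of_nonneg_left key (by positivity)
      _ = _ := by rw [pow_two, mul_inv]; ring

/-! ### Scales and admissible functionals -/

/-- Scaled norms on arcs: `N j a f` is the `2⁻ʲ`-scaled (semi)norm of `f` on the arc `a` of length `~ 2⁻ʲ`,
`y j a f g` the `2⁻ʲ`-scaled distance of `f` and `g` on `a`. -/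
structure Scales (D : Type*) where
  arc : ℕ → Type
  fin : ∀ j, Fintype (arc j)
  N : ∀ j, arc j → D → ℝ
  y : ∀ j, arc j → D → D → ℝ
  K : ℝ
  δ : ℝ
  Ccard : ℝ
  δ_pos : 0 < δ
  δ_le : K + δ ≤ √2 * K
  card_le : ∀ j, (Fintype.card (arc j) : ℝ) ≤ Ccard * 2 ^ j
  y_nonneg : ∀ j a f g, 0 ≤ y j a f g
  y_self : ∀ j a g, y j a g g = 0
  N_le : ∀ j a f g, N j a f ≤ N j a g + y j a f g
  scale : ∀ j f K', (∀ a, N j a f ≤ K') → ∀ b, N (j + 1) b f ≤ K' / √2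
  eventually_le : ∀ f, ∀ᶠ j in atTop, ∀ a, N j a f ≤ K

attribute [instance] Scales.fin

/-- `f` is regular at scale `j` with constant `K'`. -/
def Scales.Reg {D : Type*} (S : Scales D) (j : ℕ) (K' : ℝ) (f : D) : Prop := ∀ a, S.N j a f ≤ K'

/-- the (closed) neighbourhood of the reference disc `g` at scale `j`. -/
def Scales.Nbd {D : Type*} (S : Scales D) (j : ℕ) (g f : D) : Prop := ∀ a, S.y j a f g ≤ S.δ

theorem Scales.Nbd.reg {D : Type*} {S : Scales D} {j : ℕ} {g f : D} (h : S.Nbd j g f)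
    (hg : S.Reg j S.K g) : S.Reg j (S.K + S.δ) f := fun a =>
  (S.N_le j a f g).trans (add_le_add (hg a) (h a))

theorem Scales.nbd_self {D : Type*} (S : Scales D) (j : ℕ) (g : D) : S.Nbd j g g := fun a => by
  rw [S.y_self]; exact S.δ_pos.le

/-- Penalised functional (time `s`, penalty amplitude `A`, shifted time `σ`). -/
def Scales.Phi {D : Type*} (S : Scales D) (Ψ : ℝ → D → ℝ) (C0 : ℝ) (j : ℕ) (g : D) (A σ s : ℝ)
    (f : D) : ℝ := Ψ s f - A * ∑ a, pen C0 σ (S.y j a f g ^ 2)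

/-- What a functional `Ψ` (with time derivative `Ψ'`) has to satisfy on `[0,t]`; `n` is the number of directions. -/
structure Admissible {D : Type*} (S : Scales D) (n : ℕ) (t : ℝ) (Ψ Ψ' : ℝ → D → ℝ) : Prop where
  /-- (H4) maximisers of penalised functionals exist -/
  attain : ∀ᶠ j in atTop, ∀ g, S.Reg j S.K g → ∀ s ∈ Set.Icc (0 : ℝ) t, ∀ A : ℝ, 0 ≤ A → ∀ μ : ℝ, 0 ≤ μ →
    ∃ f, S.Nbd j g f ∧ ∀ f', S.Nbd j g f' →
      Ψ s f' - A * ∑ a, Real.exp (μ * S.y j a f' g ^ 2) ≤ Ψ s f - A * ∑ a, Real.exp (μ * S.y j a f g ^ 2)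
  /-- (H5) crude upper bound -/
  bound : ∃ CΨ : ℝ, ∀ᶠ j : ℕ in atTop, ∀ f, S.Reg j (S.K + S.δ) f → ∀ s ∈ Set.Icc (0 : ℝ) t, Ψ s f ≤ CΨ * (1 + j)
  /-- (H6) uniform one-sided time derivative -/
  time : ∀ᶠ j in atTop, ∀ e > 0, ∃ h0 > 0, ∀ f, S.Reg j (S.K + S.δ) f → ∀ s h : ℝ, 0 ≤ s → 0 < h → h < h0 →
    s + h ≤ t → Ψ s f + h * (Ψ' s f - e) ≤ Ψ (s + h) f
  /-- (H7) variations -/
  var : ∃ C : ℝ, 0 ≤ C ∧ ∀ᶠ j in atTop, ∀ g f, S.Reg j S.K g → (∀ a, S.y j a f g < S.δ) →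
    ∀ s ∈ Set.Icc (0 : ℝ) t, ∀ e > 0, ∃ (F : Fin n → ℂ → D) (l : Fin n → ℝ),
      (∀ i, F i 0 = f) ∧ (∀ i, HasLevi (fun w => Ψ s (F i w)) (l i)) ∧ -e ≤ Ψ' s f + ∑ i, l i ∧
      ∀ i a, PenVar C (fun w => S.y j a (F i w) g ^ 2)

section Stage

variable {D : Type*} {S : Scales D} {n : ℕ} {t : ℝ} {Ψ Ψ' : ℝ → D → ℝ}

/-- One time step at an interior maximiser. -/
theorem step {j : ℕ} {g f : D} {C C0 s σ h A e : ℝ} (hC : 0 ≤ C) (hA : 0 ≤ A) (hσ : 0 < σ)
    (hC0 : 2 * (n + 1) * (C + C ^ 2 + 1) ≤ C0) (hf : S.Nbd j g f)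
    (hmax : ∀ f', S.Nbd j g f' → S.Phi Ψ C0 j g A σ s f' ≤ S.Phi Ψ C0 j g A σ s f)
    (hint : ∀ a, S.y j a f g < S.δ)
    (hvar : ∃ (F : Fin n → ℂ → D) (l : Fin n → ℝ),
      (∀ i, F i 0 = f) ∧ (∀ i, HasLevi (fun w => Ψ s (F i w)) (l i)) ∧ -e ≤ Ψ' s f + ∑ i, l i ∧
      ∀ i a, PenVar C (fun w => S.y j a (F i w) g ^ 2))
    (htime : Ψ s f + h * (Ψ' s f - e) ≤ Ψ (s + h) f)
    (hh : 0 ≤ h) (h1 : h ≤ σ / 4) (h2 : 4 * S.δ ^ 2 * h ≤ C0 * σ ^ 2) :
    S.Phi Ψ C0 j g A σ s f - 2 * e * h ≤ S.Phi Ψ C0 j g A (σ + h) (s + h) f := by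
  obtain ⟨F, l, hF0, hl, hle, hpen⟩ := hvar
  have hC0pos : 0 < C0 := lt_of_lt_of_le (by positivity) hC0
  -- Levi forms of the penalty
  have hpl : ∀ i a, ∃ L', HasLevi (fun w => pen C0 σ (S.y j a (F i w) g ^ 2)) L' ∧
      n * L' ≤ rate C0 σ (S.y j a f g ^ 2) / 2 := by
    intro i a
    have := penVar_levi (hpen i a) hC (by positivity) hσ hC0
    simpa [hF0] using this
  choose L' hL' hL'le using hpl
  -- first order condition
  have hfo : ∀ i, l i ≤ A * ∑ a, L' i a := by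
    intro i
    have hlevi : HasLevi (fun w => S.Phi Ψ C0 j g A σ s (F i w)) (l i - A * ∑ a, L' i a) := by
      unfold Scales.Phi
      exact (hl i).sub ((HasLevi.sum Finset.univ fun a _ => hL' i a).const_mul A)
    have hnb : ∀ᶠ w in 𝓝 (0 : ℂ), S.Nbd j g (F i w) := by
      have : ∀ a, ∀ᶠ w in 𝓝 (0 : ℂ), S.y j a (F i w) g < S.δ := by
        intro a
        obtain ⟨ℓ, L, hd, -⟩ := hpen i a
        have hc := hd.continuousAt
        have h3 : S.y j a (F i 0) g ^ 2 < S.δ ^ 2 := by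
          rw [hF0]; exact pow_lt_pow_left₀ (hint a) (S.y_nonneg _ _ _ _) two_ne_zero
        filter_upwards [hc.eventually (gt_mem_nhds h3)] with w hw
        exact lt_of_pow_lt_pow_left₀ 2 S.δ_pos.le hw
      filter_upwards [eventually_all.2 this] with w hw a
      exact (hw a).le
    have := hlevi.nonpos (by
      filter_upwards [hnb] with w hw
      rw [hF0]
      exact hmax _ hw)
    linarith
  have hsum : ∑ i, l i ≤ A * ∑ a, rate C0 σ (S.y j a f g ^ 2) / 2 := by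
    calc ∑ i, l i ≤ ∑ i, A * ∑ a, L' i a := Finset.sum_le_sum fun i _ => hfo i
      _ = A * ∑ a, ∑ i, L' i a := by rw [← Finset.mul_sum, Finset.sum_comm]
      _ ≤ A * ∑ a, rate C0 σ (S.y j a f g ^ 2) / 2 := by
          refine mul_le_mul_of_nonneg_left (Finset.sum_le_sum fun a _ => ?_) hA
          rcases Nat.eq_zero_or_pos n with hn | hn
          · subst hn
            simp only [Finset.univ_eq_empty, Finset.sum_empty]
            have := rate_nonneg (Y := S.y j a f g ^ 2) hσ hC0pos (by positivity)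
            positivity
          · have hn' : (0 : ℝ) < n := by exact_mod_cast hn
            calc ∑ i, L' i a ≤ ∑ _i : Fin n, rate C0 σ (S.y j a f g ^ 2) / 2 / n :=
                  Finset.sum_le_sum fun i _ => by
                    rw [le_div_iff₀ hn']; linarith [hL'le i a]
              _ = rate C0 σ (S.y j a f g ^ 2) / 2 := by
                  rw [Finset.sum_const, Finset.card_univ, Fintype.card_fin, nsmul_eq_mul]
                  field_simp
  -- decrease of the penalty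
  have hdec : h * (A * ∑ a, rate C0 σ (S.y j a f g ^ 2) / 2) ≤
      A * ∑ a, pen C0 σ (S.y j a f g ^ 2) - A * ∑ a, pen C0 (σ + h) (S.y j a f g ^ 2) := by
    rw [← mul_sub, ← Finset.sum_sub_distrib, mul_left_comm]
    refine mul_le_mul_of_nonneg_left ?_ hA
    rw [Finset.mul_sum]
    refine Finset.sum_le_sum fun a _ => ?_
    exact pen_sub_ge hC0pos hσ (by positivity)
      (pow_le_pow_left₀ (S.y_nonneg _ _ _ _) (hf a) 2) hh h1 h2
  unfold Scales.Phi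
  have h3 : h * (-e) ≤ h * (Ψ' s f + ∑ i, l i) := mul_le_mul_of_nonneg_left hle hh
  have h4 := mul_le_mul_of_nonneg_left hsum hh
  nlinarith

/-- **Stage lemma** (5.3). -/
theorem stage {j : ℕ} {g : D} {C C0 s0 T Tj B A e M : ℝ} (hC : 0 ≤ C) (hA : 0 < A) (hTj : 0 < Tj)
    (hT0 : 0 ≤ T) (hT : T ≤ Tj) (hs0 : 0 ≤ s0) (hs : s0 + T ≤ t) (he : 0 < e)
    (hC0 : 2 * (n + 1) * (C + C ^ 2 + 1) ≤ C0)
    (hattain : ∀ s ∈ Set.Icc (0 : ℝ) t, ∀ A : ℝ, 0 ≤ A → ∀ μ : ℝ, 0 ≤ μ →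
      ∃ f, S.Nbd j g f ∧ ∀ f', S.Nbd j g f' →
      Ψ s f' - A * ∑ a, Real.exp (μ * S.y j a f' g ^ 2) ≤ Ψ s f - A * ∑ a, Real.exp (μ * S.y j a f g ^ 2))
    (hbound : ∀ f, S.Nbd j g f → ∀ s ∈ Set.Icc (0 : ℝ) t, Ψ s f ≤ B)
    (htime : ∃ h0 > 0, ∀ f, S.Nbd j g f → ∀ s h : ℝ, 0 ≤ s → 0 < h → h < h0 →
      s + h ≤ t → Ψ s f + h * (Ψ' s f - e) ≤ Ψ (s + h) f)
    (hvar : ∀ f, (∀ a, S.y j a f g < S.δ) → ∀ s ∈ Set.Icc (0 : ℝ) t,
      ∃ (F : Fin n → ℂ → D) (l : Fin n → ℝ),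
      (∀ i, F i 0 = f) ∧ (∀ i, HasLevi (fun w => Ψ s (F i w)) (l i)) ∧ -e ≤ Ψ' s f + ∑ i, l i ∧
      ∀ i a, PenVar C (fun w => S.y j a (F i w) g ^ 2))
    (hM : M ≤ Ψ s0 g - A * Fintype.card (S.arc j) * Tj⁻¹ - 2 * e * T)
    (hconf : B - M < A * ((2 * Tj)⁻¹ * Real.exp (S.δ ^ 2 / (C0 * (2 * Tj))))) :
    ∃ f, S.Nbd j g f ∧ Ψ s0 g - A * Fintype.card (S.arc j) * Tj⁻¹ - 2 * e * T ≤ Ψ (s0 + T) f := by
  have hC0pos : 0 < C0 := lt_of_lt_of_le (by positivity) hC0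
  have hsumnn : ∀ (σ : ℝ) (f : D), 0 < σ → 0 ≤ ∑ a, pen C0 σ (S.y j a f g ^ 2) := fun σ f hσ =>
    Finset.sum_nonneg fun a _ => (pen_pos hσ).le
  -- existence of maximisers for Phi
  have hmaxex : ∀ σ s : ℝ, 0 < σ → s ∈ Set.Icc (0 : ℝ) t → ∃ f, S.Nbd j g f ∧ ∀ f', S.Nbd j g f' →
      S.Phi Ψ C0 j g A σ s f' ≤ S.Phi Ψ C0 j g A σ s f := by
    intro σ s hσ hst
    obtain ⟨f, hf, hmax⟩ := hattain s hst (A * σ⁻¹) (by positivity) (C0 * σ)⁻¹ (by positivity)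
    refine ⟨f, hf, fun f' hf' => ?_⟩
    have := hmax f' hf'
    unfold Scales.Phi pen
    have e1 : ∀ f : D, A * ∑ a, σ⁻¹ * Real.exp (S.y j a f g ^ 2 / (C0 * σ)) =
        A * σ⁻¹ * ∑ a, Real.exp ((C0 * σ)⁻¹ * S.y j a f g ^ 2) := by
      intro f
      rw [← Finset.mul_sum, ← mul_assoc]
      congr 1
      refine Finset.sum_congr rfl fun a _ => ?_
      rw [div_eq_inv_mul]
    rw [e1, e1]
    exact this
  obtain ⟨h0, hh0, htime⟩ := htime
  -- number of steps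
  obtain ⟨m, hm⟩ := exists_nat_gt (T / (min h0 (min (Tj / 4) (C0 * Tj ^ 2 / (4 * S.δ ^ 2)))))
  have hδ2 : 0 < S.δ ^ 2 := pow_pos S.δ_pos 2
  have hminpos : 0 < min h0 (min (Tj / 4) (C0 * Tj ^ 2 / (4 * S.δ ^ 2))) := by
    refine lt_min hh0 (lt_min (by positivity) (by positivity))
  have hmpos : (0 : ℝ) < m := lt_of_le_of_lt (by positivity) hm
  rw [div_lt_iff₀ hminpos] at hm
  set h : ℝ := T / m with hh
  have hh_nonneg : 0 ≤ h := by positivity
  have hlt : h < min h0 (min (Tj / 4) (C0 * Tj ^ 2 / (4 * S.δ ^ 2))) := by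
    rw [hh, div_lt_iff₀ hmpos]; linarith
  have hlt0 : h < h0 := hlt.trans_le (min_le_left _ _)
  have hlt1 : h ≤ Tj / 4 := (hlt.trans_le ((min_le_right _ _).trans (min_le_left _ _))).le
  have hlt2 : h ≤ C0 * Tj ^ 2 / (4 * S.δ ^ 2) :=
    (hlt.trans_le ((min_le_right _ _).trans (min_le_right _ _))).le
  have hlt2' : 4 * S.δ ^ 2 * h ≤ C0 * Tj ^ 2 := by
    rw [le_div_iff₀ (by positivity)] at hlt2; linarith
  have hmh : m * h = T := by rw [hh]; field_simp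
  -- induction
  have hind : ∀ k : ℕ, k ≤ m → ∃ f, S.Nbd j g f ∧
      (∀ f', S.Nbd j g f' → S.Phi Ψ C0 j g A (Tj + k * h) (s0 + k * h) f' ≤
        S.Phi Ψ C0 j g A (Tj + k * h) (s0 + k * h) f) ∧
      Ψ s0 g - A * Fintype.card (S.arc j) * Tj⁻¹ - 2 * e * (k * h) ≤
        S.Phi Ψ C0 j g A (Tj + k * h) (s0 + k * h) f := by
    intro k
    induction k with
    | zero =>
      intro _
      obtain ⟨f, hf, hmax⟩ := hmaxex Tj s0 hTj ⟨hs0, by linarith⟩
      refine ⟨f, hf, by simpa using hmax, ?_⟩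
      have h3 := hmax g (S.nbd_self j g)
      have h4 : S.Phi Ψ C0 j g A Tj s0 g = Ψ s0 g - A * Fintype.card (S.arc j) * Tj⁻¹ := by
        unfold Scales.Phi pen
        simp [S.y_self]
        ring
      rw [h4] at h3
      simpa using h3
    | succ k ih =>
      intro hk
      obtain ⟨f, hf, hmax, hval⟩ := ih (by omega)
      have hk' : (k : ℝ) + 1 ≤ m := by exact_mod_cast hk
      have hkh : (k + 1 : ℝ) * h ≤ T := by
        rw [← hmh]; exact mul_le_mul_of_nonneg_right hk' hh_nonneg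
      have hkh0 : (0 : ℝ) ≤ k * h := by positivity
      have hkh1 : (k : ℝ) * h ≤ T := by linarith
      have hσ : 0 < Tj + k * h := by positivity
      have hst : s0 + k * h ∈ Set.Icc (0 : ℝ) t := ⟨by positivity, by linarith⟩
      have hst' : s0 + (k + 1) * h ∈ Set.Icc (0 : ℝ) t := ⟨by positivity, by linarith⟩
      -- confinement
      have hint : ∀ a, S.y j a f g < S.δ := by
        intro a
        by_contra hcon
        push Not at hcon
        have hΨ := hbound f hf _ hst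
        have h3 : A * pen C0 (Tj + k * h) (S.y j a f g ^ 2) ≤
            A * ∑ a, pen C0 (Tj + k * h) (S.y j a f g ^ 2) := by
          refine mul_le_mul_of_nonneg_left ?_ hA.le
          exact Finset.single_le_sum (f := fun a => pen C0 (Tj + k * h) (S.y j a f g ^ 2))
            (fun a _ => (pen_pos hσ).le) (Finset.mem_univ a)
        have h4 : (2 * Tj)⁻¹ * Real.exp (S.δ ^ 2 / (C0 * (2 * Tj))) ≤
            pen C0 (Tj + k * h) (S.y j a f g ^ 2) := by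
          unfold pen
          have h5 : Tj + k * h ≤ 2 * Tj := by linarith
          have h6 : S.δ ^ 2 ≤ S.y j a f g ^ 2 := pow_le_pow_left₀ S.δ_pos.le hcon 2
          gcongr
        have h7 := mul_le_mul_of_nonneg_left h4 hA.le
        have h8 : S.Phi Ψ C0 j g A (Tj + k * h) (s0 + k * h) f ≤
            B - A * ((2 * Tj)⁻¹ * Real.exp (S.δ ^ 2 / (C0 * (2 * Tj)))) := by
          unfold Scales.Phi; linarith
        have h9 : M ≤ Ψ s0 g - A * Fintype.card (S.arc j) * Tj⁻¹ - 2 * e * (k * h) := by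
          have : 2 * e * (k * h) ≤ 2 * e * T := mul_le_mul_of_nonneg_left hkh1 (by positivity)
          linarith
        linarith
      rcases hh_nonneg.eq_or_lt with hz | hpos
      · refine ⟨f, hf, ?_, ?_⟩
        · rw [← hz] at hmax ⊢; simpa using hmax
        · rw [← hz] at hval ⊢; simpa using hval
      have hstep := step (h := h) hC hA.le hσ hC0 hf hmax hint (hvar f hint _ hst)
        (htime f hf _ h hst.1 hpos hlt0 (by linarith [hst'.2])) hh_nonneg (by linarith)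
        (hlt2'.trans (mul_le_mul_of_nonneg_left (pow_le_pow_left₀ hTj.le (by linarith) 2) hC0pos.le))
      have e1 : Tj + k * h + h = Tj + (k + 1 : ℕ) * h := by push_cast; ring
      have e2 : s0 + k * h + h = s0 + (k + 1 : ℕ) * h := by push_cast; ring
      rw [e1, e2] at hstep
      have hσ' : 0 < Tj + (k + 1 : ℕ) * h := by positivity
      have hst2 : s0 + (k + 1 : ℕ) * h ∈ Set.Icc (0 : ℝ) t := by push_cast; exact hst'
      obtain ⟨f2, hf2, hmax2⟩ := hmaxex _ _ hσ' hst2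
      refine ⟨f2, hf2, hmax2, ?_⟩
      have := hmax2 f hf
      push_cast at *
      nlinarith
  obtain ⟨f, hf, -, hval⟩ := hind m le_rfl
  refine ⟨f, hf, ?_⟩
  rw [hmh] at hval
  have h3 := hsumnn (Tj + T) f (by linarith)
  have h4 := mul_nonneg hA.le h3
  unfold Scales.Phi at hval
  linarith

end Stage

/-! ### The path theorem -/

section Path

variable {D : Type*} {S : Scales D} {n : ℕ} {t : ℝ} {Ψ Ψ' : ℝ → D → ℝ}

/-- partial sums of the durations (without the factor `c`). -/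
def dur (j0 J : ℕ) : ℝ := ∑ i ∈ Finset.range J, 1 / ((i : ℝ) + 1) - ∑ i ∈ Finset.range j0, 1 / ((i : ℝ) + 1)

theorem dur_self (j0 : ℕ) : dur j0 j0 = 0 := by simp [dur]

theorem dur_succ (j0 J : ℕ) : dur j0 (J + 1) = dur j0 J + 1 / ((J : ℝ) + 1) := by
  simp only [dur, Finset.sum_range_succ]; ring

theorem dur_tendsto (j0 : ℕ) : Tendsto (dur j0) atTop atTop :=
  tendsto_atTop_add_const_right _ _ Real.tendsto_sum_range_one_div_nat_succ_atTop

theorem dur_nonneg {j0 J : ℕ} (h : j0 ≤ J) : 0 ≤ dur j0 J := by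
  induction J, h using Nat.le_induction with
  | base => rw [dur_self]
  | succ J _ ih => rw [dur_succ]; positivity

theorem two_pow_exp (j : ℕ) : Real.exp (-(2 * j)) * 2 ^ j ≤ ((2 : ℝ) ^ j)⁻¹ := by
  have h1 : (2 : ℝ) ≤ Real.exp 1 := by linarith [Real.add_one_le_exp (1 : ℝ)]
  have h2 : Real.exp (-(2 * j)) = ((Real.exp 1) ^ j)⁻¹ * ((Real.exp 1) ^ j)⁻¹ := by
    rw [← Real.exp_nat_mul, mul_one, ← Real.exp_neg, ← Real.exp_add]; congr 1; ring
  have h3 : (2 : ℝ) ^ j ≤ (Real.exp 1) ^ j := pow_le_pow_left₀ (by norm_num) h1 j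
  have h4 : (0 : ℝ) < 2 ^ j := by positivity
  rw [h2, mul_assoc]
  have h5 : ((Real.exp 1) ^ j)⁻¹ * 2 ^ j ≤ 1 := by
    rw [inv_mul_le_iff₀ (by positivity)]; simpa using h3
  calc ((Real.exp 1) ^ j)⁻¹ * (((Real.exp 1) ^ j)⁻¹ * 2 ^ j) ≤ ((Real.exp 1) ^ j)⁻¹ * 1 :=
        mul_le_mul_of_nonneg_left h5 (by positivity)
    _ ≤ ((2 : ℝ) ^ j)⁻¹ := by rw [mul_one]; exact inv_anti₀ h4 h3

/-- **Path theorem** (5.2). -/
theorem path (ht : 0 ≤ t) (hΨ : Admissible S n t Ψ Ψ') (f0 : D) {ε : ℝ} (hε : 0 < ε) :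
    ∃ f1, Ψ 0 f0 - ε ≤ Ψ t f1 := by
  obtain ⟨C, hC, hvar⟩ := hΨ.var
  obtain ⟨CΨ, hbound⟩ := hΨ.bound
  have hcard0 : 0 ≤ S.Ccard := by simpa using (Nat.cast_nonneg _).trans (S.card_le 0)
  set C0 : ℝ := 2 * (n + 1) * (C + C ^ 2 + 1) with hC0
  have hC0pos : 0 < C0 := by rw [hC0]; positivity
  have hδ2 : 0 < S.δ ^ 2 := pow_pos S.δ_pos 2
  set c : ℝ := S.δ ^ 2 / (6 * C0) with hc
  have hcpos : 0 < c := by rw [hc]; positivity
  set e : ℝ := ε / (4 * (t + 1)) with he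
  have hepos : 0 < e := by rw [he]; positivity
  have h2et : 2 * e * t ≤ ε / 2 := by
    rw [he, show 2 * (ε / (4 * (t + 1))) * t = (ε / 2) * (t / (t + 1)) by field_simp; ring]
    have : t / (t + 1) ≤ 1 := by rw [div_le_one (by positivity)]; linarith
    nlinarith
  set M : ℝ := Ψ 0 f0 - ε with hM
  -- choice of the first scale
  have hconf : ∀ᶠ j : ℕ in atTop, CΨ * (1 + j) - M < Real.exp (-(2 * j)) / 2 * Real.exp (3 * (j + 1)) := by
    have h1 : Tendsto (fun j : ℕ => Real.exp (j : ℝ)) atTop atTop :=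
      Real.tendsto_exp_atTop.comp tendsto_natCast_atTop_atTop
    have h2 : Tendsto (fun x : ℝ => Real.exp x / x ^ 1) atTop atTop := Real.tendsto_exp_div_pow_atTop 1
    have h3 : Tendsto (fun j : ℕ => Real.exp (j : ℝ) / (j : ℝ) ^ 1) atTop atTop :=
      h2.comp tendsto_natCast_atTop_atTop
    filter_upwards [h3.eventually_gt_atTop (2 * |CΨ| + 1), h1.eventually_gt_atTop (2 * |M| + 1),
      eventually_ge_atTop 1] with j hj1 hj2 hj3
    have hjpos : (1 : ℝ) ≤ j := by exact_mod_cast hj3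
    rw [pow_one, lt_div_iff₀ (by linarith)] at hj1
    have h4 : Real.exp (-(2 * j)) / 2 * Real.exp (3 * (j + 1)) = Real.exp (j : ℝ) * (Real.exp 3 / 2) := by
      rw [div_mul_eq_mul_div, ← Real.exp_add, mul_div_assoc', ← Real.exp_add]
      congr 2; ring
    rw [h4]
    have h5 : (4 : ℝ) ≤ Real.exp 3 := by linarith [Real.add_one_le_exp (3 : ℝ)]
    have h6 : Real.exp (j : ℝ) * 2 ≤ Real.exp (j : ℝ) * (Real.exp 3 / 2) :=
      mul_le_mul_of_nonneg_left (by linarith) (Real.exp_pos _).le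
    have h7 : CΨ * (1 + j) ≤ |CΨ| * (2 * j) :=
      (mul_le_mul_of_nonneg_right (le_abs_self _) (by linarith)).trans
        (mul_le_mul_of_nonneg_left (by linarith) (abs_nonneg _))
    have h8 := neg_abs_le M
    nlinarith [abs_nonneg M, abs_nonneg CΨ]
  have hsmall : ∀ᶠ j : ℕ in atTop, 2 * S.Ccard * ((2 : ℝ) ^ j)⁻¹ ≤ ε / 2 := by
    have h1 : Tendsto (fun j : ℕ => 2 * S.Ccard * ((2 : ℝ) ^ j)⁻¹) atTop (𝓝 (2 * S.Ccard * 0)) := by
      refine Tendsto.const_mul _ ?_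
      exact (tendsto_pow_atTop_atTop_of_one_lt (by norm_num : (1 : ℝ) < 2)).inv_tendsto_atTop
    rw [mul_zero] at h1
    exact (h1.eventually (gt_mem_nhds (by positivity : (0 : ℝ) < ε / 2))).mono fun j hj => hj.le
  obtain ⟨j0, hj0⟩ := eventually_atTop.1 (hΨ.attain.and (hbound.and (hΨ.time.and (hvar.and
    (hconf.and (hsmall.and (S.eventually_le f0)))))))
  obtain ⟨-, -, -, -, -, hsm0, hreg0⟩ := hj0 j0 le_rfl
  -- induction on the stages
  have hind : ∀ J, j0 ≤ J → ∃ f, S.Reg J S.K f ∧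
      Ψ 0 f0 - S.Ccard * (2 * ((2 : ℝ) ^ j0)⁻¹ - 2 * ((2 : ℝ) ^ J)⁻¹) - 2 * e * min t (c * dur j0 J) ≤
        Ψ (min t (c * dur j0 J)) f := by
    intro J hJ
    induction J, hJ using Nat.le_induction with
    | base =>
      refine ⟨f0, hreg0, ?_⟩
      rw [dur_self, mul_zero, min_eq_right ht]
      simp
    | succ J hJ ih =>
      obtain ⟨g, hg, hval⟩ := ih
      obtain ⟨hat, hbd, htm, hvr, hcf, -, -⟩ := hj0 J hJ
      set s0 := min t (c * dur j0 J) with hs0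
      set s1 := min t (c * dur j0 (J + 1)) with hs1
      have hs0nn : 0 ≤ s0 := le_min ht (mul_nonneg hcpos.le (dur_nonneg hJ))
      have hs0t : s0 ≤ t := min_le_left _ _
      have hs1t : s1 ≤ t := min_le_left _ _
      set Tj : ℝ := c / (J + 1) with hTj
      have hTjpos : 0 < Tj := by rw [hTj]; positivity
      have hstep : c * dur j0 (J + 1) = c * dur j0 J + Tj := by rw [dur_succ, hTj]; ring
      have h01 : s0 ≤ s1 := by
        rw [hs0, hs1, hstep]; exact min_le_min le_rfl (by linarith)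
      have h10 : s1 - s0 ≤ Tj := by
        rw [hs0, hs1, hstep]
        rcases le_total t (c * dur j0 J) with h | h
        · rw [min_eq_left h, min_eq_left (by linarith)]; linarith
        · rw [min_eq_right h]
          have := min_le_right t (c * dur j0 J + Tj)
          linarith
      set A : ℝ := Real.exp (-(2 * J)) * Tj with hA
      have hApos : 0 < A := by rw [hA]; positivity
      have hAcard : A * Fintype.card (S.arc J) * Tj⁻¹ ≤ S.Ccard * ((2 : ℝ) ^ J)⁻¹ := by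
        have e1 : A * Fintype.card (S.arc J) * Tj⁻¹ = Real.exp (-(2 * J)) * Fintype.card (S.arc J) := by
          rw [hA]; field_simp
        rw [e1]
        calc Real.exp (-(2 * J)) * Fintype.card (S.arc J)
            ≤ Real.exp (-(2 * J)) * (S.Ccard * 2 ^ J) :=
              mul_le_mul_of_nonneg_left (S.card_le J) (Real.exp_pos _).le
          _ = S.Ccard * (Real.exp (-(2 * J)) * 2 ^ J) := by ring
          _ ≤ _ := mul_le_mul_of_nonneg_left (two_pow_exp J) hcard0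
      have hpowJ : ((2 : ℝ) ^ (J + 1))⁻¹ = ((2 : ℝ) ^ J)⁻¹ / 2 := by
        rw [pow_succ, mul_inv]; ring
      have hpowpos : 0 < ((2 : ℝ) ^ J)⁻¹ := by positivity
      have hMle : M ≤ Ψ s0 g - A * Fintype.card (S.arc J) * Tj⁻¹ - 2 * e * (s1 - s0) := by
        have : 2 * e * s1 ≤ 2 * e * t := mul_le_mul_of_nonneg_left hs1t (by positivity)
        rw [hM]
        nlinarith [mul_nonneg hcard0 hpowpos.le]
      obtain ⟨h0, hh0, htm'⟩ := htm e hepos
      obtain ⟨f, hf, hfval⟩ := stage (S := S) (n := n) (t := t) (Ψ := Ψ) (Ψ' := Ψ') (j := J) (g := g)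
        (C := C) (C0 := C0) (s0 := s0) (T := s1 - s0) (Tj := Tj) (B := CΨ * (1 + J)) (A := A) (e := e)
        (M := M) hC hApos hTjpos (by linarith) h10 hs0nn (by linarith) hepos le_rfl (hat g hg)
        (fun f hf s hs => hbd f (hf.reg hg) s hs)
        ⟨h0, hh0, fun f hf s h hs hh hhh hst => htm' f (hf.reg hg) s h hs hh hhh hst⟩
        (fun f hf s hs => hvr g f hg hf s hs e hepos) hMle (by
          have e1 : A * ((2 * Tj)⁻¹ * Real.exp (S.δ ^ 2 / (C0 * (2 * Tj)))) =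
              Real.exp (-(2 * J)) / 2 * Real.exp (3 * (J + 1)) := by
            have e2 : S.δ ^ 2 / (C0 * (2 * Tj)) = 3 * (J + 1) := by
              have hδne := S.δ_pos.ne'
              rw [hTj, hc]; field_simp; norm_num
            rw [e2, hA]; field_simp
          rw [e1]; exact hcf)
      refine ⟨f, ?_, ?_⟩
      · intro b
        have h3 := S.scale J f (S.K + S.δ) (hf.reg hg) b
        refine h3.trans ?_
        rw [div_le_iff₀ (by positivity)]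
        linarith [S.δ_le]
      · have e1 : s0 + (s1 - s0) = s1 := by ring
        rw [e1] at hfval
        rw [hpowJ]
        nlinarith
  obtain ⟨J, hJ⟩ := ((dur_tendsto j0).eventually_ge_atTop (t / c)).and (eventually_ge_atTop j0) |>.exists
  obtain ⟨f, -, hf⟩ := hind J hJ.2
  have h3 : t ≤ c * dur j0 J := by
    have := hJ.1
    rw [div_le_iff₀ hcpos] at this
    linarith
  rw [min_eq_left h3] at hf
  refine ⟨f, ?_⟩
  have hpowpos : 0 < ((2 : ℝ) ^ J)⁻¹ := by positivity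
  nlinarith [mul_nonneg hcard0 hpowpos.le]

end Path

/-! ### Existence of maximisers -/

section Attain

variable {D : Type*} {ι : Type*} [Fintype ι]

/-- (H4) from sequential compactness. -/
theorem attain_of_seq {P : D → Prop} {y : ι → D → ℝ} {Ψ : D → ℝ} {δ B : ℝ} (hne : ∃ g, P g)
    (hy0 : ∀ f, P f → ∀ a, 0 ≤ y a f) (hyδ : ∀ f, P f → ∀ a, y a f ≤ δ) (hB : ∀ f, P f → Ψ f ≤ B)
    (hseq : ∀ u : ℕ → D, (∀ k, P (u k)) → ∃ f, P f ∧ ∃ φ : ℕ → ℕ, StrictMono φ ∧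
      (∀ a c, (∀ᶠ k in atTop, y a (u (φ k)) ≤ c) → y a f ≤ c) ∧
      (∀ c, (∀ᶠ k in atTop, c ≤ Ψ (u (φ k))) → c ≤ Ψ f))
    {A μ : ℝ} (hA : 0 ≤ A) (hμ : 0 ≤ μ) :
    ∃ f, P f ∧ ∀ f', P f' → Ψ f' - A * ∑ a, Real.exp (μ * y a f' ^ 2) ≤
      Ψ f - A * ∑ a, Real.exp (μ * y a f ^ 2) := by
  classical
  set Φ : D → ℝ := fun f => Ψ f - A * ∑ a, Real.exp (μ * y a f ^ 2) with hΦ
  have hbdd : BddAbove (Φ '' {f | P f}) := by
    refine ⟨B, ?_⟩
    rintro _ ⟨f, hf, rfl⟩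
    have : 0 ≤ A * ∑ a, Real.exp (μ * y a f ^ 2) := by positivity
    have := hB f hf
    simp only [hΦ]; linarith
  have hne' : (Φ '' {f | P f}).Nonempty := by
    obtain ⟨g, hg⟩ := hne
    exact ⟨_, g, hg, rfl⟩
  obtain ⟨v, -, hv, hvmem⟩ := exists_seq_tendsto_sSup hne' hbdd
  set s := sSup (Φ '' {f | P f}) with hs
  choose u hu huv using hvmem
  -- subsequence along which all the `y a` converge
  have hcpt : IsCompact (Set.univ.pi fun _ : ι => Set.Icc (0 : ℝ) δ) := isCompact_univ_pi fun _ => isCompact_Icc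
  obtain ⟨ystar, -, ψ, hψ, hlim⟩ := hcpt.tendsto_subseq (x := fun k a => y a (u k))
    (fun k a _ => ⟨hy0 _ (hu k) a, hyδ _ (hu k) a⟩)
  obtain ⟨f, hf, φ, hφ, hfy, hfΨ⟩ := hseq (fun k => u (ψ k)) (fun k => hu _)
  have hlim' : ∀ a, Tendsto (fun k => y a (u (ψ (φ k)))) atTop (𝓝 (ystar a)) := fun a =>
    ((tendsto_pi_nhds.1 hlim a).comp hφ.tendsto_atTop)
  have hys : ∀ a, y a f ≤ ystar a := by
    intro a
    refine le_of_forall_pos_le_add fun ε hε => ?_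
    refine hfy a _ ?_
    exact ((hlim' a).eventually (gt_mem_nhds (by linarith : ystar a < ystar a + ε))).mono fun k hk => hk.le
  have hpenlim : Tendsto (fun k => A * ∑ a, Real.exp (μ * y a (u (ψ (φ k))) ^ 2)) atTop
      (𝓝 (A * ∑ a, Real.exp (μ * ystar a ^ 2))) := by
    refine Tendsto.const_mul _ (tendsto_finsetSum _ fun a _ => ?_)
    exact (Real.continuous_exp.tendsto _).comp (((hlim' a).pow 2).const_mul μ)
  have hΦlim : Tendsto (fun k => Φ (u (ψ (φ k)))) atTop (𝓝 s) := by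
    have : Tendsto (fun k => v (ψ (φ k))) atTop (𝓝 s) :=
      hv.comp (hψ.tendsto_atTop.comp hφ.tendsto_atTop)
    refine this.congr fun k => ?_
    rw [← huv]
  have hΨlim : Tendsto (fun k => Ψ (u (ψ (φ k)))) atTop (𝓝 (s + A * ∑ a, Real.exp (μ * ystar a ^ 2))) := by
    refine (hΦlim.add hpenlim).congr fun k => ?_
    simp only [hΦ]; ring
  have hΨf : s + A * ∑ a, Real.exp (μ * ystar a ^ 2) ≤ Ψ f := by
    refine le_of_forall_pos_le_add fun ε hε => ?_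
    have := hfΨ (s + A * ∑ a, Real.exp (μ * ystar a ^ 2) - ε)
      ((hΨlim.eventually (lt_mem_nhds (by linarith))).mono fun k hk => hk.le)
    linarith
  refine ⟨f, hf, fun f' hf' => ?_⟩
  have h1 : Φ f' ≤ s := le_csSup hbdd ⟨f', hf', rfl⟩
  have h2 : A * ∑ a, Real.exp (μ * y a f ^ 2) ≤ A * ∑ a, Real.exp (μ * ystar a ^ 2) := by
    refine mul_le_mul_of_nonneg_left (Finset.sum_le_sum fun a _ => ?_) hA
    refine Real.exp_le_exp.2 (mul_le_mul_of_nonneg_left ?_ hμ)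
    exact pow_le_pow_left₀ (hy0 f hf a) (hys a) 2
  have h3 : Φ f' = Ψ f' - A * ∑ a, Real.exp (μ * y a f' ^ 2) := rfl
  linarith

/-- (H4) from topological compactness. -/
theorem attain_of_compact [TopologicalSpace D] {P : D → Prop} {y : ι → D → ℝ} {Ψ : D → ℝ}
    (hne : ∃ g, P g) (hcpt : IsCompact {f | P f})
    (hy0 : ∀ f, P f → ∀ a, 0 ≤ y a f)
    (hy : ∀ a, LowerSemicontinuousOn (y a) {f | P f}) (hΨ : UpperSemicontinuousOn Ψ {f | P f})
    {A μ : ℝ} (hA : 0 ≤ A) (hμ : 0 ≤ μ) :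
    ∃ f, P f ∧ ∀ f', P f' → Ψ f' - A * ∑ a, Real.exp (μ * y a f' ^ 2) ≤
      Ψ f - A * ∑ a, Real.exp (μ * y a f ^ 2) := by
  have hmono : Monotone fun x : ℝ => Real.exp (μ * max x 0 ^ 2) := by
    intro x x' hx
    refine Real.exp_le_exp.2 (mul_le_mul_of_nonneg_left ?_ hμ)
    exact pow_le_pow_left₀ (le_max_right _ _) (max_le_max hx le_rfl) 2
  have hcont : Continuous fun x : ℝ => Real.exp (μ * max x 0 ^ 2) := by fun_prop
  have hcontA : Continuous fun x : ℝ => - (A * x) := by fun_prop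
  have hanti : Antitone fun x : ℝ => - (A * x) := fun x x' hx => by
    have := mul_le_mul_of_nonneg_left hx hA
    simp only; linarith
  have h1 : LowerSemicontinuousOn (fun f => ∑ a, Real.exp (μ * max (y a f) 0 ^ 2)) {f | P f} := by
    refine lowerSemicontinuousOn_sum fun a _ => ?_
    exact hcont.comp_lowerSemicontinuousOn (hy a) hmono
  have h2 : UpperSemicontinuousOn (fun f => -(A * ∑ a, Real.exp (μ * max (y a f) 0 ^ 2))) {f | P f} :=
    hcontA.comp_lowerSemicontinuousOn_antitone h1 hanti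
  obtain ⟨f, hf, hmax⟩ := (hΨ.add h2).exists_isMaxOn hne hcpt
  refine ⟨f, hf, fun f' hf' => ?_⟩
  have this : Ψ f' + -(A * ∑ a, Real.exp (μ * max (y a f') 0 ^ 2)) ≤
      Ψ f + -(A * ∑ a, Real.exp (μ * max (y a f) 0 ^ 2)) := hmax (show f' ∈ {f | P f} from hf')
  have e1 : ∀ f, P f → ∑ a, Real.exp (μ * max (y a f) 0 ^ 2) = ∑ a, Real.exp (μ * y a f ^ 2) :=
    fun f hf => Finset.sum_congr rfl fun a _ => by rw [max_eq_left (hy0 f hf a)]
  rw [e1 f hf, e1 f' hf'] at this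
  linarith

end Attain

end

end Crest.Agent.R269.PathAbs_427
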