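import Mathlib

/-!
# Row 269 (S0411), STEP 3 (path theorem): abstract part (helper644)

* `maxPrinciple` : maximum principle on a compact class of discs: if at every maximiser (of value
  close to the initial one) the functional does not decrease to the right in time, then the maximum
  does not decrease.
* `Jet2 φ c α β L` : `φ (c+w) = φ c + 2 Re (α w) + 2 Re (β w²) + L |w|² + o(|w|²)`,
  so `α = ∂φ`, `L = ∂∂̄φ` (the Levi form).  Calculus: sums, scalar multiples, `exp`, local maxima,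
  circle averages, `C²` functions.
* the penalty calculus of a stage and the iteration of stages.
-/

set_option autoImplicit false

open Set Filter Topology Complex Asymptotics

namespace Crest.Agent.R269.PathAbs644

/-! ### (a) abstract maximum principle -/

section MaxPrinciple

variable {K : Type*} [TopologicalSpace K]

/-- Abstract maximum principle, frequently-slope version. -/
theorem maxPrinciple_slope {C : Set K} (hC : IsCompact C) {Φ : ℝ → K → ℝ} {a b : ℝ}
    (hab : a ≤ b) {Lp : ℝ}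
    (husc : ∀ s ∈ Icc a b, UpperSemicontinuousOn (Φ s) C)
    (hLip : ∀ s ∈ Icc a b, ∀ s' ∈ Icc a b, ∀ f ∈ C, |Φ s f - Φ s' f| ≤ Lp * |s - s'|)
    {f0 : K} (hf0 : f0 ∈ C) {δ : ℝ} (hδ : 0 < δ)
    (hmax : ∀ s ∈ Ico a b, ∀ f ∈ C, IsMaxOn (Φ s) C f → Φ a f0 - δ ≤ Φ s f →
      ∀ r > 0, ∃ᶠ z in 𝓝[>] s, -r < slope (fun s' => Φ s' f) s z) :
    ∃ f1 ∈ C, Φ a f0 ≤ Φ b f1 := by
  classical
  have hne : C.Nonempty := ⟨f0, hf0⟩
  -- the maximum function
  have hex : ∀ s : ℝ, ∃ f, s ∈ Icc a b → (f ∈ C ∧ IsMaxOn (Φ s) C f) := by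
    intro s
    by_cases hs : s ∈ Icc a b
    · obtain ⟨f, hf, hm⟩ := (husc s hs).exists_isMaxOn hne hC
      exact ⟨f, fun _ => ⟨hf, hm⟩⟩
    · exact ⟨f0, fun h => (hs h).elim⟩
  choose m hm using hex
  set M : ℝ → ℝ := fun s => Φ s (m s) with hM
  have hMge : ∀ s ∈ Icc a b, ∀ f ∈ C, Φ s f ≤ M s := fun s hs f hf => (hm s hs).2 hf
  have hMC : ∀ s ∈ Icc a b, m s ∈ C := fun s hs => (hm s hs).1
  have hMLip : ∀ s ∈ Icc a b, ∀ s' ∈ Icc a b, |M s - M s'| ≤ Lp * |s - s'| := by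
    intro s hs s' hs'
    rw [abs_le]
    constructor
    · have h1 := hLip s hs s' hs' (m s') (hMC s' hs')
      have h2 := hMge s hs (m s') (hMC s' hs')
      have := (abs_le.mp h1).1
      simp only [hM] at *
      linarith
    · have h1 := hLip s hs s' hs' (m s) (hMC s hs)
      have h2 := hMge s' hs' (m s) (hMC s hs)
      have := (abs_le.mp h1).2
      simp only [hM] at *
      linarith
  have hcont : ContinuousOn M (Icc a b) := by
    intro s hs
    rw [ContinuousWithinAt, tendsto_iff_dist_tendsto_zero]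
    have hz : Tendsto (fun x => Lp * |x - s|) (𝓝[Icc a b] s) (𝓝 0) := by
      have : Tendsto (fun x => Lp * |x - s|) (𝓝 s) (𝓝 (Lp * |s - s|)) :=
        (Continuous.tendsto (by fun_prop) s)
      simp only [sub_self, abs_zero, mul_zero] at this
      exact this.mono_left nhdsWithin_le_nhds
    refine squeeze_zero' (Eventually.of_forall fun _ => dist_nonneg) ?_ hz
    filter_upwards [self_mem_nhdsWithin] with x hx
    rw [Real.dist_eq]
    exact hMLip x hx s hs
  -- for every small slope e, M s ≥ M a - e (s - a)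
  have key : ∀ e : ℝ, 0 < e → e * (b - a) < δ → ∀ s ∈ Icc a b, -M s ≤ -M a + e * (s - a) := by
    intro e he hed
    refine image_le_of_liminf_slope_right_lt_deriv_boundary'
      (f' := fun x => if -M x = -M a + e * (x - a) then (0 : ℝ) else Lp)
      (B' := fun _ => e) hcont.neg ?_ (by simp) (by fun_prop) ?_ ?_
    · intro x hx r hr
      have hxI : x ∈ Icc a b := Ico_subset_Icc_self hx
      by_cases hc : -M x = -M a + e * (x - a)
      · simp only [hc, if_true] at hr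
        have hval : Φ a f0 - δ ≤ Φ x (m x) := by
          have h1 : Φ a f0 ≤ M a := hMge a ⟨le_rfl, hab⟩ f0 hf0
          have h2 : e * (x - a) ≤ e * (b - a) :=
            mul_le_mul_of_nonneg_left (by linarith [hx.2.le]) he.le
          have h3 : M x = M a - e * (x - a) := by linarith
          change Φ a f0 - δ ≤ M x
          linarith
        have hfr := hmax x hx (m x) (hMC x hxI) (hm x hxI).2 hval r hr
        have hev : ∀ᶠ z in 𝓝[>] x, z ∈ Ioc x b := Ioc_mem_nhdsGT hx.2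
        refine (hfr.and_eventually hev).mono ?_
        rintro z ⟨hz, hzI⟩
        have hzx : 0 < z - x := sub_pos.2 hzI.1
        have hzI' : z ∈ Icc a b := ⟨hx.1.trans hzI.1.le, hzI.2⟩
        rw [slope_def_field] at hz ⊢
        rw [lt_div_iff₀ hzx] at hz
        rw [div_lt_iff₀ hzx]
        have h4 : Φ z (m x) ≤ M z := hMge z hzI' (m x) (hMC x hxI)
        have h5 : M x = Φ x (m x) := rfl
        change -M z - -M x < r * (z - x)
        linarith
      · simp only [hc, if_false] at hr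
        have hev : ∀ᶠ z in 𝓝[>] x, z ∈ Ioc x b := Ioc_mem_nhdsGT hx.2
        refine (hev.mono ?_).frequently
        intro z hzI
        have hzx : 0 < z - x := sub_pos.2 hzI.1
        have hzI' : z ∈ Icc a b := ⟨hx.1.trans hzI.1.le, hzI.2⟩
        rw [slope_def_field, div_lt_iff₀ hzx]
        have h1 := (abs_le.mp (hMLip x hxI z hzI')).2
        rw [abs_sub_comm, abs_of_pos hzx] at h1
        have : Lp * (z - x) < r * (z - x) := mul_lt_mul_of_pos_right hr hzx
        change -M z - -M x < r * (z - x)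
        linarith
    · intro x _
      have : HasDerivAt (fun y : ℝ => -M a + e * (y - a)) (e * 1) x :=
        (((hasDerivAt_id x).sub_const a).const_mul e).const_add _
      simpa using this.hasDerivWithinAt
    · intro x _ hx
      have hx' : -M x = -M a + e * (x - a) := hx
      rw [if_pos hx']
      exact he
  refine ⟨m b, hMC b ⟨hab, le_rfl⟩, ?_⟩
  have h1 : Φ a f0 ≤ M a := hMge a ⟨le_rfl, hab⟩ f0 hf0
  have h2 : M a ≤ M b := by
    refine le_of_forall_pos_le_add ?_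
    intro ε hε
    set e : ℝ := min (ε / (b - a + 1)) (δ / (2 * (b - a + 1))) with he
    have hba : 0 < b - a + 1 := by linarith
    have hepos : 0 < e := lt_min (div_pos hε hba) (div_pos hδ (by linarith))
    have h3 : e * (b - a) ≤ ε := by
      have : e * (b - a) ≤ ε / (b - a + 1) * (b - a + 1) :=
        mul_le_mul (min_le_left _ _) (by linarith) (by linarith) (div_pos hε hba).le
      rwa [div_mul_cancel₀ _ hba.ne'] at this
    have h4 : e * (b - a) < δ := by
      have h5 : e * (b - a) ≤ δ / (2 * (b - a + 1)) * (b - a + 1) :=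
        mul_le_mul (min_le_right _ _) (by linarith) (by linarith)
          (div_pos hδ (by linarith)).le
      have h6 : δ / (2 * (b - a + 1)) * (b - a + 1) = δ / 2 := by
        field_simp
      linarith
    have := key e hepos h4 b ⟨hab, le_rfl⟩
    linarith
  exact h1.trans h2

/-- Abstract maximum principle, right-derivative version. -/
theorem maxPrinciple {C : Set K} (hC : IsCompact C) {Φ : ℝ → K → ℝ} {a b : ℝ}
    (hab : a ≤ b) {Lp : ℝ}
    (husc : ∀ s ∈ Icc a b, UpperSemicontinuousOn (Φ s) C)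
    (hLip : ∀ s ∈ Icc a b, ∀ s' ∈ Icc a b, ∀ f ∈ C, |Φ s f - Φ s' f| ≤ Lp * |s - s'|)
    {f0 : K} (hf0 : f0 ∈ C) {δ : ℝ} (hδ : 0 < δ)
    (hmax : ∀ s ∈ Ico a b, ∀ f ∈ C, IsMaxOn (Φ s) C f → Φ a f0 - δ ≤ Φ s f →
      ∃ d : ℝ, 0 ≤ d ∧ HasDerivWithinAt (fun s' => Φ s' f) d (Ici s) s) :
    ∃ f1 ∈ C, Φ a f0 ≤ Φ b f1 := by
  refine maxPrinciple_slope hC hab husc hLip hf0 hδ ?_
  intro s hs f hf hm hv r hr
  obtain ⟨d, hd, hder⟩ := hmax s hs f hf hm hv
  have h1 : Tendsto (slope (fun s' => Φ s' f) s) (𝓝[>] s) (𝓝 d) :=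
    (hasDerivWithinAt_iff_tendsto_slope' (lt_irrefl s)).1 hder.Ioi_of_Ici
  have h2 : ∀ᶠ z in 𝓝[>] s, -r < slope (fun s' => Φ s' f) s z :=
    h1 (Ioi_mem_nhds (by linarith))
  exact h2.frequently

/-- **Maximum principle with increasing compact classes and one-sided control in time**
(version for the single-penalty path theorem): the class `K s` increases with `s`, along a fixed
`f` the functional loses at most `Lp (s' - s)`, and at a maximiser (with value not too much below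
the start) the functional has right slopes `> -r` for arbitrarily small times, for every `r > 0`. -/
theorem maxPrinciple_mono {C : ℝ → Set K} {Φ : ℝ → K → ℝ} {a b : ℝ}
    (hab : a ≤ b) {Lp : ℝ}
    (hC : ∀ s ∈ Icc a b, IsCompact (C s))
    (hmono : ∀ s ∈ Icc a b, ∀ s' ∈ Icc a b, s ≤ s' → C s ⊆ C s')
    (husc : ∀ s ∈ Icc a b, UpperSemicontinuousOn (Φ s) (C s))
    (hLip : ∀ s ∈ Icc a b, ∀ s' ∈ Icc a b, s ≤ s' → ∀ f ∈ C s, Φ s f - Lp * (s' - s) ≤ Φ s' f)
    {f0 : K} (hf0 : f0 ∈ C a) {δ : ℝ} (hδ : 0 < δ)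
    (hmax : ∀ s ∈ Ico a b, ∀ f ∈ C s, IsMaxOn (Φ s) (C s) f → Φ a f0 - δ ≤ Φ s f →
      ∀ r > 0, ∃ᶠ z in 𝓝[>] s, Φ s f - r * (z - s) ≤ Φ z f) :
    ∃ f1 ∈ C b, Φ a f0 ≤ Φ b f1 := by
  classical
  have haI : a ∈ Icc a b := ⟨le_rfl, hab⟩
  have hbI : b ∈ Icc a b := ⟨hab, le_rfl⟩
  have hf0s : ∀ s ∈ Icc a b, f0 ∈ C s := fun s hs => hmono a haI s hs hs.1 hf0
  have hex : ∀ s : ℝ, ∃ f, s ∈ Icc a b → (f ∈ C s ∧ IsMaxOn (Φ s) (C s) f) := by
    intro s
    by_cases hs : s ∈ Icc a b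
    · obtain ⟨f, hf, hm⟩ := (husc s hs).exists_isMaxOn ⟨f0, hf0s s hs⟩ (hC s hs)
      exact ⟨f, fun _ => ⟨hf, hm⟩⟩
    · exact ⟨f0, fun h => (hs h).elim⟩
  choose m hm using hex
  set M : ℝ → ℝ := fun s => Φ s (m s) with hM
  have hMge : ∀ s ∈ Icc a b, ∀ f ∈ C s, Φ s f ≤ M s := fun s hs f hf => (hm s hs).2 hf
  have hMC : ∀ s ∈ Icc a b, m s ∈ C s := fun s hs => (hm s hs).1
  have hMLip : ∀ s ∈ Icc a b, ∀ s' ∈ Icc a b, s ≤ s' → M s - Lp * (s' - s) ≤ M s' := by
    intro s hs s' hs' hss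
    exact (hLip s hs s' hs' hss (m s) (hMC s hs)).trans
      (hMge s' hs' (m s) (hmono s hs s' hs' hss (hMC s hs)))
  have key : ∀ e : ℝ, 0 < e → e * (b - a) < δ → M a - e * (b - a) ≤ M b := by
    intro e he hed
    set S : Set ℝ := {s | s ∈ Icc a b ∧ M a - e * (s - a) ≤ M s} with hS
    have haS : a ∈ S := ⟨haI, by simp⟩
    have hSbdd : BddAbove S := ⟨b, fun s hs => hs.1.2⟩
    set σ := sSup S with hσ
    have hσI : σ ∈ Icc a b :=
      ⟨le_csSup hSbdd haS, csSup_le ⟨a, haS⟩ fun s hs => hs.1.2⟩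
    have hσS : σ ∈ S := by
      refine ⟨hσI, ?_⟩
      refine le_of_forall_pos_le_add ?_
      intro ε hε
      obtain ⟨s, hs, hlt⟩ := exists_lt_of_lt_csSup (⟨a, haS⟩ : S.Nonempty)
        (show σ - ε / (|Lp| + 1) < sSup S by
          have : 0 < ε / (|Lp| + 1) := by positivity
          linarith)
      have hsσ : s ≤ σ := le_csSup hSbdd hs
      have h1 := hMLip s hs.1 σ hσI hsσ
      have h2 := hs.2
      have h3 : Lp * (σ - s) ≤ ε := by
        have h4 : Lp * (σ - s) ≤ (|Lp| + 1) * (σ - s) :=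
          mul_le_mul_of_nonneg_right (by linarith [le_abs_self Lp]) (by linarith)
        have h5 : (|Lp| + 1) * (σ - s) ≤ (|Lp| + 1) * (ε / (|Lp| + 1)) :=
          mul_le_mul_of_nonneg_left (by linarith) (by positivity)
        have h6 : (|Lp| + 1) * (ε / (|Lp| + 1)) = ε := by
          have : |Lp| + 1 ≠ 0 := by positivity
          field_simp
        linarith
      have h7 : e * (s - a) ≤ e * (σ - a) := mul_le_mul_of_nonneg_left (by linarith) he.le
      linarith
    rcases eq_or_lt_of_le hσI.2 with hb | hb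
    · have := hσS.2
      rw [hb] at this
      exact this
    · exfalso
      have hval : Φ a f0 - δ ≤ Φ σ (m σ) := by
        have h1 : Φ a f0 ≤ M a := hMge a haI f0 hf0
        have h2 : e * (σ - a) ≤ e * (b - a) :=
          mul_le_mul_of_nonneg_left (by linarith) he.le
        have h3 := hσS.2
        change Φ a f0 - δ ≤ M σ
        linarith
      have hfr := hmax σ ⟨hσI.1, hb⟩ (m σ) (hMC σ hσI) (hm σ hσI).2 hval e he
      have hev : ∀ᶠ z in 𝓝[>] σ, z ∈ Ioc σ b := Ioc_mem_nhdsGT hb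
      obtain ⟨z, hz, hzI⟩ := (hfr.and_eventually hev).exists
      have hzI' : z ∈ Icc a b := ⟨hσI.1.trans hzI.1.le, hzI.2⟩
      have h4 : Φ z (m σ) ≤ M z :=
        hMge z hzI' (m σ) (hmono σ hσI z hzI' hzI.1.le (hMC σ hσI))
      have hzS : z ∈ S := by
        refine ⟨hzI', ?_⟩
        have h5 := hσS.2
        have h6 : M σ = Φ σ (m σ) := rfl
        rw [← h6] at hz
        linarith
      exact absurd (le_csSup hSbdd hzS) (not_le.2 hzI.1)
  refine ⟨m b, hMC b hbI, ?_⟩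
  have h1 : Φ a f0 ≤ M a := hMge a haI f0 hf0
  have h2 : M a ≤ M b := by
    refine le_of_forall_pos_le_add ?_
    intro ε hε
    set e : ℝ := min (ε / (b - a + 1)) (δ / (2 * (b - a + 1))) with he
    have hba : 0 < b - a + 1 := by linarith
    have hepos : 0 < e := lt_min (div_pos hε hba) (div_pos hδ (by linarith))
    have h3 : e * (b - a) ≤ ε := by
      have : e * (b - a) ≤ ε / (b - a + 1) * (b - a + 1) :=
        mul_le_mul (min_le_left _ _) (by linarith) (by linarith) (div_pos hε hba).le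
      rwa [div_mul_cancel₀ _ hba.ne'] at this
    have h4 : e * (b - a) < δ := by
      have h5 : e * (b - a) ≤ δ / (2 * (b - a + 1)) * (b - a + 1) :=
        mul_le_mul (min_le_right _ _) (by linarith) (by linarith)
          (div_pos hδ (by linarith)).le
      have h6 : δ / (2 * (b - a + 1)) * (b - a + 1) = δ / 2 := by
        field_simp
      linarith
    have := key e hepos h4
    linarith
  exact h1.trans h2

end MaxPrinciple

/-! ### (b) second order jets and Levi forms in one complex variable -/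

section Jet

/-- `φ (c+w) = φ c + 2 Re (α w) + 2 Re (β w²) + L |w|² + o(|w|²)`; `α = ∂φ(c)`, `L = ∂∂̄φ(c)`. -/
def Jet2 (φ : ℂ → ℝ) (c α β : ℂ) (L : ℝ) : Prop :=
  (fun w : ℂ => φ (c + w) - (φ c + 2 * (α * w).re + 2 * (β * w ^ 2).re + L * ‖w‖ ^ 2))
    =o[𝓝 0] (fun w : ℂ => ‖w‖ ^ 2)

variable {φ ψ : ℂ → ℝ} {c α β α' β' : ℂ} {L L' : ℝ}

theorem Jet2.const (k : ℝ) (c : ℂ) : Jet2 (fun _ => k) c 0 0 0 := by
  simp [Jet2]

theorem Jet2.add (h : Jet2 φ c α β L) (h' : Jet2 ψ c α' β' L') :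
    Jet2 (fun w => φ w + ψ w) c (α + α') (β + β') (L + L') := by
  refine (IsLittleO.add h h').congr_left fun w => ?_
  simp only [add_mul, Complex.add_re]
  ring

theorem Jet2.const_mul (k : ℝ) (h : Jet2 φ c α β L) :
    Jet2 (fun w => k * φ w) c (k * α) (k * β) (k * L) := by
  refine (IsLittleO.const_mul_left h k).congr_left fun w => ?_
  simp only [mul_assoc, Complex.re_ofReal_mul]
  ring

theorem Jet2.neg (h : Jet2 φ c α β L) : Jet2 (fun w => - φ w) c (-α) (-β) (-L) := by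
  have := h.const_mul (-1)
  simpa using this

theorem Jet2.sub (h : Jet2 φ c α β L) (h' : Jet2 ψ c α' β' L') :
    Jet2 (fun w => φ w - ψ w) c (α - α') (β - β') (L - L') := by
  simpa only [sub_eq_add_neg] using h.add h'.neg

theorem Jet2.add_const (k : ℝ) (h : Jet2 φ c α β L) : Jet2 (fun w => φ w + k) c α β L := by
  simpa using h.add (Jet2.const k c)

theorem Jet2.congr' (h : Jet2 φ c α β L) (he : ∀ᶠ w in 𝓝 c, ψ w = φ w) : Jet2 ψ c α β L := by
  have hc : ψ c = φ c := he.self_of_nhds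
  have hz : Tendsto (fun w : ℂ => c + w) (𝓝 0) (𝓝 c) := by
    have : Tendsto (fun w : ℂ => c + w) (𝓝 0) (𝓝 (c + 0)) := Continuous.tendsto (by fun_prop) _
    simpa using this
  refine IsLittleO.congr' h ?_ EventuallyEq.rfl
  filter_upwards [hz.eventually he] with w hw
  rw [hw, hc]

theorem Jet2.sum {ι : Type*} (s : Finset ι) {φ : ι → ℂ → ℝ} {α β : ι → ℂ} {L : ι → ℝ}
    (h : ∀ i ∈ s, Jet2 (φ i) c (α i) (β i) (L i)) :
    Jet2 (fun w => ∑ i ∈ s, φ i w) c (∑ i ∈ s, α i) (∑ i ∈ s, β i) (∑ i ∈ s, L i) := by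
  classical
  induction s using Finset.induction_on with
  | empty => simpa using Jet2.const 0 c
  | insert a s ha ih =>
    simp only [Finset.sum_insert ha]
    exact (h a (Finset.mem_insert_self _ _)).add
      (ih fun i hi => h i (Finset.mem_insert_of_mem hi))

/-- first order consequence -/
theorem Jet2.sub_isBigO (h : Jet2 φ c α β L) :
    (fun w : ℂ => φ (c + w) - φ c - 2 * (α * w).re) =O[𝓝 0] (fun w : ℂ => ‖w‖ ^ 2) := by
  have h1 : (fun w : ℂ => 2 * (β * w ^ 2).re + L * ‖w‖ ^ 2) =O[𝓝 0]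
      (fun w : ℂ => ‖w‖ ^ 2) := by
    refine IsBigO.of_bound (2 * ‖β‖ + |L|) (Eventually.of_forall fun w => ?_)
    have : |(β * w ^ 2).re| ≤ ‖β‖ * ‖w‖ ^ 2 := by
      refine (Complex.abs_re_le_norm _).trans ?_
      rw [norm_mul, norm_pow]
    rw [Real.norm_eq_abs, Real.norm_eq_abs, abs_of_nonneg (by positivity : (0:ℝ) ≤ ‖w‖ ^ 2)]
    calc |2 * (β * w ^ 2).re + L * ‖w‖ ^ 2| ≤ |2 * (β * w ^ 2).re| + |L * ‖w‖ ^ 2| :=
          abs_add_le _ _
      _ = 2 * |(β * w ^ 2).re| + |L| * ‖w‖ ^ 2 := by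
          rw [abs_mul, abs_mul, abs_two, abs_of_nonneg (by positivity : (0:ℝ) ≤ ‖w‖ ^ 2)]
      _ ≤ 2 * (‖β‖ * ‖w‖ ^ 2) + |L| * ‖w‖ ^ 2 := by linarith
      _ = (2 * ‖β‖ + |L|) * ‖w‖ ^ 2 := by ring
  refine ((IsLittleO.isBigO h).add h1).congr_left fun w => ?_
  ring

theorem Jet2.sub_isBigO_one (h : Jet2 φ c α β L) :
    (fun w : ℂ => φ (c + w) - φ c) =O[𝓝 0] (fun w : ℂ => ‖w‖) := by
  have h1 := h.sub_isBigO
  have h2 : (fun w : ℂ => ‖w‖ ^ 2) =O[𝓝 0] (fun w : ℂ => ‖w‖) := by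
    refine IsBigO.of_bound 1 ?_
    have : ∀ᶠ w : ℂ in 𝓝 0, ‖w‖ ≤ 1 := by
      have : Tendsto (fun w : ℂ => ‖w‖) (𝓝 0) (𝓝 ‖(0:ℂ)‖) := continuous_norm.tendsto 0
      rw [norm_zero] at this
      exact (this.eventually (gt_mem_nhds one_pos)).mono fun _ h => le_of_lt h
    filter_upwards [this] with w hw
    simp only [norm_pow, norm_norm, one_mul]
    nlinarith [norm_nonneg w]
  have h3 : (fun w : ℂ => 2 * (α * w).re) =O[𝓝 0] (fun w : ℂ => ‖w‖) := by
    refine IsBigO.of_bound (2 * ‖α‖) (Eventually.of_forall fun w => ?_)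
    rw [Real.norm_eq_abs, abs_mul, abs_two, norm_norm]
    have := Complex.abs_re_le_norm (α * w)
    rw [norm_mul] at this
    linarith
  refine ((h1.trans h2).add h3).congr_left fun w => ?_
  ring

/-- **the Levi form is nonpositive at a local maximum** -/
theorem Jet2.nonpos_of_isLocalMax (h : Jet2 φ c α β L) (hm : IsLocalMax φ c) : L ≤ 0 := by
  by_contra hL
  push Not at hL
  have hb := h.def (show (0:ℝ) < L / 2 by linarith)
  rw [Metric.eventually_nhds_iff] at hb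
  obtain ⟨ε, hε, hb⟩ := hb
  have hm' : ∀ᶠ x in 𝓝 c, φ x ≤ φ c := hm
  rw [Metric.eventually_nhds_iff] at hm'
  obtain ⟨ε', hε', hm'⟩ := hm'
  set t : ℝ := min ε ε' / 2 with ht
  have htpos : 0 < t := by positivity
  have htε : t < ε := by
    have : min ε ε' ≤ ε := min_le_left _ _
    have : 0 < min ε ε' := lt_min hε hε'
    linarith
  have htε' : t < ε' := by
    have : min ε ε' ≤ ε' := min_le_right _ _
    have : 0 < min ε ε' := lt_min hε hε'
    linarith
  have key : ∀ w : ℂ, ‖w‖ = t →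
      2 * (α * w).re + 2 * (β * w ^ 2).re + L * t ^ 2 ≤ L / 2 * t ^ 2 := by
    intro w hw
    have h1 := hb (y := w) (by rw [dist_zero_right, hw]; exact htε)
    have h2 := hm' (y := c + w) (by rw [dist_self_add_left, hw]; exact htε')
    rw [Real.norm_eq_abs, Real.norm_eq_abs, hw, abs_of_pos (by positivity : (0:ℝ) < t ^ 2)] at h1
    have := (abs_le.mp h1).1
    linarith
  have k1 := key (t : ℂ) (by simp [abs_of_pos htpos])
  have k2 := key (-(t : ℂ)) (by simp [abs_of_pos htpos])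
  have k3 := key (t * I) (by simp [abs_of_pos htpos])
  have k4 := key (-(t * I)) (by simp [abs_of_pos htpos])
  have e1 : ((-(t : ℂ)) ^ 2) = (t : ℂ) ^ 2 := by ring
  have e3 : ((t : ℂ) * I) ^ 2 = -(t : ℂ) ^ 2 := by
    rw [mul_pow, Complex.I_sq]; ring
  have e4 : (-((t : ℂ) * I)) ^ 2 = -(t : ℂ) ^ 2 := by
    rw [neg_sq, e3]
  rw [e1] at k2
  rw [e3] at k3
  rw [e4] at k4
  simp only [mul_neg, Complex.neg_re] at k2 k3 k4
  nlinarith [pow_pos htpos 2]

/-- chain rule with a real function having a second order Taylor expansion -/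
theorem Jet2.comp_real (h : Jet2 φ c α β L) {g : ℝ → ℝ} {g1 g2 : ℝ}
    (hg : (fun t : ℝ => g (φ c + t) - (g (φ c) + g1 * t + g2 / 2 * t ^ 2)) =o[𝓝 0]
      (fun t : ℝ => t ^ 2)) :
    Jet2 (fun w => g (φ w)) c (g1 * α) (g1 * β + g2 / 2 * α ^ 2) (g1 * L + g2 * ‖α‖ ^ 2) := by
  set δ : ℂ → ℝ := fun w => φ (c + w) - φ c with hδ
  have hδ1 : δ =O[𝓝 0] (fun w : ℂ => ‖w‖) := h.sub_isBigO_one
  have hδ0 : Tendsto δ (𝓝 0) (𝓝 0) := by
    refine hδ1.trans_tendsto ?_
    have : Tendsto (fun w : ℂ => ‖w‖) (𝓝 0) (𝓝 ‖(0:ℂ)‖) := continuous_norm.tendsto 0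
    simpa using this
  -- g along δ
  have hA : (fun w : ℂ => g (φ c + δ w) - (g (φ c) + g1 * δ w + g2 / 2 * (δ w) ^ 2)) =o[𝓝 0]
      (fun w : ℂ => ‖w‖ ^ 2) :=
    (hg.comp_tendsto hδ0).trans_isBigO (hδ1.pow 2)
  -- first order part of δ squared
  have hB : (fun w : ℂ => (δ w) ^ 2 - (2 * (α * w).re) ^ 2) =o[𝓝 0] (fun w : ℂ => ‖w‖ ^ 2) := by
    have h1 : (fun w : ℂ => δ w - 2 * (α * w).re) =O[𝓝 0] (fun w : ℂ => ‖w‖ ^ 2) :=
      h.sub_isBigO
    have h3 : (fun w : ℂ => 2 * (α * w).re) =O[𝓝 0] (fun w : ℂ => ‖w‖) := by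
      refine IsBigO.of_bound (2 * ‖α‖) (Eventually.of_forall fun w => ?_)
      rw [Real.norm_eq_abs, abs_mul, abs_two, norm_norm]
      have := Complex.abs_re_le_norm (α * w)
      rw [norm_mul] at this
      linarith
    have h4 : (fun w : ℂ => δ w + 2 * (α * w).re) =O[𝓝 0] (fun w : ℂ => ‖w‖) := hδ1.add h3
    have h5 : (fun w : ℂ => (δ w - 2 * (α * w).re) * (δ w + 2 * (α * w).re)) =O[𝓝 0]
        (fun w : ℂ => ‖w‖ ^ 2 * ‖w‖) := h1.mul h4
    have h6 : (fun w : ℂ => ‖w‖ ^ 2 * ‖w‖) =o[𝓝 0] (fun w : ℂ => ‖w‖ ^ 2) := by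
      have : (fun w : ℂ => ‖w‖ ^ 2 * ‖w‖) =o[𝓝 0] (fun w : ℂ => ‖w‖ ^ 2 * 1) := by
        refine (isBigO_refl _ _).mul_isLittleO ?_
        rw [isLittleO_one_iff]
        have : Tendsto (fun w : ℂ => ‖w‖) (𝓝 0) (𝓝 ‖(0:ℂ)‖) := continuous_norm.tendsto 0
        simpa using this
      simpa using this
    refine (h5.trans_isLittleO h6).congr_left fun w => ?_
    ring
  have hC : (fun w : ℂ => g1 * (δ w - (2 * (α * w).re + 2 * (β * w ^ 2).re + L * ‖w‖ ^ 2)))
      =o[𝓝 0] (fun w : ℂ => ‖w‖ ^ 2) := by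
    refine (IsLittleO.const_mul_left h g1).congr_left fun w => ?_
    simp only [hδ]
    ring
  have hD := (hA.add hC).add (hB.const_mul_left (g2 / 2))
  refine hD.congr_left fun w => ?_
  have e1 : φ (c + w) = φ c + δ w := by simp only [hδ]; ring
  have e2 : (2 * (α * w).re) ^ 2 = 2 * ‖α‖ ^ 2 * ‖w‖ ^ 2 + 2 * (α ^ 2 * w ^ 2).re := by
    have : ‖α‖ ^ 2 * ‖w‖ ^ 2 = (α * w).re ^ 2 + (α * w).im ^ 2 := by
      rw [← mul_pow, ← norm_mul, Complex.sq_norm, Complex.normSq_apply]; ring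
    have h2 : (α ^ 2 * w ^ 2).re = (α * w).re ^ 2 - (α * w).im ^ 2 := by
      rw [← mul_pow, sq (α * w), Complex.mul_re]; ring
    rw [h2, mul_assoc 2 (‖α‖ ^ 2), this]; ring
  have e3 : ((((g1 : ℝ) : ℂ) * β + ((g2 : ℝ) : ℂ) / 2 * α ^ 2) * w ^ 2).re =
      g1 * (β * w ^ 2).re + g2 / 2 * (α ^ 2 * w ^ 2).re := by
    have h1 : (((g1 : ℝ) : ℂ) * β + ((g2 : ℝ) : ℂ) / 2 * α ^ 2) * w ^ 2 =
        ((g1 : ℝ) : ℂ) * (β * w ^ 2) + ((g2 / 2 : ℝ) : ℂ) * (α ^ 2 * w ^ 2) := by
      push_cast; ring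
    rw [h1, Complex.add_re, Complex.re_ofReal_mul, Complex.re_ofReal_mul]
  have e4 : (((g1 : ℝ) : ℂ) * α * w).re = g1 * (α * w).re := by
    rw [mul_assoc, Complex.re_ofReal_mul]
  simp only [e1, e3, e4]
  rw [e2]
  ring

theorem exp_taylor2 (x : ℝ) :
    (fun t : ℝ => Real.exp (x + t) - (Real.exp x + Real.exp x * t + Real.exp x / 2 * t ^ 2))
      =o[𝓝 0] (fun t : ℝ => t ^ 2) := by
  have h1 : (fun t : ℝ => Real.exp t - (1 + t + t ^ 2 / 2)) =O[𝓝 0] (fun t : ℝ => t ^ 3) := by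
    refine IsBigO.of_bound 1 ?_
    have : ∀ᶠ t : ℝ in 𝓝 0, |t| ≤ 1 := by
      have : Tendsto (fun w : ℝ => |w|) (𝓝 0) (𝓝 |(0:ℝ)|) := continuous_abs.tendsto 0
      rw [abs_zero] at this
      exact (this.eventually (gt_mem_nhds one_pos)).mono fun _ h => le_of_lt h
    filter_upwards [this] with t ht
    have := Real.exp_bound ht (n := 3) (by norm_num)
    simp only [Finset.sum_range_succ, Finset.sum_range_zero, pow_zero, Nat.factorial,
      Nat.cast_one, pow_one, div_one, zero_add] at this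
    rw [Real.norm_eq_abs, Real.norm_eq_abs, abs_pow, one_mul]
    refine le_trans ?_ (this.trans ?_)
    · apply le_of_eq
      congr 1
      push_cast
      ring
    · push_cast
      nlinarith [pow_nonneg (abs_nonneg t) 3]
  have h2 : (fun t : ℝ => t ^ 3) =o[𝓝 0] (fun t : ℝ => t ^ 2) := by
    exact isLittleO_pow_pow (by norm_num)
  refine ((h1.trans_isLittleO h2).const_mul_left (Real.exp x)).congr_left fun t => ?_
  rw [Real.exp_add]
  ring

/-- Levi form of `exp (μ q)` : `e^{μ q} (μ L + μ² |α|²)`. -/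
theorem Jet2.exp (h : Jet2 φ c α β L) :
    Jet2 (fun w => Real.exp (φ w)) c (Real.exp (φ c) * α)
      (Real.exp (φ c) * β + Real.exp (φ c) / 2 * α ^ 2)
      (Real.exp (φ c) * (L + ‖α‖ ^ 2)) := by
  have := h.comp_real (g := Real.exp) (exp_taylor2 (φ c))
  have e : Real.exp (φ c) * L + Real.exp (φ c) * ‖α‖ ^ 2 = Real.exp (φ c) * (L + ‖α‖ ^ 2) := by
    ring
  rw [e] at this
  exact_mod_cast this

end Jet

end Crest.Agent.R269.PathAbs644
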