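import Mathlib
import Crest.Agent.R269.PathAbs_427
import Crest.Agent.R269.PathAbs_644

/-!
# Row 269 (S0411): the path theorem with ONE global penalty (helper644)

Line A of captain 58 (#1587): `(E)` Levi bound for `Y²`, `(C)` compactness of `{f(0) = x, Y ≤ R}`,
give the field `path` of `Cons_993.PD` with `Reg η f := Y f ≤ 1 / η`.

`PE` : the data; `PE.Good`, `PE.Reg`; `PE.path` : literally the field `PD.path`.
-/

set_option autoImplicit false

open Set Filter Topology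

namespace Crest.Agent.R269.PathE644

open Crest.Agent.R269.PathAbs_427 (m4 HasLevi m4_eq tendsto_pt)

noncomputable section

/-- the Levi form of `φ` at `0` is at most `L` (upper bound of four point means) -/
def LeviLE (φ : ℂ → ℝ) (L : ℝ) : Prop :=
  ∀ e : ℝ, 0 < e → ∀ᶠ r : ℝ in 𝓝[>] 0, m4 φ r - φ 0 ≤ (L + e) * r ^ 2

theorem _root_.Crest.Agent.R269.PathAbs_427.HasLevi.leviLE {φ : ℂ → ℝ} {L : ℝ}
    (h : HasLevi φ L) : LeviLE φ L := by
  intro e he
  have h1 : ∀ᶠ r : ℝ in 𝓝[>] 0, (r ^ 2)⁻¹ • (m4 φ r - φ 0) < L + e :=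
    h (Iio_mem_nhds (by linarith))
  filter_upwards [h1, self_mem_nhdsWithin] with r hr (hr0 : 0 < r)
  rw [smul_eq_mul, inv_mul_lt_iff₀ (by positivity)] at hr
  linarith

theorem LeviLE.mono {φ : ℂ → ℝ} {L L' : ℝ} (h : LeviLE φ L) (hL : L ≤ L') : LeviLE φ L' := by
  intro e he
  filter_upwards [h e he] with r hr
  nlinarith [sq_nonneg r]

/-- comparison at a local maximum of `φ - p ψ` -/
theorem levi_le_of_max {φ ψ : ℂ → ℝ} {L y p : ℝ} (hp : 0 ≤ p) (hφ : HasLevi φ L)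
    (hψ : LeviLE ψ y) (hmax : ∀ᶠ w in 𝓝 (0 : ℂ), φ w - p * ψ w ≤ φ 0 - p * ψ 0) :
    L ≤ p * y := by
  refine le_of_forall_pos_le_add ?_
  intro e he
  -- choose e1 with (p + 1) e1 ≤ e
  set e1 : ℝ := e / (p + 1) with he1
  have hp1 : 0 < p + 1 := by linarith
  have he1pos : 0 < e1 := div_pos he hp1
  have h1 : ∀ᶠ r : ℝ in 𝓝[>] 0, L - e1 < (r ^ 2)⁻¹ • (m4 φ r - φ 0) :=
    hφ (Ioi_mem_nhds (by linarith))
  have h2 := hψ e1 he1pos
  have key : ∀ u : ℂ, ∀ᶠ r : ℝ in 𝓝[>] 0,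
      φ ((r : ℂ) * u) - p * ψ ((r : ℂ) * u) ≤ φ 0 - p * ψ 0 :=
    fun u => (tendsto_pt u).eventually hmax
  obtain ⟨r, hr1, hr2, k1, k2, k3, k4, hr0⟩ :=
    (h1.and (h2.and ((key 1).and ((key Complex.I).and ((key (-1)).and ((key (-Complex.I)).and
      self_mem_nhdsWithin)))))).exists
  have hr0 : 0 < r := hr0
  have hr2pos : 0 < r ^ 2 := by positivity
  rw [smul_eq_mul, lt_inv_mul_iff₀ hr2pos] at hr1
  have h3 : m4 φ r - φ 0 ≤ p * (m4 ψ r - ψ 0) := by
    rw [m4_eq, m4_eq, smul_eq_mul, smul_eq_mul]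
    linarith
  have h4 : p * (m4 ψ r - ψ 0) ≤ p * ((y + e1) * r ^ 2) := mul_le_mul_of_nonneg_left hr2 hp
  have h5 : r ^ 2 * (L - e1) < r ^ 2 * (p * (y + e1)) := by
    calc r ^ 2 * (L - e1) < m4 φ r - φ 0 := hr1
      _ ≤ p * ((y + e1) * r ^ 2) := h3.trans h4
      _ = r ^ 2 * (p * (y + e1)) := by ring
  have h6 : L - e1 < p * (y + e1) := lt_of_mul_lt_mul_left h5 hr2pos.le
  have h7 : (p + 1) * e1 = e := by rw [he1]; field_simp
  linarith

/-- `C¹` functions are Lipschitz on compact intervals -/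
theorem lip_Icc {g : ℝ → ℝ} (hg : ContDiff ℝ 1 g) (a b : ℝ) :
    ∃ B, 0 ≤ B ∧ ∀ s ∈ Icc a b, ∀ s' ∈ Icc a b, |g s - g s'| ≤ B * |s - s'| := by
  obtain ⟨B, hB⟩ := (isCompact_Icc (a := a) (b := b)).exists_bound_of_continuousOn
    (f := deriv g) (hg.continuous_deriv le_rfl).continuousOn
  refine ⟨|B|, abs_nonneg _, fun s hs s' hs' => ?_⟩
  have := Convex.norm_image_sub_le_of_norm_deriv_le (f := g) (C := |B|) (s := Icc a b)
    (fun x _ => (hg.differentiable one_ne_zero) x) (fun x hx => (hB x hx).trans (le_abs_self _))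
    (convex_Icc a b) hs' hs
  simpa [Real.norm_eq_abs] using this

/-- Data for the path theorem with one global penalty `1 + Y²`. -/
structure PE (X Disc Fld : Type) (n : ℕ) [TopologicalSpace Disc] where
  /-- `f(0)` -/
  ctr : Disc → X
  /-- `Y(f)² = ∫_{∂D} |∂_θ f|²` -/
  Y : Disc → ℝ
  Y_nonneg : ∀ f, 0 ≤ Y f
  /-- (C) -/
  cpt : ∀ x R, IsCompact {f | ctr f = x ∧ Y f ≤ R}
  lsc : ∀ x R, LowerSemicontinuousOn (fun f => Y f ^ 2) {f | ctr f = x ∧ Y f ≤ R}
  /-- the family `w ↦ f_w` with `∂_w f_w = V_i = z b_i` at `w = 0` -/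
  fam : Fld → Disc → Fin n → ℂ → Disc
  fam_zero : ∀ a f i, fam a f i 0 = f
  fam_ctr : ∀ a f i, ∀ᶠ w in 𝓝 (0 : ℂ), ctr (fam a f i w) = ctr f
  fam_Y : ∀ a f i R, Y f < R → ∀ᶠ w in 𝓝 (0 : ℂ), Y (fam a f i w) ≤ R
  /-- (E) -/
  levi_Y : ∀ a, ∃ K, ∀ f, ∃ y : Fin n → ℝ,
    (∀ i, LeviLE (fun w => Y (fam a f i w) ^ 2) (y i)) ∧ ∑ i, y i ≤ K * (1 + Y f ^ 2)

namespace PE

variable {X Disc Fld : Type} {n : ℕ} [TopologicalSpace Disc] (P : PE X Disc Fld n)

/-- good functionals -/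
def Good (a : Fld) (Φ LΦ : Disc → ℝ) : Prop :=
  (∀ x R, ContinuousOn Φ {f | P.ctr f = x ∧ P.Y f ≤ R}) ∧
  ∀ f, ∃ l : Fin n → ℝ, (∀ i, HasLevi (fun w => Φ (P.fam a f i w)) (l i)) ∧ ∑ i, l i = LΦ f

/-- the regularity class -/
def Reg (η : ℝ) (f : Disc) : Prop := P.Y f ≤ 1 / η

/-- THE PATH THEOREM, in the shape of `Cons_993.PD.path`. -/
theorem path (a : Fld) (t : ℝ) (ht : 0 < t) (Cb : ℝ) (f₀ : Disc) (ε : ℝ) (hε : 0 < ε) :
    ∃ ηs, 0 < ηs ∧ ηs ≤ 1 ∧ ∀ (m : ℕ) (Φ LΦ : Fin m → Disc → ℝ),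
      (∀ j, P.Good a (Φ j) (LΦ j)) →
      ∀ (c : Fin m → ℝ → ℝ) (θ : ℝ → ℝ), (∀ j, ContDiff ℝ 1 (c j)) → ContDiff ℝ 1 θ →
      (∀ s ∈ Icc 0 t, ∀ η f, 0 < η → η ≤ 1 → P.Reg η f →
        |θ s + ∑ j, c j s * Φ j f| ≤ Cb * (1 + Real.log (1 / η))) →
      (∀ s ∈ Icc 0 t, ∀ f, P.ctr f = P.ctr f₀ → P.Reg ηs f →
        0 ≤ deriv θ s + ∑ j, (deriv (c j) s * Φ j f + c j s * LΦ j f)) →
      ∃ f, P.ctr f = P.ctr f₀ ∧
        θ 0 + (∑ j, c j 0 * Φ j f₀) - ε ≤ θ t + ∑ j, c j t * Φ j f := by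
  classical
  obtain ⟨K', hK'⟩ := P.levi_Y a
  set K : ℝ := max K' 0 with hK
  have hK0 : 0 ≤ K := le_max_right _ _
  have hY0 : 0 < 1 + P.Y f₀ ^ 2 := by positivity
  set e' : ℝ := ε / (1 + P.Y f₀ ^ 2) with he'
  have he'pos : 0 < e' := div_pos hε hY0
  have he'eq : e' * (1 + P.Y f₀ ^ 2) = ε := div_mul_cancel₀ _ hY0.ne'
  set q : ℝ := e' * Real.exp (-(K * t)) with hq
  have hqpos : 0 < q := mul_pos he'pos (Real.exp_pos _)
  set y0 : ℝ := max 1 (P.Y f₀) with hy0
  have hy01 : 1 ≤ y0 := le_max_left _ _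
  have hlog0 : 0 ≤ Real.log y0 := Real.log_nonneg hy01
  set B : ℝ := |Cb| * (1 + Real.log y0) + ε + 1 with hB
  have hB0 : 0 ≤ B := by positivity
  set Y1 : ℝ := y0 + (|Cb| + B) / q with hY1
  have hY1ge : y0 ≤ Y1 := by
    have : 0 ≤ (|Cb| + B) / q := div_nonneg (by positivity) hqpos.le
    linarith
  have hY11 : 1 ≤ Y1 := hy01.trans hY1ge
  have hY1pos : 0 < Y1 := by linarith
  have hY1f : P.Y f₀ ≤ Y1 := (le_max_right _ _).trans hY1ge
  have hqY : |Cb| * Y1 + B < q * (1 + Y1 ^ 2) := by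
    have h1 : (|Cb| + B) ≤ q * Y1 := by
      have : q * ((|Cb| + B) / q) = |Cb| + B := by field_simp
      have h2 : q * ((|Cb| + B) / q) ≤ q * Y1 :=
        mul_le_mul_of_nonneg_left (by linarith) hqpos.le
      linarith
    have h2 : (|Cb| + B) * Y1 ≤ q * Y1 * Y1 := mul_le_mul_of_nonneg_right h1 hY1pos.le
    have h3 : B ≤ B * Y1 := le_mul_of_one_le_right hB0 hY11
    nlinarith
  refine ⟨1 / Y1, by positivity, by rw [div_le_one hY1pos]; exact hY11, ?_⟩
  intro m Φ LΦ hgood c θ hc hθ hgrow hrate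
  -- penalised functional
  set pen : ℝ → ℝ := fun s => e' * Real.exp (-(K * s)) with hpen
  have hpenpos : ∀ s, 0 < pen s := fun s => mul_pos he'pos (Real.exp_pos _)
  have hpenge : ∀ s ≤ t, q ≤ pen s := by
    intro s hs
    refine mul_le_mul_of_nonneg_left (Real.exp_le_exp.2 ?_) he'pos.le
    have := mul_le_mul_of_nonneg_left hs hK0
    linarith
  have hpend : ∀ s, HasDerivAt pen (-(K * pen s)) s := by
    intro s
    have h1 : HasDerivAt (fun s : ℝ => -(K * s)) (-(K * 1)) s :=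
      ((hasDerivAt_id s).const_mul K).neg
    have h2 := (h1.exp).const_mul e'
    refine h2.congr_deriv ?_
    simp only [hpen]
    ring
  have hpenC : ContDiff ℝ 1 pen := by
    simp only [hpen]
    fun_prop
  set Ψ : ℝ → Disc → ℝ := fun s f => θ s + ∑ j, c j s * Φ j f with hΨ
  set F : ℝ → Disc → ℝ := fun s f => Ψ s f - pen s * (1 + P.Y f ^ 2) with hF
  set C : Set Disc := {f | P.ctr f = P.ctr f₀ ∧ P.Y f ≤ Y1} with hC
  have hCc : IsCompact C := P.cpt _ _
  have hf0C : f₀ ∈ C := ⟨rfl, hY1f⟩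
  have hΨcont : ∀ s, ContinuousOn (Ψ s) C := by
    intro s
    refine continuousOn_const.add ?_
    exact continuousOn_finsetSum _ fun j _ => continuousOn_const.mul ((hgood j).1 _ _)
  -- growth in terms of Y
  have hgrow' : ∀ s ∈ Icc 0 t, ∀ f, |Ψ s f| ≤ Cb * (1 + Real.log (max 1 (P.Y f))) := by
    intro s hs f
    have h1 : 0 < max 1 (P.Y f) := lt_of_lt_of_le one_pos (le_max_left _ _)
    have := hgrow s hs (1 / max 1 (P.Y f)) f (by positivity)
      (by rw [div_le_one h1]; exact le_max_left _ _)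
      (by rw [Reg, one_div_one_div]; exact le_max_right _ _)
    rwa [one_div_one_div] at this
  have husc : ∀ s ∈ Icc 0 t, UpperSemicontinuousOn (F s) C := by
    intro s _
    have h1 : UpperSemicontinuousOn (Ψ s) C := (hΨcont s).upperSemicontinuousOn
    have h2 : UpperSemicontinuousOn (fun f => -(pen s * (1 + P.Y f ^ 2))) C := by
      have hg : Continuous fun y : ℝ => -(pen s * (1 + y)) := by fun_prop
      have hg' : Antitone fun y : ℝ => -(pen s * (1 + y)) := by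
        intro y y' hy
        have := mul_le_mul_of_nonneg_left hy (hpenpos s).le
        simp only
        linarith
      exact hg.comp_lowerSemicontinuousOn_antitone (P.lsc _ _) hg'
    have h3 : F s = fun f => Ψ s f + -(pen s * (1 + P.Y f ^ 2)) := by
      funext f
      simp only [hF]
      ring
    rw [h3]
    exact h1.add h2
  -- Lipschitz in time
  obtain ⟨Lp, hLp⟩ : ∃ Lp, ∀ s ∈ Icc 0 t, ∀ s' ∈ Icc 0 t, ∀ f ∈ C,
      |F s f - F s' f| ≤ Lp * |s - s'| := by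
    obtain ⟨Bθ, hBθ0, hBθ⟩ := lip_Icc hθ 0 t
    obtain ⟨Bp, hBp0, hBp⟩ := lip_Icc hpenC 0 t
    choose Bc hBc0 hBc using fun j => lip_Icc (hc j) 0 t
    have hbd : ∀ j, ∃ M, ∀ f ∈ C, ‖Φ j f‖ ≤ M := fun j =>
      hCc.exists_bound_of_continuousOn ((hgood j).1 _ _)
    choose M hM using hbd
    refine ⟨Bθ + (∑ j, Bc j * |M j|) + Bp * (1 + Y1 ^ 2), ?_⟩
    intro s hs s' hs' f hf
    have hYf : P.Y f ^ 2 ≤ Y1 ^ 2 := pow_le_pow_left₀ (P.Y_nonneg f) hf.2 2
    have e1 : F s f - F s' f = (θ s - θ s') + (∑ j, (c j s - c j s') * Φ j f) +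
        (-(pen s - pen s') * (1 + P.Y f ^ 2)) := by
      simp only [hF, hΨ, sub_mul, Finset.sum_sub_distrib]
      ring
    rw [e1]
    have b1 := hBθ s hs s' hs'
    have b2 : |∑ j, (c j s - c j s') * Φ j f| ≤ (∑ j, Bc j * |M j|) * |s - s'| := by
      refine (Finset.abs_sum_le_sum_abs _ _).trans ?_
      rw [Finset.sum_mul]
      refine Finset.sum_le_sum fun j _ => ?_
      rw [abs_mul]
      have h1 := hBc j s hs s' hs'
      have h2 : |Φ j f| ≤ |M j| := by
        have := hM j f hf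
        rw [Real.norm_eq_abs] at this
        exact this.trans (le_abs_self _)
      calc |c j s - c j s'| * |Φ j f| ≤ (Bc j * |s - s'|) * |M j| :=
            mul_le_mul h1 h2 (abs_nonneg _) (mul_nonneg (hBc0 j) (abs_nonneg _))
        _ = Bc j * |M j| * |s - s'| := by ring
    have b3 : |-(pen s - pen s') * (1 + P.Y f ^ 2)| ≤ Bp * (1 + Y1 ^ 2) * |s - s'| := by
      rw [abs_mul, abs_neg, abs_of_nonneg (by positivity : (0 : ℝ) ≤ 1 + P.Y f ^ 2)]
      calc |pen s - pen s'| * (1 + P.Y f ^ 2) ≤ (Bp * |s - s'|) * (1 + Y1 ^ 2) :=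
            mul_le_mul (hBp s hs s' hs') (by linarith) (by positivity)
              (mul_nonneg hBp0 (abs_nonneg _))
        _ = Bp * (1 + Y1 ^ 2) * |s - s'| := by ring
    calc |(θ s - θ s') + (∑ j, (c j s - c j s') * Φ j f) + (-(pen s - pen s') * (1 + P.Y f ^ 2))|
        ≤ |θ s - θ s'| + |∑ j, (c j s - c j s') * Φ j f| +
          |-(pen s - pen s') * (1 + P.Y f ^ 2)| := abs_add_three _ _ _
      _ ≤ Bθ * |s - s'| + (∑ j, Bc j * |M j|) * |s - s'| + Bp * (1 + Y1 ^ 2) * |s - s'| := by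
          linarith
      _ = _ := by ring
  -- lower bound at the start
  have hstart : F 0 f₀ = Ψ 0 f₀ - ε := by
    have : pen 0 = e' := by simp [hpen]
    simp only [hF]
    rw [this, he'eq]
  have hstart' : -(B - 1) ≤ F 0 f₀ := by
    have h1 := hgrow' 0 ⟨le_rfl, ht.le⟩ f₀
    have h2 := (abs_le.1 h1).1
    have h3 : Cb * (1 + Real.log y0) ≤ |Cb| * (1 + Real.log y0) :=
      mul_le_mul_of_nonneg_right (le_abs_self _) (by linarith)
    rw [hstart]
    have : max 1 (P.Y f₀) = y0 := rfl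
    rw [this] at h2
    linarith
  have hmain := PathAbs644.maxPrinciple hCc ht.le husc hLp hf0C one_pos (by
    intro s hs f hf hmax hval
    have hsI : s ∈ Icc 0 t := ⟨hs.1, hs.2.le⟩
    -- confinement
    have hYlt : P.Y f < Y1 := by
      refine lt_of_le_of_ne hf.2 ?_
      intro hYe
      have h1 := (abs_le.1 (hgrow' s hsI f)).2
      have h2 : max 1 (P.Y f) = Y1 := by rw [hYe]; exact max_eq_right hY11
      rw [h2] at h1
      have h3 : Real.log Y1 ≤ Y1 - 1 := Real.log_le_sub_one_of_pos hY1pos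
      have h4 : 0 ≤ Real.log Y1 := Real.log_nonneg hY11
      have h5 : Cb * (1 + Real.log Y1) ≤ |Cb| * Y1 :=
        mul_le_mul (le_abs_self _) (by linarith) (by linarith) (abs_nonneg _)
      have h6 : q * (1 + Y1 ^ 2) ≤ pen s * (1 + Y1 ^ 2) :=
        mul_le_mul_of_nonneg_right (hpenge s hs.2.le) (by positivity)
      have h7 : F s f = Ψ s f - pen s * (1 + Y1 ^ 2) := by simp only [hF, hYe]
      have h8 : F 0 f₀ - 1 ≤ F s f := hval
      rw [h7] at h8
      linarith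
    have hreg : P.Reg (1 / Y1) f := by
      rw [Reg, one_div_one_div]; exact hf.2
    obtain ⟨y, hy, hysum⟩ := hK' f
    choose l hl hlsum using fun j => (hgood j).2 f
    -- Levi inequality in each direction
    have hdir : ∀ i, ∑ j, c j s * l j i ≤ pen s * y i := by
      intro i
      have hφ : HasLevi (fun w => Ψ s (P.fam a f i w)) (∑ j, c j s * l j i) := by
        have h1 : HasLevi (fun w => ∑ j, c j s * Φ j (P.fam a f i w)) (∑ j, c j s * l j i) :=
          HasLevi.sum _ fun j _ => (hl j i).const_mul (c j s)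
        have h2 := h1.add_const (θ s)
        refine h2.congr_eventuallyEq (Eventually.of_forall fun w => ?_)
        simp only [hΨ]
        ring
      refine levi_le_of_max (hpenpos s).le hφ (hy i) ?_
      filter_upwards [P.fam_ctr a f i, P.fam_Y a f i Y1 hYlt] with w hw1 hw2
      have hwC : P.fam a f i w ∈ C := ⟨hw1.trans hf.1, hw2⟩
      have := hmax hwC
      simp only [mem_ofPred_eq, hF] at this
      rw [P.fam_zero]
      linarith
    refine ⟨deriv θ s + ∑ j, deriv (c j) s * Φ j f - -(K * pen s) * (1 + P.Y f ^ 2), ?_, ?_⟩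
    · have h1 := hrate s hsI f hf.1 hreg
      rw [Finset.sum_add_distrib] at h1
      have h2 : ∑ j, c j s * LΦ j f ≤ pen s * ∑ i, y i := by
        have : ∑ j, c j s * LΦ j f = ∑ i, ∑ j, c j s * l j i := by
          rw [Finset.sum_comm]
          refine Finset.sum_congr rfl fun j _ => ?_
          rw [← Finset.mul_sum, hlsum j]
        rw [this, Finset.mul_sum]
        exact Finset.sum_le_sum fun i _ => hdir i
      have h3 : pen s * ∑ i, y i ≤ pen s * (K * (1 + P.Y f ^ 2)) := by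
        refine mul_le_mul_of_nonneg_left (hysum.trans ?_) (hpenpos s).le
        exact mul_le_mul_of_nonneg_right (le_max_left _ _) (by positivity)
      nlinarith
    · have d1 : HasDerivAt θ (deriv θ s) s :=
        (hθ.differentiable one_ne_zero s).hasDerivAt
      have d2 : HasDerivAt (fun s => ∑ j, c j s * Φ j f) (∑ j, deriv (c j) s * Φ j f) s :=
        HasDerivAt.fun_sum fun j _ =>
          (((hc j).differentiable one_ne_zero s).hasDerivAt).mul_const _
      have d3 : HasDerivAt (fun s => pen s * (1 + P.Y f ^ 2)) (-(K * pen s) * (1 + P.Y f ^ 2)) s :=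
        (hpend s).mul_const _
      exact ((d1.add d2).sub d3).hasDerivWithinAt)
  obtain ⟨f1, hf1, hle⟩ := hmain
  refine ⟨f1, hf1.1, ?_⟩
  have h1 : F t f1 ≤ Ψ t f1 := by
    simp only [hF]
    have : 0 ≤ pen t * (1 + P.Y f1 ^ 2) := mul_nonneg (hpenpos t).le (by positivity)
    linarith
  rw [hstart] at hle
  exact hle.trans h1

end PE

end

end Crest.Agent.R269.PathE644
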