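import Mathlib
import Crest.Agent.R269.PathAbs_427

/-!
# Row 269 (S0411), Line A, leaf A8: the path theorem with one global penalty `1 + Y²`

`OnePen D X n` : the interface ((hex), (h0), (E), (C)).  `OnePen.path` : literally the field `PD.path` of
`Cons_993` for `Reg η f := Y2 f ≤ 1 / η` and `Good := GoodF`.
-/

set_option autoImplicit false

open Filter Topology Set
open Crest.Agent.R269.PathAbs_427

noncomputable section

namespace Crest.Agent.R269.PathOne_427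

/-- Good functionals: continuous for the convergence `Conv`, and with Levi sum `LΦ` along the families `Fam`. -/
def GoodF {D : Type*} {n : ℕ} (Conv : (ℕ → D) → D → Prop) (Fam : D → (Fin n → ℂ → D) → Prop)
    (Φ LΦ : D → ℝ) : Prop :=
  (∀ u f, Conv u f → Tendsto (fun k => Φ (u k)) atTop (𝓝 (Φ f))) ∧
  ∀ f F, Fam f F → ∃ l : Fin n → ℝ, (∀ i, HasLevi (fun w => Φ (F i w)) (l i)) ∧ ∑ i, l i = LΦ f

/-- Interface of the one-penalty path theorem, for one field `a`. -/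
structure OnePen (D X : Type*) (n : ℕ) where
  ctr : D → X
  /-- the energy `Y²` -/
  Y2 : D → ℝ
  Y2_nonneg : ∀ f, 0 ≤ Y2 f
  /-- uniform convergence on the closed disc -/
  Conv : (ℕ → D) → D → Prop
  /-- `Fam f F`: `F i` is a variation of `f` along `V_i = z b_i(a, f)` -/
  Fam : D → (Fin n → ℂ → D) → Prop
  hex : ∀ f, ∃ F, Fam f F
  h0 : ∀ f F, Fam f F → ∀ i, F i 0 = f
  hctr : ∀ f F, Fam f F → ∀ i, ∀ᶠ w in 𝓝 (0 : ℂ), ctr (F i w) = ctr f
  hcont : ∀ f F, Fam f F → ∀ i, ContinuousAt (fun w => Y2 (F i w)) 0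
  K : ℝ
  /-- (E) -/
  hE : ∀ f F, Fam f F → ∃ l : Fin n → ℝ, (∀ i, HasLevi (fun w => Y2 (F i w)) (l i)) ∧
    ∑ i, l i ≤ K * (1 + Y2 f)
  /-- (C) -/
  hC : ∀ (x : X) (R : ℝ) (u : ℕ → D), (∀ k, ctr (u k) = x ∧ Y2 (u k) ≤ R) →
    ∃ (f : D) (φ : ℕ → ℕ), StrictMono φ ∧ ctr f = x ∧ Conv (fun k => u (φ k)) f ∧
      ∀ c, (∀ᶠ k in atTop, Y2 (u (φ k)) ≤ c) → Y2 f ≤ c

namespace OnePen

variable {D X : Type*} {n : ℕ} (P : OnePen D X n)

/-- the compact class -/
def Cls (x : X) (R : ℝ) (f : D) : Prop := P.ctr f = x ∧ P.Y2 f ≤ R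

theorem bounded {Φ : D → ℝ} (hΦ : ∀ u f, P.Conv u f → Tendsto (fun k => Φ (u k)) atTop (𝓝 (Φ f)))
    (x : X) (R : ℝ) : ∃ B, 0 ≤ B ∧ ∀ f, P.Cls x R f → |Φ f| ≤ B := by
  by_contra hcon
  push Not at hcon
  have : ∀ k : ℕ, ∃ f, P.Cls x R f ∧ (k : ℝ) < |Φ f| := fun k => hcon k (Nat.cast_nonneg k)
  choose u hu hk using this
  obtain ⟨f, φ, hφ, -, hconv, -⟩ := P.hC x R u hu
  have h1 := (hΦ _ _ hconv).abs
  have h2 : Tendsto (fun k => |Φ (u (φ k))|) atTop atTop := by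
    refine tendsto_atTop_mono (fun k => ?_) tendsto_natCast_atTop_atTop
    have : (k : ℝ) ≤ φ k := by exact_mod_cast hφ.id_le k
    exact this.trans (hk _).le
  exact not_tendsto_nhds_of_tendsto_atTop h2 _ h1

theorem attain {Ψ : D → ℝ} (hΨ : ∀ u f, P.Conv u f → Tendsto (fun k => Ψ (u k)) atTop (𝓝 (Ψ f)))
    {x : X} {R A : ℝ} (hA : 0 ≤ A) (hne : ∃ f, P.Cls x R f) :
    ∃ f, P.Cls x R f ∧ ∀ f', P.Cls x R f' → Ψ f' - A * (1 + P.Y2 f') ≤ Ψ f - A * (1 + P.Y2 f) := by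
  obtain ⟨B, hB0, hB⟩ := P.bounded hΨ x R
  set Φ : D → ℝ := fun f => Ψ f - A * (1 + P.Y2 f) with hΦ
  have hbdd : BddAbove (Φ '' {f | P.Cls x R f}) := by
    refine ⟨B, ?_⟩
    rintro _ ⟨f, hf, rfl⟩
    have h1 : 0 ≤ A * (1 + P.Y2 f) := mul_nonneg hA (by linarith [P.Y2_nonneg f])
    have h2 := (abs_le.1 (hB f hf)).2
    simp only [hΦ]; linarith
  have hne' : (Φ '' {f | P.Cls x R f}).Nonempty := by
    obtain ⟨g, hg⟩ := hne
    exact ⟨_, g, hg, rfl⟩
  obtain ⟨v, -, hv, hvmem⟩ := exists_seq_tendsto_sSup hne' hbdd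
  set s := sSup (Φ '' {f | P.Cls x R f}) with hs
  choose u hu huv using hvmem
  obtain ⟨ystar, -, ψ, hψ, hlim⟩ := (isCompact_Icc (a := (0 : ℝ)) (b := R)).tendsto_subseq
    (x := fun k => P.Y2 (u k)) (fun k => ⟨P.Y2_nonneg _, (hu k).2⟩)
  obtain ⟨f, φ, hφ, hfx, hconv, hfY⟩ := P.hC x R (fun k => u (ψ k)) (fun k => hu _)
  have hlim' : Tendsto (fun k => P.Y2 (u (ψ (φ k)))) atTop (𝓝 ystar) := hlim.comp hφ.tendsto_atTop
  have hYR : P.Y2 f ≤ R := hfY R (Eventually.of_forall fun k => (hu _).2)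
  have hYs : P.Y2 f ≤ ystar := by
    refine le_of_forall_pos_le_add fun ε hε => ?_
    refine hfY _ ?_
    exact (hlim'.eventually (gt_mem_nhds (by linarith : ystar < ystar + ε))).mono fun k hk => hk.le
  have hΦlim : Tendsto (fun k => Φ (u (ψ (φ k)))) atTop (𝓝 s) := by
    have : Tendsto (fun k => v (ψ (φ k))) atTop (𝓝 s) :=
      hv.comp (hψ.tendsto_atTop.comp hφ.tendsto_atTop)
    refine this.congr fun k => ?_
    rw [← huv]
  have hΨlim : Tendsto (fun k => Ψ (u (ψ (φ k)))) atTop (𝓝 (s + A * (1 + ystar))) := by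
    refine (hΦlim.add ((hlim'.const_add 1).const_mul A)).congr fun k => ?_
    simp only [hΦ]; ring
  have hΨf : Ψ f = s + A * (1 + ystar) := tendsto_nhds_unique (hΨ _ _ hconv) hΨlim
  refine ⟨f, ⟨hfx, hYR⟩, fun f' hf' => ?_⟩
  have h1 : Φ f' ≤ s := le_csSup hbdd ⟨f', hf', rfl⟩
  have h2 : A * (1 + P.Y2 f) ≤ A * (1 + ystar) := mul_le_mul_of_nonneg_left (by linarith) hA
  have h3 : Φ f' = Ψ f' - A * (1 + P.Y2 f') := rfl
  linarith

/-- uniform differentiability of a `C¹` function on `[0,t]`. -/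
theorem unif_deriv {c : ℝ → ℝ} (hc : ContDiff ℝ 1 c) (t : ℝ) {e : ℝ} (he : 0 < e) :
    ∃ h0 > 0, ∀ s h : ℝ, 0 ≤ s → 0 < h → h < h0 → s + h ≤ t →
      |c (s + h) - c s - h * deriv c s| ≤ e * h := by
  have hcd : Continuous (deriv c) := hc.continuous_deriv (by norm_num)
  have huc : UniformContinuousOn (deriv c) (Icc 0 t) :=
    isCompact_Icc.uniformContinuousOn_of_continuous hcd.continuousOn
  obtain ⟨h0, hh0, H⟩ := Metric.uniformContinuousOn_iff.1 huc e he
  refine ⟨h0, hh0, fun s h hs hh hh' hst => ?_⟩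
  have hdiff : Differentiable ℝ c := hc.differentiable (by norm_num)
  obtain ⟨ξ, hξ, hξ'⟩ := exists_deriv_eq_slope c (show s < s + h by linarith)
    hc.continuous.continuousOn hdiff.differentiableOn
  have h1 : c (s + h) - c s = deriv c ξ * h := by
    have e1 : s + h - s = h := by ring
    rw [hξ', e1]; field_simp
  have h2 := H ξ ⟨by linarith [hξ.1], by linarith [hξ.2]⟩ s ⟨hs, by linarith⟩ (by
    rw [Real.dist_eq, abs_of_pos (by linarith [hξ.1])]; linarith [hξ.2])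
  rw [Real.dist_eq] at h2
  have h3 : c (s + h) - c s - h * deriv c s = (deriv c ξ - deriv c s) * h := by rw [h1]; ring
  rw [h3, abs_mul, abs_of_pos hh]
  exact mul_le_mul_of_nonneg_right h2.le hh.le

theorem exp_step {K h : ℝ} (hK : 0 ≤ K) (hh : 0 ≤ h) (h1 : (K + 1) * K * h ≤ 1) :
    Real.exp (-((K + 1) * h)) ≤ 1 - K * h := by
  have h2 : 0 < 1 + (K + 1) * h := by positivity
  have h3 : (1 : ℝ) + (K + 1) * h ≤ Real.exp ((K + 1) * h) := by
    linarith [Real.add_one_le_exp ((K + 1) * h)]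
  rw [Real.exp_neg]
  calc (Real.exp ((K + 1) * h))⁻¹ ≤ (1 + (K + 1) * h)⁻¹ := inv_anti₀ h2 h3
    _ ≤ 1 - K * h := by
        rw [inv_le_iff_one_le_mul₀ h2]
        nlinarith

/-- One time step at an interior maximiser. -/
theorem step {m : ℕ} {Φ LΦ : Fin m → D → ℝ} (hgood : ∀ j, GoodF P.Conv P.Fam (Φ j) (LΦ j))
    {c : Fin m → ℝ → ℝ} {θ : ℝ → ℝ} {x : X} {R A A' s h e K : ℝ} {f : D} (hA : 0 ≤ A)
    (hK : P.K ≤ K)
    (hf : P.Cls x R f) (hint : P.Y2 f < R)
    (hmax : ∀ f', P.Cls x R f' → (θ s + ∑ j, c j s * Φ j f') - A * (1 + P.Y2 f') ≤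
      (θ s + ∑ j, c j s * Φ j f) - A * (1 + P.Y2 f))
    (hrate : 0 ≤ deriv θ s + ∑ j, (deriv (c j) s * Φ j f + c j s * LΦ j f))
    (htime : (θ s + ∑ j, c j s * Φ j f) + h * (deriv θ s + ∑ j, deriv (c j) s * Φ j f) - e * h ≤
      θ (s + h) + ∑ j, c j (s + h) * Φ j f)
    (hh : 0 ≤ h) (hA' : A' ≤ A * (1 - K * h)) :
    (θ s + ∑ j, c j s * Φ j f) - A * (1 + P.Y2 f) - e * h ≤
      (θ (s + h) + ∑ j, c j (s + h) * Φ j f) - A' * (1 + P.Y2 f) := by
  obtain ⟨F, hF⟩ := P.hex f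
  obtain ⟨l2, hl2, hl2K⟩ := P.hE f F hF
  have hl : ∀ j, ∃ l : Fin n → ℝ, (∀ i, HasLevi (fun w => Φ j (F i w)) (l i)) ∧ ∑ i, l i = LΦ j f :=
    fun j => (hgood j).2 f F hF
  choose l hl hlL using hl
  have hfo : ∀ i, ∑ j, c j s * l j i - A * l2 i ≤ 0 := by
    intro i
    have hlevi : HasLevi (fun w => (θ s + ∑ j, c j s * Φ j (F i w)) - A * (1 + P.Y2 (F i w)))
        (∑ j, c j s * l j i - A * l2 i) := by
      have h1 : HasLevi (fun w => ∑ j, c j s * Φ j (F i w)) (∑ j, c j s * l j i) :=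
        HasLevi.sum Finset.univ fun j _ => (hl j i).const_mul _
      have h2 : HasLevi (fun w => A * (1 + P.Y2 (F i w))) (A * l2 i) := by
        have := ((hl2 i).add_const 1).const_mul A
        refine this.congr_eventuallyEq (Eventually.of_forall fun w => ?_)
        simp only
        ring
      have h3 := (h1.add_const (θ s)).sub h2
      refine h3.congr_eventuallyEq (Eventually.of_forall fun w => ?_)
      simp only
      ring
    refine hlevi.nonpos ?_
    have h4 : ∀ᶠ w in 𝓝 (0 : ℂ), P.Y2 (F i w) < R := by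
      refine (P.hcont f F hF i).eventually (gt_mem_nhds ?_)
      change P.Y2 (F i 0) < R
      rw [P.h0 f F hF i]; exact hint
    filter_upwards [h4, P.hctr f F hF i] with w hw hw'
    rw [P.h0 f F hF i]
    exact hmax _ ⟨hw'.trans hf.1, hw.le⟩
  have hsum : ∑ j, c j s * LΦ j f ≤ A * (K * (1 + P.Y2 f)) := by
    have h1 : ∑ i, (∑ j, c j s * l j i - A * l2 i) ≤ 0 := Finset.sum_nonpos fun i _ => hfo i
    rw [Finset.sum_sub_distrib, Finset.sum_comm, ← Finset.mul_sum] at h1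
    have h2 : ∑ j, ∑ i, c j s * l j i = ∑ j, c j s * LΦ j f := by
      refine Finset.sum_congr rfl fun j _ => ?_
      rw [← Finset.mul_sum, hlL]
    rw [h2] at h1
    have h3 : A * ∑ i, l2 i ≤ A * (P.K * (1 + P.Y2 f)) := mul_le_mul_of_nonneg_left hl2K hA
    have h4 : A * (P.K * (1 + P.Y2 f)) ≤ A * (K * (1 + P.Y2 f)) :=
      mul_le_mul_of_nonneg_left (mul_le_mul_of_nonneg_right hK (by linarith [P.Y2_nonneg f])) hA
    linarith
  have hrate' : -(A * (K * (1 + P.Y2 f))) ≤ deriv θ s + ∑ j, deriv (c j) s * Φ j f := by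
    rw [Finset.sum_add_distrib] at hrate
    linarith
  have h5 := mul_le_mul_of_nonneg_left hrate' hh
  have h6 : A' * (1 + P.Y2 f) ≤ A * (1 - K * h) * (1 + P.Y2 f) :=
    mul_le_mul_of_nonneg_right hA' (by linarith [P.Y2_nonneg f])
  nlinarith

/-- **Path theorem with one global penalty**: literally `PD.path` of `Cons_993`,
`Reg η f := Y2 f ≤ 1 / η`. -/
theorem path (t : ℝ) (ht : 0 < t) (Cb : ℝ) (f₀ : D) (ε : ℝ) (hε : 0 < ε) :
    ∃ ηs : ℝ, 0 < ηs ∧ ηs ≤ 1 ∧ ∀ (m : ℕ) (Φ LΦ : Fin m → D → ℝ),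
      (∀ j, GoodF P.Conv P.Fam (Φ j) (LΦ j)) →
      ∀ (c : Fin m → ℝ → ℝ) (θ : ℝ → ℝ), (∀ j, ContDiff ℝ 1 (c j)) → ContDiff ℝ 1 θ →
      (∀ s ∈ Icc 0 t, ∀ (η : ℝ) f, 0 < η → η ≤ 1 → P.Y2 f ≤ 1 / η →
        |θ s + ∑ j, c j s * Φ j f| ≤ Cb * (1 + Real.log (1 / η))) →
      (∀ s ∈ Icc 0 t, ∀ f, P.ctr f = P.ctr f₀ → P.Y2 f ≤ 1 / ηs →
        0 ≤ deriv θ s + ∑ j, (deriv (c j) s * Φ j f + c j s * LΦ j f)) →
      ∃ f, P.ctr f = P.ctr f₀ ∧
        θ 0 + (∑ j, c j 0 * Φ j f₀) - ε ≤ θ t + ∑ j, c j t * Φ j f := by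
  set x := P.ctr f₀ with hx
  set y0 := P.Y2 f₀ with hy0
  have hy0nn : 0 ≤ y0 := P.Y2_nonneg f₀
  set K : ℝ := max P.K 0 with hK
  have hK0 : 0 ≤ K := le_max_right _ _
  set e' : ℝ := ε / (2 * (1 + y0)) with he'
  have he'pos : 0 < e' := by rw [he']; positivity
  set κ : ℝ := e' * Real.exp (-((K + 1) * t)) with hκ
  have hκpos : 0 < κ := by rw [hκ]; positivity
  -- choice of the radius
  obtain ⟨R, hRy, hR1, hRconf⟩ : ∃ R : ℝ, y0 < R ∧ 1 ≤ R ∧
      |Cb| * (1 + Real.log (1 + R)) + |Cb| * (1 + Real.log (1 + y0)) + ε < κ * (1 + R) := by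
    have h1 : Tendsto (fun x : ℝ => Real.log x / x) atTop (𝓝 0) := by
      have := Real.isLittleO_log_id_atTop.tendsto_div_nhds_zero
      simpa using this
    have h2 : ∀ᶠ x : ℝ in atTop, |Cb| * (Real.log x / x) < κ / 2 := by
      have := (h1.const_mul |Cb|)
      rw [mul_zero] at this
      exact this.eventually (gt_mem_nhds (by positivity))
    set M : ℝ := |Cb| + |Cb| * (1 + Real.log (1 + y0)) + ε with hM
    obtain ⟨x0, hx0⟩ := ((h2.and (eventually_gt_atTop (2 * |M| / κ + y0 + 2)))).exists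
    obtain ⟨hx1, hx2⟩ := hx0
    have hMd : 0 ≤ 2 * |M| / κ := by positivity
    have hx0pos : 0 < x0 := by linarith
    refine ⟨x0 - 1, by linarith, by linarith, ?_⟩
    have e1 : 1 + (x0 - 1) = x0 := by ring
    rw [e1]
    have h3 : |Cb| * Real.log x0 < κ / 2 * x0 := by
      have := mul_lt_mul_of_pos_right hx1 hx0pos
      calc |Cb| * Real.log x0 = |Cb| * (Real.log x0 / x0) * x0 := by field_simp
        _ < _ := this
    have h4 : |M| < κ / 2 * x0 := by
      have : 2 * |M| / κ < x0 := by linarith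
      rw [div_lt_iff₀ hκpos] at this
      linarith
    have h5 : M ≤ |M| := le_abs_self M
    have h6 : |Cb| * (1 + Real.log x0) + |Cb| * (1 + Real.log (1 + y0)) + ε = |Cb| * Real.log x0 + M := by
      rw [hM]; ring
    rw [h6]
    linarith
  refine ⟨1 / (1 + R), by positivity, ?_, ?_⟩
  · rw [div_le_one (by positivity)]; linarith
  intro m Φ LΦ hgood c θ hc hθ hgrow hrate
  -- growth in terms of `Y2`
  have hgrow' : ∀ s ∈ Icc 0 t, ∀ f, |θ s + ∑ j, c j s * Φ j f| ≤ |Cb| * (1 + Real.log (1 + P.Y2 f)) := by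
    intro s hs f
    have hY := P.Y2_nonneg f
    have h1 := hgrow s hs (1 / (1 + P.Y2 f)) f (by positivity)
      (by rw [div_le_one (by positivity)]; linarith) (by rw [one_div_one_div]; linarith)
    rw [one_div_one_div] at h1
    have h2 : 0 ≤ Real.log (1 + P.Y2 f) := Real.log_nonneg (by linarith)
    exact h1.trans (mul_le_mul_of_nonneg_right (le_abs_self _) (by linarith))
  have hrate' : ∀ s ∈ Icc 0 t, ∀ f, P.Cls x R f →
      0 ≤ deriv θ s + ∑ j, (deriv (c j) s * Φ j f + c j s * LΦ j f) := by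
    intro s hs f hf
    refine hrate s hs f hf.1 ?_
    rw [one_div_one_div]
    linarith [hf.2]
  -- bounds and time steps
  have hbd : ∀ j, ∃ B, 0 ≤ B ∧ ∀ f, P.Cls x R f → |Φ j f| ≤ B := fun j => P.bounded (hgood j).1 x R
  choose B hB0 hB using hbd
  have hsB : 0 ≤ ∑ j, B j := Finset.sum_nonneg fun j _ => hB0 j
  set e : ℝ := ε / (4 * (t + 1) * (1 + ∑ j, B j)) with he
  have hepos : 0 < e := by rw [he]; positivity
  set e2 : ℝ := e * (1 + ∑ j, B j) with he2
  have he2pos : 0 < e2 := by rw [he2]; positivity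
  have he2t : e2 * t ≤ ε / 4 := by
    have h1 : e2 = ε / (4 * (t + 1)) := by rw [he2, he]; field_simp
    rw [h1, div_mul_eq_mul_div, div_le_iff₀ (by positivity)]
    nlinarith
  obtain ⟨hθ0, hθ0pos, hθd⟩ := unif_deriv hθ t hepos
  have hcd : ∀ j, ∃ h0 > 0, ∀ s h : ℝ, 0 ≤ s → 0 < h → h < h0 → s + h ≤ t →
      |c j (s + h) - c j s - h * deriv (c j) s| ≤ e * h := fun j => unif_deriv (hc j) t hepos
  choose hj hjpos hjd using hcd
  -- a common step size bound
  obtain ⟨hmin, hminpos, hmin1, hmin2, hmin3⟩ : ∃ hmin : ℝ, 0 < hmin ∧ hmin ≤ hθ0 ∧ (∀ j, hmin ≤ hj j) ∧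
      (K + 1) * K * hmin ≤ 1 := by
    have h1 : ∀ᶠ h : ℝ in 𝓝[>] 0, h ≤ hθ0 := by
      filter_upwards [Ioo_mem_nhdsGT hθ0pos] with h hh using hh.2.le
    have h2 : ∀ᶠ h : ℝ in 𝓝[>] 0, ∀ j, h ≤ hj j := by
      rw [eventually_all]
      intro j
      filter_upwards [Ioo_mem_nhdsGT (hjpos j)] with h hh using hh.2.le
    have h3 : ∀ᶠ h : ℝ in 𝓝[>] 0, (K + 1) * K * h ≤ 1 := by
      have : (0 : ℝ) < 1 / ((K + 1) * K + 1) := by positivity
      filter_upwards [Ioo_mem_nhdsGT this] with h hh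
      have h4 : h < 1 / ((K + 1) * K + 1) := hh.2
      have h5 : 0 < h := hh.1
      rw [lt_div_iff₀ (by positivity)] at h4
      nlinarith
    obtain ⟨h, h1, h2, h3, h4⟩ := (h1.and (h2.and (h3.and self_mem_nhdsWithin))).exists
    exact ⟨h, h4, h1, h2, h3⟩
  obtain ⟨M, hM⟩ := exists_nat_gt (t / hmin)
  have hMpos : (0 : ℝ) < M := lt_of_le_of_lt (by positivity) hM
  set h : ℝ := t / M with hh
  have hhpos : 0 < h := by rw [hh]; positivity
  have hhmin : h < hmin := by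
    rw [div_lt_iff₀ hminpos] at hM
    rw [hh, div_lt_iff₀ hMpos]; linarith
  have hMh : M * h = t := by rw [hh]; field_simp
  -- amplitudes
  set A : ℕ → ℝ := fun k => e' * Real.exp (-((K + 1) * (k * h))) with hA
  have hApos : ∀ k, 0 < A k := fun k => by simp only [hA]; positivity
  have hAstep : ∀ k, A (k + 1) ≤ A k * (1 - K * h) := by
    intro k
    have h1 : A (k + 1) = A k * Real.exp (-((K + 1) * h)) := by
      simp only [hA]
      rw [mul_assoc, ← Real.exp_add]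
      congr 2
      push_cast
      ring
    rw [h1]
    refine mul_le_mul_of_nonneg_left (exp_step hK0 hhpos.le ?_) (hApos k).le
    have : (K + 1) * K * h ≤ (K + 1) * K * hmin := mul_le_mul_of_nonneg_left hhmin.le (by positivity)
    linarith
  have hAge : ∀ k : ℕ, k ≤ M → κ ≤ A k := by
    intro k hk
    simp only [hA, hκ]
    refine mul_le_mul_of_nonneg_left (Real.exp_le_exp.2 ?_) he'pos.le
    have h1 : (k : ℝ) * h ≤ t := by
      rw [← hMh]; exact mul_le_mul_of_nonneg_right (by exact_mod_cast hk) hhpos.le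
    have := mul_le_mul_of_nonneg_left h1 (by positivity : (0 : ℝ) ≤ K + 1)
    linarith
  have hcontΨ : ∀ s : ℝ, ∀ u f, P.Conv u f →
      Tendsto (fun k => θ s + ∑ j, c j s * Φ j (u k)) atTop (𝓝 (θ s + ∑ j, c j s * Φ j f)) := by
    intro s u f hu
    exact tendsto_const_nhds.add (tendsto_finsetSum _ fun j _ => ((hgood j).1 u f hu).const_mul _)
  have hne : ∃ f, P.Cls x R f := ⟨f₀, rfl, hRy.le⟩
  -- induction
  have hind : ∀ k : ℕ, k ≤ M → ∃ f, P.Cls x R f ∧
      (∀ f', P.Cls x R f' → (θ (k * h) + ∑ j, c j (k * h) * Φ j f') - A k * (1 + P.Y2 f') ≤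
        (θ (k * h) + ∑ j, c j (k * h) * Φ j f) - A k * (1 + P.Y2 f)) ∧
      θ 0 + (∑ j, c j 0 * Φ j f₀) - ε / 2 - e2 * (k * h) ≤
        (θ (k * h) + ∑ j, c j (k * h) * Φ j f) - A k * (1 + P.Y2 f) := by
    intro k
    induction k with
    | zero =>
      intro _
      obtain ⟨f, hf, hmax⟩ := P.attain (hcontΨ 0) (hApos 0).le hne
      refine ⟨f, hf, by simpa using hmax, ?_⟩
      have h1 := hmax f₀ ⟨rfl, hRy.le⟩
      have h2 : A 0 * (1 + P.Y2 f₀) = ε / 2 := by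
        simp only [hA]
        rw [Nat.cast_zero, zero_mul, mul_zero, neg_zero, Real.exp_zero, mul_one, he', ← hy0]
        field_simp
      rw [h2] at h1
      simpa using h1
    | succ k ih =>
      intro hk
      obtain ⟨f, hf, hmax, hval⟩ := ih (by omega)
      have hkM : (k : ℝ) + 1 ≤ M := by exact_mod_cast hk
      have hkh0 : (0 : ℝ) ≤ k * h := by positivity
      have hkh1 : (k + 1 : ℝ) * h ≤ t := by
        rw [← hMh]; exact mul_le_mul_of_nonneg_right hkM hhpos.le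
      have hst : (k : ℝ) * h ∈ Icc 0 t := ⟨hkh0, by linarith⟩
      -- confinement
      have hint : P.Y2 f < R := by
        by_contra hcon
        push Not at hcon
        have hYR : P.Y2 f = R := le_antisymm hf.2 hcon
        have h1 := (abs_le.1 (hgrow' _ hst f)).2
        have h2 := (abs_le.1 (hgrow' 0 ⟨le_rfl, ht.le⟩ f₀)).1
        have h3 : κ * (1 + R) ≤ A k * (1 + P.Y2 f) := by
          rw [hYR]; exact mul_le_mul_of_nonneg_right (hAge k (by omega)) (by linarith)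
        rw [hYR] at h1
        have h4 : e2 * (k * h) ≤ e2 * t := mul_le_mul_of_nonneg_left hst.2 he2pos.le
        linarith
      -- time derivative
      have htime : (θ (k * h) + ∑ j, c j (k * h) * Φ j f) +
          h * (deriv θ (k * h) + ∑ j, deriv (c j) (k * h) * Φ j f) - e2 * h ≤
          θ (k * h + h) + ∑ j, c j (k * h + h) * Φ j f := by
        have h1 := (abs_le.1 (hθd (k * h) h hkh0 hhpos (hhmin.trans_le hmin1) (by linarith))).1
        have h2 : ∀ j ∈ (Finset.univ : Finset (Fin m)), c j (k * h) * Φ j f +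
            h * (deriv (c j) (k * h) * Φ j f) - e * B j * h ≤ c j (k * h + h) * Φ j f := by
          intro j _
          have h3 := hjd j (k * h) h hkh0 hhpos (hhmin.trans_le (hmin2 j)) (by linarith)
          have h4 : |(c j (k * h + h) - c j (k * h) - h * deriv (c j) (k * h)) * Φ j f| ≤ e * h * B j := by
            rw [abs_mul]
            exact mul_le_mul h3 (hB j f hf) (abs_nonneg _) (by positivity)
          have h5 := (abs_le.1 h4).1
          linarith
        have h3 := Finset.sum_le_sum h2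
        rw [Finset.sum_sub_distrib, Finset.sum_add_distrib, ← Finset.mul_sum, ← Finset.sum_mul,
          ← Finset.mul_sum] at h3
        have h4 : e2 * h = e * h + e * (∑ j, B j) * h := by rw [he2]; ring
        rw [h4]
        linarith
      have hs := P.step hgood (hApos k).le (le_max_left P.K 0) hf hint hmax
        (hrate' _ hst f hf) htime hhpos.le (hAstep k)
      have e1 : (k : ℝ) * h + h = ((k + 1 : ℕ) : ℝ) * h := by push_cast; ring
      rw [e1] at hs
      obtain ⟨f2, hf2, hmax2⟩ := P.attain (hcontΨ (((k + 1 : ℕ) : ℝ) * h)) (hApos (k + 1)).le hne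
      refine ⟨f2, hf2, hmax2, ?_⟩
      have h6 := hmax2 f hf
      have h7 : e2 * (((k + 1 : ℕ) : ℝ) * h) = e2 * (k * h) + e2 * h := by push_cast; ring
      rw [h7]
      linarith
  obtain ⟨f, hf, -, hval⟩ := hind M le_rfl
  refine ⟨f, hf.1, ?_⟩
  rw [hMh] at hval
  have h1 : 0 ≤ A M * (1 + P.Y2 f) := mul_nonneg (hApos M).le (by linarith [P.Y2_nonneg f])
  linarith

end OnePen

end Crest.Agent.R269.PathOne_427
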