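import Mathlib

/-!
# Poisson probability on the circle and boundary values (row 269)

`nu` = normalised Lebesgue measure on `(0,2π]`, `pm z` = Poisson probability of `z` (`‖z‖ < 1`).
-/

open MeasureTheory Complex Metric Set Filter Topology

namespace Crest.Agent.R269.Pb_402

/-- normalised Lebesgue measure on `(0, 2π]` -/
noncomputable def nu : Measure ℝ :=
  ENNReal.ofReal (2 * Real.pi)⁻¹ • volume.restrict (Ioc 0 (2 * Real.pi))

/-- Poisson probability of the point `z` of the unit disc, as a measure in the angle -/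
noncomputable def pm (z : ℂ) : Measure ℝ :=
  nu.withDensity (fun θ => ENNReal.ofReal (poissonKernel 0 z (circleMap 0 1 θ)))

instance isProb_nu : IsProbabilityMeasure nu := by
  constructor
  have h : (0:ℝ) < 2 * Real.pi := by positivity
  simp only [nu, Measure.smul_apply, Measure.restrict_apply MeasurableSet.univ, univ_inter,
    Real.volume_Ioc, sub_zero, smul_eq_mul]
  rw [← ENNReal.ofReal_mul (by positivity), inv_mul_cancel₀ h.ne', ENNReal.ofReal_one]

section gen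

variable {E : Type*} [NormedAddCommGroup E] [NormedSpace ℝ E]

theorem integral_nu (g : ℝ → E) :
    ∫ θ, g θ ∂nu = (2 * Real.pi)⁻¹ • ∫ θ in (0:ℝ)..(2 * Real.pi), g θ := by
  rw [nu, integral_smul_measure, intervalIntegral.integral_of_le (by positivity),
    ENNReal.toReal_ofReal (by positivity)]

theorem circleAverage_eq (f : ℂ → E) (c : ℂ) (R : ℝ) :
    Real.circleAverage f c R = ∫ θ, f (circleMap c R θ) ∂nu := by
  rw [integral_nu, Real.circleAverage]

omit [NormedSpace ℝ E] in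
theorem integrable_nu_iff (g : ℝ → E) :
    Integrable g nu ↔ IntervalIntegrable g volume 0 (2 * Real.pi) := by
  rw [intervalIntegrable_iff_integrableOn_Ioc_of_le (by positivity), nu]
  have h : (0:ℝ) < (2 * Real.pi)⁻¹ := by positivity
  rw [integrable_smul_measure (by simpa using h) ENNReal.ofReal_ne_top]
  rfl

theorem ae_nu_iff (p : ℝ → Prop) :
    (∀ᵐ θ ∂nu, p θ) ↔ ∀ᵐ θ ∂(volume.restrict (Ioc 0 (2 * Real.pi))), p θ := by
  have h : (0:ℝ) < (2 * Real.pi)⁻¹ := by positivity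
  rw [nu, Measure.ae_ennreal_smul_measure_iff (by simpa using h)]

end gen

theorem pk_eq {z ζ : ℂ} (hζ : ‖ζ‖ = 1) :
    poissonKernel 0 z ζ = (1 - ‖z‖ ^ 2) / ‖ζ - z‖ ^ 2 := by
  simp [poissonKernel, hζ]

theorem pk_pos {z ζ : ℂ} (hz : ‖z‖ < 1) (hζ : ‖ζ‖ = 1) : 0 < poissonKernel 0 z ζ := by
  rw [pk_eq hζ]
  have h1 : 0 < 1 - ‖z‖ ^ 2 := by nlinarith [norm_nonneg z]
  have h2 : 0 < ‖ζ - z‖ := by
    rw [norm_pos_iff, sub_ne_zero]
    rintro rfl
    linarith
  positivity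

theorem pk_le {z ζ : ℂ} (hz : ‖z‖ < 1) (hζ : ‖ζ‖ = 1) :
    poissonKernel 0 z ζ ≤ (1 + ‖z‖) / (1 - ‖z‖) := by
  rw [pk_eq hζ]
  have h0 := norm_nonneg z
  have h2 : 1 - ‖z‖ ≤ ‖ζ - z‖ := by
    have := norm_sub_norm_le ζ z
    rw [hζ] at this
    exact this
  have h3 : 0 < 1 - ‖z‖ := by linarith
  have h5 : 0 < ‖ζ - z‖ := lt_of_lt_of_le h3 h2
  rw [div_le_div_iff₀ (by positivity) h3]
  have h4 : (1 - ‖z‖) ^ 2 ≤ ‖ζ - z‖ ^ 2 := by
    apply pow_le_pow_left₀ h3.le h2
  nlinarith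

theorem norm_cm (θ : ℝ) : ‖circleMap 0 1 θ‖ = 1 := by simp

theorem continuous_pk {z : ℂ} (hz : ‖z‖ < 1) :
    Continuous (fun θ : ℝ => poissonKernel 0 z (circleMap 0 1 θ)) := by
  have h : ∀ θ : ℝ, ‖circleMap 0 1 θ - z‖ ^ 2 ≠ 0 := by
    intro θ h0
    have h1 : circleMap 0 1 θ - z = 0 := by simpa using h0
    have h2 : circleMap 0 1 θ = z := sub_eq_zero.mp h1
    have h3 := norm_cm θ
    rw [h2] at h3
    linarith
  have : (fun θ : ℝ => poissonKernel 0 z (circleMap 0 1 θ))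
      = fun θ : ℝ => (1 - ‖z‖ ^ 2) / ‖circleMap 0 1 θ - z‖ ^ 2 := by
    funext θ
    exact pk_eq (norm_cm θ)
  rw [this]
  exact continuous_const.div (by fun_prop) h

section gen2

variable {E : Type*} [NormedAddCommGroup E] [NormedSpace ℝ E]

theorem integral_pm {z : ℂ} (hz : ‖z‖ < 1) (g : ℝ → E) :
    ∫ θ, g θ ∂(pm z) = ∫ θ, poissonKernel 0 z (circleMap 0 1 θ) • g θ ∂nu := by
  rw [pm, integral_withDensity_eq_integral_toReal_smul₀]
  · congr 1
    funext θ
    rw [ENNReal.toReal_ofReal (pk_pos hz (norm_cm θ)).le]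
  · exact (continuous_pk hz).measurable.ennreal_ofReal.aemeasurable
  · exact Eventually.of_forall fun _ => ENNReal.ofReal_lt_top

theorem pm_ac (z : ℂ) : pm z ≪ nu := withDensity_absolutelyContinuous _ _

theorem ae_pm {p : ℝ → Prop} (z : ℂ) (h : ∀ᵐ θ ∂nu, p θ) : ∀ᵐ θ ∂(pm z), p θ :=
  (pm_ac z).ae_le h

theorem ae_nu_of_ae_pm {p : ℝ → Prop} {z : ℂ} (hz : ‖z‖ < 1) (h : ∀ᵐ θ ∂(pm z), p θ) :
    ∀ᵐ θ ∂nu, p θ := by
  have : nu ≪ pm z := by
    refine withDensity_absolutelyContinuous' ?_ ?_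
    · exact (continuous_pk hz).measurable.ennreal_ofReal.aemeasurable
    · exact Eventually.of_forall fun θ => by
        simpa using pk_pos hz (norm_cm θ)
  exact this.ae_le h

theorem integrable_pm {z : ℂ} (hz : ‖z‖ < 1) {g : ℝ → E} (hg : Integrable g nu) :
    Integrable g (pm z) := by
  rw [pm, integrable_withDensity_iff_integrable_smul₀']
  · have : (fun θ => (ENNReal.ofReal (poissonKernel 0 z (circleMap 0 1 θ))).toReal • g θ)
        = fun θ => poissonKernel 0 z (circleMap 0 1 θ) • g θ := by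
      funext θ
      rw [ENNReal.toReal_ofReal (pk_pos hz (norm_cm θ)).le]
    rw [this]
    refine hg.bdd_smul ((1 + ‖z‖) / (1 - ‖z‖)) (continuous_pk hz).aestronglyMeasurable ?_
    refine Eventually.of_forall fun θ => ?_
    rw [Real.norm_eq_abs, abs_of_pos (pk_pos hz (norm_cm θ))]
    exact pk_le hz (norm_cm θ)
  · exact (continuous_pk hz).measurable.ennreal_ofReal.aemeasurable
  · exact Eventually.of_forall fun _ => ENNReal.ofReal_lt_top

end gen2

section cplx

variable {E : Type*} [NormedAddCommGroup E] [NormedSpace ℂ E] [CompleteSpace E]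

theorem integral_pm_of_diffContOnCl {F : ℂ → E} (hF : DiffContOnCl ℂ F (ball 0 1)) {z : ℂ}
    (hz : ‖z‖ < 1) : ∫ θ, F (circleMap 0 1 θ) ∂(pm z) = F z := by
  rw [integral_pm hz, ← hF.circleAverage_poissonKernel_smul (w := z) (by simpa using hz),
    circleAverage_eq]
  rfl

end cplx

instance isProb_pm (z : ball (0:ℂ) 1) : IsProbabilityMeasure (pm z) := by
  have hz : ‖(z:ℂ)‖ < 1 := mem_ball_zero_iff.mp z.2
  have h1 : ∫ θ, (1:ℂ) ∂(pm z) = 1 :=
    integral_pm_of_diffContOnCl (F := fun _ => (1:ℂ)) (diffContOnCl_const) hz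
  have h2 : Integrable (fun _ : ℝ => (1:ℝ)) (pm z) := integrable_pm hz (integrable_const _)
  have h3 : IsFiniteMeasure (pm z) := by
    rw [integrable_const_iff] at h2
    simpa using h2
  constructor
  rw [integral_const] at h1
  have h4 : (pm (z:ℂ)).real univ = 1 := by
    have := congrArg Complex.re h1
    simpa using this
  rw [measureReal_def] at h4
  have h5 : (pm (z:ℂ)) univ ≠ ⊤ := measure_ne_top _ _
  rw [← ENNReal.ofReal_toReal h5, h4, ENNReal.ofReal_one]

theorem isProb_pm' {z : ℂ} (hz : ‖z‖ < 1) : IsProbabilityMeasure (pm z) :=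
  isProb_pm ⟨z, by simpa using hz⟩

/-! ## Boundary values along a sequence of radii -/

/-- `F` has boundary function `Fb` along the sequence of radii `s`. -/
def IsBV {E : Type*} [TopologicalSpace E] (s : ℕ → ℝ) (F : ℂ → E) (Fb : ℝ → E) : Prop :=
  ∀ᵐ θ ∂nu, Tendsto (fun j => F (circleMap 0 (s j) θ)) atTop (𝓝 (Fb θ))

theorem circleMap_smul (s : ℝ) (θ : ℝ) : circleMap 0 s θ = (s:ℂ) * circleMap 0 1 θ := by
  simp [circleMap]

theorem norm_cm' {s : ℝ} (hs : 0 ≤ s) (θ : ℝ) : ‖circleMap 0 s θ‖ = s := by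
  simp [abs_of_nonneg hs]

section bv

variable {E : Type*} [NormedAddCommGroup E] [NormedSpace ℂ E]

omit [NormedSpace ℂ E] in
theorem aesm_of_isBV {s : ℕ → ℝ} (hs : ∀ j, 0 ≤ s j ∧ s j < 1) {F : ℂ → E}
    (hF : ContinuousOn F (ball 0 1)) {Fb : ℝ → E} (hbv : IsBV s F Fb) :
    AEStronglyMeasurable Fb nu := by
  refine aestronglyMeasurable_of_tendsto_ae atTop (f := fun j θ => F (circleMap 0 (s j) θ)) ?_ hbv
  intro j
  have : Continuous (fun θ : ℝ => F (circleMap 0 (s j) θ)) := by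
    refine hF.comp_continuous (by fun_prop) ?_
    intro θ
    rw [mem_ball_zero_iff, norm_cm' (hs j).1]
    exact (hs j).2
  exact this.aestronglyMeasurable

omit [NormedSpace ℂ E] in
theorem norm_le_of_isBV {s : ℕ → ℝ} (hs : ∀ j, 0 ≤ s j ∧ s j < 1) {F : ℂ → E} {C : ℝ}
    (hC : ∀ z ∈ ball (0:ℂ) 1, ‖F z‖ ≤ C) {Fb : ℝ → E} (hbv : IsBV s F Fb) :
    ∀ᵐ θ ∂nu, ‖Fb θ‖ ≤ C := by
  filter_upwards [hbv] with θ hθ
  refine le_of_tendsto hθ.norm (Eventually.of_forall fun j => hC _ ?_)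
  rw [mem_ball_zero_iff, norm_cm' (hs j).1]
  exact (hs j).2

theorem integral_pm_of_isBV [CompleteSpace E] {s : ℕ → ℝ} (hs : ∀ j, 0 ≤ s j ∧ s j < 1)
    (hs1 : Tendsto s atTop (𝓝 1)) {F : ℂ → E} (hF : DifferentiableOn ℂ F (ball 0 1)) {C : ℝ}
    (hC : ∀ z ∈ ball (0:ℂ) 1, ‖F z‖ ≤ C) {Fb : ℝ → E} (hbv : IsBV s F Fb) {z : ℂ}
    (hz : ‖z‖ < 1) : ∫ θ, Fb θ ∂(pm z) = F z := by
  have := isProb_pm' hz
  have hmem : ∀ j, ∀ w : ℂ, ‖w‖ ≤ 1 → (s j : ℂ) * w ∈ ball (0:ℂ) 1 := by
    intro j w hw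
    rw [mem_ball_zero_iff, norm_mul, Complex.norm_real, Real.norm_eq_abs, abs_of_nonneg (hs j).1]
    have := mul_le_mul_of_nonneg_left hw (hs j).1
    linarith [(hs j).2]
  have h1 : ∀ j, ∫ θ, F (circleMap 0 (s j) θ) ∂(pm z) = F ((s j : ℂ) * z) := by
    intro j
    have hd : DifferentiableOn ℂ (fun w => F ((s j : ℂ) * w)) (closedBall 0 1) := by
      refine hF.comp (by fun_prop) ?_
      intro w hw
      exact hmem j w (mem_closedBall_zero_iff.mp hw)
    have hd2 : DiffContOnCl ℂ (fun w => F ((s j : ℂ) * w)) (ball 0 1) := by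
      apply DifferentiableOn.diffContOnCl
      rw [closure_ball (0:ℂ) one_ne_zero]
      exact hd
    have := integral_pm_of_diffContOnCl hd2 hz
    simp only [← circleMap_smul] at this
    exact this
  have h2 : Tendsto (fun j => F ((s j : ℂ) * z)) atTop (𝓝 (F z)) := by
    have hc : ContinuousAt F z := (hF.differentiableAt (isOpen_ball.mem_nhds
      (mem_ball_zero_iff.mpr hz))).continuousAt
    have h3 : Tendsto (fun j => (s j : ℂ) * z) atTop (𝓝 z) := by
      have h4 : Tendsto (fun j => (s j : ℂ)) atTop (𝓝 ((1:ℝ):ℂ)) :=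
        (Complex.continuous_ofReal.tendsto 1).comp hs1
      simpa using h4.mul_const z
    exact hc.tendsto.comp h3
  have h3 : Tendsto (fun j => ∫ θ, F (circleMap 0 (s j) θ) ∂(pm z)) atTop
      (𝓝 (∫ θ, Fb θ ∂(pm z))) := by
    refine tendsto_integral_of_dominated_convergence (fun _ => C) ?_ (integrable_const _) ?_ ?_
    · intro j
      have : Continuous (fun θ : ℝ => F (circleMap 0 (s j) θ)) := by
        refine hF.continuousOn.comp_continuous (by fun_prop) ?_
        intro θ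
        rw [mem_ball_zero_iff, norm_cm' (hs j).1]
        exact (hs j).2
      exact this.aestronglyMeasurable
    · intro j
      refine Eventually.of_forall fun θ => hC _ ?_
      rw [mem_ball_zero_iff, norm_cm' (hs j).1]
      exact (hs j).2
    · exact ae_pm z hbv
  simp only [h1] at h3
  exact tendsto_nhds_unique h3 h2

end bv

/-! ## Fubini -/

theorem integral_pk_left {r : ℝ} (hr0 : 0 ≤ r) (hr1 : r < 1) (θ : ℝ) :
    ∫ t, poissonKernel 0 (circleMap 0 r t) (circleMap 0 1 θ) ∂nu = 1 := by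
  set ζ := circleMap 0 1 θ with hζ
  have hζ1 : ‖ζ‖ = 1 := norm_cm θ
  have hne : ∀ w ∈ closedBall (0:ℂ) r, ζ - w ≠ 0 := by
    intro w hw h0
    have : ζ = w := sub_eq_zero.mp h0
    rw [mem_closedBall_zero_iff, ← this, hζ1] at hw
    linarith
  have hd : DiffContOnCl ℂ (fun w => (ζ + w) / (ζ - w)) (ball 0 r) := by
    apply DifferentiableOn.diffContOnCl
    have h5 : DifferentiableOn ℂ (fun w => (ζ + w) / (ζ - w)) (closedBall 0 r) :=
      DifferentiableOn.div (by fun_prop) (by fun_prop) hne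
    exact h5.mono closure_ball_subset_closedBall
  have h1 : Real.circleAverage (fun w => (ζ + w) / (ζ - w)) 0 r = 1 := by
    have h2 := DiffContOnCl.circleAverage (f := fun w => (ζ + w) / (ζ - w)) (c := 0) (R := r)
      (by rwa [abs_of_nonneg hr0])
    have hζ0 : ζ ≠ 0 := by
      intro h; rw [h] at hζ1; simp at hζ1
    rw [h2]
    simp [hζ0]
  rw [circleAverage_eq] at h1
  have h3 := congrArg Complex.re h1
  have hint : Integrable (fun t => (ζ + circleMap 0 r t) / (ζ - circleMap 0 r t)) nu := by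
    rw [integrable_nu_iff]
    apply Continuous.intervalIntegrable
    refine Continuous.div (by fun_prop) (by fun_prop) ?_
    intro t
    apply hne
    rw [mem_closedBall_zero_iff, norm_cm' hr0]
  have h4 : (∫ t, (ζ + circleMap 0 r t) / (ζ - circleMap 0 r t) ∂nu).re
      = ∫ t, ((ζ + circleMap 0 r t) / (ζ - circleMap 0 r t)).re ∂nu := by
    have := (Complex.reCLM.integral_comp_comm hint)
    simpa using this.symm
  rw [h4] at h3
  have h5 : ∀ t, poissonKernel 0 (circleMap 0 r t) ζ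
      = ((ζ + circleMap 0 r t) / (ζ - circleMap 0 r t)).re := by
    intro t
    rw [poissonKernel_eq_re_herglotzRieszKernel]
    simp [herglotzRieszKernel]
  simp only [h5]
  simpa using h3

theorem integral_integral_pm {E : Type*} [NormedAddCommGroup E] [NormedSpace ℝ E] [CompleteSpace E]
    {r : ℝ} (hr0 : 0 ≤ r) (hr1 : r < 1) {g : ℝ → E} (hg : Integrable g nu) :
    ∫ t, (∫ θ, g θ ∂(pm (circleMap 0 r t))) ∂nu = ∫ θ, g θ ∂nu := by
  have hn : ∀ t, ‖circleMap 0 r t‖ < 1 := fun t => by rw [norm_cm' hr0]; exact hr1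
  have h1 : ∀ t, ∫ θ, g θ ∂(pm (circleMap 0 r t))
      = ∫ θ, poissonKernel 0 (circleMap 0 r t) (circleMap 0 1 θ) • g θ ∂nu :=
    fun t => integral_pm (hn t) g
  simp only [h1]
  have hsw : ∫ t, ∫ θ, poissonKernel 0 (circleMap 0 r t) (circleMap 0 1 θ) • g θ ∂nu ∂nu
      = ∫ θ, ∫ t, poissonKernel 0 (circleMap 0 r t) (circleMap 0 1 θ) • g θ ∂nu ∂nu := by
    apply integral_integral_swap
    have hc : Continuous (fun q : ℝ × ℝ =>
        poissonKernel 0 (circleMap 0 r q.1) (circleMap 0 1 q.2)) := by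
      have : (fun q : ℝ × ℝ => poissonKernel 0 (circleMap 0 r q.1) (circleMap 0 1 q.2))
          = fun q : ℝ × ℝ => (1 - ‖circleMap 0 r q.1‖ ^ 2)
            / ‖circleMap 0 1 q.2 - circleMap 0 r q.1‖ ^ 2 := by
        funext q
        exact pk_eq (norm_cm q.2)
      rw [this]
      refine Continuous.div (by fun_prop) (by fun_prop) ?_
      intro q h0
      have h2 : circleMap 0 1 q.2 = circleMap 0 r q.1 := by
        simpa [sub_eq_zero] using h0
      have h3 := norm_cm q.2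
      rw [h2] at h3
      linarith [hn q.1]
    have h2 : Integrable (fun q : ℝ × ℝ => g q.2) (nu.prod nu) := hg.comp_snd nu
    refine h2.bdd_smul ((1 + r) / (1 - r)) hc.aestronglyMeasurable ?_
    refine Eventually.of_forall fun q => ?_
    have h3 := pk_pos (hn q.1) (norm_cm q.2)
    have h4 := pk_le (hn q.1) (norm_cm q.2)
    rw [norm_cm' hr0] at h4
    rw [Real.norm_eq_abs, abs_of_pos h3]
    exact h4
  rw [hsw]
  congr 1
  funext θ
  rw [integral_smul_const, integral_pk_left hr0 hr1, one_smul]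

/-! ## Variance -/

theorem integral_bilin_sub {Ω : Type*} [MeasurableSpace Ω] {μ : Measure Ω} [IsProbabilityMeasure μ]
    {E : Type*} [NormedAddCommGroup E] [NormedSpace ℝ E] [CompleteSpace E]
    (B : E →L[ℝ] E →L[ℝ] ℝ) {g : Ω → E} (hg : Integrable g μ)
    (hB : Integrable (fun x => B (g x) (g x)) μ) :
    ∫ x, B (g x - ∫ y, g y ∂μ) (g x - ∫ y, g y ∂μ) ∂μ
      = ∫ x, B (g x) (g x) ∂μ - B (∫ y, g y ∂μ) (∫ y, g y ∂μ) := by
  set a := ∫ y, g y ∂μ with ha
  have h1 : ∀ x, B (g x - a) (g x - a) = B (g x) (g x) - B (g x) a - B a (g x) + B a a := by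
    intro x
    simp only [map_sub, _root_.sub_apply]
    ring
  simp only [h1]
  have i1 : Integrable (fun x => B (g x) a) μ := by
    have := (B.flip a).integrable_comp hg
    simpa using this
  have i2 : Integrable (fun x => B a (g x)) μ := (B a).integrable_comp hg
  have e1 : ∫ x, B (g x) a ∂μ = B a a := by
    have := (B.flip a).integral_comp_comm hg
    simpa using this
  have e2 : ∫ x, B a (g x) ∂μ = B a a := (B a).integral_comp_comm hg
  rw [integral_add, integral_sub, integral_sub, e1, e2]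
  · simp
  · exact hB
  · exact i1
  · exact hB.sub i1
  · exact i2
  · exact (hB.sub i1).sub i2
  · exact integrable_const _

/-! ## Abstract probability: unit vectors with given mean -/

section prob

variable {Ω : Type*} [MeasurableSpace Ω] {μ : Measure Ω} [IsProbabilityMeasure μ]
  {ι : Type*} [Fintype ι]

/-- real bilinear form `Re ∑ x_i conj y_i` -/
noncomputable def ip (ι : Type*) [Fintype ι] : (ι → ℂ) →L[ℝ] (ι → ℂ) →L[ℝ] ℝ :=
  ∑ i, ((ContinuousLinearMap.mul ℝ ℝ).bilinearComp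
      (Complex.reCLM.comp (ContinuousLinearMap.proj (R := ℝ) (φ := fun _ : ι => ℂ) i))
      (Complex.reCLM.comp (ContinuousLinearMap.proj (R := ℝ) (φ := fun _ : ι => ℂ) i))
    + (ContinuousLinearMap.mul ℝ ℝ).bilinearComp
      (Complex.imCLM.comp (ContinuousLinearMap.proj (R := ℝ) (φ := fun _ : ι => ℂ) i))
      (Complex.imCLM.comp (ContinuousLinearMap.proj (R := ℝ) (φ := fun _ : ι => ℂ) i)))

theorem ip_self (x : ι → ℂ) : ip ι x x = ∑ i, ‖x i‖ ^ 2 := by
  simp only [ip, _root_.sum_apply, _root_.add_apply,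
    ContinuousLinearMap.bilinearComp_apply, ContinuousLinearMap.comp_apply,
    ContinuousLinearMap.proj_apply, Complex.reCLM_apply, Complex.imCLM_apply,
    ContinuousLinearMap.mul_apply']
  refine Finset.sum_congr rfl fun i _ => ?_
  rw [Complex.sq_norm, Complex.normSq_apply]

/-- variance of a random vector of norm one -/
theorem integral_nsq_sub {H : Ω → ι → ℂ} (hH : Integrable H μ)
    (h1 : ∀ᵐ x ∂μ, ∑ i, ‖H x i‖ ^ 2 = 1) {a : ι → ℂ} (ha : ∫ x, H x ∂μ = a) :
    ∫ x, ∑ i, ‖H x i - a i‖ ^ 2 ∂μ = 1 - ∑ i, ‖a i‖ ^ 2 := by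
  have h2 : ∀ᵐ x ∂μ, ip ι (H x) (H x) = 1 := by
    filter_upwards [h1] with x hx
    rw [ip_self, hx]
  have h3 : Integrable (fun x => ip ι (H x) (H x)) μ :=
    (integrable_const (1:ℝ)).congr (by filter_upwards [h2] with x hx; rw [hx])
  have h4 := integral_bilin_sub (ip ι) hH h3
  rw [ha] at h4
  have h5 : ∫ x, ip ι (H x) (H x) ∂μ = 1 := by
    rw [integral_congr_ae h2]
    simp
  rw [h5, ip_self] at h4
  rw [← h4]
  congr 1
  funext x
  rw [ip_self]
  rfl

theorem integrable_nsq_sub {H : Ω → ι → ℂ} (hH : Integrable H μ)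
    (h1 : ∀ᵐ x ∂μ, ∑ i, ‖H x i‖ ^ 2 = 1) (a : ι → ℂ) :
    Integrable (fun x => ∑ i, ‖H x i - a i‖ ^ 2) μ := by
  have h2 : AEStronglyMeasurable (fun x => ∑ i, ‖H x i - a i‖ ^ 2) μ := by
    have hc : Continuous (fun y : ι → ℂ => ∑ i, ‖y i - a i‖ ^ 2) := by fun_prop
    exact hc.comp_aestronglyMeasurable hH.aestronglyMeasurable
  refine Integrable.of_bound h2 (∑ i, (1 + ‖a i‖) ^ 2) ?_
  filter_upwards [h1] with x hx
  rw [Real.norm_eq_abs, abs_of_nonneg (by positivity)]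
  refine Finset.sum_le_sum fun i _ => ?_
  have h3 : ‖H x i‖ ^ 2 ≤ 1 := by
    rw [← hx]
    exact Finset.single_le_sum (f := fun i => ‖H x i‖ ^ 2) (fun j _ => by positivity)
      (Finset.mem_univ i)
  have h4 : ‖H x i‖ ≤ 1 := by nlinarith [norm_nonneg (H x i)]
  have h5 : ‖H x i - a i‖ ≤ 1 + ‖a i‖ := (norm_sub_le _ _).trans (by linarith)
  exact pow_le_pow_left₀ (norm_nonneg _) h5 2

theorem nsq_mean_le_one {H : Ω → ι → ℂ} (hH : Integrable H μ)
    (h1 : ∀ᵐ x ∂μ, ∑ i, ‖H x i‖ ^ 2 = 1) {a : ι → ℂ} (ha : ∫ x, H x ∂μ = a) :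
    ∑ i, ‖a i‖ ^ 2 ≤ 1 := by
  have := integral_nsq_sub hH h1 ha
  have h2 : 0 ≤ ∫ x, ∑ i, ‖H x i - a i‖ ^ 2 ∂μ := integral_nonneg fun x => by positivity
  linarith

/-- Cauchy-Schwarz for a probability measure -/
theorem integral_sqrt_le {f : Ω → ℝ} (hf : Integrable f μ) (h0 : ∀ x, 0 ≤ f x) :
    ∫ x, √(f x) ∂μ ≤ √(∫ x, f x ∂μ) := by
  set A := ∫ x, f x ∂μ with hA
  have hA0 : 0 ≤ A := integral_nonneg h0
  have hm : AEStronglyMeasurable (fun x => √(f x)) μ :=
    Real.continuous_sqrt.comp_aestronglyMeasurable hf.aestronglyMeasurable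
  have hi : Integrable (fun x => √(f x)) μ := by
    refine Integrable.mono' (hf.add (integrable_const 1)) hm ?_
    refine Eventually.of_forall fun x => ?_
    rw [Real.norm_eq_abs, abs_of_nonneg (Real.sqrt_nonneg _)]
    simp only [Pi.add_apply]
    nlinarith [Real.sq_sqrt (h0 x), Real.sqrt_nonneg (f x), sq_nonneg (√(f x) - 1)]
  have key : ∀ ε : ℝ, 0 < ε → ∫ x, √(f x) ∂μ ≤ √A + ε := by
    intro ε hε
    set s := √A + ε with hs
    have hs0 : 0 < s := by positivity
    have h1 : ∀ x, √(f x) ≤ (f x / s + s) / 2 := by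
      intro x
      have h2 := Real.sq_sqrt (h0 x)
      have h3 : 0 ≤ (√(f x) - s) ^ 2 := sq_nonneg _
      rw [div_add' _ _ _ hs0.ne', div_div, le_div_iff₀ (by positivity)]
      nlinarith
    have h2 : ∫ x, √(f x) ∂μ ≤ ∫ x, (f x / s + s) / 2 ∂μ :=
      integral_mono hi (((hf.div_const s).add (integrable_const s)).div_const 2) h1
    have h3 : ∫ x, (f x / s + s) / 2 ∂μ = (A / s + s) / 2 := by
      rw [integral_div, integral_add (hf.div_const s) (integrable_const s), integral_div]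
      simp [hA]
    have h4 : A / s ≤ √A := by
      rw [div_le_iff₀ hs0]
      nlinarith [Real.sq_sqrt hA0, Real.sqrt_nonneg A]
    rw [h3] at h2
    linarith
  exact le_of_forall_pos_le_add key

/-- (K2): comparison of a Lipschitz function at the mean with its average -/
theorem abs_integral_sub_le {H : Ω → ι → ℂ} (hH : Integrable H μ)
    (h1 : ∀ᵐ x ∂μ, ∑ i, ‖H x i‖ ^ 2 = 1) {a : ι → ℂ} (ha : ∫ x, H x ∂μ = a)
    {f : Ω → ℝ} (hf : Integrable f μ) {c L : ℝ} (hL : 0 ≤ L)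
    (h : ∀ᵐ x ∂μ, |f x - c| ≤ L * √(∑ i, ‖H x i - a i‖ ^ 2)) :
    |∫ x, f x ∂μ - c| ≤ L * √(1 - ∑ i, ‖a i‖ ^ 2) := by
  have h2 : ∫ x, f x ∂μ - c = ∫ x, (f x - c) ∂μ := by
    rw [integral_sub hf (integrable_const c)]; simp
  have h3 := integrable_nsq_sub hH h1 a
  have h4 : Integrable (fun x => √(∑ i, ‖H x i - a i‖ ^ 2)) μ := by
    refine Integrable.mono' (h3.add (integrable_const 1))
      (Real.continuous_sqrt.comp_aestronglyMeasurable h3.aestronglyMeasurable) ?_
    refine Eventually.of_forall fun x => ?_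
    have h0 : 0 ≤ ∑ i, ‖H x i - a i‖ ^ 2 := by positivity
    rw [Real.norm_eq_abs, abs_of_nonneg (Real.sqrt_nonneg _)]
    simp only [Pi.add_apply]
    nlinarith [Real.sq_sqrt h0, Real.sqrt_nonneg (∑ i, ‖H x i - a i‖ ^ 2),
      sq_nonneg (√(∑ i, ‖H x i - a i‖ ^ 2) - 1)]
  rw [h2]
  calc |∫ x, (f x - c) ∂μ| ≤ ∫ x, |f x - c| ∂μ := abs_integral_le_integral_abs
    _ ≤ ∫ x, L * √(∑ i, ‖H x i - a i‖ ^ 2) ∂μ :=
        integral_mono_ae ((hf.sub (integrable_const c)).abs) (h4.const_mul L) h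
    _ = L * ∫ x, √(∑ i, ‖H x i - a i‖ ^ 2) ∂μ := integral_const_mul _ _
    _ ≤ L * √(∫ x, ∑ i, ‖H x i - a i‖ ^ 2 ∂μ) :=
        mul_le_mul_of_nonneg_left (integral_sqrt_le h3 fun x => by positivity) hL
    _ = L * √(1 - ∑ i, ‖a i‖ ^ 2) := by rw [integral_nsq_sub hH h1 ha]

/-- first order Taylor expansion at the mean, one-sided -/
theorem integral_le_of_taylor {H : Ω → ι → ℂ} (hH : Integrable H μ)
    (h1 : ∀ᵐ x ∂μ, ∑ i, ‖H x i‖ ^ 2 = 1) {a : ι → ℂ} (ha : ∫ x, H x ∂μ = a)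
    {f : Ω → ℝ} (hf : Integrable f μ) {c C : ℝ} (D : (ι → ℂ) →L[ℝ] ℝ)
    (h : ∀ᵐ x ∂μ, f x ≤ c + D (H x - a) + C * ∑ i, ‖H x i - a i‖ ^ 2) :
    ∫ x, f x ∂μ ≤ c + C * (1 - ∑ i, ‖a i‖ ^ 2) := by
  have h3 := integrable_nsq_sub hH h1 a
  have h40 : Integrable (fun x => H x - a) μ := hH.sub (integrable_const a)
  have h4 : Integrable (fun x => D (H x - a)) μ := D.integrable_comp h40
  have h5 : ∫ x, D (H x - a) ∂μ = 0 := by
    rw [D.integral_comp_comm h40, integral_sub hH (integrable_const a), ha]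
    simp
  have h6 : Integrable (fun x => c + D (H x - a)) μ := (integrable_const c).add h4
  have h7 : Integrable (fun x => C * ∑ i, ‖H x i - a i‖ ^ 2) μ := h3.const_mul C
  calc ∫ x, f x ∂μ ≤ ∫ x, (c + D (H x - a) + C * ∑ i, ‖H x i - a i‖ ^ 2) ∂μ :=
        integral_mono_ae hf (h6.add h7) h
    _ = c + C * (1 - ∑ i, ‖a i‖ ^ 2) := by
        rw [integral_add h6 h7, integral_add (integrable_const c) h4, h5, integral_const_mul,
          integral_nsq_sub hH h1 ha]
        simp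

end prob

theorem one_sub_le_neg_log {x : ℝ} (hx : 0 < x) : 1 - x ≤ -Real.log x := by
  have := Real.log_le_sub_one_of_pos hx
  linarith

end Crest.Agent.R269.Pb_402
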