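import Crest.Agent.R271.G3b_792

/-!
# R269, leaf PK (helper976): peak sections, part 1: scalar functions and Levi forms

`exists_eta`  : concave smooth truncation of the identity with small second derivative.
`exists_theta`: cutoff.
`lev_eta_lg_ge` : Levi form of `η (log (|f|² + δ))`.
`db_theta`    : `∂̄ (θ(|f|²) E)`, `E` holomorphic.
-/

set_option autoImplicit false
set_option linter.unusedSectionVars false

noncomputable section

open Set Filter Topology Complex MeasureTheory Metric
open scoped ENNReal ComplexConjugate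

namespace Crest.Agent.R269.Peak1_976

open Crest.Agent.R271.Ho51 hiding Hol
open Crest.Agent.R271.W792

/-- derivative of the smooth transition is bounded -/
theorem exists_bound_deriv_st : ∃ C : ℝ, 0 < C ∧ ∀ t, |deriv Real.smoothTransition t| ≤ C := by
  have hcd : ContDiff ℝ (⊤ : ℕ∞) Real.smoothTransition := Real.smoothTransition.contDiff
  have hc : Continuous (deriv Real.smoothTransition) :=
    (contDiff_infty_iff_deriv.1 hcd).2.continuous
  obtain ⟨C, hC⟩ := isCompact_Icc.exists_bound_of_continuousOn (s := Icc (0 : ℝ) 1) hc.continuousOn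
  refine ⟨max C 1, by positivity, fun t => ?_⟩
  by_cases ht : t ∈ Icc (0 : ℝ) 1
  · exact (hC t ht).trans (le_max_left _ _)
  · have h0 : deriv Real.smoothTransition t = 0 := by
      rw [mem_Icc, not_and_or, not_le, not_le] at ht
      rcases ht with ht | ht
      · have : Real.smoothTransition =ᶠ[𝓝 t] fun _ => 0 := by
          filter_upwards [Iio_mem_nhds ht] with s hs
          exact Real.smoothTransition.zero_of_nonpos hs.le
        rw [this.deriv_eq, deriv_const]
      · have : Real.smoothTransition =ᶠ[𝓝 t] fun _ => 1 := by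
          filter_upwards [Ioi_mem_nhds ht] with s hs
          exact Real.smoothTransition.one_of_one_le hs.le
        rw [this.deriv_eq, deriv_const]
    rw [h0, abs_zero]; positivity

/-- concave truncation of the identity -/
theorem exists_eta {κ : ℝ} (hκ : 0 < κ) : ∃ (T : ℝ) (η η' η'' : ℝ → ℝ), 0 < T ∧
    ContDiff ℝ (⊤ : ℕ∞) η ∧ ContDiff ℝ (⊤ : ℕ∞) η' ∧ (∀ t, HasDerivAt η (η' t) t) ∧
    (∀ t, HasDerivAt η' (η'' t) t) ∧ (∀ t ≤ 0, η t = t) ∧ (∀ t, T ≤ t → η t = η T) ∧
    (∀ t, 0 ≤ η' t) ∧ (∀ t, -κ ≤ η'' t) ∧ (∀ t ≤ 0, η'' t = 0) ∧ (∀ t, η t ≤ T) ∧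
    Monotone η := by
  obtain ⟨C, hC, hCb⟩ := exists_bound_deriv_st
  set T : ℝ := C / κ with hT
  have hT0 : 0 < T := by positivity
  have hcd : ContDiff ℝ (⊤ : ℕ∞) Real.smoothTransition := Real.smoothTransition.contDiff
  set η' : ℝ → ℝ := fun t => 1 - Real.smoothTransition (t / T) with hη'
  have hη's : ContDiff ℝ (⊤ : ℕ∞) η' :=
    contDiff_const.sub (hcd.comp (contDiff_id.div_const T))
  set η : ℝ → ℝ := fun t => ∫ s in (0 : ℝ)..t, η' s with hη
  have hηd : ∀ t, HasDerivAt η (η' t) t := fun t =>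
    intervalIntegral.integral_hasDerivAt_right (hη's.continuous.intervalIntegrable _ _)
      hη's.continuous.stronglyMeasurable.stronglyMeasurableAtFilter hη's.continuous.continuousAt
  have hηs : ContDiff ℝ (⊤ : ℕ∞) η := by
    rw [contDiff_infty_iff_deriv]
    refine ⟨fun t => (hηd t).differentiableAt, ?_⟩
    have : deriv η = η' := funext fun t => (hηd t).deriv
    rw [this]; exact hη's
  set η'' : ℝ → ℝ := fun t => -(deriv Real.smoothTransition (t / T) * (1 / T)) with hη''
  have hη''d : ∀ t, HasDerivAt η' (η'' t) t := by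
    intro t
    have h1 : HasDerivAt Real.smoothTransition (deriv Real.smoothTransition (t / T)) (t / T) :=
      (hcd.differentiable (by simp) _).hasDerivAt
    have h2 : HasDerivAt (fun t : ℝ => t / T) (1 / T) t := (hasDerivAt_id' t).div_const T
    exact (h1.comp t h2).const_sub 1
  have hη'0 : ∀ t, 0 ≤ η' t := fun t => by
    simp only [hη']; linarith [Real.smoothTransition.le_one (t / T)]
  have hη'1 : ∀ t, η' t ≤ 1 := fun t => by
    simp only [hη']; linarith [Real.smoothTransition.nonneg (t / T)]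
  have hmono : Monotone η := monotone_of_deriv_nonneg (fun t => (hηd t).differentiableAt)
    (fun t => by rw [(hηd t).deriv]; exact hη'0 t)
  have hconst : ∀ t, T ≤ t → η t = η T := by
    intro t ht
    have h1 : η t - η T = ∫ s in T..t, η' s := by
      simp only [hη]
      rw [intervalIntegral.integral_interval_sub_left (hη's.continuous.intervalIntegrable _ _)
        (hη's.continuous.intervalIntegrable _ _)]
    have h2 : ∫ s in T..t, η' s = 0 := by
      apply intervalIntegral.integral_zero_ae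
      filter_upwards with s hs
      rw [uIoc_of_le ht] at hs
      simp only [hη']
      rw [Real.smoothTransition.one_of_one_le, sub_self]
      rw [le_div_iff₀ hT0]; linarith [hs.1]
    linarith
  have hηT : η T ≤ T := by
    simp only [hη]
    calc ∫ s in (0 : ℝ)..T, η' s ≤ ∫ s in (0 : ℝ)..T, (1 : ℝ) :=
          intervalIntegral.integral_mono_on hT0.le (hη's.continuous.intervalIntegrable _ _)
            (continuous_const.intervalIntegrable _ _) (fun s _ => hη'1 s)
      _ = T := by simp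
  refine ⟨T, η, η', η'', hT0, hηs, hη's, hηd, hη''d, ?_, hconst, hη'0, ?_, ?_, ?_, hmono⟩
  · intro t ht
    simp only [hη]
    rw [intervalIntegral.integral_symm]
    have : ∫ s in t..0, η' s = ∫ s in t..0, (1 : ℝ) := by
      apply intervalIntegral.integral_congr
      intro s hs
      rw [uIcc_of_le ht] at hs
      simp only [hη']
      rw [Real.smoothTransition.zero_of_nonpos, sub_zero]
      exact div_nonpos_of_nonpos_of_nonneg hs.2 hT0.le
    rw [this]; simp
  · intro t
    simp only [hη'']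
    have h1 := (abs_le.1 (hCb (t / T))).2
    have h2 : C * (1 / T) = κ := by rw [hT]; field_simp
    have h3 : deriv Real.smoothTransition (t / T) * (1 / T) ≤ C * (1 / T) := by gcongr
    linarith
  · intro t ht
    simp only [hη'']
    have h1 : deriv Real.smoothTransition (t / T) = 0 := by
      rcases ht.lt_or_eq with ht | ht
      · have : Real.smoothTransition =ᶠ[𝓝 (t / T)] fun _ => 0 := by
          filter_upwards [Iio_mem_nhds (div_neg_of_neg_of_pos ht hT0)] with s hs
          exact Real.smoothTransition.zero_of_nonpos hs.le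
        rw [this.deriv_eq, deriv_const]
      · -- at `0`: the derivative is a limit of zeros
        rw [ht, zero_div]
        have hc : Continuous (deriv Real.smoothTransition) :=
          (contDiff_infty_iff_deriv.1 hcd).2.continuous
        have hz : ∀ s ∈ Iio (0 : ℝ), deriv Real.smoothTransition s = 0 := by
          intro s hs
          have : Real.smoothTransition =ᶠ[𝓝 s] fun _ => 0 := by
            filter_upwards [Iio_mem_nhds hs] with u hu
            exact Real.smoothTransition.zero_of_nonpos hu.le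
          rw [this.deriv_eq, deriv_const]
        have h2 : Tendsto (deriv Real.smoothTransition) (𝓝[<] 0)
            (𝓝 (deriv Real.smoothTransition 0)) := hc.continuousAt.continuousWithinAt
        have h3 : Tendsto (deriv Real.smoothTransition) (𝓝[<] 0) (𝓝 0) := by
          refine tendsto_const_nhds.congr' ?_
          filter_upwards [self_mem_nhdsWithin] with s hs
          exact (hz s hs).symm
        exact tendsto_nhds_unique h2 h3
    rw [h1]; simp
  · intro t
    rcases le_total T t with h | h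
    · rw [hconst t h]; exact hηT
    · exact (hmono h).trans hηT

/-- cutoff function -/
theorem exists_theta : ∃ (C : ℝ) (θ θ' : ℝ → ℝ), 0 < C ∧ ContDiff ℝ (⊤ : ℕ∞) θ ∧
    (∀ t, HasDerivAt θ (θ' t) t) ∧ (∀ t ≤ 1, θ t = 1) ∧ (∀ t, 4 ≤ t → θ t = 0) ∧
    (∀ t, 0 ≤ θ t ∧ θ t ≤ 1) ∧ (∀ t, |θ' t| ≤ C) ∧ (∀ t < 1, θ' t = 0) ∧
    (∀ t, 4 < t → θ' t = 0) := by
  obtain ⟨C, hC, hCb⟩ := exists_bound_deriv_st
  have hcd : ContDiff ℝ (⊤ : ℕ∞) Real.smoothTransition := Real.smoothTransition.contDiff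
  set θ : ℝ → ℝ := fun t => Real.smoothTransition ((4 - t) / 3) with hθ
  set θ' : ℝ → ℝ := fun t => deriv Real.smoothTransition ((4 - t) / 3) * (-1 / 3) with hθ'
  have hd : ∀ t, HasDerivAt θ (θ' t) t := by
    intro t
    have h1 : HasDerivAt Real.smoothTransition (deriv Real.smoothTransition ((4 - t) / 3))
        ((4 - t) / 3) := (hcd.differentiable (by simp) _).hasDerivAt
    have h2 : HasDerivAt (fun t : ℝ => (4 - t) / 3) (-1 / 3) t :=
      ((hasDerivAt_id' t).const_sub 4).div_const 3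
    exact h1.comp t h2
  refine ⟨C, θ, θ', hC, ?_, hd, ?_, ?_, ?_, ?_, ?_, ?_⟩
  · exact hcd.comp ((contDiff_const.sub contDiff_id).div_const 3)
  · intro t ht
    exact Real.smoothTransition.one_of_one_le (by linarith)
  · intro t ht
    exact Real.smoothTransition.zero_of_nonpos (by linarith)
  · intro t
    exact ⟨Real.smoothTransition.nonneg _, Real.smoothTransition.le_one _⟩
  · intro t
    simp only [hθ']
    rw [abs_mul]
    have h1 := hCb ((4 - t) / 3)
    have h2 : |(-1 / 3 : ℝ)| = 1 / 3 := by norm_num [abs_of_neg]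
    rw [h2]
    nlinarith [abs_nonneg (deriv Real.smoothTransition ((4 - t) / 3))]
  · intro t ht
    have h1 : θ =ᶠ[𝓝 t] fun _ => 1 := by
      filter_upwards [Iio_mem_nhds ht] with s hs
      exact Real.smoothTransition.one_of_one_le (by
        have : s < 1 := hs
        linarith)
    have h2 := (hd t).deriv
    rw [h1.deriv_eq, deriv_const] at h2
    exact h2.symm
  · intro t ht
    have h1 : θ =ᶠ[𝓝 t] fun _ => 0 := by
      filter_upwards [Ioi_mem_nhds ht] with s hs
      exact Real.smoothTransition.zero_of_nonpos (by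
        have : 4 < s := hs
        linarith)
    have h2 := (hd t).deriv
    rw [h1.deriv_eq, deriv_const] at h2
    exact h2.symm

variable {n : ℕ} {M : Type*} [TopologicalSpace M] [RDom n M]

lemma D_congr' {f g : M → ℝ} {x : M} (h : f =ᶠ[𝓝 x] g) (w : Fin n → ℂ) :
    D (fun y => D f y w) x = D (fun y => D g y w) x := by
  apply D_congr
  filter_upwards [h.eventuallyEq_nhds] with y hy
  rw [D_congr hy]

lemma lev_congr {f g : M → ℝ} {x : M} (h : f =ᶠ[𝓝 x] g) (w : Fin n → ℂ) :
    lev f x w = lev g x w := by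
  unfold lev
  rw [D_congr' h, D_congr' h]

lemma dsq_lg_le {ι : Type*} [Fintype ι] {f : ι → M → ℂ} (hf : ∀ j, Hol (f j)) {δ : ℝ}
    (hδ : 0 < δ) (x : M) (w : Fin n → ℂ) :
    dsq (lg f δ) x w ≤ nT f x w / (nS f x + δ) := by
  have hsm : ∀ j, Sm (f j) := fun j => (hf j).sm
  have hnS := nS_nonneg f x
  have hpos : 0 < nS f x + δ := by linarith
  have hd : ∀ v : Fin n → ℂ, D (lg f δ) x v = (nS f x + δ)⁻¹ * D (nS f) x v := by
    intro v
    have h0 : HasDerivAt (fun t : ℝ => t + δ) 1 (nS f x) := (hasDerivAt_id' _).add_const δ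
    have h5 : HasDerivAt (fun t : ℝ => Real.log (t + δ)) ((nS f x + δ)⁻¹) (nS f x) := by
      simpa [one_div] using h0.log hpos.ne'
    exact D_comp_real (sm_nS hsm) x h5 v
  have h1 : dsq (lg f δ) x w = (nS f x + δ)⁻¹ ^ 2 * dsq (nS f) x w := by
    unfold dsq
    rw [hd, hd]; ring
  rw [h1, dsq_nS hf]
  have h2 := nA_le f x w
  have h3 := nT_nonneg f x w
  have h4 : nS f x * nT f x w ≤ (nS f x + δ) * nT f x w := by nlinarith
  rw [le_div_iff₀ hpos]
  have h5 : (nS f x + δ)⁻¹ ^ 2 * ‖nA f x w‖ ^ 2 ≤ (nS f x + δ)⁻¹ ^ 2 * ((nS f x + δ) * nT f x w) := by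
    gcongr
    exact h2.trans h4
  calc (nS f x + δ)⁻¹ ^ 2 * ‖nA f x w‖ ^ 2 * (nS f x + δ)
      ≤ (nS f x + δ)⁻¹ ^ 2 * ((nS f x + δ) * nT f x w) * (nS f x + δ) := by gcongr
    _ = nT f x w := by field_simp

/-- Levi form of `η (log (|f|² + δ))` -/
lemma lev_eta_lg_ge {ι : Type*} [Fintype ι] {f : ι → M → ℂ} (hf : ∀ j, Hol (f j)) {δ κ : ℝ}
    (hδ : 0 < δ) (hκ : 0 ≤ κ) {η η' η'' : ℝ → ℝ} (hη's : ContDiff ℝ (⊤ : ℕ∞) η')
    (hη : ∀ t, HasDerivAt η (η' t) t) (hη' : ∀ t, HasDerivAt η' (η'' t) t)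
    (h0 : ∀ t, 0 ≤ η' t) (h1 : ∀ t, -κ ≤ η'' t) (h2 : ∀ t ≤ 0, η'' t = 0)
    (x : M) (w : Fin n → ℂ) :
    -κ * nT f x w ≤ lev (fun y => η (lg f δ y)) x w := by
  have hsm : ∀ j, Sm (f j) := fun j => (hf j).sm
  have hp : ∀ x, 0 < nS f x + δ := fun x => by linarith [nS_nonneg f x]
  have hlgs : Sm (lg f δ) := sm_lg hsm hp
  rw [lev_comp hlgs x (Eventually.of_forall hη) (hη' _) w (Sm.comp hη's hlgs)]
  have hl := lev_lg_nonneg hf hδ.le hp x w
  have hT := nT_nonneg f x w
  have hd := dsq_nonneg (lg f δ) x w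
  have h3 : 0 ≤ η' (lg f δ x) * lev (lg f δ) x w := mul_nonneg (h0 _) hl
  have h4 : -κ * nT f x w ≤ η'' (lg f δ x) * dsq (lg f δ) x w := by
    rcases le_or_gt (lg f δ x) 0 with h | h
    · rw [h2 _ h, zero_mul]
      nlinarith
    · have h5 : 1 ≤ nS f x + δ := by
        by_contra hc
        push Not at hc
        have : lg f δ x ≤ 0 := Real.log_nonpos (hp x).le hc.le
        linarith
      have h6 := dsq_lg_le hf hδ x w
      have h7 : nT f x w / (nS f x + δ) ≤ nT f x w := div_le_self hT h5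
      have h8 : dsq (lg f δ) x w ≤ nT f x w := h6.trans h7
      have h9 := h1 (lg f δ x)
      nlinarith
  linarith

/-- `|Σ ∂̄_j φ \bar w_j|² = dsq φ w` for a real function -/
lemma norm_db_real {φ : M → ℝ} (hφ : Sm φ) (x : M) (w : Fin n → ℂ) :
    ‖∑ j, db j (fun y => (φ y : ℂ)) x * (starRingEnd ℂ) (w j)‖ ^ 2 = dsq φ x w := by
  set Z := ∑ j, db j (fun y => (φ y : ℂ)) x * (starRingEnd ℂ) (w j) with hZ
  have hconj : ∀ j, dz j (fun y => (φ y : ℂ)) x = (starRingEnd ℂ) (db j (fun y => (φ y : ℂ)) x) := by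
    intro j
    rw [db_ofReal hφ, Complex.conj_conj]
  have hD : ∀ v : Fin n → ℂ, (D φ x v : ℂ) = D (fun y => (φ y : ℂ)) x v := by
    intro v
    rw [D_ofReal hφ]
  have h1 : (D φ x w : ℂ) = Z + (starRingEnd ℂ) Z := by
    rw [hD, D_wirtinger, hZ, map_sum, ← Finset.sum_add_distrib]
    refine Finset.sum_congr rfl fun j _ => ?_
    rw [hconj, map_mul, Complex.conj_conj]
    ring
  have h2 : (D φ x (I • w) : ℂ) = -I * Z + I * (starRingEnd ℂ) Z := by
    rw [hD, D_wirtinger, hZ, map_sum, Finset.mul_sum, Finset.mul_sum, ← Finset.sum_add_distrib]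
    refine Finset.sum_congr rfl fun j _ => ?_
    rw [hconj, map_mul, Complex.conj_conj, Pi.smul_apply, smul_eq_mul, map_mul, Complex.conj_I]
    ring
  have h3 : D φ x w = 2 * Z.re := by
    have := congrArg Complex.re h1
    simp only [Complex.ofReal_re, Complex.add_re, Complex.conj_re] at this
    linarith
  have h4 : D φ x (I • w) = 2 * Z.im := by
    have := congrArg Complex.re h2
    simp only [Complex.ofReal_re, Complex.add_re, Complex.mul_re, Complex.neg_re, Complex.neg_im,
      Complex.I_re, Complex.I_im, Complex.conj_re, Complex.conj_im] at this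
    linarith
  unfold dsq
  rw [h3, h4, ← Complex.normSq_eq_norm_sq, Complex.normSq_apply]
  ring

/-- `∂̄` of a holomorphic function vanishes -/
lemma db_hol {E : M → ℂ} (hE : Hol E) (j : Fin n) (x : M) : db j E x = 0 := by
  rw [db_eq]
  have h1 : (Pi.single j Complex.I : Fin n → ℂ) = I • (Pi.single j 1 : Fin n → ℂ) := by
    rw [← Pi.single_smul, smul_eq_mul, mul_one]
  rw [h1, hE.cl, ← mul_assoc, I_mul_I]
  ring

/-- `∂̄ (θ(|f|²) E)` -/
lemma db_theta {ι : Type*} [Fintype ι] {f : ι → M → ℂ} (hf : ∀ j, Hol (f j)) {E : M → ℂ}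
    (hE : Hol E) {θ θ' : ℝ → ℝ} (hθs : ContDiff ℝ (⊤ : ℕ∞) θ) (hθ : ∀ t, HasDerivAt θ (θ' t) t)
    (x : M) (w : Fin n → ℂ) :
    ‖∑ j, db j (fun y => ((θ (nS f y) : ℝ) : ℂ) * E y) x * (starRingEnd ℂ) (w j)‖ ^ 2 ≤
      (θ' (nS f x)) ^ 2 * ‖E x‖ ^ 2 * (nS f x * nT f x w) := by
  have hsm : ∀ j, Sm (f j) := fun j => (hf j).sm
  have hS : Sm (nS f) := sm_nS hsm
  have hθS : Sm (fun y => θ (nS f y)) := Sm.comp hθs hS
  have h1 : ∀ j, db j (fun y => ((θ (nS f y) : ℝ) : ℂ) * E y) x =
      (θ' (nS f x) : ℂ) * E x * db j (fun y => (nS f y : ℂ)) x := by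
    intro j
    rw [db_mul hθS.ofReal hE.sm, db_hol hE, db_comp_real hS hθS x (hθ _) j]
    ring
  have h2 : ∑ j, db j (fun y => ((θ (nS f y) : ℝ) : ℂ) * E y) x * (starRingEnd ℂ) (w j) =
      (θ' (nS f x) : ℂ) * E x * ∑ j, db j (fun y => (nS f y : ℂ)) x * (starRingEnd ℂ) (w j) := by
    rw [Finset.mul_sum]
    refine Finset.sum_congr rfl fun j _ => ?_
    rw [h1]; ring
  rw [h2, norm_mul, norm_mul, mul_pow, mul_pow, norm_db_real hS, dsq_nS hf, Complex.norm_real,
    Real.norm_eq_abs, sq_abs]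
  gcongr
  exact nA_le f x w

end Crest.Agent.R269.Peak1_976
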