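import Crest.Agent.R269.Peak1_976
import Crest.Agent.R276.LM3_976
import Crest.Agent.R271.Engine_51
import Crest.Agent.R271.T7a_297
import Crest.Agent.R271.L0_934

/-!
# R269, leaf PK (helper976): peak sections, part 2: the core theorem `pk_core`
-/

set_option autoImplicit false
set_option linter.unusedSectionVars false

noncomputable section

open Set Filter Topology Complex MeasureTheory Metric
open scoped ENNReal ComplexConjugate Matrix

namespace Crest.Agent.R269.Peak2_976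

open Crest.Agent.R271.Ho51 hiding Hol
open Crest.Agent.R271.W792 Crest.Agent.R269.Peak1_976

variable {n : ℕ} {M : Type*} [TopologicalSpace M] [RDom n M]

section basic

variable {G : Type*} [NormedAddCommGroup G] [NormedSpace ℝ G]

lemma D_of_coord (g : (Fin n → ℂ) → G) (x : M) : D (fun y : M => g (cp y)) x = fderiv ℝ g (cp x) := by
  have h1 : ((fun y : M => g (cp y)) ∘ (ch x).symm) =ᶠ[𝓝 (cp x)] g := by
    filter_upwards [(ch x).open_target.mem_nhds ((isCh_ch x).cp_mem (mem_ch x))] with z hz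
    simp [(isCh_ch x).cp_symm hz]
  unfold D
  exact h1.fderiv_eq

lemma hol_of_coord {g : (Fin n → ℂ) → ℂ} (hg : ContDiff ℂ (⊤ : ℕ∞) g) :
    Hol (fun x : M => g (cp x)) where
  sm := Sm.of_coord (hg.restrict_scalars ℝ)
  cl := by
    intro x w
    rw [D_of_coord]
    have h1 : DifferentiableAt ℂ g (cp x) := (hg.differentiable (by simp)) _
    rw [h1.fderiv_restrictScalars ℝ]
    simp

/-- the affine functions of the coordinates -/
def fG (Gm : Matrix (Fin n) (Fin n) ℂ) (z0 : Fin n → ℂ) (i : Fin n) (x : M) : ℂ :=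
  (Gm *ᵥ (cp x - z0)) i

lemma fG_contDiff (Gm : Matrix (Fin n) (Fin n) ℂ) (z0 : Fin n → ℂ) (i : Fin n) :
    ContDiff ℂ (⊤ : ℕ∞) (fun v : Fin n → ℂ => (Gm *ᵥ (v - z0)) i) := by
  simp only [Matrix.mulVec, dotProduct]
  refine ContDiff.sum fun j _ => ?_
  refine contDiff_const.mul ?_
  simp only [Pi.sub_apply]
  exact (contDiff_apply ℂ ℂ j).sub contDiff_const

lemma hol_fG (Gm : Matrix (Fin n) (Fin n) ℂ) (z0 : Fin n → ℂ) (i : Fin n) :
    Hol (fG (M := M) Gm z0 i) := hol_of_coord (fG_contDiff Gm z0 i)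

lemma D_fG (Gm : Matrix (Fin n) (Fin n) ℂ) (z0 : Fin n → ℂ) (i : Fin n) (x : M)
    (w : Fin n → ℂ) : D (fG (M := M) Gm z0 i) x w = (Gm *ᵥ w) i := by
  have h0 : D (fG (M := M) Gm z0 i) x = fderiv ℝ (fun v : Fin n → ℂ => (Gm *ᵥ (v - z0)) i) (cp x) :=
    D_of_coord (M := M) (fun v : Fin n → ℂ => (Gm *ᵥ (v - z0)) i) x
  let L : (Fin n → ℂ) →L[ℝ] ℂ := LinearMap.toContinuousLinearMap
    (((LinearMap.proj i).comp (Matrix.toLin' Gm)).restrictScalars ℝ)
  have hL : ∀ v, L v = (Gm *ᵥ v) i := fun v => rfl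
  have h1 : HasFDerivAt (fun v : Fin n → ℂ => (Gm *ᵥ (v - z0)) i) L (cp x) := by
    have h2 : HasFDerivAt (fun v : Fin n → ℂ => L (v - z0)) L (cp x) := by
      have h3 := (L.hasFDerivAt (x := cp x - z0)).comp (cp x) ((hasFDerivAt_id (cp x)).sub_const z0)
      rw [ContinuousLinearMap.comp_id] at h3
      exact h3
    exact h2
  rw [h0, h1.fderiv, hL]

/-- the quadratic form `|G v|²` -/
def qG (Gm : Matrix (Fin n) (Fin n) ℂ) (v : Fin n → ℂ) : ℝ := ∑ i, ‖(Gm *ᵥ v) i‖ ^ 2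

lemma qG_nonneg (Gm : Matrix (Fin n) (Fin n) ℂ) (v : Fin n → ℂ) : 0 ≤ qG Gm v :=
  Finset.sum_nonneg fun _ _ => by positivity

lemma qG_cont (Gm : Matrix (Fin n) (Fin n) ℂ) : Continuous (qG Gm) := by
  unfold qG
  refine continuous_finsetSum _ fun i _ => ?_
  have h1 : Continuous fun v : Fin n → ℂ => (Gm *ᵥ v) i :=
    (continuous_apply i).comp (Continuous.matrix_mulVec continuous_const continuous_id)
  exact h1.norm.pow 2

omit [TopologicalSpace M] [RDom n M] in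
lemma nS_fG [TopologicalSpace M] [RDom n M] (Gm : Matrix (Fin n) (Fin n) ℂ) (z0 : Fin n → ℂ)
    (x : M) : nS (fG Gm z0) x = qG Gm (cp x - z0) := rfl

lemma nT_fG (Gm : Matrix (Fin n) (Fin n) ℂ) (z0 : Fin n → ℂ) (x : M) (w : Fin n → ℂ) :
    nT (fG (M := M) Gm z0) x w = qG Gm w := by
  unfold nT qG
  exact Finset.sum_congr rfl fun i _ => by rw [D_fG]

lemma qG_le (Gm : Matrix (Fin n) (Fin n) ℂ) : ∃ C : ℝ, 0 < C ∧ ∀ v, qG Gm v ≤ C * ‖v‖ ^ 2 := by
  let L : (Fin n → ℂ) →L[ℂ] (Fin n → ℂ) := LinearMap.toContinuousLinearMap (Matrix.toLin' Gm)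
  refine ⟨n * ‖L‖ ^ 2 + 1, by positivity, fun v => ?_⟩
  have h1 : ∀ i, ‖(Gm *ᵥ v) i‖ ≤ ‖L‖ * ‖v‖ := fun i =>
    (norm_le_pi_norm (L v) i).trans (L.le_opNorm v)
  have h2 : qG Gm v ≤ ∑ _i : Fin n, (‖L‖ * ‖v‖) ^ 2 := by
    unfold qG
    exact Finset.sum_le_sum fun i _ => by gcongr; exact h1 i
  rw [Finset.sum_const, Finset.card_univ, Fintype.card_fin, nsmul_eq_mul] at h2
  nlinarith [sq_nonneg ‖v‖]

open Classical in
/-- localisation: `g` on `A`, the constant `c` outside -/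
def loc (A : Set M) (g : M → G) (c : G) (x : M) : G := if x ∈ A then g x else c

omit [TopologicalSpace M] [RDom n M] in
lemma loc_mem {A : Set M} {g : M → G} {c : G} {x : M} (hx : x ∈ A) : loc A g c x = g x := by
  simp [loc, hx]

omit [TopologicalSpace M] [RDom n M] in
lemma loc_notMem {A : Set M} {g : M → G} {c : G} {x : M} (hx : x ∉ A) : loc A g c x = c := by
  simp [loc, hx]

omit [RDom n M] in
lemma loc_eq_mem {A : Set M} (hA : IsOpen A) {g : M → G} {c : G} {x : M} (hx : x ∈ A) :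
    loc A g c =ᶠ[𝓝 x] g := by
  filter_upwards [hA.mem_nhds hx] with y hy using loc_mem hy

omit [RDom n M] in
lemma loc_eq_notMem {A K : Set M} (hK : IsClosed K) {g : M → G} {c : G}
    (hg : ∀ x ∈ A, x ∉ K → g x = c) {x : M} (hx : x ∉ K) : loc A g c =ᶠ[𝓝 x] fun _ => c := by
  filter_upwards [hK.isOpen_compl.mem_nhds hx] with y hy
  by_cases h : y ∈ A
  · rw [loc_mem h, hg y h hy]
  · exact loc_notMem h

lemma loc_sm {A K : Set M} (hA : IsOpen A) (hK : IsClosed K) (hKA : K ⊆ A) {g : M → G} {c : G}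
    (hgs : Sm g) (hg : ∀ x ∈ A, x ∉ K → g x = c) : Sm (loc A g c) := by
  refine Sm.of_locally fun x => ?_
  by_cases hx : x ∈ A
  · exact ⟨g, hgs, loc_eq_mem hA hx⟩
  · exact ⟨fun _ => c, Sm.const c, loc_eq_notMem hK hg fun h => hx (hKA h)⟩

end basic

/-- `|x - y|² ` splitting -/
theorem ofReal_sq_le (a b : ℂ) : ENNReal.ofReal (‖a‖ ^ 2) ≤
    2 * ENNReal.ofReal (‖a - b‖ ^ 2) + 2 * ENNReal.ofReal (‖b‖ ^ 2) := by
  have h2 : (2 : ℝ≥0∞) = ENNReal.ofReal 2 := by simp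
  rw [h2, ← ENNReal.ofReal_mul (by norm_num), ← ENNReal.ofReal_mul (by norm_num),
    ← ENNReal.ofReal_add (by positivity) (by positivity)]
  refine ENNReal.ofReal_le_ofReal ?_
  have h3 : ‖a‖ ≤ ‖a - b‖ + ‖b‖ := by
    calc ‖a‖ = ‖(a - b) + b‖ := by ring_nf
      _ ≤ _ := norm_add_le _ _
  nlinarith [norm_nonneg a, norm_nonneg b, norm_nonneg (a - b), sq_nonneg (‖a - b‖ - ‖b‖)]

end Crest.Agent.R269.Peak2_976
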