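import Crest.Agent.R269.Peak2_976

/-!
# R269, leaf PK (helper976): peak sections, part 3: the core theorem `pk_core`
-/

set_option autoImplicit false
set_option linter.unusedSectionVars false

noncomputable section

open Set Filter Topology Complex MeasureTheory Metric
open scoped ENNReal ComplexConjugate Matrix

namespace Crest.Agent.R269.Peak3_976

open Crest.Agent.R271.Ho51 hiding Hol
open Crest.Agent.R271.W792 Crest.Agent.R269.Peak1_976 Crest.Agent.R269.Peak2_976

/-- a pole of order `2n` forces the value at the centre -/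
theorem value_zero {n : ℕ} (hn : 0 < n) {M : Type*} [TopologicalSpace M] [RDom n M]
    [MeasurableSpace M] [BorelSpace M] {μ : Measure M} (hμ : IsLeb μ)
    {e : OpenPartialHomeomorph M (Fin n → ℂ)} (he : IsCh e) {z0 : Fin n → ℂ} (hz0 : z0 ∈ e.target)
    {u : M → ℂ} (hu : Continuous u) {g : M → ℝ≥0∞} (hg : Measurable g) {r c b : ℝ}
    (hr : 0 < r) (hc : 0 < c) (hb : 0 < b)
    (hgl : ∀ z ∈ ball z0 r, z ∈ e.target → ENNReal.ofReal c *
      (ENNReal.ofReal (b * ‖z - z0‖ ^ 2)) ^ (-(n : ℝ)) ≤ g (e.symm z))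
    (hfin : ∫⁻ x, ENNReal.ofReal (‖u x‖ ^ 2) * g x ∂μ ≠ ∞) : u (e.symm z0) = 0 := by
  by_contra hne
  have hd : 0 < ‖u (e.symm z0)‖ ^ 2 := by positivity
  have hcont : ContinuousAt (fun z => ‖u (e.symm z)‖ ^ 2) z0 := by
    have h1 : ContinuousAt e.symm z0 := e.symm.continuousAt (by simpa using hz0)
    exact ((hu.continuousAt.comp h1).norm).pow 2
  have hev : ∀ᶠ z in 𝓝 z0, ‖u (e.symm z0)‖ ^ 2 / 2 < ‖u (e.symm z)‖ ^ 2 :=
    hcont.eventually (lt_mem_nhds (half_lt_self hd))
  have hev2 : ∀ᶠ z in 𝓝 z0, z ∈ e.target := e.open_target.mem_nhds hz0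
  obtain ⟨r', hr', hball⟩ := Metric.eventually_nhds_iff_ball.1 (hev.and hev2)
  set s := min r r' with hs
  have hs0 : 0 < s := lt_min hr hr'
  set a : ℝ := ‖u (e.symm z0)‖ ^ 2 / 2 with ha
  have ha0 : 0 < a := by positivity
  have hf : Measurable (fun x => ENNReal.ofReal (‖u x‖ ^ 2) * g x) :=
    ((hu.norm.pow 2).measurable.ennreal_ofReal).mul hg
  have hfr : (Module.finrank ℝ (Fin n → ℂ) : ℝ) = 2 * n := by
    rw [finrank_real_of_complex, Module.finrank_fin_fun]; push_cast; ring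
  have h1 : ∫⁻ z in ball z0 s, ENNReal.ofReal a * (ENNReal.ofReal c *
      (ENNReal.ofReal (b * ‖z - z0‖ ^ 2)) ^ (-(n : ℝ))) ≤
      ∫⁻ x, ENNReal.ofReal (‖u x‖ ^ 2) * g x ∂μ := by
    calc _ ≤ ∫⁻ z in ball z0 s, ENNReal.ofReal (‖u (e.symm z)‖ ^ 2) * g (e.symm z) := by
          refine setLIntegral_mono' measurableSet_ball fun z hz => ?_
          have hz1 : z ∈ ball z0 r := ball_subset_ball (min_le_left _ _) hz
          have hz2 := hball z (ball_subset_ball (min_le_right _ _) hz)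
          gcongr
          · exact hz2.1.le
          · exact hgl z hz1 hz2.2
      _ ≤ ∫⁻ z in e.target, ENNReal.ofReal (‖u (e.symm z)‖ ^ 2) * g (e.symm z) :=
          lintegral_mono_set fun z hz => (hball z (ball_subset_ball (min_le_right _ _) hz)).2
      _ = ∫⁻ x in e.source, ENNReal.ofReal (‖u x‖ ^ 2) * g x ∂μ :=
          (lintegral_chart hμ he hf.aemeasurable).symm
      _ ≤ _ := setLIntegral_le_lintegral _ _
  have h2 : ∫⁻ z in ball z0 s, ENNReal.ofReal a * (ENNReal.ofReal c *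
      (ENNReal.ofReal (b * ‖z - z0‖ ^ 2)) ^ (-(n : ℝ))) = ∞ := by
    have h3 : ∀ z : Fin n → ℂ, ENNReal.ofReal a * (ENNReal.ofReal c *
        (ENNReal.ofReal (b * ‖z - z0‖ ^ 2)) ^ (-(n : ℝ))) =
        (ENNReal.ofReal a * ENNReal.ofReal c * ENNReal.ofReal b ^ (-(n : ℝ))) *
          (ENNReal.ofReal ‖z - z0‖) ^ (-(Module.finrank ℝ (Fin n → ℂ) : ℝ)) := by
      intro z
      rw [ENNReal.ofReal_mul hb.le, hfr, ENNReal.ofReal_pow (norm_nonneg _)]
      rw [ENNReal.mul_rpow_of_ne_top ENNReal.ofReal_ne_top (by finiteness), mul_assoc, mul_assoc]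
      congr 3
      rw [← ENNReal.rpow_natCast, ← ENNReal.rpow_mul]
      congr 1
      push_cast; ring
    have h4 : ∫⁻ z in ball z0 s, (ENNReal.ofReal ‖z - z0‖) ^
        (-(Module.finrank ℝ (Fin n → ℂ) : ℝ)) = ∞ := by
      have h5 := Crest.Agent.R271.L934.lintegral_ball_norm_eq_top (V := Fin n → ℂ) volume
        (by rw [finrank_real_of_complex, Module.finrank_fin_fun]; omega) hs0
      rw [← h5, ← lintegral_indicator measurableSet_ball, ← lintegral_indicator measurableSet_ball]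
      have h6 := lintegral_sub_right_eq_self (μ := (volume : Measure (Fin n → ℂ)))
        ((ball (0 : Fin n → ℂ) s).indicator fun x : Fin n → ℂ =>
          ENNReal.ofReal ‖x‖ ^ (-(Module.finrank ℝ (Fin n → ℂ) : ℝ))) z0
      rw [← h6]
      refine lintegral_congr fun z => ?_
      by_cases hz : z ∈ ball z0 s
      · have hz' : z - z0 ∈ ball (0 : Fin n → ℂ) s := by
          rw [mem_ball_zero_iff]; rwa [mem_ball, dist_eq_norm] at hz
        rw [indicator_of_mem hz, indicator_of_mem hz']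
      · have hz' : z - z0 ∉ ball (0 : Fin n → ℂ) s := by
          rw [mem_ball_zero_iff]; rwa [mem_ball, dist_eq_norm] at hz
        rw [indicator_of_notMem hz, indicator_of_notMem hz']
    rw [lintegral_congr h3, lintegral_const_mul' _ _ (by
      refine ENNReal.mul_ne_top (by finiteness) ?_
      rw [ENNReal.rpow_neg]
      refine ENNReal.inv_ne_top.2 ?_
      have : ENNReal.ofReal b ≠ 0 := by simpa using hb
      exact (ENNReal.rpow_pos (by positivity) ENNReal.ofReal_ne_top).ne'), h4, ENNReal.mul_top]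
    have h6 : ENNReal.ofReal a ≠ 0 := by simpa using ha0
    have h7 : ENNReal.ofReal c ≠ 0 := by simpa using hc
    have h8 : ENNReal.ofReal b ^ (-(n : ℝ)) ≠ 0 := by
      rw [ENNReal.rpow_neg, ENNReal.inv_ne_zero]
      exact ENNReal.rpow_ne_top_of_nonneg (by positivity) ENNReal.ofReal_ne_top
    exact mul_ne_zero (mul_ne_zero h6 h7) h8
  rw [h2, top_le_iff] at h1
  exact hfin h1

/-- **peak sections, core form** -/
theorem pk_core {n : ℕ} (hn : 0 < n) : ∃ C R : ℝ, 0 < C ∧ 5 ≤ R ∧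
    ∀ (M : Type) [TopologicalSpace M] [T2Space M] [SecondCountableTopology M] [RDom n M]
      [MeasurableSpace M] [BorelSpace M] (μ : Measure M), IsLeb μ →
    ∀ ρ : M → ℝ, Sm ρ → (∀ c, IsCompact {x | ρ x ≤ c}) → (∀ x w, nsq w ≤ Levi ρ x w) →
    ∀ Φ : M → ℝ, Sm Φ → (∀ x w, 0 ≤ Levi Φ x w) →
    ∀ e : OpenPartialHomeomorph M (Fin n → ℂ), IsCh e →
    ∀ (z0 : Fin n → ℂ) (r0 r1 : ℝ), 0 < r0 → r0 < r1 → closedBall z0 r1 ⊆ e.target →
    ∀ Gm : Matrix (Fin n) (Fin n) ℂ, (∀ v, r0 < ‖v‖ → R ≤ qG Gm v) →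
      (∀ z ∈ ball z0 r1, ∀ w, 3 / 4 * qG Gm w ≤ Levi Φ (e.symm z) w) →
    ∀ (c : ℝ) (H : (Fin n → ℂ) → ℂ), ContDiff ℂ (⊤ : ℕ∞) H → H 0 = 0 →
      (∀ v ∈ ball (0 : Fin n → ℂ) r1, qG Gm v ≤ 4 →
        Φ (e.symm z0) + (H v).re - c ≤ Φ (e.symm (z0 + v))) →
      ∃ F : M → ℂ, Crest.Agent.R271.Ho51.Hol F ∧ F (e.symm z0) = 1 ∧
        ∫⁻ x, ENNReal.ofReal (‖F x‖ ^ 2 * Real.exp (-Φ x)) ∂μ ≤
          ENNReal.ofReal (C * Real.exp (c - Φ (e.symm z0))) * volume {v | qG Gm v ≤ 4} := by
  have hn' : (0 : ℝ) < n := by exact_mod_cast hn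
  obtain ⟨T, η, η', η'', hT0, hηs, hη's, hηd, hη'd, hη0, hηc, hη'0, hη''b, hη''0, hηT, hηm⟩ :=
    exists_eta (κ := 1 / (4 * n)) (by positivity)
  obtain ⟨Cθ, θ, θ', hCθ, hθs, hθd, hθ1, hθ4, hθ01, hθb, hθ'1, hθ'4⟩ := exists_theta
  refine ⟨4 * Real.exp (n * T) * (8 * Cθ ^ 2) + 2, max 5 (Real.exp T), by positivity,
    le_max_left _ _, ?_⟩
  intro M _ _ _ _ _ _ μ hμ ρ hρ hρc hρL Φ hΦ hΦL e he z0 r0 r1 hr0 hr01 hB Gm hGR hGL c H hH hH0 hcH
  -- notation
  set x0 : M := e.symm z0 with hx0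
  set A : Set M := e.symm '' ball z0 r1 with hA
  set K : Set M := e.symm '' closedBall z0 r0 with hK
  have hr1 : 0 < r1 := hr0.trans hr01
  have hBt : ball z0 r1 ⊆ e.target := ball_subset_closedBall.trans hB
  have hz0t : z0 ∈ e.target := hBt (mem_ball_self hr1)
  have hAo : IsOpen A := e.isOpen_image_symm_of_subset_target isOpen_ball hBt
  have hKc : IsClosed K := ((isCompact_closedBall z0 r0).image_of_continuousOn
    (e.symm.continuousOn.mono (by
      rw [e.symm_source]
      exact (closedBall_subset_closedBall hr01.le).trans hB))).isClosed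
  have hKA : K ⊆ A := image_mono (closedBall_subset_ball hr01)
  have hAmem : ∀ x ∈ A, x ∈ e.source ∧ cp x ∈ ball z0 r1 ∧ e.symm (cp x) = x := by
    rintro _ ⟨z, hz, rfl⟩
    have h1 := e.map_target (hBt hz)
    refine ⟨h1, ?_, he.symm_cp h1⟩
    rw [he.cp_symm (hBt hz)]; exact hz
  have hx0A : x0 ∈ A := mem_image_of_mem _ (mem_ball_self hr1)
  have hcpx0 : cp x0 = z0 := he.cp_symm hz0t
  set f : Fin n → M → ℂ := fG Gm z0 with hf
  have hfh : ∀ j, Hol (f j) := fun j => hol_fG Gm z0 j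
  have hnS : ∀ x, nS f x = qG Gm (cp x - z0) := fun x => nS_fG Gm z0 x
  have hnS0 : ∀ x, 0 ≤ nS f x := fun x => nS_nonneg f x
  have hnSs : Sm (nS f) := sm_nS fun j => (hfh j).sm
  have hAK : ∀ x ∈ A, x ∉ K → max 5 (Real.exp T) ≤ nS f x := by
    intro x hx hxK
    rw [hnS]
    apply hGR
    by_contra h
    push Not at h
    apply hxK
    refine ⟨cp x, ?_, (hAmem x hx).2.2⟩
    rw [mem_closedBall, dist_eq_norm]; exact h
  set δ : ℕ → ℝ := fun k => 1 / ((k : ℝ) + 1) with hδ
  have hδ0 : ∀ k, 0 < δ k := fun k => by simp only [hδ]; positivity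
  have hp : ∀ k x, 0 < nS f x + δ k := fun k x => by linarith [hnS0 x, hδ0 k]
  have hlgs : ∀ k, Sm (lg f (δ k)) := fun k => sm_lg (fun j => (hfh j).sm) (hp k)
  set ξ : ℕ → M → ℝ := fun k => loc A (fun y => η (lg f (δ k) y)) (η T) with hξ
  have hξc : ∀ k, ∀ x ∈ A, x ∉ K → η (lg f (δ k) x) = η T := by
    intro k x hx hxK
    apply hηc
    have h1 := hAK x hx hxK
    have h2 : Real.exp T ≤ nS f x + δ k := by linarith [le_max_right 5 (Real.exp T), hδ0 k]
    rw [← Real.log_exp T]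
    exact Real.log_le_log (Real.exp_pos T) h2
  have hξs : ∀ k, Sm (ξ k) := fun k =>
    loc_sm hAo hKc hKA (Sm.comp hηs (hlgs k)) (hξc k)
  have hξT : ∀ k x, ξ k x ≤ T := by
    intro k x
    by_cases hx : x ∈ A
    · simp only [hξ, loc_mem hx]; exact hηT _
    · simp only [hξ, loc_notMem hx]; exact hηT _
  have hξanti : ∀ x, Antitone fun k => ξ k x := by
    intro x k l hkl
    by_cases hx : x ∈ A
    · simp only [hξ, loc_mem hx]
      apply hηm
      apply lg_antitone _ _ _ (hp l x)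
      simp only [hδ]
      exact one_div_le_one_div_of_le (by positivity) (by
        have : (k : ℝ) ≤ l := by exact_mod_cast hkl
        linarith)
    · simp only [hξ, loc_notMem hx]; exact le_rfl
  set φ : ℕ → M → ℝ := fun k x => Φ x + n * ξ k x with hφ
  have hnξs : ∀ k, Sm (fun x => (n : ℝ) * ξ k x) := fun k => (Sm.const (n : ℝ)).mulR (hξs k)
  have hφs : ∀ k, Sm (φ k) := fun k => hΦ.add (hnξs k)
  have hφanti : ∀ x, Antitone fun k => φ k x := by
    intro x k l hkl
    have := hξanti x hkl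
    simp only [hφ]
    have h2 : (n : ℝ) * ξ l x ≤ n * ξ k x := by gcongr
    linarith
  have hLevi : ∀ k x w, Levi (φ k) x w = Levi Φ x w + n * lev (ξ k) x w := by
    intro k x w
    rw [Levi_eq_lev (hφs k), Levi_eq_lev hΦ]
    simp only [hφ]
    rw [lev_add hΦ (hnξs k), lev_const_mul (hξs k)]
  have hLeviA : ∀ k, ∀ x ∈ A, ∀ w, 1 / 2 * qG Gm w ≤ Levi (φ k) x w := by
    intro k x hx w
    rw [hLevi]
    obtain ⟨-, h2, h3⟩ := hAmem x hx
    have h4 := hGL (cp x) h2 w
    rw [h3] at h4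
    have h5 : lev (ξ k) x w = lev (fun y => η (lg f (δ k) y)) x w :=
      Peak1_976.lev_congr (loc_eq_mem hAo hx) w
    have h6 := lev_eta_lg_ge hfh (hδ0 k) (κ := 1 / (4 * n)) (by positivity) hη's hηd hη'd hη'0
      hη''b hη''0 x w
    rw [nT_fG] at h6
    rw [h5]
    have h7 : (n : ℝ) * (-(1 / (4 * n)) * qG Gm w) = -(1 / 4) * qG Gm w := by
      field_simp
    have h8 : (n : ℝ) * (-(1 / (4 * n)) * qG Gm w) ≤
        n * lev (fun y => η (lg f (δ k) y)) x w := by gcongr
    linarith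
  have hLevinA : ∀ k, ∀ x ∉ A, ∀ w, Levi (φ k) x w = Levi Φ x w := by
    intro k x hx w
    rw [hLevi]
    have h5 : lev (ξ k) x w = lev (fun _ : M => η T) x w :=
      Peak1_976.lev_congr (loc_eq_notMem hKc (hξc k) fun h => hx (hKA h)) w
    rw [h5, lev_const, mul_zero, add_zero]
  have hφL : ∀ k x w, 0 ≤ Levi (φ k) x w := by
    intro k x w
    by_cases hx : x ∈ A
    · exact le_trans (by have := qG_nonneg Gm w; positivity) (hLeviA k x hx w)
    · rw [hLevinA k x hx]; exact hΦL x w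
  -- the function to be corrected
  set E : M → ℂ := fun x => Complex.exp ((1 / 2 : ℂ) * H (cp x - z0)) with hE
  have hEh : Hol E := by
    refine hol_of_coord (g := fun z => Complex.exp ((1 / 2 : ℂ) * H (z - z0))) ?_
    exact (contDiff_const.mul (hH.comp (contDiff_id.sub contDiff_const))).cexp
  have hEn : ∀ x, ‖E x‖ ^ 2 = Real.exp ((H (cp x - z0)).re) := by
    intro x
    simp only [hE]
    rw [Complex.norm_exp, ← Real.exp_nat_mul]
    congr 1
    have h1 : (1 / 2 : ℂ) = ((1 / 2 : ℝ) : ℂ) := by push_cast; rfl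
    rw [h1, Complex.re_ofReal_mul]; push_cast; ring
  set Gf : M → ℂ := loc A (fun y => ((θ (nS f y) : ℝ) : ℂ) * E y) 0 with hGf
  have hGc : ∀ x ∈ A, x ∉ K → ((θ (nS f x) : ℝ) : ℂ) * E x = 0 := by
    intro x hx hxK
    rw [hθ4 _ (by linarith [le_max_left 5 (Real.exp T), hAK x hx hxK])]; simp
  have hθSs : Sm (fun y => ((θ (nS f y) : ℝ) : ℂ) * E y) := (Sm.comp hθs hnSs).ofReal.mul hEh.sm
  have hGs : Sm Gf := loc_sm hAo hKc hKA hθSs hGc
  have hbound : ∀ x ∈ A, nS f x ≤ 4 →
      Real.exp ((H (cp x - z0)).re) * Real.exp (-Φ x) ≤ Real.exp (c - Φ x0) := by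
    intro x hx hS
    obtain ⟨-, h2, h3⟩ := hAmem x hx
    rw [← Real.exp_add]
    apply Real.exp_le_exp.2
    have h4 := hcH (cp x - z0) (by rw [mem_ball_zero_iff]; rwa [mem_ball, dist_eq_norm] at h2)
      (by rw [← hnS]; exact hS)
    rw [add_sub_cancel, h3] at h4
    linarith
  classical
  set kap : ℕ → M → ℝ := fun _ x => if x ∈ A ∧ 1 ≤ nS f x ∧ nS f x ≤ 4 then
    8 * Cθ ^ 2 * Real.exp ((H (cp x - z0)).re) else 0 with hkap
  have hkap1 : ∀ k x w, ‖∑ j, db j Gf x * (starRingEnd ℂ) (w j)‖ ^ 2 ≤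
      kap k x * Levi (φ k) x w := by
    intro k x w
    by_cases hx : x ∈ A
    · have h1 : ∀ j, db j Gf x = db j (fun y => ((θ (nS f y) : ℝ) : ℂ) * E y) x := fun j =>
        db_congr (loc_eq_mem hAo hx) j
      simp only [h1]
      have h2 := db_theta hfh hEh hθs hθd x w
      refine h2.trans ?_
      rw [nT_fG, hEn]
      have hq := qG_nonneg Gm w
      by_cases h3 : 1 ≤ nS f x ∧ nS f x ≤ 4
      · have h4 : kap k x = 8 * Cθ ^ 2 * Real.exp ((H (cp x - z0)).re) := by
          simp only [hkap]; rw [if_pos ⟨hx, h3⟩]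
        rw [h4]
        have h5 : (θ' (nS f x)) ^ 2 ≤ Cθ ^ 2 := sq_le_sq' (by
          have := (abs_le.1 (hθb (nS f x))).1; linarith) (abs_le.1 (hθb (nS f x))).2
        have h6 := hLeviA k x hx w
        have h7 : nS f x * qG Gm w ≤ 4 * qG Gm w := by nlinarith [h3.2]
        calc (θ' (nS f x)) ^ 2 * Real.exp ((H (cp x - z0)).re) * (nS f x * qG Gm w)
            ≤ Cθ ^ 2 * Real.exp ((H (cp x - z0)).re) * (4 * qG Gm w) := by
              have := hnS0 x
              gcongr
          _ = 8 * Cθ ^ 2 * Real.exp ((H (cp x - z0)).re) * (1 / 2 * qG Gm w) := by ring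
          _ ≤ _ := by gcongr
      · have h4 : θ' (nS f x) = 0 := by
          rw [not_and_or, not_le, not_le] at h3
          rcases h3 with h3 | h3
          · exact hθ'1 _ h3
          · exact hθ'4 _ h3
        rw [h4]
        have h5 : kap k x = 0 := by
          simp only [hkap]; rw [if_neg (fun h => h3 h.2)]
        rw [h5]; simp
    · have h1 : ∀ j, db j Gf x = 0 := fun j => by
        rw [db_congr (loc_eq_notMem hKc hGc fun h => hx (hKA h)) j, db_const]
      have h5 : kap k x = 0 := by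
        simp only [hkap]; rw [if_neg (fun h => hx h.1)]
      simp [h1, h5]
  set S4 : Set M := A ∩ {x | nS f x ≤ 4} with hS4
  have hS4m : MeasurableSet S4 :=
    hAo.measurableSet.inter (isClosed_le hnSs.continuous continuous_const).measurableSet
  set V : ℝ≥0∞ := volume {v : Fin n → ℂ | qG Gm v ≤ 4} with hV
  have hS4vol : μ S4 ≤ V := by
    have hS4s : S4 ⊆ e.source := fun x hx => (hAmem x hx.1).1
    have h1 : μ S4 = chm e S4 := by
      rw [chm, ← hμ e he, Measure.restrict_apply hS4m, inter_eq_left.2 hS4s]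
    rw [h1, chm_apply_sub he hS4m hS4s, hV]
    have h2 : (cp '' S4 : Set (Fin n → ℂ)) ⊆ (fun z => z - z0) ⁻¹' {v | qG Gm v ≤ 4} := by
      rintro _ ⟨x, hx, rfl⟩
      have : nS f x ≤ 4 := hx.2
      rwa [hnS] at this
    refine (measure_mono h2).trans (le_of_eq ?_)
    have h3 := measure_preimage_add_right (volume : Measure (Fin n → ℂ)) (-z0)
      {v : Fin n → ℂ | qG Gm v ≤ 4}
    simpa only [sub_eq_add_neg] using h3
  have hKint : ∀ k, ∫⁻ x, ENNReal.ofReal (kap k x * Real.exp (-φ k x)) ∂μ ≤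
      ENNReal.ofReal (8 * Cθ ^ 2 * Real.exp (c - Φ x0)) * V := by
    intro k
    have h1 : ∀ x, ENNReal.ofReal (kap k x * Real.exp (-φ k x)) ≤
        S4.indicator (fun _ => ENNReal.ofReal (8 * Cθ ^ 2 * Real.exp (c - Φ x0))) x := by
      intro x
      by_cases h2 : x ∈ A ∧ 1 ≤ nS f x ∧ nS f x ≤ 4
      · have hxS : x ∈ S4 := ⟨h2.1, h2.2.2⟩
        rw [indicator_of_mem hxS]
        apply ENNReal.ofReal_le_ofReal
        simp only [hkap]
        rw [if_pos h2]
        have h3 : 0 ≤ ξ k x := by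
          simp only [hξ, loc_mem h2.1]
          have h4 : η 0 ≤ η (lg f (δ k) x) := by
            apply hηm
            exact Real.log_nonneg (by linarith [hδ0 k, h2.2.1])
          rw [hη0 0 le_rfl] at h4
          exact h4
        have h5 : Real.exp (-φ k x) ≤ Real.exp (-Φ x) := by
          apply Real.exp_le_exp.2
          simp only [hφ]
          have : 0 ≤ (n : ℝ) * ξ k x := by positivity
          linarith
        calc 8 * Cθ ^ 2 * Real.exp ((H (cp x - z0)).re) * Real.exp (-φ k x)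
            ≤ 8 * Cθ ^ 2 * Real.exp ((H (cp x - z0)).re) * Real.exp (-Φ x) := by gcongr
          _ = 8 * Cθ ^ 2 * (Real.exp ((H (cp x - z0)).re) * Real.exp (-Φ x)) := by ring
          _ ≤ _ := by
            have := hbound x h2.1 h2.2.2
            gcongr
      · simp only [hkap]
        rw [if_neg h2, zero_mul, ENNReal.ofReal_zero]
        exact zero_le
    calc _ ≤ ∫⁻ x, S4.indicator (fun _ => ENNReal.ofReal (8 * Cθ ^ 2 * Real.exp (c - Φ x0))) x ∂μ :=
          lintegral_mono h1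
      _ ≤ ENNReal.ofReal (8 * Cθ ^ 2 * Real.exp (c - Φ x0)) * μ S4 :=
          lintegral_indicator_const_le _ _
      _ ≤ _ := by gcongr
  obtain ⟨F, hF, hFK⟩ := engineP n M μ hμ ρ hρ hρc hρL φ hφs hφanti hφL Gf hGs kap hkap1 _ hKint
  have hFc : Continuous F := Crest.Agent.R271.T7a297.Hol.continuous hF
  have hGx0 : Gf x0 = 1 := by
    simp only [hGf, loc_mem hx0A]
    have h1 : nS f x0 = 0 := by
      rw [hnS, hcpx0, sub_self]; simp [qG]
    rw [h1, hθ1 0 (by norm_num)]
    simp only [hE, hcpx0, sub_self, hH0]; simp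
  have hGc' : Continuous Gf := hGs.continuous
  have hVfin : V ≠ ∞ := by
    -- the set is bounded
    have h1 : {v : Fin n → ℂ | qG Gm v ≤ 4} ⊆ closedBall 0 r0 := by
      intro v hv
      rw [mem_closedBall_zero_iff]
      by_contra h
      push Not at h
      have h2 := hGR v h
      have h3 : qG Gm v ≤ 4 := hv
      linarith [le_max_left 5 (Real.exp T)]
    exact ((measure_mono h1).trans_lt measure_closedBall_lt_top).ne
  set sup : M → ℝ≥0∞ := fun x => ⨆ k, ENNReal.ofReal (Real.exp (-φ k x)) with hsup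
  have hsupm : Measurable sup := by
    apply Measurable.iSup
    intro k
    exact (Real.continuous_exp.comp (hφs k).continuous.neg).measurable.ennreal_ofReal
  -- the value at the centre
  have hval : F x0 - Gf x0 = 0 := by
    obtain ⟨b, hb, hbq⟩ := qG_le Gm
    have hc1 : ContinuousAt (fun z => Φ (e.symm z)) z0 :=
      hΦ.continuous.continuousAt.comp (e.symm.continuousAt (by simpa using hz0t))
    have hev1 : ∀ᶠ z in 𝓝 z0, Φ (e.symm z) < Φ x0 + 1 :=
      hc1.eventually (gt_mem_nhds (lt_add_one _))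
    have hc2 : ContinuousAt (fun z => qG Gm (z - z0)) z0 :=
      ((qG_cont Gm).comp (continuous_id.sub continuous_const)).continuousAt
    have hev2 : ∀ᶠ z in 𝓝 z0, qG Gm (z - z0) < 1 / 2 := by
      refine hc2.eventually (gt_mem_nhds ?_)
      change qG Gm (z0 - z0) < 1 / 2
      rw [sub_self]
      simp [qG]
    have hev3 : ∀ᶠ z in 𝓝 z0, z ∈ ball z0 r1 := ball_mem_nhds z0 hr1
    obtain ⟨r, hr, hball⟩ := Metric.eventually_nhds_iff_ball.1 (hev1.and (hev2.and hev3))
    refine value_zero hn hμ he hz0t (u := fun x => F x - Gf x) (hFc.sub hGc') hsupm hr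
      (Real.exp_pos (-Φ x0 - 1)) hb ?_ ?_
    · intro z hz hzt
      obtain ⟨h1, h2, h3⟩ := hball z hz
      set x : M := e.symm z with hx
      have hxA : x ∈ A := mem_image_of_mem _ h3
      have hcpx : cp x = z := he.cp_symm hzt
      have hS : nS f x = qG Gm (z - z0) := by rw [hnS, hcpx]
      have hlim : Tendsto (fun k : ℕ => ENNReal.ofReal (Real.exp (-φ (k + 1) x))) atTop
          (𝓝 (ENNReal.ofReal (Real.exp (-Φ x)) * (ENNReal.ofReal (nS f x)) ^ (-(n : ℝ)))) := by
        have h4 : ∀ k : ℕ, ENNReal.ofReal (Real.exp (-φ (k + 1) x)) =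
            ENNReal.ofReal (Real.exp (-Φ x)) *
              (ENNReal.ofReal (nS f x + δ (k + 1))) ^ (-(n : ℝ)) := by
          intro k
          have h5 : δ (k + 1) ≤ 1 / 2 := by
            simp only [hδ]
            refine one_div_le_one_div_of_le (by norm_num) ?_
            push_cast
            have : (0 : ℝ) ≤ k := Nat.cast_nonneg k
            linarith
          have h6 : lg f (δ (k + 1)) x ≤ 0 :=
            Real.log_nonpos (hp (k + 1) x).le (by rw [hS]; linarith)
          have h7 : φ (k + 1) x = Φ x + n * lg f (δ (k + 1)) x := by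
            simp only [hφ, hξ, loc_mem hxA]
            rw [hη0 _ h6]
          rw [h7, neg_add, Real.exp_add, ENNReal.ofReal_mul (Real.exp_pos _).le,
            Crest.Agent.R271.G792.exp_lg f _ _ x (hp (k + 1) x)]
        simp only [h4]
        refine ENNReal.Tendsto.const_mul ?_ (Or.inr ENNReal.ofReal_ne_top)
        have h5 : Tendsto (fun k : ℕ => nS f x + δ (k + 1)) atTop (𝓝 (nS f x + 0)) := by
          refine tendsto_const_nhds.add ?_
          exact (tendsto_add_atTop_iff_nat (f := δ) 1).2 tendsto_one_div_add_atTop_nhds_zero_nat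
        rw [add_zero] at h5
        exact ((ENNReal.continuous_rpow_const (y := -(n : ℝ))).tendsto _).comp
          ((ENNReal.continuous_ofReal.tendsto _).comp h5)
      have h8 : ENNReal.ofReal (Real.exp (-Φ x)) * (ENNReal.ofReal (nS f x)) ^ (-(n : ℝ)) ≤
          sup x := le_of_tendsto' hlim fun k =>
        le_iSup (fun k => ENNReal.ofReal (Real.exp (-φ k x))) (k + 1)
      refine le_trans ?_ h8
      rw [ENNReal.rpow_neg, ENNReal.rpow_neg]
      gcongr
      · linarith
      · rw [hS]; exact hbq _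
    · refine ne_top_of_le_ne_top ?_ hFK
      finiteness
  have hFx0 : F x0 = 1 := by rw [← hGx0]; exact sub_eq_zero.1 hval
  refine ⟨F, hF, hFx0, ?_⟩
  -- the norm
  have hsupge : ∀ x, ENNReal.ofReal (Real.exp (-Φ x)) ≤
      ENNReal.ofReal (Real.exp (n * T)) * sup x := by
    intro x
    have h1 : ENNReal.ofReal (Real.exp (-φ 0 x)) ≤ sup x :=
      le_iSup (fun k => ENNReal.ofReal (Real.exp (-φ k x))) 0
    calc ENNReal.ofReal (Real.exp (-Φ x))
        ≤ ENNReal.ofReal (Real.exp (n * T) * Real.exp (-φ 0 x)) := by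
          apply ENNReal.ofReal_le_ofReal
          rw [← Real.exp_add]
          apply Real.exp_le_exp.2
          simp only [hφ]
          have : (n : ℝ) * ξ 0 x ≤ n * T := by gcongr; exact hξT 0 x
          linarith
      _ = ENNReal.ofReal (Real.exp (n * T)) * ENNReal.ofReal (Real.exp (-φ 0 x)) :=
          ENNReal.ofReal_mul (Real.exp_pos _).le
      _ ≤ _ := by gcongr
  have hGn : ∀ x, ENNReal.ofReal (‖Gf x‖ ^ 2) * ENNReal.ofReal (Real.exp (-Φ x)) ≤
      S4.indicator (fun _ => ENNReal.ofReal (Real.exp (c - Φ x0))) x := by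
    intro x
    by_cases hx : x ∈ S4
    · rw [indicator_of_mem hx, ← ENNReal.ofReal_mul (by positivity)]
      apply ENNReal.ofReal_le_ofReal
      simp only [hGf, loc_mem hx.1]
      rw [norm_mul, mul_pow, hEn, Complex.norm_real, Real.norm_eq_abs, sq_abs]
      have h1 := hθ01 (nS f x)
      have h2 : θ (nS f x) ^ 2 ≤ 1 := by nlinarith
      have h3 := hbound x hx.1 hx.2
      have h4 : 0 ≤ Real.exp ((H (cp x - z0)).re) * Real.exp (-Φ x) := by positivity
      calc θ (nS f x) ^ 2 * Real.exp ((H (cp x - z0)).re) * Real.exp (-Φ x)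
          = θ (nS f x) ^ 2 * (Real.exp ((H (cp x - z0)).re) * Real.exp (-Φ x)) := by ring
        _ ≤ 1 * (Real.exp ((H (cp x - z0)).re) * Real.exp (-Φ x)) := by gcongr
        _ ≤ _ := by rw [one_mul]; exact h3
    · have h1 : Gf x = 0 := by
        by_cases hxA : x ∈ A
        · simp only [hGf, loc_mem hxA]
          have h2 : 4 ≤ nS f x := by
            by_contra h
            push Not at h
            exact hx ⟨hxA, h.le⟩
          rw [hθ4 _ h2]; simp
        · simp only [hGf, loc_notMem hxA]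
      rw [h1]; simp
  have hsplit : ∀ x, ENNReal.ofReal (‖F x‖ ^ 2 * Real.exp (-Φ x)) ≤
      2 * ENNReal.ofReal (Real.exp (n * T)) * (ENNReal.ofReal (‖F x - Gf x‖ ^ 2) * sup x) +
        2 * S4.indicator (fun _ => ENNReal.ofReal (Real.exp (c - Φ x0))) x := by
    intro x
    rw [ENNReal.ofReal_mul (by positivity)]
    calc ENNReal.ofReal (‖F x‖ ^ 2) * ENNReal.ofReal (Real.exp (-Φ x))
        ≤ (2 * ENNReal.ofReal (‖F x - Gf x‖ ^ 2) + 2 * ENNReal.ofReal (‖Gf x‖ ^ 2)) *
          ENNReal.ofReal (Real.exp (-Φ x)) := by gcongr; exact ofReal_sq_le _ _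
      _ = 2 * (ENNReal.ofReal (‖F x - Gf x‖ ^ 2) * ENNReal.ofReal (Real.exp (-Φ x))) +
          2 * (ENNReal.ofReal (‖Gf x‖ ^ 2) * ENNReal.ofReal (Real.exp (-Φ x))) := by ring
      _ ≤ 2 * (ENNReal.ofReal (‖F x - Gf x‖ ^ 2) * (ENNReal.ofReal (Real.exp (n * T)) * sup x)) +
          2 * S4.indicator (fun _ => ENNReal.ofReal (Real.exp (c - Φ x0))) x := by
          gcongr
          · exact hsupge x
          · exact hGn x
      _ = _ := by ring
  have hm1 : Measurable fun x => ENNReal.ofReal (‖F x - Gf x‖ ^ 2) * sup x :=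
    ((((hFc.sub hGc').norm).pow 2).measurable.ennreal_ofReal).mul hsupm
  have hfinal : ∫⁻ x, ENNReal.ofReal (‖F x‖ ^ 2 * Real.exp (-Φ x)) ∂μ ≤
      2 * ENNReal.ofReal (Real.exp (n * T)) *
        (2 * (ENNReal.ofReal (8 * Cθ ^ 2 * Real.exp (c - Φ x0)) * V)) +
      2 * (ENNReal.ofReal (Real.exp (c - Φ x0)) * V) := by
    calc _ ≤ ∫⁻ x, (2 * ENNReal.ofReal (Real.exp (n * T)) *
          (ENNReal.ofReal (‖F x - Gf x‖ ^ 2) * sup x) +
          2 * S4.indicator (fun _ => ENNReal.ofReal (Real.exp (c - Φ x0))) x) ∂μ :=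
          lintegral_mono hsplit
      _ = 2 * ENNReal.ofReal (Real.exp (n * T)) *
            ∫⁻ x, ENNReal.ofReal (‖F x - Gf x‖ ^ 2) * sup x ∂μ +
          2 * ∫⁻ x, S4.indicator (fun _ => ENNReal.ofReal (Real.exp (c - Φ x0))) x ∂μ := by
          rw [lintegral_add_left (hm1.const_mul _), lintegral_const_mul _ hm1,
            lintegral_const_mul' _ _ (by finiteness)]
      _ ≤ _ := by
          gcongr
          refine (lintegral_indicator_const_le _ _).trans ?_
          gcongr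
  refine hfinal.trans (le_of_eq ?_)
  have e1 : ENNReal.ofReal ((4 * Real.exp (n * T) * (8 * Cθ ^ 2) + 2) * Real.exp (c - Φ x0)) =
      2 * ENNReal.ofReal (Real.exp (n * T)) *
        (2 * (ENNReal.ofReal (8 * Cθ ^ 2 * Real.exp (c - Φ x0)))) +
      2 * (ENNReal.ofReal (Real.exp (c - Φ x0))) := by
    have h2 : (2 : ℝ≥0∞) = ENNReal.ofReal 2 := by simp
    rw [h2, ← ENNReal.ofReal_mul (by norm_num), ← ENNReal.ofReal_mul (by norm_num),
      ← ENNReal.ofReal_mul (by positivity), ← ENNReal.ofReal_mul (by norm_num),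
      ← ENNReal.ofReal_add (by positivity) (by positivity)]
    congr 1; ring
  rw [e1]; ring

end Crest.Agent.R269.Peak3_976
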