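import Crest.Agent.R269.Peak3_976

/-!
# R269, leaf PK (helper976): peak sections, part 4: `peak` (PK1)
-/

set_option autoImplicit false
set_option linter.unusedSectionVars false

noncomputable section

open Set Filter Topology Complex MeasureTheory Metric
open scoped ENNReal ComplexConjugate Matrix ComplexOrder

namespace Crest.Agent.R269.Peak4_976

open Crest.Agent.R271.Ho51 hiding Hol
open Crest.Agent.R271.W792 Crest.Agent.R269.Peak1_976 Crest.Agent.R269.Peak2_976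
open Crest.Agent.R276.LM2_976 (hpart hpart_zero hpart_re taylor2 lcont qcont)
open Crest.Agent.R276.LM3_976 (hq hq_gram hq_smul exists_gram volume_herm)

theorem hpart_contDiff {E : Type*} [NormedAddCommGroup E] [NormedSpace ℂ E] (l : E →L[ℝ] ℝ)
    (B : E →L[ℝ] E →L[ℝ] ℝ) : ContDiff ℂ (⊤ : ℕ∞) (hpart l B) := by
  have h1 : ContDiff ℂ (⊤ : ℕ∞) (fun w => qcont B w w) :=
    (qcont B).contDiff.clm_apply contDiff_id
  exact (lcont l).contDiff.add (contDiff_const.mul h1)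

variable {n : ℕ} {M : Type*} [TopologicalSpace M] [RDom n M]

/-- the matrix of the Levi form: `hq (PL φ x) w = Levi φ x w` -/
def PL (φ : M → ℝ) (x : M) : Matrix (Fin n) (Fin n) ℂ := Matrix.of fun k j => Lv φ x j k

lemma hq_PL (φ : M → ℝ) (x : M) (w : Fin n → ℂ) : hq (PL φ x) w = Levi φ x w := by
  unfold hq Levi
  congr 1
  simp only [dotProduct, Matrix.mulVec, PL, Matrix.of_apply, Pi.star_apply, Complex.star_def]
  rw [Finset.sum_comm]
  refine Finset.sum_congr rfl fun k _ => ?_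
  rw [Finset.mul_sum]
  refine Finset.sum_congr rfl fun j _ => by ring

lemma PL_herm {φ : M → ℝ} (hφ : Sm φ) (x : M) : (PL φ x).IsHermitian := by
  ext k j
  simp only [PL, Matrix.conjTranspose_apply, Matrix.of_apply, Complex.star_def]
  exact Lv_conj hφ x k j

lemma PL_posDef {φ : M → ℝ} (hφ : Sm φ) {x : M} (h : ∀ w, w ≠ 0 → 0 < Levi φ x w) :
    (PL φ x).PosDef := by
  refine Matrix.PosDef.of_dotProduct_mulVec_pos (PL_herm hφ x) fun w hw => ?_
  have h1 := h w hw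
  rw [← hq_PL] at h1
  have h2 : ((hq (PL φ x) w : ℝ) : ℂ) = star w ⬝ᵥ (PL φ x *ᵥ w) := by
    rw [hq]
    have h3 := Levi_eq hφ x w
    rw [← hq_PL, hq] at h3
    rw [h3]
    simp only [dotProduct, Matrix.mulVec, PL, Matrix.of_apply, Pi.star_apply, Complex.star_def]
    rw [Finset.sum_comm]
    refine Finset.sum_congr rfl fun k _ => ?_
    rw [Finset.mul_sum]
    refine Finset.sum_congr rfl fun j _ => by ring
  rw [← h2]
  exact_mod_cast h1

lemma sm_Lv {φ : M → ℝ} (hφ : Sm φ) (j k : Fin n) : Sm (fun x => Lv φ x j k) :=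
  (hφ.ofReal.db k).dz j

/-- `|Levi φ x w| ≤ (Σ |Lv|) ‖w‖²` -/
lemma Levi_diff_le (φ : M → ℝ) (x y : M) (w : Fin n → ℂ) :
    |Levi φ x w - Levi φ y w| ≤ (∑ j, ∑ k, ‖Lv φ x j k - Lv φ y j k‖) * ‖w‖ ^ 2 := by
  unfold Levi
  rw [← Complex.sub_re]
  refine (Complex.abs_re_le_norm _).trans ?_
  rw [← Finset.sum_sub_distrib, Finset.sum_mul]
  refine (norm_sum_le _ _).trans (Finset.sum_le_sum fun j _ => ?_)
  rw [← Finset.sum_sub_distrib, Finset.sum_mul]
  refine (norm_sum_le _ _).trans (Finset.sum_le_sum fun k _ => ?_)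
  rw [← sub_mul, ← sub_mul, norm_mul, norm_mul, RCLike.norm_conj, mul_assoc]
  have h1 := norm_le_pi_norm w j
  have h2 := norm_le_pi_norm w k
  have h3 : ‖w j‖ * ‖w k‖ ≤ ‖w‖ ^ 2 := by
    rw [sq]; exact mul_le_mul h1 h2 (norm_nonneg _) (norm_nonneg _)
  gcongr

lemma Levi_abs_le (φ : M → ℝ) (x : M) (w : Fin n → ℂ) :
    |Levi φ x w| ≤ (∑ j, ∑ k, ‖Lv φ x j k‖) * ‖w‖ ^ 2 := by
  unfold Levi
  refine (Complex.abs_re_le_norm _).trans ?_
  rw [Finset.sum_mul]
  refine (norm_sum_le _ _).trans (Finset.sum_le_sum fun j _ => ?_)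
  rw [Finset.sum_mul]
  refine (norm_sum_le _ _).trans (Finset.sum_le_sum fun k _ => ?_)
  rw [norm_mul, norm_mul, RCLike.norm_conj, mul_assoc]
  have h1 := norm_le_pi_norm w j
  have h2 := norm_le_pi_norm w k
  have h3 : ‖w j‖ * ‖w k‖ ≤ ‖w‖ ^ 2 := by
    rw [sq]; exact mul_le_mul h1 h2 (norm_nonneg _) (norm_nonneg _)
  gcongr

/-- continuity of the Levi form, uniformly in the direction -/
lemma eventually_Levi {φ : M → ℝ} (hφ : Sm φ) (x : M) {ε : ℝ} (hε : 0 < ε) :
    ∀ᶠ y in 𝓝 x, ∀ w, |Levi φ y w - Levi φ x w| ≤ ε * ‖w‖ ^ 2 := by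
  have hc : Continuous fun y => ∑ j, ∑ k, ‖Lv φ y j k - Lv φ x j k‖ :=
    continuous_finsetSum _ fun j _ => continuous_finsetSum _ fun k _ =>
      ((sm_Lv hφ j k).continuous.sub continuous_const).norm
  have h0 : (fun y => ∑ j, ∑ k, ‖Lv φ y j k - Lv φ x j k‖) x < ε := by simpa using hε
  filter_upwards [hc.continuousAt.eventually (gt_mem_nhds h0)] with y hy w
  exact (Levi_diff_le φ y x w).trans (by gcongr)

/-- second derivatives in a chart and the Levi form -/
lemma Levi_chart {φ : M → ℝ} (hφ : Sm φ) {e : OpenPartialHomeomorph M (Fin n → ℂ)} (he : IsCh e)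
    {z : Fin n → ℂ} (hz : z ∈ e.target) (w : Fin n → ℂ) :
    Levi φ (e.symm z) w = (1 / 4) * (fderiv ℝ (fderiv ℝ (φ ∘ e.symm)) z w w +
      fderiv ℝ (fderiv ℝ (φ ∘ e.symm)) z (Complex.I • w) (Complex.I • w)) := by
  rw [Levi_eq_lev hφ]
  unfold lev
  have h : ∀ v : Fin n → ℂ, D (fun y => D φ y v) (e.symm z) v =
      fderiv ℝ (fderiv ℝ (φ ∘ e.symm)) z v v := by
    intro v
    rw [D_symm he hz]
    have h1 : ((fun y => D φ y v) ∘ e.symm) =ᶠ[𝓝 z] fun y => fderiv ℝ (φ ∘ e.symm) y v := by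
      filter_upwards [e.open_target.mem_nhds hz] with y hy
      simp only [Function.comp_apply]
      rw [D_symm he hy]
    rw [h1.fderiv_eq]
    have h2 : DifferentiableAt ℝ (fderiv ℝ (φ ∘ e.symm)) z := by
      have h3 := hφ.contDiffAt' he hz
      exact ((h3.fderiv_right (m := 1) (by
        rw [one_add_one_eq_two]; exact two_le_top')).differentiableAt (by norm_num))
    have h4 : HasFDerivAt (fun y => fderiv ℝ (φ ∘ e.symm) y v)
        ((ContinuousLinearMap.apply ℝ ℝ v).comp (fderiv ℝ (fderiv ℝ (φ ∘ e.symm)) z)) z :=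
      (ContinuousLinearMap.apply ℝ ℝ v).hasFDerivAt.comp z h2.hasFDerivAt
    rw [h4.fderiv]
    simp
  rw [h, h]

end Crest.Agent.R269.Peak4_976
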