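import Crest.Agent.R269.Peak4_976

/-!
# R269, leaf PK (helper976): peak sections, part 5: `peak` (PK1)
-/

set_option autoImplicit false
set_option linter.unusedSectionVars false

noncomputable section

open Set Filter Topology Complex MeasureTheory Metric
open scoped ENNReal ComplexConjugate Matrix ComplexOrder

namespace Crest.Agent.R269.Peak5_976

open Crest.Agent.R271.Ho51 hiding Hol
open Crest.Agent.R271.W792 Crest.Agent.R269.Peak1_976 Crest.Agent.R269.Peak2_976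
open Crest.Agent.R269.Peak3_976 Crest.Agent.R269.Peak4_976
open Crest.Agent.R276.LM2_976 (hpart hpart_zero hpart_re taylor2 lcont qcont)
open Crest.Agent.R276.LM3_976 (hq hq_gram hq_smul hq_continuous exists_gram volume_herm)

/-- a positive definite Hermitian form dominates the norm -/
theorem exists_coercive {n : ℕ} (P : Matrix (Fin n) (Fin n) ℂ)
    (hP : ∀ w, w ≠ 0 → 0 < hq P w) : ∃ δ : ℝ, 0 < δ ∧ ∀ w, δ * ‖w‖ ^ 2 ≤ hq P w := by
  have h0 : hq P 0 = 0 := by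
    have := hq_smul P 0 0
    simpa using this
  rcases (sphere (0 : Fin n → ℂ) 1).eq_empty_or_nonempty with hs | hs
  · refine ⟨1, one_pos, fun w => ?_⟩
    by_cases hw : w = 0
    · rw [hw, h0]; simp
    · exfalso
      have hn : ‖w‖ ≠ 0 := norm_ne_zero_iff.2 hw
      have h1 : ((‖w‖⁻¹ : ℝ) : ℂ) • w ∈ sphere (0 : Fin n → ℂ) 1 := by
        rw [mem_sphere_zero_iff_norm, norm_smul, Complex.norm_real, norm_inv, norm_norm,
          inv_mul_cancel₀ hn]
      rw [hs] at h1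
      exact h1
  · obtain ⟨w0, hw0, hmin⟩ := (isCompact_sphere (0 : Fin n → ℂ) 1).exists_isMinOn hs
      (hq_continuous P).continuousOn
    have hw0' : w0 ≠ 0 := by
      intro h
      rw [h] at hw0
      simp at hw0
    refine ⟨hq P w0, hP w0 hw0', fun w => ?_⟩
    by_cases hw : w = 0
    · rw [hw, h0]; simp
    · have hn : ‖w‖ ≠ 0 := norm_ne_zero_iff.2 hw
      have h1 : ((‖w‖⁻¹ : ℝ) : ℂ) • w ∈ sphere (0 : Fin n → ℂ) 1 := by
        rw [mem_sphere_zero_iff_norm, norm_smul, Complex.norm_real, norm_inv, norm_norm,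
          inv_mul_cancel₀ hn]
      have h2 : hq P w0 ≤ hq P (((‖w‖⁻¹ : ℝ) : ℂ) • w) := hmin h1
      rw [hq_smul, Complex.norm_real, norm_inv, norm_norm] at h2
      have h3 : 0 < ‖w‖ ^ 2 := by positivity
      calc hq P w0 * ‖w‖ ^ 2 ≤ (‖w‖⁻¹ ^ 2 * hq P w) * ‖w‖ ^ 2 := by gcongr
        _ = hq P w := by field_simp

/-- volume of the Euclidean unit ball of `ℂⁿ` -/
def vB (n : ℕ) : ℝ≥0∞ := volume {w : Fin n → ℂ | ∑ i, ‖w i‖ ^ 2 < 1}

theorem vB_lt_top (n : ℕ) : vB n < ∞ := by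
  have h1 : {w : Fin n → ℂ | ∑ i, ‖w i‖ ^ 2 < 1} ⊆ closedBall 0 1 := by
    intro w hw
    rw [mem_closedBall_zero_iff, pi_norm_le_iff_of_nonneg zero_le_one]
    intro i
    have h2 : ‖w i‖ ^ 2 ≤ ∑ i, ‖w i‖ ^ 2 :=
      Finset.single_le_sum (f := fun i => ‖w i‖ ^ 2) (fun _ _ => by positivity) (Finset.mem_univ i)
    have h3 : ∑ i, ‖w i‖ ^ 2 < 1 := hw
    nlinarith [norm_nonneg (w i)]
  exact (measure_mono h1).trans_lt measure_closedBall_lt_top

theorem Levi_comb {n : ℕ} {M : Type*} [TopologicalSpace M] [RDom n M] {ψ ψ0 : M → ℝ}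
    (hψ : Sm ψ) (hψ0 : Sm ψ0) (k : ℝ) (x : M) (w : Fin n → ℂ) :
    Levi (fun y => k * ψ y + ψ0 y) x w = k * Levi ψ x w + Levi ψ0 x w := by
  have h1 : Sm (fun y => k * ψ y) := (Sm.const k).mulR hψ
  rw [Levi_eq_lev (h1.add hψ0), Levi_eq_lev hψ, Levi_eq_lev hψ0, lev_add h1 hψ0,
    lev_const_mul hψ]

/-- **PK1: peak sections with the determinant constant.** -/
theorem peak {n : ℕ} (hn : 0 < n) : ∃ C : ℝ, 0 < C ∧
    ∀ (M : Type) [TopologicalSpace M] [T2Space M] [SecondCountableTopology M] [RDom n M]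
      [MeasurableSpace M] [BorelSpace M] (μ : Measure M), IsLeb μ →
    ∀ ρ : M → ℝ, Sm ρ → (∀ c, IsCompact {x | ρ x ≤ c}) → (∀ x w, nsq w ≤ Levi ρ x w) →
    ∀ ψ ψ0 : M → ℝ, Sm ψ → Sm ψ0 → ∀ k1 : ℝ,
      (∀ k : ℝ, k1 ≤ k → ∀ x w, 0 ≤ Levi (fun y => k * ψ y + ψ0 y) x w) →
    ∀ x0 : M, (∀ w, w ≠ 0 → 0 < Levi ψ x0 w) →
      ∃ k0 : ℝ, 0 < k0 ∧ ∀ k : ℝ, k0 ≤ k → ∃ F : M → ℂ, Crest.Agent.R271.Ho51.Hol F ∧ F x0 = 1 ∧
        ∫⁻ x, ENNReal.ofReal (‖F x‖ ^ 2 * Real.exp (-(k * ψ x + ψ0 x))) ∂μ ≤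
          ENNReal.ofReal (C * Real.exp (-(k * ψ x0 + ψ0 x0)) / (k ^ n * (PL ψ x0).det.re)) := by
  obtain ⟨C0, R, hC0, hR, hcore⟩ := pk_core hn
  refine ⟨C0 * Real.exp 2 * 5 ^ n * ((vB n).toReal + 1), by positivity, ?_⟩
  intro M _ _ _ _ _ _ μ hμ ρ hρ hρc hρL ψ ψ0 hψ hψ0 k1 hk1 x0 hpos
  set e := ch x0 with he
  have hech : IsCh e := isCh_ch x0
  set z0 : Fin n → ℂ := cp x0 with hz0
  have hz0t : z0 ∈ e.target := hech.cp_mem (mem_ch x0)
  have hsymm : e.symm z0 = x0 := symm_cp x0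
  have hPD : (PL ψ x0).PosDef := PL_posDef hψ hpos
  obtain ⟨δ, hδ, hδq⟩ := exists_coercive (PL ψ x0) (fun w hw => by rw [hq_PL]; exact hpos w hw)
  obtain ⟨G0, hG0⟩ := exists_gram hPD.posSemidef
  have hqG : ∀ w, qG G0 w = Levi ψ x0 w := by
    intro w
    rw [← hq_PL, hG0, hq_gram]; rfl
  have hδL : ∀ w, δ * ‖w‖ ^ 2 ≤ Levi ψ x0 w := fun w => by rw [← hq_PL]; exact hδq w
  -- the local conditions
  have hct : ContinuousAt e.symm z0 := e.symm.continuousAt (by simpa using hz0t)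
  have hct' : Tendsto e.symm (𝓝 z0) (𝓝 x0) := by
    have := hct
    rwa [ContinuousAt, hsymm] at this
  have hev1 := hct'.eventually (eventually_Levi hψ x0 (ε := δ / 8) (by positivity))
  have hev2 := hct'.eventually (eventually_Levi hψ0 x0 (ε := 1) one_pos)
  have hev3 : ∀ᶠ z in 𝓝 z0, ψ0 x0 - 1 < ψ0 (e.symm z) :=
    hct'.eventually (hψ0.continuous.continuousAt.eventually (lt_mem_nhds (by linarith)))
  have hev4 : ∀ᶠ z in 𝓝 z0, z ∈ e.target := e.open_target.mem_nhds hz0t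
  obtain ⟨ra, hra, hball⟩ := Metric.eventually_nhds_iff_ball.1
    (hev1.and (hev2.and (hev3.and hev4)))
  have hψc : ContDiffOn ℝ 2 (ψ ∘ e.symm) e.target :=
    (hψ.contDiffOn hech).of_le two_le_top'
  obtain ⟨rb, hrb, hT⟩ := taylor2 (K := {z0}) e.open_target isCompact_singleton
    (by simpa using hz0t) hψc (ε := δ / 4) (by positivity)
  set r1 : ℝ := min ra rb / 2 with hr1
  have hr1p : 0 < r1 := by have := lt_min hra hrb; positivity
  have hr1a : r1 < ra := by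
    have h1 := min_le_left ra rb
    have h2 := lt_min hra hrb
    rw [hr1]; linarith
  have hr1b : r1 < rb := by
    have h1 := min_le_right ra rb
    have h2 := lt_min hra hrb
    rw [hr1]; linarith
  set r0 : ℝ := r1 / 2 with hr0
  have hr0p : 0 < r0 := by positivity
  have hr01 : r0 < r1 := by rw [hr0]; linarith
  have hBt : closedBall z0 r1 ⊆ e.target := fun z hz =>
    (hball z (closedBall_subset_ball hr1a hz)).2.2.2
  set C1 : ℝ := ∑ j, ∑ k, ‖Lv ψ0 x0 j k‖ with hC1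
  have hC1p : 0 ≤ C1 := Finset.sum_nonneg fun _ _ => Finset.sum_nonneg fun _ _ => norm_nonneg _
  set k0 : ℝ := max (max k1 1) (max (R / (δ * r0 ^ 2)) (8 * (C1 + 1) / δ)) with hk0
  have hk0p : 0 < k0 := lt_of_lt_of_le one_pos ((le_max_right k1 1).trans (le_max_left _ _))
  refine ⟨k0, hk0p, fun k hk => ?_⟩
  have hkp : 0 < k := hk0p.trans_le hk
  have hkk1 : k1 ≤ k := ((le_max_left k1 1).trans (le_max_left _ _)).trans hk
  have hka : R ≤ k * (δ * r0 ^ 2) := by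
    have h1 : R / (δ * r0 ^ 2) ≤ k := ((le_max_left _ _).trans (le_max_right _ _)).trans hk
    rwa [div_le_iff₀ (by positivity)] at h1
  have hkb : 8 * (C1 + 1) ≤ k * δ := by
    have h1 : 8 * (C1 + 1) / δ ≤ k := ((le_max_right _ _).trans (le_max_right _ _)).trans hk
    rwa [div_le_iff₀ hδ] at h1
  set Gm : Matrix (Fin n) (Fin n) ℂ := ((Real.sqrt k : ℝ) : ℂ) • G0 with hGm
  have hqGm : ∀ w, qG Gm w = k * Levi ψ x0 w := by
    intro w
    rw [← hqG]
    unfold qG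
    rw [Finset.mul_sum]
    refine Finset.sum_congr rfl fun i _ => ?_
    rw [hGm, Matrix.smul_mulVec, Pi.smul_apply, norm_smul, mul_pow, Complex.norm_real,
      Real.norm_eq_abs, sq_abs, Real.sq_sqrt hkp.le]
  set Φ : M → ℝ := fun y => k * ψ y + ψ0 y with hΦ
  have hΦs : Sm Φ := ((Sm.const k).mulR hψ).add hψ0
  set H : (Fin n → ℂ) → ℂ := fun v => (k : ℂ) * hpart (fderiv ℝ (ψ ∘ e.symm) z0)
    (fderiv ℝ (fderiv ℝ (ψ ∘ e.symm)) z0) v with hH
  obtain ⟨F, hF1, hF2, hF3⟩ := hcore M μ hμ ρ hρ hρc hρL Φ hΦs (hk1 k hkk1) e hech z0 r0 r1 hr0p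
    hr01 hBt Gm (by
      intro v hv
      rw [hqGm]
      have h1 := hδL v
      have h2 : r0 ^ 2 ≤ ‖v‖ ^ 2 := by gcongr
      calc R ≤ k * (δ * r0 ^ 2) := hka
        _ ≤ k * (δ * ‖v‖ ^ 2) := by gcongr
        _ ≤ _ := by gcongr) (by
      intro z hz w
      have hz' := hball z (ball_subset_ball hr1a.le hz)
      rw [hqGm, hΦ, Levi_comb hψ hψ0]
      have h1 := (abs_le.1 (hz'.1 w)).1
      have h2 := (abs_le.1 (hz'.2.1 w)).1
      have h3 := (abs_le.1 (Levi_abs_le ψ0 x0 w)).1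
      have h4 := hδL w
      rw [← hC1] at h3
      have h5 : 0 ≤ ‖w‖ ^ 2 := by positivity
      have h6 : 8 * (C1 + 1) * ‖w‖ ^ 2 ≤ k * Levi ψ x0 w := by
        calc 8 * (C1 + 1) * ‖w‖ ^ 2 ≤ (k * δ) * ‖w‖ ^ 2 := by gcongr
          _ = k * (δ * ‖w‖ ^ 2) := by ring
          _ ≤ _ := by gcongr
      have h7 : k * (Levi ψ x0 w - δ / 8 * ‖w‖ ^ 2) ≤ k * Levi ψ (e.symm z) w := by
        apply mul_le_mul_of_nonneg_left _ hkp.le
        linarith
      have h8 : k * (δ / 8 * ‖w‖ ^ 2) ≤ k * Levi ψ x0 w / 8 := by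
        have := mul_le_mul_of_nonneg_left h4 hkp.le
        linarith
      nlinarith) 2 H
      (contDiff_const.mul (hpart_contDiff _ _))
      (by simp [hH, hpart_zero]) (by
      intro v hv hv4
      rw [mem_ball_zero_iff] at hv
      have hvz : z0 + v ∈ ball z0 ra := by
        rw [mem_ball, dist_eq_norm, add_sub_cancel_left]; exact hv.trans hr1a
      have hz' := hball (z0 + v) hvz
      obtain ⟨-, ht⟩ := hT z0 rfl v (hv.trans hr1b)
      have ht1 := (abs_le.1 ht).1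
      have hp := hpart_re (fderiv ℝ (ψ ∘ e.symm) z0) (fderiv ℝ (fderiv ℝ (ψ ∘ e.symm)) z0) v
      have hL := Levi_chart hψ hech hz0t v
      rw [hsymm] at hL
      rw [hqGm] at hv4
      have hre : (H v).re = k * (hpart (fderiv ℝ (ψ ∘ e.symm) z0)
          (fderiv ℝ (fderiv ℝ (ψ ∘ e.symm)) z0) v).re := by
        simp only [hH, Complex.re_ofReal_mul]
      have h1 := hδL v
      simp only [hΦ]
      have h2 : ψ (e.symm z0) + (hpart (fderiv ℝ (ψ ∘ e.symm) z0)
          (fderiv ℝ (fderiv ℝ (ψ ∘ e.symm)) z0) v).re + Levi ψ x0 v - δ / 4 * ‖v‖ ^ 2 ≤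
          ψ (e.symm (z0 + v)) := by
        simp only [Function.comp_apply] at ht1
        linarith
      have h3 := mul_le_mul_of_nonneg_left h2 hkp.le
      have h4 : k * (δ / 4 * ‖v‖ ^ 2) ≤ 1 := by
        have := mul_le_mul_of_nonneg_left h1 hkp.le
        linarith
      have h5 := hz'.2.2.1
      have h6 : 0 ≤ Levi ψ x0 v := le_trans (by positivity) h1
      have h7 : 0 ≤ k * Levi ψ x0 v := by positivity
      rw [hre]
      rw [hsymm] at h3 ⊢
      nlinarith)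
  refine ⟨F, hF1, ?_, ?_⟩
  · rw [hsymm] at hF2; exact hF2
  · rw [hsymm] at hF3
    refine hF3.trans ?_
    -- the volume
    have hdetpos : 0 < (PL ψ x0).det.re := by
      have := hPD.det_pos
      exact (Complex.pos_iff.1 this).1
    have hPk : (((k / 5 : ℝ) : ℂ) • PL ψ x0).PosDef :=
      hPD.smul (by exact_mod_cast (by positivity : (0 : ℝ) < k / 5))
    have hqk : ∀ v, hq (((k / 5 : ℝ) : ℂ) • PL ψ x0) v = k / 5 * Levi ψ x0 v := by
      intro v
      rw [← hq_PL]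
      unfold hq
      rw [Matrix.smul_mulVec, dotProduct_smul, smul_eq_mul, Complex.re_ofReal_mul]
    have hsub : {v : Fin n → ℂ | qG Gm v ≤ 4} ⊆
        {v | hq (((k / 5 : ℝ) : ℂ) • PL ψ x0) v < 1} := by
      intro v hv
      have h1 : qG Gm v ≤ 4 := hv
      rw [hqGm] at h1
      change hq _ v < 1
      rw [hqk]
      linarith
    have hdet : (((k / 5 : ℝ) : ℂ) • PL ψ x0).det.re = (k / 5) ^ n * (PL ψ x0).det.re := by
      rw [Matrix.det_smul, Fintype.card_fin, ← Complex.ofReal_pow, Complex.re_ofReal_mul]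
    have hvol : volume {v : Fin n → ℂ | qG Gm v ≤ 4} ≤
        ENNReal.ofReal (5 ^ n / (k ^ n * (PL ψ x0).det.re) * ((vB n).toReal + 1)) := by
      refine (measure_mono hsub).trans ?_
      rw [volume_herm hPk volume, hdet]
      have h1 : volume {w : Fin n → ℂ | ∑ i, ‖w i‖ ^ 2 < 1} ≤
          ENNReal.ofReal ((vB n).toReal + 1) := by
        have h2 : volume {w : Fin n → ℂ | ∑ i, ‖w i‖ ^ 2 < 1} = ENNReal.ofReal ((vB n).toReal) :=
          (ENNReal.ofReal_toReal (vB_lt_top n).ne).symm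
        rw [h2]
        exact ENNReal.ofReal_le_ofReal (by linarith)
      calc _ ≤ ENNReal.ofReal (((k / 5) ^ n * (PL ψ x0).det.re)⁻¹) *
            ENNReal.ofReal ((vB n).toReal + 1) := by gcongr
        _ = ENNReal.ofReal (((k / 5) ^ n * (PL ψ x0).det.re)⁻¹ * ((vB n).toReal + 1)) :=
            (ENNReal.ofReal_mul (by positivity)).symm
        _ = _ := by
            congr 1
            rw [div_pow]
            field_simp
    calc _ ≤ ENNReal.ofReal (C0 * Real.exp (2 - Φ x0)) *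
          ENNReal.ofReal (5 ^ n / (k ^ n * (PL ψ x0).det.re) * ((vB n).toReal + 1)) := by gcongr
      _ = ENNReal.ofReal (C0 * Real.exp (2 - Φ x0) *
          (5 ^ n / (k ^ n * (PL ψ x0).det.re) * ((vB n).toReal + 1))) :=
          (ENNReal.ofReal_mul (by positivity)).symm
      _ = _ := by
          congr 1
          have : Real.exp (2 - Φ x0) = Real.exp 2 * Real.exp (-(k * ψ x0 + ψ0 x0)) := by
            rw [← Real.exp_add]; congr 1
          rw [this]
          ring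

end Crest.Agent.R269.Peak5_976
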