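import Crest.Agent.R269.Peak5_976

/-!
# R269, leaf PK (helper976): peak sections, part 6: dimension (PK2)
-/

set_option autoImplicit false
set_option linter.unusedSectionVars false

noncomputable section

open Set Filter Topology Complex MeasureTheory Metric
open scoped ENNReal ComplexConjugate Matrix ComplexOrder

namespace Crest.Agent.R269.Peak6_976

open Crest.Agent.R271.Ho51 hiding Hol
open Crest.Agent.R271.W792 Crest.Agent.R269.Peak1_976 Crest.Agent.R269.Peak2_976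
open Crest.Agent.R269.Peak3_976 Crest.Agent.R269.Peak4_976 Crest.Agent.R269.Peak5_976
open Crest.Agent.R276.LM3_976 (nI exists_bergman)

variable {n : ℕ} {M : Type*} [TopologicalSpace M] [RDom n M]

theorem hol_add {F G : M → ℂ} (hF : Crest.Agent.R271.Ho51.Hol F)
    (hG : Crest.Agent.R271.Ho51.Hol G) : Crest.Agent.R271.Ho51.Hol (F + G) := fun e he =>
  (hF e he).add (hG e he)

theorem hol_smul {F : M → ℂ} (hF : Crest.Agent.R271.Ho51.Hol F) (c : ℂ) :
    Crest.Agent.R271.Ho51.Hol (c • F) := fun e he => (hF e he).const_smul c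

theorem hol_zero : Crest.Agent.R271.Ho51.Hol (0 : M → ℂ) := fun _ _ =>
  differentiableOn_const (0 : ℂ)

variable [MeasurableSpace M] [BorelSpace M]

/-- holomorphic functions with finite weighted `L²` norm -/
def W (μ : Measure M) (Φ : M → ℝ) (hΦ : Measurable Φ) : Submodule ℂ (M → ℂ) where
  carrier := {F | Crest.Agent.R271.Ho51.Hol F ∧
    ∫⁻ x, ENNReal.ofReal (‖F x‖ ^ 2 * Real.exp (-Φ x)) ∂μ < ∞}
  zero_mem' := ⟨hol_zero, by simp⟩
  add_mem' := by
    rintro F G ⟨hF, hF2⟩ ⟨hG, hG2⟩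
    refine ⟨hol_add hF hG, ?_⟩
    have h1 : ∀ x, ENNReal.ofReal (‖(F + G) x‖ ^ 2 * Real.exp (-Φ x)) ≤
        2 * ENNReal.ofReal (‖F x‖ ^ 2 * Real.exp (-Φ x)) +
          2 * ENNReal.ofReal (‖G x‖ ^ 2 * Real.exp (-Φ x)) := by
      intro x
      have h2 : (2 : ℝ≥0∞) = ENNReal.ofReal 2 := by simp
      rw [h2, ← ENNReal.ofReal_mul (by norm_num), ← ENNReal.ofReal_mul (by norm_num),
        ← ENNReal.ofReal_add (by positivity) (by positivity)]
      refine ENNReal.ofReal_le_ofReal ?_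
      have h3 : ‖(F + G) x‖ ^ 2 ≤ 2 * ‖F x‖ ^ 2 + 2 * ‖G x‖ ^ 2 := by
        have h4 : ‖(F + G) x‖ ≤ ‖F x‖ + ‖G x‖ := norm_add_le _ _
        nlinarith [norm_nonneg (F x), norm_nonneg (G x), norm_nonneg ((F + G) x),
          sq_nonneg (‖F x‖ - ‖G x‖)]
      calc _ ≤ (2 * ‖F x‖ ^ 2 + 2 * ‖G x‖ ^ 2) * Real.exp (-Φ x) := by gcongr
        _ = _ := by ring
    have hFc := Crest.Agent.R271.T7a297.Hol.continuous hF
    calc _ ≤ ∫⁻ x, (2 * ENNReal.ofReal (‖F x‖ ^ 2 * Real.exp (-Φ x)) +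
          2 * ENNReal.ofReal (‖G x‖ ^ 2 * Real.exp (-Φ x))) ∂μ := lintegral_mono h1
      _ ≤ 2 * ∫⁻ x, ENNReal.ofReal (‖F x‖ ^ 2 * Real.exp (-Φ x)) ∂μ +
          2 * ∫⁻ x, ENNReal.ofReal (‖G x‖ ^ 2 * Real.exp (-Φ x)) ∂μ := by
          rw [lintegral_add_left, lintegral_const_mul' _ _ (by finiteness),
            lintegral_const_mul' _ _ (by finiteness)]
          refine Measurable.const_mul ?_ _
          exact ((hFc.norm.pow 2).measurable.mul (Real.measurable_exp.comp hΦ.neg)).ennreal_ofReal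
      _ < ∞ := by finiteness
  smul_mem' := by
    rintro c F ⟨hF, hF2⟩
    refine ⟨hol_smul hF c, ?_⟩
    have h1 : ∀ x, ENNReal.ofReal (‖(c • F) x‖ ^ 2 * Real.exp (-Φ x)) =
        ENNReal.ofReal (‖c‖ ^ 2) * ENNReal.ofReal (‖F x‖ ^ 2 * Real.exp (-Φ x)) := by
      intro x
      rw [← ENNReal.ofReal_mul (by positivity), Pi.smul_apply, norm_smul]
      congr 1; ring
    rw [lintegral_congr h1, lintegral_const_mul' _ _ ENNReal.ofReal_ne_top]
    finiteness

/-- nonempty open sets have positive measure -/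
theorem leb_pos {μ : Measure M} (hμ : IsLeb μ) {U : Set M} (hU : IsOpen U) (hne : U.Nonempty) :
    0 < μ U := by
  obtain ⟨x, hx⟩ := hne
  set e := ch x with he
  have hech : IsCh e := isCh_ch x
  set U' : Set M := U ∩ e.source with hU'
  have hU'o : IsOpen U' := hU.inter e.open_source
  have hU's : U' ⊆ e.source := inter_subset_right
  have h1 : μ U' = chm e U' := by
    rw [chm, ← hμ e hech, Measure.restrict_apply hU'o.measurableSet, inter_eq_left.2 hU's]
  have h2 : IsOpen (cp '' U' : Set (Fin n → ℂ)) := by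
    rw [← hech.image_eq]
    exact e.isOpen_image_of_subset_source hU'o hU's
  have h3 : 0 < μ U' := by
    rw [h1, chm_apply_sub hech hU'o.measurableSet hU's]
    exact h2.measure_pos volume ⟨cp x, x, ⟨hx, mem_ch x⟩, rfl⟩
  exact h3.trans_le (measure_mono inter_subset_left)

theorem enorm_weight (z : ℂ) (t : ℝ) :
    ‖z * (Real.exp (-t / 2) : ℂ)‖ₑ ^ 2 = ENNReal.ofReal (‖z‖ ^ 2 * Real.exp (-t)) := by
  rw [← Crest.Agent.R276.LM1_976.enorm_sq_eq]
  congr 1
  rw [norm_mul, mul_pow, Complex.norm_real, Real.norm_eq_abs, abs_of_pos (Real.exp_pos _),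
    ← Real.exp_nat_mul]
  congr 2
  push_cast; ring

/-- the Bergman function of `W` -/
theorem exists_T {μ : Measure M} (hμ : IsLeb μ) {Φ : M → ℝ} (hΦ : Continuous Φ)
    [FiniteDimensional ℂ (W μ Φ hΦ.measurable)] :
    ∃ T : M → ℝ≥0∞, AEMeasurable T μ ∧
      (∫⁻ x, T x ∂μ = Module.finrank ℂ (W μ Φ hΦ.measurable)) ∧
      ∀ x, ∀ F : M → ℂ, Crest.Agent.R271.Ho51.Hol F →
        ∫⁻ x, ENNReal.ofReal (‖F x‖ ^ 2 * Real.exp (-Φ x)) ∂μ < ∞ →
        ENNReal.ofReal (‖F x‖ ^ 2 * Real.exp (-Φ x)) ≤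
          T x * ∫⁻ x, ENNReal.ofReal (‖F x‖ ^ 2 * Real.exp (-Φ x)) ∂μ := by
  let ev : M → W μ Φ hΦ.measurable →ₗ[ℂ] ℂ := fun x =>
    { toFun := fun s => s.1 x * (Real.exp (-Φ x / 2) : ℂ)
      map_add' := by
        intro s t
        simp only [Submodule.coe_add, Pi.add_apply]
        ring
      map_smul' := by
        intro c s
        simp only [Submodule.coe_smul, Pi.smul_apply, smul_eq_mul, RingHom.id_apply]
        ring }
  have hev : ∀ x (s : W μ Φ hΦ.measurable), ev x s = s.1 x * (Real.exp (-Φ x / 2) : ℂ) :=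
    fun x s => rfl
  have hcont : ∀ s : W μ Φ hΦ.measurable, Continuous fun x => ev x s := by
    intro s
    have h1 := Crest.Agent.R271.T7a297.Hol.continuous s.2.1
    simp only [hev]
    exact h1.mul (Complex.continuous_ofReal.comp (Real.continuous_exp.comp (hΦ.neg.div_const 2)))
  have hnI : ∀ s : W μ Φ hΦ.measurable, nI μ (fun x => ev x s) =
      ∫⁻ x, ENNReal.ofReal (‖s.1 x‖ ^ 2 * Real.exp (-Φ x)) ∂μ := by
    intro s
    unfold nI
    exact lintegral_congr fun x => by simp only [hev]; exact enorm_weight _ _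
  obtain ⟨T, hT1, hT2, -, hT3, -⟩ := exists_bergman (ν := μ) ev
    (fun s => (hcont s).measurable.aestronglyMeasurable)
    (fun s => by rw [hnI]; exact s.2.2.ne)
    (fun s hs => by
      rw [hnI] at hs
      have h1 := Crest.Agent.R271.T7a297.Hol.continuous s.2.1
      apply Subtype.ext
      funext x
      by_contra hx
      have hx' : s.1 x ≠ 0 := hx
      have hU : IsOpen {y | s.1 y ≠ 0} := isOpen_ne_fun h1 continuous_const
      have hpos := leb_pos hμ hU ⟨x, hx'⟩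
      have hm : Measurable fun x => ENNReal.ofReal (‖s.1 x‖ ^ 2 * Real.exp (-Φ x)) :=
        ((h1.norm.pow 2).mul (Real.continuous_exp.comp hΦ.neg)).measurable.ennreal_ofReal
      rw [lintegral_eq_zero_iff hm] at hs
      have h2 : μ {y | s.1 y ≠ 0} = 0 := by
        refine measure_mono_null ?_ hs
        intro y hy hy0
        have h3 : ENNReal.ofReal (‖s.1 y‖ ^ 2 * Real.exp (-Φ y)) = 0 := hy0
        rw [ENNReal.ofReal_eq_zero] at h3
        have h4 : 0 < ‖s.1 y‖ ^ 2 * Real.exp (-Φ y) := by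
          have : 0 < ‖s.1 y‖ := norm_pos_iff.2 hy
          positivity
        linarith
      exact hpos.ne' h2)
  refine ⟨T, hT1, hT2, ?_⟩
  intro x F hF hF2
  have h1 := hT3 x ⟨F, hF, hF2⟩
  rw [hnI, hev, enorm_weight] at h1
  exact h1

/-- **PK2: dimension of the weighted Bergman spaces.** -/
theorem pk2 {n : ℕ} (hn : 0 < n) : ∃ C : ℝ, 0 < C ∧
    ∀ (M : Type) [TopologicalSpace M] [T2Space M] [SecondCountableTopology M] [RDom n M]
      [MeasurableSpace M] [BorelSpace M] (μ : Measure M), IsLeb μ →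
    ∀ ρ : M → ℝ, Sm ρ → (∀ c, IsCompact {x | ρ x ≤ c}) → (∀ x w, nsq w ≤ Levi ρ x w) →
    ∀ (ψ ψ0 : M → ℝ) (hψ : Sm ψ) (hψ0 : Sm ψ0) (k1 : ℝ),
      (∀ k : ℝ, k1 ≤ k → ∀ x w, 0 ≤ Levi (fun y => k * ψ y + ψ0 y) x w) →
      (∀ k : ℝ, k1 ≤ k → FiniteDimensional ℂ (W μ (fun y => k * ψ y + ψ0 y)
        (((Sm.const k).mulR hψ).add hψ0).continuous.measurable)) →
    ∀ S : Set M, MeasurableSet S → (∀ x ∈ S, ∀ w, w ≠ 0 → 0 < Levi ψ x w) →
    ∀ a : ℝ≥0∞, a < ∫⁻ x in S, ENNReal.ofReal ((PL ψ x).det.re) ∂μ →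
      ∀ᶠ k : ℝ in atTop, ENNReal.ofReal (k ^ n / C) * a <
        Module.finrank ℂ (W μ (fun y => k * ψ y + ψ0 y)
          (((Sm.const k).mulR hψ).add hψ0).continuous.measurable) := by
  obtain ⟨C, hC, hpeak⟩ := peak hn
  refine ⟨C, hC, ?_⟩
  intro M _ _ _ _ _ _ μ hμ ρ hρ hρc hρL ψ ψ0 hψ hψ0 k1 hk1 hfd S hS hSp a ha
  have hcont : ∀ k : ℝ, Continuous fun y => k * ψ y + ψ0 y := fun k =>
    (((Sm.const k).mulR hψ).add hψ0).continuous
  have hT : ∀ k : ℝ, ∃ T : M → ℝ≥0∞, AEMeasurable T μ ∧ (k1 ≤ k →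
      (∫⁻ x, T x ∂μ = Module.finrank ℂ (W μ (fun y => k * ψ y + ψ0 y) (hcont k).measurable)) ∧
      ∀ x, ∀ F : M → ℂ, Crest.Agent.R271.Ho51.Hol F →
        ∫⁻ x, ENNReal.ofReal (‖F x‖ ^ 2 * Real.exp (-(k * ψ x + ψ0 x))) ∂μ < ∞ →
        ENNReal.ofReal (‖F x‖ ^ 2 * Real.exp (-(k * ψ x + ψ0 x))) ≤
          T x * ∫⁻ x, ENNReal.ofReal (‖F x‖ ^ 2 * Real.exp (-(k * ψ x + ψ0 x))) ∂μ) := by
    intro k
    by_cases hk : k1 ≤ k
    · have := hfd k hk
      obtain ⟨T, h1, h2, h3⟩ := exists_T hμ (hcont k)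
      exact ⟨T, h1, fun _ => ⟨h2, h3⟩⟩
    · exact ⟨fun _ => 0, aemeasurable_const, fun h => absurd h hk⟩
  choose T hTm hTk using hT
  -- pointwise lower bound
  have hpt : ∀ x ∈ S, ENNReal.ofReal (1 / C) * ENNReal.ofReal ((PL ψ x).det.re) ≤
      liminf (fun k : ℝ => T k x * (ENNReal.ofReal (k ^ n))⁻¹) atTop := by
    intro x hx
    obtain ⟨k0, hk0, hk⟩ := hpeak M μ hμ ρ hρ hρc hρL ψ ψ0 hψ hψ0 k1 hk1 x (hSp x hx)
    refine le_liminf_of_le (by isBoundedDefault) ?_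
    filter_upwards [eventually_ge_atTop k0, eventually_ge_atTop k1] with k h1 h2
    have hkp : 0 < k := hk0.trans_le h1
    have hdet : 0 < (PL ψ x).det.re :=
      (Complex.pos_iff.1 (PL_posDef hψ (hSp x hx)).det_pos).1
    obtain ⟨F, hF, hFx, hFn⟩ := hk k h1
    have h3 := (hTk k h2).2 x F hF (hFn.trans_lt ENNReal.ofReal_lt_top)
    rw [hFx, norm_one, one_pow, one_mul] at h3
    set E := Real.exp (-(k * ψ x + ψ0 x)) with hE
    have hE0 : 0 < E := Real.exp_pos _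
    have h4 : ENNReal.ofReal E ≤ T k x * ENNReal.ofReal (C * E / (k ^ n * (PL ψ x).det.re)) :=
      h3.trans (by gcongr)
    have h5 : ENNReal.ofReal (C * E / (k ^ n * (PL ψ x).det.re)) *
        ENNReal.ofReal ((k ^ n * (PL ψ x).det.re) / (C * E)) = 1 := by
      rw [← ENNReal.ofReal_mul (by positivity), div_mul_div_cancel₀ (by positivity),
        div_self (by positivity), ENNReal.ofReal_one]
    have hkn : ENNReal.ofReal (k ^ n) ≠ 0 := by
      have : 0 < k ^ n := by positivity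
      simpa using this
    rw [← div_eq_mul_inv, ENNReal.le_div_iff_mul_le (Or.inl hkn) (Or.inl ENNReal.ofReal_ne_top)]
    calc ENNReal.ofReal (1 / C) * ENNReal.ofReal ((PL ψ x).det.re) * ENNReal.ofReal (k ^ n)
        = ENNReal.ofReal E * ENNReal.ofReal ((k ^ n * (PL ψ x).det.re) / (C * E)) := by
          rw [← ENNReal.ofReal_mul (by positivity), ← ENNReal.ofReal_mul (by positivity),
            ← ENNReal.ofReal_mul (by positivity)]
          congr 1
          field_simp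
      _ ≤ T k x * ENNReal.ofReal (C * E / (k ^ n * (PL ψ x).det.re)) *
          ENNReal.ofReal ((k ^ n * (PL ψ x).det.re) / (C * E)) := by gcongr
      _ = T k x := by rw [mul_assoc, h5, mul_one]
  have hC1 : ENNReal.ofReal (1 / C) ≠ 0 := by
    have : 0 < 1 / C := by positivity
    simpa using this
  have h1 : ENNReal.ofReal (1 / C) * a <
      liminf (fun k : ℝ => ∫⁻ x, T k x * (ENNReal.ofReal (k ^ n))⁻¹ ∂μ) atTop := by
    calc ENNReal.ofReal (1 / C) * a
        < ENNReal.ofReal (1 / C) * ∫⁻ x in S, ENNReal.ofReal ((PL ψ x).det.re) ∂μ :=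
          ENNReal.mul_lt_mul_right hC1 ENNReal.ofReal_ne_top ha
      _ = ∫⁻ x in S, ENNReal.ofReal (1 / C) * ENNReal.ofReal ((PL ψ x).det.re) ∂μ :=
          (lintegral_const_mul' _ _ ENNReal.ofReal_ne_top).symm
      _ ≤ ∫⁻ x in S, liminf (fun k : ℝ => T k x * (ENNReal.ofReal (k ^ n))⁻¹) atTop ∂μ :=
          setLIntegral_mono' hS hpt
      _ ≤ ∫⁻ x, liminf (fun k : ℝ => T k x * (ENNReal.ofReal (k ^ n))⁻¹) atTop ∂μ :=
          setLIntegral_le_lintegral _ _
      _ ≤ _ := lintegral_liminf_le' fun k => (hTm k).mul_const _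
  have h2 := eventually_lt_of_lt_liminf h1
  filter_upwards [h2, eventually_ge_atTop k1, eventually_gt_atTop 0] with k hk hkk1 hkp
  have hkn : 0 < k ^ n := by positivity
  have hkn0 : ENNReal.ofReal (k ^ n) ≠ 0 := by simpa using hkn
  rw [lintegral_mul_const'' _ (hTm k), (hTk k hkk1).1, ← div_eq_mul_inv,
    ENNReal.lt_div_iff_mul_lt (Or.inl hkn0) (Or.inl ENNReal.ofReal_ne_top)] at hk
  refine lt_of_eq_of_lt ?_ hk
  have h3 : ENNReal.ofReal (k ^ n / C) = ENNReal.ofReal (1 / C) * ENNReal.ofReal (k ^ n) := by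
    rw [← ENNReal.ofReal_mul (by positivity)]
    congr 1; ring
  rw [h3]; ring

end Crest.Agent.R269.Peak6_976
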