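import Mathlib

/-!
Row 269, PART 5 (path theorem), single penalty version (post 1181, helper516).

`D` is the set of discs, `y j f ζ` the scaled local energy at scale `exp (-j)`,
`pen κ j (y j f) = exp (-j/2) * ∫ ζ in 0..2π, exp (κ * j * y j f ζ)`.
The scale is shrunk continuously: `j (s) = j₀ * exp (L * s)`.
No stages, no reference disc.  Final theorem: `path_theorem`.
-/

namespace Crest.Agent.R269.Pen_516

set_option autoImplicit false
set_option linter.unusedVariables false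

open MeasureTheory Set Filter Topology

noncomputable section

/-- mean over the four points `r, i r, -r, -i r`. -/
def m4 (φ : ℂ → ℝ) (r : ℝ) : ℝ :=
  (φ (r : ℂ) + φ ((r : ℂ) * Complex.I) + φ (-(r : ℂ)) + φ (-((r : ℂ) * Complex.I))) / 4

/-- the Levi form of `φ` at `0` is at least `L`. -/
def LeviGE (φ : ℂ → ℝ) (L : ℝ) : Prop :=
  ∀ ε : ℝ, 0 < ε → ∀ᶠ r : ℝ in 𝓝[>] 0, (L - ε) * r ^ 2 ≤ m4 φ r - φ 0

/-- the Levi form of `φ` at `0` is at most `L`. -/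
def LeviLE (φ : ℂ → ℝ) (L : ℝ) : Prop :=
  ∀ ε : ℝ, 0 < ε → ∀ᶠ r : ℝ in 𝓝[>] 0, m4 φ r - φ 0 ≤ (L + ε) * r ^ 2

/-- the penalty, as a functional of the energy function `Y : ζ ↦ y j f ζ`. -/
def pen (κ j : ℝ) (Y : ℝ → ℝ) : ℝ :=
  Real.exp (-j / 2) * ∫ ζ in (0 : ℝ)..(2 * Real.pi), Real.exp (κ * j * Y ζ)

lemma pen_nonneg (κ j : ℝ) (Y : ℝ → ℝ) : 0 ≤ pen κ j Y := by
  unfold pen
  apply mul_nonneg (Real.exp_pos _).le
  apply intervalIntegral.integral_nonneg (by positivity)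
  intro ζ _
  exact (Real.exp_pos _).le

lemma two_pi_nonneg : (0 : ℝ) ≤ 2 * Real.pi := by positivity

lemma exp_le_quad {x : ℝ} (hx : |x| ≤ 1) : Real.exp x ≤ 1 + x + x ^ 2 := by
  have h := Real.abs_exp_sub_one_sub_id_le hx
  have := (abs_le.mp h).2
  linarith

lemma intg {f : ℝ → ℝ} (hf : Continuous f) (a b : ℝ) : IntervalIntegrable f volume a b :=
  hf.intervalIntegrable a b

/-- The Levi form of the penalty along a family of energies. -/
theorem pen_levi {κ j C1 C2 : ℝ} (hκ : 0 ≤ κ) (hj : 0 ≤ j) (hC2 : 0 ≤ C2)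
    (Yw : ℂ → ℝ → ℝ) (hc : ∀ w, Continuous (Yw w)) (h0 : ∀ ζ, 0 ≤ Yw 0 ζ) (h1 : ∀ ζ, Yw 0 ζ ≤ 1)
    (hi : ∀ ε : ℝ, 0 < ε → ∀ᶠ r : ℝ in 𝓝[>] 0, ∀ ζ, m4 (fun w => Yw w ζ) r - Yw 0 ζ ≤ (C1 + ε) * r ^ 2)
    (hii : ∀ ε : ℝ, 0 < ε → ∀ᶠ r : ℝ in 𝓝[>] 0, ∀ ζ,
      m4 (fun w => (Yw w ζ - Yw 0 ζ) ^ 2) r ≤ (C2 * Yw 0 ζ + ε) * r ^ 2) :
    LeviLE (fun w => pen κ j (Yw w))
      (Real.exp (-j / 2) * ∫ ζ in (0 : ℝ)..(2 * Real.pi),
        (κ * j * C1 + (κ * j) ^ 2 * C2 * Yw 0 ζ) * Real.exp (κ * j * Yw 0 ζ)) := by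
  intro ε hε
  set t : ℝ := κ * j with ht
  have ht0 : 0 ≤ t := mul_nonneg hκ hj
  -- choose ε1
  set A : ℝ := Real.exp (-j / 2) * (2 * Real.pi * (Real.exp t * (t + t ^ 2))) + 1 with hA
  have hA0 : 0 < A := by
    have : 0 ≤ Real.exp (-j / 2) * (2 * Real.pi * (Real.exp t * (t + t ^ 2))) := by positivity
    linarith
  set ε1 : ℝ := ε / A with hε1
  have hε1p : 0 < ε1 := div_pos hε hA0
  -- smallness of the increments
  have hsmall : ∀ᶠ r : ℝ in 𝓝[>] 0, t ^ 2 * (4 * ((C2 + 1) * r ^ 2)) ≤ 1 := by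
    have : Tendsto (fun r : ℝ => t ^ 2 * (4 * ((C2 + 1) * r ^ 2))) (𝓝 0)
        (𝓝 (t ^ 2 * (4 * ((C2 + 1) * 0 ^ 2)))) := by
      apply Continuous.tendsto
      fun_prop
    have h2 : ∀ᶠ r : ℝ in 𝓝 0, t ^ 2 * (4 * ((C2 + 1) * r ^ 2)) < 1 := by
      apply this.eventually_lt_const
      simp
    exact (h2.filter_mono nhdsWithin_le_nhds).mono fun r hr => hr.le
  filter_upwards [hi ε1 hε1p, hii ε1 hε1p, hii 1 one_pos, hsmall] with r hr1 hr2 hr3 hr4
  -- pointwise inequality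
  have hpt : ∀ ζ, m4 (fun w => Real.exp (t * Yw w ζ)) r - Real.exp (t * Yw 0 ζ)
      ≤ ((t * C1 + t ^ 2 * C2 * Yw 0 ζ) * Real.exp (t * Yw 0 ζ)
        + Real.exp t * (t + t ^ 2) * ε1) * r ^ 2 := by
    intro ζ
    set Δ : ℂ → ℝ := fun w => Yw w ζ - Yw 0 ζ with hΔ
    have hq : ∀ w : ℂ, (Δ w) ^ 2 ≤ 4 * m4 (fun w => (Δ w) ^ 2) r →
        t ^ 2 * (Δ w) ^ 2 ≤ 1 := by
      intro w hw
      have h3 := hr3 ζ
      have h5 : (C2 * Yw 0 ζ + 1) * r ^ 2 ≤ (C2 + 1) * r ^ 2 := by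
        apply mul_le_mul_of_nonneg_right _ (sq_nonneg r)
        nlinarith [h1 ζ, h0 ζ]
      have h6 : (Δ w) ^ 2 ≤ 4 * ((C2 + 1) * r ^ 2) := by
        calc (Δ w) ^ 2 ≤ 4 * m4 (fun w => (Δ w) ^ 2) r := hw
          _ ≤ 4 * ((C2 + 1) * r ^ 2) := by
            have : m4 (fun w => (Δ w) ^ 2) r ≤ (C2 + 1) * r ^ 2 := le_trans h3 h5
            linarith
      calc t ^ 2 * (Δ w) ^ 2 ≤ t ^ 2 * (4 * ((C2 + 1) * r ^ 2)) :=
            mul_le_mul_of_nonneg_left h6 (sq_nonneg t)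
        _ ≤ 1 := hr4
    have habs : ∀ w : ℂ, (Δ w) ^ 2 ≤ 4 * m4 (fun w => (Δ w) ^ 2) r → |t * Δ w| ≤ 1 := by
      intro w hw
      have := hq w hw
      rw [abs_le_one_iff_mul_self_le_one]
      nlinarith
    have hexp : ∀ w : ℂ, (Δ w) ^ 2 ≤ 4 * m4 (fun w => (Δ w) ^ 2) r →
        Real.exp (t * Yw w ζ) ≤ Real.exp (t * Yw 0 ζ) * (1 + t * Δ w + t ^ 2 * (Δ w) ^ 2) := by
      intro w hw
      have h := exp_le_quad (habs w hw)
      have e : t * Yw w ζ = t * Yw 0 ζ + t * Δ w := by simp only [hΔ]; ring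
      rw [e, Real.exp_add]
      apply mul_le_mul_of_nonneg_left _ (Real.exp_pos _).le
      calc Real.exp (t * Δ w) ≤ 1 + t * Δ w + (t * Δ w) ^ 2 := h
        _ = 1 + t * Δ w + t ^ 2 * (Δ w) ^ 2 := by ring
    have hm4 : m4 (fun w => Real.exp (t * Yw w ζ)) r ≤ Real.exp (t * Yw 0 ζ) *
        (1 + t * m4 Δ r + t ^ 2 * m4 (fun w => (Δ w) ^ 2) r) := by
      have q1 := hexp (r : ℂ) (by unfold m4; nlinarith [sq_nonneg (Δ (r : ℂ)), sq_nonneg (Δ ((r : ℂ) * Complex.I)), sq_nonneg (Δ (-(r : ℂ))), sq_nonneg (Δ (-((r : ℂ) * Complex.I)))])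
      have q2 := hexp ((r : ℂ) * Complex.I) (by unfold m4; nlinarith [sq_nonneg (Δ (r : ℂ)), sq_nonneg (Δ ((r : ℂ) * Complex.I)), sq_nonneg (Δ (-(r : ℂ))), sq_nonneg (Δ (-((r : ℂ) * Complex.I)))])
      have q3 := hexp (-(r : ℂ)) (by unfold m4; nlinarith [sq_nonneg (Δ (r : ℂ)), sq_nonneg (Δ ((r : ℂ) * Complex.I)), sq_nonneg (Δ (-(r : ℂ))), sq_nonneg (Δ (-((r : ℂ) * Complex.I)))])
      have q4 := hexp (-((r : ℂ) * Complex.I)) (by unfold m4; nlinarith [sq_nonneg (Δ (r : ℂ)), sq_nonneg (Δ ((r : ℂ) * Complex.I)), sq_nonneg (Δ (-(r : ℂ))), sq_nonneg (Δ (-((r : ℂ) * Complex.I)))])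
      have e : Real.exp (t * Yw 0 ζ) * (1 + t * m4 Δ r + t ^ 2 * m4 (fun w => (Δ w) ^ 2) r)
          = (Real.exp (t * Yw 0 ζ) * (1 + t * Δ (r : ℂ) + t ^ 2 * (Δ (r : ℂ)) ^ 2)
            + Real.exp (t * Yw 0 ζ) * (1 + t * Δ ((r : ℂ) * Complex.I) + t ^ 2 * (Δ ((r : ℂ) * Complex.I)) ^ 2)
            + Real.exp (t * Yw 0 ζ) * (1 + t * Δ (-(r : ℂ)) + t ^ 2 * (Δ (-(r : ℂ))) ^ 2)
            + Real.exp (t * Yw 0 ζ) * (1 + t * Δ (-((r : ℂ) * Complex.I)) + t ^ 2 * (Δ (-((r : ℂ) * Complex.I))) ^ 2)) / 4 := by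
        unfold m4; ring
      rw [e]
      unfold m4
      linarith
    have hΔm : m4 Δ r = m4 (fun w => Yw w ζ) r - Yw 0 ζ := by
      simp only [hΔ]; unfold m4; ring
    have h1' := hr1 ζ
    have h2' := hr2 ζ
    have hE : 0 < Real.exp (t * Yw 0 ζ) := Real.exp_pos _
    have hEle : Real.exp (t * Yw 0 ζ) ≤ Real.exp t := by
      apply Real.exp_le_exp.mpr
      nlinarith [h1 ζ]
    have s1 : t * m4 Δ r + t ^ 2 * m4 (fun w => (Δ w) ^ 2) r
        ≤ t * ((C1 + ε1) * r ^ 2) + t ^ 2 * ((C2 * Yw 0 ζ + ε1) * r ^ 2) := by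
      rw [hΔm]
      have a1 := mul_le_mul_of_nonneg_left h1' ht0
      have a2 := mul_le_mul_of_nonneg_left h2' (sq_nonneg t)
      linarith
    calc m4 (fun w => Real.exp (t * Yw w ζ)) r - Real.exp (t * Yw 0 ζ)
        ≤ Real.exp (t * Yw 0 ζ) * (t * m4 Δ r + t ^ 2 * m4 (fun w => (Δ w) ^ 2) r) := by
          nlinarith [hm4]
      _ ≤ Real.exp (t * Yw 0 ζ) * (t * ((C1 + ε1) * r ^ 2) + t ^ 2 * ((C2 * Yw 0 ζ + ε1) * r ^ 2)) :=
          mul_le_mul_of_nonneg_left s1 hE.le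
      _ = ((t * C1 + t ^ 2 * C2 * Yw 0 ζ) * Real.exp (t * Yw 0 ζ)
          + Real.exp (t * Yw 0 ζ) * ((t + t ^ 2) * ε1)) * r ^ 2 := by ring
      _ ≤ ((t * C1 + t ^ 2 * C2 * Yw 0 ζ) * Real.exp (t * Yw 0 ζ)
          + Real.exp t * ((t + t ^ 2) * ε1)) * r ^ 2 := by
          apply mul_le_mul_of_nonneg_right _ (sq_nonneg r)
          have : Real.exp (t * Yw 0 ζ) * ((t + t ^ 2) * ε1) ≤ Real.exp t * ((t + t ^ 2) * ε1) :=
            mul_le_mul_of_nonneg_right hEle (by positivity)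
          linarith
      _ = _ := by ring
  -- integrate
  have hI : ∀ w : ℂ, IntervalIntegrable (fun ζ => Real.exp (t * Yw w ζ)) volume 0 (2 * Real.pi) := by
    intro w
    apply intg
    have := hc w
    fun_prop
  have hlin : m4 (fun w => pen κ j (Yw w)) r - pen κ j (Yw 0)
      = Real.exp (-j / 2) * ∫ ζ in (0 : ℝ)..(2 * Real.pi),
          (m4 (fun w => Real.exp (t * Yw w ζ)) r - Real.exp (t * Yw 0 ζ)) := by
    have e : ∫ ζ in (0 : ℝ)..(2 * Real.pi),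
          (m4 (fun w => Real.exp (t * Yw w ζ)) r - Real.exp (t * Yw 0 ζ))
        = ((∫ ζ in (0 : ℝ)..(2 * Real.pi), Real.exp (t * Yw (r : ℂ) ζ))
          + (∫ ζ in (0 : ℝ)..(2 * Real.pi), Real.exp (t * Yw ((r : ℂ) * Complex.I) ζ))
          + (∫ ζ in (0 : ℝ)..(2 * Real.pi), Real.exp (t * Yw (-(r : ℂ)) ζ))
          + (∫ ζ in (0 : ℝ)..(2 * Real.pi), Real.exp (t * Yw (-((r : ℂ) * Complex.I)) ζ))) / 4
          - ∫ ζ in (0 : ℝ)..(2 * Real.pi), Real.exp (t * Yw 0 ζ) := by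
      unfold m4
      rw [intervalIntegral.integral_sub, intervalIntegral.integral_div,
        intervalIntegral.integral_add, intervalIntegral.integral_add,
        intervalIntegral.integral_add]
      all_goals first
        | exact hI _
        | exact (hI _).add (hI _)
        | exact ((hI _).add (hI _)).add (hI _)
        | exact ((((hI _).add (hI _)).add (hI _)).add (hI _)).div_const 4
    rw [e]
    simp only [pen, m4, ← ht]
    ring
  rw [hlin]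
  have hmono : ∫ ζ in (0 : ℝ)..(2 * Real.pi),
        (m4 (fun w => Real.exp (t * Yw w ζ)) r - Real.exp (t * Yw 0 ζ))
      ≤ ∫ ζ in (0 : ℝ)..(2 * Real.pi), ((t * C1 + t ^ 2 * C2 * Yw 0 ζ) * Real.exp (t * Yw 0 ζ)
        + Real.exp t * (t + t ^ 2) * ε1) * r ^ 2 := by
    apply intervalIntegral.integral_mono_on two_pi_nonneg
    · unfold m4
      have a := ((((hI (r : ℂ)).add (hI ((r : ℂ) * Complex.I))).add (hI (-(r : ℂ)))).add
        (hI (-((r : ℂ) * Complex.I)))).div_const 4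
      exact a.sub (hI 0)
    · apply intg
      have := hc 0
      fun_prop
    · intro ζ _
      exact hpt ζ
  have hcal : ∫ ζ in (0 : ℝ)..(2 * Real.pi), ((t * C1 + t ^ 2 * C2 * Yw 0 ζ) * Real.exp (t * Yw 0 ζ)
        + Real.exp t * (t + t ^ 2) * ε1) * r ^ 2
      = ((∫ ζ in (0 : ℝ)..(2 * Real.pi), (t * C1 + t ^ 2 * C2 * Yw 0 ζ) * Real.exp (t * Yw 0 ζ))
        + 2 * Real.pi * (Real.exp t * (t + t ^ 2) * ε1)) * r ^ 2 := by
    rw [intervalIntegral.integral_mul_const, intervalIntegral.integral_add,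
      intervalIntegral.integral_const]
    · simp
    · apply intg
      have := hc 0
      fun_prop
    · apply intg
      fun_prop
  have hfin : Real.exp (-j / 2) * (2 * Real.pi * (Real.exp t * (t + t ^ 2) * ε1)) ≤ ε := by
    have : Real.exp (-j / 2) * (2 * Real.pi * (Real.exp t * (t + t ^ 2) * ε1)) = (A - 1) * ε1 := by
      simp only [hA]; ring
    rw [this]
    have h2 : A * ε1 = ε := by
      rw [hε1]; field_simp
    nlinarith
  calc Real.exp (-j / 2) * ∫ ζ in (0 : ℝ)..(2 * Real.pi),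
          (m4 (fun w => Real.exp (t * Yw w ζ)) r - Real.exp (t * Yw 0 ζ))
      ≤ Real.exp (-j / 2) * (((∫ ζ in (0 : ℝ)..(2 * Real.pi),
          (t * C1 + t ^ 2 * C2 * Yw 0 ζ) * Real.exp (t * Yw 0 ζ))
        + 2 * Real.pi * (Real.exp t * (t + t ^ 2) * ε1)) * r ^ 2) := by
        apply mul_le_mul_of_nonneg_left _ (Real.exp_pos _).le
        rw [← hcal]; exact hmono
    _ = (Real.exp (-j / 2) * (∫ ζ in (0 : ℝ)..(2 * Real.pi),
          (t * C1 + t ^ 2 * C2 * Yw 0 ζ) * Real.exp (t * Yw 0 ζ))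
        + Real.exp (-j / 2) * (2 * Real.pi * (Real.exp t * (t + t ^ 2) * ε1))) * r ^ 2 := by ring
    _ ≤ (Real.exp (-j / 2) * (∫ ζ in (0 : ℝ)..(2 * Real.pi),
          (t * C1 + t ^ 2 * C2 * Yw 0 ζ) * Real.exp (t * Yw 0 ζ)) + ε) * r ^ 2 := by
        apply mul_le_mul_of_nonneg_right _ (sq_nonneg r)
        linarith

/-! ### decrease of the penalty when the scale shrinks -/

/-- the decrease rate of the penalty -/
def rate (κ j : ℝ) (Y : ℝ → ℝ) : ℝ :=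
  Real.exp (-j / 2) * ∫ ζ in (0 : ℝ)..(2 * Real.pi),
    (1 / 2 + κ * (j - 1) * Y ζ) * Real.exp (κ * j * Y ζ)

set_option maxHeartbeats 1000000 in
theorem pen_decr {κ J ε : ℝ} (hκ : 0 ≤ κ) (hJ : 1 ≤ J) (hε : 0 < ε) :
    ∃ δ₀ : ℝ, 0 < δ₀ ∧ ∀ j ∈ Icc 1 J, ∀ δ ∈ Icc 0 δ₀, ∀ Y Y' : ℝ → ℝ, Continuous Y →
      Continuous Y' → (∀ ζ, 0 ≤ Y ζ) → (∀ ζ, Y ζ ≤ 1) → (∀ ζ, Y' ζ ≤ Real.exp (-δ) * Y ζ) →
      pen κ (j + δ) Y' ≤ pen κ j Y - δ * (rate κ j Y - ε) := by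
  set Z : ℝ := 1 / 2 + κ * J with hZ
  have hZ0 : 0 < Z := by positivity
  set C : ℝ := κ * J + (Z + κ * J) ^ 2 with hC
  have hC0 : 0 ≤ C := by positivity
  set M : ℝ := 2 * Real.pi * (Real.exp (κ * J) * C) + 1 with hM
  have hM0 : 0 < M := by positivity
  refine ⟨min 1 (min (1 / (Z + κ * J)) (ε / M)), ?_, ?_⟩
  · have : 0 < Z + κ * J := by positivity
    refine lt_min one_pos (lt_min (by positivity) (by positivity))
  intro j hj δ hδ Y Y' hY hY' hY0 hY1 hYY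
  have hj0 : 0 ≤ j := by linarith [hj.1]
  have hδ0 : 0 ≤ δ := hδ.1
  have hδ1 : δ ≤ 1 := hδ.2.trans (min_le_left _ _)
  have hδ2 : δ ≤ 1 / (Z + κ * J) := hδ.2.trans ((min_le_right _ _).trans (min_le_left _ _))
  have hδ3 : δ ≤ ε / M := hδ.2.trans ((min_le_right _ _).trans (min_le_right _ _))
  have hpt : ∀ ζ, Real.exp (-δ / 2) * Real.exp (κ * (j + δ) * Y' ζ)
      ≤ Real.exp (κ * j * Y ζ) - δ * ((1 / 2 + κ * (j - 1) * Y ζ) * Real.exp (κ * j * Y ζ))
        + Real.exp (κ * J) * C * δ ^ 2 := by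
    intro ζ
    have hy0 := hY0 ζ
    have hy1 := hY1 ζ
    set x : ℝ := -(1 / 2 + κ * (j - 1) * Y ζ) * δ + κ * J * δ ^ 2 with hx
    have he : Real.exp (-δ) ≤ 1 - δ + δ ^ 2 := by
      have := exp_le_quad (x := -δ) (by rw [abs_neg, abs_of_nonneg hδ0]; exact hδ1)
      linarith
    have hjJ : j ≤ J := hj.2
    have h1 : (j + δ) * Y' ζ ≤ (j - (j - 1) * δ + j * δ ^ 2) * Y ζ := by
      have a1 : (j + δ) * Y' ζ ≤ (j + δ) * (Real.exp (-δ) * Y ζ) :=
        mul_le_mul_of_nonneg_left (hYY ζ) (by linarith)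
      have a2 : (j + δ) * (Real.exp (-δ) * Y ζ) ≤ (j + δ) * ((1 - δ + δ ^ 2) * Y ζ) :=
        mul_le_mul_of_nonneg_left (mul_le_mul_of_nonneg_right he hy0) (by linarith)
      have a3 : (j + δ) * (1 - δ + δ ^ 2) ≤ j - (j - 1) * δ + j * δ ^ 2 := by
        have : δ ^ 3 ≤ δ ^ 2 := by nlinarith [sq_nonneg δ]
        nlinarith
      calc (j + δ) * Y' ζ ≤ (j + δ) * (1 - δ + δ ^ 2) * Y ζ := by linarith
        _ ≤ _ := mul_le_mul_of_nonneg_right a3 hy0
    have h2 : -δ / 2 + κ * (j + δ) * Y' ζ ≤ κ * j * Y ζ + x := by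
      have b1 : κ * ((j + δ) * Y' ζ) ≤ κ * ((j - (j - 1) * δ + j * δ ^ 2) * Y ζ) :=
        mul_le_mul_of_nonneg_left h1 hκ
      have b2 : κ * (j * δ ^ 2 * Y ζ) ≤ κ * (J * δ ^ 2) := by
        apply mul_le_mul_of_nonneg_left _ hκ
        have : j * δ ^ 2 * Y ζ ≤ j * δ ^ 2 * 1 :=
          mul_le_mul_of_nonneg_left hy1 (by positivity)
        nlinarith [sq_nonneg δ]
      simp only [hx]
      nlinarith
    have hZj : 0 ≤ 1 / 2 + κ * (j - 1) * Y ζ := by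
      have : 0 ≤ κ * (j - 1) * Y ζ := mul_nonneg (mul_nonneg hκ (by linarith [hj.1])) hy0
      linarith
    have hZj' : 1 / 2 + κ * (j - 1) * Y ζ ≤ Z := by
      have : κ * (j - 1) * Y ζ ≤ κ * J * 1 := by
        apply mul_le_mul _ hy1 hy0 (by positivity)
        apply mul_le_mul_of_nonneg_left _ hκ
        linarith
      simp only [hZ]; linarith
    have hxabs : |x| ≤ (Z + κ * J) * δ := by
      rw [abs_le]
      have hδδ : δ ^ 2 ≤ δ := by nlinarith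
      have hk : 0 ≤ κ * J := by positivity
      constructor
      · simp only [hx]
        nlinarith [mul_nonneg hk (sq_nonneg δ), mul_nonneg hk hδ0, mul_le_mul_of_nonneg_right hZj' hδ0]
      · simp only [hx]
        nlinarith [mul_nonneg hk (sq_nonneg δ), mul_nonneg hZj hδ0, mul_le_mul_of_nonneg_left hδδ hk, mul_nonneg hZ0.le hδ0]
    have hx1 : |x| ≤ 1 := by
      refine hxabs.trans ?_
      have : 0 < Z + κ * J := by positivity
      rw [le_div_iff₀ this] at hδ2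
      linarith
    have hexpx : Real.exp x ≤ 1 + x + ((Z + κ * J) * δ) ^ 2 := by
      have h3 := exp_le_quad hx1
      have h4 : x ^ 2 ≤ ((Z + κ * J) * δ) ^ 2 := by
        rw [← sq_abs x]
        exact pow_le_pow_left₀ (abs_nonneg _) hxabs 2
      linarith
    have hEJ : Real.exp (κ * j * Y ζ) ≤ Real.exp (κ * J) := by
      apply Real.exp_le_exp.mpr
      have : κ * j * Y ζ ≤ κ * j * 1 := mul_le_mul_of_nonneg_left hy1 (by positivity)
      nlinarith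
    have hE0 := (Real.exp_pos (κ * j * Y ζ)).le
    calc Real.exp (-δ / 2) * Real.exp (κ * (j + δ) * Y' ζ)
        = Real.exp (-δ / 2 + κ * (j + δ) * Y' ζ) := by rw [Real.exp_add]
      _ ≤ Real.exp (κ * j * Y ζ + x) := Real.exp_le_exp.mpr h2
      _ = Real.exp (κ * j * Y ζ) * Real.exp x := Real.exp_add _ _
      _ ≤ Real.exp (κ * j * Y ζ) * (1 + x + ((Z + κ * J) * δ) ^ 2) :=
          mul_le_mul_of_nonneg_left hexpx hE0
      _ = Real.exp (κ * j * Y ζ) - δ * ((1 / 2 + κ * (j - 1) * Y ζ) * Real.exp (κ * j * Y ζ))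
          + Real.exp (κ * j * Y ζ) * (C * δ ^ 2) := by
          simp only [hx, hC]; ring
      _ ≤ Real.exp (κ * j * Y ζ) - δ * ((1 / 2 + κ * (j - 1) * Y ζ) * Real.exp (κ * j * Y ζ))
          + Real.exp (κ * J) * (C * δ ^ 2) := by
          have := mul_le_mul_of_nonneg_right hEJ (show 0 ≤ C * δ ^ 2 by positivity)
          linarith
      _ = _ := by ring
  have hint1 : ∫ ζ in (0 : ℝ)..(2 * Real.pi), Real.exp (-δ / 2) * Real.exp (κ * (j + δ) * Y' ζ)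
      ≤ ∫ ζ in (0 : ℝ)..(2 * Real.pi), (Real.exp (κ * j * Y ζ)
        - δ * ((1 / 2 + κ * (j - 1) * Y ζ) * Real.exp (κ * j * Y ζ))
        + Real.exp (κ * J) * C * δ ^ 2) := by
    apply intervalIntegral.integral_mono_on two_pi_nonneg
    · apply intg; fun_prop
    · apply intg; fun_prop
    · intro ζ _; exact hpt ζ
  have hint2 : ∫ ζ in (0 : ℝ)..(2 * Real.pi), (Real.exp (κ * j * Y ζ)
        - δ * ((1 / 2 + κ * (j - 1) * Y ζ) * Real.exp (κ * j * Y ζ))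
        + Real.exp (κ * J) * C * δ ^ 2)
      = (∫ ζ in (0 : ℝ)..(2 * Real.pi), Real.exp (κ * j * Y ζ))
        - δ * (∫ ζ in (0 : ℝ)..(2 * Real.pi),
            (1 / 2 + κ * (j - 1) * Y ζ) * Real.exp (κ * j * Y ζ))
        + 2 * Real.pi * (Real.exp (κ * J) * C * δ ^ 2) := by
    rw [intervalIntegral.integral_add, intervalIntegral.integral_sub,
      intervalIntegral.integral_const_mul, intervalIntegral.integral_const]
    · simp
    all_goals apply intg; fun_prop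
  have hpen : pen κ (j + δ) Y' = Real.exp (-j / 2) * ∫ ζ in (0 : ℝ)..(2 * Real.pi),
      Real.exp (-δ / 2) * Real.exp (κ * (j + δ) * Y' ζ) := by
    unfold pen
    rw [intervalIntegral.integral_const_mul, ← mul_assoc, ← Real.exp_add]
    congr 2
    ring
  rw [hpen]
  have hE : Real.exp (-j / 2) ≤ 1 := Real.exp_le_one_iff.mpr (by linarith)
  have hE0 := (Real.exp_pos (-j / 2)).le
  calc Real.exp (-j / 2) * ∫ ζ in (0 : ℝ)..(2 * Real.pi),
        Real.exp (-δ / 2) * Real.exp (κ * (j + δ) * Y' ζ)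
      ≤ Real.exp (-j / 2) * ((∫ ζ in (0 : ℝ)..(2 * Real.pi), Real.exp (κ * j * Y ζ))
        - δ * (∫ ζ in (0 : ℝ)..(2 * Real.pi),
            (1 / 2 + κ * (j - 1) * Y ζ) * Real.exp (κ * j * Y ζ))
        + 2 * Real.pi * (Real.exp (κ * J) * C * δ ^ 2)) := by
        apply mul_le_mul_of_nonneg_left _ hE0
        rw [← hint2]; exact hint1
    _ = pen κ j Y - δ * rate κ j Y
        + Real.exp (-j / 2) * (2 * Real.pi * (Real.exp (κ * J) * C * δ ^ 2)) := by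
        unfold pen rate; ring
    _ ≤ pen κ j Y - δ * rate κ j Y + 1 * (2 * Real.pi * (Real.exp (κ * J) * C * δ ^ 2)) := by
        have : 0 ≤ 2 * Real.pi * (Real.exp (κ * J) * C * δ ^ 2) := by positivity
        have := mul_le_mul_of_nonneg_right hE this
        linarith
    _ ≤ pen κ j Y - δ * rate κ j Y + δ * ε := by
        have h5 : M * δ ≤ ε := by
          rw [le_div_iff₀ hM0] at hδ3
          linarith
        have h6 : 2 * Real.pi * (Real.exp (κ * J) * C) * δ ≤ ε := by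
          have : 2 * Real.pi * (Real.exp (κ * J) * C) ≤ M := by simp only [hM]; linarith
          exact (mul_le_mul_of_nonneg_right this hδ0).trans h5
        have : 2 * Real.pi * (Real.exp (κ * J) * C * δ ^ 2)
            = (2 * Real.pi * (Real.exp (κ * J) * C) * δ) * δ := by ring
        rw [one_mul, this]
        nlinarith
    _ = _ := by ring

lemma rate_nonneg {κ j : ℝ} (hκ : 0 ≤ κ) (hj : 1 ≤ j) {Y : ℝ → ℝ} (h0 : ∀ ζ, 0 ≤ Y ζ) :
    0 ≤ rate κ j Y := by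
  unfold rate
  apply mul_nonneg (Real.exp_pos _).le
  apply intervalIntegral.integral_nonneg two_pi_nonneg
  intro ζ _
  apply mul_nonneg _ (Real.exp_pos _).le
  have : 0 ≤ κ * (j - 1) * Y ζ := mul_nonneg (mul_nonneg hκ (by linarith)) (h0 ζ)
  linarith

/-! ### confinement -/

/-- half-arc property -/
def Half (j : ℝ) (Y : ℝ → ℝ) : Prop :=
  ∀ ζ₀, Real.exp (-j) ≤ (volume.restrict (Ioc 0 (2 * Real.pi))).real {ζ | Y ζ₀ / 2 ≤ Y ζ}

theorem pen_ge {κ j : ℝ} (hκ : 0 ≤ κ) (hj : 0 ≤ j) {Y : ℝ → ℝ} (hY : Continuous Y)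
    (hh : Half j Y) {ζ₀ c : ℝ} (h : c ≤ Y ζ₀) :
    Real.exp (κ * j * c / 2 - 3 / 2 * j) ≤ pen κ j Y := by
  have hm : Real.exp (-j) ≤ (volume.restrict (Ioc 0 (2 * Real.pi))).real
      {ζ | Real.exp (κ * j * c / 2) ≤ Real.exp (κ * j * Y ζ)} := by
    refine (hh ζ₀).trans ?_
    apply measureReal_mono
    · intro ζ hζ
      simp only [mem_ofPred_eq] at hζ ⊢
      apply Real.exp_le_exp.mpr
      have : c / 2 ≤ Y ζ := by linarith
      have := mul_le_mul_of_nonneg_left this (mul_nonneg hκ hj)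
      linarith
    · exact measure_ne_top _ _
  have hI : Integrable (fun ζ => Real.exp (κ * j * Y ζ)) (volume.restrict (Ioc 0 (2 * Real.pi))) := by
    have : IntervalIntegrable (fun ζ => Real.exp (κ * j * Y ζ)) volume 0 (2 * Real.pi) := by
      apply intg; fun_prop
    exact (intervalIntegrable_iff_integrableOn_Ioc_of_le two_pi_nonneg).mp this
  have hmar := mul_meas_ge_le_integral_of_nonneg (μ := volume.restrict (Ioc 0 (2 * Real.pi)))
    (f := fun ζ => Real.exp (κ * j * Y ζ)) (Eventually.of_forall fun ζ => (Real.exp_pos _).le) hI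
    (Real.exp (κ * j * c / 2))
  unfold pen
  rw [intervalIntegral.integral_of_le two_pi_nonneg]
  have h1 : Real.exp (κ * j * c / 2) * Real.exp (-j)
      ≤ ∫ ζ in Ioc 0 (2 * Real.pi), Real.exp (κ * j * Y ζ) :=
    (mul_le_mul_of_nonneg_left hm (Real.exp_pos _).le).trans hmar
  calc Real.exp (κ * j * c / 2 - 3 / 2 * j)
      = Real.exp (-j / 2) * (Real.exp (κ * j * c / 2) * Real.exp (-j)) := by
        rw [← Real.exp_add, ← Real.exp_add]; congr 1; ring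
    _ ≤ _ := mul_le_mul_of_nonneg_left h1 (Real.exp_pos _).le

/-- start -/
theorem pen_le {κ j c : ℝ} (hκ : 0 ≤ κ) (hj : 0 ≤ j) {Y : ℝ → ℝ} (hY : Continuous Y)
    (h : ∀ ζ, Y ζ ≤ c) : pen κ j Y ≤ Real.exp (-j / 2) * (2 * Real.pi * Real.exp (κ * j * c)) := by
  unfold pen
  apply mul_le_mul_of_nonneg_left _ (Real.exp_pos _).le
  calc ∫ ζ in (0 : ℝ)..(2 * Real.pi), Real.exp (κ * j * Y ζ)
      ≤ ∫ ζ in (0 : ℝ)..(2 * Real.pi), Real.exp (κ * j * c) := by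
        apply intervalIntegral.integral_mono_on two_pi_nonneg
        · apply intg; fun_prop
        · apply intg; fun_prop
        · intro ζ _
          apply Real.exp_le_exp.mpr
          exact mul_le_mul_of_nonneg_left (h ζ) (mul_nonneg hκ hj)
    _ = 2 * Real.pi * Real.exp (κ * j * c) := by simp

/-! ### the abstract path theorem -/

/-- the class of discs which are regular at scale `exp (-j)` -/
def Kj {D : Type*} (y : ℝ → D → ℝ → ℝ) (j : ℝ) : Set D := {f | ∀ ζ, y j f ζ ≤ 1}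

/-- structural properties of the local energies `y j f ζ` -/
structure Energy {D : Type*} (y : ℝ → D → ℝ → ℝ) : Prop where
  cont : ∀ j f, 1 ≤ j → Continuous (y j f)
  nonneg : ∀ j f ζ, 0 ≤ y j f ζ
  mono : ∀ j δ f ζ, 1 ≤ j → 0 ≤ δ → y (j + δ) f ζ ≤ Real.exp (-δ) * y j f ζ
  half : ∀ j f, 1 ≤ j → Half j (y j f)
  start : ∀ f, ∃ c, 0 ≤ c ∧ ∀ j ζ, 1 ≤ j → y j f ζ ≤ c * Real.exp (-j)

/-- an admissible one parameter family through `f`: its energies have second order expansions with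
Levi form `≤ C1` and squared gradient `≤ C2 * y`. -/
structure VarOK {D : Type*} (y : ℝ → D → ℝ → ℝ) (j C1 C2 : ℝ) (f : D) (F : ℂ → D) : Prop where
  zero : F 0 = f
  levi : ∀ ε : ℝ, 0 < ε → ∀ᶠ r : ℝ in 𝓝[>] 0, ∀ ζ,
    m4 (fun w => y j (F w) ζ) r - y j f ζ ≤ (C1 + ε) * r ^ 2
  grad : ∀ ε : ℝ, 0 < ε → ∀ᶠ r : ℝ in 𝓝[>] 0, ∀ ζ,
    m4 (fun w => (y j (F w) ζ - y j f ζ) ^ 2) r ≤ (C2 * y j f ζ + ε) * r ^ 2

lemma Kj_mono {D : Type*} {y : ℝ → D → ℝ → ℝ} (hy : Energy y) {j j' : ℝ} (hj : 1 ≤ j)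
    (hjj : j ≤ j') : Kj y j ⊆ Kj y j' := by
  intro f hf ζ
  have h := hy.mono j (j' - j) f ζ hj (by linarith)
  rw [add_sub_cancel] at h
  have h1 : Real.exp (-(j' - j)) ≤ 1 := Real.exp_le_one_iff.mpr (by linarith)
  have h2 := hf ζ
  have h3 := hy.nonneg j f ζ
  nlinarith [Real.exp_pos (-(j' - j))]

/-- interior maximisers: Levi inequality -/
lemma levi_le_of_max {D : Type*} {y : ℝ → D → ℝ → ℝ} (hy : Energy y) {j C1 C2 : ℝ} (hj : 1 ≤ j)
    (hC2 : 0 ≤ C2) {Ψ : D → ℝ} {f : D} (hf : ∀ ζ, y j f ζ ≤ 3 / 4)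
    (hmax : ∀ g ∈ Kj y j, Ψ g - pen 8 j (y j g) ≤ Ψ f - pen 8 j (y j f))
    {F : ℂ → D} (hF : VarOK y j C1 C2 f F) {l : ℝ} (hl : LeviGE (fun w => Ψ (F w)) l) :
    l ≤ Real.exp (-j / 2) * ∫ ζ in (0 : ℝ)..(2 * Real.pi),
        (8 * j * C1 + (8 * j) ^ 2 * C2 * y j f ζ) * Real.exp (8 * j * y j f ζ) := by
  have hj0 : 0 ≤ j := by linarith
  have hpen := pen_levi (κ := 8) (j := j) (C1 := C1) (C2 := C2) (by norm_num) hj0 hC2
    (fun w => y j (F w)) (fun w => hy.cont j _ hj) (by intro ζ; exact hy.nonneg j _ ζ)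
    (by intro ζ; simp only [hF.zero]; linarith [hf ζ])
    (by simpa only [hF.zero] using hF.levi) (by simpa only [hF.zero] using hF.grad)
  simp only [hF.zero] at hpen
  set L : ℝ := Real.exp (-j / 2) * ∫ ζ in (0 : ℝ)..(2 * Real.pi),
        (8 * j * C1 + (8 * j) ^ 2 * C2 * y j f ζ) * Real.exp (8 * j * y j f ζ) with hL
  -- the four points stay in the class
  have hin : ∀ᶠ r : ℝ in 𝓝[>] 0, F (r : ℂ) ∈ Kj y j ∧ F ((r : ℂ) * Complex.I) ∈ Kj y j ∧
      F (-(r : ℂ)) ∈ Kj y j ∧ F (-((r : ℂ) * Complex.I)) ∈ Kj y j := by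
    have hsmall : ∀ᶠ r : ℝ in 𝓝[>] 0, 4 * ((C2 + 1) * r ^ 2) ≤ 1 / 16 := by
      have : Tendsto (fun r : ℝ => 4 * ((C2 + 1) * r ^ 2)) (𝓝 0)
          (𝓝 (4 * ((C2 + 1) * 0 ^ 2))) := by
        apply Continuous.tendsto
        fun_prop
      have h2 : ∀ᶠ r : ℝ in 𝓝 0, 4 * ((C2 + 1) * r ^ 2) < 1 / 16 := by
        apply this.eventually_lt_const
        norm_num
      exact (h2.filter_mono nhdsWithin_le_nhds).mono fun r hr => hr.le
    filter_upwards [hF.grad 1 one_pos, hsmall] with r hr1 hr2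
    have key : ∀ ζ (w : ℂ), (y j (F w) ζ - y j f ζ) ^ 2
        ≤ 4 * m4 (fun w => (y j (F w) ζ - y j f ζ) ^ 2) r → y j (F w) ζ ≤ 1 := by
      intro ζ w hw
      have h3 := hr1 ζ
      have h4 : (C2 * y j f ζ + 1) * r ^ 2 ≤ (C2 + 1) * r ^ 2 := by
        apply mul_le_mul_of_nonneg_right _ (sq_nonneg r)
        nlinarith [hf ζ, hy.nonneg j f ζ]
      have h5 : (y j (F w) ζ - y j f ζ) ^ 2 ≤ 1 / 16 := by linarith
      have h6 : y j (F w) ζ - y j f ζ ≤ 1 / 4 := by nlinarith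
      linarith [hf ζ]
    refine ⟨fun ζ => key ζ _ ?_, fun ζ => key ζ _ ?_, fun ζ => key ζ _ ?_, fun ζ => key ζ _ ?_⟩
    all_goals
      unfold m4
      nlinarith [sq_nonneg (y j (F (r : ℂ)) ζ - y j f ζ),
        sq_nonneg (y j (F ((r : ℂ) * Complex.I)) ζ - y j f ζ),
        sq_nonneg (y j (F (-(r : ℂ))) ζ - y j f ζ),
        sq_nonneg (y j (F (-((r : ℂ) * Complex.I))) ζ - y j f ζ)]
  refine le_of_forall_pos_le_add ?_
  intro e he
  have h1 := hl (e / 2) (by linarith)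
  have h2 := hpen (e / 2) (by linarith)
  have hpos : ∀ᶠ r : ℝ in 𝓝[>] 0, 0 < r := by
    filter_upwards [self_mem_nhdsWithin] with r hr
    exact hr
  obtain ⟨r, hr1, hr2, hr3, hr4⟩ := (h1.and (h2.and (hin.and hpos))).exists
  obtain ⟨a1, a2, a3, a4⟩ := hr3
  have b1 := hmax _ a1
  have b2 := hmax _ a2
  have b3 := hmax _ a3
  have b4 := hmax _ a4
  simp only [hF.zero] at hr1 hr2
  have hr5 : 0 < r ^ 2 := by positivity
  have h7 : m4 (fun w => Ψ (F w)) r - Ψ f ≤ m4 (fun w => pen 8 j (y j (F w))) r - pen 8 j (y j f) := by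
    unfold m4
    linarith
  have h8 : (l - e / 2) * r ^ 2 ≤ (L + e / 2) * r ^ 2 := hr1.trans (h7.trans hr2)
  have := le_of_mul_le_mul_right h8 hr5
  linarith

/-- `rate` dominates the Levi form of the penalty -/
lemma levi_le_rate {j C1 C2 L m : ℝ} (hj : 2 ≤ j) (hm : 0 ≤ m) (hC2 : 0 ≤ C2)
    (hL : 16 * m * (C1 + C2) ≤ L) (hL1 : 16 * m * C1 ≤ L) (hL2 : 16 * m * C2 ≤ L)
    {Y : ℝ → ℝ} (hY : Continuous Y) (h0 : ∀ ζ, 0 ≤ Y ζ) :
    m * (Real.exp (-j / 2) * ∫ ζ in (0 : ℝ)..(2 * Real.pi),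
        (8 * j * C1 + (8 * j) ^ 2 * C2 * Y ζ) * Real.exp (8 * j * Y ζ))
      ≤ j * L * rate 8 j Y := by
  unfold rate
  have h : ∫ ζ in (0 : ℝ)..(2 * Real.pi),
        m * ((8 * j * C1 + (8 * j) ^ 2 * C2 * Y ζ) * Real.exp (8 * j * Y ζ))
      ≤ ∫ ζ in (0 : ℝ)..(2 * Real.pi),
        (j * L) * ((1 / 2 + 8 * (j - 1) * Y ζ) * Real.exp (8 * j * Y ζ)) := by
    apply intervalIntegral.integral_mono_on two_pi_nonneg
    · apply intg; fun_prop
    · apply intg; fun_prop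
    · intro ζ _
      rw [← mul_assoc, ← mul_assoc]
      apply mul_le_mul_of_nonneg_right _ (Real.exp_pos _).le
      have hy := h0 ζ
      have e1 : m * (8 * j * C1) ≤ j * L * (1 / 2) := by nlinarith
      have e2 : m * ((8 * j) ^ 2 * C2) ≤ j * L * (8 * (j - 1)) := by
        have e3 : 16 * m * C2 * j ≤ L * j := mul_le_mul_of_nonneg_right hL2 (by linarith)
        have hL0 : 0 ≤ L := le_trans (by positivity) hL2
        have e4 : 4 * L * j ≤ 8 * L * (j - 1) := by nlinarith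
        have e5 : 64 * m * C2 * j ≤ 8 * L * (j - 1) := by linarith
        have e6 := mul_le_mul_of_nonneg_left e5 (show 0 ≤ j by linarith)
        nlinarith
      nlinarith [mul_le_mul_of_nonneg_right e2 hy]
  rw [intervalIntegral.integral_const_mul, intervalIntegral.integral_const_mul] at h
  have := mul_le_mul_of_nonneg_left h (Real.exp_pos (-j / 2)).le
  linarith

/-- one time step -/
lemma step {D : Type*} {y : ℝ → D → ℝ → ℝ} (hy : Energy y) {n : ℕ} {C1 C2 L e δ₀ J j j' h : ℝ}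
    (hC2 : 0 ≤ C2) (hj : 2 ≤ j) (hjJ : j' ≤ J) (hjj : j * (L * h) ≤ j' - j)
    (hjδ : j' - j ≤ δ₀) (hh : 0 ≤ h) (hL : 16 * n * (C1 + C2) ≤ L) (hL1 : 16 * n * C1 ≤ L)
    (hL2 : 16 * n * C2 ≤ L) (he : 0 ≤ e)
    (hdecr : ∀ j ∈ Icc 1 J, ∀ δ ∈ Icc 0 δ₀, ∀ Y Y' : ℝ → ℝ, Continuous Y →
      Continuous Y' → (∀ ζ, 0 ≤ Y ζ) → (∀ ζ, Y ζ ≤ 1) → (∀ ζ, Y' ζ ≤ Real.exp (-δ) * Y ζ) →
      pen 8 (j + δ) Y' ≤ pen 8 j Y - δ * (rate 8 j Y - e))
    {Ψs Ψh : D → ℝ} {Ψ' : ℝ} {f : D} (hfK : f ∈ Kj y j)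
    (hconf : ∀ ζ, y j f ζ ≤ 3 / 4)
    (hmax : ∀ g ∈ Kj y j, Ψs g - pen 8 j (y j g) ≤ Ψs f - pen 8 j (y j f))
    (htime : Ψs f + h * (Ψ' - e) ≤ Ψh f)
    (hvar : ∃ (F : Fin n → ℂ → D) (l : Fin n → ℝ), (∀ i, VarOK y j C1 C2 f (F i)) ∧
      (∀ i, LeviGE (fun w => Ψs (F i w)) (l i)) ∧ -e ≤ Ψ' + ∑ i, l i) :
    f ∈ Kj y j' ∧ Ψs f - pen 8 j (y j f) - (2 * e * h + (j' - j) * e)
      ≤ Ψh f - pen 8 j' (y j' f) := by
  obtain ⟨F, l, hF, hl, hsum⟩ := hvar
  have hLn : 0 ≤ L := le_trans (by positivity) hL2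
  have hδ0 : 0 ≤ j' - j := le_trans (by positivity) hjj
  have hj1 : 1 ≤ j := by linarith
  refine ⟨Kj_mono hy hj1 (by linarith) hfK, ?_⟩
  have hli : ∀ i, l i ≤ Real.exp (-j / 2) * ∫ ζ in (0 : ℝ)..(2 * Real.pi),
        (8 * j * C1 + (8 * j) ^ 2 * C2 * y j f ζ) * Real.exp (8 * j * y j f ζ) :=
    fun i => levi_le_of_max hy hj1 hC2 hconf hmax (hF i) (hl i)
  have hsl : ∑ i, l i ≤ n * (Real.exp (-j / 2) * ∫ ζ in (0 : ℝ)..(2 * Real.pi),
        (8 * j * C1 + (8 * j) ^ 2 * C2 * y j f ζ) * Real.exp (8 * j * y j f ζ)) := by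
    calc ∑ i, l i ≤ ∑ _i : Fin n, (Real.exp (-j / 2) * ∫ ζ in (0 : ℝ)..(2 * Real.pi),
        (8 * j * C1 + (8 * j) ^ 2 * C2 * y j f ζ) * Real.exp (8 * j * y j f ζ)) :=
          Finset.sum_le_sum fun i _ => hli i
      _ = _ := by simp
  have hrate := levi_le_rate (m := (n : ℝ)) hj (Nat.cast_nonneg n) hC2 hL hL1 hL2
    (hy.cont j f hj1) (hy.nonneg j f)
  have hΨ' : -e - j * L * rate 8 j (y j f) ≤ Ψ' := by linarith
  have hd := hdecr j ⟨hj1, by linarith⟩ (j' - j) ⟨hδ0, hjδ⟩ (y j f) (y j' f)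
    (hy.cont j f hj1) (hy.cont j' f (by linarith)) (hy.nonneg j f) hfK
    (by
      intro ζ
      have := hy.mono j (j' - j) f ζ hj1 hδ0
      rwa [add_sub_cancel] at this)
  rw [add_sub_cancel] at hd
  have hr0 : 0 ≤ rate 8 j (y j f) := rate_nonneg (by norm_num) hj1 (hy.nonneg j f)
  have h1 : j * (L * h) * rate 8 j (y j f) ≤ (j' - j) * rate 8 j (y j f) :=
    mul_le_mul_of_nonneg_right hjj hr0
  have h2 : h * (-e - j * L * rate 8 j (y j f)) ≤ h * Ψ' := mul_le_mul_of_nonneg_left hΨ' hh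
  nlinarith

set_option maxHeartbeats 4000000 in
/-- **The path theorem** with a single penalty (abstract form). -/
theorem path_theorem {D : Type*} {y : ℝ → D → ℝ → ℝ} (hy : Energy y) {n : ℕ} {C1 C2 : ℝ}
    (hC1 : 0 ≤ C1) (hC2 : 0 ≤ C2) (Cb : ℝ) {t : ℝ} (ht : 0 ≤ t) (f₀ : D) {ε : ℝ} (hε : 0 < ε) :
    ∃ j₀ J : ℝ, 2 ≤ j₀ ∧ j₀ ≤ J ∧ ∀ Ψ Ψ' : ℝ → D → ℝ,
      (∀ s ∈ Icc 0 t, ∀ j, 1 ≤ j → ∀ f ∈ Kj y j, |Ψ s f| ≤ Cb * (1 + j)) →
      (∀ e > 0, ∃ h₀ > 0, ∀ s ∈ Icc 0 t, ∀ h ∈ Icc 0 h₀, s + h ≤ t → ∀ f ∈ Kj y J,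
        Ψ s f + h * (Ψ' s f - e) ≤ Ψ (s + h) f) →
      (∀ s ∈ Icc 0 t, ∀ j ∈ Icc j₀ J, ∃ f ∈ Kj y j, ∀ g ∈ Kj y j,
        Ψ s g - pen 8 j (y j g) ≤ Ψ s f - pen 8 j (y j f)) →
      (∀ s ∈ Icc 0 t, ∀ j ∈ Icc j₀ J, ∀ f ∈ Kj y j, ∀ e > 0,
        ∃ (F : Fin n → ℂ → D) (l : Fin n → ℝ), (∀ i, VarOK y j C1 C2 f (F i)) ∧
          (∀ i, LeviGE (fun w => Ψ s (F i w)) (l i)) ∧ -e ≤ Ψ' s f + ∑ i, l i) →
      ∃ f₁ ∈ Kj y J, Ψ 0 f₀ - ε ≤ Ψ t f₁ := by
  obtain ⟨c, hc0, hc⟩ := hy.start f₀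
  set jf : ℝ := max 1 c with hjf
  have hjf1 : 1 ≤ jf := le_max_left _ _
  have hf0K : f₀ ∈ Kj y jf := by
    intro ζ
    have h1 := hc jf ζ hjf1
    have h2 : c * Real.exp (-jf) ≤ 1 := by
      have h3 : jf + 1 ≤ Real.exp jf := Real.add_one_le_exp jf
      have h4 : c ≤ jf := le_max_right _ _
      rw [Real.exp_neg, ← div_eq_mul_inv, div_le_one (Real.exp_pos _)]
      linarith
    linarith
  set B : ℝ := |Cb| * (1 + jf) + ε with hB
  have hB0 : 0 ≤ B := by positivity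
  set L : ℝ := 16 * n * (C1 + C2) + 1 with hLdef
  have hLpos : 0 < L := by positivity
  have hL1 : 16 * n * C1 ≤ L := by
    have : (0 : ℝ) ≤ 16 * n * C2 := by positivity
    simp only [hLdef]; linarith
  have hL2 : 16 * n * C2 ≤ L := by
    have : (0 : ℝ) ≤ 16 * n * C1 := by positivity
    simp only [hLdef]; linarith
  -- choice of j₀
  have hlim : Tendsto (fun j : ℝ => Real.exp (-j / 2) * (2 * Real.pi * Real.exp (8 * c)))
      atTop (𝓝 0) := by
    have h1 : Tendsto (fun j : ℝ => Real.exp (-j / 2)) atTop (𝓝 0) := by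
      apply Real.tendsto_exp_atBot.comp
      have : (fun j : ℝ => -j / 2) = fun j : ℝ => j * (-(1 / 2)) := by
        ext j; ring
      rw [this]
      exact tendsto_id.atTop_mul_const_of_neg (by norm_num)
    simpa using h1.mul_const (2 * Real.pi * Real.exp (8 * c))
  have hev : ∀ᶠ j : ℝ in atTop, Real.exp (-j / 2) * (2 * Real.pi * Real.exp (8 * c)) ≤ ε / 2 := by
    have := hlim.eventually_lt_const (show (0 : ℝ) < ε / 2 by linarith)
    exact this.mono fun j hj => hj.le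
  obtain ⟨j₀, hj₀⟩ := (hev.and ((eventually_ge_atTop (2 + jf)).and
    (eventually_ge_atTop (2 * |Cb| + B + 1)))).exists
  obtain ⟨hj₀a, hj₀b, hj₀c⟩ := hj₀
  have hj₀2 : 2 ≤ j₀ := by linarith
  set J : ℝ := j₀ * Real.exp (L * t) with hJ
  have hJj : j₀ ≤ J := by
    have : 1 ≤ Real.exp (L * t) := Real.one_le_exp (by positivity)
    simp only [hJ]; nlinarith
  refine ⟨j₀, J, hj₀2, hJj, ?_⟩
  intro Ψ Ψ' hgrow htime hmaxex hvar
  -- the scale at time `s`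
  set jj : ℝ → ℝ := fun s => j₀ * Real.exp (L * s) with hjjdef
  have hjj0 : jj 0 = j₀ := by simp [hjjdef]
  have hjjt : jj t = J := rfl
  have hjjge : ∀ s, 0 ≤ s → j₀ ≤ jj s := by
    intro s hs
    have : 1 ≤ Real.exp (L * s) := Real.one_le_exp (by positivity)
    simp only [hjjdef]; nlinarith
  have hjjle : ∀ s, s ≤ t → jj s ≤ J := by
    intro s hs
    simp only [hjjdef, hJ]
    apply mul_le_mul_of_nonneg_left _ (by linarith)
    exact Real.exp_le_exp.mpr (mul_le_mul_of_nonneg_left hs hLpos.le)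
  have hJ1 : 1 ≤ J := by linarith
  -- small parameters
  set e : ℝ := ε / (2 * (t + 1) * (2 + 2 * J * L)) with he
  have hepos : 0 < e := by positivity
  obtain ⟨δ₀, hδ₀, hdecr⟩ := pen_decr (κ := 8) (J := J) (ε := e) (by norm_num) hJ1 hepos
  obtain ⟨h₁, hh₁, htime'⟩ := htime e hepos
  set hs : ℝ := min h₁ (min (1 / L) (δ₀ / (2 * J * L))) with hhs
  have hJL : 0 < 2 * J * L := by positivity
  have hhs0 : 0 < hs := lt_min hh₁ (lt_min (by positivity) (by positivity))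
  -- the step
  have hstep : ∀ s ∈ Icc 0 t, ∀ h ∈ Icc 0 hs, s + h ≤ t → ∀ v : ℝ, -B ≤ v →
      (∃ f ∈ Kj y (jj s), v ≤ Ψ s f - pen 8 (jj s) (y (jj s) f)) →
      (∃ f ∈ Kj y (jj (s + h)), v - h * (ε / (2 * (t + 1)))
        ≤ Ψ (s + h) f - pen 8 (jj (s + h)) (y (jj (s + h)) f)) := by
    intro s hs' h hh hsh v hv hex
    obtain ⟨g, hgK, hg⟩ := hex
    have hjs : j₀ ≤ jj s := hjjge s hs'.1
    have hjs2 : 2 ≤ jj s := by linarith
    have hjsJ : jj s ≤ J := hjjle s hs'.2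
    obtain ⟨f, hfK, hfmax⟩ := hmaxex s hs' (jj s) ⟨hjs, hjsJ⟩
    have hval : v ≤ Ψ s f - pen 8 (jj s) (y (jj s) f) := hg.trans (hfmax g hgK)
    have hh1 : h ≤ h₁ := hh.2.trans (min_le_left _ _)
    have hh2 : h ≤ 1 / L := hh.2.trans ((min_le_right _ _).trans (min_le_left _ _))
    have hh3 : h ≤ δ₀ / (2 * J * L) := hh.2.trans ((min_le_right _ _).trans (min_le_right _ _))
    -- confinement
    have hconf : ∀ ζ, y (jj s) f ζ ≤ 3 / 4 := by
      intro ζ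
      by_contra hcon
      push Not at hcon
      have h1 := pen_ge (κ := 8) (j := jj s) (c := 3 / 4) (by norm_num) (by linarith)
        (hy.cont (jj s) f (by linarith)) (hy.half (jj s) f (by linarith)) hcon.le
      have h2 := hgrow s hs' (jj s) (by linarith) f hfK
      have h3 : Ψ s f ≤ |Cb| * (1 + jj s) := by
        refine (le_abs_self _).trans (h2.trans ?_)
        exact mul_le_mul_of_nonneg_right (le_abs_self _) (by linarith)
      have h4 : pen 8 (jj s) (y (jj s) f) ≤ |Cb| * (1 + jj s) + B := by linarith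
      have h5 : Real.exp (8 * jj s * (3 / 4) / 2 - 3 / 2 * jj s) = Real.exp (3 / 2 * jj s) := by
        congr 1; ring
      rw [h5] at h1
      have h6 : (jj s) ^ 2 < Real.exp (3 / 2 * jj s) := by
        have h7 : 3 / 4 * jj s + 1 ≤ Real.exp (3 / 4 * jj s) := Real.add_one_le_exp _
        have h8 : Real.exp (3 / 2 * jj s) = Real.exp (3 / 4 * jj s) ^ 2 := by
          rw [← Real.exp_nat_mul]; congr 1; push_cast; ring
        have h9 : Real.exp (3 / 4 * jj s) = Real.exp (1 / 4 * jj s) ^ 3 := by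
          rw [← Real.exp_nat_mul]; congr 1; push_cast; ring
        have h10 : 1 / 4 * jj s + 1 ≤ Real.exp (1 / 4 * jj s) := Real.add_one_le_exp _
        have h11 : jj s < Real.exp (3 / 4 * jj s) := by
          rw [h9]
          have h12 : (1 / 4 * jj s + 1) ^ 3 ≤ Real.exp (1 / 4 * jj s) ^ 3 :=
            pow_le_pow_left₀ (by linarith) h10 3
          have h13 : jj s < (1 / 4 * jj s + 1) ^ 3 := by
            nlinarith [sq_nonneg (jj s - 4), sq_nonneg (jj s), mul_nonneg (show 0 ≤ jj s by linarith) (sq_nonneg (jj s - 4))]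
          linarith
        rw [h8]
        exact pow_lt_pow_left₀ h11 (by linarith) (by norm_num)
      have h14 : |Cb| * (1 + jj s) + B ≤ (jj s) ^ 2 := by
        have : 0 ≤ |Cb| := abs_nonneg _
        nlinarith
      linarith
    have hLh : L * h ≤ 1 := by
      rw [le_div_iff₀ hLpos] at hh2
      linarith
    have hLh0 : 0 ≤ L * h := mul_nonneg hLpos.le hh.1
    have hjd : jj (s + h) - jj s = jj s * (Real.exp (L * h) - 1) := by
      simp only [hjjdef]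
      rw [mul_add, Real.exp_add]; ring
    have hexp1 : L * h ≤ Real.exp (L * h) - 1 := by
      have := Real.add_one_le_exp (L * h); linarith
    have hexp2 : Real.exp (L * h) - 1 ≤ 2 * (L * h) := by
      have := exp_le_quad (x := L * h) (by rw [abs_of_nonneg hLh0]; exact hLh)
      nlinarith
    have hd1 : jj s * (L * h) ≤ jj (s + h) - jj s := by
      rw [hjd]; exact mul_le_mul_of_nonneg_left hexp1 (by linarith)
    have hd2 : jj (s + h) - jj s ≤ 2 * J * L * h := by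
      rw [hjd]
      calc jj s * (Real.exp (L * h) - 1) ≤ jj s * (2 * (L * h)) :=
            mul_le_mul_of_nonneg_left hexp2 (by linarith)
        _ ≤ J * (2 * (L * h)) := mul_le_mul_of_nonneg_right hjsJ (by linarith)
        _ = _ := by ring
    have hd3 : jj (s + h) - jj s ≤ δ₀ := by
      refine hd2.trans ?_
      rw [le_div_iff₀ hJL] at hh3
      linarith
    have hst := step hy (n := n) (C1 := C1) (C2 := C2) (L := L) (e := e) (δ₀ := δ₀) (J := J)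
      (j := jj s) (j' := jj (s + h)) (h := h) hC2 hjs2 (hjjle (s + h) hsh) hd1 hd3 hh.1
      (by simp only [hLdef]; linarith) hL1 hL2 hepos.le hdecr (Ψs := Ψ s) (Ψh := Ψ (s + h))
      (Ψ' := Ψ' s f) (f := f) hfK hconf hfmax
      (htime' s hs' h ⟨hh.1, hh1⟩ hsh f (Kj_mono hy (by linarith) hjsJ hfK))
      (hvar s hs' (jj s) ⟨hjs, hjsJ⟩ f hfK e hepos)
    refine ⟨f, hst.1, ?_⟩
    have h1 : 2 * e * h + (jj (s + h) - jj s) * e ≤ h * (ε / (2 * (t + 1))) := by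
      have h2 : (jj (s + h) - jj s) * e ≤ 2 * J * L * h * e :=
        mul_le_mul_of_nonneg_right hd2 hepos.le
      have h3 : e * (2 + 2 * J * L) = ε / (2 * (t + 1)) := by
        rw [he]
        field_simp
      calc 2 * e * h + (jj (s + h) - jj s) * e ≤ h * (e * (2 + 2 * J * L)) := by linarith
        _ = _ := by rw [h3]
    linarith [hst.2]
  -- iterate
  obtain ⟨m, hm⟩ := exists_nat_ge (t / hs)
  set M : ℕ := m + 1 with hM
  have hMpos : (0 : ℝ) < M := by simp only [hM]; positivity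
  set h : ℝ := t / M with hh
  have hh0 : 0 ≤ h := by positivity
  have hhle : h ≤ hs := by
    rw [hh, div_le_iff₀ hMpos]
    rw [div_le_iff₀ hhs0] at hm
    have : (m : ℝ) ≤ M := by simp [hM]
    nlinarith
  have hind : ∀ k : ℕ, k ≤ M → ∃ f ∈ Kj y (jj (k * h)),
      Ψ 0 f₀ - ε / 2 - k * h * (ε / (2 * (t + 1)))
        ≤ Ψ (k * h) f - pen 8 (jj (k * h)) (y (jj (k * h)) f) := by
    intro k
    induction k with
    | zero =>
      intro _
      refine ⟨f₀, ?_, ?_⟩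
      · simp only [Nat.cast_zero, zero_mul, hjj0]
        exact Kj_mono hy hjf1 (by linarith) hf0K
      · simp only [Nat.cast_zero, zero_mul, hjj0, sub_zero]
        have h1 := pen_le (κ := 8) (j := j₀) (c := c * Real.exp (-j₀)) (by norm_num) (by linarith)
          (hy.cont j₀ f₀ (by linarith)) (fun ζ => hc j₀ ζ (by linarith))
        have h2 : 8 * j₀ * (c * Real.exp (-j₀)) ≤ 8 * c := by
          have h3 : j₀ + 1 ≤ Real.exp j₀ := Real.add_one_le_exp j₀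
          have h4 : j₀ * Real.exp (-j₀) ≤ 1 := by
            rw [Real.exp_neg, ← div_eq_mul_inv, div_le_one (Real.exp_pos _)]
            linarith
          nlinarith
        have h5 : pen 8 j₀ (y j₀ f₀) ≤ ε / 2 := by
          refine h1.trans (le_trans ?_ hj₀a)
          apply mul_le_mul_of_nonneg_left _ (Real.exp_pos _).le
          apply mul_le_mul_of_nonneg_left _ two_pi_nonneg
          exact Real.exp_le_exp.mpr h2
        linarith
    | succ k ih =>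
      intro hk
      have hk' : k ≤ M := by omega
      obtain ⟨f, hfK, hf⟩ := ih hk'
      have hkM : (k : ℝ) + 1 ≤ M := by exact_mod_cast hk
      have hMh : (M : ℝ) * h = t := by rw [hh]; field_simp
      have hs1 : (k : ℝ) * h + h ≤ t := by nlinarith
      have hs0 : (0 : ℝ) ≤ (k : ℝ) * h := by positivity
      have hbd : -B ≤ Ψ 0 f₀ - ε / 2 - k * h * (ε / (2 * (t + 1))) := by
        have h1 := hgrow 0 ⟨le_rfl, ht⟩ jf hjf1 f₀ hf0K
        have h2 : -(|Cb| * (1 + jf)) ≤ Ψ 0 f₀ := by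
          have h3 : |Ψ 0 f₀| ≤ |Cb| * (1 + jf) :=
            h1.trans (mul_le_mul_of_nonneg_right (le_abs_self _) (by linarith))
          exact (abs_le.mp h3).1
        have h4 : (k : ℝ) * h * (ε / (2 * (t + 1))) ≤ ε / 2 := by
          have h5 : (k : ℝ) * h ≤ t + 1 := by linarith
          calc (k : ℝ) * h * (ε / (2 * (t + 1))) ≤ (t + 1) * (ε / (2 * (t + 1))) :=
                mul_le_mul_of_nonneg_right h5 (by positivity)
            _ = ε / 2 := by field_simp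
        simp only [hB]; linarith
      obtain ⟨g, hgK, hg⟩ := hstep (k * h) ⟨hs0, by linarith⟩ h ⟨hh0, hhle⟩ hs1 _ hbd ⟨f, hfK, hf⟩
      have e1 : ((k + 1 : ℕ) : ℝ) * h = k * h + h := by push_cast; ring
      refine ⟨g, ?_, ?_⟩
      · rw [e1]; exact hgK
      · rw [e1]
        refine le_trans (le_of_eq ?_) hg
        ring
  obtain ⟨f, hfK, hf⟩ := hind M le_rfl
  have hMh : (M : ℝ) * h = t := by rw [hh]; field_simp
  rw [hMh] at hf hfK
  refine ⟨f, hfK, ?_⟩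
  have h1 := pen_nonneg 8 (jj t) (y (jj t) f)
  have h2 : t * (ε / (2 * (t + 1))) ≤ ε / 2 := by
    calc t * (ε / (2 * (t + 1))) ≤ (t + 1) * (ε / (2 * (t + 1))) :=
          mul_le_mul_of_nonneg_right (by linarith) (by positivity)
      _ = ε / 2 := by field_simp
  linarith

end

end Crest.Agent.R269.Pen_516
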