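import Mathlib

/-!
# R269: local Riemann-Hilbert regularity (leaf L3, helper142)

`RH0` : for a matrix valued holomorphic function `M` on a box above the segment `[-a,a]` with
`|M(w)|_F ≤ K / (Im w)^p`, the weighted `L²` norm of `M` on the line `Im w = ε` is bounded by the one of
the Hermitian part `M + M^*` plus a constant (Cauchy's theorem for `tr((φ M)²)`).
-/

set_option autoImplicit false

open scoped ComplexConjugate Interval
open MeasureTheory Set Filter

namespace Crest.Agent.R269.RH_142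

variable {ι : Type*} [Fintype ι]

/-- Squared Frobenius norm. -/
noncomputable def fro (M : Matrix ι ι ℂ) : ℝ := ∑ i, ∑ j, ‖M i j‖ ^ 2

/-- `tr (M²)`. -/
noncomputable def tr2 (M : Matrix ι ι ℂ) : ℂ := ∑ i, ∑ j, M i j * M j i

theorem fro_nonneg (M : Matrix ι ι ℂ) : 0 ≤ fro M :=
  Finset.sum_nonneg fun _ _ => Finset.sum_nonneg fun _ _ => by positivity

theorem norm_tr2_le (M : Matrix ι ι ℂ) : ‖tr2 M‖ ≤ fro M := by
  have h1 : ‖tr2 M‖ ≤ ∑ i, ∑ j, ‖M i j‖ * ‖M j i‖ := by
    refine (norm_sum_le _ _).trans (Finset.sum_le_sum fun i _ => ?_)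
    refine (norm_sum_le _ _).trans (Finset.sum_le_sum fun j _ => ?_)
    rw [norm_mul]
  have h2 : ∑ i, ∑ j, ‖M i j‖ * ‖M j i‖ ≤ ∑ i, ∑ j, (‖M i j‖ ^ 2 + ‖M j i‖ ^ 2) / 2 := by
    refine Finset.sum_le_sum fun i _ => Finset.sum_le_sum fun j _ => ?_
    nlinarith [sq_nonneg (‖M i j‖ - ‖M j i‖)]
  have h3 : ∑ i, ∑ j, (‖M i j‖ ^ 2 + ‖M j i‖ ^ 2) / 2 = fro M := by
    have : ∑ i, ∑ j, ‖M j i‖ ^ 2 = ∑ i, ∑ j, ‖M i j‖ ^ 2 := Finset.sum_comm
    unfold fro
    simp only [← Finset.sum_div, Finset.sum_add_distrib]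
    rw [this]; ring
  linarith

/-- pointwise identity `tr M² = tr (M R) - |M|²`, `R = M + M^*`. -/
theorem tr2_eq (M : Matrix ι ι ℂ) :
    tr2 M = (∑ i, ∑ j, M i j * (M + M.conjTranspose) j i) - (fro M : ℂ) := by
  unfold tr2 fro
  push_cast
  rw [← Finset.sum_sub_distrib]
  refine Finset.sum_congr rfl fun i _ => ?_
  rw [← Finset.sum_sub_distrib]
  refine Finset.sum_congr rfl fun j _ => ?_
  rw [Matrix.add_apply, Matrix.conjTranspose_apply, mul_add]
  have : M i j * star (M i j) = (‖M i j‖ : ℂ) ^ 2 := by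
    rw [Complex.star_def, Complex.mul_conj, Complex.normSq_eq_norm_sq]; norm_cast
  rw [this]; ring

theorem norm_trR_le (M R : Matrix ι ι ℂ) :
    ‖∑ i, ∑ j, M i j * R j i‖ ≤ (fro M + fro R) / 2 := by
  have h1 : ‖∑ i, ∑ j, M i j * R j i‖ ≤ ∑ i, ∑ j, ‖M i j‖ * ‖R j i‖ := by
    refine (norm_sum_le _ _).trans (Finset.sum_le_sum fun i _ => ?_)
    refine (norm_sum_le _ _).trans (Finset.sum_le_sum fun j _ => ?_)
    rw [norm_mul]
  have h2 : ∑ i, ∑ j, ‖M i j‖ * ‖R j i‖ ≤ ∑ i, ∑ j, (‖M i j‖ ^ 2 + ‖R j i‖ ^ 2) / 2 := by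
    refine Finset.sum_le_sum fun i _ => Finset.sum_le_sum fun j _ => ?_
    nlinarith [sq_nonneg (‖M i j‖ - ‖R j i‖)]
  have h3 : ∑ i, ∑ j, (‖M i j‖ ^ 2 + ‖R j i‖ ^ 2) / 2 = (fro M + fro R) / 2 := by
    have : ∑ i, ∑ j, ‖R j i‖ ^ 2 = ∑ i, ∑ j, ‖R i j‖ ^ 2 := Finset.sum_comm
    unfold fro
    simp only [← Finset.sum_div, Finset.sum_add_distrib]
    rw [this]
  linarith

/-- key pointwise inequality: `|M|² ≤ |R|² - 2 Re tr(M²)`. -/
theorem fro_le (M : Matrix ι ι ℂ) :
    fro M ≤ fro (M + M.conjTranspose) - 2 * (tr2 M).re := by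
  have h := tr2_eq M
  have h2 := norm_trR_le M (M + M.conjTranspose)
  have h3 : (tr2 M).re = (∑ i, ∑ j, M i j * (M + M.conjTranspose) j i).re - fro M := by
    rw [h]; simp
  have h4 := Complex.re_le_norm (∑ i, ∑ j, M i j * (M + M.conjTranspose) j i)
  linarith

theorem tr2_smul (c : ℂ) (M : Matrix ι ι ℂ) : tr2 (c • M) = c ^ 2 * tr2 M := by
  unfold tr2
  simp only [Matrix.smul_apply, smul_eq_mul, Finset.mul_sum]
  refine Finset.sum_congr rfl fun i _ => Finset.sum_congr rfl fun j _ => by ring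

/-- The constant. -/
noncomputable def C0 (a h K : ℝ) (p : ℕ) : ℝ :=
  K ^ 2 * (2 * (h * ((2 * a + h) ^ (2 * p + 2) * h ^ 2)) +
    2 * a * ((2 * a ^ 2 + h ^ 2) ^ (2 * p + 2) / h ^ (2 * p)))

theorem C0_nonneg {a h K : ℝ} (ha : 0 < a) (hh : 0 < h) (p : ℕ) : 0 ≤ C0 a h K p := by
  unfold C0; positivity

/-- Cauchy estimate of `∫ tr((φ M)²)` on the line `Im w = ε`. -/
theorem cauchy_box {a h K ε : ℝ} (ha : 0 < a) (hε : 0 < ε) (hεh : ε < h) (p : ℕ)
    (M : ℂ → Matrix ι ι ℂ)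
    (hM : ∀ i j, DifferentiableOn ℂ (fun w => M w i j)
      {w : ℂ | w.re ∈ Icc (-a) a ∧ w.im ∈ Ioc 0 h})
    (hK : ∀ w : ℂ, w.re ∈ Icc (-a) a → w.im ∈ Ioc 0 h → fro (M w) ≤ K ^ 2 / w.im ^ (2 * p)) :
    ‖∫ t in (-a)..a, (((a ^ 2 - t ^ 2) ^ (p + 1) : ℝ) : ℂ) ^ 2 * tr2 (M (t + ε * Complex.I))‖
      ≤ C0 a h K p := by
  have hh : 0 < h := hε.trans hεh
  set φ : ℂ → ℂ := fun w => ((a : ℂ) ^ 2 - (w - ε * Complex.I) ^ 2) ^ (p + 1) with hφ
  set F : ℂ → ℂ := fun w => φ w ^ 2 * tr2 (M w) with hF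
  have hFd : DifferentiableOn ℂ F ([[(-a + ε * Complex.I : ℂ).re, (a + h * Complex.I : ℂ).re]] ×ℂ
      [[(-a + ε * Complex.I : ℂ).im, (a + h * Complex.I : ℂ).im]]) := by
    have hsub : ([[(-a + ε * Complex.I : ℂ).re, (a + h * Complex.I : ℂ).re]] ×ℂ
      [[(-a + ε * Complex.I : ℂ).im, (a + h * Complex.I : ℂ).im]]) ⊆
        {w : ℂ | w.re ∈ Icc (-a) a ∧ w.im ∈ Ioc 0 h} := by
      intro w hw
      rw [Complex.mem_reProdIm] at hw
      simp only [Complex.add_re, Complex.neg_re, Complex.ofReal_re, Complex.mul_re, Complex.I_re,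
        mul_zero, Complex.ofReal_im, Complex.I_im, mul_one, sub_self, add_zero, Complex.add_im,
        Complex.neg_im, neg_zero, Complex.mul_im, zero_add] at hw
      rw [uIcc_of_le (by linarith), uIcc_of_le hεh.le] at hw
      exact ⟨hw.1, ⟨by linarith [hw.2.1], hw.2.2⟩⟩
    have h1 : DifferentiableOn ℂ F {w : ℂ | w.re ∈ Icc (-a) a ∧ w.im ∈ Ioc 0 h} := by
      have hφd : Differentiable ℂ φ := by
        intro w; simp only [hφ]; fun_prop
      refine DifferentiableOn.mul (hφd.differentiableOn.pow 2) ?_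
      unfold tr2
      refine DifferentiableOn.fun_sum fun i _ => DifferentiableOn.fun_sum fun j _ => ?_
      exact (hM i j).mul (hM j i)
    exact h1.mono hsub
  have hrect := Complex.integral_boundary_rect_eq_zero_of_differentiableOn F _ _ hFd
  simp only [Complex.add_re, Complex.neg_re, Complex.ofReal_re, Complex.mul_re, Complex.I_re,
        mul_zero, Complex.ofReal_im, Complex.I_im, mul_one, sub_self, add_zero, Complex.add_im,
        Complex.neg_im, neg_zero, Complex.mul_im, zero_add, Complex.ofReal_neg] at hrect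
  -- the four sides
  have hbot : (∫ x in (-a)..a, F (x + ε * Complex.I)) =
      ∫ t in (-a)..a, (((a ^ 2 - t ^ 2) ^ (p + 1) : ℝ) : ℂ) ^ 2 * tr2 (M (t + ε * Complex.I)) := by
    refine intervalIntegral.integral_congr fun t _ => ?_
    simp only [hF, hφ]
    push_cast
    ring_nf
  have htop : ‖∫ x in (-a)..a, F (x + h * Complex.I)‖ ≤
      K ^ 2 * (2 * a * ((2 * a ^ 2 + h ^ 2) ^ (2 * p + 2) / h ^ (2 * p))) := by
    have := intervalIntegral.norm_integral_le_of_norm_le_const (a := -a) (b := a)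
      (f := fun x : ℝ => F (x + h * Complex.I))
      (C := K ^ 2 * ((2 * a ^ 2 + h ^ 2) ^ (2 * p + 2) / h ^ (2 * p))) (fun t ht => ?_)
    · refine this.trans (le_of_eq ?_)
      rw [abs_of_nonneg (by linarith)]; ring
    · rw [uIoc_of_le (by linarith)] at ht
      have hre : ((t : ℂ) + h * Complex.I).re = t := by simp
      have him : ((t : ℂ) + h * Complex.I).im = h := by simp
      have hKt := hK (t + h * Complex.I) (by rw [hre]; exact ⟨ht.1.le, ht.2⟩)
        (by rw [him]; exact ⟨hh, le_rfl⟩)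
      rw [him] at hKt
      have hφt : ‖φ (t + h * Complex.I)‖ ≤ (2 * a ^ 2 + h ^ 2) ^ (p + 1) := by
        simp only [hφ, norm_pow]
        refine pow_le_pow_left₀ (norm_nonneg _) ?_ _
        have e1 : (t : ℂ) + h * Complex.I - ε * Complex.I = t + ((h - ε : ℝ) : ℂ) * Complex.I := by
          push_cast; ring
        rw [e1]
        refine (norm_sub_le _ _).trans ?_
        rw [norm_pow, norm_pow, Complex.norm_real, Real.norm_eq_abs, abs_of_pos ha,
          Complex.sq_norm, Complex.normSq_add_mul_I]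
        have : t ^ 2 ≤ a ^ 2 := by nlinarith [ht.1, ht.2]
        have : (h - ε) ^ 2 ≤ h ^ 2 := by nlinarith
        linarith
      simp only [hF, norm_mul, norm_pow]
      calc ‖φ (t + h * Complex.I)‖ ^ 2 * ‖tr2 (M (t + h * Complex.I))‖
          ≤ ((2 * a ^ 2 + h ^ 2) ^ (p + 1)) ^ 2 * (K ^ 2 / h ^ (2 * p)) := by
            refine mul_le_mul (pow_le_pow_left₀ (norm_nonneg _) hφt 2)
              ((norm_tr2_le _).trans hKt) (norm_nonneg _) (by positivity)
        _ = K ^ 2 * ((2 * a ^ 2 + h ^ 2) ^ (2 * p + 2) / h ^ (2 * p)) := by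
            rw [← pow_mul]; ring_nf
  have hside : ∀ s : ℝ, (s = a ∨ s = -a) →
      ‖∫ y in ε..h, F (s + y * Complex.I)‖ ≤ K ^ 2 * (h * ((2 * a + h) ^ (2 * p + 2) * h ^ 2)) := by
    intro s hs
    have := intervalIntegral.norm_integral_le_of_norm_le_const (a := ε) (b := h)
      (f := fun y : ℝ => F (s + y * Complex.I))
      (C := K ^ 2 * ((2 * a + h) ^ (2 * p + 2) * h ^ 2)) (fun y hy => ?_)
    · refine this.trans ?_
      rw [abs_of_nonneg (by linarith)]
      have : 0 ≤ K ^ 2 * ((2 * a + h) ^ (2 * p + 2) * h ^ 2) := by positivity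
      nlinarith
    · rw [uIoc_of_le hεh.le] at hy
      have hy0 : 0 < y := hε.trans hy.1
      have hre : ((s : ℂ) + y * Complex.I).re = s := by simp
      have him : ((s : ℂ) + y * Complex.I).im = y := by simp
      have hKt := hK (s + y * Complex.I) (by rw [hre]; rcases hs with rfl | rfl <;>
        constructor <;> linarith) (by rw [him]; exact ⟨hy0, hy.2⟩)
      rw [him] at hKt
      have hφt : ‖φ (s + y * Complex.I)‖ ≤ (y * (2 * a + h)) ^ (p + 1) := by
        simp only [hφ, norm_pow]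
        refine pow_le_pow_left₀ (norm_nonneg _) ?_ _
        have hs2 : (s : ℂ) ^ 2 = (a : ℂ) ^ 2 := by
          rcases hs with rfl | rfl
          · rfl
          · push_cast; ring
        have e1 : (a : ℂ) ^ 2 - ((s : ℂ) + y * Complex.I - ε * Complex.I) ^ 2 =
            ((y - ε : ℝ) : ℂ) * (((y - ε : ℝ) : ℂ) - 2 * s * Complex.I) := by
          push_cast
          have hI : Complex.I ^ 2 = -1 := Complex.I_sq
          linear_combination (-hs2) - ((y : ℂ) - ε) ^ 2 * hI
        rw [e1, norm_mul, Complex.norm_real, Real.norm_eq_abs, abs_of_pos (by linarith [hy.1])]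
        have hsa : |s| = a := by rcases hs with rfl | rfl <;> simp [abs_of_pos ha]
        have e2 : ‖((y - ε : ℝ) : ℂ) - 2 * s * Complex.I‖ ≤ 2 * a + h := by
          refine (norm_sub_le _ _).trans ?_
          rw [Complex.norm_real, norm_mul, norm_mul, Complex.norm_I, Complex.norm_real,
            Real.norm_eq_abs, Real.norm_eq_abs, hsa, abs_of_pos (by linarith [hy.1])]
          simp
          linarith [hy.2]
        exact mul_le_mul (by linarith) e2 (norm_nonneg _) hy0.le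
      simp only [hF, norm_mul, norm_pow]
      calc ‖φ (s + y * Complex.I)‖ ^ 2 * ‖tr2 (M (s + y * Complex.I))‖
          ≤ ((y * (2 * a + h)) ^ (p + 1)) ^ 2 * (K ^ 2 / y ^ (2 * p)) := by
            refine mul_le_mul (pow_le_pow_left₀ (norm_nonneg _) hφt 2)
              ((norm_tr2_le _).trans hKt) (norm_nonneg _) (by positivity)
        _ = K ^ 2 * ((2 * a + h) ^ (2 * p + 2) * y ^ 2) := by
            have hne : y ^ (2 * p) ≠ 0 := by positivity
            have e3 : ((y * (2 * a + h)) ^ (p + 1)) ^ 2 =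
                y ^ (2 * p) * (y ^ 2 * (2 * a + h) ^ (2 * p + 2)) := by
              rw [← pow_mul, mul_pow]; ring
            rw [e3]
            field_simp
        _ ≤ K ^ 2 * ((2 * a + h) ^ (2 * p + 2) * h ^ 2) := by
            have : y ^ 2 ≤ h ^ 2 := by nlinarith [hy.2]
            gcongr
  rw [← hbot]
  have hkey : (∫ x in (-a)..a, F (x + ε * Complex.I)) =
      (∫ x in (-a)..a, F (x + h * Complex.I)) - Complex.I • (∫ y in ε..h, F (a + y * Complex.I))
        + Complex.I • ∫ y in ε..h, F (-a + y * Complex.I) := by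
    linear_combination hrect
  rw [hkey]
  have h1 := hside a (Or.inl rfl)
  have h2 := hside (-a) (Or.inr rfl)
  push_cast at h2
  calc _ ≤ ‖∫ x in (-a)..a, F (x + h * Complex.I)‖ +
        ‖Complex.I • (∫ y in ε..h, F (a + y * Complex.I))‖ +
        ‖Complex.I • ∫ y in ε..h, F (-a + y * Complex.I)‖ := by
        refine (norm_add_le _ _).trans ?_
        gcongr
        exact norm_sub_le _ _
    _ ≤ C0 a h K p := by
        rw [norm_smul, norm_smul, Complex.norm_I, one_mul, one_mul]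
        unfold C0
        linarith

/-- `RH0`, version on the line `Im w = ε`. -/
theorem rh0_eps {a h K ε : ℝ} (ha : 0 < a) (hε : 0 < ε) (hεh : ε < h) (p : ℕ)
    (M : ℂ → Matrix ι ι ℂ)
    (hM : ∀ i j, DifferentiableOn ℂ (fun w => M w i j)
      {w : ℂ | w.re ∈ Icc (-a) a ∧ w.im ∈ Ioc 0 h})
    (hK : ∀ w : ℂ, w.re ∈ Icc (-a) a → w.im ∈ Ioc 0 h → fro (M w) ≤ K ^ 2 / w.im ^ (2 * p)) :
    ∫ t in (-a)..a, (a ^ 2 - t ^ 2) ^ (2 * p + 2) * fro (M (t + ε * Complex.I)) ≤
      (∫ t in (-a)..a, (a ^ 2 - t ^ 2) ^ (2 * p + 2) *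
        fro (M (t + ε * Complex.I) + (M (t + ε * Complex.I)).conjTranspose)) + 2 * C0 a h K p := by
  have hcb := cauchy_box ha hε hεh p M hM hK
  have hline : ∀ i j, ContinuousOn (fun t : ℝ => M (t + ε * Complex.I) i j) (Icc (-a) a) := by
    intro i j
    refine (hM i j).continuousOn.comp (f := fun t : ℝ => ((t : ℂ) + ε * Complex.I))
      (by fun_prop) ?_
    intro t ht
    constructor
    · simpa using ht
    · simp only [Complex.add_im, Complex.ofReal_im, Complex.mul_im, Complex.ofReal_re,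
        Complex.I_im, mul_one, Complex.I_re, mul_zero, add_zero, zero_add]
      exact ⟨hε, hεh.le⟩
  have hle : -a ≤ a := by linarith
  have hcf : ContinuousOn (fun t : ℝ => fro (M (t + ε * Complex.I))) (Icc (-a) a) := by
    unfold fro
    exact continuousOn_finsetSum _ fun i _ => continuousOn_finsetSum _ fun j _ =>
      ((hline i j).norm.pow 2)
  have hcR : ContinuousOn (fun t : ℝ => fro (M (t + ε * Complex.I) +
      (M (t + ε * Complex.I)).conjTranspose)) (Icc (-a) a) := by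
    unfold fro
    refine continuousOn_finsetSum _ fun i _ => continuousOn_finsetSum _ fun j _ => ?_
    simp only [Matrix.add_apply, Matrix.conjTranspose_apply]
    exact (((hline i j).add (Complex.continuous_conj.comp_continuousOn (hline j i))).norm.pow 2)
  have hct : ContinuousOn (fun t : ℝ => tr2 (M (t + ε * Complex.I))) (Icc (-a) a) := by
    unfold tr2
    exact continuousOn_finsetSum _ fun i _ => continuousOn_finsetSum _ fun j _ =>
      ((hline i j).mul (hline j i))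
  have hw : ContinuousOn (fun t : ℝ => (a ^ 2 - t ^ 2) ^ (2 * p + 2)) (Icc (-a) a) := by
    fun_prop
  have hI1 : IntervalIntegrable (fun t : ℝ => (a ^ 2 - t ^ 2) ^ (2 * p + 2) *
      fro (M (t + ε * Complex.I))) volume (-a) a :=
    (hw.mul hcf).intervalIntegrable_of_Icc hle
  have hI2 : IntervalIntegrable (fun t : ℝ => (a ^ 2 - t ^ 2) ^ (2 * p + 2) *
      fro (M (t + ε * Complex.I) + (M (t + ε * Complex.I)).conjTranspose)) volume (-a) a :=
    (hw.mul hcR).intervalIntegrable_of_Icc hle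
  have hI3 : IntervalIntegrable (fun t : ℝ => (((a ^ 2 - t ^ 2) ^ (p + 1) : ℝ) : ℂ) ^ 2 *
      tr2 (M (t + ε * Complex.I))) volume (-a) a := by
    refine ContinuousOn.intervalIntegrable_of_Icc hle (ContinuousOn.mul ?_ hct)
    fun_prop
  have hre : (∫ t in (-a)..a, (((a ^ 2 - t ^ 2) ^ (p + 1) : ℝ) : ℂ) ^ 2 *
      tr2 (M (t + ε * Complex.I))).re =
      ∫ t in (-a)..a, (a ^ 2 - t ^ 2) ^ (2 * p + 2) * (tr2 (M (t + ε * Complex.I))).re := by
    have := Complex.reCLM.intervalIntegral_comp_comm hI3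
    simp only [Complex.reCLM_apply] at this
    rw [← this]
    refine intervalIntegral.integral_congr fun t _ => ?_
    have e : (((a ^ 2 - t ^ 2) ^ (p + 1) : ℝ) : ℂ) ^ 2 =
      (((a ^ 2 - t ^ 2) ^ (2 * p + 2) : ℝ) : ℂ) := by
      push_cast; ring
    simp only [e]
    rw [Complex.re_ofReal_mul]
  have hI4 : IntervalIntegrable (fun t : ℝ => (a ^ 2 - t ^ 2) ^ (2 * p + 2) *
      (tr2 (M (t + ε * Complex.I))).re) volume (-a) a :=
    (hw.mul (Complex.continuous_re.comp_continuousOn hct)).intervalIntegrable_of_Icc hle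
  have hmono : ∫ t in (-a)..a, (a ^ 2 - t ^ 2) ^ (2 * p + 2) * fro (M (t + ε * Complex.I)) ≤
      ∫ t in (-a)..a, ((a ^ 2 - t ^ 2) ^ (2 * p + 2) *
        fro (M (t + ε * Complex.I) + (M (t + ε * Complex.I)).conjTranspose) -
        2 * ((a ^ 2 - t ^ 2) ^ (2 * p + 2) * (tr2 (M (t + ε * Complex.I))).re)) := by
    refine intervalIntegral.integral_mono_on hle hI1 (hI2.sub (hI4.const_mul 2)) fun t ht => ?_
    have h1 := fro_le (M (t + ε * Complex.I))
    have h2 : 0 ≤ (a ^ 2 - t ^ 2) ^ (2 * p + 2) := by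
      have : 2 * p + 2 = 2 * (p + 1) := by ring
      rw [this, pow_mul]; positivity
    nlinarith
  rw [intervalIntegral.integral_sub hI2 (hI4.const_mul 2), intervalIntegral.integral_const_mul,
    ← hre] at hmono
  have h5 : -(∫ t in (-a)..a, (((a ^ 2 - t ^ 2) ^ (p + 1) : ℝ) : ℂ) ^ 2 *
      tr2 (M (t + ε * Complex.I))).re ≤ C0 a h K p :=
    ((neg_le_abs _).trans (Complex.abs_re_le_norm _)).trans hcb
  linarith

/-! ### Passage to the boundary -/

theorem fro_add_le (A B : Matrix ι ι ℂ) {δ : ℝ} (hδ : 0 < δ) :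
    fro (A + B) ≤ (1 + δ) * fro A + (1 + δ⁻¹) * fro B := by
  unfold fro
  rw [Finset.mul_sum, Finset.mul_sum, ← Finset.sum_add_distrib]
  refine Finset.sum_le_sum fun i _ => ?_
  rw [Finset.mul_sum, Finset.mul_sum, ← Finset.sum_add_distrib]
  refine Finset.sum_le_sum fun j _ => ?_
  rw [Matrix.add_apply]
  have h1 : ‖A i j + B i j‖ ^ 2 ≤ (‖A i j‖ + ‖B i j‖) ^ 2 :=
    pow_le_pow_left₀ (norm_nonneg _) (norm_add_le _ _) 2
  have h2 : 0 ≤ δ⁻¹ * (δ * ‖A i j‖ - ‖B i j‖) ^ 2 := by positivity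
  have h3 : δ⁻¹ * (δ * ‖A i j‖ - ‖B i j‖) ^ 2 =
      δ * ‖A i j‖ ^ 2 - 2 * ‖A i j‖ * ‖B i j‖ + δ⁻¹ * ‖B i j‖ ^ 2 := by
    field_simp; ring
  nlinarith

theorem fro_neg (A : Matrix ι ι ℂ) : fro (-A) = fro A := by
  simp [fro]

theorem fro_conjTranspose (A : Matrix ι ι ℂ) : fro A.conjTranspose = fro A := by
  unfold fro
  simp only [Matrix.conjTranspose_apply, norm_star]
  exact Finset.sum_comm

theorem fro_add_le_two (A B : Matrix ι ι ℂ) : fro (A + B) ≤ 2 * fro A + 2 * fro B := by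
  have := fro_add_le A B (δ := 1) one_pos
  norm_num at this
  linarith

theorem memLp_two_fro {μ : Measure ℝ} {m : ℝ → Matrix ι ι ℂ}
    (hm : ∀ i j, MemLp (fun t => m t i j) 2 μ) : Integrable (fun t => fro (m t)) μ := by
  unfold fro
  exact integrable_finsetSum _ fun i _ => integrable_finsetSum _ fun j _ =>
    (hm i j).integrable_norm_pow (by norm_num)

/-- `RH0`: boundary version. -/
theorem rh0 {a h K : ℝ} (ha : 0 < a) (hh : 0 < h) (p : ℕ)
    (M : ℂ → Matrix ι ι ℂ)
    (hM : ∀ i j, DifferentiableOn ℂ (fun w => M w i j)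
      {w : ℂ | w.re ∈ Icc (-a) a ∧ w.im ∈ Ioc 0 h})
    (hK : ∀ w : ℂ, w.re ∈ Icc (-a) a → w.im ∈ Ioc 0 h → fro (M w) ≤ K ^ 2 / w.im ^ (2 * p))
    (m : ℝ → Matrix ι ι ℂ)
    (hm : ∀ i j, MemLp (fun t => m t i j) 2 (volume.restrict (Ioc (-a) a)))
    (hlim : Tendsto (fun ε : ℝ => ∫ t in (-a)..a, fro (M (t + ε * Complex.I) - m t))
      (nhdsWithin 0 (Ioi 0)) (nhds 0)) :
    ∫ t in (-a)..a, (a ^ 2 - t ^ 2) ^ (2 * p + 2) * fro (m t) ≤
      (∫ t in (-a)..a, (a ^ 2 - t ^ 2) ^ (2 * p + 2) * fro (m t + (m t).conjTranspose))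
        + 2 * C0 a h K p := by
  have hle : -a ≤ a := by linarith
  set ρ : ℝ → ℝ := fun t => (a ^ 2 - t ^ 2) ^ (2 * p + 2) with hρ
  set A : ℝ := a ^ (2 * (2 * p + 2)) with hA
  have hρ0 : ∀ t, 0 ≤ ρ t := fun t => by
    have : 2 * p + 2 = 2 * (p + 1) := by ring
    simp only [hρ]; rw [this, pow_mul]; positivity
  have hρA : ∀ t ∈ Icc (-a) a, ρ t ≤ A := fun t ht => by
    simp only [hρ, hA]
    rw [pow_mul]
    refine pow_le_pow_left₀ ?_ ?_ _
    · nlinarith [ht.1, ht.2]
    · nlinarith [sq_nonneg t]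
  have hρc : Continuous ρ := by simp only [hρ]; fun_prop
  set μ : Measure ℝ := volume.restrict (Ioc (-a) a) with hμ
  -- integrability
  have hρb : ∀ {f : ℝ → ℝ}, Integrable f μ → Integrable (fun t => ρ t * f t) μ := by
    intro f hf
    refine Integrable.bdd_mul (c := A) hf hρc.aestronglyMeasurable ?_
    rw [hμ]
    filter_upwards [ae_restrict_mem measurableSet_Ioc] with t ht
    rw [Real.norm_eq_abs, abs_of_nonneg (hρ0 t)]
    exact hρA t ⟨ht.1.le, ht.2⟩
  have hme : ∀ ε ∈ Ioo 0 h, ∀ i j, MemLp (fun t : ℝ => M (t + ε * Complex.I) i j) 2 μ := by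
    intro ε hε i j
    have hline : ContinuousOn (fun t : ℝ => M (t + ε * Complex.I) i j) (Icc (-a) a) := by
      refine (hM i j).continuousOn.comp (f := fun t : ℝ => ((t : ℂ) + ε * Complex.I))
        (by fun_prop) ?_
      intro t ht
      constructor
      · simpa using ht
      · simp only [Complex.add_im, Complex.ofReal_im, Complex.mul_im, Complex.ofReal_re,
          Complex.I_im, mul_one, Complex.I_re, mul_zero, add_zero, zero_add]
        exact ⟨hε.1, hε.2.le⟩
    obtain ⟨Cc, hCc⟩ := isCompact_Icc.exists_bound_of_continuousOn hline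
    refine MemLp.of_bound (C := Cc) ?_ ?_
    · exact (hline.mono Ioc_subset_Icc_self).aestronglyMeasurable measurableSet_Ioc
    · rw [hμ]
      filter_upwards [ae_restrict_mem measurableSet_Ioc] with t ht
      exact hCc t ⟨ht.1.le, ht.2⟩
  have hmst : ∀ i j, MemLp (fun t => (m t + (m t).conjTranspose) i j) 2 μ := by
    intro i j
    simp only [Matrix.add_apply, Matrix.conjTranspose_apply]
    exact (hm i j).add (hm j i).star
  have hIm := memLp_two_fro hm
  have hImR := memLp_two_fro hmst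
  set X := ∫ t, ρ t * fro (m t) ∂μ with hX
  set Y := ∫ t, ρ t * fro (m t + (m t).conjTranspose) ∂μ with hY
  have hAnn : 0 ≤ A := by simp only [hA]; positivity
  -- main inequality with `δ` and `ε`
  have key : ∀ δ > 0, ∀ ε ∈ Ioo 0 h, X ≤ (1 + δ) * ((1 + δ) * Y + 2 * C0 a h K p) +
      ((1 + δ⁻¹) + (1 + δ) * (1 + δ⁻¹) * 4) *
        (A * ∫ t in (-a)..a, fro (M (t + ε * Complex.I) - m t)) := by
    intro δ hδ ε hε
    have hdi : ∀ i j, MemLp (fun t : ℝ => (M (t + ε * Complex.I) - m t) i j) 2 μ := by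
      intro i j
      simp only [Matrix.sub_apply]
      exact (hme ε hε i j).sub (hm i j)
    have hId := memLp_two_fro hdi
    have hIe := memLp_two_fro (hme ε hε)
    have hre : ∀ i j, MemLp (fun t : ℝ => (M (t + ε * Complex.I) +
        (M (t + ε * Complex.I)).conjTranspose) i j) 2 μ := by
      intro i j
      simp only [Matrix.add_apply, Matrix.conjTranspose_apply]
      exact (hme ε hε i j).add (hme ε hε j i).star
    have hIr := memLp_two_fro hre
    have hJ : ∫ t, ρ t * fro (M (t + ε * Complex.I) - m t) ∂μ ≤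
        A * ∫ t in (-a)..a, fro (M (t + ε * Complex.I) - m t) := by
      rw [intervalIntegral.integral_of_le hle, ← integral_const_mul]
      refine integral_mono_ae (hρb hId) (hId.const_mul A) ?_
      rw [hμ]
      filter_upwards [ae_restrict_mem measurableSet_Ioc] with t ht
      exact mul_le_mul_of_nonneg_right (hρA t ⟨ht.1.le, ht.2⟩) (fro_nonneg _)
    have h1 : X ≤ (1 + δ) * (∫ t, ρ t * fro (M (t + ε * Complex.I)) ∂μ) +
        (1 + δ⁻¹) * ∫ t, ρ t * fro (M (t + ε * Complex.I) - m t) ∂μ := by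
      rw [← integral_const_mul, ← integral_const_mul, ← integral_add]
      · refine integral_mono (hρb hIm) (((hρb hIe).const_mul _).add ((hρb hId).const_mul _))
          fun t => ?_
        have e : m t = M (t + ε * Complex.I) + -(M (t + ε * Complex.I) - m t) := by abel
        have := fro_add_le (M (t + ε * Complex.I)) (-(M (t + ε * Complex.I) - m t)) hδ
        rw [← e, fro_neg] at this
        have := mul_le_mul_of_nonneg_left this (hρ0 t)
        simp only
        linarith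
      · exact (hρb hIe).const_mul _
      · exact (hρb hId).const_mul _
    have h2 : ∫ t, ρ t * fro (M (t + ε * Complex.I) +
        (M (t + ε * Complex.I)).conjTranspose) ∂μ ≤
        (1 + δ) * Y + (1 + δ⁻¹) * (4 * ∫ t, ρ t * fro (M (t + ε * Complex.I) - m t) ∂μ) := by
      rw [← integral_const_mul, ← integral_const_mul, ← integral_const_mul, ← integral_add]
      · refine integral_mono (hρb hIr) (((hρb hImR).const_mul _).add
          (((hρb hId).const_mul _).const_mul _)) fun t => ?_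
        set D := M (t + ε * Complex.I) - m t with hD
        have e : M (t + ε * Complex.I) + (M (t + ε * Complex.I)).conjTranspose =
            (m t + (m t).conjTranspose) + (D + D.conjTranspose) := by
          rw [hD, Matrix.conjTranspose_sub]; abel
        have h3 := fro_add_le (m t + (m t).conjTranspose) (D + D.conjTranspose) hδ
        rw [← e] at h3
        have h4 := fro_add_le_two D D.conjTranspose
        rw [fro_conjTranspose] at h4
        have h5 : 0 ≤ (1 + δ⁻¹) := by positivity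
        have h6 := mul_le_mul_of_nonneg_left h4 h5
        have h7 := mul_le_mul_of_nonneg_left (h3.trans (add_le_add le_rfl h6)) (hρ0 t)
        simp only
        linarith
      · exact (hρb hImR).const_mul _
      · exact ((hρb hId).const_mul _).const_mul _
    have h3 := rh0_eps ha hε.1 hε.2 p M hM hK
    rw [intervalIntegral.integral_of_le hle, intervalIntegral.integral_of_le hle] at h3
    change ∫ t, ρ t * fro (M (t + ε * Complex.I)) ∂μ ≤
      (∫ t, ρ t * fro (M (t + ε * Complex.I) + (M (t + ε * Complex.I)).conjTranspose) ∂μ) +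
      2 * C0 a h K p at h3
    have h4 := mul_le_mul_of_nonneg_left (h3.trans (add_le_add_left h2 _))
      (show 0 ≤ 1 + δ by positivity)
    have h5 := mul_le_mul_of_nonneg_left hJ
      (show 0 ≤ (1 + δ⁻¹) + (1 + δ) * (1 + δ⁻¹) * 4 by positivity)
    nlinarith [h1, h4, h5]
  -- let `ε → 0`
  have key2 : ∀ δ > 0, X ≤ (1 + δ) * ((1 + δ) * Y + 2 * C0 a h K p) := by
    intro δ hδ
    have hT : Tendsto (fun ε : ℝ => (1 + δ) * ((1 + δ) * Y + 2 * C0 a h K p) +
      ((1 + δ⁻¹) + (1 + δ) * (1 + δ⁻¹) * 4) *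
        (A * ∫ t in (-a)..a, fro (M (t + ε * Complex.I) - m t))) (nhdsWithin 0 (Ioi 0))
        (nhds ((1 + δ) * ((1 + δ) * Y + 2 * C0 a h K p) +
      ((1 + δ⁻¹) + (1 + δ) * (1 + δ⁻¹) * 4) * (A * 0))) :=
      ((hlim.const_mul A).const_mul _).const_add _
    have := ge_of_tendsto hT (b := X) (by
      filter_upwards [Ioo_mem_nhdsGT hh] with ε hε
      exact key δ hδ ε hε)
    simpa using this
  have hT2 : Tendsto (fun δ : ℝ => (1 + δ) * ((1 + δ) * Y + 2 * C0 a h K p))
      (nhdsWithin 0 (Ioi 0)) (nhds ((1 + 0) * ((1 + 0) * Y + 2 * C0 a h K p))) := by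
    refine Tendsto.mono_left (Continuous.tendsto ?_ _) nhdsWithin_le_nhds
    fun_prop
  have h6 : X ≤ (1 + 0) * ((1 + 0) * Y + 2 * C0 a h K p) :=
    ge_of_tendsto hT2 (by
      filter_upwards [self_mem_nhdsWithin] with δ hδ
      exact key2 δ hδ)
  rw [intervalIntegral.integral_of_le hle, intervalIntegral.integral_of_le hle]
  change X ≤ Y + 2 * C0 a h K p
  linarith

/-! ### From the factorisation `B^* G B = 1` to the estimate -/

theorem fro_mul_le (A B : Matrix ι ι ℂ) : fro (A * B) ≤ fro A * fro B := by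
  unfold fro
  have h1 : ∀ i j, ‖(A * B) i j‖ ^ 2 ≤ (∑ k, ‖A i k‖ ^ 2) * ∑ k, ‖B k j‖ ^ 2 := by
    intro i j
    rw [Matrix.mul_apply]
    have h2 : ‖∑ k, A i k * B k j‖ ≤ ∑ k, ‖A i k‖ * ‖B k j‖ := by
      refine (norm_sum_le _ _).trans (le_of_eq ?_)
      simp
    calc ‖∑ k, A i k * B k j‖ ^ 2 ≤ (∑ k, ‖A i k‖ * ‖B k j‖) ^ 2 :=
          pow_le_pow_left₀ (norm_nonneg _) h2 2
      _ ≤ _ := Finset.sum_mul_sq_le_sq_mul_sq _ _ _
  calc ∑ i, ∑ j, ‖(A * B) i j‖ ^ 2 ≤ ∑ i, ∑ j, (∑ k, ‖A i k‖ ^ 2) * ∑ k, ‖B k j‖ ^ 2 :=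
        Finset.sum_le_sum fun i _ => Finset.sum_le_sum fun j _ => h1 i j
    _ = (∑ i, ∑ j, ‖A i j‖ ^ 2) * ∑ i, ∑ j, ‖B i j‖ ^ 2 := by
        have h3 : ∑ i, ∑ j, ‖B i j‖ ^ 2 = ∑ j, ∑ k, ‖B k j‖ ^ 2 := Finset.sum_comm
        rw [h3, Finset.sum_mul_sum]

theorem fro_le_of_entry {A : Matrix ι ι ℂ} {K : ℝ} (h : ∀ i j, ‖A i j‖ ≤ K) :
    fro A ≤ (Fintype.card ι : ℝ) ^ 2 * K ^ 2 := by
  unfold fro
  have h1 : ∀ i j, ‖A i j‖ ^ 2 ≤ K ^ 2 := fun i j => pow_le_pow_left₀ (norm_nonneg _) (h i j) 2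
  calc ∑ i, ∑ j, ‖A i j‖ ^ 2 ≤ ∑ _i : ι, ∑ _j : ι, K ^ 2 :=
        Finset.sum_le_sum fun i _ => Finset.sum_le_sum fun j _ => h1 i j
    _ = _ := by simp; ring

/-- The open box `{|Re w| < 2a, 0 < Im w < 2a}`. -/
def Box (a : ℝ) : Set ℂ := {w | w.re ∈ Ioo (-(2 * a)) (2 * a) ∧ w.im ∈ Ioo 0 (2 * a)}

theorem isOpen_Box (a : ℝ) : IsOpen (Box a) :=
  (isOpen_Ioo.preimage Complex.continuous_re).inter (isOpen_Ioo.preimage Complex.continuous_im)

theorem closedBall_subset_Box {a : ℝ} {w : ℂ} (hr : w.re ∈ Icc (-a) a) (hi : w.im ∈ Ioc 0 a) :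
    Metric.closedBall w (w.im / 2) ⊆ Box a := by
  intro z hz
  rw [Metric.mem_closedBall, dist_eq_norm] at hz
  have h1 := (Complex.abs_re_le_norm (z - w)).trans hz
  have h2 := (Complex.abs_im_le_norm (z - w)).trans hz
  rw [Complex.sub_re, abs_le] at h1
  rw [Complex.sub_im, abs_le] at h2
  obtain ⟨hr1, hr2⟩ := hr
  obtain ⟨hi1, hi2⟩ := hi
  refine ⟨⟨by linarith, by linarith⟩, ⟨by linarith, by linarith⟩⟩

theorem norm_deriv_le_Box {a K : ℝ} {f : ℂ → ℂ} (hf : DifferentiableOn ℂ f (Box a))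
    (hK : ∀ w ∈ Box a, ‖f w‖ ≤ K) {w : ℂ} (hr : w.re ∈ Icc (-a) a) (hi : w.im ∈ Ioc 0 a) :
    ‖deriv f w‖ ≤ 2 * K / w.im := by
  have hsub := closedBall_subset_Box hr hi
  have h := Complex.norm_deriv_le_of_forall_mem_sphere_norm_le (c := w) (R := w.im / 2)
    (by linarith [hi.1]) (f := f) (C := K)
    ((hf.mono hsub).diffContOnCl_ball subset_rfl)
    (fun z hz => hK z (hsub (Metric.sphere_subset_closedBall hz)))
  refine h.trans (le_of_eq ?_)
  have : w.im ≠ 0 := hi.1.ne'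
  field_simp

/-- Entrywise complex derivative. -/
noncomputable def dM (B : ℂ → Matrix ι ι ℂ) (w : ℂ) : Matrix ι ι ℂ :=
  fun i j => deriv (fun w => B w i j) w

theorem Icc_Ioc_subset_Box {a : ℝ} (ha : 0 < a) :
    {w : ℂ | w.re ∈ Icc (-a) a ∧ w.im ∈ Ioc 0 a} ⊆ Box a := by
  rintro w ⟨⟨h1, h2⟩, h3, h4⟩
  exact ⟨⟨by linarith, by linarith⟩, ⟨h3, by linarith⟩⟩

/-- The linear algebra: `B^* G B = 1`, `C = B⁻¹`, derivative of the relation. -/
theorem hermitian_part_eq [DecidableEq ι] {b b' c G G' : Matrix ι ι ℂ}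
    (hcb : c * b = 1) (hbG : b.conjTranspose * G * b = 1)
    (hd : b'.conjTranspose * G * b + b.conjTranspose * G' * b + b.conjTranspose * G * b' = 0) :
    c * b' + (c * b').conjTranspose = -(b.conjTranspose * G' * b) := by
  have hbc : b * c = 1 := mul_eq_one_comm.mp hcb
  have h1 : b.conjTranspose * G = c := by
    calc b.conjTranspose * G = b.conjTranspose * G * (b * c) := by rw [hbc, mul_one]
      _ = (b.conjTranspose * G * b) * c := by rw [← mul_assoc]
      _ = c := by rw [hbG, one_mul]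
  have hch : c.conjTranspose * b.conjTranspose = 1 := by
    rw [← Matrix.conjTranspose_mul, hbc, Matrix.conjTranspose_one]
  have h2 : G * b = c.conjTranspose := by
    calc G * b = (c.conjTranspose * b.conjTranspose) * (G * b) := by rw [hch, one_mul]
      _ = c.conjTranspose * (b.conjTranspose * G * b) := by simp only [mul_assoc]
      _ = c.conjTranspose := by rw [hbG, mul_one]
  rw [h1, mul_assoc b'.conjTranspose, h2] at hd
  rw [Matrix.conjTranspose_mul]
  have : c * b' + b'.conjTranspose * c.conjTranspose =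
    (b'.conjTranspose * c.conjTranspose + b.conjTranspose * G' * b + c * b') -
      b.conjTranspose * G' * b := by abel
  rw [this, hd, zero_sub]

theorem hasDerivAt_mul {A B : ℝ → Matrix ι ι ℂ} {A' B' : Matrix ι ι ℂ} {t : ℝ}
    (hA : ∀ i j, HasDerivAt (fun t => A t i j) (A' i j) t)
    (hB : ∀ i j, HasDerivAt (fun t => B t i j) (B' i j) t) (i j : ι) :
    HasDerivAt (fun t => (A t * B t) i j) ((A' * B t + A t * B') i j) t := by
  simp only [Matrix.mul_apply, Matrix.add_apply]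
  rw [← Finset.sum_add_distrib]
  exact HasDerivAt.fun_sum fun k _ => (hA i k).mul (hB k j)

/-- Boundary matrix of the logarithmic derivative. -/
theorem rh1 [DecidableEq ι] {a K : ℝ} (ha : 0 < a)
    (B C : ℂ → Matrix ι ι ℂ)
    (hBd : ∀ i j, DifferentiableOn ℂ (fun w => B w i j) (Box a))
    (hCd : ∀ i j, DifferentiableOn ℂ (fun w => C w i j) (Box a))
    (hBK : ∀ i j, ∀ w ∈ Box a, ‖B w i j‖ ≤ K)
    (hCK : ∀ i j, ∀ w ∈ Box a, ‖C w i j‖ ≤ K)
    (hBc : ∀ i j, ContinuousOn (fun w => B w i j) {w : ℂ | w.re ∈ Icc (-a) a ∧ w.im ∈ Icc 0 a})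
    (hCc : ∀ i j, ContinuousOn (fun w => C w i j) {w : ℂ | w.re ∈ Icc (-a) a ∧ w.im ∈ Icc 0 a})
    (hCB : ∀ t ∈ Icc (-a) a, C (t : ℝ) * B (t : ℝ) = 1)
    (b' : ℝ → Matrix ι ι ℂ)
    (hb' : ∀ i j, MemLp (fun t => b' t i j) 2 (volume.restrict (Ioc (-a) a)))
    (hblim : Tendsto (fun ε : ℝ => ∫ t in (-a)..a, fro (dM B (t + ε * Complex.I) - b' t))
      (nhdsWithin 0 (Ioi 0)) (nhds 0))
    (hbd : ∀ᵐ t ∂(volume.restrict (Ioc (-a) a)), ∀ i j,
      HasDerivAt (fun t : ℝ => B t i j) (b' t i j) t)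
    (G G' : ℝ → Matrix ι ι ℂ)
    (hG : ∀ t ∈ Ioo (-a) a, (B (t : ℝ)).conjTranspose * G t * B (t : ℝ) = 1)
    (hG' : ∀ i j, MemLp (fun t => G' t i j) 2 (volume.restrict (Ioc (-a) a)))
    (hGd : ∀ᵐ t ∂(volume.restrict (Ioc (-a) a)), ∀ i j,
      HasDerivAt (fun t : ℝ => G t i j) (G' t i j) t) :
    a * ∫ t in (-(a / 2))..(a / 2), fro (b' t) ≤
      256 / 81 * ((Fintype.card ι : ℝ) ^ 2 * K ^ 2) ^ 3 *
        (a * (∫ t in (-a)..a, fro (G' t)) + 2592) := by
  have hle : -a ≤ a := by linarith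
  set κ : ℝ := (Fintype.card ι : ℝ) ^ 2 * K ^ 2 with hκ
  have hκ0 : 0 ≤ κ := by positivity
  have hsub := Icc_Ioc_subset_Box ha
  set μ : Measure ℝ := volume.restrict (Ioc (-a) a) with hμ
  set Q : Set ℂ := {w : ℂ | w.re ∈ Icc (-a) a ∧ w.im ∈ Icc 0 a} with hQ
  have hQc : IsCompact Q := by
    have : Q = Icc (-a) a ×ℂ Icc 0 a := rfl
    rw [this]
    exact isCompact_Icc.reProdIm isCompact_Icc
  have hline : ∀ t ∈ Icc (-a) a, ∀ ε ∈ Icc 0 a, ((t : ℂ) + ε * Complex.I) ∈ Q := by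
    intro t ht ε hε
    constructor
    · simpa using ht
    · simpa using hε
  have hreal : ∀ t ∈ Icc (-a) a, ((t : ℝ) : ℂ) ∈ Q := by
    intro t ht
    constructor
    · simpa using ht
    · simpa using ha.le
  -- entry bounds on the closed box
  have hbdQ : ∀ (D : ℂ → Matrix ι ι ℂ), (∀ i j, ContinuousOn (fun w => D w i j) Q) →
      (∀ i j, ∀ w ∈ Box a, ‖D w i j‖ ≤ K) → ∀ i j, ∀ w ∈ Q, ‖D w i j‖ ≤ K := by
    intro D hDc hDK i j w hw
    by_cases h0 : 0 < w.im
    · exact hDK i j w (hsub ⟨hw.1, ⟨h0, hw.2.2⟩⟩)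
    · have h0' : w.im = 0 := le_antisymm (not_lt.mp h0) hw.2.1
      have hT : Tendsto (fun ε : ℝ => ‖D (w.re + ε * Complex.I) i j‖) (nhdsWithin 0 (Ioc 0 a))
          (nhds ‖D w i j‖) := by
        have hcont : ContinuousOn (fun ε : ℝ => ‖D (w.re + ε * Complex.I) i j‖) (Icc 0 a) := by
          refine ((hDc i j).comp (f := fun ε : ℝ => ((w.re : ℂ) + ε * Complex.I))
            (by fun_prop) ?_).norm
          intro ε hε
          exact hline w.re hw.1 ε hε
        have h1 : Tendsto (fun ε : ℝ => ‖D (w.re + ε * Complex.I) i j‖)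
            (nhdsWithin 0 (Icc 0 a)) (nhds ‖D (w.re + (0 : ℝ) * Complex.I) i j‖) :=
          hcont 0 ⟨le_rfl, ha.le⟩
        have h2 : ((w.re : ℂ) + (0 : ℝ) * Complex.I) = w := by
          apply Complex.ext <;> simp [h0']
        rw [h2] at h1
        exact h1.mono_left (nhdsWithin_mono 0 Ioc_subset_Icc_self)
      have hne : (nhdsWithin (0 : ℝ) (Ioc 0 a)).NeBot := by
        rw [nhdsWithin_Ioc_eq_nhdsGT ha]; infer_instance
      refine le_of_tendsto hT ?_
      filter_upwards [self_mem_nhdsWithin] with ε hε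
      refine hDK i j _ (hsub ⟨?_, ?_⟩)
      · simpa using hw.1
      · simpa using hε
  have hBQ := hbdQ B hBc hBK
  have hCQ := hbdQ C hCc hCK
  have hfB : ∀ w ∈ Q, fro (B w) ≤ κ := fun w hw => fro_le_of_entry fun i j => hBQ i j w hw
  have hfC : ∀ w ∈ Q, fro (C w) ≤ κ := fun w hw => fro_le_of_entry fun i j => hCQ i j w hw
  -- the logarithmic derivative
  set M : ℂ → Matrix ι ι ℂ := fun w => C w * dM B w with hMdef
  have hdBd : ∀ i j, DifferentiableOn ℂ (fun w => dM B w i j) (Box a) := fun i j =>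
    (hBd i j).deriv (isOpen_Box a)
  have hMd : ∀ i j, DifferentiableOn ℂ (fun w => M w i j)
      {w : ℂ | w.re ∈ Icc (-a) a ∧ w.im ∈ Ioc 0 a} := by
    intro i j
    refine DifferentiableOn.mono ?_ hsub
    simp only [hMdef, Matrix.mul_apply]
    exact DifferentiableOn.fun_sum fun k _ => (hCd i k).mul (hdBd k j)
  have hMK : ∀ w : ℂ, w.re ∈ Icc (-a) a → w.im ∈ Ioc 0 a →
      fro (M w) ≤ (2 * κ) ^ 2 / w.im ^ (2 * 1) := by
    intro w hr hi
    have h1 : ∀ i j, ‖dM B w i j‖ ≤ 2 * K / w.im := fun i j =>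
      norm_deriv_le_Box (hBd i j) (hBK i j) hr hi
    have h2 := fro_le_of_entry h1
    have h3 : fro (dM B w) ≤ 4 * κ / w.im ^ 2 := by
      refine h2.trans (le_of_eq ?_)
      rw [hκ]; field_simp; ring
    have h4 := hfC w ⟨hr, ⟨hi.1.le, hi.2⟩⟩
    calc fro (M w) ≤ fro (C w) * fro (dM B w) := fro_mul_le _ _
      _ ≤ κ * (4 * κ / w.im ^ 2) := mul_le_mul h4 h3 (fro_nonneg _) hκ0
      _ = _ := by ring
  set m : ℝ → Matrix ι ι ℂ := fun t => C t * b' t with hmdef
  have hCline : ∀ i j, ContinuousOn (fun t : ℝ => C t i j) (Icc (-a) a) := fun i j =>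
    (hCc i j).comp (f := fun t : ℝ => (t : ℂ)) (by fun_prop) fun t ht => hreal t ht
  have hmem : ∀ {f : ℝ → ℂ} {g : ℝ → ℂ}, ContinuousOn f (Icc (-a) a) → MemLp g 2 μ →
      MemLp (fun t => f t * g t) 2 μ := by
    intro f g hf hg
    obtain ⟨Cc, hCc'⟩ := isCompact_Icc.exists_bound_of_continuousOn hf
    have hfm : AEStronglyMeasurable f μ :=
      (hf.mono Ioc_subset_Icc_self).aestronglyMeasurable measurableSet_Ioc
    refine MemLp.of_le_mul (c := Cc) hg (hfm.mul hg.1) ?_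
    rw [hμ]
    filter_upwards [ae_restrict_mem measurableSet_Ioc] with t ht
    rw [norm_mul]
    exact mul_le_mul_of_nonneg_right (hCc' t ⟨ht.1.le, ht.2⟩) (norm_nonneg _)
  have hmm : ∀ i j, MemLp (fun t => m t i j) 2 μ := by
    intro i j
    simp only [hmdef, Matrix.mul_apply]
    exact memLp_finsetSum _ fun k _ => hmem (hCline i k) (hb' k j)
  have hIb' := memLp_two_fro hb'
  have hIm := memLp_two_fro hmm
  -- convergence `M(t+iε) → m`
  have hmB : ∀ ε ∈ Ioo 0 a, ∀ i j,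
      MemLp (fun t : ℝ => (dM B (t + ε * Complex.I) - b' t) i j) 2 μ := by
    intro ε hε i j
    have hc : ContinuousOn (fun t : ℝ => dM B (t + ε * Complex.I) i j) (Icc (-a) a) := by
      refine (hdBd i j).continuousOn.comp (f := fun t : ℝ => ((t : ℂ) + ε * Complex.I))
        (by fun_prop) ?_
      intro t ht
      refine hsub ⟨?_, ?_⟩
      · simpa using ht
      · simpa using And.intro hε.1 hε.2.le
    obtain ⟨Cc, hCc'⟩ := isCompact_Icc.exists_bound_of_continuousOn hc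
    simp only [Matrix.sub_apply]
    refine MemLp.sub (MemLp.of_bound (C := Cc) ?_ ?_) (hb' i j)
    · exact (hc.mono Ioc_subset_Icc_self).aestronglyMeasurable measurableSet_Ioc
    · rw [hμ]
      filter_upwards [ae_restrict_mem measurableSet_Ioc] with t ht
      exact hCc' t ⟨ht.1.le, ht.2⟩
  have hunif : ∀ δ > 0, ∃ ε₀ : ℝ, 0 < ε₀ ∧ ∀ ε ∈ Ioo (0 : ℝ) ε₀, ε ≤ a → ∀ t ∈ Icc (-a) a,
      fro (C (t + ε * Complex.I) - C t) ≤ δ := by
    intro δ hδ
    set Φ : ℝ × ℝ → ℝ := fun q => fro (C (q.1 + q.2 * Complex.I) - C q.1) with hΦ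
    have hΦc : ContinuousOn Φ (Icc (-a) a ×ˢ Icc 0 a) := by
      simp only [hΦ, fro, Matrix.sub_apply]
      refine continuousOn_finsetSum _ fun i _ => continuousOn_finsetSum _ fun j _ => ?_
      refine (ContinuousOn.norm (ContinuousOn.sub ?_ ?_)).pow 2
      · exact (hCc i j).comp (f := fun q : ℝ × ℝ => ((q.1 : ℂ) + q.2 * Complex.I))
          (by fun_prop) fun q hq => hline q.1 hq.1 q.2 hq.2
      · exact (hCc i j).comp (f := fun q : ℝ × ℝ => (q.1 : ℂ))
          (by fun_prop) fun q hq => hreal q.1 hq.1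
    have huc := (isCompact_Icc.prod isCompact_Icc).uniformContinuousOn_of_continuous hΦc
    rw [Metric.uniformContinuousOn_iff] at huc
    obtain ⟨ε₀, hε₀, h1⟩ := huc δ hδ
    refine ⟨ε₀, hε₀, fun ε hε hεa t ht => ?_⟩
    have h2 := h1 (t, ε) ⟨ht, ⟨hε.1.le, hεa⟩⟩ (t, 0) ⟨ht, ⟨le_rfl, ha.le⟩⟩ (by
      rw [Prod.dist_eq]
      simp only [dist_self, Real.dist_eq, sub_zero, abs_of_pos hε.1]
      exact max_lt hε₀ hε.2)
    have h3 : Φ (t, 0) = 0 := by simp [hΦ, fro]
    rw [h3, Real.dist_eq, sub_zero, abs_of_nonneg (by simp only [hΦ]; exact fro_nonneg _)] at h2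
    exact h2.le
  have hlim : Tendsto (fun ε : ℝ => ∫ t in (-a)..a, fro (M (t + ε * Complex.I) - m t))
      (nhdsWithin 0 (Ioi 0)) (nhds 0) := by
    set Ib := ∫ t in (-a)..a, fro (b' t) with hIb
    have hIb0 : 0 ≤ Ib := by
      rw [hIb, intervalIntegral.integral_of_le hle]
      exact integral_nonneg fun t => fro_nonneg _
    have hbound : ∀ δ > 0, ∃ ε₀ : ℝ, 0 < ε₀ ∧ ∀ ε ∈ Ioo (0 : ℝ) ε₀,
        ∫ t in (-a)..a, fro (M (t + ε * Complex.I) - m t) ≤
          2 * δ * Ib + 2 * κ * ∫ t in (-a)..a, fro (dM B (t + ε * Complex.I) - b' t) := by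
      intro δ hδ
      obtain ⟨ε₀, hε₀, h1⟩ := hunif δ hδ
      refine ⟨min ε₀ a, lt_min hε₀ ha, fun ε hε => ?_⟩
      have hε1 : ε < ε₀ := hε.2.trans_le (min_le_left _ _)
      have hε2 : ε < a := hε.2.trans_le (min_le_right _ _)
      have hId := memLp_two_fro (hmB ε ⟨hε.1, hε2⟩)
      rw [hIb, intervalIntegral.integral_of_le hle, intervalIntegral.integral_of_le hle,
        intervalIntegral.integral_of_le hle, ← integral_const_mul, ← integral_const_mul,
        ← integral_add (hIb'.const_mul _) (hId.const_mul _)]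
      refine integral_mono_of_nonneg (Eventually.of_forall fun t => fro_nonneg _)
        ((hIb'.const_mul _).add (hId.const_mul _)) ?_
      filter_upwards [ae_restrict_mem measurableSet_Ioc] with t ht
      have ht' : t ∈ Icc (-a) a := ⟨ht.1.le, ht.2⟩
      have e : M (t + ε * Complex.I) - m t = (C (t + ε * Complex.I) - C t) * b' t +
          C (t + ε * Complex.I) * (dM B (t + ε * Complex.I) - b' t) := by
        simp only [hMdef, hmdef, sub_mul, mul_sub]; abel
      have h2 := fro_add_le_two ((C (t + ε * Complex.I) - C t) * b' t)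
        (C (t + ε * Complex.I) * (dM B (t + ε * Complex.I) - b' t))
      rw [← e] at h2
      have h3 : fro ((C (t + ε * Complex.I) - C t) * b' t) ≤ δ * fro (b' t) :=
        (fro_mul_le _ _).trans (mul_le_mul_of_nonneg_right (h1 ε ⟨hε.1, hε1⟩ hε2.le t ht')
          (fro_nonneg _))
      have h4 : fro (C (t + ε * Complex.I) * (dM B (t + ε * Complex.I) - b' t)) ≤
          κ * fro (dM B (t + ε * Complex.I) - b' t) :=
        (fro_mul_le _ _).trans (mul_le_mul_of_nonneg_right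
          (hfC _ (hline t ht' ε ⟨hε.1.le, hε2.le⟩)) (fro_nonneg _))
      linarith
    rw [Metric.tendsto_nhdsWithin_nhds]
    intro r hr
    set δ : ℝ := r / (4 * (Ib + 1)) with hδd
    have hδ : 0 < δ := by positivity
    obtain ⟨ε₀, hε₀, h1⟩ := hbound δ hδ
    rw [Metric.tendsto_nhdsWithin_nhds] at hblim
    obtain ⟨ε₁, hε₁, h2⟩ := hblim (r / (4 * (κ + 1))) (by positivity)
    refine ⟨min ε₀ ε₁, lt_min hε₀ hε₁, fun {ε} hε hd => ?_⟩
    have hε' : 0 < ε := hε
    rw [Real.dist_eq, sub_zero, abs_of_pos hε'] at hd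
    have h3 := h1 ε ⟨hε', hd.trans_le (min_le_left _ _)⟩
    have h4 := h2 hε (by
      rw [Real.dist_eq, sub_zero, abs_of_pos hε']; exact hd.trans_le (min_le_right _ _))
    rw [Real.dist_eq, sub_zero] at h4
    have h5 := (le_abs_self _).trans_lt h4
    have h6 : 0 ≤ ∫ t in (-a)..a, fro (M (t + ε * Complex.I) - m t) := by
      rw [intervalIntegral.integral_of_le hle]
      exact integral_nonneg fun t => fro_nonneg _
    rw [Real.dist_eq, sub_zero, abs_of_nonneg h6]
    have h7 : 2 * δ * Ib ≤ r / 2 := by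
      rw [hδd]
      have : 2 * (r / (4 * (Ib + 1))) * Ib = r / 2 * (Ib / (Ib + 1)) := by
        field_simp; ring
      rw [this]
      have h8 : Ib / (Ib + 1) ≤ 1 := by rw [div_le_one (by positivity)]; linarith
      nlinarith
    have h8 : 2 * κ * (r / (4 * (κ + 1))) ≤ r / 2 := by
      have : 2 * κ * (r / (4 * (κ + 1))) = r / 2 * (κ / (κ + 1)) := by
        field_simp; ring
      rw [this]
      have h8 : κ / (κ + 1) ≤ 1 := by rw [div_le_one (by positivity)]; linarith
      nlinarith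
    have h9 : 2 * κ * (∫ t in (-a)..a, fro (dM B (t + ε * Complex.I) - b' t)) ≤
        2 * κ * (r / (4 * (κ + 1))) := mul_le_mul_of_nonneg_left h5.le (by positivity)
    by_cases hκz : κ = 0
    · rw [hκz] at h3
      have : 2 * δ * Ib < r := by linarith
      simp only [mul_zero, zero_mul, add_zero] at h3
      linarith
    · have hκp : 0 < κ := lt_of_le_of_ne hκ0 (Ne.symm hκz)
      have h9' : 2 * κ * (∫ t in (-a)..a, fro (dM B (t + ε * Complex.I) - b' t)) <
        2 * κ * (r / (4 * (κ + 1))) := mul_lt_mul_of_pos_left h5 (by positivity)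
      linarith
  have h0 := rh0 ha ha 1 M hMd hMK m hmm hlim
  -- the hermitian part of `m` on the boundary
  have hEq : ∀ᵐ t ∂μ, m t + (m t).conjTranspose =
      -((B (t : ℝ)).conjTranspose * G' t * B (t : ℝ)) := by
    have hne : ∀ᵐ t ∂μ, t ≠ a := by
      rw [hμ]
      exact ae_restrict_of_ae (by
        have := (measure_singleton (μ := volume) a)
        exact compl_mem_ae_iff.mpr this)
    rw [hμ] at hne ⊢
    filter_upwards [hbd, hGd, ae_restrict_mem measurableSet_Ioc, hne] with t h1 h2 h3 h4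
    have ht : t ∈ Ioo (-a) a := ⟨h3.1, lt_of_le_of_ne h3.2 h4⟩
    have hst : ∀ i j, HasDerivAt (fun t : ℝ => (B (t : ℝ)).conjTranspose i j)
        ((b' t).conjTranspose i j) t := by
      intro i j
      simp only [Matrix.conjTranspose_apply]
      exact (h1 j i).star
    have hp1 := hasDerivAt_mul (A := fun t : ℝ => (B (t : ℝ)).conjTranspose)
      (B := G) hst h2
    have hp2 := hasDerivAt_mul (A := fun t : ℝ => (B (t : ℝ)).conjTranspose * G t)
      (B := fun t : ℝ => B (t : ℝ)) hp1 h1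
    have hz : ∀ i j, HasDerivAt (fun t : ℝ =>
        ((B (t : ℝ)).conjTranspose * G t * B (t : ℝ)) i j) 0 t := by
      intro i j
      have hc : HasDerivAt (fun _ : ℝ => (1 : Matrix ι ι ℂ) i j) 0 t := hasDerivAt_const _ _
      refine hc.congr_of_eventuallyEq ?_
      filter_upwards [Ioo_mem_nhds ht.1 ht.2] with x hx
      rw [hG x hx]
    have hzero : ((b' t).conjTranspose * G t + (B (t : ℝ)).conjTranspose * G' t) * B (t : ℝ) +
        (B (t : ℝ)).conjTranspose * G t * b' t = 0 := by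
      ext i j
      exact (hp2 i j).unique (hz i j)
    refine hermitian_part_eq (G := G t) (hCB t ⟨h3.1.le, h3.2⟩) (hG t ht) ?_
    rw [← add_mul]
    exact hzero
  -- conclusion
  set ρ : ℝ → ℝ := fun t => (a ^ 2 - t ^ 2) ^ (2 * 1 + 2) with hρ
  have hρ0 : ∀ t, 0 ≤ ρ t := fun t => by
    simp only [hρ]
    have : (2 * 1 + 2) = 2 * 2 := by norm_num
    rw [this, pow_mul]; positivity
  have hρA : ∀ t ∈ Icc (-a) a, ρ t ≤ a ^ 8 := fun t ht => by
    simp only [hρ]
    have : a ^ 8 = (a ^ 2) ^ (2 * 1 + 2) := by ring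
    rw [this]
    refine pow_le_pow_left₀ ?_ ?_ _
    · nlinarith [ht.1, ht.2]
    · nlinarith [sq_nonneg t]
  have hρL : ∀ t ∈ Icc (-(a / 2)) (a / 2), 81 / 256 * a ^ 8 ≤ ρ t := fun t ht => by
    simp only [hρ]
    have : 81 / 256 * a ^ 8 = (3 / 4 * a ^ 2) ^ (2 * 1 + 2) := by ring
    rw [this]
    refine pow_le_pow_left₀ (by positivity) ?_ _
    nlinarith [ht.1, ht.2]
  have hρc : Continuous ρ := by simp only [hρ]; fun_prop
  have hρb : ∀ {f : ℝ → ℝ}, Integrable f μ → Integrable (fun t => ρ t * f t) μ := by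
    intro f hf
    refine Integrable.bdd_mul (c := a ^ 8) hf hρc.aestronglyMeasurable ?_
    rw [hμ]
    filter_upwards [ae_restrict_mem measurableSet_Ioc] with t ht
    rw [Real.norm_eq_abs, abs_of_nonneg (hρ0 t)]
    exact hρA t ⟨ht.1.le, ht.2⟩
  have hIG := memLp_two_fro hG'
  have hR : ∫ t in (-a)..a, ρ t * fro (m t + (m t).conjTranspose) ≤
      a ^ 8 * κ ^ 2 * ∫ t in (-a)..a, fro (G' t) := by
    rw [intervalIntegral.integral_of_le hle, intervalIntegral.integral_of_le hle,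
      ← integral_const_mul]
    refine integral_mono_of_nonneg (Eventually.of_forall fun t =>
      mul_nonneg (hρ0 t) (fro_nonneg _)) (hIG.const_mul _) ?_
    rw [hμ] at hEq
    filter_upwards [hEq, ae_restrict_mem measurableSet_Ioc] with t h1 h2
    have ht' : t ∈ Icc (-a) a := ⟨h2.1.le, h2.2⟩
    rw [h1, fro_neg]
    have h3 : fro ((B (t : ℝ)).conjTranspose * G' t * B (t : ℝ)) ≤ κ ^ 2 * fro (G' t) := by
      have e1 := hfB _ (hreal t ht')
      calc fro ((B (t : ℝ)).conjTranspose * G' t * B (t : ℝ))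
          ≤ fro ((B (t : ℝ)).conjTranspose * G' t) * fro (B (t : ℝ)) := fro_mul_le _ _
        _ ≤ (fro ((B (t : ℝ)).conjTranspose) * fro (G' t)) * fro (B (t : ℝ)) :=
            mul_le_mul_of_nonneg_right (fro_mul_le _ _) (fro_nonneg _)
        _ ≤ (κ * fro (G' t)) * κ := by
            rw [fro_conjTranspose]
            exact mul_le_mul (mul_le_mul_of_nonneg_right e1 (fro_nonneg _)) e1 (fro_nonneg _)
              (mul_nonneg hκ0 (fro_nonneg _))
        _ = _ := by ring
    calc ρ t * fro ((B (t : ℝ)).conjTranspose * G' t * B (t : ℝ))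
        ≤ a ^ 8 * (κ ^ 2 * fro (G' t)) :=
          mul_le_mul (hρA t ht') h3 (fro_nonneg _) (by positivity)
      _ = _ := by ring
  have hC0 : C0 a a (2 * κ) 1 = 1296 * κ ^ 2 * a ^ 7 := by
    unfold C0
    have : a ≠ 0 := ha.ne'
    field_simp
    ring
  have hLtot : ∫ t in (-a)..a, ρ t * fro (m t) ≤
      κ ^ 2 * a ^ 7 * (a * (∫ t in (-a)..a, fro (G' t)) + 2592) := by
    have := h0.trans (add_le_add_left hR _)
    rw [hC0] at this
    refine this.trans (le_of_eq ?_)
    ring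
  have hL : ∫ t in (-(a / 2))..(a / 2), fro (b' t) ≤
      κ * (256 / 81) / a ^ 8 * ∫ t in (-a)..a, ρ t * fro (m t) := by
    have hle2 : -(a / 2) ≤ a / 2 := by linarith
    rw [intervalIntegral.integral_of_le hle2, intervalIntegral.integral_of_le hle,
      ← integral_const_mul]
    have hsub2 : Ioc (-(a / 2)) (a / 2) ⊆ Ioc (-a) a :=
      Ioc_subset_Ioc (by linarith) (by linarith)
    have hint : Integrable (fun t => κ * (256 / 81) / a ^ 8 * (ρ t * fro (m t))) μ :=
      (hρb hIm).const_mul _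
    have hnn : ∀ t, 0 ≤ κ * (256 / 81) / a ^ 8 * (ρ t * fro (m t)) := fun t =>
      mul_nonneg (by positivity) (mul_nonneg (hρ0 t) (fro_nonneg _))
    refine le_trans ?_ (setIntegral_mono_set (s := Ioc (-(a / 2)) (a / 2)) (t := Ioc (-a) a)
      (f := fun t => κ * (256 / 81) / a ^ 8 * (ρ t * fro (m t))) hint
      (Eventually.of_forall hnn) (Eventually.of_forall hsub2))
    refine integral_mono_of_nonneg (Eventually.of_forall fun t => fro_nonneg _)
      (hint.mono_measure (Measure.restrict_mono hsub2 le_rfl)) ?_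
    filter_upwards [ae_restrict_mem measurableSet_Ioc] with t ht
    have ht' : t ∈ Icc (-a) a := ⟨(hsub2 ht).1.le, (hsub2 ht).2⟩
    have hbc : B (t : ℝ) * C (t : ℝ) = 1 := mul_eq_one_comm.mp (hCB t ht')
    have e : b' t = B (t : ℝ) * m t := by
      simp only [hmdef]
      rw [← mul_assoc, hbc, one_mul]
    have h1 : fro (b' t) ≤ κ * fro (m t) := by
      conv_lhs => rw [e]
      exact (fro_mul_le _ _).trans (mul_le_mul_of_nonneg_right (hfB _ (hreal t ht'))
        (fro_nonneg _))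
    have h2 : 1 ≤ 256 / 81 / a ^ 8 * ρ t := by
      have h3 := hρL t ⟨ht.1.le, ht.2⟩
      rw [div_div, div_mul_eq_mul_div, le_div_iff₀ (by positivity)]
      linarith
    calc fro (b' t) ≤ κ * fro (m t) := h1
      _ = (κ * fro (m t)) * 1 := by ring
      _ ≤ (κ * fro (m t)) * (256 / 81 / a ^ 8 * ρ t) :=
          mul_le_mul_of_nonneg_left h2 (mul_nonneg hκ0 (fro_nonneg _))
      _ = _ := by ring
  have hfin : κ * (256 / 81) / a ^ 8 * (∫ t in (-a)..a, ρ t * fro (m t)) ≤
      κ * (256 / 81) / a ^ 8 *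
        (κ ^ 2 * a ^ 7 * (a * (∫ t in (-a)..a, fro (G' t)) + 2592)) :=
    mul_le_mul_of_nonneg_left hLtot (by positivity)
  calc a * ∫ t in (-(a / 2))..(a / 2), fro (b' t)
      ≤ a * (κ * (256 / 81) / a ^ 8 *
        (κ ^ 2 * a ^ 7 * (a * (∫ t in (-a)..a, fro (G' t)) + 2592))) :=
        mul_le_mul_of_nonneg_left (hL.trans hfin) ha.le
    _ = _ := by
        have : a ≠ 0 := ha.ne'
        field_simp

end Crest.Agent.R269.RH_142
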