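import Mathlib

/-!
# Row 269, task 262 (RATE-INPUT), part 1: pointwise linear algebra (helper936)

`outer_eq`    : if `Nᴴ S⁻¹ N = 1` and the columns of `N` lie in `im Π₀` (`n`-dimensional), `S Π₀ = Π₀ S = a`,
                then `N Nᴴ = a`.
`posDef_S`    : `a + (1 - Π) + P` is positive definite.
-/

set_option autoImplicit false
open Matrix
open scoped ComplexConjugate ComplexOrder

noncomputable section
namespace Crest.Agent.R269.Rate1_936

set_option linter.unusedSectionVars false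

variable {m : Type*} [Fintype m] [DecidableEq m]

theorem eq_zero_of_idem_trace {E : Matrix m m ℂ} (hE : E * E = E) (ht : E.trace = 0) : E = 0 := by
  have h1 : IsIdempotentElem (Matrix.toLin' E) := by
    change Matrix.toLin' E ∘ₗ Matrix.toLin' E = Matrix.toLin' E
    rw [← Matrix.toLin'_mul, hE]
  have h2 : LinearMap.trace ℂ (m → ℂ) (Matrix.toLin' E) = 0 := by
    rw [Matrix.trace_toLin'_eq, ht]
  have h3 := LinearMap.IsIdempotentElem.eq_zero_of_trace_eq_zero h1 h2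
  have h4 : Matrix.toLin' E = Matrix.toLin' 0 := by rw [h3, map_zero]
  exact Matrix.toLin'.injective h4

/-- idempotents `X ≤ P` with the same trace are equal -/
theorem idem_eq {X P : Matrix m m ℂ} (hX : X * X = X) (hP : P * P = P) (h1 : P * X = X)
    (h2 : X * P = X) (ht : X.trace = P.trace) : X = P := by
  have h : (P - X) * (P - X) = P - X := by
    rw [Matrix.sub_mul, Matrix.mul_sub, Matrix.mul_sub, hP, h1, h2, hX, sub_self, sub_zero]
  have h0 := eq_zero_of_idem_trace h (by rw [Matrix.trace_sub, ht, sub_self])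
  exact (sub_eq_zero.1 h0).symm

/-- the frame `N` with `Nᴴ S⁻¹ N = 1` represents `a = S Π₀` -/
theorem outer_eq {n : ℕ} {P S a : Matrix m m ℂ} (hPH : P.IsHermitian) (hP : P * P = P)
    (hS : IsUnit S.det) (hSa : S * P = a) (hPa : P * S = a) (htr : P.trace = n)
    {V : Matrix m (Fin n) ℂ} (hV : P * V = V) (h1 : Vᴴ * S⁻¹ * V = 1) : V * Vᴴ = a := by
  have hSS : S * S⁻¹ = 1 := Matrix.mul_nonsing_inv S hS
  have hSS' : S⁻¹ * S = 1 := Matrix.nonsing_inv_mul S hS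
  have hcomm : S⁻¹ * P = P * S⁻¹ := by
    calc S⁻¹ * P = S⁻¹ * (P * (S * S⁻¹)) := by rw [hSS, Matrix.mul_one]
      _ = S⁻¹ * (P * S) * S⁻¹ := by simp only [Matrix.mul_assoc]
      _ = S⁻¹ * (S * P) * S⁻¹ := by rw [hPa, hSa]
      _ = (S⁻¹ * S) * P * S⁻¹ := by simp only [Matrix.mul_assoc]
      _ = P * S⁻¹ := by rw [hSS', Matrix.one_mul]
  have hVP : Vᴴ * P = Vᴴ := by
    have := congrArg Matrix.conjTranspose hV
    rwa [Matrix.conjTranspose_mul, hPH.eq] at this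
  set X := V * Vᴴ * S⁻¹ with hX
  have hXX : X * X = X := by
    calc X * X = V * (Vᴴ * S⁻¹ * V) * Vᴴ * S⁻¹ := by rw [hX]; simp only [Matrix.mul_assoc]
      _ = X := by rw [h1, Matrix.mul_one]
  have hPX : P * X = X := by
    calc P * X = (P * V) * Vᴴ * S⁻¹ := by rw [hX]; simp only [Matrix.mul_assoc]
      _ = X := by rw [hV]
  have hXP : X * P = X := by
    calc X * P = V * Vᴴ * (S⁻¹ * P) := by rw [hX]; simp only [Matrix.mul_assoc]
      _ = V * (Vᴴ * P) * S⁻¹ := by rw [hcomm]; simp only [Matrix.mul_assoc]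
      _ = X := by rw [hVP]
  have htX : X.trace = P.trace := by
    rw [htr]
    calc X.trace = (V * (Vᴴ * S⁻¹)).trace := by rw [hX, Matrix.mul_assoc]
      _ = (Vᴴ * S⁻¹ * V).trace := Matrix.trace_mul_comm _ _
      _ = n := by rw [h1]; simp
  have hXe := idem_eq hXX hP hPX hXP htX
  calc V * Vᴴ = V * Vᴴ * (S⁻¹ * S) := by rw [hSS', Matrix.mul_one]
    _ = X * S := by rw [hX]; simp only [Matrix.mul_assoc]
    _ = a := by rw [hXe, hPa]

/-- if the columns of `V` are `n` independent vectors of the `n`-dimensional `im P`, then a vector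
of `im P` orthogonal to the columns vanishes -/
theorem eq_zero_of_orth {n : ℕ} {P : Matrix m m ℂ} (hPH : P.IsHermitian) (hP : P * P = P)
    (htr : P.trace = n) {V : Matrix m (Fin n) ℂ} (hV : P * V = V) (hdet : (Vᴴ * V).det ≠ 0)
    {x : m → ℂ} (hx : P *ᵥ x = x) (h0 : Vᴴ *ᵥ x = 0) : x = 0 := by
  have hu : IsUnit (Vᴴ * V).det := isUnit_iff_ne_zero.2 hdet
  have hVP : Vᴴ * P = Vᴴ := by
    have := congrArg Matrix.conjTranspose hV
    rwa [Matrix.conjTranspose_mul, hPH.eq] at this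
  set K := (Vᴴ * V)⁻¹ with hK
  have hKK : K * (Vᴴ * V) = 1 := Matrix.nonsing_inv_mul _ hu
  set X := V * K * Vᴴ with hX
  have hXX : X * X = X := by
    calc X * X = V * (K * (Vᴴ * V)) * K * Vᴴ := by rw [hX]; simp only [Matrix.mul_assoc]
      _ = X := by rw [hKK, Matrix.mul_one]
  have hPX : P * X = X := by
    calc P * X = (P * V) * K * Vᴴ := by rw [hX]; simp only [Matrix.mul_assoc]
      _ = X := by rw [hV]
  have hXP : X * P = X := by
    calc X * P = V * K * (Vᴴ * P) := by rw [hX]; simp only [Matrix.mul_assoc]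
      _ = X := by rw [hVP]
  have htX : X.trace = P.trace := by
    rw [htr]
    calc X.trace = (V * (K * Vᴴ)).trace := by rw [hX, Matrix.mul_assoc]
      _ = (K * Vᴴ * V).trace := Matrix.trace_mul_comm _ _
      _ = n := by rw [Matrix.mul_assoc, hKK]; simp
  have hXe := idem_eq hXX hP hPX hXP htX
  calc x = X *ᵥ x := by rw [hXe, hx]
    _ = (V * K) *ᵥ (Vᴴ *ᵥ x) := by rw [hX, Matrix.mulVec_mulVec]
    _ = 0 := by rw [h0, Matrix.mulVec_zero]

theorem star_dot_self (x : m → ℂ) : star x ⬝ᵥ x = ((∑ i, ‖x i‖ ^ 2 : ℝ) : ℂ) := by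
  simp only [dotProduct, Pi.star_apply]
  push_cast
  refine Finset.sum_congr rfl fun i _ => ?_
  rw [RCLike.star_def, Complex.conj_mul']

theorem star_dot_self_eq_zero {x : m → ℂ} (h : (∑ i, ‖x i‖ ^ 2 : ℝ) = 0) : x = 0 := by
  funext i
  have := (Finset.sum_eq_zero_iff_of_nonneg (fun i _ => by positivity)).1 h i (Finset.mem_univ _)
  simpa using this

theorem dot_outer {k : Type*} [Fintype k] (V : Matrix m k ℂ) (x : m → ℂ) :
    star x ⬝ᵥ ((V * Vᴴ) *ᵥ x) = ((∑ i, ‖(Vᴴ *ᵥ x) i‖ ^ 2 : ℝ) : ℂ) := by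
  have h : star x ⬝ᵥ ((V * Vᴴ) *ᵥ x) = star (Vᴴ *ᵥ x) ⬝ᵥ (Vᴴ *ᵥ x) := by
    rw [Matrix.star_mulVec, Matrix.conjTranspose_conjTranspose, Matrix.dotProduct_mulVec,
      Matrix.dotProduct_mulVec, Matrix.vecMul_vecMul]
  rw [h]
  simp only [dotProduct, Pi.star_apply]
  push_cast
  refine Finset.sum_congr rfl fun i _ => ?_
  rw [RCLike.star_def, Complex.conj_mul']

theorem dot_proj {E : Matrix m m ℂ} (hH : E.IsHermitian) (hE : E * E = E) (x : m → ℂ) :
    star x ⬝ᵥ (E *ᵥ x) = ((∑ i, ‖(E *ᵥ x) i‖ ^ 2 : ℝ) : ℂ) := by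
  have := dot_outer E x
  rw [hH.eq, hE] at this
  exact this

/-- `a + t ((1 - Π) + P)` is positive definite if `a = V Vᴴ`, the columns of `V` being `n` independent
vectors of `im (Π - P)`, `t > 0` -/
theorem posDef_S {n : ℕ} {Pi P : Matrix m m ℂ} (hPiH : Pi.IsHermitian) (hPi : Pi * Pi = Pi)
    (hPH : P.IsHermitian) (hP : P * P = P) (hPiP : Pi * P = P) (hPPi : P * Pi = P)
    (htr : (Pi - P).trace = n) {V : Matrix m (Fin n) ℂ} (hV : (Pi - P) * V = V)
    (hdet : (Vᴴ * V).det ≠ 0) {t : ℝ} (ht : 0 < t) :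
    (V * Vᴴ + (t : ℂ) • ((1 - Pi) + P)).PosDef := by
  have h1H : (1 - Pi).IsHermitian := Matrix.isHermitian_one.sub hPiH
  have h11 : (1 - Pi) * (1 - Pi) = 1 - Pi := by
    rw [Matrix.sub_mul, Matrix.mul_sub, Matrix.mul_sub, hPi, Matrix.one_mul, Matrix.one_mul,
      Matrix.mul_one, sub_self, sub_zero]
  have hsH : ((t : ℂ) • ((1 - Pi) + P)).IsHermitian := by
    rw [Matrix.IsHermitian, Matrix.conjTranspose_smul, (h1H.add hPH).eq]
    simp
  have hH : (V * Vᴴ + (t : ℂ) • ((1 - Pi) + P)).IsHermitian :=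
    (Matrix.isHermitian_mul_conjTranspose_self V).add hsH
  refine Matrix.PosDef.of_dotProduct_mulVec_pos hH fun x hx => ?_
  have e : star x ⬝ᵥ ((V * Vᴴ + (t : ℂ) • ((1 - Pi) + P)) *ᵥ x) =
      (((∑ i, ‖(Vᴴ *ᵥ x) i‖ ^ 2) + t * ((∑ i, ‖((1 - Pi) *ᵥ x) i‖ ^ 2) +
        (∑ i, ‖(P *ᵥ x) i‖ ^ 2)) : ℝ) : ℂ) := by
    rw [Matrix.add_mulVec, Matrix.smul_mulVec, Matrix.add_mulVec, dotProduct_add,
      dotProduct_smul, dotProduct_add, dot_outer, dot_proj h1H h11, dot_proj hPH hP]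
    push_cast
    simp only [smul_eq_mul]
  rw [e]
  have n1 : 0 ≤ ∑ i, ‖(Vᴴ *ᵥ x) i‖ ^ 2 := Finset.sum_nonneg fun i _ => by positivity
  have n2 : 0 ≤ ∑ i, ‖((1 - Pi) *ᵥ x) i‖ ^ 2 := Finset.sum_nonneg fun i _ => by positivity
  have n3 : 0 ≤ ∑ i, ‖(P *ᵥ x) i‖ ^ 2 := Finset.sum_nonneg fun i _ => by positivity
  have hpos : 0 < (∑ i, ‖(Vᴴ *ᵥ x) i‖ ^ 2) + t * ((∑ i, ‖((1 - Pi) *ᵥ x) i‖ ^ 2) +
        (∑ i, ‖(P *ᵥ x) i‖ ^ 2)) := by
    by_contra hcon
    have n4 := mul_nonneg ht.le (add_nonneg n2 n3)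
    have z1 : ∑ i, ‖(Vᴴ *ᵥ x) i‖ ^ 2 = 0 := by linarith
    have z4 : t * ((∑ i, ‖((1 - Pi) *ᵥ x) i‖ ^ 2) + (∑ i, ‖(P *ᵥ x) i‖ ^ 2)) = 0 := by linarith
    have z5 := (mul_eq_zero.1 z4).resolve_left ht.ne'
    have z2 : ∑ i, ‖((1 - Pi) *ᵥ x) i‖ ^ 2 = 0 := by linarith
    have z3 : ∑ i, ‖(P *ᵥ x) i‖ ^ 2 = 0 := by linarith
    have w1 := star_dot_self_eq_zero z1
    have w2 := star_dot_self_eq_zero z2
    have w3 := star_dot_self_eq_zero z3
    rw [Matrix.sub_mulVec, Matrix.one_mulVec] at w2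
    have w4 : (Pi - P) *ᵥ x = x := by
      rw [Matrix.sub_mulVec, w3, sub_zero]
      exact (sub_eq_zero.1 w2).symm
    have hidem : (Pi - P) * (Pi - P) = Pi - P := by
      rw [Matrix.sub_mul, Matrix.mul_sub, Matrix.mul_sub, hPi, hPiP, hPPi, hP, sub_self, sub_zero]
    exact hx (eq_zero_of_orth (hPiH.sub hPH) hidem htr hV hdet w4 w1)
  exact_mod_cast hpos

end Crest.Agent.R269.Rate1_936
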