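import Crest.Agent.R269.Frm4_290
import Crest.Agent.R269.Rate1_936

/-!
# Row 269, task 262 (RATE-INPUT), part 2 (helper936): from a field `a` (cometric on `T_pX`) to the
Hermitian form `h = a⁻¹` on the tangent space, pointwise.

`T` the tangent space of the cone at `p` (`p ∈ T`, `dim T = n + 1`), `Pi` the orthogonal projector onto `T`.

* `Rep T p a b` : the columns of `b` are `n` horizontal tangent vectors, independent, `a = b bᴴ`;
* `Sm p Pi a = a + |p|² ((1 - Pi) + p p*/|p|²)`, positive definite (`Rep.posDef`);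
* `Gm p Pi a = prj p (Sm p Pi a)⁻¹ prj p` = the Hermitian form `a⁻¹` : Hermitian, kills `p`
  (`Gm_mulVec_self`), positive on `T` modulo `p` (`Rep.Gm_pos`);
* `Rep.outer` : `Mᴴ (Gm) M = 1` with tangent columns  ⟹  `prj p (M Mᴴ) prj p = a`;
* `Rep.orth` : `bᴴ (Gm) b = 1`; `Rep.D_eq` : `D p M = D p b`;
* `Gm_smul` : `Gm (c p) Pi (|c|² a) = |c|⁻² Gm p Pi a`.
-/

set_option autoImplicit false
set_option linter.unusedSectionVars false
open Matrix Complex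
open scoped ComplexConjugate ComplexOrder

noncomputable section
namespace Crest.Agent.R269.Rate2_936

open Crest.Agent.R269.Frm290 Crest.Agent.R269.Rate1_936

variable {ι : Type*} [Fintype ι] [DecidableEq ι]

/-- the columns of `b` are `n` independent horizontal tangent vectors representing `a` -/
structure Rep (T : Submodule ℂ (ι → ℂ)) (p : ι → ℂ) {n : ℕ} (a : Matrix ι ι ℂ)
    (b : Matrix ι (Fin n) ℂ) : Prop where
  tan : ∀ c, b *ᵥ c ∈ T
  hor : star p ᵥ* b = 0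
  ind : ∀ c, b *ᵥ c = 0 → c = 0
  eq : a = b * bᴴ

/-- `Pi` is the orthogonal projector onto `T` -/
structure IsPi (T : Submodule ℂ (ι → ℂ)) (Pi : Matrix ι ι ℂ) : Prop where
  herm : Pi.IsHermitian
  mem : ∀ v, Pi *ᵥ v ∈ T
  id : ∀ v ∈ T, Pi *ᵥ v = v

/-- the positive definite matrix `a + |p|² ((1 - Pi) + p p*/|p|²)` -/
def Sm (p : ι → ℂ) (Pi a : Matrix ι ι ℂ) : Matrix ι ι ℂ :=
  a + ((nsq p : ℝ) : ℂ) • ((1 - Pi) + (1 - prj p))

/-- the form `a⁻¹` -/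
def Gm (p : ι → ℂ) (Pi a : Matrix ι ι ℂ) : Matrix ι ι ℂ :=
  prj p * (Sm p Pi a)⁻¹ * prj p

section
variable {T : Submodule ℂ (ι → ℂ)} {p : ι → ℂ} {Pi : Matrix ι ι ℂ}

theorem mulVec_ext {A B : Matrix ι ι ℂ} (h : ∀ v, A *ᵥ v = B *ᵥ v) : A = B := by
  apply Matrix.toLin'.injective
  ext1 v
  ext1
  simp only [Matrix.toLin'_apply, LinearMap.comp_apply]
  rw [h]

theorem mulVec_ext' {κ : Type*} [Fintype κ] [DecidableEq κ] {A B : Matrix ι κ ℂ}
    (h : ∀ v, A *ᵥ v = B *ᵥ v) : A = B := by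
  apply Matrix.toLin'.injective
  ext1 v
  ext1
  simp only [Matrix.toLin'_apply, LinearMap.comp_apply]
  rw [h]

theorem IsPi.idem (h : IsPi T Pi) : Pi * Pi = Pi := by
  refine mulVec_ext fun v => ?_
  rw [← Matrix.mulVec_mulVec, h.id _ (h.mem v)]

theorem IsPi.trace (h : IsPi T Pi) : Pi.trace = (Module.finrank ℂ T : ℂ) := by
  have h1 : LinearMap.IsProj T (Matrix.toLin' Pi) :=
    ⟨fun v => by rw [Matrix.toLin'_apply]; exact h.mem v,
      fun v hv => by rw [Matrix.toLin'_apply]; exact h.id v hv⟩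
  have h2 := h1.trace
  rwa [Matrix.trace_toLin'_eq] at h2

theorem one_sub_prj_isHermitian (p : ι → ℂ) : (1 - prj p).IsHermitian :=
  Matrix.isHermitian_one.sub (prj_isHermitian p)

theorem one_sub_prj_idem (hp : p ≠ 0) : (1 - prj p) * (1 - prj p) = 1 - prj p := by
  rw [Matrix.sub_mul, Matrix.mul_sub, Matrix.mul_sub, prj_mul_prj hp, Matrix.one_mul,
    Matrix.one_mul, Matrix.mul_one, sub_self, sub_zero]

theorem one_sub_prj_mulVec (p v : ι → ℂ) :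
    (1 - prj p) *ᵥ v = (((nsq p : ℂ))⁻¹ * (star p ⬝ᵥ v)) • p := by
  rw [Matrix.sub_mulVec, Matrix.one_mulVec, prj_mulVec]
  abel

theorem Pi_mul_one_sub (h : IsPi T Pi) (hpT : p ∈ T) : Pi * (1 - prj p) = 1 - prj p := by
  refine mulVec_ext fun v => ?_
  rw [← Matrix.mulVec_mulVec, one_sub_prj_mulVec, Matrix.mulVec_smul, h.id p hpT]

theorem one_sub_mul_Pi (h : IsPi T Pi) (hpT : p ∈ T) : (1 - prj p) * Pi = 1 - prj p := by
  have := congrArg Matrix.conjTranspose (Pi_mul_one_sub h hpT)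
  rwa [Matrix.conjTranspose_mul, h.herm.eq, (one_sub_prj_isHermitian p).eq] at this

theorem trace_one_sub_prj (hp : p ≠ 0) : (1 - prj p).trace = 1 := by
  have h : (nsq p : ℂ) ≠ 0 := by exact_mod_cast (nsq_pos hp).ne'
  have : 1 - prj p = ((nsq p : ℂ))⁻¹ • vecMulVec p (star p) := by
    rw [prj]; abel
  rw [this, Matrix.trace_smul, Matrix.trace_vecMulVec, dotProduct_comm, Frm290.star_dot_self,
    smul_eq_mul, inv_mul_cancel₀ h]

theorem trace_Pi_sub (h : IsPi T Pi) (hp : p ≠ 0) {n : ℕ} (hn : Module.finrank ℂ T = n + 1) :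
    (Pi - (1 - prj p)).trace = n := by
  rw [Matrix.trace_sub, h.trace, hn, trace_one_sub_prj hp]
  push_cast
  ring

variable {n : ℕ} {a : Matrix ι ι ℂ} {b : Matrix ι (Fin n) ℂ}

theorem prj_mul_of_hor {κ : Type*} [Fintype κ] [DecidableEq κ] {b : Matrix ι κ ℂ}
    (hb : star p ᵥ* b = 0) : prj p * b = b := by
  have h0 : vecMulVec p (0 : κ → ℂ) = 0 := by
    ext i j
    simp [Matrix.vecMulVec_apply]
  rw [prj, Matrix.sub_mul, Matrix.one_mul, Matrix.smul_mul, Matrix.vecMulVec_mul, hb, h0,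
    smul_zero, sub_zero]

theorem Pi_mul_of_tan (h : IsPi T Pi) {κ : Type*} [Fintype κ] [DecidableEq κ] {b : Matrix ι κ ℂ}
    (hb : ∀ c, b *ᵥ c ∈ T) : Pi * b = b := by
  refine mulVec_ext' fun v => ?_
  rw [← Matrix.mulVec_mulVec, h.id _ (hb v)]

/-- `(Pi - pp*/|p|²) b = b` for horizontal tangent columns -/
theorem P0_mul (h : IsPi T Pi) {κ : Type*} [Fintype κ] [DecidableEq κ] {b : Matrix ι κ ℂ}
    (hb : ∀ c, b *ᵥ c ∈ T) (hh : star p ᵥ* b = 0) : (Pi - (1 - prj p)) * b = b := by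
  rw [Matrix.sub_mul, Matrix.sub_mul, Matrix.one_mul, Pi_mul_of_tan h hb, prj_mul_of_hor hh]
  abel

theorem P0_herm (h : IsPi T Pi) : (Pi - (1 - prj p)).IsHermitian :=
  h.herm.sub (one_sub_prj_isHermitian p)

theorem P0_idem (h : IsPi T Pi) (hpT : p ∈ T) (hp : p ≠ 0) :
    (Pi - (1 - prj p)) * (Pi - (1 - prj p)) = Pi - (1 - prj p) := by
  have e1 := Pi_mul_one_sub h hpT
  have e2 := one_sub_mul_Pi h hpT
  have e3 := one_sub_prj_idem hp
  rw [Matrix.sub_mul, Matrix.mul_sub Pi, Matrix.mul_sub (1 - prj p), h.idem, e1, e2, e3, sub_self,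
    sub_zero]

theorem Rep.det_ne (hr : Rep T p a b) : (bᴴ * b).det ≠ 0 := by
  intro h0
  obtain ⟨c, hc, hc0⟩ := Matrix.exists_mulVec_eq_zero_iff.2 h0
  apply hc
  apply hr.ind
  have h1 : star c ⬝ᵥ ((bᴴ * b) *ᵥ c) = (nsq (b *ᵥ c) : ℂ) := by
    rw [← Matrix.mulVec_mulVec, Matrix.dotProduct_mulVec, ← Matrix.star_mulVec,
      Frm290.star_dot_self]
  rw [hc0, dotProduct_zero] at h1
  exact nsq_eq_zero.1 (by exact_mod_cast h1.symm)

theorem Rep.posDef (hr : Rep T p a b) (h : IsPi T Pi) (hpT : p ∈ T) (hp : p ≠ 0)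
    (hn : Module.finrank ℂ T = n + 1) : (Sm p Pi a).PosDef := by
  have := posDef_S (P := 1 - prj p) h.herm h.idem (one_sub_prj_isHermitian p) (one_sub_prj_idem hp)
    (Pi_mul_one_sub h hpT) (one_sub_mul_Pi h hpT) (trace_Pi_sub h hp hn) (P0_mul h hr.tan hr.hor)
    hr.det_ne (nsq_pos hp)
  rw [Sm, hr.eq]
  exact this

theorem Rep.isUnit (hr : Rep T p a b) (h : IsPi T Pi) (hpT : p ∈ T) (hp : p ≠ 0)
    (hn : Module.finrank ℂ T = n + 1) : IsUnit (Sm p Pi a).det :=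
  (Matrix.isUnit_iff_isUnit_det _).1 (hr.posDef h hpT hp hn).isUnit

theorem Rep.a_mul (hr : Rep T p a b) (h : IsPi T Pi) : a * (Pi - (1 - prj p)) = a := by
  have h1 := congrArg Matrix.conjTranspose (P0_mul h hr.tan hr.hor)
  rw [Matrix.conjTranspose_mul, (P0_herm h).eq] at h1
  rw [hr.eq, Matrix.mul_assoc, h1]

theorem Rep.mul_a (hr : Rep T p a b) (h : IsPi T Pi) : (Pi - (1 - prj p)) * a = a := by
  rw [hr.eq, ← Matrix.mul_assoc, P0_mul h hr.tan hr.hor]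

theorem Sm_mul_P0 (hr : Rep T p a b) (h : IsPi T Pi) (hpT : p ∈ T) (hp : p ≠ 0) :
    Sm p Pi a * (Pi - (1 - prj p)) = a := by
  have e1 := Pi_mul_one_sub h hpT
  have e2 := one_sub_mul_Pi h hpT
  have e3 := one_sub_prj_idem hp
  have e4 : ((1 - Pi) + (1 - prj p)) * (Pi - (1 - prj p)) = 0 := by
    rw [Matrix.add_mul, Matrix.sub_mul 1 Pi, Matrix.one_mul, Matrix.mul_sub Pi, h.idem, e1,
      Matrix.mul_sub (1 - prj p) Pi, e2, e3]
    abel
  rw [Sm, Matrix.add_mul, Matrix.smul_mul, e4, smul_zero, add_zero, hr.a_mul h]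

theorem P0_mul_Sm (hr : Rep T p a b) (h : IsPi T Pi) (hpT : p ∈ T) (hp : p ≠ 0) :
    (Pi - (1 - prj p)) * Sm p Pi a = a := by
  have e1 := Pi_mul_one_sub h hpT
  have e2 := one_sub_mul_Pi h hpT
  have e3 := one_sub_prj_idem hp
  have e4 : (Pi - (1 - prj p)) * ((1 - Pi) + (1 - prj p)) = 0 := by
    rw [Matrix.mul_add, Matrix.sub_mul, Matrix.mul_sub Pi 1 Pi, Matrix.mul_one, h.idem,
      Matrix.sub_mul Pi (1 - prj p) (1 - prj p), e1, e3, Matrix.mul_sub (1 - prj p) 1 Pi, e2,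
      Matrix.mul_one]
    abel
  rw [Sm, Matrix.mul_add, Matrix.mul_smul, e4, smul_zero, add_zero, hr.mul_a h]

theorem Gm_isHermitian (hS : (Sm p Pi a).IsHermitian) : (Gm p Pi a).IsHermitian := by
  unfold Gm
  rw [Matrix.IsHermitian, Matrix.conjTranspose_mul, Matrix.conjTranspose_mul,
    (prj_isHermitian p).eq, hS.inv.eq, Matrix.mul_assoc]

theorem Gm_mulVec_self (hp : p ≠ 0) : Gm p Pi a *ᵥ p = 0 := by
  rw [Gm, ← Matrix.mulVec_mulVec, prj_mulVec_self hp, Matrix.mulVec_zero]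

theorem Gm_dot (p : ι → ℂ) (Pi a : Matrix ι ι ℂ) (v : ι → ℂ) :
    star v ⬝ᵥ (Gm p Pi a *ᵥ v) =
      star (prj p *ᵥ v) ⬝ᵥ ((Sm p Pi a)⁻¹ *ᵥ (prj p *ᵥ v)) := by
  rw [Gm, ← Matrix.mulVec_mulVec, ← Matrix.mulVec_mulVec, Matrix.dotProduct_mulVec,
    Matrix.star_mulVec, (prj_isHermitian p).eq]

/-- positivity of `a⁻¹` on tangent vectors which are not proportional to `p` -/
theorem Rep.Gm_pos (hr : Rep T p a b) (h : IsPi T Pi) (hpT : p ∈ T) (hp : p ≠ 0)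
    (hn : Module.finrank ℂ T = n + 1) {v : ι → ℂ} (hv : ∀ l : ℂ, v ≠ l • p) :
    0 < (star v ⬝ᵥ (Gm p Pi a *ᵥ v)).re := by
  rw [Gm_dot]
  have h1 : prj p *ᵥ v ≠ 0 := by
    intro h0
    rw [prj_mulVec] at h0
    exact hv _ (sub_eq_zero.1 h0)
  have h2 := (hr.posDef h hpT hp hn).inv.dotProduct_mulVec_pos h1
  exact (Complex.lt_def.1 h2).1

/-- a frame orthonormal for `a⁻¹` represents `a` -/
theorem Rep.outer (hr : Rep T p a b) (h : IsPi T Pi) (hpT : p ∈ T) (hp : p ≠ 0)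
    (hn : Module.finrank ℂ T = n + 1) {M : Matrix ι (Fin n) ℂ} (hM : ∀ c, M *ᵥ c ∈ T)
    (h1 : Mᴴ * Gm p Pi a * M = 1) : prj p * (M * Mᴴ) * prj p = a := by
  have hV : (Pi - (1 - prj p)) * (prj p * M) = prj p * M := by
    refine P0_mul h (fun c => ?_) ?_
    · rw [← Matrix.mulVec_mulVec, prj_mulVec]
      exact T.sub_mem (hM c) (T.smul_mem _ hpT)
    · rw [← Matrix.vecMul_vecMul, star_vecMul_prj hp, Matrix.zero_vecMul]
  have h2 : (prj p * M)ᴴ * (Sm p Pi a)⁻¹ * (prj p * M) = 1 := by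
    rw [Matrix.conjTranspose_mul, (prj_isHermitian p).eq, ← h1, Gm]
    simp only [Matrix.mul_assoc]
  have h3 := outer_eq (P0_herm h) (P0_idem h hpT hp) (hr.isUnit h hpT hp hn)
    (Sm_mul_P0 hr h hpT hp) (P0_mul_Sm hr h hpT hp) (trace_Pi_sub h hp hn) hV h2
  rw [← h3, Matrix.conjTranspose_mul, (prj_isHermitian p).eq]
  simp only [Matrix.mul_assoc]

/-- the representing vectors are orthonormal for `a⁻¹` -/
theorem Rep.orth (hr : Rep T p a b) (h : IsPi T Pi) (hpT : p ∈ T) (hp : p ≠ 0)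
    (hn : Module.finrank ℂ T = n + 1) : bᴴ * Gm p Pi a * b = 1 := by
  have hu := hr.isUnit h hpT hp hn
  have hb := prj_mul_of_hor hr.hor
  have hb' : bᴴ * prj p = bᴴ := by
    have := congrArg Matrix.conjTranspose hb
    rwa [Matrix.conjTranspose_mul, (prj_isHermitian p).eq] at this
  -- `S b = b (bᴴ b)`
  have e1 : Sm p Pi a * b = b * (bᴴ * b) := by
    calc Sm p Pi a * b = Sm p Pi a * ((Pi - (1 - prj p)) * b) := by
          rw [P0_mul h hr.tan hr.hor]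
      _ = a * b := by rw [← Matrix.mul_assoc, Sm_mul_P0 hr h hpT hp]
      _ = b * (bᴴ * b) := by
          conv_lhs => rw [hr.eq]
          rw [Matrix.mul_assoc]
  have e2 : b = (Sm p Pi a)⁻¹ * b * (bᴴ * b) := by
    calc b = (Sm p Pi a)⁻¹ * (Sm p Pi a * b) := by
          rw [← Matrix.mul_assoc, Matrix.nonsing_inv_mul _ hu, Matrix.one_mul]
      _ = _ := by rw [e1]; simp only [Matrix.mul_assoc]
  have hub : IsUnit (bᴴ * b).det := isUnit_iff_ne_zero.2 hr.det_ne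
  have e3 : (bᴴ * (Sm p Pi a)⁻¹ * b) * (bᴴ * b) = bᴴ * b := by
    calc (bᴴ * (Sm p Pi a)⁻¹ * b) * (bᴴ * b) = bᴴ * ((Sm p Pi a)⁻¹ * b * (bᴴ * b)) := by
          simp only [Matrix.mul_assoc]
      _ = bᴴ * b := by rw [← e2]
  have e4 : bᴴ * (Sm p Pi a)⁻¹ * b = 1 := by
    calc bᴴ * (Sm p Pi a)⁻¹ * b
        = (bᴴ * (Sm p Pi a)⁻¹ * b) * ((bᴴ * b) * (bᴴ * b)⁻¹) := by
          rw [Matrix.mul_nonsing_inv _ hub, Matrix.mul_one]
      _ = ((bᴴ * (Sm p Pi a)⁻¹ * b) * (bᴴ * b)) * (bᴴ * b)⁻¹ := by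
          simp only [Matrix.mul_assoc]
      _ = 1 := by rw [e3, Matrix.mul_nonsing_inv _ hub]
  calc bᴴ * Gm p Pi a * b = (bᴴ * prj p) * (Sm p Pi a)⁻¹ * (prj p * b) := by
        rw [Gm]; simp only [Matrix.mul_assoc]
    _ = 1 := by rw [hb, hb', e4]

/-- the determinant `D p M` of any frame orthonormal for `a⁻¹` is that of the representing frame -/
theorem Rep.D_eq (hr : Rep T p a b) (h : IsPi T Pi) (hpT : p ∈ T) (hp : p ≠ 0)
    (hn : Module.finrank ℂ T = n + 1) {M : Matrix ι (Fin n) ℂ} (hM : ∀ c, M *ᵥ c ∈ T)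
    (h1 : Mᴴ * Gm p Pi a * M = 1) : D p M = D p b :=
  (unitary_change' hpT hp hn (Gm_mulVec_self hp)
    (Gm_isHermitian (hr.posDef h hpT hp hn).isHermitian) hr.tan hM (hr.orth h hpT hp hn) h1).1

theorem nsq_smul (c : ℂ) (p : ι → ℂ) : nsq (c • p) = ‖c‖ ^ 2 * nsq p := by
  have h := Frm290.star_dot_self (c • p)
  rw [star_smul, smul_dotProduct, dotProduct_smul, Frm290.star_dot_self, smul_eq_mul, smul_eq_mul,
    ← mul_assoc, Complex.star_def, ← Complex.normSq_eq_conj_mul_self, Complex.normSq_eq_norm_sq] at h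
  exact_mod_cast h.symm

theorem prj_smul {c : ℂ} (hc : c ≠ 0) (p : ι → ℂ) : prj (c • p) = prj p := by
  have hc2 : c * star c ≠ 0 := mul_ne_zero hc (star_ne_zero.2 hc)
  have h1 : vecMulVec (c • p) (star (c • p)) = (c * star c) • vecMulVec p (star p) := by
    ext i j
    simp only [vecMulVec_apply, Pi.smul_apply, Pi.star_apply, smul_eq_mul, star_mul',
      Matrix.smul_apply]
    ring
  have h2 : ((‖c‖ ^ 2 : ℝ) : ℂ) = c * star c := by
    rw [Complex.star_def, Complex.mul_conj, Complex.normSq_eq_norm_sq]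
  have hcs : star c ≠ 0 := star_ne_zero.2 hc
  rw [prj, prj, h1, nsq_smul, Complex.ofReal_mul, h2, mul_inv, smul_smul]
  congr 2
  rw [mul_comm, ← mul_assoc, mul_inv_cancel₀ hc2, one_mul]

theorem Sm_smul {c : ℂ} (hc : c ≠ 0) (p : ι → ℂ) (Pi a : Matrix ι ι ℂ) :
    Sm (c • p) Pi (((‖c‖ ^ 2 : ℝ) : ℂ) • a) = ((‖c‖ ^ 2 : ℝ) : ℂ) • Sm p Pi a := by
  rw [Sm, Sm, prj_smul hc, nsq_smul, Complex.ofReal_mul]
  generalize ((‖c‖ ^ 2 : ℝ) : ℂ) = x
  module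

/-- scaling: `a(cp) = |c|² a(p)` gives `a⁻¹(cp) = |c|⁻² a⁻¹(p)` -/
theorem Gm_smul {c : ℂ} (hc : c ≠ 0) (p : ι → ℂ) (Pi a : Matrix ι ι ℂ)
    (hu : IsUnit (Sm p Pi a).det) :
    Gm (c • p) Pi (((‖c‖ ^ 2 : ℝ) : ℂ) • a) = (((‖c‖ ^ 2 : ℝ) : ℂ))⁻¹ • Gm p Pi a := by
  have hc2 : ((‖c‖ ^ 2 : ℝ) : ℂ) ≠ 0 := by
    exact_mod_cast (pow_pos (norm_pos_iff.2 hc) 2).ne'
  have h1 : (((‖c‖ ^ 2 : ℝ) : ℂ) • Sm p Pi a)⁻¹ = (((‖c‖ ^ 2 : ℝ) : ℂ))⁻¹ • (Sm p Pi a)⁻¹ := by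
    have := Matrix.inv_smul' (A := Sm p Pi a) (Units.mk0 _ hc2) hu
    rwa [Units.smul_def, Units.smul_def, Units.val_inv_eq_inv_val, Units.val_mk0] at this
  rw [Gm, Gm, Sm_smul hc, h1, prj_smul hc, Matrix.mul_smul, Matrix.smul_mul]

end

end Crest.Agent.R269.Rate2_936
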