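import Crest.Agent.R269.Reg9_241
import Crest.Agent.R269.DictF_795

/-!
Row 269 (S0411), leaf D4/REG, part 10 (helper241): THE REGULARITY THEOREMS.

* `reg` : a holomorphic `F` on an étale chart with `∫ |F|² wt^m ns^{-j} < ∞` is an element `b` of the
  chart and `b • (dz_1 ∧ … ∧ dz_n)^{⊗(m+1)}` is a section of `(m+1) K + j A`;
* `reg_pluri`, `reg_H0tw` : global versions;
* `reg_vanish` : with the extra weight `(|x|²/|p ∧ x|²)^{n+1}` the section vanishes at `p`.
-/

set_option autoImplicit false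
set_option linter.unusedSectionVars false
set_option linter.style.haveILetI false

open scoped ENNReal NNReal Topology BigOperators
open MeasureTheory Set Metric Filter

noncomputable section

namespace Crest.Agent.R269.Reg10_241

open Crest.AlgGeometry.ProjEmb
open Crest.Agent.R271.Defs710 hiding wt
open Crest.Agent.R271.Bd741 Crest.Agent.R269.Reg4_241
open Crest.Agent.R269.Amp1_243 Crest.Agent.R269.Amp3_243 Crest.Agent.R269.Geo_328
open Crest.Agent.R269.Reg5_241 Crest.Agent.R269.Reg6_241 Crest.Agent.R269.Reg7_241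
open Crest.Agent.R269.Reg8_241 Crest.Agent.R269.Reg9_241
open Crest.Agent.R269.DictA_795 Crest.Agent.R269.DictB_795 Crest.Agent.R269.DictC_795
open Crest.Agent.R269.DictE_795 Crest.Agent.R269.DictF_795 Crest.Agent.R269.H0tw_795

variable {N n : ℕ} {I : Ideal (HomCoordRing N)} [I.IsPrime]

/-- the section `b • (dz_1 ∧ … ∧ dz_n)^{⊗ m}` -/
def sec (X : XC I n) (io : X.B →ₐ[ℂ] FnField I) (m : ℕ) (b : X.B) : PluriForms I n m :=
  io b • PiTensorProduct.tprod (FnField I) (fun _ : Fin m => wedgeD I n (fun k => io (X.z k)))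

lemma X_not_mem' (X : XC I n) (io : X.B →ₐ[ℂ] FnField I)
    (hx : ∀ l, io (X.x l) = fnRatio I X.i l) : (MvPolynomial.X X.i : HomCoordRing N) ∉ I := by
  intro h
  have h1 := hx X.i
  rw [X.x_i, map_one] at h1
  have h0 : fnRatio I X.i X.i = 0 := by
    apply toConeHom_injective
    rw [toConeHom_fnRatio, coneHom_eq_zero_iff.2 h, div_zero, map_zero]
  rw [h0] at h1
  exact one_ne_zero h1

/-- inclusion of the chart of `c` in the function field -/
def ioY (c : CD I n) {p : Fin (N + 1) → ℂ} (h : c.Dom p) (hX : IsSmoothProjective I n) :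
    (xc c h hX).B →ₐ[ℂ] FnField I := c.B.val

/-- inclusion of the chart of `c` in the local ring -/
def toS (c : CD I n) {p : Fin (N + 1) → ℂ} (h : c.Dom p) (hX : IsSmoothProjective I n) :
    (xc c h hX).B →ₐ[ℂ] stalk I p := h.toStalk

/-- the point `p` in the chart of `c` -/
def yp (c : CD I n) {p : Fin (N + 1) → ℂ} (h : c.Dom p) (hX : IsSmoothProjective I n) :
    (xc c h hX).B →ₐ[ℂ] ℂ := (ev h.cone).comp (toS c h hX)

lemma toS_coe (c : CD I n) {p : Fin (N + 1) → ℂ} (h : c.Dom p) (hX : IsSmoothProjective I n)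
    (a : (xc c h hX).B) : ((toS c h hX a : stalk I p) : FnField I) = ioY c h hX a := rfl

lemma yp_apply (c : CD I n) {p : Fin (N + 1) → ℂ} (h : c.Dom p) (hX : IsSmoothProjective I n)
    (a : (xc c h hX).B) : yp c h hX a = ev h.cone (toS c h hX a) := rfl

lemma pt_yp (c : CD I n) {p : Fin (N + 1) → ℂ} (h : c.Dom p) (hX : IsSmoothProjective I n)
    (l : Fin (N + 1)) : pt (xc c h hX) (yp c h hX) l = p l / p c.i := h.pt_yB l

/-- the local coefficient -/
theorem local_coeff (hX : IsSmoothProjective I n) (X : XC I n) (io : X.B →ₐ[ℂ] FnField I)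
    (hinj : Function.Injective io) (hx : ∀ l, io (X.x l) = fnRatio I X.i l)
    {c : CD I n} {p : Fin (N + 1) → ℂ} (h : c.Dom p)
    (m : ℕ) (j : ℤ) (F : X.B)
    (E : (X.B →ₐ[ℂ] ℂ) → ℝ) (E' : ((xc c h hX).B →ₐ[ℂ] ℂ) → ℝ) (q0 : (xc c h hX).B)
    (hq0 : q0 ≠ 0)
    (C : Chart (xc c h hX).z (yp c h hX))
    (hE : ∀ (y : X.B →ₐ[ℂ] ℂ) (s : (xc c h hX).B →ₐ[ℂ] ℂ), s q0 ≠ 0 →
      (∃ a : ℂ, a ≠ 0 ∧ pt X y = a • pt (xc c h hX) s) → E y = E' s)
    (hE0 : ∀ s, 0 ≤ E' s) {c1 δ1 : ℝ} (hc1 : 0 < c1) (hδ1 : 0 < δ1)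
    (hE' : ∀ ζ ∈ ball (0 : Cn n) δ1, C.s ζ q0 ≠ 0 → c1 ≤ E' (C.s ζ))
    (hfin : lintM X.z (fun y => ENNReal.ofReal
      (‖y F‖ ^ 2 * (wt X y ^ m * ns X y ^ (-j) * E y))) < ∞) :
    ∃ (f : stalk I p), (fnRatio I c.i X.i) ^ j • sec X io (m + 1) F = (f : FnField I) • c.wm (m + 1) ∧
      ∃ (g : Cn n → ℂ) (ε c2 : ℝ) (d : (xc c h hX).B), 0 < ε ∧ ε ≤ C.r ∧ ε ≤ δ1 ∧ 0 < c2 ∧
        DifferentiableOn ℂ g (ball 0 ε) ∧ d ≠ 0 ∧ (∀ ζ, C.s ζ d ≠ 0 → C.s ζ q0 ≠ 0) ∧
        g 0 = ev h.cone f ∧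
        ∫⁻ ζ in ball (0 : Cn n) ε ∩ {ζ | C.s ζ d ≠ 0}, ENNReal.ofReal (‖g ζ‖ ^ 2) *
          ENNReal.ofReal (c2 * E' (C.s ζ)) < ∞ := by
  classical
  letI : Algebra X.B (FnField I) := io.toRingHom.toAlgebra
  have t1 : IsScalarTower ℂ X.B (FnField I) :=
    IsScalarTower.of_algebraMap_eq fun a => (io.commutes a).symm
  have t2 : IsFractionRing X.B (FnField I) := isFr X io hinj hx
  letI : Algebra (xc c h hX).B (FnField I) := (ioY c h hX).toRingHom.toAlgebra
  have t3 : IsScalarTower ℂ (xc c h hX).B (FnField I) :=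
    IsScalarTower.of_algebraMap_eq fun a => ((ioY c h hX).commutes a).symm
  have t4 : IsFractionRing (xc c h hX).B (FnField I) :=
    isFr (xc c h hX) (ioY c h hX) Subtype.val_injective (fun l => rfl)
  obtain ⟨b, hb⟩ := exists_basis (S := (xc c h hX).B) (K := FnField I) (xc c h hX).z
    (xc c h hX).etale
  obtain ⟨b', hb'⟩ := exists_basis (S := X.B) (K := FnField I) X.z X.etale
  have hXi := X_not_mem' X io hx
  have hci := h.not_mem_i
  have hml : fnRatio I c.i X.i * fnRatio I X.i c.i = 1 := by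
    rw [← fnRatio_mul hci hXi, fnRatio_self hci]
  have hlam : ∀ l, algebraMap X.B (FnField I) (X.x l) =
      fnRatio I X.i c.i * algebraMap (xc c h hX).B (FnField I) ((xc c h hX).x l) := by
    intro l
    change io (X.x l) = fnRatio I X.i c.i * fnRatio I c.i l
    rw [hx, ← fnRatio_mul hXi hci]
  obtain ⟨q1, hq1, hq1'⟩ := exists_loc (K := FnField I) (A := (xc c h hX).B)
    (fun i : Fin 2 => ![fnRatio I X.i c.i, fnRatio I c.i X.i] i)
  obtain ⟨g, ε, c2, a, s, d, e1, e2, e3, e4, e5, e6, e7, e8, e9, e10, e11⟩ :=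
    reg_gen (X := X) (Y := xc c h hX) (K := FnField I) b b' hb hb' hml hlam m j F C E E' (q0 * q1)
      (mul_ne_zero hq0 hq1) (by
        intro y s hs hcomp
        rw [map_mul] at hs
        have hs0 : s q0 ≠ 0 := fun h0 => hs (by rw [h0, zero_mul])
        have hs1 : s q1 ≠ 0 := fun h0 => hs (by rw [h0, mul_zero])
        have hl := hq1' s hs1 0
        have hm := hq1' s hs1 1
        refine hE y s hs0 ⟨lv s (⟨fnRatio I X.i c.i, hl⟩ : loc (FnField I) s), ?_,
          pt_compat hcomp hlam hl⟩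
        have h2 : (⟨fnRatio I c.i X.i, hm⟩ : loc (FnField I) s) * ⟨fnRatio I X.i c.i, hl⟩ = 1 :=
          Subtype.ext hml
        have h3 := congrArg (lv s) h2
        rw [map_mul, map_one] at h3
        exact right_ne_zero_of_mul (by rw [h3]; exact one_ne_zero))
      hE0 hc1 hδ1 (by
        intro ζ hζ hne
        rw [map_mul] at hne
        exact hE' ζ hζ fun h0 => hne (by rw [h0, zero_mul]))
      hfin
  have hs : IsUnit (toS c h hX s) := by
    apply isUnit_of_ev_ne h.cone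
    exact e8
  obtain ⟨v, hv⟩ := hs
  set f : stalk I p := toS c h hX a * ((v⁻¹ : (stalk I p)ˣ) : stalk I p) with hf
  have hfs : f * toS c h hX s = toS c h hX a := by
    rw [hf, ← hv, mul_assoc, Units.inv_mul, mul_one]
  have hfs' : (f : FnField I) * ioY c h hX s = ioY c h hX a := congrArg Subtype.val hfs
  have hs0 : ioY c h hX s ≠ 0 := by
    intro h0
    have h1 : s = 0 := Subtype.ext h0
    rw [h1, map_zero] at e8
    exact e8 rfl
  have hsec : (fnRatio I c.i X.i) ^ j • sec X io (m + 1) F = (f : FnField I) • c.wm (m + 1) := by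
    have h1 : wedgeD I n (fun k => io (X.z k)) = (b.toMatrix b').det • c.ω :=
      wedge_eq b b' c.wL (fun k => io (X.z k)) hb hb'
    unfold sec
    rw [h1, tprod_smul, Finset.prod_const, Finset.card_univ, Fintype.card_fin, smul_smul, smul_smul]
    have h2 : (f : FnField I) = fnRatio I c.i X.i ^ j * io F * (b.toMatrix b').det ^ (m + 1) := by
      apply mul_right_cancel₀ hs0
      rw [hfs']
      have h3 : io F * ((b.toMatrix b').det ^ m * fnRatio I c.i X.i ^ j) * (b.toMatrix b').det *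
        ioY c h hX s = ioY c h hX a := e9
      rw [← h3]; ring
    rw [h2]
    rfl
  refine ⟨f, hsec, g, ε, c2, d, e1, e2, e3, e4, e5, e6, ?_, ?_, e11⟩
  · intro ζ hζ h0
    exact e7 ζ hζ (by rw [map_mul, h0, zero_mul])
  · have h1 := e10 0 (mem_ball_self e1)
    rw [C.s_zero] at h1
    have h2 := congrArg (ev h.cone) hfs
    rw [map_mul] at h2
    have h3 : ev h.cone (toS c h hX s) ≠ 0 := e8
    apply mul_right_cancel₀ h3
    rw [h2]
    exact h1

/-- **REGULARITY**, local form -/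
theorem reg_at (hX : IsSmoothProjective I n) (X : XC I n) (io : X.B →ₐ[ℂ] FnField I)
    (hinj : Function.Injective io) (hx : ∀ l, io (X.x l) = fnRatio I X.i l)
    (m : ℕ) (j : ℤ) (F : X.B)
    (hfin : lintM X.z (fun y => ENNReal.ofReal (‖y F‖ ^ 2 * (wt X y ^ m * ns X y ^ (-j)))) < ∞)
    {p : Fin (N + 1) → ℂ} (hp : p ∈ affineCone I) {i0 : Fin (N + 1)} (hpi : p i0 ≠ 0) :
    RegAt n (m + 1) p ((fnRatio I i0 X.i) ^ j • sec X io (m + 1) F) := by
  have hp0 : p ≠ 0 := fun h0 => hpi (by rw [h0]; rfl)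
  obtain ⟨c, hc, rfl⟩ := exists_CD hX hp hp0 hpi
  obtain ⟨C⟩ := (xc c hc hX).hch (yp c hc hX)
  obtain ⟨f, hf, -⟩ := local_coeff hX X io hinj hx hc m j F (fun _ => 1) (fun _ => 1) 1 one_ne_zero C
    (fun _ _ _ _ => rfl) (fun _ => zero_le_one) (c1 := 1) (δ1 := 1) one_pos one_pos
    (fun _ _ _ => le_rfl) (by simpa using hfin)
  exact ⟨c, hc, f, hf⟩

/-- **REGULARITY**: `L²` holomorphic functions are twisted pluricanonical sections -/
theorem reg_H0tw (hX : IsSmoothProjective I n) (X : XC I n) (io : X.B →ₐ[ℂ] FnField I)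
    (hinj : Function.Injective io) (hx : ∀ l, io (X.x l) = fnRatio I X.i l)
    {F : (X.B →ₐ[ℂ] ℂ) → ℂ} (hF : Crest.Agent.R271.Ho51.Hol F) (m : ℕ) (j : ℤ)
    (hint : lintM X.z (fun y => ENNReal.ofReal (‖F y‖ ^ 2 * (wt X y ^ m * ns X y ^ (-j)))) < ∞) :
    ∃ b : X.B, (∀ y, F y = y b) ∧ sec X io (m + 1) b ∈ H0tw I n X.i (m + 1) j := by
  obtain ⟨b, hb⟩ := alg_of_weight X hF m j hint
  refine ⟨b, hb, mem_H0tw.2 fun i hi => ?_⟩
  simp only [hb] at hint
  exact mem_chartSections_of_regAt hX hi fun p hp hpi =>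
    reg_at hX X io hinj hx m j b hint hp hpi

/-- **REGULARITY**, untwisted -/
theorem reg_pluri (hX : IsSmoothProjective I n) (X : XC I n) (io : X.B →ₐ[ℂ] FnField I)
    (hinj : Function.Injective io) (hx : ∀ l, io (X.x l) = fnRatio I X.i l)
    {F : (X.B →ₐ[ℂ] ℂ) → ℂ} (hF : Crest.Agent.R271.Ho51.Hol F) (m : ℕ)
    (hint : lintM X.z (fun y => ENNReal.ofReal (‖F y‖ ^ 2 * wt X y ^ m)) < ∞) :
    ∃ b : X.B, (∀ y, F y = y b) ∧ sec X io (m + 1) b ∈ pluricanonicalSections I n (m + 1) := by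
  obtain ⟨b, h1, h2⟩ := reg_H0tw hX X io hinj hx hF m 0 (by simpa using hint)
  rw [H0tw_zero] at h2
  exact ⟨b, h1, h2⟩

end Crest.Agent.R269.Reg10_241
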