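import Crest.Agent.R269.Reg10_241
import Crest.Agent.R269.Amp5_243

/-!
Row 269 (S0411), leaf D4/REG, part 11 (helper241): sections with the pole weight at `p` vanish at `p`;
the statements `Reg0`, `RegV0` of Amp8_243.
-/

set_option autoImplicit false
set_option linter.unusedSectionVars false
set_option linter.style.haveILetI false

open scoped ENNReal NNReal Topology BigOperators
open MeasureTheory Set Metric Filter Asymptotics

noncomputable section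

namespace Crest.Agent.R269.Reg11_241

open Crest.AlgGeometry.ProjEmb
open Crest.Agent.R271.Defs710 hiding wt
open Crest.Agent.R271.Bd741 Crest.Agent.R269.Reg4_241
open Crest.Agent.R269.Amp1_243 Crest.Agent.R269.Amp3_243 Crest.Agent.R269.Geo_328
open Crest.Agent.R269.Reg5_241 Crest.Agent.R269.Reg6_241 Crest.Agent.R269.Reg7_241
open Crest.Agent.R269.Reg8_241 Crest.Agent.R269.Reg9_241 Crest.Agent.R269.Reg10_241
open Crest.Agent.R269.DictA_795 Crest.Agent.R269.DictB_795 Crest.Agent.R269.DictC_795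
open Crest.Agent.R269.DictE_795 Crest.Agent.R269.DictF_795 Crest.Agent.R269.H0tw_795

variable {N n : ℕ}

/-- `∑_{a,b} |p_a q_b - p_b q_a|²` -/
def wdg (p q : EE N) : ℝ :=
  ∑ ab : Fin (N + 1) × Fin (N + 1), ‖p ab.1 * q ab.2 - p ab.2 * q ab.1‖ ^ 2

lemma wdg_nonneg (p q : EE N) : 0 ≤ wdg p q := Finset.sum_nonneg fun _ _ => by positivity

lemma wdg_smul (p q : EE N) (a : ℂ) : wdg p (a • q) = ‖a‖ ^ 2 * wdg p q := by
  unfold wdg
  rw [Finset.mul_sum]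
  refine Finset.sum_congr rfl fun ab _ => ?_
  simp only [Pi.smul_apply, smul_eq_mul]
  rw [← mul_pow, ← norm_mul]
  congr 2
  ring

lemma nsq_smul' (q : EE N) (a : ℂ) : Geo_328.nsq (a • q) = ‖a‖ ^ 2 * Geo_328.nsq q := by
  unfold Geo_328.nsq
  rw [Finset.mul_sum]
  refine Finset.sum_congr rfl fun l _ => ?_
  rw [Pi.smul_apply, smul_eq_mul, norm_mul, mul_pow]

lemma le_wdg (p q : EE N) (a b : Fin (N + 1)) : ‖p a * q b - p b * q a‖ ^ 2 ≤ wdg p q :=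
  Finset.single_le_sum (f := fun ab : Fin (N + 1) × Fin (N + 1) =>
    ‖p ab.1 * q ab.2 - p ab.2 * q ab.1‖ ^ 2) (fun _ _ => by positivity) (Finset.mem_univ (a, b))

variable {I : Ideal (HomCoordRing N)}

lemma Lp_eq (X : XC I n) (p : EE N) (y : X.B →ₐ[ℂ] ℂ) :
    Amp5_243.Lp X p y = wdg p (pt X y) := by
  unfold Amp5_243.Lp wdg Crest.Agent.R271.W792.nS
  refine Finset.sum_congr rfl fun ab _ => ?_
  rw [Amp5_243.ell_eq]
  rfl

/-- the pole function is `O(|ζ|²)` -/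
lemma wdg_chart (Y : XC I n) {y : Y.B →ₐ[ℂ] ℂ} (C : Chart Y.z y) {p : EE N} {κ : ℂ}
    (hp : pt Y y = κ • p) :
    ∃ K : ℝ, 0 < K ∧ ∃ δ : ℝ, 0 < δ ∧ ∀ ζ ∈ ball (0 : Cn n) δ,
      wdg p (pt Y (C.s ζ)) ≤ K * ‖ζ‖ ^ 2 := by
  have h1 : ∀ l, (fun ζ => C.s ζ (Y.x l) - C.s 0 (Y.x l)) =O[𝓝 0] fun ζ : Cn n => ζ := by
    intro l
    have h2 := (C.anal (Y.x l) 0 (mem_ball_self C.r_pos)).differentiableAt.isBigO_sub
    simpa using h2
  have h2 : ∀ ab : Fin (N + 1) × Fin (N + 1),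
      (fun ζ => p ab.1 * C.s ζ (Y.x ab.2) - p ab.2 * C.s ζ (Y.x ab.1)) =O[𝓝 0]
        fun ζ : Cn n => ζ := by
    intro ab
    have h3 := ((h1 ab.2).const_mul_left (p ab.1)).sub ((h1 ab.1).const_mul_left (p ab.2))
    refine h3.congr_left fun ζ => ?_
    have h4 : ∀ l, C.s 0 (Y.x l) = κ * p l := by
      intro l
      rw [C.s_zero]
      exact congrFun hp l
    rw [h4, h4]; ring
  have h3 : (fun ζ => wdg p (pt Y (C.s ζ))) =O[𝓝 0] fun ζ : Cn n => ‖ζ‖ ^ 2 := by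
    have h3ab : ∀ ab : Fin (N + 1) × Fin (N + 1),
        (fun ζ : Cn n => ‖p ab.1 * C.s ζ (Y.x ab.2) - p ab.2 * C.s ζ (Y.x ab.1)‖ ^ 2) =O[𝓝 0]
          fun ζ : Cn n => ‖ζ‖ ^ 2 := fun ab => (h2 ab).norm_norm.pow 2
    have h3s : (fun ζ : Cn n => ∑ ab : Fin (N + 1) × Fin (N + 1),
        ‖p ab.1 * C.s ζ (Y.x ab.2) - p ab.2 * C.s ζ (Y.x ab.1)‖ ^ 2) =O[𝓝 0]
          fun ζ : Cn n => ‖ζ‖ ^ 2 := IsBigO.fun_sum fun ab _ => h3ab ab
    exact h3s
  obtain ⟨K, hK, h4⟩ := h3.exists_pos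
  obtain ⟨δ, hδ, h5⟩ := Metric.eventually_nhds_iff_ball.1 h4.bound
  refine ⟨K, hK, δ, hδ, fun ζ hζ => ?_⟩
  have h6 := h5 ζ hζ
  rw [Real.norm_of_nonneg (wdg_nonneg _ _), Real.norm_of_nonneg (by positivity)] at h6
  exact h6

variable [I.IsPrime]

/-- **VANISHING** -/
theorem reg_vanish (hX : IsSmoothProjective I n) (hn : 1 ≤ n) (X : XC I n)
    (io : X.B →ₐ[ℂ] FnField I) (hinj : Function.Injective io)
    (hx : ∀ l, io (X.x l) = fnRatio I X.i l) (m : ℕ) (j : ℤ) (F : X.B)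
    {p : Fin (N + 1) → ℂ} (hp : p ∈ affineCone I) {i0 : Fin (N + 1)} (hpi : p i0 ≠ 0)
    (hfin : lintM X.z (fun y => ENNReal.ofReal (‖y F‖ ^ 2 * (wt X y ^ m * ns X y ^ (-j) *
      (ns X y / wdg p (pt X y)) ^ (n + 1)))) < ∞) :
    (fnRatio I i0 X.i) ^ j • sec X io (m + 1) F ∈ vanishingSections I n (m + 1) p := by
  have hp0 : p ≠ 0 := fun h0 => hpi (by rw [h0]; rfl)
  obtain ⟨c, hc, rfl⟩ := exists_CD hX hp hp0 hpi
  obtain ⟨C⟩ := (xc c hc hX).hch (yp c hc hX)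
  have hpt : pt (xc c hc hX) (yp c hc hX) = (p c.i)⁻¹ • p := by
    funext l
    rw [pt_yp, Pi.smul_apply, smul_eq_mul, div_eq_mul_inv, mul_comm]
  obtain ⟨K, hK, δ, hδ, hwd⟩ := wdg_chart (xc c hc hX) C hpt
  set k0 : Fin n := ⟨0, hn⟩ with hk0
  set q0 : (xc c hc hX).B := (xc c hc hX).z k0 -
    algebraMap ℂ _ (yp c hc hX ((xc c hc hX).z k0)) with hq0
  have hq0s : ∀ ζ ∈ ball (0 : Cn n) C.r, C.s ζ q0 = ζ k0 := by
    intro ζ hζ
    rw [hq0, map_sub, AlgHom.commutes, C.s_z ζ hζ]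
    simp
  have hq0ne : q0 ≠ 0 := by
    intro h0
    have h1 := hq0s (Pi.single k0 ((C.r / 2 : ℝ) : ℂ)) (by
      rw [mem_ball_zero_iff, Pi.norm_single]
      have := C.r_pos
      rw [Complex.norm_real, Real.norm_of_nonneg (by linarith)]
      linarith)
    rw [h0, map_zero, Pi.single_eq_same] at h1
    have h2 : (C.r / 2 : ℝ) = 0 := by exact_mod_cast h1.symm
    have := C.r_pos
    linarith
  set E : (X.B →ₐ[ℂ] ℂ) → ℝ := fun y => (ns X y / wdg p (pt X y)) ^ (n + 1) with hE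
  set E' : ((xc c hc hX).B →ₐ[ℂ] ℂ) → ℝ := fun s =>
    (ns (xc c hc hX) s / wdg p (pt (xc c hc hX) s)) ^ (n + 1) with hE'
  set δ1 : ℝ := min (min δ C.r) 1 with hδ1
  have hδ10 : 0 < δ1 := lt_min (lt_min hδ C.r_pos) one_pos
  -- lower bound near `p`
  have hlow : ∀ ζ ∈ ball (0 : Cn n) δ1, C.s ζ q0 ≠ 0 → 0 < ‖ζ‖ ∧
      (K⁻¹) ^ (n + 1) * ((‖ζ‖ ^ 2) ^ (n + 1))⁻¹ ≤ E' (C.s ζ) := by
    intro ζ hζ hne
    have hζr : ζ ∈ ball (0 : Cn n) C.r :=
      ball_subset_ball ((min_le_left _ _).trans (min_le_right _ _)) hζ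
    have hζδ : ζ ∈ ball (0 : Cn n) δ :=
      ball_subset_ball ((min_le_left _ _).trans (min_le_left _ _)) hζ
    rw [hq0s ζ hζr] at hne
    have hζ0 : 0 < ‖ζ‖ := (norm_pos_iff.2 hne).trans_le (norm_le_pi_norm ζ k0)
    refine ⟨hζ0, ?_⟩
    have h1 := hwd ζ hζδ
    have h2 : 0 < wdg p (pt (xc c hc hX) (C.s ζ)) := by
      refine lt_of_lt_of_le ?_ (le_wdg p _ c.i (c.S k0))
      have h3 : pt (xc c hc hX) (C.s ζ) c.i = 1 := pt_i (X := xc c hc hX) (C.s ζ)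
      have h4 : pt (xc c hc hX) (C.s ζ) (c.S k0) = p (c.S k0) / p c.i + ζ k0 := by
        have h5 := C.s_z ζ hζr k0
        have h6 := pt_yp c hc hX (c.S k0)
        have h7 : pt (xc c hc hX) (C.s ζ) (c.S k0) = C.s ζ ((xc c hc hX).z k0) := rfl
        have h8 : pt (xc c hc hX) (yp c hc hX) (c.S k0) = yp c hc hX ((xc c hc hX).z k0) := rfl
        rw [h7, h5, ← h8, h6]
      rw [h3, h4]
      have h9 : p c.i * (p (c.S k0) / p c.i + ζ k0) - p (c.S k0) * 1 = p c.i * ζ k0 := by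
        field_simp
        ring
      rw [h9]
      exact pow_pos (norm_pos_iff.2 (mul_ne_zero hpi hne)) 2
    have h10 : K⁻¹ * (‖ζ‖ ^ 2)⁻¹ ≤ ns (xc c hc hX) (C.s ζ) / wdg p (pt (xc c hc hX) (C.s ζ)) := by
      rw [← mul_inv, inv_eq_one_div]
      exact div_le_div₀ (ns_pos _).le (one_le_ns _) h2 h1
    calc (K⁻¹) ^ (n + 1) * ((‖ζ‖ ^ 2) ^ (n + 1))⁻¹ = (K⁻¹ * (‖ζ‖ ^ 2)⁻¹) ^ (n + 1) := by
          rw [mul_pow, inv_pow (‖ζ‖ ^ 2)]
      _ ≤ E' (C.s ζ) := by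
          simp only [hE']
          gcongr
  obtain ⟨f, hf, g, ε, c2, d, e1, e2, e3, e4, e5, e6, e7, e8, e9⟩ :=
    local_coeff hX X io hinj hx hc m j F E E' q0 hq0ne C
      (by
        intro y s hs ⟨a, ha, hys⟩
        have ha' : ‖a‖ ^ 2 ≠ 0 := pow_ne_zero 2 (norm_ne_zero_iff.2 ha)
        simp only [hE, hE']
        have h1 : ns X y = ‖a‖ ^ 2 * ns (xc c hc hX) s := by
          unfold ns
          rw [hys, nsq_smul']
        rw [h1, hys, wdg_smul, mul_div_mul_left _ _ ha'])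
      (fun s => pow_nonneg (div_nonneg (ns_pos _).le (wdg_nonneg _ _)) _)
      (c1 := (K⁻¹) ^ (n + 1)) (δ1 := δ1) (by positivity) hδ10
      (by
        intro ζ hζ hne
        obtain ⟨h0, h1⟩ := hlow ζ hζ hne
        refine le_trans ?_ h1
        have h2 : ‖ζ‖ ≤ 1 := by
          rw [mem_ball_zero_iff] at hζ
          exact hζ.le.trans (min_le_right _ _)
        have h3 : 1 ≤ ((‖ζ‖ ^ 2) ^ (n + 1))⁻¹ := by
          rw [one_le_inv₀ (by positivity)]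
          exact pow_le_one₀ (by positivity) (pow_le_one₀ (norm_nonneg _) h2)
        calc (K⁻¹) ^ (n + 1) = (K⁻¹) ^ (n + 1) * 1 := (mul_one _).symm
          _ ≤ _ := by gcongr)
      hfin
  have hg0 : g 0 = 0 := by
    refine zero_of_lint (A := (xc c hc hX).B) hn (xc c hc hX).ft (xc c hc hX).etale C e1 e2
      e5.continuousOn e6 (ω := fun ζ => ENNReal.ofReal (c2 * E' (C.s ζ)))
      (c := ENNReal.ofReal (c2 * (K⁻¹) ^ (n + 1)))
      (by rw [Ne, ENNReal.ofReal_eq_zero, not_le]; positivity)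
      (a := 2 * ((n : ℝ) + 1)) (by linarith) ?_ e9
    intro ζ hζ hne
    obtain ⟨h0, h1⟩ := hlow ζ (ball_subset_ball e3 hζ) (e7 ζ hne)
    have h2 : (ENNReal.ofReal ‖ζ‖) ^ (-(2 * ((n : ℝ) + 1))) =
        ENNReal.ofReal (((‖ζ‖ ^ 2) ^ (n + 1))⁻¹) := by
      rw [ENNReal.ofReal_rpow_of_pos h0]
      congr 1
      rw [Real.rpow_neg (norm_nonneg _)]
      congr 1
      have h3 : (2 * ((n : ℝ) + 1)) = ((2 * (n + 1) : ℕ) : ℝ) := by push_cast; ring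
      rw [h3, Real.rpow_natCast, pow_mul]
    rw [h2, ← ENNReal.ofReal_mul (by positivity)]
    apply ENNReal.ofReal_le_ofReal
    rw [mul_assoc]
    gcongr
  rw [hf, mem_vanishingSections_iff hX hc]
  exact ⟨f, by rw [← e8, hg0], rfl⟩

end Crest.Agent.R269.Reg11_241
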