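import Crest.Agent.R269.Reg11_241
import Crest.Agent.R269.Amp8_243

/-!
Row 269 (S0411), leaf D4/REG, part 12 (helper241): the statements `Reg0`, `RegV0` of Amp8_243 and `AmpStmt`.
-/

set_option autoImplicit false
set_option linter.unusedSectionVars false
set_option linter.style.haveILetI false

open scoped ENNReal NNReal Topology BigOperators
open MeasureTheory Set Metric Filter

noncomputable section

namespace Crest.Agent.R269.Reg12_241

open Crest.AlgGeometry.ProjEmb
open Crest.Agent.R271.Defs710 hiding wt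
open Crest.Agent.R269.Amp1_243 Crest.Agent.R269.Amp3_243
open Crest.Agent.R269.Reg7_241 Crest.Agent.R269.Reg10_241 Crest.Agent.R269.Reg11_241

variable {N n : ℕ} {I : Ideal (HomCoordRing N)} [I.IsPrime]

/-- `Reg0` -/
theorem reg0 (hX : IsSmoothProjective I n) (hn : 1 ≤ n) : Amp8_243.Reg0 I n := by
  intro X io hinj hx F hF m hfin
  exact reg_pluri hX X io hinj hx hF m hfin

/-- `RegV0` -/
theorem regV0 (hX : IsSmoothProjective I n) (hn : 1 ≤ n) : Amp8_243.RegV0 I n := by
  intro X io hinj hx F hF m _ p hp hp0 hfin b hb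
  obtain ⟨i0, hi0⟩ : ∃ i0, p i0 ≠ 0 := by
    by_contra h
    push_neg at h
    exact hp0 (funext h)
  have h1 := reg_vanish hX hn X io hinj hx m 0 b (p := p) hp hi0 (by
    refine lt_of_eq_of_lt ?_ hfin
    congr 1
    funext y
    rw [hb y, Lp_eq]
    congr 1
    rw [neg_zero, zpow_zero, mul_one, ← mul_assoc]
    rfl)
  rw [zpow_zero, one_smul] at h1
  exact h1

/-- **`AmpStmt`** -/
theorem ampStmt : Defs_58.AmpStmt :=
  Amp8_243.ampStmt_of fun _ _ _ _ hX hn => ⟨reg0 hX hn, regV0 hX hn⟩

end Crest.Agent.R269.Reg12_241
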