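import Mathlib

/-!
Row 269 (S0411), leaf D4/REG, part 1 (helper241): analytic divisibility along a smooth germ implies
algebraic divisibility in the local ring.

`S = ℂ[x_ι]`, `I` an ideal, `p` a point, `τ : ℂ^m → ℂ^ι` an analytic parametrisation of the zero set
of `I` near `p` by `m` of the coordinates, and the Jacobian condition at `p`.

* `mem_of_isBigO` : `f ∘ τ = O(|t - t₀|^k)` implies `f ∈ 𝔪^k + I`;
* `div_of_analytic` : `G ∘ τ = φ · (H ∘ τ)` with `φ` analytic implies `H' G - G' H ∈ I` with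
  `H'(p) ≠ 0`.
-/

set_option autoImplicit false
set_option linter.unusedSectionVars false
set_option linter.unusedSimpArgs false

open MvPolynomial Topology Filter Asymptotics

noncomputable section

namespace Crest.Agent.R269.Reg1_241

variable {ι : Type*} [Fintype ι] [DecidableEq ι]

/-- the maximal ideal of the point `p` -/
def mx (p : ι → ℂ) : Ideal (MvPolynomial ι ℂ) :=
  Ideal.span (Set.range fun j => (X j - C (p j) : MvPolynomial ι ℂ))

lemma X_sub_mem (p : ι → ℂ) (j : ι) : (X j - C (p j) : MvPolynomial ι ℂ) ∈ mx p :=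
  Ideal.subset_span ⟨j, rfl⟩

lemma eval_of_mem {p : ι → ℂ} {f : MvPolynomial ι ℂ} (h : f ∈ mx p) : eval p f = 0 := by
  have : mx p ≤ RingHom.ker (eval p) := by
    rw [mx, Ideal.span_le]
    rintro _ ⟨j, rfl⟩
    simp [RingHom.mem_ker]
  exact this h

lemma sub_eval_mem (p : ι → ℂ) (f : MvPolynomial ι ℂ) : f - C (eval p f) ∈ mx p := by
  induction f using MvPolynomial.induction_on with
  | C a => simp
  | add f g hf hg =>
    have := (mx p).add_mem hf hg
    simp only [map_add]
    convert this using 1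
    ring
  | mul_X f j hf =>
    have h1 := (mx p).mul_mem_right (X j) hf
    have h2 := (mx p).mul_mem_left (C (eval p f)) (X_sub_mem p j)
    have := (mx p).add_mem h1 h2
    convert this using 1
    simp only [map_mul, eval_X]
    ring

lemma mem_iff {p : ι → ℂ} {f : MvPolynomial ι ℂ} : f ∈ mx p ↔ eval p f = 0 := by
  refine ⟨eval_of_mem, fun h => ?_⟩
  have := sub_eval_mem p f
  simpa [h] using this

/-- first order Taylor expansion -/
lemma taylor1 (p : ι → ℂ) (F : MvPolynomial ι ℂ) :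
    F - C (eval p F) - ∑ j, C (eval p (pderiv j F)) * (X j - C (p j)) ∈ mx p ^ 2 := by
  induction F using MvPolynomial.induction_on with
  | C a => simp
  | add f g hf hg =>
    have := (mx p ^ 2).add_mem hf hg
    convert this using 1
    simp only [map_add, add_mul, Finset.sum_add_distrib]
    ring
  | mul_X f i hf =>
    have h1 := (mx p ^ 2).mul_mem_left (X i) hf
    have h2 : (X i - C (p i)) * (∑ j, C (eval p (pderiv j f)) * (X j - C (p j))) ∈ mx p ^ 2 := by
      rw [pow_two]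
      refine Ideal.mul_mem_mul (X_sub_mem p i) (Ideal.sum_mem _ fun j _ => ?_)
      exact Ideal.mul_mem_left _ _ (X_sub_mem p j)
    have := (mx p ^ 2).add_mem h1 h2
    convert this using 1
    have h3 : ∀ j, eval p (pderiv j (f * X i)) =
        eval p (pderiv j f) * p i + eval p f * (if j = i then 1 else 0) := by
      intro j
      rw [Derivation.leibniz]
      simp only [smul_eq_mul, map_add, map_mul, eval_X, pderiv_X, Pi.single_apply]
      split_ifs with h h' h'
      · simp; ring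
      · exact absurd h.symm h'
      · exact absurd h'.symm h
      · simp; ring
    simp only [h3, map_add, map_mul, add_mul, Finset.sum_add_distrib, eval_X]
    have h4 : ∑ j, C (eval p f) * C (if j = i then (1 : ℂ) else 0) * (X j - C (p j)) =
        (C (eval p f) * (X i - C (p i)) : MvPolynomial ι ℂ) := by
      rw [Finset.sum_eq_single i]
      · simp
      · intro b _ hb; simp [hb]
      · simp
    rw [h4]
    have h5 : ∑ j, C (eval p (pderiv j f)) * C (p i) * (X j - C (p j)) =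
        (C (p i) * ∑ j, C (eval p (pderiv j f)) * (X j - C (p j)) : MvPolynomial ι ℂ) := by
      rw [Finset.mul_sum]
      refine Finset.sum_congr rfl fun j _ => by ring
    rw [h5]
    ring

/-- the gradients of the members of `I` at `p` -/
def gradSub (I : Ideal (MvPolynomial ι ℂ)) (p : ι → ℂ) : Submodule ℂ (ι → ℂ) where
  carrier := {v | ∃ F ∈ I, v = fun j => eval p (pderiv j F)}
  zero_mem' := ⟨0, I.zero_mem, by ext j; simp⟩
  add_mem' := by
    rintro _ _ ⟨F, hF, rfl⟩ ⟨G, hG, rfl⟩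
    exact ⟨F + G, I.add_mem hF hG, by ext j; simp⟩
  smul_mem' := by
    rintro c _ ⟨F, hF, rfl⟩
    exact ⟨C c * F, I.mul_mem_left _ hF, by ext j; simp [Derivation.leibniz]⟩

variable {m : ℕ} (I : Ideal (MvPolynomial ι ℂ)) (p : ι → ℂ) (y : Fin m → ι)

/-- Jacobian condition: the coordinates `y` are coordinates on the tangent space. -/
def JacOK : Prop :=
  ∀ v : ι → ℂ, (∀ F ∈ I, ∑ j, v j * eval p (pderiv j F) = 0) → (∀ k, v (y k) = 0) → v = 0

/-- substitution `X_k ↦ x_{y k} - p_{y k}` -/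
def psi : MvPolynomial (Fin m) ℂ →ₐ[ℂ] MvPolynomial ι ℂ :=
  aeval fun k => (X (y k) - C (p (y k)) : MvPolynomial ι ℂ)

/-- the ideal generated by the coordinates `y` -/
def nn : Ideal (MvPolynomial ι ℂ) :=
  Ideal.span (Set.range fun k => (X (y k) - C (p (y k)) : MvPolynomial ι ℂ))

variable {I p y}

lemma nn_le : nn p y ≤ mx p := by
  rw [nn, Ideal.span_le]
  rintro _ ⟨k, rfl⟩
  exact X_sub_mem p (y k)

/-- linear algebra: every coordinate vector is a gradient plus a combination of the `e_{y k}` -/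
lemma exists_grad (hJ : JacOK I p y) (j : ι) :
    ∃ F ∈ I, ∃ c : Fin m → ℂ, ∀ l, (Pi.single j (1 : ℂ) : ι → ℂ) l =
      eval p (pderiv l F) + ∑ k, c k * (Pi.single (y k) (1 : ℂ) : ι → ℂ) l := by
  set U : Submodule ℂ (ι → ℂ) := gradSub I p ⊔ Submodule.span ℂ
    (Set.range fun k => (Pi.single (y k) (1 : ℂ) : ι → ℂ)) with hU
  have htop : U = ⊤ := by
    by_contra hne
    obtain ⟨f, hf, hfU⟩ := Submodule.exists_le_ker_of_lt_top U (lt_top_iff_ne_top.2 hne)
    apply hf
    have hrep : ∀ v : ι → ℂ, f v = ∑ l, f (Pi.single l 1) * v l := by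
      intro v
      conv_lhs => rw [← Finset.univ_sum_single v]
      rw [map_sum]
      refine Finset.sum_congr rfl fun l _ => ?_
      have : (Pi.single l (v l) : ι → ℂ) = v l • (Pi.single l (1 : ℂ) : ι → ℂ) := by
        rw [← Pi.single_smul]; simp
      rw [this, map_smul, smul_eq_mul, mul_comm]
    have hz := hJ (fun l => f (Pi.single l 1)) (by
      intro F hF
      have h1 : (fun j => eval p (pderiv j F)) ∈ U :=
        Submodule.mem_sup_left ⟨F, hF, rfl⟩
      have h2 := hfU h1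
      rw [LinearMap.mem_ker, hrep] at h2
      exact h2) (by
      intro k
      have h1 : (Pi.single (y k) (1 : ℂ) : ι → ℂ) ∈ U :=
        Submodule.mem_sup_right (Submodule.subset_span ⟨k, rfl⟩)
      exact hfU h1)
    ext l
    have := congrFun hz l
    simpa using this
  have hmem : (Pi.single j (1 : ℂ) : ι → ℂ) ∈ U := htop ▸ Submodule.mem_top
  obtain ⟨a, ⟨F, hF, rfl⟩, b, hb, hab⟩ := Submodule.mem_sup.1 hmem
  obtain ⟨c, rfl⟩ := (Submodule.mem_span_range_iff_exists_fun ℂ).1 hb
  refine ⟨F, hF, c, fun l => ?_⟩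
  have := congrFun hab l
  simp only [Pi.add_apply, Finset.sum_apply, Pi.smul_apply, smul_eq_mul] at this
  exact this.symm

/-- the maximal ideal is generated by the coordinates `y` modulo `𝔪² + I` -/
lemma mx_le (hI : ∀ F ∈ I, eval p F = 0) (hJ : JacOK I p y) : mx p ≤ nn p y ⊔ (mx p ^ 2 ⊔ I) := by
  rw [mx, Ideal.span_le]
  rintro _ ⟨j, rfl⟩
  obtain ⟨F, hF, c, hc⟩ := exists_grad hJ j
  have h1 := taylor1 p F
  rw [hI F hF] at h1
  have h2 : (∑ l, C (eval p (pderiv l F)) * (X l - C (p l)) : MvPolynomial ι ℂ) =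
      (X j - C (p j)) - ∑ k, C (c k) * (X (y k) - C (p (y k))) := by
    have h3 : ∀ l, eval p (pderiv l F) = (Pi.single j (1 : ℂ) : ι → ℂ) l -
        ∑ k, c k * (Pi.single (y k) (1 : ℂ) : ι → ℂ) l := fun l => by rw [hc l]; ring
    simp only [h3, map_sub, map_sum, sub_mul, Finset.sum_sub_distrib, Finset.sum_mul, map_mul]
    congr 1
    · rw [Finset.sum_eq_single j]
      · simp
      · intro b _ hb; simp [Pi.single_apply, hb]
      · simp
    · rw [Finset.sum_comm]
      refine Finset.sum_congr rfl fun k _ => ?_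
      rw [Finset.sum_eq_single (y k)]
      · simp
      · intro b _ hb; simp [Pi.single_apply, hb]
      · simp
  rw [h2] at h1
  have h4 : (X j - C (p j) : MvPolynomial ι ℂ) =
      ∑ k, C (c k) * (X (y k) - C (p (y k))) +
      (-(F - C 0 - ((X j - C (p j)) - ∑ k, C (c k) * (X (y k) - C (p (y k))))) + F) := by
    simp only [map_zero]; ring
  have h5 : (∑ k, C (c k) * (X (y k) - C (p (y k))) : MvPolynomial ι ℂ) ∈ nn p y :=
    Ideal.sum_mem _ fun k _ => Ideal.mul_mem_left _ _ (Ideal.subset_span ⟨k, rfl⟩)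
  have h6 : (-(F - C 0 - ((X j - C (p j)) - ∑ k, C (c k) * (X (y k) - C (p (y k))))) + F)
      ∈ mx p ^ 2 ⊔ I :=
    Submodule.add_mem_sup ((mx p ^ 2).neg_mem h1) hF
  show (X j - C (p j) : MvPolynomial ι ℂ) ∈ nn p y ⊔ (mx p ^ 2 ⊔ I)
  rw [h4]
  exact Submodule.add_mem_sup h5 h6

lemma mx_pow_le (hI : ∀ F ∈ I, eval p F = 0) (hJ : JacOK I p y) (k : ℕ) :
    mx p ^ k ≤ nn p y ^ k ⊔ (mx p ^ (k + 1) ⊔ I) := by
  induction k with
  | zero => simp
  | succ k ih =>
    have hn := nn_le (p := p) (y := y)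
    calc mx p ^ (k + 1) = mx p ^ k * mx p := pow_succ _ _
      _ ≤ (nn p y ^ k ⊔ (mx p ^ (k + 1) ⊔ I)) * (nn p y ⊔ (mx p ^ 2 ⊔ I)) :=
        Ideal.mul_mono ih (mx_le hI hJ)
      _ ≤ nn p y ^ (k + 1) ⊔ (mx p ^ (k + 1 + 1) ⊔ I) := by
        rw [Ideal.sup_mul, Ideal.sup_mul, Ideal.mul_sup, Ideal.mul_sup]
        have hnk : nn p y ^ k ≤ mx p ^ k := Ideal.pow_right_mono hn k
        refine sup_le (sup_le ?_ (sup_le ?_ ?_)) (sup_le (?_) ?_)
        · rw [← pow_succ]; exact le_sup_left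
        · refine le_sup_of_le_right (le_sup_of_le_left ?_)
          calc nn p y ^ k * mx p ^ 2 ≤ mx p ^ k * mx p ^ 2 := Ideal.mul_mono_left hnk
            _ = mx p ^ (k + 1 + 1) := by rw [← pow_add]
        · exact le_sup_of_le_right (le_sup_of_le_right Ideal.mul_le_right)
        · rw [Ideal.mul_sup, Ideal.mul_sup]
          refine sup_le ?_ (sup_le ?_ ?_)
          · refine le_sup_of_le_right (le_sup_of_le_left ?_)
            calc mx p ^ (k + 1) * nn p y ≤ mx p ^ (k + 1) * mx p := Ideal.mul_mono_right hn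
              _ = mx p ^ (k + 1 + 1) := by rw [← pow_succ]
          · refine le_sup_of_le_right (le_sup_of_le_left ?_)
            calc mx p ^ (k + 1) * mx p ^ 2 = mx p ^ (k + 1 + 2) := by rw [← pow_add]
              _ ≤ mx p ^ (k + 1 + 1) := Ideal.pow_le_pow_right (by omega)
          · exact le_sup_of_le_right (le_sup_of_le_right Ideal.mul_le_right)
        · exact le_sup_of_le_right (le_sup_of_le_right Ideal.mul_le_left)

/-- the irrelevant ideal of `ℂ[X_1..X_m]` -/
def mP (m : ℕ) : Ideal (MvPolynomial (Fin m) ℂ) := Ideal.span (Set.range X)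

lemma nn_eq_map : nn p y = (mP m).map (psi p y) := by
  rw [mP, Ideal.map_span, nn]
  congr 1
  ext f
  simp [psi, Set.range_comp']

lemma psi_mem {k : ℕ} {Q : MvPolynomial (Fin m) ℂ} (hQ : Q ∈ mP m ^ k) :
    psi p y Q ∈ mx p ^ k := by
  have h1 : psi p y Q ∈ (mP m ^ k).map (psi p y) := Ideal.mem_map_of_mem _ hQ
  rw [Ideal.map_pow, ← nn_eq_map] at h1
  exact Ideal.pow_right_mono nn_le k h1

lemma exists_psi_of_nn {k : ℕ} {g : MvPolynomial ι ℂ} (hg : g ∈ nn p y ^ k) :
    ∃ Q ∈ mP m ^ k, g - psi p y Q ∈ mx p ^ (k + 1) := by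
  rw [nn_eq_map, ← Ideal.map_pow, Ideal.map] at hg
  refine Submodule.span_induction ?_ ?_ ?_ ?_ hg
  · rintro _ ⟨Q, hQ, rfl⟩
    exact ⟨Q, hQ, by simp⟩
  · exact ⟨0, Ideal.zero_mem _, by simp⟩
  · rintro a b _ _ ⟨Q, hQ, h1⟩ ⟨Q', hQ', h2⟩
    refine ⟨Q + Q', Ideal.add_mem _ hQ hQ', ?_⟩
    have := Ideal.add_mem _ h1 h2
    convert this using 1
    rw [map_add]; ring
  · rintro s a _ ⟨Q, hQ, h1⟩
    refine ⟨C (eval p s) * Q, Ideal.mul_mem_left _ _ hQ, ?_⟩
    have h2 : (s - C (eval p s)) * psi p y Q ∈ mx p ^ (k + 1) := by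
      rw [pow_succ, mul_comm (mx p ^ k)]
      exact Ideal.mul_mem_mul (sub_eval_mem p s) (psi_mem hQ)
    have h3 := Ideal.add_mem _ (Ideal.mul_mem_left _ s h1) h2
    convert h3 using 1
    rw [map_mul, smul_eq_mul]
    have : psi p y (C (eval p s)) = C (eval p s) := by
      simp [psi]
    rw [this]; ring

/-- every polynomial is congruent to a polynomial in the coordinates `y` modulo `𝔪^k + I` -/
lemma exists_psi (hI : ∀ F ∈ I, eval p F = 0) (hJ : JacOK I p y) (k : ℕ)
    (f : MvPolynomial ι ℂ) : ∃ Q : MvPolynomial (Fin m) ℂ, f - psi p y Q ∈ mx p ^ k ⊔ I := by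
  induction k with
  | zero => exact ⟨0, by simp⟩
  | succ k ih =>
    obtain ⟨Q, hQ⟩ := ih
    obtain ⟨a, ha, b, hb, hab⟩ := Submodule.mem_sup.1 hQ
    obtain ⟨c, hc, d, hd, hcd⟩ := Submodule.mem_sup.1 (mx_pow_le hI hJ k ha)
    obtain ⟨Q', -, hQ'⟩ := exists_psi_of_nn hc
    refine ⟨Q + Q', ?_⟩
    have h1 : f - psi p y (Q + Q') = (c - psi p y Q') + d + b := by
      rw [map_add]
      linear_combination -hab - hcd
    rw [h1]
    refine Ideal.add_mem _ (Ideal.add_mem _ (Submodule.mem_sup_left hQ') hd)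
      (Submodule.mem_sup_right hb)

end Crest.Agent.R269.Reg1_241
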