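import Crest.Agent.R269.Reg1_241

/-!
Row 269 (S0411), leaf D4/REG, part 2 (helper241): orders of vanishing along a germ, Taylor
polynomials, and the division theorem.
-/

set_option autoImplicit false
set_option linter.unusedSectionVars false
set_option linter.unusedSimpArgs false

open MvPolynomial Topology Filter Asymptotics

noncomputable section

namespace Crest.Agent.R269.Reg2_241

open Crest.Agent.R269.Reg1_241

/-! ### polynomials which are `O(‖s‖^k)` -/

/-- a one variable polynomial which is `O(|r|^k)` at `0` has no coefficients below `k` -/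
lemma coeff_eq_zero_of_isBigO {q : Polynomial ℂ} {k : ℕ}
    (h : (fun r : ℂ => q.eval r) =O[𝓝 0] fun r => ‖r‖ ^ k) {j : ℕ} (hj : j < k) :
    q.coeff j = 0 := by
  induction j using Nat.strong_induction_on with
  | _ j ih =>
    -- `q = X^j * q'`
    have hdvd : (Polynomial.X : Polynomial ℂ) ^ j ∣ q := by
      rw [Polynomial.X_pow_dvd_iff]
      intro d hd
      exact ih d hd (hd.trans hj)
    obtain ⟨q', rfl⟩ := hdvd
    have h0 : ((Polynomial.X : Polynomial ℂ) ^ j * q').coeff j = q'.eval 0 := by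
      have := Polynomial.coeff_X_pow_mul q' j 0
      simpa [Polynomial.coeff_zero_eq_eval_zero] using this
    rw [h0]
    have h1 : Tendsto (fun r : ℂ => q'.eval r) (𝓝[≠] 0) (𝓝 (q'.eval 0)) :=
      (q'.continuous.tendsto 0).mono_left nhdsWithin_le_nhds
    have h2 : Tendsto (fun r : ℂ => q'.eval r) (𝓝[≠] 0) (𝓝 0) := by
      obtain ⟨c, hc⟩ := (h.mono (nhdsWithin_le_nhds (s := {(0 : ℂ)}ᶜ))).bound
      have h3 : Tendsto (fun r : ℂ => c * ‖r‖ ^ (k - j)) (𝓝[≠] 0) (𝓝 0) := by
        have : Tendsto (fun r : ℂ => c * ‖r‖ ^ (k - j)) (𝓝 0) (𝓝 (c * ‖(0 : ℂ)‖ ^ (k - j))) :=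
          (Continuous.tendsto (by fun_prop) 0)
        rw [norm_zero, zero_pow (by omega), mul_zero] at this
        exact this.mono_left nhdsWithin_le_nhds
      refine squeeze_zero_norm' ?_ h3
      filter_upwards [hc, self_mem_nhdsWithin] with r hr hr0
      have hr0' : 0 < ‖r‖ := norm_pos_iff.2 hr0
      simp only [Polynomial.eval_mul, Polynomial.eval_pow, Polynomial.eval_X, norm_mul,
        norm_pow, norm_norm] at hr
      have h4 : ‖r‖ ^ k = ‖r‖ ^ j * ‖r‖ ^ (k - j) := by rw [← pow_add]; congr 1; omega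
      rw [h4] at hr
      have h5 : ‖r‖ ^ j * ‖q'.eval r‖ ≤ ‖r‖ ^ j * (c * ‖r‖ ^ (k - j)) := by
        calc _ ≤ _ := hr
          _ = _ := by ring
      exact le_of_mul_le_mul_left h5 (by positivity)
    exact tendsto_nhds_unique h1 h2

variable {m : ℕ}

/-- restriction of a polynomial to the line through `v` -/
def line (Q : MvPolynomial (Fin m) ℂ) (v : Fin m → ℂ) : Polynomial ℂ :=
  aeval (fun i => Polynomial.C (v i) * Polynomial.X) Q

lemma line_eval (Q : MvPolynomial (Fin m) ℂ) (v : Fin m → ℂ) (r : ℂ) :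
    (line Q v).eval r = eval (r • v) Q := by
  have : (Polynomial.evalRingHom r).comp
      ((aeval (fun i => Polynomial.C (v i) * Polynomial.X) :
        MvPolynomial (Fin m) ℂ →ₐ[ℂ] Polynomial ℂ) : MvPolynomial (Fin m) ℂ →+* Polynomial ℂ) =
      eval (r • v) := by
    apply MvPolynomial.ringHom_ext
    · intro a
      simp only [RingHom.comp_apply, RingHom.coe_coe, algHom_C, Polynomial.coe_evalRingHom,
        Polynomial.algebraMap_apply, Algebra.algebraMap_self, RingHom.id_apply,
        Polynomial.eval_C, eval_C]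
    · intro i
      simp only [RingHom.comp_apply, RingHom.coe_coe, aeval_X, eval_X,
        Polynomial.coe_evalRingHom, Polynomial.eval_mul, Polynomial.eval_C, Polynomial.eval_X,
        Pi.smul_apply, smul_eq_mul]
      ring
  exact DFunLike.congr_fun this Q

lemma line_coeff (Q : MvPolynomial (Fin m) ℂ) (v : Fin m → ℂ) (j : ℕ) :
    (line Q v).coeff j = eval v (homogeneousComponent j Q) := by
  induction Q using MvPolynomial.induction_on' with
  | monomial s a =>
    have h1 : line (monomial s a) v = Polynomial.C (eval v (monomial s a)) *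
        Polynomial.X ^ (Finsupp.degree s) := by
      rw [line, aeval_monomial]
      simp only [mul_pow, Finsupp.prod_mul, ← Polynomial.C_pow]
      rw [eval_monomial, map_mul, Finsupp.prod, Finsupp.prod, Finsupp.prod, map_prod,
        Finsupp.degree_apply, Finset.prod_pow_eq_pow_sum]
      simp only [Polynomial.algebraMap_apply, Algebra.algebraMap_self, RingHom.id_apply]
      ring
    have h0 : homogeneousComponent j (monomial s a) =
        if j = Finsupp.degree s then monomial s a else 0 :=
      homogeneousComponent_of_mem (isHomogeneous_monomial a rfl)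
    rw [h1, Polynomial.coeff_C_mul, Polynomial.coeff_X_pow, h0]
    split_ifs with h2
    · simp
    · simp
  | add P Q hP hQ =>
    simp only [line, map_add, Polynomial.coeff_add] at *
    rw [hP, hQ]

/-- a polynomial which is `O(‖s‖^k)` at the origin lies in the `k`-th power of the irrelevant
ideal -/
theorem mem_mP_of_isBigO {Q : MvPolynomial (Fin m) ℂ} {k : ℕ}
    (h : (fun s : Fin m → ℂ => eval s Q) =O[𝓝 0] fun s => ‖s‖ ^ k) : Q ∈ mP m ^ k := by
  have hc : ∀ j < k, homogeneousComponent j Q = 0 := by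
    intro j hj
    refine MvPolynomial.funext fun v => ?_
    rw [← line_coeff, map_zero]
    refine coeff_eq_zero_of_isBigO (k := k) ?_ hj
    have h1 : Tendsto (fun r : ℂ => r • v) (𝓝 0) (𝓝 0) := by
      have : Tendsto (fun r : ℂ => r • v) (𝓝 0) (𝓝 ((0 : ℂ) • v)) :=
        Continuous.tendsto (by fun_prop) 0
      simpa using this
    have h2 := h.comp_tendsto h1
    refine (h2.congr_left fun r => (line_eval Q v r).symm).trans ?_
    refine IsBigO.of_bound (‖v‖ ^ k) (Eventually.of_forall fun r => ?_)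
    simp only [Function.comp_apply, norm_smul, mul_pow, norm_mul, norm_pow, norm_norm]
    rw [mul_comm]
  have : mP m = idealOfVars (Fin m) ℂ := rfl
  rw [this, mem_pow_idealOfVars_iff']
  intro x hx
  have h2 := congrArg (coeff x) (hc _ hx)
  rw [coeff_homogeneousComponent] at h2
  simpa using h2

/-! ### orders along a germ -/

variable {ι : Type*} [Fintype ι] [DecidableEq ι]

/-- elements of `𝔪_p^k` vanish to order `k` along every differentiable germ at `p` -/
lemma isBigO_of_mem {p : ι → ℂ} {τ : (Fin m → ℂ) → (ι → ℂ)} {t₀ : Fin m → ℂ}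
    (hτ : (fun t => τ t - p) =O[𝓝 t₀] fun t => t - t₀) {k : ℕ} {f : MvPolynomial ι ℂ}
    (hf : f ∈ mx p ^ k) : (fun t => eval (τ t) f) =O[𝓝 t₀] fun t => ‖t - t₀‖ ^ k := by
  have hcont : ContinuousAt τ t₀ := by
    have h1 : Tendsto (fun t => τ t - p) (𝓝 t₀) (𝓝 0) :=
      hτ.trans_tendsto (by
        have : Tendsto (fun t : Fin m → ℂ => t - t₀) (𝓝 t₀) (𝓝 (t₀ - t₀)) :=
          Continuous.tendsto (by fun_prop) t₀
        simpa using this)
    have h2 : Tendsto τ (𝓝 t₀) (𝓝 p) := by
      have := h1.add_const p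
      simpa using this
    have h3 : τ t₀ = p := by
      obtain ⟨c, hc⟩ := hτ.bound
      have := hc.self_of_nhds
      simp only [sub_self, norm_zero, mul_zero] at this
      exact sub_eq_zero.1 (norm_le_zero_iff.1 this)
    rw [ContinuousAt, h3]; exact h2
  have hbd : ∀ g : MvPolynomial ι ℂ, (fun t => eval (τ t) g) =O[𝓝 t₀] fun _ => (1 : ℝ) := by
    intro g
    have : ContinuousAt (fun t => eval (τ t) g) t₀ :=
      (MvPolynomial.continuous_eval g).continuousAt.comp hcont
    exact this.isBigO_one ℝ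
  induction k generalizing f with
  | zero => simpa using hbd f
  | succ k ih =>
    rw [pow_succ] at hf
    refine Submodule.mul_induction_on hf ?_ ?_
    · intro a ha b hb
      have h1 := ih ha
      have h2 : (fun t => eval (τ t) b) =O[𝓝 t₀] fun t => ‖t - t₀‖ := by
        rw [mx] at hb
        refine Submodule.span_induction ?_ ?_ ?_ ?_ hb
        · rintro _ ⟨j, rfl⟩
          simp only [map_sub, eval_X, eval_C]
          have h3 : (fun t => τ t j - p j) =O[𝓝 t₀] fun t => τ t - p := by
            refine IsBigO.of_bound 1 (Eventually.of_forall fun t => ?_)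
            rw [one_mul]
            exact norm_le_pi_norm (τ t - p) j
          exact (h3.trans hτ).norm_right
        · simpa using isBigO_zero _ _
        · intro x y _ _ hx hy
          simpa using hx.add hy
        · intro s x _ hx
          have := (hbd s).mul hx
          simpa using this
      have := h1.mul h2
      simpa [pow_succ] using this
    · intro x y hx hy
      simpa using hx.add hy

variable {I : Ideal (MvPolynomial ι ℂ)} {p : ι → ℂ} {y : Fin m → ι}
  {τ : (Fin m → ℂ) → (ι → ℂ)} {t₀ : Fin m → ℂ}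

/-- the germ data: an analytic (here: Lipschitz at the point) germ in the zero set of `I`, in graph
coordinates, and the Jacobian condition -/
structure Germ (I : Ideal (MvPolynomial ι ℂ)) (p : ι → ℂ) (y : Fin m → ι)
    (τ : (Fin m → ℂ) → (ι → ℂ)) (t₀ : Fin m → ℂ) : Prop where
  jac : JacOK I p y
  bigO : (fun t => τ t - p) =O[𝓝 t₀] fun t => t - t₀
  coord : ∀ᶠ t in 𝓝 t₀, ∀ k, τ t (y k) = t k
  zero : ∀ᶠ t in 𝓝 t₀, ∀ F ∈ I, eval (τ t) F = 0

namespace Germ

lemma eq_p (hG : Germ I p y τ t₀) : τ t₀ = p := by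
  obtain ⟨c, hc⟩ := hG.bigO.bound
  have := hc.self_of_nhds
  simp only [sub_self, norm_zero, mul_zero] at this
  exact sub_eq_zero.1 (norm_le_zero_iff.1 this)

lemma zero_p (hG : Germ I p y τ t₀) : ∀ F ∈ I, eval p F = 0 := by
  have := hG.zero.self_of_nhds
  rw [hG.eq_p] at this
  exact this

lemma p_coord (hG : Germ I p y τ t₀) (k : Fin m) : p (y k) = t₀ k := by
  have := hG.coord.self_of_nhds k
  rw [hG.eq_p] at this
  exact this

lemma psi_eval (hG : Germ I p y τ t₀) (Q : MvPolynomial (Fin m) ℂ) :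
    ∀ᶠ t in 𝓝 t₀, eval (τ t) (psi p y Q) = eval (t - t₀) Q := by
  filter_upwards [hG.coord] with t ht
  have h1 : (eval (τ t)).comp (psi p y : MvPolynomial (Fin m) ℂ →+* MvPolynomial ι ℂ) =
      eval (t - t₀) := by
    apply MvPolynomial.ringHom_ext
    · intro a; simp [psi]
    · intro k; simp [psi, ht k, hG.p_coord k]
  exact DFunLike.congr_fun h1 Q

/-- **vanishing order along the germ = order in the local ring** -/
theorem mem_of_isBigO (hG : Germ I p y τ t₀) {f : MvPolynomial ι ℂ} {k : ℕ}
    (hf : (fun t => eval (τ t) f) =O[𝓝 t₀] fun t => ‖t - t₀‖ ^ k) : f ∈ mx p ^ k ⊔ I := by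
  obtain ⟨Q, hQ⟩ := exists_psi hG.zero_p hG.jac k f
  obtain ⟨a, ha, b, hb, hab⟩ := Submodule.mem_sup.1 hQ
  have h1 := isBigO_of_mem hG.bigO ha
  have h2 : (fun t => eval (t - t₀) Q) =O[𝓝 t₀] fun t => ‖t - t₀‖ ^ k := by
    refine (hf.sub h1).congr' ?_ EventuallyEq.rfl
    filter_upwards [hG.psi_eval Q, hG.zero] with t ht hz
    have h3 := congrArg (eval (τ t)) hab
    simp only [map_add, map_sub, hz b hb, ht] at h3
    linear_combination -h3
  have h3 : (fun s : Fin m → ℂ => eval s Q) =O[𝓝 0] fun s => ‖s‖ ^ k := by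
    have h4 : Tendsto (fun s : Fin m → ℂ => s + t₀) (𝓝 0) (𝓝 t₀) := by
      have : Tendsto (fun s : Fin m → ℂ => s + t₀) (𝓝 0) (𝓝 (0 + t₀)) :=
        Continuous.tendsto (by fun_prop) 0
      simpa using this
    have := h2.comp_tendsto h4
    simpa [Function.comp_def] using this
  have h4 := psi_mem (p := p) (y := y) (mem_mP_of_isBigO h3)
  have h5 : f = (a + psi p y Q) + b := by linear_combination -hab
  rw [h5]
  exact Submodule.add_mem_sup (Ideal.add_mem _ ha h4) hb

end Germ

/-! ### Krull -/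

/-- `G ∈ 𝔪^k + I + (H)` for all `k` gives divisibility in the local ring -/
theorem krull {G H : MvPolynomial ι ℂ} (h : ∀ k, G ∈ mx p ^ k ⊔ I ⊔ Ideal.span {H}) :
    ∃ H' G' : MvPolynomial ι ℂ, eval p H' ≠ 0 ∧ H' * G - G' * H ∈ I := by
  set K : Ideal (MvPolynomial ι ℂ) := I ⊔ Ideal.span {H} with hK
  have h1 : Ideal.Quotient.mk K G ∈
      (⨅ i : ℕ, mx p ^ i • ⊤ : Submodule (MvPolynomial ι ℂ) (MvPolynomial ι ℂ ⧸ K)) := by
    rw [Submodule.mem_iInf]
    intro k
    have h2 := h k
    rw [sup_assoc] at h2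
    obtain ⟨a, ha, b, hb, hab⟩ := Submodule.mem_sup.1 h2
    have h3 : Ideal.Quotient.mk K G = a • (1 : MvPolynomial ι ℂ ⧸ K) := by
      rw [← hab, map_add, Ideal.Quotient.eq_zero_iff_mem.2 hb, add_zero]
      rw [Algebra.smul_def, mul_one]; rfl
    rw [h3]
    exact Submodule.smul_mem_smul ha Submodule.mem_top
  rw [Ideal.mem_iInf_smul_pow_eq_bot_iff] at h1
  obtain ⟨⟨r, hr⟩, h2⟩ := h1
  have h3 : r • Ideal.Quotient.mk K G = Ideal.Quotient.mk K (r * G) := by
    rw [Algebra.smul_def, map_mul]; rfl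
  rw [h3, Ideal.Quotient.eq, hK] at h2
  obtain ⟨a, ha, b, hb, hab⟩ := Submodule.mem_sup.1 h2
  obtain ⟨c, rfl⟩ := Ideal.mem_span_singleton'.1 hb
  refine ⟨1 - r, -c, ?_, ?_⟩
  · simp [eval_of_mem hr]
  · have : (1 - r) * G - -c * H = -a := by
      linear_combination hab
    rw [this]
    exact I.neg_mem ha

end Crest.Agent.R269.Reg2_241
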