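import Crest.Agent.R269.Reg2_241

/-!
Row 269 (S0411), leaf D4/REG, part 3 (helper241): Taylor polynomials and the division theorem along
a germ.
-/

set_option autoImplicit false
set_option linter.unusedSectionVars false
set_option linter.unusedSimpArgs false

open MvPolynomial Topology Filter Asymptotics

noncomputable section

namespace Crest.Agent.R269.Reg3_241

open Crest.Agent.R269.Reg1_241 Crest.Agent.R269.Reg2_241

variable {m : ℕ}

/-- the polynomial of a multilinear form on the diagonal -/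
def diagPoly {j : ℕ} (g : (Fin j → (Fin m → ℂ)) → ℂ) : MvPolynomial (Fin m) ℂ :=
  ∑ r : Fin j → Fin m, C (g fun l => Pi.single (r l) 1) * ∏ l, X (r l)

lemma diagPoly_eval {j : ℕ} (g : MultilinearMap ℂ (fun _ : Fin j => (Fin m → ℂ)) ℂ)
    (v : Fin m → ℂ) : eval v (diagPoly (m := m) g) = g fun _ => v := by
  have h1 : (g fun _ => v) = g fun _ => ∑ i : Fin m, v i • (Pi.single i (1 : ℂ) : Fin m → ℂ) := by
    congr 1
    ext l i
    simp [Finset.sum_apply, Pi.single_apply]
  rw [h1, MultilinearMap.map_sum]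
  simp only [diagPoly, map_sum, map_mul, eval_C, map_prod, eval_X]
  refine Finset.sum_congr rfl fun r _ => ?_
  rw [MultilinearMap.map_smul_univ, smul_eq_mul, mul_comm]

/-- Taylor polynomials of analytic functions as elements of `MvPolynomial` -/
theorem taylor_poly {φ : (Fin m → ℂ) → ℂ} {t₀ : Fin m → ℂ} (hφ : AnalyticAt ℂ φ t₀) (k : ℕ) :
    ∃ P : MvPolynomial (Fin m) ℂ,
      (fun t => φ t - eval (t - t₀) P) =O[𝓝 t₀] fun t => ‖t - t₀‖ ^ k := by
  obtain ⟨p, hp⟩ := hφ
  refine ⟨∑ j ∈ Finset.range k, diagPoly (m := m) (p j).toMultilinearMap, ?_⟩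
  have h1 := hp.isBigO_sub_partialSum_pow k
  have h2 : Tendsto (fun t : Fin m → ℂ => t - t₀) (𝓝 t₀) (𝓝 0) := by
    have : Tendsto (fun t : Fin m → ℂ => t - t₀) (𝓝 t₀) (𝓝 (t₀ - t₀)) :=
      Continuous.tendsto (by fun_prop) t₀
    simpa using this
  have h3 := h1.comp_tendsto h2
  refine h3.congr_left fun t => ?_
  simp only [Function.comp_apply, add_sub_cancel, FormalMultilinearSeries.partialSum, map_sum,
    diagPoly_eval]
  rfl

variable {ι : Type*} [Fintype ι] [DecidableEq ι]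
variable {I : Ideal (MvPolynomial ι ℂ)} {p : ι → ℂ} {y : Fin m → ι}
  {τ : (Fin m → ℂ) → (ι → ℂ)} {t₀ : Fin m → ℂ}

lemma continuousAt_germ (hG : Germ I p y τ t₀) : ContinuousAt τ t₀ := by
  have h1 : Tendsto (fun t => τ t - p) (𝓝 t₀) (𝓝 0) :=
    hG.bigO.trans_tendsto (by
      have : Tendsto (fun t : Fin m → ℂ => t - t₀) (𝓝 t₀) (𝓝 (t₀ - t₀)) :=
        Continuous.tendsto (by fun_prop) t₀
      simpa using this)
  have h2 : Tendsto τ (𝓝 t₀) (𝓝 p) := by
    have := h1.add_const p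
    simpa using this
  rw [ContinuousAt, hG.eq_p]; exact h2

/-- **division theorem** -/
theorem div_of_analytic (hG : Germ I p y τ t₀) {G H : MvPolynomial ι ℂ} {φ : (Fin m → ℂ) → ℂ}
    (hφ : AnalyticAt ℂ φ t₀) (h : ∀ᶠ t in 𝓝 t₀, eval (τ t) G = φ t * eval (τ t) H) :
    ∃ H' G' : MvPolynomial ι ℂ, eval p H' ≠ 0 ∧ H' * G - G' * H ∈ I := by
  refine krull fun k => ?_
  obtain ⟨P, hP⟩ := taylor_poly hφ k
  have h1 : G - H * psi p y P ∈ mx p ^ k ⊔ I := by
    refine hG.mem_of_isBigO ?_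
    have h2 : (fun t => eval (τ t) H) =O[𝓝 t₀] fun _ => (1 : ℝ) := by
      have : ContinuousAt (fun t => eval (τ t) H) t₀ :=
        (MvPolynomial.continuous_eval H).continuousAt.comp (continuousAt_germ hG)
      exact this.isBigO_one ℝ
    have h3 := h2.mul hP
    simp only [one_mul] at h3
    refine h3.congr' ?_ EventuallyEq.rfl
    filter_upwards [h, hG.psi_eval P] with t ht ht'
    simp only [map_sub, map_mul, ht, ht']
    ring
  have h4 : G = (G - H * psi p y P) + psi p y P * H := by ring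
  rw [h4]
  refine Submodule.add_mem_sup h1 (Ideal.mul_mem_left _ _ (Ideal.mem_span_singleton_self H))

/-- a member of the coordinate ring which vanishes along the germ is zero -/
theorem mem_of_germ_zero [I.IsPrime] (hG : Germ I p y τ t₀) {f : MvPolynomial ι ℂ}
    (h : ∀ᶠ t in 𝓝 t₀, eval (τ t) f = 0) : f ∈ I := by
  obtain ⟨H', G', h1, h2⟩ := div_of_analytic hG (G := f) (H := 0) (φ := fun _ => 0)
    analyticAt_const (by filter_upwards [h] with t ht; simp [ht])
  simp only [mul_zero, sub_zero] at h2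
  rcases (inferInstance : I.IsPrime).mem_or_mem h2 with h3 | h3
  · exact absurd (hG.zero_p _ h3) h1
  · exact h3

/-! ### homogeneous version -/

/-- product with a homogeneous polynomial -/
lemma homogeneousComponent_mul_of_isHomogeneous {G : MvPolynomial ι ℂ} {k : ℕ}
    (hG : G.IsHomogeneous k) (e : ℕ) (P : MvPolynomial ι ℂ) :
    homogeneousComponent (e + k) (P * G) = homogeneousComponent e P * G := by
  induction P using MvPolynomial.induction_on' with
  | monomial s a =>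
    have h1 : (monomial s a * G).IsHomogeneous (s.degree + k) :=
      (isHomogeneous_monomial a rfl).mul hG
    rw [homogeneousComponent_of_mem h1, homogeneousComponent_of_mem (isHomogeneous_monomial a rfl)]
    split_ifs with h2 h3 h3
    · rfl
    · omega
    · omega
    · simp
  | add P Q hP hQ => rw [add_mul, map_add, hP, hQ, map_add, add_mul]

/-- homogeneous form of the division theorem -/
theorem homog_div {G H : MvPolynomial ι ℂ} {k : ℕ} (hI : ∀ F ∈ I, ∀ d, homogeneousComponent d F ∈ I)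
    (hGh : G.IsHomogeneous k) (hHh : H.IsHomogeneous k)
    (h : ∃ H' G' : MvPolynomial ι ℂ, eval p H' ≠ 0 ∧ H' * G - G' * H ∈ I) :
    ∃ (e : ℕ) (H' G' : MvPolynomial ι ℂ), H'.IsHomogeneous e ∧ G'.IsHomogeneous e ∧
      eval p H' ≠ 0 ∧ H' * G - G' * H ∈ I := by
  obtain ⟨H', G', h1, h2⟩ := h
  have h3 : ∃ e, eval p (homogeneousComponent e H') ≠ 0 := by
    by_contra hcon
    push Not at hcon
    apply h1
    rw [← sum_homogeneousComponent H', map_sum]
    exact Finset.sum_eq_zero fun i _ => hcon i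
  obtain ⟨e, he⟩ := h3
  refine ⟨e, _, homogeneousComponent e G', homogeneousComponent_isHomogeneous e H',
    homogeneousComponent_isHomogeneous e G', he, ?_⟩
  have h4 := hI _ h2 (e + k)
  rw [map_sub, homogeneousComponent_mul_of_isHomogeneous hGh,
    homogeneousComponent_mul_of_isHomogeneous hHh] at h4
  exact h4

/-- homogeneous polynomials scale -/
lemma eval_smul_of_isHomogeneous {F : MvPolynomial ι ℂ} {d : ℕ} (hF : F.IsHomogeneous d)
    (c : ℂ) (q : ι → ℂ) : eval (c • q) F = c ^ d * eval q F := by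
  rw [eval_eq', eval_eq', Finset.mul_sum]
  refine Finset.sum_congr rfl fun s hs => ?_
  have h1 : s.degree = d := by
    have h0 := hF (mem_support_iff.1 hs)
    rw [← h0, Finsupp.degree_eq_weight_one (R := ℕ)]
    rfl
  simp only [Pi.smul_apply, smul_eq_mul, mul_pow, Finset.prod_mul_distrib,
    Finset.prod_pow_eq_pow_sum]
  have h2 : ∑ i, s i = d := by
    rw [← h1, Finsupp.degree_eq_sum]
  rw [h2]; ring

/-- the zero set of a homogeneous ideal is a cone -/
lemma eval_smul_zero {I : Ideal (MvPolynomial ι ℂ)}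
    (hI : ∀ F ∈ I, ∀ d, homogeneousComponent d F ∈ I) {q : ι → ℂ}
    (hq : ∀ F ∈ I, eval q F = 0) (c : ℂ) : ∀ F ∈ I, eval (c • q) F = 0 := by
  intro F hF
  rw [← sum_homogeneousComponent F, map_sum]
  refine Finset.sum_eq_zero fun d _ => ?_
  rw [eval_smul_of_isHomogeneous (homogeneousComponent_isHomogeneous d F), hq _ (hI F hF d),
    mul_zero]

/-! ### affine charts of a projective variety -/

variable {n : ℕ}

/-- An affine chart germ at the point `c • σ z₀` of the cone: `σ` has values in the cone,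
`σ(z)_i = 1`, `σ(z)_{J k} = z_k`. -/
structure AffGerm (I : Ideal (MvPolynomial ι ℂ)) (i : ι) (J : Fin n → ι)
    (σ : (Fin n → ℂ) → (ι → ℂ)) (z₀ : Fin n → ℂ) : Prop where
  homog : ∀ F ∈ I, ∀ d, homogeneousComponent d F ∈ I
  diff : DifferentiableAt ℂ σ z₀
  one : ∀ᶠ z in 𝓝 z₀, σ z i = 1
  coord : ∀ᶠ z in 𝓝 z₀, ∀ k, σ z (J k) = z k
  zero : ∀ᶠ z in 𝓝 z₀, ∀ F ∈ I, eval (σ z) F = 0
  jac : ∀ v : ι → ℂ, (∀ F ∈ I, ∑ j, v j * eval (σ z₀) (pderiv j F) = 0) → v i = 0 →
    (∀ k, v (J k) = 0) → v = 0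

/-- the cone germ attached to an affine germ -/
def coneGerm (σ : (Fin n → ℂ) → (ι → ℂ)) (t : Fin (n + 1) → ℂ) : ι → ℂ :=
  t 0 • σ fun k => t k.succ / t 0

/-- the base point of the cone germ -/
def bp (z₀ : Fin n → ℂ) : Fin (n + 1) → ℂ := Fin.cons 1 z₀

@[simp] lemma bp_zero (z₀ : Fin n → ℂ) : bp z₀ 0 = 1 := rfl
@[simp] lemma bp_succ (z₀ : Fin n → ℂ) (k : Fin n) : bp z₀ k.succ = z₀ k := rfl

/-- dehomogenisation -/
def dh (t : Fin (n + 1) → ℂ) (k : Fin n) : ℂ := t k.succ / t 0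

lemma dh_bp (z₀ : Fin n → ℂ) : dh (bp z₀) = z₀ := by
  ext k; simp [dh]

lemma analyticAt_dh (z₀ : Fin n → ℂ) : AnalyticAt ℂ (dh (n := n)) (bp z₀) := by
  unfold dh
  rw [analyticAt_pi_iff]
  intro k
  refine AnalyticAt.div ?_ ?_ (by simp)
  · exact (ContinuousLinearMap.proj (R := ℂ) (φ := fun _ : Fin (n + 1) => ℂ) k.succ).analyticAt _
  · exact (ContinuousLinearMap.proj (R := ℂ) (φ := fun _ : Fin (n + 1) => ℂ) 0).analyticAt _

lemma tendsto_dh (z₀ : Fin n → ℂ) : Tendsto (dh (n := n)) (𝓝 (bp z₀)) (𝓝 z₀) := by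
  have := (analyticAt_dh z₀).continuousAt.tendsto
  rwa [dh_bp] at this

lemma ev_ne (z₀ : Fin n → ℂ) : ∀ᶠ t in 𝓝 (bp z₀), t 0 ≠ 0 := by
  have : ContinuousAt (fun t : Fin (n + 1) → ℂ => t 0) (bp z₀) := (continuous_apply 0).continuousAt
  exact this.eventually_ne (by simp)

variable {i : ι} {J : Fin n → ι} {σ : (Fin n → ℂ) → (ι → ℂ)} {z₀ : Fin n → ℂ}

lemma AffGerm.germ (h : AffGerm I i J σ z₀) :
    Germ I (σ z₀) (Fin.cons i J : Fin (n + 1) → ι) (coneGerm σ) (bp z₀) := by
  refine ⟨?_, ?_, ?_, ?_⟩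
  · intro v hv hy
    refine h.jac v hv (by simpa using hy 0) fun k => by simpa using hy k.succ
  · have h1 : DifferentiableAt ℂ (coneGerm σ) (bp z₀) := by
      refine DifferentiableAt.smul (c := fun t : Fin (n + 1) → ℂ => t 0)
        (f := fun t : Fin (n + 1) → ℂ => σ (dh t)) ?_ ?_
      · exact (ContinuousLinearMap.proj (R := ℂ)
          (φ := fun _ : Fin (n + 1) => ℂ) 0).differentiableAt
      · have h2 : DifferentiableAt ℂ σ (dh (bp z₀)) := by
          rw [dh_bp]; exact h.diff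
        exact h2.comp _ (analyticAt_dh z₀).differentiableAt
    have h3 := h1.isBigO_sub
    have h4 : coneGerm σ (bp z₀) = σ z₀ := by
      have : coneGerm σ (bp z₀) = bp z₀ 0 • σ (dh (bp z₀)) := rfl
      rw [this, dh_bp]; simp
    rwa [h4] at h3
  · filter_upwards [(tendsto_dh z₀).eventually h.one, (tendsto_dh z₀).eventually h.coord,
      ev_ne z₀] with t h1 h2 h3
    intro k
    have h5 : coneGerm σ t = t 0 • σ (dh t) := rfl
    rw [h5]
    refine Fin.cases ?_ (fun k => ?_) k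
    · simp [h1]
    · simp only [Fin.cons_succ, Pi.smul_apply, smul_eq_mul, h2 k, dh]
      field_simp
  · filter_upwards [(tendsto_dh z₀).eventually h.zero] with t ht
    exact eval_smul_zero h.homog ht _

/-- a polynomial homogeneous of degree `k` along the cone germ -/
lemma eval_coneGerm {G : MvPolynomial ι ℂ} {k : ℕ} (hG : G.IsHomogeneous k)
    (t : Fin (n + 1) → ℂ) :
    eval (coneGerm σ t) G = t 0 ^ k * eval (σ (dh t)) G :=
  eval_smul_of_isHomogeneous hG _ _

/-- **homogeneous division theorem along an affine chart** -/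
theorem AffGerm.div (h : AffGerm I i J σ z₀) {G H : MvPolynomial ι ℂ} {k : ℕ}
    (hG : G.IsHomogeneous k) (hH : H.IsHomogeneous k) {φ : (Fin n → ℂ) → ℂ}
    (hφ : AnalyticAt ℂ φ z₀) (he : ∀ᶠ z in 𝓝 z₀, eval (σ z) G = φ z * eval (σ z) H) :
    ∃ (e : ℕ) (H' G' : MvPolynomial ι ℂ), H'.IsHomogeneous e ∧ G'.IsHomogeneous e ∧
      eval (σ z₀) H' ≠ 0 ∧ H' * G - G' * H ∈ I := by
  refine homog_div h.homog hG hH (div_of_analytic h.germ (φ := fun t => φ (dh t)) ?_ ?_)
  · have h1 : AnalyticAt ℂ φ (dh (bp z₀)) := by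
      rw [dh_bp]; exact hφ
    exact h1.comp (analyticAt_dh z₀)
  · filter_upwards [(tendsto_dh z₀).eventually he] with t ht
    rw [eval_coneGerm hG, eval_coneGerm hH, ht]
    ring

/-- a homogeneous polynomial vanishing along the chart is in `I` -/
theorem AffGerm.mem_of_zero [I.IsPrime] (h : AffGerm I i J σ z₀) {G : MvPolynomial ι ℂ} {k : ℕ}
    (hG : G.IsHomogeneous k) (he : ∀ᶠ z in 𝓝 z₀, eval (σ z) G = 0) : G ∈ I := by
  refine mem_of_germ_zero h.germ ?_
  filter_upwards [(tendsto_dh z₀).eventually he] with t ht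
  rw [eval_coneGerm hG, ht, mul_zero]

end Crest.Agent.R269.Reg3_241
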