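import Crest.Agent.R271.Bd4_741
import Crest.Agent.R271.Jet_956
import Crest.Agent.R271.RExt2_747
import Crest.Agent.R271.Null_821
import Crest.Agent.R271.NonInt_821

/-!
Row 269 (S0411), leaf D4/REG, part 4 (helper241): two étale charts `A` (coordinates `w`, point `y`)
and `B` (coordinates `z`) with the same fraction field `K`.

* `exists_section` : the points of `B` over a punctured neighbourhood of `y` (adapted from
  `R271.Bd741.boundary_core`, helper741);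
* `reg_core` : square integrable sections on `Hom(B,ℂ)` are regular at `y`;
* `reg_core_vanish` : with the extra weight `|w|^{-2(n+1)}` they vanish at `y`.
-/

set_option autoImplicit false

open scoped ENNReal NNReal Topology BigOperators
open MeasureTheory Set Metric

noncomputable section

namespace Crest.Agent.R269.Reg4_241

open Crest.Agent.R271.Defs710 Crest.Agent.R271.Bd741

section

variable {n : ℕ} {K : Type} [Field K] [Algebra ℂ K]
    {B : Type} [CommRing B] [IsDomain B] [Algebra ℂ B]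
    [Algebra B K] [IsScalarTower ℂ B K] [IsFractionRing B K]
    {A : Type} [CommRing A] [IsDomain A] [Algebra ℂ A]
    [Algebra A K] [IsScalarTower ℂ A K] [IsFractionRing A K]

/-- the point `p` of `B` is compatible with the point `s` of `A` -/
def Compat (K : Type) [Field K] [Algebra B K] [Algebra A K] (p : B →ₐ[ℂ] ℂ) (s : A →ₐ[ℂ] ℂ) :
    Prop :=
  ∀ (b : B) (u v : A), algebraMap B K b * algebraMap A K v = algebraMap A K u → p b * s v = s u

/-- the section of points of `B` over a punctured neighbourhood of a point of `A` -/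
theorem exists_section (hB : Algebra.FiniteType ℂ B)
    (z : Fin n → B) (w : Fin n → A)
    (hw : RingHom.Etale ((MvPolynomial.aeval w : MvPolynomial (Fin n) ℂ →ₐ[ℂ] A) :
      MvPolynomial (Fin n) ℂ →+* A))
    (y : A →ₐ[ℂ] ℂ) (C : Chart w y)
    (b b' : Module.Basis (Fin n) K (Ω[K⁄ℂ]))
    (hb : ∀ j, b j = KaehlerDifferential.D ℂ K (algebraMap A K (w j)))
    (hb' : ∀ j, b' j = KaehlerDifferential.D ℂ K (algebraMap B K (z j)))
    (x0 : B →ₐ[ℂ] ℂ) :
    ∃ (Q : A) (s' : Cn n → (B →ₐ[ℂ] ℂ)) (ψ' : Cn n → (Cn n →L[ℂ] Cn n)), Q ≠ 0 ∧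
      (∀ ζ ∈ ball (0 : Cn n) C.r, C.s ζ Q ≠ 0 → Compat K (s' ζ) (C.s ζ)) ∧
      (∀ ζ ∈ ball (0 : Cn n) C.r, C.s ζ Q ≠ 0 →
        HasStrictFDerivAt (fun ζ i => s' ζ (z i)) (ψ' ζ) ζ) ∧
      (∀ ζ ∈ ball (0 : Cn n) C.r, C.s ζ Q ≠ 0 → (ψ' ζ).det ≠ 0) ∧
      (∀ ζ ∈ ball (0 : Cn n) C.r, C.s ζ Q ≠ 0 → ∀ u v : A,
        (b.toMatrix b').det * algebraMap A K v = algebraMap A K u →
          (ψ' ζ).det * C.s ζ v = C.s ζ u) ∧
      InjOn s' (ball (0 : Cn n) C.r ∩ {ζ | C.s ζ Q ≠ 0}) := by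
  classical
  have hinjA : Function.Injective (algebraMap A K) := IsFractionRing.injective A K
  have hinjB : Function.Injective (algebraMap B K) := IsFractionRing.injective B K
  have hAK0 : ∀ x : A, x ≠ 0 → algebraMap A K x ≠ 0 := fun x hx h =>
    hx (hinjA (by rw [h, map_zero]))
  obtain ⟨D, hD⟩ := exists_coord_deriv w hw
  obtain ⟨q, hq0, hq⟩ := exists_denom (A := A) (B := B) K hB
  -- `w` in terms of `B`
  obtain ⟨⟨b0, hb0⟩, hb0'⟩ := IsLocalization.exist_integer_multiples_of_finite (nonZeroDivisors B)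
    (fun i => algebraMap A K (w i))
  have hb00 : b0 ≠ 0 := nonZeroDivisors.ne_zero hb0
  have hcw : ∀ i, ∃ cw : B, algebraMap B K cw = algebraMap B K b0 * algebraMap A K (w i) := by
    intro i
    obtain ⟨cw, hcw⟩ := hb0' i
    refine ⟨cw, ?_⟩
    rw [hcw, Algebra.smul_def]
  choose cw hcw using hcw
  obtain ⟨M0, u0, hu0⟩ := hq b0
  have hb0K : algebraMap B K b0 ≠ 0 := fun h => hb00 (hinjB (by rw [h, map_zero]))
  have hu00 : u0 ≠ 0 := by
    rintro rfl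
    rw [map_zero] at hu0
    exact (mul_ne_zero hb0K (pow_ne_zero _ (hAK0 q hq0))) hu0
  -- `z` in terms of `A`
  obtain ⟨⟨q2, hq2⟩, hq2'⟩ := IsLocalization.exist_integer_multiples_of_finite (nonZeroDivisors A)
    (fun i => algebraMap B K (z i))
  have hq20 : q2 ≠ 0 := nonZeroDivisors.ne_zero hq2
  have hβ : ∀ i, ∃ β : A, algebraMap A K β = algebraMap A K q2 * algebraMap B K (z i) := by
    intro i
    obtain ⟨β, hβ⟩ := hq2' i
    refine ⟨β, ?_⟩
    rw [hβ, Algebra.smul_def]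
  choose β hβ using hβ
  let Nm : Matrix (Fin n) (Fin n) A := Matrix.of fun j i => q2 * D j (β i) - β i * D j q2
  have hq2K : algebraMap A K q2 ≠ 0 := hAK0 q2 hq20
  have hb'sum : ∀ i, b' i = ∑ j, ((algebraMap A K q2 ^ 2)⁻¹ * algebraMap A K (Nm j i)) • b j := by
    intro i
    have e1 := D_K (K := K) w hw D hD (β i)
    have e2 := D_K (K := K) w hw D hD q2
    rw [hβ i, Derivation.leibniz] at e1
    have e3 : (algebraMap A K q2) ^ 2 • b' i = ∑ j, (algebraMap A K (Nm j i)) • b j := by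
      have e4 : (algebraMap A K q2) • KaehlerDifferential.D ℂ K (algebraMap B K (z i)) =
          ∑ j, algebraMap A K (D j (β i)) • KaehlerDifferential.D ℂ K (algebraMap A K (w j)) -
          algebraMap B K (z i) • KaehlerDifferential.D ℂ K (algebraMap A K q2) :=
        eq_sub_of_add_eq e1
      rw [hb', pow_two, mul_smul, e4, e2, smul_sub, smul_smul, ← hβ i, Finset.smul_sum,
        Finset.smul_sum, ← Finset.sum_sub_distrib]
      refine Finset.sum_congr rfl fun j _ => ?_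
      rw [smul_smul, smul_smul, ← sub_smul, ← map_mul, ← map_mul, ← map_sub, hb]
      rfl
    have e5 : b' i = ((algebraMap A K q2) ^ 2)⁻¹ • ((algebraMap A K q2) ^ 2 • b' i) := by
      rw [smul_smul, inv_mul_cancel₀ (pow_ne_zero _ hq2K), one_smul]
    rw [e5, e3, Finset.smul_sum]
    refine Finset.sum_congr rfl fun j _ => ?_
    rw [smul_smul]
  have hmat : b.toMatrix b' = ((algebraMap A K q2 ^ 2)⁻¹ : K) • (Nm.map (algebraMap A K)) := by
    ext j i
    rw [Module.Basis.toMatrix_apply, hb'sum i, Module.Basis.repr_sum_self]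
    rfl
  have hdetK : (b.toMatrix b').det * algebraMap A K (q2 ^ (2 * n)) = algebraMap A K Nm.det := by
    rw [hmat, Matrix.det_smul, Fintype.card_fin, RingHom.map_det, map_pow]
    rw [show (algebraMap A K).mapMatrix Nm = Nm.map (algebraMap A K) from rfl]
    have : ((algebraMap A K q2 ^ 2)⁻¹ ^ n * (algebraMap A K q2) ^ (2 * n) : K) = 1 := by
      rw [pow_mul, ← mul_pow, inv_mul_cancel₀ (pow_ne_zero _ hq2K), one_pow]
    calc (algebraMap A K q2 ^ 2)⁻¹ ^ n * (Nm.map (algebraMap A K)).det *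
          algebraMap A K q2 ^ (2 * n)
        = ((algebraMap A K q2 ^ 2)⁻¹ ^ n * (algebraMap A K q2) ^ (2 * n)) *
          (Nm.map (algebraMap A K)).det := by ring
      _ = _ := by rw [this, one_mul]
  have hdet0 : (b.toMatrix b').det ≠ 0 := by
    intro h
    have h1 := congrArg Matrix.det (b.toMatrix_mul_toMatrix_flip b')
    rw [Matrix.det_mul, h, zero_mul, Matrix.det_one] at h1
    exact zero_ne_one h1
  have hNdet : Nm.det ≠ 0 := by
    intro h
    rw [h, map_zero] at hdetK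
    have h1 : (b.toMatrix b').det = 0 :=
      (mul_eq_zero.1 hdetK).resolve_right (hAK0 _ (pow_ne_zero _ hq20))
    exact hdet0 h1
  -- the section of points of `B`
  let s' : Cn n → (B →ₐ[ℂ] ℂ) := fun ζ =>
    if h : C.s ζ q ≠ 0 then (exists_pt hinjA q hq (C.s ζ) h).choose else x0
  have hs' : ∀ ζ, C.s ζ q ≠ 0 → ∀ (b : B) (u v : A),
      algebraMap B K b * algebraMap A K v = algebraMap A K u → s' ζ b * C.s ζ v = C.s ζ u := by
    intro ζ h
    simp only [s', dif_pos h]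
    exact (exists_pt hinjA q hq (C.s ζ) h).choose_spec
  set Q : A := q * q2 * u0 * Nm.det with hQdef
  have hQ0 : Q ≠ 0 := mul_ne_zero (mul_ne_zero (mul_ne_zero hq0 hq20) hu00) hNdet
  set Ω : Set (Cn n) := ball (0 : Cn n) C.r ∩ {ζ | C.s ζ Q ≠ 0} with hΩdef
  have hΩ : ∀ ζ ∈ Ω, C.s ζ q ≠ 0 ∧ C.s ζ q2 ≠ 0 ∧ C.s ζ u0 ≠ 0 ∧
      C.s ζ Nm.det ≠ 0 := by
    intro ζ hζ
    have h1 : C.s ζ Q ≠ 0 := hζ.2
    rw [hQdef, map_mul, map_mul, map_mul] at h1
    refine ⟨?_, ?_, ?_, ?_⟩ <;> (intro h; apply h1; rw [h]; ring)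
  have hΩo : IsOpen Ω := by
    have hc : ContinuousOn (fun ζ => C.s ζ Q) (ball (0 : Cn n) C.r) := fun ζ hζ =>
      (C.anal Q ζ hζ).continuousAt.continuousWithinAt
    have := hc.isOpen_inter_preimage isOpen_ball (t := {0}ᶜ) isOpen_compl_singleton
    exact this
  -- derivative
  let ψ : Cn n → Cn n := fun ζ i => C.s ζ (β i) / C.s ζ q2
  have hφψ : ∀ ζ ∈ Ω, (fun i => s' ζ (z i)) = ψ ζ := by
    intro ζ hζ
    obtain ⟨h2, h3, h4, h5⟩ := hΩ ζ hζ
    funext i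
    have := hs' ζ h2 (z i) (β i) q2 (by rw [hβ i, mul_comm])
    simp only [ψ]
    rw [← this]; field_simp
  have hψan : ∀ ζ ∈ Ω, ∀ i, AnalyticAt ℂ (fun ζ => ψ ζ i) ζ := by
    intro ζ hζ i
    exact (C.anal (β i) ζ hζ.1).div (C.anal q2 ζ hζ.1) (hΩ ζ hζ).2.1
  have hψan' : ∀ ζ ∈ Ω, AnalyticAt ℂ ψ ζ := fun ζ hζ =>
    analyticAt_pi_iff.2 (fun i => hψan ζ hζ i)
  have hφ : ∀ ζ ∈ Ω, HasStrictFDerivAt (fun ζ i => s' ζ (z i)) (fderiv ℂ ψ ζ) ζ := by
    intro ζ hζ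
    refine (hψan' ζ hζ).hasStrictFDerivAt.congr_of_eventuallyEq ?_
    filter_upwards [hΩo.mem_nhds hζ] with ζ' hζ'
    exact (hφψ ζ' hζ').symm
  have hψd : ∀ ζ ∈ Ω, ∀ i j, fderiv ℂ ψ ζ (Pi.single j 1) i =
      ((C.s ζ q2) ^ 2)⁻¹ * C.s ζ (Nm j i) := by
    intro ζ hζ i j
    have hq2ζ := (hΩ ζ hζ).2.1
    have e0 : fderiv ℂ ψ ζ (Pi.single j 1) i = fderiv ℂ (fun ζ => ψ ζ i) ζ (Pi.single j 1) := by
      have h1 : HasFDerivAt ψ (fderiv ℂ ψ ζ) ζ := (hψan' ζ hζ).differentiableAt.hasFDerivAt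
      have h2 := (hasFDerivAt_pi'.1 h1) i
      rw [h2.fderiv]
      rfl
    have e1 := chart_deriv w hw D hD C ζ hζ.1 j (β i)
    have e2 := chart_deriv w hw D hD C ζ hζ.1 j q2
    have e3 : (fun ζ' => C.s ζ' (β i)) =ᶠ[𝓝 ζ] fun ζ' => ψ ζ' i * C.s ζ' q2 := by
      filter_upwards [hΩo.mem_nhds hζ] with ζ' hζ'
      have := (hΩ ζ' hζ').2.1
      simp only [ψ]
      field_simp
    rw [e3.fderiv_eq, fderiv_fun_mul (hψan ζ hζ i).differentiableAt
      (C.anal q2 ζ hζ.1).differentiableAt] at e1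
    simp only [_root_.add_apply, _root_.smul_apply, smul_eq_mul, e2] at e1
    rw [e0]
    have e4 : ψ ζ i * C.s ζ q2 = C.s ζ (β i) := by
      simp only [ψ]; field_simp
    have e5 : C.s ζ (Nm j i) = C.s ζ q2 * C.s ζ (D j (β i)) - C.s ζ (β i) * C.s ζ (D j q2) := by
      simp only [Nm, Matrix.of_apply, map_sub, map_mul]
    rw [e5, ← e4, ← e1]
    field_simp
    ring
  have hdetψ : ∀ ζ ∈ Ω, (fderiv ℂ ψ ζ).det * (C.s ζ q2) ^ (2 * n) = C.s ζ Nm.det := by
    intro ζ hζ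
    have hq2ζ := (hΩ ζ hζ).2.1
    have e1 : LinearMap.toMatrix' (fderiv ℂ ψ ζ : Cn n →ₗ[ℂ] Cn n) =
        ((C.s ζ q2) ^ 2)⁻¹ • ((C.s ζ : A →+* ℂ).mapMatrix Nm).transpose := by
      ext i j
      rw [LinearMap.toMatrix'_apply]
      have := hψd ζ hζ i j
      simpa using this
    have e2 : (fderiv ℂ ψ ζ).det = (((C.s ζ q2) ^ 2)⁻¹) ^ n * C.s ζ Nm.det := by
      rw [ContinuousLinearMap.det, ← LinearMap.det_toMatrix', e1, Matrix.det_smul,
        Matrix.det_transpose, Fintype.card_fin, ← RingHom.map_det]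
      rfl
    rw [e2, pow_mul]
    have : ((((C.s ζ q2) ^ 2)⁻¹) ^ n * ((C.s ζ q2) ^ 2) ^ n : ℂ) = 1 := by
      rw [← mul_pow, inv_mul_cancel₀ (pow_ne_zero _ hq2ζ), one_pow]
    linear_combination (C.s ζ Nm.det) * this
  have hdetne : ∀ ζ ∈ Ω, (fderiv ℂ ψ ζ).det ≠ 0 := by
    intro ζ hζ h
    have := hdetψ ζ hζ
    rw [h, zero_mul] at this
    exact (hΩ ζ hζ).2.2.2 this.symm
  -- injectivity
  have hinj : InjOn s' Ω := by
    intro ζ hζ ζ' hζ' heq
    have key : ∀ ζ ∈ Ω, s' ζ b0 ≠ 0 ∧ ∀ i, s' ζ (cw i) = s' ζ b0 * C.s ζ (w i) := by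
      intro ζ hζ
      obtain ⟨h2, h3, h4, h5⟩ := hΩ ζ hζ
      have e1 := hs' ζ h2 b0 u0 (q ^ M0) (by rw [map_pow]; exact hu0)
      have hb : s' ζ b0 ≠ 0 := by
        intro h
        rw [h, zero_mul] at e1
        exact h4 e1.symm
      refine ⟨hb, fun i => ?_⟩
      have e2 := hs' ζ h2 (cw i) (u0 * w i) (q ^ M0) (by
        rw [hcw, map_pow, map_mul, ← hu0]; ring)
      rw [map_mul, ← e1, map_pow] at e2
      have hqp : (C.s ζ q) ^ M0 ≠ 0 := pow_ne_zero _ h2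
      have : s' ζ (cw i) * (C.s ζ q) ^ M0 = (s' ζ b0 * C.s ζ (w i)) * (C.s ζ q) ^ M0 := by
        rw [e2]; ring
      exact mul_right_cancel₀ hqp this
    obtain ⟨k1, k2⟩ := key ζ hζ
    obtain ⟨k1', k2'⟩ := key ζ' hζ'
    funext i
    have e1 := k2 i
    have e2 := k2' i
    rw [← heq, e1] at e2
    have e3 := mul_left_cancel₀ k1 e2
    rw [C.s_z ζ hζ.1 i, C.s_z ζ' hζ'.1 i] at e3
    exact add_left_cancel e3
  refine ⟨Q, s', fun ζ => fderiv ℂ ψ ζ, hQ0, fun ζ h1 h2 => hs' ζ (hΩ ζ ⟨h1, h2⟩).1,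
    fun ζ h1 h2 => hφ ζ ⟨h1, h2⟩, fun ζ h1 h2 => hdetne ζ ⟨h1, h2⟩, ?_, hinj⟩
  intro ζ h1 h2 u v huv
  have h3 := hdetψ ζ ⟨h1, h2⟩
  have h4 : Nm.det * v = u * q2 ^ (2 * n) := by
    apply hinjA
    rw [map_mul, map_mul, ← hdetK, ← huv]; ring
  have h5 := congrArg (C.s ζ) h4
  rw [map_mul, map_mul, ← h3, map_pow] at h5
  have hp : (C.s ζ q2) ^ (2 * n) ≠ 0 := pow_ne_zero _ (hΩ ζ ⟨h1, h2⟩).2.1
  apply mul_right_cancel₀ hp
  linear_combination h5

end

end Crest.Agent.R269.Reg4_241
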