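import Crest.Agent.R269.Reg4_241

/-!
Row 269 (S0411), leaf D4/REG, part 5 (helper241): square integrable elements are regular.

* `reg_core` : with `K = Frac A = Frac B`, `F : B`, a weight `W` on `Hom(B,ℂ)` with
  `W ≥ |U|² ω` at the points compatible with the `w`-chart of `A` at `y` (`U = uU/vU ∈ K`, `ω ≥ c > 0`):
  `∫ |F|² W < ∞` implies `F · U · det(∂z/∂w) ∈ A_y`, and the germ is square integrable for `ω`.
* `reg_core_vanish` : with `ω ≥ c ‖ζ‖^{-2n}` the value at `y` is `0`.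
-/

set_option autoImplicit false

open scoped ENNReal NNReal Topology BigOperators
open MeasureTheory Set Metric Filter

noncomputable section

namespace Crest.Agent.R269.Reg5_241

open Crest.Agent.R271.Defs710 Crest.Agent.R271.Bd741 Crest.Agent.R269.Reg4_241

/-- evaluations of a non-zero element do not vanish identically near any point of a chart -/
theorem not_ev_zero {n : ℕ} {A : Type} [CommRing A] [IsDomain A] [Algebra ℂ A]
    [IsNoetherianRing A] {w : Fin n → A}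
    (hw : RingHom.Etale ((MvPolynomial.aeval w : MvPolynomial (Fin n) ℂ →ₐ[ℂ] A) :
      MvPolynomial (Fin n) ℂ →+* A)) {y : A →ₐ[ℂ] ℂ} (C : Chart w y) {d : A} (hd : d ≠ 0)
    {a : Cn n} (ha : a ∈ ball (0 : Cn n) C.r) : ¬ ∀ᶠ ζ in 𝓝 a, C.s ζ d = 0 := by
  intro h
  apply hd
  refine Crest.Agent.R271.Ord969.eq_zero_of_eventually C
    (Crest.Agent.R271.Ord969.mI_le_of_unramified w y hw) ?_
  have h1 : EqOn (fun ζ => C.s ζ d) 0 (ball (0 : Cn n) C.r) := by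
    refine (C.anal d).eqOn_zero_of_preconnected_of_eventuallyEq_zero
      (convex_ball (0 : Cn n) C.r).isPreconnected ha ?_
    exact h
  filter_upwards [ball_mem_nhds (0 : Cn n) C.r_pos] with ζ hζ
  exact h1 hζ

/-- a continuous function vanishing off the zeros of `d ≠ 0` vanishes near `0` -/
theorem ev_zero_of_off {n : ℕ} {A : Type} [CommRing A] [IsDomain A] [Algebra ℂ A]
    [IsNoetherianRing A] {w : Fin n → A}
    (hw : RingHom.Etale ((MvPolynomial.aeval w : MvPolynomial (Fin n) ℂ →ₐ[ℂ] A) :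
      MvPolynomial (Fin n) ℂ →+* A)) {y : A →ₐ[ℂ] ℂ} (C : Chart w y) {d : A} (hd : d ≠ 0)
    {ε : ℝ} (hε : ε ≤ C.r) {E : Cn n → ℂ} (hE : ContinuousOn E (ball (0 : Cn n) ε))
    (h0 : ∀ ζ ∈ ball (0 : Cn n) ε, C.s ζ d ≠ 0 → E ζ = 0) :
    ∀ ζ ∈ ball (0 : Cn n) ε, E ζ = 0 := by
  intro a ha
  have h1 : ∃ᶠ ζ in 𝓝 a, C.s ζ d ≠ 0 := by
    intro h
    exact not_ev_zero hw C hd (ball_subset_ball hε ha) (by simpa using h)
  by_contra hne
  have h2 : ContinuousAt E a := hE.continuousAt (isOpen_ball.mem_nhds ha)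
  have h3 := h2.eventually_ne hne
  obtain ⟨ζ, h4, h5, h6⟩ := (h1.and_eventually (h3.and (isOpen_ball.mem_nhds ha))).exists
  exact h5 (h0 ζ h6 h4)

variable {n : ℕ} {K : Type} [Field K] [Algebra ℂ K]
    {B : Type} [CommRing B] [IsDomain B] [Algebra ℂ B]
    [Algebra B K] [IsScalarTower ℂ B K] [IsFractionRing B K]
    {A : Type} [CommRing A] [IsDomain A] [Algebra ℂ A]
    [Algebra A K] [IsScalarTower ℂ A K] [IsFractionRing A K]

/-- **Core regularity theorem.** -/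
theorem reg_core (hB : Algebra.FiniteType ℂ B) (hA : Algebra.FiniteType ℂ A)
    (z : Fin n → B) (w : Fin n → A)
    (hw : RingHom.Etale ((MvPolynomial.aeval w : MvPolynomial (Fin n) ℂ →ₐ[ℂ] A) :
      MvPolynomial (Fin n) ℂ →+* A))
    (y : A →ₐ[ℂ] ℂ) (C : Chart w y)
    (b b' : Module.Basis (Fin n) K (Ω[K⁄ℂ]))
    (hb : ∀ j, b j = KaehlerDifferential.D ℂ K (algebraMap A K (w j)))
    (hb' : ∀ j, b' j = KaehlerDifferential.D ℂ K (algebraMap B K (z j)))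
    (x0 : B →ₐ[ℂ] ℂ) (F : B) (uU vU q' : A) (hvU : vU ≠ 0) (hq' : q' ≠ 0)
    (W : (B →ₐ[ℂ] ℂ) → ℝ≥0∞) (ω : Cn n → ℝ≥0∞) (ε : ℝ) (hε : 0 < ε) (hεr : ε ≤ C.r)
    (c : ℝ≥0∞) (hc : c ≠ 0) (hω : ∀ ζ ∈ ball (0 : Cn n) ε, C.s ζ q' ≠ 0 → c ≤ ω ζ)
    (hW : ∀ ζ ∈ ball (0 : Cn n) ε, C.s ζ q' ≠ 0 → ∀ p : B →ₐ[ℂ] ℂ, Compat K p (C.s ζ) →
      ENNReal.ofReal ((‖C.s ζ uU‖ / ‖C.s ζ vU‖) ^ 2) * ω ζ ≤ W p)
    (hfin : lintM z (fun p => ENNReal.ofReal (‖p F‖ ^ 2) * W p) < ∞) :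
    ∃ (g : Cn n → ℂ) (a s d : A), DifferentiableOn ℂ g (ball 0 ε) ∧ d ≠ 0 ∧
      (∀ ζ, C.s ζ d ≠ 0 → C.s ζ q' ≠ 0) ∧ y s ≠ 0 ∧
      algebraMap B K F * (algebraMap A K uU / algebraMap A K vU) * (b.toMatrix b').det *
        algebraMap A K s = algebraMap A K a ∧
      (∀ ζ ∈ ball (0 : Cn n) ε, g ζ * C.s ζ s = C.s ζ a) ∧
      ∫⁻ ζ in ball (0 : Cn n) ε ∩ {ζ | C.s ζ d ≠ 0}, ENNReal.ofReal (‖g ζ‖ ^ 2) * ω ζ < ∞ := by
  classical
  have hinjA : Function.Injective (algebraMap A K) := IsFractionRing.injective A K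
  have hAK0 : ∀ x : A, x ≠ 0 → algebraMap A K x ≠ 0 := fun x hx h =>
    hx (hinjA (by rw [h, map_zero]))
  have hNA : IsNoetherianRing A := by
    have := hA
    exact Algebra.FiniteType.isNoetherianRing ℂ A
  obtain ⟨Q, s', ψ', hQ, hcomp, hder, hdetne, hdet, hinj⟩ :=
    exists_section (K := K) hB z w hw y C b b' hb hb' x0
  obtain ⟨uF, vF, hvF, hF⟩ := IsFractionRing.div_surjective (A := A) (algebraMap B K F)
  obtain ⟨uJ, vJ, hvJ, hJ⟩ := IsFractionRing.div_surjective (A := A) (b.toMatrix b').det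
  have hvF0 : vF ≠ 0 := nonZeroDivisors.ne_zero hvF
  have hvJ0 : vJ ≠ 0 := nonZeroDivisors.ne_zero hvJ
  have hvFK := hAK0 vF hvF0
  have hvJK := hAK0 vJ hvJ0
  have hvUK := hAK0 vU hvU
  set g0 : A := uF * uU * uJ with hg0
  set h0 : A := vF * vU * vJ with hh0
  have hh00 : h0 ≠ 0 := mul_ne_zero (mul_ne_zero hvF0 hvU) hvJ0
  set d : A := Q * q' * h0 with hd
  have hd0 : d ≠ 0 := mul_ne_zero (mul_ne_zero hQ hq') hh00
  have hsplit : ∀ ζ, C.s ζ d ≠ 0 → C.s ζ Q ≠ 0 ∧ C.s ζ q' ≠ 0 ∧ C.s ζ h0 ≠ 0 ∧ C.s ζ vF ≠ 0 ∧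
      C.s ζ vU ≠ 0 ∧ C.s ζ vJ ≠ 0 := by
    intro ζ h
    rw [hd, hh0, map_mul, map_mul, map_mul, map_mul] at h
    refine ⟨?_, ?_, ?_, ?_, ?_, ?_⟩
    · intro h'; apply h; rw [h']; ring
    · intro h'; apply h; rw [h']; ring
    · intro h'
      rw [hh0, map_mul, map_mul] at h'
      apply h; rw [h']; ring
    · intro h'; apply h; rw [h']; ring
    · intro h'; apply h; rw [h']; ring
    · intro h'; apply h; rw [h']; ring
  set f : Cn n → ℂ := fun ζ => C.s ζ g0 / C.s ζ h0 with hf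
  have hU : IsOpen (ball (0 : Cn n) ε) := isOpen_ball
  have hsub : ball (0 : Cn n) ε ⊆ ball 0 C.r := ball_subset_ball hεr
  have hanal : ∀ x : A, AnalyticOnNhd ℂ (fun ζ => C.s ζ x) (ball (0 : Cn n) ε) := fun x ζ hζ =>
    C.anal x ζ (hsub hζ)
  set Ω : Set (Cn n) := ball (0 : Cn n) ε ∩ {ζ | C.s ζ d ≠ 0} with hΩdef
  have hΩo : IsOpen Ω := by
    have hc : ContinuousOn (fun ζ => C.s ζ d) (ball (0 : Cn n) ε) := (hanal d).continuousOn
    exact hc.isOpen_inter_preimage isOpen_ball (t := {0}ᶜ) isOpen_compl_singleton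
  -- pointwise identity
  have hpt : ∀ ζ ∈ Ω, f ζ = s' ζ F * (C.s ζ uU / C.s ζ vU) * (ψ' ζ).det := by
    intro ζ hζ
    obtain ⟨h1, h2, h3, h4, h5, h6⟩ := hsplit ζ hζ.2
    have e1 := hcomp ζ (hsub hζ.1) h1 F uF vF (by
      rw [← hF]; field_simp)
    have e2 := hdet ζ (hsub hζ.1) h1 uJ vJ (by
      rw [← hJ]; field_simp)
    simp only [hf, hg0, hh0, map_mul]
    rw [← e1, ← e2]
    field_simp
  have hfinΩ : ∫⁻ ζ in Ω, ENNReal.ofReal (‖f ζ‖ ^ 2) * ω ζ < ∞ := by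
    have hsubΩ : Ω ⊆ ball (0 : Cn n) C.r ∩ {ζ | C.s ζ Q ≠ 0} := fun ζ hζ =>
      ⟨hsub hζ.1, (hsplit ζ hζ.2).1⟩
    have h1 := lintM_ge z Ω hΩo s' (hinj.mono hsubΩ) ψ'
      (fun ζ hζ => hder ζ (hsub hζ.1) (hsplit ζ hζ.2).1)
      (fun ζ hζ => hdetne ζ (hsub hζ.1) (hsplit ζ hζ.2).1)
      (fun p => ENNReal.ofReal (‖p F‖ ^ 2) * W p)
    refine lt_of_le_of_lt (le_trans ?_ h1) hfin
    refine setLIntegral_mono' hΩo.measurableSet fun ζ hζ => ?_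
    obtain ⟨h1, h2, h3, h4, h5, h6⟩ := hsplit ζ hζ.2
    rw [hpt ζ hζ, norm_mul, norm_mul, norm_div, mul_pow, mul_pow,
      ENNReal.ofReal_mul (by positivity), ENNReal.ofReal_mul (by positivity)]
    have h7 := hW ζ hζ.1 h2 (s' ζ) (hcomp ζ (hsub hζ.1) h1)
    calc ENNReal.ofReal (‖s' ζ F‖ ^ 2) * ENNReal.ofReal ((‖C.s ζ uU‖ / ‖C.s ζ vU‖) ^ 2) *
          ENNReal.ofReal (‖(ψ' ζ).det‖ ^ 2) * ω ζ
        = ENNReal.ofReal (‖s' ζ F‖ ^ 2) *
          (ENNReal.ofReal ((‖C.s ζ uU‖ / ‖C.s ζ vU‖) ^ 2) * ω ζ) *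
          ENNReal.ofReal (‖(ψ' ζ).det‖ ^ 2) := by ring
      _ ≤ _ := by gcongr
  -- extension
  obtain ⟨g, hg, hgf⟩ := Crest.Agent.R271.RExt747.riemann_ext (f := f) (D := fun ζ => C.s ζ d) hU
    (hanal d) (fun a ha => not_ev_zero hw C hd0 (hsub ha))
    (by
      intro ζ hζ
      have e1 : DifferentiableAt ℂ f ζ := by
        simp only [hf]
        exact ((hanal g0 ζ hζ.1).div (hanal h0 ζ hζ.1) (hsplit ζ hζ.2).2.2.1).differentiableAt
      exact e1.differentiableWithinAt)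
    (by
      intro a ha
      refine ⟨ball 0 ε, hU.mem_nhds ha, ?_⟩
      have h1 : ∫⁻ ζ in Ω, c * ‖f ζ‖ₑ ^ 2 < ∞ := by
        refine lt_of_le_of_lt (setLIntegral_mono' hΩo.measurableSet fun ζ hζ => ?_) hfinΩ
        rw [mul_comm]
        refine mul_le_mul' ?_ (hω ζ hζ.1 (hsplit ζ hζ.2).2.1)
        rw [ENNReal.ofReal_pow (norm_nonneg _), ofReal_norm]
      by_cases hct : c = ∞
      · have h2 : ∫⁻ ζ in Ω, ‖f ζ‖ₑ ^ 2 ≤ ∫⁻ ζ in Ω, c * ‖f ζ‖ₑ ^ 2 := by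
          refine lintegral_mono fun ζ => ?_
          rw [hct]
          calc ‖f ζ‖ₑ ^ 2 = 1 * ‖f ζ‖ₑ ^ 2 := (one_mul _).symm
            _ ≤ ∞ * ‖f ζ‖ₑ ^ 2 := by gcongr; exact le_top
        exact lt_of_le_of_lt h2 h1
      · rw [lintegral_const_mul' _ _ hct] at h1
        by_contra hcon
        rw [not_lt, top_le_iff] at hcon
        rw [hcon, ENNReal.mul_top hc] at h1
        exact lt_irrefl _ h1)
  -- the algebraic relation
  have hgan : AnalyticAt ℂ g 0 :=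
    Crest.Agent.R266.SCV.analyticOnNhd_of_differentiableOn hU hg 0 (mem_ball_self hε)
  have hrel : ∀ ζ ∈ ball (0 : Cn n) ε, g ζ * C.s ζ h0 - C.s ζ g0 = 0 := by
    refine ev_zero_of_off hw C hd0 hεr ?_ ?_
    · exact (hg.continuousOn.mul (hanal h0).continuousOn).sub (hanal g0).continuousOn
    · intro ζ hζ hζd
      rw [hgf ζ hζ hζd]
      simp only [hf]
      rw [div_mul_cancel₀ _ (hsplit ζ hζd).2.2.1, sub_self]
  obtain ⟨s, hs, hmem⟩ := Crest.Agent.R271.Jet956.local_div hw C h0 g0 g hgan (by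
    filter_upwards [ball_mem_nhds (0 : Cn n) hε] with ζ hζ
    exact sub_eq_zero.1 (hrel ζ hζ))
  obtain ⟨a, ha⟩ := Ideal.mem_span_singleton'.1 hmem
  refine ⟨g, a, s, d, hg, hd0, fun ζ h => (hsplit ζ h).2.1, hs, ?_, ?_, ?_⟩
  · have e1 := congrArg (algebraMap A K) ha
    rw [map_mul _ a h0, map_mul _ s g0] at e1
    have hh0K := hAK0 h0 hh00
    apply mul_right_cancel₀ hh0K
    rw [show algebraMap A K a * algebraMap A K h0 = algebraMap A K s * algebraMap A K g0 from e1,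
      ← hF, ← hJ, hg0, hh0]
    simp only [map_mul]
    field_simp
  · have h1 : ∀ ζ ∈ ball (0 : Cn n) ε, g ζ * C.s ζ s - C.s ζ a = 0 := by
      refine ev_zero_of_off hw C hd0 hεr ?_ ?_
      · exact (hg.continuousOn.mul (hanal s).continuousOn).sub (hanal a).continuousOn
      · intro ζ hζ hζd
        have e1 := congrArg (C.s ζ) ha
        rw [map_mul _ a h0, map_mul _ s g0] at e1
        have e2 := sub_eq_zero.1 (hrel ζ hζ)
        have h3 := (hsplit ζ hζd).2.2.1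
        rw [sub_eq_zero]
        apply mul_right_cancel₀ h3
        rw [e1, ← e2]; ring
    intro ζ hζ
    exact sub_eq_zero.1 (h1 ζ hζ)
  · refine lt_of_le_of_lt (le_of_eq ?_) hfinΩ
    refine setLIntegral_congr_fun hΩo.measurableSet fun ζ hζ => ?_
    rw [hgf ζ hζ.1 hζ.2]

/-- a square integrable germ for a non-integrable weight vanishes -/
theorem zero_of_lint (hn : 1 ≤ n) (hA : Algebra.FiniteType ℂ A) {w : Fin n → A}
    (hw : RingHom.Etale ((MvPolynomial.aeval w : MvPolynomial (Fin n) ℂ →ₐ[ℂ] A) :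
      MvPolynomial (Fin n) ℂ →+* A))
    {y : A →ₐ[ℂ] ℂ} (C : Chart w y) {g : Cn n → ℂ} {ε : ℝ} (hε : 0 < ε) (hεr : ε ≤ C.r)
    (hg : ContinuousOn g (ball 0 ε)) {d : A} (hd : d ≠ 0) {ω : Cn n → ℝ≥0∞} {c : ℝ≥0∞}
    (hc : c ≠ 0) {a : ℝ} (ha : 2 * (n : ℝ) ≤ a)
    (hω : ∀ ζ ∈ ball (0 : Cn n) ε, C.s ζ d ≠ 0 → c * (ENNReal.ofReal ‖ζ‖) ^ (-a) ≤ ω ζ)
    (hfin : ∫⁻ ζ in ball (0 : Cn n) ε ∩ {ζ | C.s ζ d ≠ 0},
      ENNReal.ofReal (‖g ζ‖ ^ 2) * ω ζ < ∞) : g 0 = 0 := by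
  by_contra hne
  have hNA : IsNoetherianRing A := by
    have := hA
    exact Algebra.FiniteType.isNoetherianRing ℂ A
  have hg0 : ContinuousAt g 0 := hg.continuousAt (ball_mem_nhds _ hε)
  set t : ℝ := ‖g 0‖ / 2 with ht
  have ht0 : 0 < t := by positivity
  have h1 : ∀ᶠ ζ in 𝓝 (0 : Cn n), t < ‖g ζ‖ := by
    have h2 : t < ‖g 0‖ := by rw [ht]; linarith [norm_pos_iff.2 hne]
    exact hg0.norm.eventually_const_lt h2
  obtain ⟨δ, hδ, hδ'⟩ := Metric.eventually_nhds_iff_ball.1 h1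
  set δ' := min δ ε with hδ'def
  have hδ'0 : 0 < δ' := lt_min hδ hε
  have hsub : ball (0 : Cn n) δ' ⊆ ball 0 ε := ball_subset_ball (min_le_right _ _)
  have hanal : AnalyticOnNhd ℂ (fun ζ => C.s ζ d) (ball (0 : Cn n) δ') := fun ζ hζ =>
    C.anal d ζ (ball_subset_ball hεr (hsub hζ))
  have hz1 : ∃ z₁ ∈ ball (0 : Cn n) δ', C.s z₁ d ≠ 0 := by
    by_contra hcon
    push Not at hcon
    exact not_ev_zero hw C hd (mem_ball_self C.r_pos)
      (by filter_upwards [ball_mem_nhds (0 : Cn n) hδ'0] with ζ hζ; exact hcon ζ hζ)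
  obtain ⟨z₁, hz₁, hz₁'⟩ := hz1
  have hnull : volume {ζ ∈ ball (0 : Cn n) δ' | C.s ζ d = 0} = 0 :=
    Crest.Agent.R271.Local821.null_zero_ball volume hanal hz₁ hz₁'
  have hkey : ¬ LInt (fun ζ : Cn n => (ENNReal.ofReal ‖ζ‖) ^ (-a)) 0 :=
    Crest.Agent.R271.Local821.not_LInt_norm hn ha
  apply hkey
  refine ⟨ball 0 δ', ball_mem_nhds _ hδ'0, ?_⟩
  set S : Set (Cn n) := ball (0 : Cn n) δ' ∩ {ζ | C.s ζ d ≠ 0} with hS
  have hSo : IsOpen S :=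
    hanal.continuousOn.isOpen_inter_preimage isOpen_ball (t := {0}ᶜ) isOpen_compl_singleton
  have h3 : ∫⁻ ζ in ball (0 : Cn n) δ', (ENNReal.ofReal ‖ζ‖) ^ (-a) =
      ∫⁻ ζ in S, (ENNReal.ofReal ‖ζ‖) ^ (-a) := by
    refine setLIntegral_congr ?_
    refine (ae_eq_of_subset_of_measure_ge inter_subset_left ?_ hSo.nullMeasurableSet ?_).symm
    · have h4 : ball (0 : Cn n) δ' ⊆ S ∪ {ζ ∈ ball (0 : Cn n) δ' | C.s ζ d = 0} := by
        intro ζ hζ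
        by_cases h : C.s ζ d = 0
        · exact Or.inr ⟨hζ, h⟩
        · exact Or.inl ⟨hζ, h⟩
      calc volume (ball (0 : Cn n) δ') ≤ volume (S ∪ {ζ ∈ ball (0 : Cn n) δ' | C.s ζ d = 0}) :=
            measure_mono h4
        _ ≤ volume S + volume {ζ ∈ ball (0 : Cn n) δ' | C.s ζ d = 0} := measure_union_le _ _
        _ = volume S := by rw [hnull, add_zero]
    · exact measure_ball_lt_top.ne
  rw [h3]
  have h5 : ∫⁻ ζ in S, (ENNReal.ofReal (t ^ 2) * c) * (ENNReal.ofReal ‖ζ‖) ^ (-a) < ∞ := by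
    refine lt_of_le_of_lt ?_ hfin
    refine le_trans (setLIntegral_mono' hSo.measurableSet (g := fun ζ =>
      ENNReal.ofReal (‖g ζ‖ ^ 2) * ω ζ) fun ζ hζ => ?_) (lintegral_mono_set ?_)
    · rw [mul_assoc]
      refine mul_le_mul' ?_ (hω ζ (hsub hζ.1) hζ.2)
      apply ENNReal.ofReal_le_ofReal
      have := hδ' ζ (ball_subset_ball (min_le_left _ _) hζ.1)
      gcongr
    · exact fun ζ hζ => ⟨hsub hζ.1, hζ.2⟩
  have hcc : ENNReal.ofReal (t ^ 2) * c ≠ 0 := by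
    refine mul_ne_zero ?_ hc
    rw [Ne, ENNReal.ofReal_eq_zero, not_le]
    positivity
  by_contra hcon
  rw [not_lt, top_le_iff] at hcon
  by_cases hct : ENNReal.ofReal (t ^ 2) * c = ∞
  · have h6 : ∫⁻ ζ in S, (ENNReal.ofReal ‖ζ‖) ^ (-a) ≤
        ∫⁻ ζ in S, (ENNReal.ofReal (t ^ 2) * c) * (ENNReal.ofReal ‖ζ‖) ^ (-a) := by
      refine lintegral_mono fun ζ => ?_
      rw [hct]
      calc (ENNReal.ofReal ‖ζ‖) ^ (-a) = 1 * (ENNReal.ofReal ‖ζ‖) ^ (-a) := (one_mul _).symm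
        _ ≤ ∞ * (ENNReal.ofReal ‖ζ‖) ^ (-a) := by gcongr; exact le_top
    rw [hcon, top_le_iff] at h6
    rw [h6] at h5
    exact lt_irrefl _ h5
  · rw [lintegral_const_mul' _ _ hct, hcon, ENNReal.mul_top hcc] at h5
    exact lt_irrefl _ h5

end Crest.Agent.R269.Reg5_241
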