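import Crest.Agent.R269.Reg5_241
import Crest.Agent.R269.Amp3_243

/-!
Row 269 (S0411), leaf D4/REG, part 6 (helper241): change of étale chart of the Gram determinant weight.

* `loc K s` : the local ring in `K` of the point `s` of `A` (`K = Frac A`), `lv s` its evaluation;
* `wt_compat` : for two charts `X`, `Y` of the same variety with common function field `K` and
  compatible points `p` of `X.B`, `s` of `Y.B`: `wt X p = |J(s)|² wt Y s`,
  `ns X p = |μ(s)|⁻² ns Y s`, `J = det (∂z_X/∂z_Y)`, `μ = x_{iX}/x_{iY}`.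
-/

set_option autoImplicit false
set_option linter.unusedSectionVars false
set_option linter.style.haveILetI false

open scoped ENNReal NNReal Topology BigOperators
open MeasureTheory Set Metric Filter

noncomputable section

namespace Crest.Agent.R269.Reg6_241

open Crest.AlgGeometry.ProjEmb
open Crest.Agent.R271.Defs710 Crest.Agent.R271.Bd741 Crest.Agent.R269.Reg4_241
open Crest.Agent.R269.Amp1_243 Crest.Agent.R269.Amp3_243 Crest.Agent.R269.Geo_328

/-! ### The local ring of a point inside the fraction field -/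

section loc

variable (K : Type) [Field K] [Algebra ℂ K] {A : Type} [CommRing A] [IsDomain A] [Algebra ℂ A]
  [Algebra A K] [IsScalarTower ℂ A K] [IsFractionRing A K]

/-- the local ring of the point `s` in `K` -/
def loc (s : A →ₐ[ℂ] ℂ) : Subalgebra ℂ K where
  carrier := {k | ∃ u v : A, s v ≠ 0 ∧ k * algebraMap A K v = algebraMap A K u}
  mul_mem' := by
    rintro a b ⟨u, v, hv, h⟩ ⟨u', v', hv', h'⟩
    refine ⟨u * u', v * v', ?_, ?_⟩
    · rw [map_mul]; exact mul_ne_zero hv hv'
    · rw [map_mul, map_mul, ← h, ← h']; ring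
  add_mem' := by
    rintro a b ⟨u, v, hv, h⟩ ⟨u', v', hv', h'⟩
    refine ⟨u * v' + u' * v, v * v', ?_, ?_⟩
    · rw [map_mul]; exact mul_ne_zero hv hv'
    · rw [map_mul, map_add, map_mul, map_mul, ← h, ← h']; ring
  algebraMap_mem' c := by
    refine ⟨algebraMap ℂ A c, 1, by simp, ?_⟩
    rw [map_one, mul_one, ← IsScalarTower.algebraMap_apply]

variable {K}

lemma mem_loc {s : A →ₐ[ℂ] ℂ} {k : K} :
    k ∈ loc K s ↔ ∃ u v : A, s v ≠ 0 ∧ k * algebraMap A K v = algebraMap A K u := Iff.rfl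

lemma alg_mem_loc (s : A →ₐ[ℂ] ℂ) (a : A) : algebraMap A K a ∈ loc K s :=
  ⟨a, 1, by simp, by rw [map_one, mul_one]⟩

lemma lv_aux {s : A →ₐ[ℂ] ℂ} {k : K} {u v u' v' : A}
    (h : k * algebraMap A K v = algebraMap A K u)
    (h' : k * algebraMap A K v' = algebraMap A K u') : s u * s v' = s u' * s v := by
  have h1 : u * v' = u' * v := by
    apply IsFractionRing.injective A K
    rw [map_mul, map_mul, ← h, ← h']; ring
  rw [← map_mul, h1, map_mul]

/-- value of an element of the local ring -/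
def lvFun (s : A →ₐ[ℂ] ℂ) (k : loc K s) : ℂ := s k.2.choose / s k.2.choose_spec.choose

lemma lvFun_spec (s : A →ₐ[ℂ] ℂ) (k : loc K s) {u v : A}
    (h : (k : K) * algebraMap A K v = algebraMap A K u) : lvFun s k * s v = s u := by
  unfold lvFun
  obtain ⟨h1, h2⟩ := k.2.choose_spec.choose_spec
  have h3 := lv_aux (s := s) h2 h
  rw [div_mul_eq_mul_div, div_eq_iff h1]
  exact h3

lemma lvFun_unique (s : A →ₐ[ℂ] ℂ) (k : loc K s) {u v : A} (hv : s v ≠ 0)
    (h : (k : K) * algebraMap A K v = algebraMap A K u) {x : ℂ} (hx : x * s v = s u) :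
    x = lvFun s k := by
  have h1 := lvFun_spec s k h
  rw [← hx] at h1
  exact (mul_right_cancel₀ hv h1).symm

/-- evaluation on the local ring -/
def lv (s : A →ₐ[ℂ] ℂ) : loc K s →ₐ[ℂ] ℂ where
  toFun := lvFun s
  map_one' := by
    refine (lvFun_unique s 1 (u := 1) (v := 1) (by simp) (by simp) (by simp)).symm
  map_zero' := by
    refine (lvFun_unique s 0 (u := 0) (v := 1) (by simp) (by simp) (by simp)).symm
  map_mul' a b := by
    obtain ⟨u, v, hv, h⟩ := a.2
    obtain ⟨u', v', hv', h'⟩ := b.2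
    refine (lvFun_unique s (a * b) (u := u * u') (v := v * v') ?_ ?_ ?_).symm
    · rw [map_mul]; exact mul_ne_zero hv hv'
    · rw [map_mul, map_mul, ← h, ← h']; push_cast; ring
    · rw [map_mul, map_mul, ← lvFun_spec s a h, ← lvFun_spec s b h']; ring
  map_add' a b := by
    obtain ⟨u, v, hv, h⟩ := a.2
    obtain ⟨u', v', hv', h'⟩ := b.2
    refine (lvFun_unique s (a + b) (u := u * v' + u' * v) (v := v * v') ?_ ?_ ?_).symm
    · rw [map_mul]; exact mul_ne_zero hv hv'
    · rw [map_mul, map_add, map_mul, map_mul, ← h, ← h']; push_cast; ring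
    · rw [map_mul, map_add, map_mul, map_mul, ← lvFun_spec s a h, ← lvFun_spec s b h']; ring
  commutes' c := by
    refine (lvFun_unique s _ (u := algebraMap ℂ A c) (v := 1) (by simp) ?_ ?_).symm
    · rw [map_one, mul_one, ← IsScalarTower.algebraMap_apply]; rfl
    · simp

lemma lv_spec (s : A →ₐ[ℂ] ℂ) (k : loc K s) {u v : A}
    (h : (k : K) * algebraMap A K v = algebraMap A K u) : lv s k * s v = s u := lvFun_spec s k h

lemma lv_alg (s : A →ₐ[ℂ] ℂ) (a : A) : lv s (⟨algebraMap A K a, alg_mem_loc s a⟩ : loc K s) = s a := by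
  have := lv_spec s (⟨algebraMap A K a, alg_mem_loc s a⟩ : loc K s) (u := a) (v := 1)
    (by rw [map_one, mul_one])
  rw [map_one, mul_one] at this
  exact this

variable {B : Type} [CommRing B] [Algebra ℂ B] [Algebra B K] [IsScalarTower ℂ B K]

lemma lv_compat {p : B →ₐ[ℂ] ℂ} {s : A →ₐ[ℂ] ℂ} (hc : Compat K p s) {b : B}
    (hb : algebraMap B K b ∈ loc K s) : lv s (⟨algebraMap B K b, hb⟩ : loc K s) = p b := by
  obtain ⟨u, v, hv, h⟩ := hb
  have h1 := lv_spec s (⟨algebraMap B K b, ⟨u, v, hv, h⟩⟩ : loc K s) h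
  have h2 := hc b u v h
  rw [← h1] at h2
  exact (mul_right_cancel₀ hv h2).symm

/-- finitely many elements of `K` are in the local ring of a general point -/
lemma exists_loc {ι : Type} [Finite ι] (k : ι → K) :
    ∃ q' : A, q' ≠ 0 ∧ ∀ s : A →ₐ[ℂ] ℂ, s q' ≠ 0 → ∀ a, k a ∈ loc K s := by
  obtain ⟨⟨q2, hq2⟩, h⟩ := IsLocalization.exist_integer_multiples_of_finite (nonZeroDivisors A) k
  refine ⟨q2, nonZeroDivisors.ne_zero hq2, fun s hs a => ?_⟩
  obtain ⟨β, hβ⟩ := h a
  refine ⟨β, q2, hs, ?_⟩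
  rw [hβ, Algebra.smul_def]; exact mul_comm _ _

/-- a finite type algebra is in the local ring of a general point -/
lemma exists_loc_alg (hB : Algebra.FiniteType ℂ B) :
    ∃ q' : A, q' ≠ 0 ∧ ∀ s : A →ₐ[ℂ] ℂ, s q' ≠ 0 → ∀ b : B, algebraMap B K b ∈ loc K s := by
  obtain ⟨q, hq, h⟩ := exists_denom (A := A) (B := B) K hB
  refine ⟨q, hq, fun s hs b => ?_⟩
  obtain ⟨M, a, ha⟩ := h b
  exact ⟨a, q ^ M, by rw [map_pow]; exact pow_ne_zero _ hs, by rw [map_pow]; exact ha⟩

end loc

/-! ### Bases of the Kähler differentials -/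

/-- étale coordinates on a domain give a basis of the Kähler differentials of the fraction field
(adapted from `R271.Bs960`, helper960) -/
theorem exists_basis {n : ℕ} {S K : Type} [CommRing S] [Algebra ℂ S] [Field K] [Algebra ℂ K]
    [Algebra S K] [IsScalarTower ℂ S K] [IsDomain S] [IsFractionRing S K] (w : Fin n → S)
    (h : RingHom.Etale ((MvPolynomial.aeval w : MvPolynomial (Fin n) ℂ →ₐ[ℂ] S) :
      MvPolynomial (Fin n) ℂ →+* S)) :
    ∃ b : Module.Basis (Fin n) K (Ω[K⁄ℂ]),
      ∀ i, b i = KaehlerDifferential.D ℂ K (algebraMap S K (w i)) := by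
  letI : Algebra (MvPolynomial (Fin n) ℂ) S :=
    ((MvPolynomial.aeval w : MvPolynomial (Fin n) ℂ →ₐ[ℂ] S) :
      MvPolynomial (Fin n) ℂ →+* S).toAlgebra
  have he : Algebra.Etale (MvPolynomial (Fin n) ℂ) S := h
  letI : Algebra (MvPolynomial (Fin n) ℂ) K :=
    ((MvPolynomial.aeval (fun i => algebraMap S K (w i)) : MvPolynomial (Fin n) ℂ →ₐ[ℂ] K) :
      MvPolynomial (Fin n) ℂ →+* K).toAlgebra
  have : IsScalarTower (MvPolynomial (Fin n) ℂ) S K := IsScalarTower.of_algebraMap_eq' (by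
    rw [RingHom.algebraMap_toAlgebra, RingHom.algebraMap_toAlgebra]
    apply MvPolynomial.ringHom_ext
    · intro r
      simp [← IsScalarTower.algebraMap_apply ℂ S K]
    · intro i
      simp)
  have h1 : Algebra.FormallyEtale S K :=
    Algebra.FormallyEtale.of_isLocalization (Rₘ := K) (nonZeroDivisors S)
  have h2 : Algebra.FormallyEtale (MvPolynomial (Fin n) ℂ) K :=
    Algebra.FormallyEtale.comp (MvPolynomial (Fin n) ℂ) S K
  have : IsScalarTower ℂ (MvPolynomial (Fin n) ℂ) K :=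
    IsScalarTower.of_algebraMap_eq fun r => by
      rw [RingHom.algebraMap_toAlgebra]
      simp
  let b0 := (KaehlerDifferential.mvPolynomialBasis ℂ (Fin n)).baseChange K
  refine ⟨b0.map (KaehlerDifferential.tensorKaehlerEquivOfFormallyEtale ℂ
    (MvPolynomial (Fin n) ℂ) K), fun i => ?_⟩
  rw [Module.Basis.map_apply, Module.Basis.baseChange_apply,
    KaehlerDifferential.mvPolynomialBasis_apply,
    KaehlerDifferential.tensorKaehlerEquivOfFormallyEtale_apply,
    KaehlerDifferential.mapBaseChange_tmul]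
  simp [RingHom.algebraMap_toAlgebra]

/-! ### Gram determinants -/

lemma gdet_mul {N n : ℕ} (M : Matrix (Fin (n + 1)) (Fin (n + 1)) ℂ)
    (A : Matrix (Fin (n + 1)) (Fin (N + 1)) ℂ) : gdet (M * A) = ‖M.det‖ ^ 2 * gdet A := by
  unfold gdet
  rw [Matrix.conjTranspose_mul, Matrix.mul_assoc, ← Matrix.mul_assoc A, ← Matrix.mul_assoc,
    Matrix.det_mul, Matrix.det_mul, Matrix.det_conjTranspose]
  have h1 : M.det * (A * A.conjTranspose).det * star M.det =
      ((‖M.det‖ ^ 2 : ℝ) : ℂ) * (A * A.conjTranspose).det := by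
    have h2 : M.det * star M.det = ((‖M.det‖ ^ 2 : ℝ) : ℂ) := by
      rw [Complex.star_def, Complex.mul_conj, Complex.normSq_eq_norm_sq]
    rw [← h2]; ring
  rw [h1, Complex.re_ofReal_mul]

/-- the block triangular matrix -/
def blk {n : ℕ} (l : ℂ) (μ : Fin n → ℂ) (T : Matrix (Fin n) (Fin n) ℂ) :
    Matrix (Fin (n + 1)) (Fin (n + 1)) ℂ :=
  Matrix.of (Fin.cons (Fin.cons l fun _ => 0) fun k => Fin.cons (μ k) fun s => l * T k s)

lemma det_blk {n : ℕ} (l : ℂ) (μ : Fin n → ℂ) (T : Matrix (Fin n) (Fin n) ℂ) :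
    (blk l μ T).det = l ^ (n + 1) * T.det := by
  rw [Matrix.det_succ_row_zero, Fin.sum_univ_succ]
  have h1 : ∀ i : Fin n, blk l μ T 0 i.succ = 0 := fun i => rfl
  simp only [h1, mul_zero, zero_mul, Finset.sum_const_zero, add_zero]
  have h2 : blk l μ T 0 0 = l := rfl
  have h3 : (blk l μ T).submatrix Fin.succ (Fin.succAbove 0) = l • T := by
    ext k s
    simp [blk, Matrix.submatrix_apply]
  rw [h2, h3, Matrix.det_smul, Fintype.card_fin]
  simp
  ring

end Crest.Agent.R269.Reg6_241
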