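import Crest.Agent.R269.Reg6_241

/-!
Row 269 (S0411), leaf D4/REG, part 7 (helper241): the weights of two charts at compatible points.
-/

set_option autoImplicit false
set_option linter.unusedSectionVars false

open scoped ENNReal NNReal Topology BigOperators
open MeasureTheory Set Metric Filter

noncomputable section

namespace Crest.Agent.R269.Reg7_241

open Crest.AlgGeometry.ProjEmb
open Crest.Agent.R271.Defs710 Crest.Agent.R271.Bd741 Crest.Agent.R269.Reg4_241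
open Crest.Agent.R269.Amp1_243 Crest.Agent.R269.Amp3_243 Crest.Agent.R269.Geo_328
open Crest.Agent.R269.Reg6_241

variable {N n : ℕ} {I : Ideal (HomCoordRing N)}

/-- `|dz|²_g` -/
def wt (X : XC I n) (y : X.B →ₐ[ℂ] ℂ) : ℝ := ns X y ^ (n + 1) / gr X y

lemma wt_pos (X : XC I n) (y : X.B →ₐ[ℂ] ℂ) : 0 < wt X y :=
  div_pos (pow_pos (ns_pos y) _) (gr_pos y)

section K

variable (X Y : XC I n) {K : Type} [Field K] [Algebra ℂ K]
  [Algebra X.B K] [IsScalarTower ℂ X.B K] [IsFractionRing X.B K]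
  [Algebra Y.B K] [IsScalarTower ℂ Y.B K] [IsFractionRing Y.B K]

/-- the derivative identity in `K` -/
theorem der_eq (b b' : Module.Basis (Fin n) K (Ω[K⁄ℂ]))
    (hb : ∀ j, b j = KaehlerDifferential.D ℂ K (algebraMap Y.B K (Y.z j)))
    (hb' : ∀ j, b' j = KaehlerDifferential.D ℂ K (algebraMap X.B K (X.z j)))
    (lam : K) (hlam : ∀ l, algebraMap X.B K (X.x l) = lam * algebraMap Y.B K (Y.x l))
    (k : Fin n) (l : Fin (N + 1)) :
    algebraMap X.B K (X.der k (X.x l)) =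
      (∑ s, (lam * b'.toMatrix b k s) * algebraMap Y.B K (Y.der s (Y.x l))) +
        b'.repr (KaehlerDifferential.D ℂ K lam) k * algebraMap Y.B K (Y.x l) := by
  have h1 := D_K (K := K) X.z X.etale X.der (fun i j => X.der_z i j) (X.x l)
  have h2 := D_K (K := K) Y.z Y.etale Y.der (fun i j => Y.der_z i j) (Y.x l)
  have e1 : b'.repr (KaehlerDifferential.D ℂ K (algebraMap X.B K (X.x l))) k =
      algebraMap X.B K (X.der k (X.x l)) := by
    rw [h1]
    simp_rw [← hb']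
    rw [Module.Basis.repr_sum_self]
  have e2 : KaehlerDifferential.D ℂ K (algebraMap Y.B K (Y.x l)) =
      ∑ s, algebraMap Y.B K (Y.der s (Y.x l)) • b s := by
    rw [h2]
    simp_rw [← hb]
  rw [← e1, hlam, Derivation.leibniz, e2, map_add, map_smul, map_smul, map_sum,
    Finsupp.add_apply, Finsupp.smul_apply, Finsupp.smul_apply, Finsupp.finsetSum_apply]
  simp only [map_smul, Finsupp.smul_apply, smul_eq_mul, Finset.mul_sum]
  congr 1
  · refine Finset.sum_congr rfl fun s _ => ?_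
    rw [Module.Basis.toMatrix_apply]; ring
  · ring

variable {X Y}

theorem pt_compat {p : X.B →ₐ[ℂ] ℂ} {s : Y.B →ₐ[ℂ] ℂ} (hc : Compat K p s)
    {lam : K} (hlam : ∀ l, algebraMap X.B K (X.x l) = lam * algebraMap Y.B K (Y.x l))
    (hl : lam ∈ loc K s) : pt X p = lv s (⟨lam, hl⟩ : loc K s) • pt Y s := by
  funext l
  obtain ⟨u, v, hv, h⟩ := hl
  have h1 := lv_spec s (⟨lam, ⟨u, v, hv, h⟩⟩ : loc K s) h
  have h2 := hc (X.x l) (u * Y.x l) v (by
    rw [hlam, map_mul, ← h]; ring)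
  rw [map_mul, ← h1] at h2
  rw [Pi.smul_apply, smul_eq_mul, pt_apply, pt_apply]
  apply mul_right_cancel₀ hv
  rw [h2]; ring

theorem frm_compat
    (b b' : Module.Basis (Fin n) K (Ω[K⁄ℂ]))
    (hb : ∀ j, b j = KaehlerDifferential.D ℂ K (algebraMap Y.B K (Y.z j)))
    (hb' : ∀ j, b' j = KaehlerDifferential.D ℂ K (algebraMap X.B K (X.z j)))
    {p : X.B →ₐ[ℂ] ℂ} {s : Y.B →ₐ[ℂ] ℂ} (hc : Compat K p s)
    {lam : K} (hlam : ∀ l, algebraMap X.B K (X.x l) = lam * algebraMap Y.B K (Y.x l))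
    (hl : lam ∈ loc K s) (hT : ∀ k j, b'.toMatrix b k j ∈ loc K s)
    (hμ : ∀ k, b'.repr (KaehlerDifferential.D ℂ K lam) k ∈ loc K s) :
    frm X p = blk (lv s (⟨lam, hl⟩ : loc K s))
      (fun k => lv s (⟨_, hμ k⟩ : loc K s))
      (Matrix.of fun k j => lv s (⟨_, hT k j⟩ : loc K s)) * frm Y s := by
  ext a l
  refine Fin.cases ?_ (fun k => ?_) a
  · have h1 := congrFun (pt_compat hc hlam hl) l
    rw [Matrix.mul_apply, Fin.sum_univ_succ]
    simp only [blk, Matrix.of_apply, Fin.cons_zero, Fin.cons_succ, zero_mul,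
      Finset.sum_const_zero, add_zero]
    rw [frm_zero, frm_zero, ← pt_apply, ← pt_apply, h1]
    rfl
  · have hmem : algebraMap X.B K (X.der k (X.x l)) ∈ loc K s := by
      rw [der_eq X Y b b' hb hb' lam hlam k l]
      refine add_mem (sum_mem fun j _ => ?_) ?_
      · exact mul_mem (mul_mem hl (hT k j)) (alg_mem_loc s _)
      · exact mul_mem (hμ k) (alg_mem_loc s _)
    have h1 : (⟨algebraMap X.B K (X.der k (X.x l)), hmem⟩ : loc K s) =
        (∑ j, ((⟨lam, hl⟩ : loc K s) * ⟨_, hT k j⟩) *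
          ⟨algebraMap Y.B K (Y.der j (Y.x l)), alg_mem_loc s _⟩) +
        (⟨_, hμ k⟩ : loc K s) * ⟨algebraMap Y.B K (Y.x l), alg_mem_loc s _⟩ := by
      apply Subtype.ext
      push_cast
      exact der_eq X Y b b' hb hb' lam hlam k l
    have h2 := congrArg (lv s) h1
    rw [lv_compat hc] at h2
    rw [frm_succ, h2, map_add, map_sum, Matrix.mul_apply, Fin.sum_univ_succ]
    simp only [map_mul, lv_alg, blk, Matrix.of_apply, Fin.cons_zero, Fin.cons_succ]
    rw [add_comm]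
    rfl

theorem ns_compat {p : X.B →ₐ[ℂ] ℂ} {s : Y.B →ₐ[ℂ] ℂ} (hc : Compat K p s)
    {lam : K} (hlam : ∀ l, algebraMap X.B K (X.x l) = lam * algebraMap Y.B K (Y.x l))
    (hl : lam ∈ loc K s) : ns X p = ‖lv s (⟨lam, hl⟩ : loc K s)‖ ^ 2 * ns Y s := by
  unfold ns
  rw [pt_compat hc hlam hl]
  unfold Geo_328.nsq
  rw [Finset.mul_sum]
  refine Finset.sum_congr rfl fun l _ => ?_
  rw [Pi.smul_apply, smul_eq_mul, norm_mul, mul_pow]

theorem wt_compat
    (b b' : Module.Basis (Fin n) K (Ω[K⁄ℂ]))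
    (hb : ∀ j, b j = KaehlerDifferential.D ℂ K (algebraMap Y.B K (Y.z j)))
    (hb' : ∀ j, b' j = KaehlerDifferential.D ℂ K (algebraMap X.B K (X.z j)))
    {p : X.B →ₐ[ℂ] ℂ} {s : Y.B →ₐ[ℂ] ℂ} (hc : Compat K p s)
    {lam : K} (hlam : ∀ l, algebraMap X.B K (X.x l) = lam * algebraMap Y.B K (Y.x l))
    (hl : lam ∈ loc K s) (hl0 : lv s (⟨lam, hl⟩ : loc K s) ≠ 0)
    (hT : ∀ k j, b'.toMatrix b k j ∈ loc K s)
    (hμ : ∀ k, b'.repr (KaehlerDifferential.D ℂ K lam) k ∈ loc K s)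
    (hJ : (b.toMatrix b').det ∈ loc K s) :
    wt X p = ‖lv s (⟨(b.toMatrix b').det, hJ⟩ : loc K s)‖ ^ 2 * wt Y s := by
  set T : Matrix (Fin n) (Fin n) (loc K s) := Matrix.of fun k j => ⟨_, hT k j⟩ with hTdef
  set e : loc K s →ₐ[ℂ] ℂ := lv s with he
  set l0 := e (⟨lam, hl⟩ : loc K s) with hl0def
  set J : loc K s := ⟨(b.toMatrix b').det, hJ⟩ with hJdef
  have h1 : frm X p = blk l0 (fun k => e (⟨_, hμ k⟩ : loc K s)) (T.map e) * frm Y s := by
    have := frm_compat b b' hb hb' hc hlam hl hT hμ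
    rw [this]
    rfl
  have h2 : J * T.det = 1 := by
    apply Subtype.ext
    have h3 : ((T.det : loc K s) : K) = (b'.toMatrix b).det := by
      have h4 := RingHom.map_det (loc K s).val.toRingHom T
      have h5 : (loc K s).val.toRingHom.mapMatrix T = b'.toMatrix b := by
        ext k j
        rfl
      rw [h5] at h4
      exact h4
    push_cast
    rw [h3, hJdef]
    have h4 := congrArg Matrix.det (b.toMatrix_mul_toMatrix_flip b')
    rw [Matrix.det_mul, Matrix.det_one] at h4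
    exact h4
  have h3 : e J * (T.map e).det = 1 := by
    have h4 := congrArg e h2
    rw [map_mul, map_one] at h4
    have h5 := AlgHom.map_det e T
    rw [h5] at h4
    exact h4
  have hJ0 : e J ≠ 0 := left_ne_zero_of_mul (by rw [h3]; exact one_ne_zero)
  have hdet : (T.map e).det = (e J)⁻¹ := eq_inv_of_mul_eq_one_right h3
  have hgr : gr X p = ‖l0 ^ (n + 1) * (e J)⁻¹‖ ^ 2 * gr Y s := by
    unfold gr
    rw [h1, gdet_mul, det_blk, hdet]
  have hns := ns_compat hc hlam hl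
  unfold wt
  rw [hns, hgr, norm_mul, norm_pow, norm_inv]
  have hl1 : ‖l0‖ ≠ 0 := norm_ne_zero_iff.2 hl0
  have hJ1 : ‖e J‖ ≠ 0 := norm_ne_zero_iff.2 hJ0
  have hg : gr Y s ≠ 0 := (gr_pos s).ne'
  change (‖l0‖ ^ 2 * ns Y s) ^ (n + 1) / ((‖l0‖ ^ (n + 1) * ‖e J‖⁻¹) ^ 2 * gr Y s) =
    ‖e J‖ ^ 2 * (ns Y s ^ (n + 1) / gr Y s)
  field_simp
  ring

end K

end Crest.Agent.R269.Reg7_241
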