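import Crest.Agent.R269.Reg7_241
import Crest.Agent.R271.AlgA_255

/-!
Row 269 (S0411), leaf D4/REG, part 8 (helper241): local regularity for the weights of the row.

`reg_gen` : `∫ |F|² wt^m ns^{-j} E < ∞` on the étale chart `X` implies that
`F (x_{iX}/x_{iY})^j J^{m+1}` is in the local ring of any point `y` of any other chart `Y`
(`J = det ∂z_X/∂z_Y`), with square integrable germ for the extra weight `E`.
-/

set_option autoImplicit false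
set_option linter.unusedSectionVars false

open scoped ENNReal NNReal Topology BigOperators
open MeasureTheory Set Metric Filter

noncomputable section

namespace Crest.Agent.R269.Reg8_241

open Crest.AlgGeometry.ProjEmb
open Crest.Agent.R271.Defs710 hiding wt
open Crest.Agent.R271.Bd741 Crest.Agent.R269.Reg4_241
open Crest.Agent.R269.Amp1_243 Crest.Agent.R269.Amp3_243 Crest.Agent.R269.Geo_328
open Crest.Agent.R269.Reg5_241 Crest.Agent.R269.Reg6_241 Crest.Agent.R269.Reg7_241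

variable {N n : ℕ} {I : Ideal (HomCoordRing N)}

section loc

variable {K : Type} [Field K] [Algebra ℂ K] {A : Type} [CommRing A] [IsDomain A] [Algebra ℂ A]
  [Algebra A K] [IsScalarTower ℂ A K] [IsFractionRing A K]

lemma lv_mul {s : A →ₐ[ℂ] ℂ} {a b : K} (ha : a ∈ loc K s) (hb : b ∈ loc K s) :
    lv s (⟨a * b, mul_mem ha hb⟩ : loc K s) = lv s ⟨a, ha⟩ * lv s ⟨b, hb⟩ :=
  map_mul (lv s) (⟨a, ha⟩ : loc K s) ⟨b, hb⟩

lemma lv_pow {s : A →ₐ[ℂ] ℂ} {a : K} (ha : a ∈ loc K s) (m : ℕ) :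
    lv s (⟨a ^ m, pow_mem ha m⟩ : loc K s) = lv s ⟨a, ha⟩ ^ m :=
  map_pow (lv s) (⟨a, ha⟩ : loc K s) m

lemma lv_inv {s : A →ₐ[ℂ] ℂ} {a b : K} (ha : a ∈ loc K s) (hb : b ∈ loc K s) (h : a * b = 1) :
    lv s (⟨a, ha⟩ : loc K s) = (lv s (⟨b, hb⟩ : loc K s))⁻¹ := by
  have h1 : (⟨a, ha⟩ : loc K s) * ⟨b, hb⟩ = 1 := Subtype.ext h
  have h2 := congrArg (lv s) h1
  rw [map_mul, map_one] at h2
  exact eq_inv_of_mul_eq_one_left h2

lemma lv_zpow {s : A →ₐ[ℂ] ℂ} {a b : K} (ha : a ∈ loc K s) (hb : b ∈ loc K s) (h : a * b = 1)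
    (j : ℤ) (hj : a ^ j ∈ loc K s) :
    lv s (⟨a ^ j, hj⟩ : loc K s) = (lv s (⟨a, ha⟩ : loc K s)) ^ j := by
  obtain ⟨m, rfl | rfl⟩ := j.eq_nat_or_neg
  · simp only [zpow_natCast]
    exact lv_pow ha m
  · have e : a⁻¹ = b := inv_eq_of_mul_eq_one_right h
    have h1 : a ^ (-(m : ℤ)) = b ^ m := by
      rw [zpow_neg, zpow_natCast, ← inv_pow, e]
    have h2 : (⟨a ^ (-(m : ℤ)), hj⟩ : loc K s) = ⟨b ^ m, pow_mem hb m⟩ := Subtype.ext h1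
    rw [h2, lv_pow hb, lv_inv ha hb h, zpow_neg, zpow_natCast, inv_pow, inv_inv]

lemma lv_div {s : A →ₐ[ℂ] ℂ} {k : K} (hk : k ∈ loc K s) {u v : A} (hv : v ≠ 0)
    (hsv : s v ≠ 0) (h : algebraMap A K u / algebraMap A K v = k) :
    lv s (⟨k, hk⟩ : loc K s) = s u / s v := by
  have hv' : algebraMap A K v ≠ 0 := fun h0 => hv (IsFractionRing.injective A K (by rw [h0, map_zero]))
  have h1 := lv_spec s (⟨k, hk⟩ : loc K s) (u := u) (v := v) (by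
    change k * algebraMap A K v = algebraMap A K u
    rw [← h]; field_simp)
  rw [eq_div_iff hsv]
  exact h1

end loc

/-- a continuous positive function is bounded below near `0` along a chart -/
lemma exists_lower {ω : Cn n → ℝ} (hc : ContinuousAt ω 0) (h0 : 0 < ω 0) :
    ∃ c : ℝ, 0 < c ∧ ∃ δ : ℝ, 0 < δ ∧ ∀ ζ ∈ ball (0 : Cn n) δ, c ≤ ω ζ := by
  have h1 : ∀ᶠ ζ in 𝓝 (0 : Cn n), ω 0 / 2 < ω ζ := hc.eventually_const_lt (by linarith)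
  obtain ⟨δ, hδ, h2⟩ := Metric.eventually_nhds_iff_ball.1 h1
  exact ⟨ω 0 / 2, by linarith, δ, hδ, fun ζ hζ => (h2 ζ hζ).le⟩

lemma continuousAt_pt (Y : XC I n) {y : Y.B →ₐ[ℂ] ℂ} (C : Chart Y.z y) :
    ContinuousAt (fun ζ => pt Y (C.s ζ)) 0 := by
  rw [continuousAt_pi]
  intro l
  exact (C.anal (Y.x l) 0 (mem_ball_self C.r_pos)).continuousAt

lemma continuousAt_ns (Y : XC I n) {y : Y.B →ₐ[ℂ] ℂ} (C : Chart Y.z y) :
    ContinuousAt (fun ζ => ns Y (C.s ζ)) 0 := by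
  unfold ns Geo_328.nsq
  have h := continuousAt_pt Y C
  rw [continuousAt_pi] at h
  exact tendsto_finsetSum _ fun l _ => ((h l).norm.pow 2)

lemma continuous_gdet : Continuous (gdet (N := N) (n := n)) := by
  unfold gdet
  refine Complex.continuous_re.comp ?_
  exact Continuous.matrix_det (continuous_id.matrix_mul continuous_id.matrix_conjTranspose)

lemma continuousAt_gr (Y : XC I n) {y : Y.B →ₐ[ℂ] ℂ} (C : Chart Y.z y) :
    ContinuousAt (fun ζ => gr Y (C.s ζ)) 0 := by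
  have h1 : ContinuousAt (fun ζ => frm Y (C.s ζ)) 0 := by
    refine tendsto_pi_nhds.2 fun a => tendsto_pi_nhds.2 fun l => ?_
    refine Fin.cases ?_ (fun k => ?_) a
    · exact (C.anal (Y.x l) 0 (mem_ball_self C.r_pos)).continuousAt
    · exact (C.anal (Y.der k (Y.x l)) 0 (mem_ball_self C.r_pos)).continuousAt
  exact ContinuousAt.comp (g := gdet) (f := fun ζ => frm Y (C.s ζ))
    continuous_gdet.continuousAt h1

lemma continuousAt_wt (Y : XC I n) {y : Y.B →ₐ[ℂ] ℂ} (C : Chart Y.z y) :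
    ContinuousAt (fun ζ => wt Y (C.s ζ)) 0 := by
  unfold wt
  exact ((continuousAt_ns Y C).pow _).div (continuousAt_gr Y C) (gr_pos _).ne'

/-- points exist -/
lemma exists_pt0 (X : XC I n) : Nonempty (X.B →ₐ[ℂ] ℂ) := by
  have := X.ft
  obtain ⟨y, -⟩ := Crest.Agent.R271.Alg255.exists_point (⊥ : Ideal X.B) bot_ne_top
  exact ⟨y⟩

section K

variable {X Y : XC I n} {K : Type} [Field K] [Algebra ℂ K]
  [Algebra X.B K] [IsScalarTower ℂ X.B K] [IsFractionRing X.B K]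
  [Algebra Y.B K] [IsScalarTower ℂ Y.B K] [IsFractionRing Y.B K]

theorem reg_gen (b b' : Module.Basis (Fin n) K (Ω[K⁄ℂ]))
    (hb : ∀ j, b j = KaehlerDifferential.D ℂ K (algebraMap Y.B K (Y.z j)))
    (hb' : ∀ j, b' j = KaehlerDifferential.D ℂ K (algebraMap X.B K (X.z j)))
    {mu lam : K} (hml : mu * lam = 1)
    (hlam : ∀ l, algebraMap X.B K (X.x l) = lam * algebraMap Y.B K (Y.x l))
    (m : ℕ) (j : ℤ) (F : X.B) {y : Y.B →ₐ[ℂ] ℂ} (C : Chart Y.z y)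
    (E : (X.B →ₐ[ℂ] ℂ) → ℝ) (E' : (Y.B →ₐ[ℂ] ℂ) → ℝ) (q0 : Y.B) (hq0 : q0 ≠ 0)
    (hE : ∀ p s, s q0 ≠ 0 → Compat K p s → E p = E' s)
    (hE0 : ∀ s, 0 ≤ E' s) {c1 δ1 : ℝ} (hc1 : 0 < c1) (hδ1 : 0 < δ1)
    (hE' : ∀ ζ ∈ ball (0 : Cn n) δ1, C.s ζ q0 ≠ 0 → c1 ≤ E' (C.s ζ))
    (hfin : lintM X.z (fun p => ENNReal.ofReal
      (‖p F‖ ^ 2 * (wt X p ^ m * ns X p ^ (-j) * E p))) < ∞) :
    ∃ (g : Cn n → ℂ) (ε c2 : ℝ) (a s d : Y.B), 0 < ε ∧ ε ≤ C.r ∧ ε ≤ δ1 ∧ 0 < c2 ∧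
      DifferentiableOn ℂ g (ball 0 ε) ∧ d ≠ 0 ∧ (∀ ζ, C.s ζ d ≠ 0 → C.s ζ q0 ≠ 0) ∧ y s ≠ 0 ∧
      algebraMap X.B K F * ((b.toMatrix b').det ^ m * mu ^ j) * (b.toMatrix b').det *
        algebraMap Y.B K s = algebraMap Y.B K a ∧
      (∀ ζ ∈ ball (0 : Cn n) ε, g ζ * C.s ζ s = C.s ζ a) ∧
      ∫⁻ ζ in ball (0 : Cn n) ε ∩ {ζ | C.s ζ d ≠ 0}, ENNReal.ofReal (‖g ζ‖ ^ 2) *
        ENNReal.ofReal (c2 * E' (C.s ζ)) < ∞ := by
  classical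
  set J : K := (b.toMatrix b').det with hJdef
  set U : K := J ^ m * mu ^ j with hU
  obtain ⟨uU, vU, hvU, hUd⟩ := IsFractionRing.div_surjective (A := Y.B) U
  have hvU0 : vU ≠ 0 := nonZeroDivisors.ne_zero hvU
  obtain ⟨q1, hq1, h1⟩ := exists_loc (K := K) (A := Y.B)
    (Sum.elim (fun i : Fin 5 => ![lam, mu, J, U, mu ^ j] i)
      (Sum.elim (fun k : Fin n × Fin n => b'.toMatrix b k.1 k.2)
        (fun k : Fin n => b'.repr (KaehlerDifferential.D ℂ K lam) k)))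
  obtain ⟨x0⟩ := exists_pt0 X
  obtain ⟨c0, hc0, δ0, hδ0, hlow⟩ := exists_lower
    (ω := fun ζ => wt Y (C.s ζ) ^ m * ns Y (C.s ζ) ^ (-j))
    (((continuousAt_wt Y C).pow m).mul ((continuousAt_ns Y C).zpow₀ (-j) (Or.inl (ns_pos _).ne')))
    (mul_pos (pow_pos (wt_pos _ _) _) (zpow_pos (ns_pos _) _))
  set ε : ℝ := min C.r (min δ0 δ1) with hε
  have hε0 : 0 < ε := lt_min C.r_pos (lt_min hδ0 hδ1)
  have hεr : ε ≤ C.r := min_le_left _ _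
  have hεδ0 : ε ≤ δ0 := (min_le_right _ _).trans (min_le_left _ _)
  have hεδ1 : ε ≤ δ1 := (min_le_right _ _).trans (min_le_right _ _)
  have key : ∀ ζ ∈ ball (0 : Cn n) ε, C.s ζ (q0 * q1 * vU) ≠ 0 → ∀ p : X.B →ₐ[ℂ] ℂ,
      Compat K p (C.s ζ) → (‖C.s ζ uU‖ / ‖C.s ζ vU‖) ^ 2 * (c0 * E' (C.s ζ)) ≤
        wt X p ^ m * ns X p ^ (-j) * E p := by
    intro ζ hζ hne p hp
    rw [map_mul, map_mul] at hne
    have hs0 : C.s ζ q0 ≠ 0 := fun h => hne (by rw [h]; ring)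
    have hs1 : C.s ζ q1 ≠ 0 := fun h => hne (by rw [h]; ring)
    have hsv : C.s ζ vU ≠ 0 := fun h => hne (by rw [h]; ring)
    have hm := h1 (C.s ζ) hs1
    have hl : lam ∈ loc K (C.s ζ) := hm (Sum.inl 0)
    have hmu : mu ∈ loc K (C.s ζ) := hm (Sum.inl 1)
    have hJ : J ∈ loc K (C.s ζ) := hm (Sum.inl 2)
    have hUl : U ∈ loc K (C.s ζ) := hm (Sum.inl 3)
    have hmuj : mu ^ j ∈ loc K (C.s ζ) := hm (Sum.inl 4)
    have hT : ∀ k i, b'.toMatrix b k i ∈ loc K (C.s ζ) := fun k i =>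
      hm (Sum.inr (Sum.inl (k, i)))
    have hμ : ∀ k, b'.repr (KaehlerDifferential.D ℂ K lam) k ∈ loc K (C.s ζ) := fun k =>
      hm (Sum.inr (Sum.inr k))
    have e1 : lv (C.s ζ) (⟨lam, hl⟩ : loc K (C.s ζ)) =
        (lv (C.s ζ) (⟨mu, hmu⟩ : loc K (C.s ζ)))⁻¹ := lv_inv hl hmu (by rw [mul_comm]; exact hml)
    have hmu0 : lv (C.s ζ) (⟨mu, hmu⟩ : loc K (C.s ζ)) ≠ 0 := by
      have h2 : (⟨mu, hmu⟩ : loc K (C.s ζ)) * ⟨lam, hl⟩ = 1 := Subtype.ext hml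
      have h3 := congrArg (lv (C.s ζ)) h2
      rw [map_mul, map_one] at h3
      exact left_ne_zero_of_mul (by rw [h3]; exact one_ne_zero)
    have hl0 : lv (C.s ζ) (⟨lam, hl⟩ : loc K (C.s ζ)) ≠ 0 := by
      rw [e1]; exact inv_ne_zero hmu0
    have e2 := wt_compat b b' hb hb' hp hlam hl hl0 hT hμ hJ
    have e3 := ns_compat hp hlam hl
    have e4 : C.s ζ uU / C.s ζ vU = lv (C.s ζ) (⟨J, hJ⟩ : loc K (C.s ζ)) ^ m *
        lv (C.s ζ) (⟨mu, hmu⟩ : loc K (C.s ζ)) ^ j := by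
      rw [← lv_div hUl hvU0 hsv hUd, ← lv_zpow hmu hl hml j hmuj, ← lv_pow hJ m,
        ← lv_mul (pow_mem hJ m) hmuj]
    set vJ : ℂ := lv (C.s ζ) (⟨J, hJ⟩ : loc K (C.s ζ)) with hvJ
    set vm : ℂ := lv (C.s ζ) (⟨mu, hmu⟩ : loc K (C.s ζ)) with hvm
    have hvm' : 0 < ‖vm‖ := norm_pos_iff.2 hmu0
    have hnsp := ns_pos (C.s ζ) (X := Y)
    rw [← norm_div, e4, norm_mul, norm_pow, norm_zpow, e2, e3, e1, norm_inv, hE p _ hs0 hp]
    have e5 : ((‖vm‖⁻¹) ^ 2 * ns Y (C.s ζ)) ^ (-j) = (‖vm‖ ^ j) ^ 2 * ns Y (C.s ζ) ^ (-j) := by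
      rw [mul_zpow, ← zpow_natCast (‖vm‖ ^ j) 2, ← zpow_mul, ← zpow_natCast (‖vm‖⁻¹) 2,
        ← zpow_mul, inv_zpow, ← zpow_neg]
      congr 2
      push_cast; ring
    rw [e5]
    have h3 := hlow ζ (ball_subset_ball hεδ0 hζ)
    have h4 := hE0 (C.s ζ)
    calc (‖vJ‖ ^ m * ‖vm‖ ^ j) ^ 2 * (c0 * E' (C.s ζ))
        ≤ (‖vJ‖ ^ m * ‖vm‖ ^ j) ^ 2 *
          ((wt Y (C.s ζ) ^ m * ns Y (C.s ζ) ^ (-j)) * E' (C.s ζ)) := by gcongr
      _ = (‖vJ‖ ^ 2 * wt Y (C.s ζ)) ^ m * ((‖vm‖ ^ j) ^ 2 * ns Y (C.s ζ) ^ (-j)) *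
          E' (C.s ζ) := by
        rw [mul_pow (‖vJ‖ ^ 2)]; ring
  obtain ⟨g, a, s, d, r1, r2, r3, r4, r5, r6, r7⟩ := reg_core (K := K) X.ft Y.ft X.z Y.z Y.etale y C
    b b' hb hb' x0 F uU vU (q0 * q1 * vU) hvU0 (mul_ne_zero (mul_ne_zero hq0 hq1) hvU0)
    (fun p => ENNReal.ofReal (wt X p ^ m * ns X p ^ (-j) * E p))
    (fun ζ => ENNReal.ofReal (c0 * E' (C.s ζ))) ε hε0 hεr (ENNReal.ofReal (c0 * c1))
    (by rw [Ne, ENNReal.ofReal_eq_zero, not_le]; positivity)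
    (fun ζ hζ hne => by
      rw [map_mul, map_mul] at hne
      have hs0 : C.s ζ q0 ≠ 0 := fun h => hne (by rw [h]; ring)
      apply ENNReal.ofReal_le_ofReal
      have := hE' ζ (ball_subset_ball hεδ1 hζ) hs0
      gcongr)
    (fun ζ hζ hne p hp => by
      have h5 := key ζ hζ hne p hp
      have h6 := hE0 (C.s ζ)
      rw [← ENNReal.ofReal_mul (by positivity)]
      exact ENNReal.ofReal_le_ofReal h5)
    (by
      refine lt_of_le_of_lt (le_of_eq ?_) hfin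
      congr 1
      funext p
      rw [← ENNReal.ofReal_mul (by positivity)])
  refine ⟨g, ε, c0, a, s, d, hε0, hεr, hεδ1, hc0, r1, r2, ?_, r4, ?_, r6, r7⟩
  · intro ζ h
    have := r3 ζ h
    rw [map_mul, map_mul] at this
    exact fun h0 => this (by rw [h0]; ring)
  · rw [← r5, hUd]

end K

end Crest.Agent.R269.Reg8_241
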