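import Crest.Agent.R269.Reg8_241
import Crest.Agent.R269.DictG2_795
import Crest.Agent.R269.H0tw_795

/-!
Row 269 (S0411), leaf D4/REG, part 9 (helper241): the function field.

* `xc` : the étale chart of 795 as an `XC I n` (243);
* `isFr` : `FnField I` is the fraction field of every chart;
* `wedge_eq` : `dz_1 ∧ … ∧ dz_n = J • dw_1 ∧ … ∧ dw_n`, `J = det (b.toMatrix b')`;
* `alg_of_weight` : algebraicity for the weights of the row.
-/

set_option autoImplicit false
set_option linter.unusedSectionVars false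
set_option linter.style.haveILetI false

open scoped ENNReal NNReal Topology BigOperators
open MeasureTheory Set Metric Filter

noncomputable section

namespace Crest.Agent.R269.Reg9_241

open Crest.AlgGeometry.ProjEmb
open Crest.Agent.R271.Defs710 hiding wt
open Crest.Agent.R271.Bd741 Crest.Agent.R269.Reg4_241
open Crest.Agent.R269.Amp1_243 Crest.Agent.R269.Amp3_243 Crest.Agent.R269.Geo_328
open Crest.Agent.R269.Reg5_241 Crest.Agent.R269.Reg6_241 Crest.Agent.R269.Reg7_241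
open Crest.Agent.R269.Reg8_241
open Crest.Agent.R269.DictA_795 Crest.Agent.R269.DictB_795 Crest.Agent.R269.DictC_795
open Crest.Agent.R269.DictE_795

variable {N n : ℕ} {I : Ideal (HomCoordRing N)} [I.IsPrime]

/-! ### ratios -/

lemma fnRatio_mul {i i' : Fin (N + 1)} (hi : (MvPolynomial.X i : HomCoordRing N) ∉ I)
    (hi' : (MvPolynomial.X i' : HomCoordRing N) ∉ I) (l : Fin (N + 1)) :
    fnRatio I i l = fnRatio I i i' * fnRatio I i' l := by
  apply toConeHom_injective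
  rw [map_mul, toConeHom_fnRatio, toConeHom_fnRatio, toConeHom_fnRatio]
  have h1 := coneHom_X_ne hi
  have h2 := coneHom_X_ne hi'
  field_simp

/-- the chart of 795 as an `XC` -/
def xc (c : CD I n) {q : Fin (N + 1) → ℂ} (h : c.Dom q) (hX : IsSmoothProjective I n) : XC I n where
  B := c.B
  ft := c.B_finiteType
  z := c.zB
  etale := h.etale hX
  i := c.i
  x := c.yB
  x_i := Subtype.ext (fnRatio_self h.not_mem_i)
  j := c.S
  z_eq := fun _ => rfl
  rel := by
    intro F hF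
    apply Subtype.ext
    have h3 : (c.B.val).comp (MvPolynomial.aeval c.yB) = dh I c.i := by
      apply MvPolynomial.algHom_ext; intro j; simp [dh, CD.yB]
    have h4 := congrArg (fun f => f F) h3
    have h5 : dh I c.i F = 0 := dh_eq_zero_of_mem hX.homogeneous h.not_mem_i hF
    rw [h5] at h4
    exact h4

section fr

variable (X : XC I n) (io : X.B →ₐ[ℂ] FnField I)

/-- every element of the function field is a quotient of elements of the chart -/
lemma exists_quot (hx : ∀ l, io (X.x l) = fnRatio I X.i l) (u : FnField I) :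
    ∃ a b : X.B, io b ≠ 0 ∧ u * io b = io a := by
  have hXi : (MvPolynomial.X X.i : HomCoordRing N) ∉ I := by
    intro h
    have h1 := hx X.i
    rw [X.x_i, map_one] at h1
    have h0 : fnRatio I X.i X.i = 0 := by
      apply toConeHom_injective
      rw [toConeHom_fnRatio, coneHom_eq_zero_iff.2 h, div_zero, map_zero]
    rw [h0] at h1
    exact one_ne_zero h1
  refine fnField_induction (P := fun u => ∃ a b : X.B, io b ≠ 0 ∧ u * io b = io a)
    ?_ ?_ ?_ ?_ ?_ u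
  · intro i j
    by_cases hi : (MvPolynomial.X i : HomCoordRing N) ∈ I
    · refine ⟨0, 1, by rw [map_one]; exact one_ne_zero, ?_⟩
      have h0 : fnRatio I i j = 0 := by
        apply toConeHom_injective
        rw [toConeHom_fnRatio, coneHom_eq_zero_iff.2 hi, div_zero, map_zero]
      rw [h0, map_zero, zero_mul]
    · refine ⟨X.x j, X.x i, ?_, ?_⟩
      · rw [hx]
        intro h0
        have h1 := fnRatio_mul hi hXi i
        rw [h0, mul_zero, fnRatio_self hi] at h1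
        exact one_ne_zero h1
      · rw [hx, hx, mul_comm, ← fnRatio_mul hXi hi]
  · intro a
    exact ⟨algebraMap ℂ _ a, 1, by rw [map_one]; exact one_ne_zero, by simp⟩
  · rintro u v ⟨a, b, hb, h⟩ ⟨a', b', hb', h'⟩
    refine ⟨a * b' + a' * b, b * b', by rw [map_mul]; exact mul_ne_zero hb hb', ?_⟩
    rw [map_mul, map_add, map_mul, map_mul, ← h, ← h']; ring
  · rintro u ⟨a, b, hb, h⟩
    by_cases hu : u = 0
    · exact ⟨0, 1, by rw [map_one]; exact one_ne_zero, by simp [hu]⟩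
    · refine ⟨b, a, ?_, ?_⟩
      · rw [← h]; exact mul_ne_zero hu hb
      · rw [← h]; field_simp
  · rintro u v ⟨a, b, hb, h⟩ ⟨a', b', hb', h'⟩
    refine ⟨a * a', b * b', by rw [map_mul]; exact mul_ne_zero hb hb', ?_⟩
    rw [map_mul, map_mul, ← h, ← h']; ring

/-- the function field is the fraction field of the chart -/
theorem isFr (hinj : Function.Injective io) (hx : ∀ l, io (X.x l) = fnRatio I X.i l) :
    letI := io.toRingHom.toAlgebra
    IsFractionRing X.B (FnField I) := by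
  letI := io.toRingHom.toAlgebra
  have : FaithfulSMul X.B (FnField I) := (faithfulSMul_iff_algebraMap_injective _ _).2 hinj
  refine IsFractionRing.of_field X.B (FnField I) fun u => ?_
  obtain ⟨a, b, hb, h⟩ := exists_quot X io hx u
  refine ⟨a, b, ?_⟩
  have h1 : u * algebraMap X.B (FnField I) b = algebraMap X.B (FnField I) a := h
  have h2 : algebraMap X.B (FnField I) b ≠ 0 := hb
  rw [← h1]; field_simp

end fr

/-! ### forms -/

/-- `dz_1 ∧ … ∧ dz_n = J • dw_1 ∧ … ∧ dw_n` -/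
theorem wedge_eq (b b' : Module.Basis (Fin n) (FnField I) (Ω[FnField I⁄ℂ])) (w z : Fin n → FnField I)
    (hb : ∀ j, b j = KaehlerDifferential.D ℂ (FnField I) (w j))
    (hb' : ∀ j, b' j = KaehlerDifferential.D ℂ (FnField I) (z j)) :
    wedgeD I n z = (b.toMatrix b').det • wedgeD I n w := by
  have h1 := alt_det (exteriorPower.ιMulti (FnField I) n)
    (fun s => KaehlerDifferential.D ℂ (FnField I) (w s)) (b.toMatrix b').transpose
  rw [Matrix.det_transpose] at h1
  refine Eq.trans ?_ h1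
  unfold wedgeD
  congr 1
  funext l
  rw [← hb', ← b.sum_toMatrix_smul_self b' l]
  refine Finset.sum_congr rfl fun s _ => ?_
  rw [hb, Matrix.transpose_apply]

/-! ### algebraicity -/

open Crest.Agent.R271.Alg255 (PG oz one_le_oz growthI) in
lemma PG_sq_sum {B : Type} [CommRing B] [Algebra ℂ B] {z : Fin n → B} {ι : Type} [Fintype ι]
    (f : ι → B) (h : ∀ a, PG z (f a)) :
    ∃ (C : ℝ) (M : ℕ), 0 < C ∧ ∀ y : B →ₐ[ℂ] ℂ, ∑ a, ‖y (f a)‖ ^ 2 ≤ C * oz z y ^ M := by
  choose C K hC h using h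
  refine ⟨1 + ∑ a, C a ^ 2, ∑ a, 2 * K a, ?_, fun y => ?_⟩
  · have : 0 ≤ ∑ a, C a ^ 2 := Finset.sum_nonneg fun a _ => sq_nonneg _
    linarith
  · have h1 := one_le_oz z y
    have h2 : ∀ a, ‖y (f a)‖ ^ 2 ≤ C a ^ 2 * oz z y ^ (∑ a, 2 * K a) := by
      intro a
      calc ‖y (f a)‖ ^ 2 ≤ (C a * oz z y ^ K a) ^ 2 := by gcongr; exact h a y
        _ = C a ^ 2 * oz z y ^ (2 * K a) := by rw [mul_pow, ← pow_mul, mul_comm 2]
        _ ≤ C a ^ 2 * oz z y ^ (∑ a, 2 * K a) := by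
            gcongr
            exact Finset.single_le_sum (f := fun a => 2 * K a) (fun _ _ => Nat.zero_le _)
              (Finset.mem_univ a)
    calc ∑ a, ‖y (f a)‖ ^ 2 ≤ ∑ a, C a ^ 2 * oz z y ^ (∑ a, 2 * K a) :=
          Finset.sum_le_sum fun a _ => h2 a
      _ = (∑ a, C a ^ 2) * oz z y ^ (∑ a, 2 * K a) := by rw [Finset.sum_mul]
      _ ≤ (1 + ∑ a, C a ^ 2) * oz z y ^ (∑ a, 2 * K a) := by
          gcongr; linarith

open Crest.Agent.R271.Alg255 (PG oz one_le_oz growthI) in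
/-- growth of finitely many elements of an étale chart -/
theorem exists_growth (X : EC n) {ι : Type} [Fintype ι] (b : ι → X.B) :
    ∃ u : X.B, u ≠ 0 ∧ ∃ (C : ℝ) (M : ℕ), 0 < C ∧ ∀ y : X.B →ₐ[ℂ] ℂ,
      ‖y u‖ ^ 2 * (1 + ∑ a, ‖y (b a)‖ ^ 2) ≤ C * (1 + ∑ i, ‖y (X.z i)‖ ^ 2) ^ M := by
  classical
  have hinj := Crest.Agent.R271.KT661.aeval_injective X.z X.etale
  have halg : ∀ b : X.B, ∃ r : MvPolynomial (Fin n) ℂ, r ≠ 0 ∧
      PG X.z (MvPolynomial.aeval X.z r * b) := by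
    let _ : Algebra (MvPolynomial (Fin n) ℂ) X.B := (Crest.Agent.R271.Alg255.az X.z).toAlgebra
    have : Algebra.Etale (MvPolynomial (Fin n) ℂ) X.B := X.etale
    have h1 := (Crest.Agent.R271.KT661.injective_and_isAlgebraic_of_etale
      (R := MvPolynomial (Fin n) ℂ) (S := X.B)).2
    intro b
    obtain ⟨r, hr, hint⟩ := (h1.isAlgebraic b).exists_integral_multiple
    refine ⟨r, hr, growthI ?_⟩
    obtain ⟨p, hp, hp0⟩ := hint
    exact Crest.Agent.R271.AlgD956.isIntegral_theta (μ := p) hp hp0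
  choose r hr hPG using fun a => halg (b a)
  have hu0 : ∀ a, MvPolynomial.aeval X.z (r a) ≠ 0 := fun a h => hr a (hinj (by
    rw [map_zero]; exact h))
  have hPGu : ∀ s : Finset ι, PG X.z (∏ a ∈ s, MvPolynomial.aeval X.z (r a)) := by
    intro s
    rw [← map_prod]
    exact Crest.Agent.R271.AlgD956.PG_aeval X.z _
  set u : X.B := ∏ a, MvPolynomial.aeval X.z (r a) with hu
  have hPGb : ∀ a, PG X.z (u * b a) := by
    intro a
    have h1 : u * b a = (∏ a' ∈ Finset.univ.erase a, MvPolynomial.aeval X.z (r a')) *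
        (MvPolynomial.aeval X.z (r a) * b a) := by
      rw [hu, ← Finset.prod_erase_mul Finset.univ _ (Finset.mem_univ a), mul_assoc]
    rw [h1]
    exact (hPGu _).mul (hPG a)
  obtain ⟨C, M, hC, h⟩ := PG_sq_sum (z := X.z)
    (fun t : Option ι => Option.elim t u fun a => u * b a) (fun t => by
      cases t with
      | none => exact hPGu _
      | some a => exact hPGb a)
  refine ⟨u, Finset.prod_ne_zero_iff.2 fun a _ => hu0 a, C, M, hC, fun y => ?_⟩
  have h1 := h y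
  rw [Fintype.sum_option] at h1
  simp only [Option.elim, map_mul, norm_mul, mul_pow] at h1
  calc ‖y u‖ ^ 2 * (1 + ∑ a, ‖y (b a)‖ ^ 2)
      = ‖y u‖ ^ 2 + ∑ a, ‖y u‖ ^ 2 * ‖y (b a)‖ ^ 2 := by rw [mul_add, mul_one, Finset.mul_sum]
    _ ≤ _ := h1

/-- the Gram determinant is bounded by a power of the entries -/
lemma gdet_le (A : Matrix (Fin (n + 1)) (Fin (N + 1)) ℂ) :
    gdet A ≤ ((n + 1).factorial : ℝ) * (1 + ∑ a, ∑ l, ‖A a l‖ ^ 2) ^ (n + 1) := by
  set S : ℝ := ∑ a, ∑ l, ‖A a l‖ ^ 2 with hS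
  have hS0 : 0 ≤ S := Finset.sum_nonneg fun _ _ => Finset.sum_nonneg fun _ _ => by positivity
  have hent : ∀ a a', ‖(A * A.conjTranspose) a a'‖ ≤ 1 + S := by
    intro a a'
    rw [Matrix.mul_apply]
    have h1 : ∀ a, ∑ l, ‖A a l‖ ^ 2 ≤ S := fun a =>
      Finset.single_le_sum (f := fun a => ∑ l, ‖A a l‖ ^ 2)
        (fun _ _ => Finset.sum_nonneg fun _ _ => by positivity) (Finset.mem_univ a)
    calc ‖∑ l, A a l * A.conjTranspose l a'‖ ≤ ∑ l, ‖A a l * A.conjTranspose l a'‖ :=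
          norm_sum_le _ _
      _ ≤ ∑ l, (‖A a l‖ ^ 2 + ‖A a' l‖ ^ 2) / 2 := by
          refine Finset.sum_le_sum fun l _ => ?_
          rw [norm_mul, Matrix.conjTranspose_apply, norm_star]
          nlinarith [sq_nonneg (‖A a l‖ - ‖A a' l‖)]
      _ = ((∑ l, ‖A a l‖ ^ 2) + ∑ l, ‖A a' l‖ ^ 2) / 2 := by
          rw [← Finset.sum_div, Finset.sum_add_distrib]
      _ ≤ 1 + S := by have := h1 a; have := h1 a'; linarith
  unfold gdet
  calc ((A * A.conjTranspose).det).re ≤ ‖(A * A.conjTranspose).det‖ := Complex.re_le_norm _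
    _ ≤ ∑ σ : Equiv.Perm (Fin (n + 1)), (1 + S) ^ (n + 1) := by
        rw [Matrix.det_apply']
        refine (norm_sum_le _ _).trans (Finset.sum_le_sum fun σ _ => ?_)
        rw [norm_mul, norm_prod]
        have h2 : ‖(((Equiv.Perm.sign σ : ℤˣ) : ℤ) : ℂ)‖ = 1 := by
          rcases Int.units_eq_one_or (Equiv.Perm.sign σ) with h | h <;> simp [h]
        rw [h2, one_mul]
        calc ∏ i, ‖(A * A.conjTranspose) (σ i) i‖ ≤ ∏ _i : Fin (n + 1), (1 + S) :=
              Finset.prod_le_prod (fun _ _ => norm_nonneg _) fun i _ => hent _ _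
          _ = (1 + S) ^ (n + 1) := by simp
    _ = _ := by
        rw [Finset.sum_const, Finset.card_univ, Fintype.card_perm, Fintype.card_fin, nsmul_eq_mul]

/-- **algebraicity** for the weights of the row -/
theorem alg_of_weight (X : XC I n) {F : (X.B →ₐ[ℂ] ℂ) → ℂ} (hF : Crest.Agent.R271.Ho51.Hol F)
    (m : ℕ) (j : ℤ)
    (hint : lintM X.z (fun y => ENNReal.ofReal (‖F y‖ ^ 2 * (wt X y ^ m * ns X y ^ (-j)))) < ∞) :
    ∃ b : X.B, ∀ y : X.B →ₐ[ℂ] ℂ, F y = y b := by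
  obtain ⟨u, hu, C, M, hC, hgr⟩ := exists_growth X.toEC
    (fun t : Fin (n + 1) × Fin (N + 1) => Fin.cases (X.x t.2) (fun k => X.der k (X.x t.2)) t.1)
  set S : (X.B →ₐ[ℂ] ℂ) → ℝ := fun y => 1 + ∑ a, ∑ l, ‖frm X y a l‖ ^ 2 with hS
  have hSeq : ∀ y, S y = 1 + ∑ t : Fin (n + 1) × Fin (N + 1),
      ‖y (Fin.cases (X.x t.2) (fun k => X.der k (X.x t.2)) t.1 : X.B)‖ ^ 2 := by
    intro y
    simp only [hS]
    rw [Fintype.sum_prod_type]
    congr 1
    refine Finset.sum_congr rfl fun a _ => Finset.sum_congr rfl fun l _ => ?_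
    refine Fin.cases ?_ (fun k => ?_) a <;> rfl
  have hS1 : ∀ y, 1 ≤ S y := fun y => by
    simp only [hS]
    have : 0 ≤ ∑ a, ∑ l, ‖frm X y a l‖ ^ 2 :=
      Finset.sum_nonneg fun _ _ => Finset.sum_nonneg fun _ _ => by positivity
    linarith
  have hnsS : ∀ y, ns X y ≤ S y := by
    intro y
    have h1 : ns X y = ∑ l, ‖frm X y 0 l‖ ^ 2 := rfl
    have h2 : ∑ l, ‖frm X y 0 l‖ ^ 2 ≤ ∑ a, ∑ l, ‖frm X y a l‖ ^ 2 :=
      Finset.single_le_sum (f := fun a => ∑ l, ‖frm X y a l‖ ^ 2)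
        (fun _ _ => Finset.sum_nonneg fun _ _ => by positivity) (Finset.mem_univ 0)
    simp only [hS]
    linarith
  -- lower bound of the weight
  set c : ℝ := (((n + 1).factorial : ℝ) ^ m)⁻¹ with hc
  have hc0 : 0 < c := by positivity
  set L : ℕ := (n + 1) * m + j.natAbs with hL
  have hlow : ∀ y, c * (S y ^ L)⁻¹ ≤ wt X y ^ m * ns X y ^ (-j) := by
    intro y
    have h1 := one_le_ns (X := X) y
    have h2 := hS1 y
    have h3 := gdet_le (frm X y)
    have h4 := gr_pos (X := X) y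
    have h5 : (((n + 1).factorial : ℝ) * S y ^ (n + 1))⁻¹ ≤ wt X y := by
      unfold Reg7_241.wt
      rw [inv_eq_one_div]
      exact div_le_div₀ (pow_nonneg (ns_pos _).le _) (one_le_pow₀ h1) h4 h3
    have h6 : (S y ^ j.natAbs)⁻¹ ≤ ns X y ^ (-j) := by
      have h7 : ns X y ^ j.natAbs ≤ S y ^ j.natAbs := pow_le_pow_left₀ (ns_pos _).le (hnsS y) _
      rcases le_total 0 j with hj | hj
      · have e : (-j) = -((j.natAbs : ℕ) : ℤ) := by omega
        rw [e, zpow_neg, zpow_natCast]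
        exact inv_anti₀ (pow_pos (ns_pos _) _) h7
      · have e : (-j) = ((j.natAbs : ℕ) : ℤ) := by omega
        rw [e, zpow_natCast]
        exact (inv_le_one_of_one_le₀ (one_le_pow₀ h2)).trans (one_le_pow₀ h1)
    calc c * (S y ^ L)⁻¹ = ((((n + 1).factorial : ℝ) * S y ^ (n + 1))⁻¹) ^ m *
          (S y ^ j.natAbs)⁻¹ := by
          rw [hc, hL, pow_add, pow_mul, inv_pow, mul_pow, mul_inv, mul_inv, mul_assoc]
      _ ≤ _ := by
          have h7 : 0 < S y := by linarith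
          have h8 : 0 < ((n + 1).factorial : ℝ) := by positivity
          refine mul_le_mul (pow_le_pow_left₀ (by positivity) h5 m) h6 (by positivity)
            (pow_nonneg (wt_pos X y).le _)
  refine Amp1_243.algebraic (X := X.toEC) hF hu L (M * L) ?_
  have hbd : ∀ y : X.B →ₐ[ℂ] ℂ, ‖F y‖ ^ 2 * ‖y u‖ ^ (2 * L) /
      (1 + ∑ i, ‖y (X.z i)‖ ^ 2) ^ (M * L) ≤
      (C ^ L * c⁻¹) * (‖F y‖ ^ 2 * (wt X y ^ m * ns X y ^ (-j))) := by
    intro y
    have h1 := hlow y
    have h2 := hgr y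
    rw [← hSeq] at h2
    have h3 : 0 < S y := lt_of_lt_of_le one_pos (hS1 y)
    have h4 : 0 < 1 + ∑ i, ‖y (X.z i)‖ ^ 2 := by
      have : 0 ≤ ∑ i, ‖y (X.z i)‖ ^ 2 := Finset.sum_nonneg fun _ _ => by positivity
      linarith
    have h5 : ‖y u‖ ^ (2 * L) / (1 + ∑ i, ‖y (X.z i)‖ ^ 2) ^ (M * L) ≤ C ^ L * (S y ^ L)⁻¹ := by
      rw [div_le_iff₀ (by positivity), mul_assoc, mul_comm (S y ^ L)⁻¹, ← mul_assoc,
        ← div_eq_mul_inv, le_div_iff₀ (by positivity)]
      calc ‖y u‖ ^ (2 * L) * S y ^ L = (‖y u‖ ^ 2 * S y) ^ L := by rw [mul_pow, pow_mul]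
        _ ≤ (C * (1 + ∑ i, ‖y (X.z i)‖ ^ 2) ^ M) ^ L := by gcongr
        _ = _ := by rw [mul_pow, ← pow_mul]
    calc ‖F y‖ ^ 2 * ‖y u‖ ^ (2 * L) / (1 + ∑ i, ‖y (X.z i)‖ ^ 2) ^ (M * L)
        = ‖F y‖ ^ 2 * (‖y u‖ ^ (2 * L) / (1 + ∑ i, ‖y (X.z i)‖ ^ 2) ^ (M * L)) := by
          rw [mul_div_assoc]
      _ ≤ ‖F y‖ ^ 2 * (C ^ L * (S y ^ L)⁻¹) := by gcongr
      _ = (C ^ L * c⁻¹) * (‖F y‖ ^ 2 * (c * (S y ^ L)⁻¹)) := by field_simp
      _ ≤ _ := by gcongr
  have hmono : lintM X.z (fun y => ENNReal.ofReal (‖F y‖ ^ 2 * ‖y u‖ ^ (2 * L) /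
      (1 + ∑ i, ‖y (X.z i)‖ ^ 2) ^ (M * L))) ≤
      ENNReal.ofReal (C ^ L * c⁻¹) *
        lintM X.z (fun y => ENNReal.ofReal (‖F y‖ ^ 2 * (wt X y ^ m * ns X y ^ (-j)))) := by
    unfold lintM
    rw [← lintegral_const_mul' _ _ ENNReal.ofReal_ne_top]
    refine lintegral_mono fun ζ => ?_
    simp only
    rw [← ENNReal.tsum_mul_left]
    refine ENNReal.tsum_le_tsum fun y => ?_
    rw [← ENNReal.ofReal_mul (by positivity : (0 : ℝ) ≤ C ^ L * c⁻¹)]
    exact ENNReal.ofReal_le_ofReal (hbd y.1)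
  exact lt_of_le_of_lt hmono (ENNReal.mul_lt_top ENNReal.ofReal_lt_top hint)

end Crest.Agent.R269.Reg9_241
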