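import Crest.Agent.R269.GlueJ_390

/-!
# R269 (S0411), leaf L8 (helper390): THEOREM REG (Part 9), `regStmt : RegStmt`
-/

set_option autoImplicit false
set_option linter.unusedSectionVars false

open MeasureTheory Set Metric Filter Topology Module
open scoped ContDiff Pointwise NNReal Matrix ComplexConjugate ComplexOrder

namespace Crest.Agent.R269.RegProof_390

open Crest.Agent.R275.Geo Crest.Agent.R275.Core144 Crest.Agent.R275.EDR890
open Crest.Agent.R273.Kah_333 Crest.Agent.R273.Vol_333 Crest.Agent.R275.C1d194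
open Crest.Agent.R273.C0d_390 Crest.Agent.R269.GlueB_390 Crest.Agent.R269.GlueC_390
open Crest.Agent.R269.GlueD_390 Crest.Agent.R269.GlueE_390 Crest.Agent.R269.GlueF_390
open Crest.Agent.R269.GlueG_390 Crest.Agent.R269.GlueH_390 Crest.Agent.R269.GlueI_390
open Crest.Agent.R269.GlueJ_390 Crest.Agent.R269.RegStmt_848

noncomputable section

variable {n : ℕ} {M : Type} [TopologicalSpace M] {A : Atl n M}
variable [MeasurableSpace M] [BorelSpace M] {μ : Measure M} [IsFiniteMeasure μ]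
variable (P : Part A) {K : Kah A} {γ : Pot A} (D : ∀ i, Loc A K γ μ i) {s δ c e τ : ℝ}
variable [Fintype A.ι]

/-- the determinant inequality of the glued function -/
theorem ma_glue [NeZero n] (hc : 0 ≤ c) (H : Weak K γ c μ) (hs : 0 < s) (hδ : 0 < δ)
    (hcmp : Cmp P D s δ) {C : A.ι → ℝ} (hC0 : ∀ k, 0 ≤ C k)
    (hC : ∀ k, ∀ z ∈ A.e k '' tsupport (P.χ k), P.χ k ((A.e k).symm z) ≠ 0 → ∀ v,
      -(C k * om K k z v) ≤ P.χ k ((A.e k).symm z) ^ 2 *
        lv (fun y => Real.log (P.χ k ((A.e k).symm y) ^ 2)) z v)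
    (hτ0 : 0 < τ) (hτ1 : τ < 1)
    (hdg : ∀ k, ∀ z ∈ A.e k '' tsupport (P.χ k), ∀ t ∈ closedBall z δ,
      (1 - τ) ^ n * dg K k z ≤ dg K k t)
    (hZ : ∀ k, ∀ z ∈ A.e k '' tsupport (P.χ k), closedBall z δ ⊆ (D k).Z)
    {i : A.ι} {z0 : Cn n} (hz0 : z0 ∈ (A.e i).target) (b : Matrix (Fin n) (Fin n) ℂ) :
    n * c * ((1 - τ) * (‖b.det‖ ^ 2 * dg K i z0) ^ ((1 : ℝ) / n))
      - 3 / 4 * s * (∑ k, C k) * ∑ k, om K i z0 (col b k)
      ≤ trb (fun y => γ.w i y + phi P D s δ ((A.e i).symm y)) z0 b := by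
  set x0 := (A.e i).symm z0 with hx0
  have hn : (n : ℝ) ≠ 0 := Nat.cast_ne_zero.2 (NeZero.ne n)
  have h1 : ∀ k, _ := fun k => core P D hs hcmp hC0 hC hz0 (col b k)
  have h2 : ∑ k, ((∑ l ∈ act P x0, pk P D s δ l x0 * lv (moll (D l).f δ) (TT A i l z0)
      (fderiv ℂ (TT A i l) z0 (col b k))) - 3 * s * (∑ l, C l) * om K i z0 (col b k)) / 4
      ≤ trb (fun y => γ.w i y + phi P D s δ ((A.e i).symm y)) z0 b := by
    unfold trb
    refine Finset.sum_le_sum fun k _ => ?_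
    have := h1 k
    linarith
  refine le_trans ?_ h2
  have e1 : ∑ k, ((∑ l ∈ act P x0, pk P D s δ l x0 * lv (moll (D l).f δ) (TT A i l z0)
      (fderiv ℂ (TT A i l) z0 (col b k))) - 3 * s * (∑ l, C l) * om K i z0 (col b k)) / 4
      = (∑ l ∈ act P x0, pk P D s δ l x0 *
          trb (moll (D l).f δ) (TT A i l z0) (Jm A i l x0 * b))
        - 3 / 4 * s * (∑ l, C l) * ∑ k, om K i z0 (col b k) := by
    have e2 : ∀ k, ((∑ l ∈ act P x0, pk P D s δ l x0 * lv (moll (D l).f δ) (TT A i l z0)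
        (fderiv ℂ (TT A i l) z0 (col b k))) - 3 * s * (∑ l, C l) * om K i z0 (col b k)) / 4
        = (∑ l ∈ act P x0, pk P D s δ l x0 * (lv (moll (D l).f δ) (TT A i l z0)
          (col (Jm A i l x0 * b) k) / 4)) - 3 / 4 * s * (∑ l, C l) * om K i z0 (col b k) := by
      intro k
      rw [sub_div, Finset.sum_div]
      congr 1
      · refine Finset.sum_congr rfl fun l _ => ?_
        rw [fderiv_TT_col hz0]
        ring
      · ring
    simp only [e2]
    rw [Finset.sum_sub_distrib, ← Finset.mul_sum, Finset.sum_comm]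
    congr 1
    refine Finset.sum_congr rfl fun l _ => ?_
    unfold trb
    rw [Finset.mul_sum]
  rw [e1]
  refine sub_le_sub_right ?_ _
  -- each active chart
  have h3 : ∀ l ∈ act P x0, n * c * ((1 - τ) * (‖b.det‖ ^ 2 * dg K i z0) ^ ((1 : ℝ) / n))
      ≤ trb (moll (D l).f δ) (TT A i l z0) (Jm A i l x0 * b) := by
    intro l hl
    have hχ := (mem_act P).1 hl
    have hxt : x0 ∈ tsupport (P.χ l) := subset_tsupport _ hχ
    have hzo : z0 ∈ A.ov i l := ⟨hz0, P.χ_sub l hxt⟩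
    have hyX : TT A i l z0 ∈ A.e l '' tsupport (P.χ l) := ⟨x0, hxt, rfl⟩
    have hdp : 0 < dg K l (TT A i l z0) := dg_pos K (TT_mem hzo).1
    have h4 := (D l).ma hc H hδ (hZ l _ hyX)
      (mul_nonneg (pow_nonneg (by linarith) n) hdp.le) (hdg l _ hyX) (Jm A i l x0 * b)
    refine le_trans (le_of_eq ?_) h4
    congr 1
    have e3 : ‖(Jm A i l x0 * b).det‖ ^ 2 * ((1 - τ) ^ n * dg K l (TT A i l z0))
        = (1 - τ) ^ n * (‖b.det‖ ^ 2 * dg K i z0) := by
      rw [dg_tr K hzo, Matrix.det_mul, norm_mul]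
      ring
    rw [e3, Real.mul_rpow (pow_nonneg (by linarith) n)
      (mul_nonneg (by positivity) (dg_pos K hz0).le)]
    congr 1
    rw [one_div, Real.pow_rpow_inv_natCast (by linarith) (NeZero.ne n)]
  calc n * c * ((1 - τ) * (‖b.det‖ ^ 2 * dg K i z0) ^ ((1 : ℝ) / n))
      = ∑ l ∈ act P x0, pk P D s δ l x0 *
          (n * c * ((1 - τ) * (‖b.det‖ ^ 2 * dg K i z0) ^ ((1 : ℝ) / n))) := by
        rw [← Finset.sum_mul, sum_pk, one_mul]
    _ ≤ _ := Finset.sum_le_sum fun l hl =>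
        mul_le_mul_of_nonneg_left (h3 l hl) (pk_nonneg P D s δ l x0)

/-- positivity of the glued form -/
theorem pos_glue [NeZero n] (hc : 0 ≤ c) (H : Weak K γ c μ) (hs : 0 < s) (hδ : 0 < δ)
    (hcmp : Cmp P D s δ) {C : A.ι → ℝ} (hC0 : ∀ k, 0 ≤ C k)
    (hC : ∀ k, ∀ z ∈ A.e k '' tsupport (P.χ k), P.χ k ((A.e k).symm z) ≠ 0 → ∀ v,
      -(C k * om K k z v) ≤ P.χ k ((A.e k).symm z) ^ 2 *
        lv (fun y => Real.log (P.χ k ((A.e k).symm y) ^ 2)) z v)
    (hZ : ∀ k, ∀ z ∈ A.e k '' tsupport (P.χ k), closedBall z δ ⊆ (D k).Z)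
    {i : A.ι} {z0 : Cn n} (hz0 : z0 ∈ (A.e i).target) (v : Cn n) :
    -(3 * s * (∑ k, C k) * om K i z0 v)
      ≤ lv (fun y => γ.w i y + phi P D s δ ((A.e i).symm y)) z0 v := by
  have h1 := core P D hs hcmp hC0 hC hz0 v
  have h2 : 0 ≤ ∑ k ∈ act P ((A.e i).symm z0), pk P D s δ k ((A.e i).symm z0) *
      lv (moll (D k).f δ) (TT A i k z0) (fderiv ℂ (TT A i k) z0 v) := by
    refine Finset.sum_nonneg fun k hk => mul_nonneg (pk_nonneg P D s δ k _) ?_
    have hχ := (mem_act P).1 hk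
    have hyX : TT A i k z0 ∈ A.e k '' tsupport (P.χ k) := ⟨_, subset_tsupport _ hχ, rfl⟩
    exact (D k).lv_nonneg hc H hδ (hZ k _ hyX) _
  linarith

/-- **THEOREM REG** -/
theorem regStmt : RegStmt := by
  intro n _ M _ _ _ _ _ A _ hP K γ c hc μ _ H e he
  obtain ⟨P⟩ := hP
  have : Fintype A.ι := Fintype.ofFinite A.ι
  have hXc : ∀ k, IsCompact (A.e k '' tsupport (P.χ k)) := fun k =>
    (P.χ_cpt k).image_of_continuousOn ((A.e k).continuousOn.mono (P.χ_sub k))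
  have hXt : ∀ k, A.e k '' tsupport (P.χ k) ⊆ (A.e k).target := by
    rintro k _ ⟨x, hx, rfl⟩
    exact (A.e k).map_source (P.χ_sub k hx)
  have hD : ∀ k, ∃ D : Loc A K γ μ k, A.e k '' tsupport (P.χ k) ⊆ interior D.Z := by
    intro k
    obtain ⟨Z, hZ, hXZ, hZt⟩ := exists_compact_between (hXc k) (A.e k).open_target (hXt k)
    obtain ⟨D, hD⟩ := exists_loc hc H k hZ hZt
    exact ⟨D, by rw [hD]; exact hXZ⟩
  choose D hDZ using hD
  have hCk : ∀ k, ∃ C : ℝ, 0 ≤ C ∧ ∀ z ∈ A.e k '' tsupport (P.χ k),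
      P.χ k ((A.e k).symm z) ≠ 0 → ∀ v, -(C * om K k z v) ≤ P.χ k ((A.e k).symm z) ^ 2 *
        lv (fun y => Real.log (P.χ k ((A.e k).symm y) ^ 2)) z v := fun k =>
    cut_bound K k (θ := fun y => P.χ k ((A.e k).symm y)) (hXc k) (hXt k) fun z hz =>
      ((P.χ_sm k k).contDiffAt ((A.e k).open_target.mem_nhds (hXt k hz))).of_le two_le_inf
  choose C hC0 hC using hCk
  set Ct := ∑ k, C k with hCt
  have hCt0 : 0 ≤ Ct := Finset.sum_nonneg fun k _ => hC0 k
  set s := e / (Ct + 1) with hs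
  have hs0 : 0 < s := div_pos he (by linarith)
  have hsC : s * Ct ≤ e := by
    rw [hs, div_mul_eq_mul_div, div_le_iff₀ (by linarith)]
    nlinarith
  set τ := min (1 / 2) (e / (c + 1)) with hτ
  have hτ0 : 0 < τ := lt_min (by norm_num) (div_pos he (by linarith))
  have hτ1 : τ < 1 := lt_of_le_of_lt (min_le_left _ _) (by norm_num)
  have hcτ : c * τ ≤ e := by
    have h1 : τ ≤ e / (c + 1) := min_le_right _ _
    have h2 : c * τ ≤ c * (e / (c + 1)) := mul_le_mul_of_nonneg_left h1 hc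
    refine h2.trans ?_
    rw [mul_div_assoc', div_le_iff₀ (by linarith)]
    nlinarith
  have hq : (1 - τ) ^ n < 1 := pow_lt_one₀ (by linarith) (by linarith) (NeZero.ne n)
  -- choice of `δ`
  have hE1 : ∀ᶠ δ in 𝓝[>] (0 : ℝ), Cmp P D s δ := by
    unfold Cmp
    rw [eventually_all]
    intro k
    rw [eventually_all]
    intro l
    refine cmp_unif hc H (D k) (D l) ?_ ?_ ?_ ?_ ?_ hs0
    · exact (P.χ_cpt k).inter_right (isClosed_tsupport _)
    · exact inter_subset_left.trans (P.χ_sub k)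
    · exact inter_subset_right.trans (P.χ_sub l)
    · exact (image_mono inter_subset_left).trans (hDZ k)
    · exact (image_mono inter_subset_right).trans (hDZ l)
  have hE2 : ∀ᶠ δ in 𝓝[>] (0 : ℝ), ∀ k, ∀ z ∈ A.e k '' tsupport (P.χ k), ∀ t ∈ closedBall z δ,
      (1 - τ) ^ n * dg K k z ≤ dg K k t := by
    rw [eventually_all]
    exact fun k => dg_unif K k (hXc k) (hXt k) hq
  have hE3 : ∀ᶠ δ in 𝓝[>] (0 : ℝ), ∀ k, ∀ z ∈ A.e k '' tsupport (P.χ k),
      closedBall z δ ⊆ (D k).Z := by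
    rw [eventually_all]
    intro k
    obtain ⟨r, hr, hrs⟩ := (hXc k).exists_cthickening_subset_open isOpen_interior (hDZ k)
    have h1 : ∀ᶠ δ in 𝓝[>] (0 : ℝ), δ < r := nhdsWithin_le_nhds (gt_mem_nhds hr)
    filter_upwards [h1] with δ hδ z hz
    exact (closedBall_subset_cthickening hz δ).trans ((cthickening_mono hδ.le _).trans
      (hrs.trans interior_subset))
  have hE4 : ∀ᶠ δ in 𝓝[>] (0 : ℝ), 0 < δ := self_mem_nhdsWithin
  obtain ⟨δ, hcmp, hdg, hZ, hδ⟩ := (hE1.and (hE2.and (hE3.and hE4))).exists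
  refine ⟨phi P D s δ, phi_sm P D s δ, ?_, ?_⟩
  · intro i z0 hz0 b
    have h1 := ma_glue P D hc H hs0 hδ hcmp hC0 hC hτ0 hτ1 hdg hZ hz0 b
    set X := (‖b.det‖ ^ 2 * dg K i z0) ^ ((1 : ℝ) / n) with hX
    have hX0 : 0 ≤ X := Real.rpow_nonneg (mul_nonneg (by positivity) (dg_pos K hz0).le) _
    have hO : 0 ≤ ∑ k, om K i z0 (col b k) := Finset.sum_nonneg fun k _ => om_nonneg K hz0 _
    have h2 : (n : ℝ) * (c - e) * X ≤ n * c * ((1 - τ) * X) := by
      have h3 : 0 ≤ (n : ℝ) * X := by positivity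
      nlinarith [mul_le_mul_of_nonneg_left hcτ h3]
    have h4 : 3 / 4 * s * Ct * ∑ k, om K i z0 (col b k) ≤ e * ∑ k, om K i z0 (col b k) := by
      refine mul_le_mul_of_nonneg_right ?_ hO
      have : 0 ≤ s * Ct := by positivity
      linarith
    linarith
  · intro i z0 hz0 v hv
    have h1 := pos_glue P D hc H hs0 hδ hcmp hC0 hC hZ hz0 v
    have hO : 0 < om K i z0 v := om_pos K hz0 hv
    have h2 : 3 * s * Ct * om K i z0 v ≤ 3 * e * om K i z0 v := by
      refine mul_le_mul_of_nonneg_right ?_ hO.le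
      linarith
    nlinarith [mul_pos he hO]

end

end Crest.Agent.R269.RegProof_390
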