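import Mathlib
import Crest.Agent.R269.Ker3_430
import Crest.Agent.R269.Bd_402
import Crest.Agent.R269.GeoW_936
import Crest.Agent.R269.WoldC_248

/-!
# R269 (S0411), LINE B: the reproducing property (M4) from the weighted Wold decomposition (helper430)

`krep` : for the frame `V_i` of `wold_weighted` (weight `G t = Gop Pi a (Hs t)`, module `MM Y H`),
`Ker3_430.KRep I Y (Qf Pi a Y) (H z) (fun i => hor (ext (V i) z) (H z))` for every `z` in the disc.
-/

set_option autoImplicit false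

open MvPolynomial Crest.AlgGeometry.ProjEmb Crest.Agent.R269.Geo_328 Crest.Agent.R269.DefsS_731
open Crest.Agent.R269.Fib_402 Crest.Agent.R269.Hardy_142 Crest.Agent.R269.Mod_402
open Crest.Agent.R269.Bd_402 Crest.Agent.R269.Defs_58
open MeasureTheory Filter Metric Set
open scoped Topology ComplexConjugate ENNReal InnerProductSpace

namespace Crest.Agent.R269.Rep_430

noncomputable section

variable {N n : ℕ} {I : Ideal (HomCoordRing N)} {H : ℂ → EE N} {Hs : TT → EE N}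

theorem wE_eq_wdg (V p : EE N) : (fun i j => wE V p (i, j)) = wdg V p := rfl

theorem wdg_of_wE {V W p : EE N} (h : wE V p = wE W p) : wdg V p = wdg W p := by
  rw [← wE_eq_wdg, ← wE_eq_wdg, h]

/-- constant coefficients: the boundary function of `z ↦ (∑ c_j X_j(H z)) ∧ H z` -/
theorem bdy_const (h : BD I H Hs) (Y : Flds I) (c : Fin Y.M → ℂ)
    {f : Lp (FF N) 2 mu} (hf : Bdy (VQ Y H (fun j => Polynomial.C (c j))) f) :
    ∀ᵐ t ∂mu, f t = wE (∑ j, c j • Y.at j (Hs t)) (Hs t) := by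
  have hf2 : IsH2 (f : TT → FF N) := mem_HH.mp hf.1
  obtain ⟨s, hs, hs1, hs2⟩ := common_seq3 h.h2 hf2 hf2
  filter_upwards [hs2] with t ht
  have hlt : ∀ j, ‖((s j : ℝ) : ℂ) * zt t‖ < 1 := by
    intro j
    rw [norm_mul, norm_zt, mul_one, Complex.norm_real, Real.norm_eq_abs,
      abs_of_nonneg (hs j).1.le]
    exact (hs j).2
  have h2 : Tendsto (fun j => H (s j * zt t)) atTop (𝓝 (Hs t)) := by
    have h3 : Tendsto (fun j => WithLp.ofLp (Hardy_142.ext (fun t => toH (Hs t)) (s j * zt t)))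
        atTop (𝓝 (WithLp.ofLp (toH (Hs t)))) :=
      ((EuclideanSpace.equiv (Fin (N + 1)) ℂ).continuous.tendsto (toH (Hs t))).comp ht.1
    refine h3.congr fun j => ?_
    rw [h.ext_eq _ (hlt j)]
    rfl
  have h4 : Tendsto (fun j => wE (∑ l, c l • Y.at l (H (s j * zt t))) (H (s j * zt t))) atTop
      (𝓝 (wE (∑ l, c l • Y.at l (Hs t)) (Hs t))) := by
    refine tendsto_wE ?_ h2
    refine tendsto_finsetSum _ fun l _ => ?_
    exact (((at_continuous Y l).tendsto (Hs t)).comp h2).const_smul (c l)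
  refine tendsto_nhds_unique ht.2.1 (h4.congr fun j => ?_)
  rw [hf.2 _ (hlt j)]
  show _ = wE (Y.var (fun j => Polynomial.C (c j)) _ _) _
  unfold Flds.var
  simp only [Polynomial.eval_C]

/-- **(M4)** the reproducing property at every point of the disc -/
theorem krep (hI : I.IsPrime) (hX : IsSmoothProjective I n) {Pi a : EE N → VV N}
    (hPi : GeoH_936.PiData I Pi) (ha : PosField I n a) (Y : Flds I) (hH : IsDisc I H)
    (h1 : ∀ z ∈ ball (0 : ℂ) 1, nsq (H z) ≤ 1) (h : BD I H Hs)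
    {m : ℕ} {V : Fin m → Lp (FF N) 2 mu} (hVM : ∀ i, V i ∈ MM Y H)
    {G : TT → FF N →L[ℂ] FF N} (hG : ∀ᵐ t ∂mu, G t = GeoW_936.Gop Pi a (Hs t))
    (hw : ∀ f ∈ MM Y H, (∀ i, IsH2 fun t => ⟪V i t, G t (f t)⟫_ℂ) ∧
      (∀ᵐ t ∂mu, ∑ i, ‖⟪V i t, G t (f t)⟫_ℂ‖ ^ 2 = (⟪f t, G t (f t)⟫_ℂ).re) ∧
      ∀ w : ℂ, ‖w‖ < 1 → ext f w = ∑ i, ext (fun t => ⟪V i t, G t (f t)⟫_ℂ) w • ext (V i) w)
    {z : ℂ} (hz : z ∈ ball (0 : ℂ) 1) :
    Ker3_430.KRep I Y (GeoQ_936.Qf Pi a Y) (H z)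
      (fun i => hor (ext (V i : TT → FF N) z) (H z)) := by
  have hz1 : ‖z‖ < 1 := mem_ball_zero_iff.mp hz
  refine ⟨TT, inferInstance, pmT z, isProb_pmT hz1, Hs, integrable_pmT hz1 h.integrable, ?_,
    h.integral_pmT_eq hz1, fun c => ?_⟩
  · exact ae_pmT z (by filter_upwards [h.cone, h.nsq_eq] with t k1 k2 using ⟨k1, k2⟩)
  obtain ⟨f, hf⟩ := exists_bdy Y hH h1 (fun j => Polynomial.C (c j))
  have hfM : f ∈ MM Y H := (M0 Y H).le_topologicalClosure ⟨_, hf⟩
  obtain ⟨k1, k2, k3⟩ := hw f hfM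
  refine ⟨fun i => ext (fun t => ⟪V i t, G t (f t)⟫_ℂ) z, ?_, ?_⟩
  · have e1 : ext (f : TT → FF N) z = wE (∑ j, c j • Y.at j (H z)) (H z) := by
      rw [hf.2 z hz1]
      show wE (Y.var (fun j => Polynomial.C (c j)) _ _) _ = _
      unfold Flds.var
      simp only [Polynomial.eval_C]
    have e2 : ∀ i, wE (hor (ext (V i : TT → FF N) z) (H z)) (H z) = ext (V i : TT → FF N) z :=
      fun i => ((mem_Fib hX (hH.cone z hz)).mp (ext_mem_Fib hH (hVM i) hz1)).2
    have e3 := k3 z hz1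
    rw [e1] at e3
    rw [← wE_eq_wdg (∑ j, c j • Y.at j (H z)), e3]
    ext i j
    simp only [Finset.sum_apply, _root_.Pi.smul_apply, smul_eq_mul, ← wE_eq_wdg, e2]
    simp only [WithLp.ofLp_sum, WithLp.ofLp_smul, Finset.sum_apply, _root_.Pi.smul_apply, smul_eq_mul]
  · have hi : ∀ i, Integrable (fun t => ‖⟪V i t, G t (f t)⟫_ℂ‖ ^ 2) mu := fun i =>
      norm_sq_integrable (k1 i).memLp
    have e1 : ∀ i, ‖ext (fun t => ⟪V i t, G t (f t)⟫_ℂ) z‖ ^ 2
        ≤ ∫ t, pk z t * ‖⟪V i t, G t (f t)⟫_ℂ‖ ^ 2 ∂mu := fun i => (k1 i).norm_sq_ext_le hz1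
    refine (Finset.sum_le_sum fun i _ => e1 i).trans (le_of_eq ?_)
    have hi2 : ∀ i, Integrable (fun t => pk z t * ‖⟪V i t, G t (f t)⟫_ℂ‖ ^ 2) mu := fun i => by
      have := pk_smul_integrable (hi i) hz1
      simpa only [smul_eq_mul] using this
    rw [← integral_finsetSum _ (fun i _ => hi2 i), integral_pmT hz1]
    refine integral_congr_ae ?_
    filter_upwards [k2, hG, bdy_const h Y c hf, h.cone] with t t1 t2 t3 t4
    rw [← Finset.mul_sum, t1, smul_eq_mul, GeoW_936.Qf_eq_norm hI hX hPi ha Y t4, ← t3,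
      GeoW_936.norm_sq_Sop hI hX hPi ha t4, t2, GeoW_936.inner_Gop]

end

end Crest.Agent.R269.Rep_430
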