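import Mathlib
import Crest.Agent.R269.Rep_430
import Crest.Agent.R269.Ker4_430

/-!
# R269 (S0411), LINE B: the fields `tan`, `hol`, `pos`, `k1`, `low`, `up` of `WF` for the Wold frame (helper430)

`frm V H i z = hor (ext (V i) z) (H z)`.
-/

set_option autoImplicit false

open MvPolynomial Crest.AlgGeometry.ProjEmb Crest.Agent.R269.Geo_328 Crest.Agent.R269.DefsS_731
open Crest.Agent.R269.Fib_402 Crest.Agent.R269.Hardy_142 Crest.Agent.R269.Mod_402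
open Crest.Agent.R269.Bd_402 Crest.Agent.R269.Defs_58
open MeasureTheory Filter Metric Set
open scoped Topology ComplexConjugate ENNReal InnerProductSpace

namespace Crest.Agent.R269.Rep2_430

noncomputable section

variable {N n : ℕ} {I : Ideal (HomCoordRing N)} {H : ℂ → EE N} {Hs : TT → EE N}

/-- the frame of tangent vectors along `H` -/
def frm {m : ℕ} (V : Fin m → Lp (FF N) 2 (mu : Measure TT)) (H : ℂ → EE N) (i : Fin m) (z : ℂ) : EE N :=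
  hor (ext (V i : TT → FF N) z) (H z)

theorem frm_tan (hX : IsSmoothProjective I n) {Y : Flds I} (hH : IsDisc I H) {m : ℕ}
    {V : Fin m → Lp (FF N) 2 mu} (hVM : ∀ i, V i ∈ MM Y H) (i : Fin m) {z : ℂ}
    (hz : z ∈ ball (0 : ℂ) 1) : frm V H i z ∈ Tan I (H z) :=
  ((mem_Fib hX (hH.cone z hz)).mp (ext_mem_Fib hH (hVM i) (mem_ball_zero_iff.mp hz))).1

theorem wE_frm (hX : IsSmoothProjective I n) {Y : Flds I} (hH : IsDisc I H) {m : ℕ}
    {V : Fin m → Lp (FF N) 2 mu} (hVM : ∀ i, V i ∈ MM Y H) (i : Fin m) {z : ℂ}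
    (hz : z ∈ ball (0 : ℂ) 1) : wE (frm V H i z) (H z) = ext (V i : TT → FF N) z :=
  ((mem_Fib hX (hH.cone z hz)).mp (ext_mem_Fib hH (hVM i) (mem_ball_zero_iff.mp hz))).2

theorem wdg_frm (hX : IsSmoothProjective I n) {Y : Flds I} (hH : IsDisc I H) {m : ℕ}
    {V : Fin m → Lp (FF N) 2 mu} (hVM : ∀ i, V i ∈ MM Y H) (i : Fin m) {z : ℂ}
    (hz : z ∈ ball (0 : ℂ) 1) (j k : Fin (N + 1)) :
    wdg (frm V H i z) (H z) j k = ext (V i : TT → FF N) z (j, k) := by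
  rw [← wE_frm hX hH hVM i hz]
  rfl

theorem frm_hol (hX : IsSmoothProjective I n) {Y : Flds I} (hH : IsDisc I H) {m : ℕ}
    {V : Fin m → Lp (FF N) 2 mu} (hVM : ∀ i, V i ∈ MM Y H) (i : Fin m) :
    DifferentiableOn ℂ (fun z => wdg (frm V H i z) (H z)) (ball 0 1) := by
  have h1 : DifferentiableOn ℂ (ext (V i : TT → FF N)) (ball 0 1) :=
    differentiableOn_ext (mem_HH.mp (MM_le_HH Y H (hVM i))).integrable
  rw [differentiableOn_pi]
  intro j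
  rw [differentiableOn_pi]
  intro k
  have h2 : DifferentiableOn ℂ (fun z => ext (V i : TT → FF N) z (j, k)) (ball 0 1) := by
    have := (EuclideanSpace.equiv (Fin (N + 1) × Fin (N + 1)) ℂ).toContinuousLinearMap.differentiable
      |>.comp_differentiableOn h1
    exact (differentiableOn_pi.1 this) (j, k)
  exact h2.congr fun z hz => wdg_frm hX hH hVM i hz j k

/-- uniform bound of the frame -/
theorem frm_bdd (hX : IsSmoothProjective I n) {Y : Flds I} (hH : IsDisc I H) {m : ℕ}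
    {V : Fin m → Lp (FF N) 2 mu} (hVM : ∀ i, V i ∈ MM Y H) {B : ℝ}
    (hB : ∀ i, ∀ᵐ t ∂mu, ‖V i t‖ ^ 2 ≤ B) {z : ℂ} (hz : z ∈ ball (0 : ℂ) 1) :
    ∑ i, ∑ j, ∑ k, ‖wdg (frm V H i z) (H z) j k‖ ^ 2 ≤ m * B := by
  have h1 : ∀ i, ∑ j, ∑ k, ‖wdg (frm V H i z) (H z) j k‖ ^ 2 ≤ B := by
    intro i
    have e1 : ∑ j, ∑ k, ‖wdg (frm V H i z) (H z) j k‖ ^ 2 = ‖ext (V i : TT → FF N) z‖ ^ 2 := by
      rw [EuclideanSpace.norm_sq_eq, Fintype.sum_prod_type]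
      exact Finset.sum_congr rfl fun j _ => Finset.sum_congr rfl fun k _ => by
        rw [wdg_frm hX hH hVM i hz]
    rw [e1]
    have h0 : 0 ≤ B := by
      obtain ⟨t, ht⟩ := (hB i).exists
      exact (sq_nonneg _).trans ht
    have h2 : ∀ᵐ t ∂mu, ‖V i t‖ ≤ Real.sqrt B := by
      filter_upwards [hB i] with t ht
      exact Real.le_sqrt_of_sq_le ht
    have h3 := (mem_HH.mp (MM_le_HH Y H (hVM i))).norm_ext_le_of_ae h2 (mem_ball_zero_iff.mp hz)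
    calc ‖ext (V i : TT → FF N) z‖ ^ 2 ≤ Real.sqrt B ^ 2 := pow_le_pow_left₀ (norm_nonneg _) h3 2
      _ = B := Real.sq_sqrt h0
  refine (Finset.sum_le_sum fun i _ => h1 i).trans (le_of_eq ?_)
  simp

/-- `tan`, `hol`, `pos`, `k1`, `low`, `up` of `WF` -/
theorem wf_fields (hI : I.IsPrime) (hX : IsSmoothProjective I n) (hn : 1 ≤ n) {Pi a : EE N → VV N}
    (hPi : GeoH_936.PiData I Pi) (ha : PosField I n a) (Y : Flds I) (B : ℝ) :
    ∃ C : ℝ, 0 ≤ C ∧ ∀ C' : ℝ, C ≤ C' → ∀ (H : ℂ → EE N) (Hs : TT → EE N), IsDisc I H →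
      (∀ z ∈ ball (0 : ℂ) 1, nsq (H z) ≤ 1) → BD I H Hs →
      ∀ V : Fin n → Lp (FF N) 2 (mu : Measure TT), (∀ i, V i ∈ MM Y H) →
      (∀ i, ∀ᵐ t ∂mu, ‖V i t‖ ^ 2 ≤ B) →
      ∀ G : TT → FF N →L[ℂ] FF N, (∀ᵐ t ∂mu, G t = GeoW_936.Gop Pi a (Hs t)) →
      (∀ f ∈ MM Y H, (∀ i, IsH2 fun t => ⟪V i t, G t (f t)⟫_ℂ) ∧
        (∀ᵐ t ∂mu, ∑ i, ‖⟪V i t, G t (f t)⟫_ℂ‖ ^ 2 = (⟪f t, G t (f t)⟫_ℂ).re) ∧
        ∀ w : ℂ, ‖w‖ < 1 → ext f w = ∑ i, ext (fun t => ⟪V i t, G t (f t)⟫_ℂ) w • ext (V i) w) →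
      (∀ i, ∀ z ∈ ball (0 : ℂ) 1, frm V H i z ∈ Tan I (H z)) ∧
      (∀ i, DifferentiableOn ℂ (fun z => wdg (frm V H i z) (H z)) (ball 0 1)) ∧
      (∀ z ∈ ball (0 : ℂ) 1, 0 < DD (H z) (fun i => frm V H i z)) ∧
      (∀ z ∈ ball (0 : ℂ) 1, ∀ b : Fin n → EE N, Rep I a (H z) b →
        (1 - C' * (1 - nsq (H z))) * ∑ k, omg (H z) (b k) ≤ ∑ i, omg (H z) (frm V H i z)) ∧
      (∀ z ∈ ball (0 : ℂ) 1,
        -C' + C' * Real.log (nsq (H z)) ≤ Real.log (DD (H z) (fun i => frm V H i z))) ∧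
      (∀ z ∈ ball (0 : ℂ) 1,
        Real.log (DD (H z) (fun i => frm V H i z)) ≤ C' - C' * Real.log (nsq (H z))) := by
  obtain ⟨C₁, hC₁, h1⟩ := Ker4_430.fields hI hX ha Y (Ker3_430.qin_Qf hI hX hPi ha Y)
  obtain ⟨C₂, hC₂, h2⟩ := Ker4_430.up (N := N) hn (B := n * B)
  refine ⟨C₁ + C₂, by positivity, ?_⟩
  intro C' hC' H Hs hH hH1 hBD V hVM hB G hG hw
  have key : ∀ z ∈ ball (0 : ℂ) 1, _ := fun z hz =>
    h1 C' (by linarith) (H z) (hH.cone z hz) (hH1 z hz) (fun i => frm V H i z)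
      (fun i => frm_tan hX hH hVM i hz)
      (Rep_430.krep hI hX hPi ha Y hH hH1 hBD hVM hG hw hz)
  refine ⟨fun i z hz => frm_tan hX hH hVM i hz, fun i => frm_hol hX hH hVM i,
    fun z hz => (key z hz).1, fun z hz => (key z hz).2.1, fun z hz => (key z hz).2.2, ?_⟩
  intro z hz
  exact h2 C' (by linarith) (H z) (hH.cone z hz).2 (hH1 z hz) _ (key z hz).1
    (frm_bdd hX hH hVM hB hz)

end

end Crest.Agent.R269.Rep2_430
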