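import Crest.Agent.R269.AdjLoc_851
import Crest.Agent.R273.CLinE_933
import Crest.Agent.R269.GEll_19

/-!
# Row 269 (S0411), Part 7 (helper19), file A: second order operators in real coordinates

* `Adj2 a φ = ∑ ∂_p ∂_p' (a_pp' φ)`, `L2 a v = ∑ a_pp' ∂_p ∂_p' v`
* `adj2_ibp` : `∫ v Adj2 a φ = ∫ φ L2 a v`
* `gen_ell2` : very weak solutions of `L2 a v + c v = f` are smooth
* `Lop_read` : `Lop s u` in a chart
-/

set_option autoImplicit false
set_option linter.unusedSectionVars false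

open MeasureTheory Filter Topology Set
open scoped ContDiff ComplexOrder

namespace Crest.Agent.R269.Res_19

open Crest.GeometryTopology.CoordMetric (pderiv)
open Crest.Agent.R202.Ell
open Crest.Agent.R269.GEll_19

noncomputable section

section real

variable {m : ℕ} {U : Set (E m)} {a : E m → Matrix (Fin m) (Fin m) ℝ}

/-- `∑ ∂_p ∂_p' (a_pp' φ)` -/
def Adj2 (a : E m → Matrix (Fin m) (Fin m) ℝ) (φ : E m → ℝ) (x : E m) : ℝ :=
  ∑ p, pderiv p (fun y => ∑ p', pderiv p' (fun w => a w p p' * φ w) y) x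

/-- `∑ a_pp' ∂_p ∂_p' v` -/
def L2 (a : E m → Matrix (Fin m) (Fin m) ℝ) (v : E m → ℝ) (x : E m) : ℝ :=
  ∑ p, ∑ p', a x p p' * pderiv p (pderiv p' v) x

theorem pderiv_sum {k : ℕ} {ι : Type*} (s : Finset ι) {φ : ι → E k → ℝ} {x : E k} (j : Fin k)
    (h : ∀ i ∈ s, DifferentiableAt ℝ (φ i) x) :
    pderiv j (fun y => ∑ i ∈ s, φ i y) x = ∑ i ∈ s, pderiv j (φ i) x := by
  unfold pderiv
  rw [fderiv_fun_sum h]
  simp

theorem integrable_TF {φ ψ : E m → ℝ} (h : ContDiff ℝ ∞ φ) (h' : TF ψ) :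
    Integrable fun x => φ x * ψ x :=
  (h.continuous.mul h'.1.continuous).integrable_of_hasCompactSupport h'.2.mul_left

theorem flux_TF (hU : IsOpen U) (ha : ∀ p p', ContDiffOn ℝ ∞ (fun x => a x p p') U) {φ : E m → ℝ}
    (hφ : TF φ) (hs : tsupport φ ⊆ U) (p p' : Fin m) : TF fun w => a w p p' * φ w :=
  hφ.smul hU hs (ha p p')

theorem Adj2_TF (hU : IsOpen U) (ha : ∀ p p', ContDiffOn ℝ ∞ (fun x => a x p p') U)
    {φ : E m → ℝ} (hφ : TF φ) (hs : tsupport φ ⊆ U) : TF (Adj2 a φ) :=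
  TF.sum Finset.univ fun p _ => TF.pd (TF.sum Finset.univ fun p' _ =>
    (flux_TF hU ha hφ hs p p').pd p') p

theorem Adj2_zero {φ : E m → ℝ} {x : E m} (hx : x ∉ tsupport φ) : Adj2 a φ x = 0 := by
  have h0 : φ =ᶠ[𝓝 x] fun _ => 0 := notMem_tsupport_iff_eventuallyEq.1 hx
  unfold Adj2
  refine Finset.sum_eq_zero fun p _ => ?_
  have h1 : (fun y => ∑ p', pderiv p' (fun w => a w p p' * φ w) y) =ᶠ[𝓝 x] fun _ => 0 := by
    filter_upwards [h0.eventually_nhds] with y hy
    refine Finset.sum_eq_zero fun p' _ => ?_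
    have h2 : (fun w => a w p p' * φ w) =ᶠ[𝓝 y] fun _ => 0 := by
      filter_upwards [hy] with w hw
      rw [hw, mul_zero]
    rw [pderiv_congr h2 p']
    simp [pderiv]
  rw [pderiv_congr h1 p]
  simp [pderiv]

/-- **integration by parts** -/
theorem adj2_ibp (hU : IsOpen U) (ha : ∀ p p', ContDiffOn ℝ ∞ (fun x => a x p p') U)
    (hsym : ∀ x ∈ U, ∀ p p', a x p p' = a x p' p)
    {φ v : E m → ℝ} (hφ : TF φ) (hs : tsupport φ ⊆ U) (hv : ContDiff ℝ ∞ v) :
    ∫ x, v x * Adj2 a φ x = ∫ x, φ x * L2 a v x := by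
  have hg : ∀ p p', TF fun w => a w p p' * φ w := flux_TF hU ha hφ hs
  have hF : ∀ p, TF fun y => ∑ p', pderiv p' (fun w => a w p p' * φ w) y := fun p =>
    TF.sum Finset.univ fun p' _ => (hg p p').pd p'
  have e1 : ∫ x, v x * Adj2 a φ x =
      ∑ p, ∫ x, v x * pderiv p (fun y => ∑ p', pderiv p' (fun w => a w p p' * φ w) y) x := by
    rw [← integral_finsetSum _ fun p _ => integrable_TF hv ((hF p).pd p)]
    refine integral_congr_ae (Eventually.of_forall fun x => ?_)
    simp only [Adj2, Finset.mul_sum]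
  have e2 : ∀ p, ∫ x, v x * pderiv p (fun y => ∑ p', pderiv p' (fun w => a w p p' * φ w) y) x =
      ∑ p', ∫ x, pderiv p' (pderiv p v) x * (a x p p' * φ x) := by
    intro p
    rw [ibpR hv (hF p).1 (hF p).2 p]
    have e3 : ∫ x, pderiv p v x * ∑ p', pderiv p' (fun w => a w p p' * φ w) x =
        ∑ p', ∫ x, pderiv p v x * pderiv p' (fun w => a w p p' * φ w) x := by
      rw [← integral_finsetSum _ fun p' _ => integrable_TF (contDiff_pderiv hv p) ((hg p p').pd p')]
      refine integral_congr_ae (Eventually.of_forall fun x => ?_)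
      simp only [Finset.mul_sum]
    rw [e3, ← Finset.sum_neg_distrib]
    refine Finset.sum_congr rfl fun p' _ => ?_
    rw [ibpR (contDiff_pderiv hv p) (hg p p').1 (hg p p').2 p', neg_neg]
  rw [e1, Finset.sum_congr rfl fun p _ => e2 p]
  have e4 : ∀ x, φ x * L2 a v x =
      ∑ p, ∑ p', pderiv p' (pderiv p v) x * (a x p p' * φ x) := by
    intro x
    by_cases hx : x ∈ U
    · unfold L2
      rw [Finset.sum_comm, Finset.mul_sum]
      refine Finset.sum_congr rfl fun p _ => ?_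
      rw [Finset.mul_sum]
      refine Finset.sum_congr rfl fun p' _ => ?_
      rw [hsym x hx p' p]
      ring
    · have h0 : φ x = 0 := image_eq_zero_of_notMem_tsupport fun h => hx (hs h)
      rw [h0]
      simp
  simp only [e4]
  rw [integral_finsetSum _ fun p _ => integrable_finsetSum _ fun p' _ =>
    integrable_TF (contDiff_pderiv (contDiff_pderiv hv p) p') (hg p p')]
  refine Finset.sum_congr rfl fun p _ => ?_
  rw [integral_finsetSum _ fun p' _ =>
    integrable_TF (contDiff_pderiv (contDiff_pderiv hv p) p') (hg p p')]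

/-- the drift which makes `div (a ∇·) + b·∇` equal to `L2 a` -/
def bdr (a : E m → Matrix (Fin m) (Fin m) ℝ) (p : Fin m) (x : E m) : ℝ :=
  - ∑ p', pderiv p' (fun w => a w p p') x

theorem Wk_eq (hU : IsOpen U) (ha : ∀ p p', ContDiffOn ℝ ∞ (fun x => a x p p') U)
    {c φ : E m → ℝ} (hφ : TF φ) (hs : tsupport φ ⊆ U) (x : E m) :
    Wk a (bdr a) c φ x = Adj2 a φ x + c x * φ x := by
  have hsp : ∀ p, tsupport (pderiv p φ) ⊆ U := fun p => (tsupport_pderiv_subset φ p).trans hs
  have sb : ∀ p, ContDiffOn ℝ ∞ (bdr a p) U := fun p =>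
    (ContDiffOn.sum fun p' _ => contDiffOn_pd hU (ha p p') p').neg
  have t1 : ∀ p, TF fun y => ∑ p', a y p p' * pderiv p' φ y := fun p =>
    TF.sum Finset.univ fun p' _ => (hφ.pd p').smul hU (hsp p') (ha p p')
  have t2 : ∀ p, TF fun y => bdr a p y * φ y := fun p => hφ.smul hU hs (sb p)
  have key : ∀ p y, ∑ p', pderiv p' (fun w => a w p p' * φ w) y =
      ∑ p', a y p p' * pderiv p' φ y + (-1) * (bdr a p y * φ y) := by
    intro p y
    by_cases hy : y ∈ U
    · have e : ∀ p', pderiv p' (fun w => a w p p' * φ w) y =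
          a y p p' * pderiv p' φ y + pderiv p' (fun w => a w p p') y * φ y := fun p' => by
        rw [pderiv_mul p' (((ha p p').contDiffAt (hU.mem_nhds hy)).differentiableAt (by simp))
          (hφ.diff y)]
        ring
      simp only [e, Finset.sum_add_distrib, bdr, ← Finset.sum_mul]
      ring
    · have hy' : y ∉ tsupport φ := fun h => hy (hs h)
      have g7 : φ y = 0 := image_eq_zero_of_notMem_tsupport hy'
      have g8 : ∀ i, pderiv i φ y = 0 := fun i => pderiv_eq_zero_of_notMem hy' i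
      have g9 : ∀ p', pderiv p' (fun w => a w p p' * φ w) y = 0 := fun p' => by
        refine pderiv_eq_zero_of_notMem (fun hc => hy' ?_) p'
        exact tsupport_mul_subset_right hc
      simp [g7, g8, g9]
  unfold Wk divA Adj2
  have e2 : ∀ p, pderiv p (fun y => ∑ p', pderiv p' (fun w => a w p p' * φ w) y) x =
      pderiv p (fun y => ∑ p', a y p p' * pderiv p' φ y) x +
        (-1) * pderiv p (fun y => bdr a p y * φ y) x := by
    intro p
    rw [show (fun y => ∑ p', pderiv p' (fun w => a w p p' * φ w) y) = fun y =>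
      ∑ p', a y p p' * pderiv p' φ y + (-1) * (bdr a p y * φ y) from funext (key p),
      pderiv_add p ((t1 p).diff x) (((t2 p).diff x).const_mul _), pderiv_const_mul p ((t2 p).diff x)]
  simp only [e2, Finset.sum_add_distrib, ← Finset.mul_sum]
  ring

/-- **very weak solutions of `∑ a_pp' ∂_p ∂_p' u + c u = f` are smooth** -/
theorem gen_ell2 (hU : IsOpen U) (ha : ∀ p p', ContDiffOn ℝ ∞ (fun x => a x p p') U)
    (hpos : ∀ x ∈ U, (a x).PosDef) {c f u : E m → ℝ} (hc : ContDiffOn ℝ ∞ c U)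
    (hf : ContDiffOn ℝ ∞ f U) (hu : LocallyIntegrableOn u U)
    (hw : ∀ φ : E m → ℝ, TF φ → tsupport φ ⊆ U →
      ∫ x, u x * (Adj2 a φ x + c x * φ x) = ∫ x, f x * φ x) :
    ∃ v : E m → ℝ, ContDiffOn ℝ ∞ v U ∧ (∀ᵐ x, x ∈ U → v x = u x) ∧
      ∀ x ∈ U, L2 a v x + c x * v x = f x := by
  have hsym : ∀ x ∈ U, ∀ p p', a x p p' = a x p' p := by
    intro x hx p p'
    have h := (hpos x hx).isHermitian.apply p' p
    rw [star_trivial] at h
    exact h
  have sb : ∀ p, ContDiffOn ℝ ∞ (bdr a p) U := fun p =>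
    (ContDiffOn.sum fun p' _ => contDiffOn_pd hU (ha p p') p').neg
  obtain ⟨v, hv, hvu, hve⟩ := gen_ell (b := bdr a) ⟨hU, ha, hpos, sb, hc⟩ hf hu (by
    intro φ h1 h2 h3
    rw [← hw φ ⟨h1, h2⟩ h3]
    refine integral_congr_ae (Eventually.of_forall fun x => ?_)
    simp only [Wk_eq hU ha ⟨h1, h2⟩ h3])
  refine ⟨v, hv, hvu, fun x hx => ?_⟩
  rw [← hve x hx]
  have e1 : ∀ p, pderiv p (fun y => ∑ p', a y p p' * pderiv p' v y) x =
      ∑ p', (a x p p' * pderiv p (pderiv p' v) x + pderiv p (fun w => a w p p') x *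
        pderiv p' v x) := by
    intro p
    have d1 : ∀ p', DifferentiableAt ℝ (fun w => a w p p') x := fun p' =>
      ((ha p p').contDiffAt (hU.mem_nhds hx)).differentiableAt (by simp)
    have d2 : ∀ p', DifferentiableAt ℝ (pderiv p' v) x := fun p' =>
      ((contDiffOn_pd hU hv p').contDiffAt (hU.mem_nhds hx)).differentiableAt (by simp)
    have d3 : ∀ p' ∈ (Finset.univ : Finset (Fin m)),
        DifferentiableAt ℝ (fun y => a y p p' * pderiv p' v y) x := fun p' _ => (d1 p').mul (d2 p')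
    rw [pderiv_sum Finset.univ p d3]
    refine Finset.sum_congr rfl fun p' _ => ?_
    rw [pderiv_mul p (d1 p') (d2 p')]
    ring
  have e2 : ∑ p, ∑ p', pderiv p (fun w => a w p p') x * pderiv p' v x =
      - ∑ p, bdr a p x * pderiv p v x := by
    rw [Finset.sum_comm, ← Finset.sum_neg_distrib]
    refine Finset.sum_congr rfl fun p' _ => ?_
    unfold bdr
    rw [neg_mul, neg_neg, Finset.sum_mul]
    refine Finset.sum_congr rfl fun p _ => ?_
    congr 1
    refine pderiv_congr ?_ p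
    filter_upwards [hU.mem_nhds hx] with w hw
    exact hsym w hw p p'
  unfold divA L2
  simp only [e1, Finset.sum_add_distrib]
  rw [e2]
  ring

end real

/-! ### charts -/

section chart

open Crest.Agent.R275 Crest.Agent.R275.Geo Crest.Agent.R275.Core144 Crest.Agent.R275.EDR890
open Crest.Agent.R275.Pai323 Crest.Agent.R275.C1d194
open Crest.Agent.R273.SchE_152 Crest.Agent.R273.SchB_152
open Crest.Agent.R273.Defs_333 Crest.Agent.R273.Vm_333 Crest.Agent.R273.Kah_333
open Crest.Agent.R273.Hess_333 Crest.Agent.R273.HessB_333 Crest.Agent.R273.HM_333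
open Crest.Agent.R273.Vol_333 Crest.Agent.R273.Green_5 Crest.Agent.R273.GreenM_5
open Crest.Agent.R273.YauDefs_635 (cH)
open Crest.Agent.R273.YauMax_635 (cH_eq_hess)
open Crest.Agent.R273.CLin_933 (ER sT UT tT sT_mem isOpen_UT tT_mem sT_tT tT_sT smooth_sT
  tau_posDef tau_smooth tl_contDiff tl_symm_contDiff)
open Crest.Agent.R269.Fld_851 Crest.Agent.R269.Adj_851 Crest.Agent.R269.AdjLoc_851

variable {n : ℕ} {M : Type} [TopologicalSpace M] {A : Atl n M}

/-- the transposed matrix of the field in the chart -/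
def Gs (A : Atl n M) (s : A.ι → M → Matrix (Fin n) (Fin n) ℂ) (i : A.ι) (z : Cn n) :
    Matrix (Fin n) (Fin n) ℂ := (s i ((A.e i).symm z)).transpose

/-- the real matrix of the field in the chart -/
def ta (A : Atl n M) (s : A.ι → M → Matrix (Fin n) (Fin n) ℂ) (i : A.ι) (ξ : ER n) :
    Matrix (Fin (n * 2)) (Fin (n * 2)) ℝ := tau (Gs A s i (Tl n ξ))

theorem ta_smooth {s : A.ι → M → Matrix (Fin n) (Fin n) ℂ} (hs : IsFld A s) (i : A.ι)
    (p p' : Fin (n * 2)) : ContDiffOn ℝ ∞ (fun ξ => ta A s i ξ p p') (UT A i) :=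
  tau_smooth (G := Gs A s i) (fun a b => hs.sm i b a) p p'

theorem ta_pos {s : A.ι → M → Matrix (Fin n) (Fin n) ℂ} {i : A.ι}
    (hp : ∀ x ∈ (A.e i).source, (s i x).PosDef) {ξ : ER n} (hξ : ξ ∈ UT A i) :
    (ta A s i ξ).PosDef := tau_posDef (hp _ ((A.e i).map_target hξ)).transpose

theorem ta_symm {s : A.ι → M → Matrix (Fin n) (Fin n) ℂ} (hs : IsFld A s) (i : A.ι) (ξ : ER n)
    (p p' : Fin (n * 2)) : ta A s i ξ p p' = ta A s i ξ p' p :=
  tau_symm (hs.herm i _).transpose p p'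

theorem P2_eq_L2 {a : ER n → Matrix (Fin (n * 2)) (Fin (n * 2)) ℝ} {h : ER n → ℝ} {ξ : ER n}
    (hh : DifferentiableAt ℝ (fderiv ℝ h) ξ) : P2 a h ξ = L2 a h ξ := by
  unfold P2 L2
  refine Finset.sum_congr rfl fun p _ => Finset.sum_congr rfl fun p' _ => ?_
  congr 1
  unfold pderiv
  rw [fderiv_clm_apply hh (differentiableAt_const _)]
  simp [Crest.Agent.R238.Sch.D2, Crest.Agent.R238.Sch.ee]

/-- `Lop s u` in a chart, for a function `u` which is read as `g` near the point -/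
theorem Lop_read {s : A.ι → M → Matrix (Fin n) (Fin n) ℂ} (hs : IsFld A s) {u : M → ℝ}
    (hu : A.Sm u) (i : A.ι) {ξ : ER n} (hξ : ξ ∈ UT A i) :
    Lop s u (sT A i ξ) = L2 (ta A s i) (fun ξ => u (sT A i ξ)) ξ := by
  have hx : sT A i ξ ∈ (A.e i).source := sT_mem hξ
  have h1 : ContDiffAt ℝ ∞ (fun z => u ((A.e i).symm z)) (Tl n ξ) :=
    (hu i).contDiffAt ((A.e i).open_target.mem_nhds hξ)
  have h2 : ContDiffAt ℝ ∞ (fun ξ => u (sT A i ξ)) ξ :=
    (smooth_sT hu i).contDiffAt ((isOpen_UT i).mem_nhds hξ)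
  have hd : DifferentiableAt ℝ (fderiv ℝ (fun z => u ((A.e i).symm z))) (Tl n ξ) :=
    ((h1.of_le (Crest.Agent.R273.CLin_933.two_le_inf)).fderiv_right (m := 1)
      (by norm_num)).differentiableAt (by norm_num)
  have hd2 : DifferentiableAt ℝ (fderiv ℝ (fun ξ => u (sT A i ξ))) ξ :=
    ((h2.of_le (Crest.Agent.R273.CLin_933.two_le_inf)).fderiv_right (m := 1)
      (by norm_num)).differentiableAt (by norm_num)
  rw [← P2_eq_L2 hd2]
  have h3 := P2_tau (G := Gs A s i) hd
  refine Eq.trans ?_ h3.symm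
  rw [cH_eq_hess h1]
  unfold Lop
  rw [trF_eq hs.tc (hsf_tn hu) hx]
  congr 1
  unfold prF
  rw [Matrix.trace]
  simp only [Matrix.diag, Matrix.mul_apply]
  rw [Finset.sum_comm]
  refine Finset.sum_congr rfl fun b _ => Finset.sum_congr rfl fun a _ => ?_
  have e1 : Gs A s i (Tl n ξ) b a = s i (sT A i ξ) a b := rfl
  rw [e1]
  congr 1
  exact congrFun (congrFun (hsf_read u i hξ) a) b

end chart

end

end Crest.Agent.R269.Res_19
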