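import Crest.Agent.R269.ResA_19
import Crest.Agent.R273.CLinE_933

/-!
# Row 269 (S0411), Part 7 (helper19), file B: the adjoint in charts, maximum principle, coercivity

* `exR K i ψ` : the function `ψ / w` of the chart `i`, extended by zero
* `int_exR`   : `∫_M g exR ψ dV = ∫ g(sT ξ) ψ ξ dξ`
* `rho_exR`   : `ρ_{exR ψ · s} = exR (Adj2 (ta s) ψ)`
* `Lop_nonneg_of_min`, `Lop_sq` : `Lop s (w²) ≥ 2 w Lop s w`
-/

set_option autoImplicit false
set_option linter.unusedSectionVars false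

open MeasureTheory Filter Topology Set
open scoped ContDiff ComplexOrder Manifold

namespace Crest.Agent.R269.Res_19

open Crest.GeometryTopology.CoordMetric (pderiv)
open Crest.Agent.R202.Ell
open Crest.Agent.R269.GEll_19

noncomputable section

section real

variable {m : ℕ} {U : Set (E m)} {a : E m → Matrix (Fin m) (Fin m) ℝ}

/-- cutoff functions -/
theorem exists_cut (hU : IsOpen U) {φ : E m → ℝ} (hφ : TF φ) (hs : tsupport φ ⊆ U) :
    ∃ χ : E m → ℝ, TF χ ∧ tsupport χ ⊆ U ∧ ∀ x ∈ tsupport φ, ∀ᶠ y in 𝓝 x, χ y = 1 := by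
  obtain ⟨L, hL, h1, h2⟩ := exists_compact_between hφ.2 hU hs
  obtain ⟨f, hf1, hf2, -⟩ := exists_contMDiffMap_one_nhds_of_subset_interior (I := 𝓘(ℝ, E m))
    (n := (⊤ : ℕ∞)) (s := tsupport φ) (t := L) (isClosed_tsupport φ) h1
  have h3 : tsupport f ⊆ L := closure_minimal (fun x hx => by
    by_contra h
    exact hx (hf2 x h)) hL.isClosed
  refine ⟨f, ⟨f.contMDiff.contDiff, hL.of_isClosed_subset (isClosed_tsupport _) h3⟩,
    h3.trans h2, fun x hx => ?_⟩
  exact (eventually_nhdsSet_iff_forall.1 hf1) x hx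

/-- **integration by parts**, `v` smooth on `U` only -/
theorem adj2_ibpOn (hU : IsOpen U) (ha : ∀ p p', ContDiffOn ℝ ∞ (fun x => a x p p') U)
    (hsym : ∀ x ∈ U, ∀ p p', a x p p' = a x p' p)
    {φ v : E m → ℝ} (hφ : TF φ) (hs : tsupport φ ⊆ U) (hv : ContDiffOn ℝ ∞ v U) :
    ∫ x, v x * Adj2 a φ x = ∫ x, φ x * L2 a v x := by
  obtain ⟨χ, h1, h2, h3⟩ := exists_cut hU hφ hs
  have hw : TF fun x => v x * χ x := h1.smul hU h2 hv
  have h4 : ∀ x ∈ tsupport φ, (fun x => v x * χ x) =ᶠ[𝓝 x] v := fun x hx => by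
    filter_upwards [h3 x hx] with y hy
    rw [hy, mul_one]
  have h5 := adj2_ibp hU ha hsym hφ hs hw.1
  have e1 : ∫ x, v x * χ x * Adj2 a φ x = ∫ x, v x * Adj2 a φ x := by
    refine integral_congr_ae (Eventually.of_forall fun x => ?_)
    simp only
    by_cases hx : x ∈ tsupport φ
    · rw [(h4 x hx).eq_of_nhds]
    · rw [Adj2_zero hx, mul_zero, mul_zero]
  have e2 : ∫ x, φ x * L2 a (fun x => v x * χ x) x = ∫ x, φ x * L2 a v x := by
    refine integral_congr_ae (Eventually.of_forall fun x => ?_)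
    simp only
    by_cases hx : x ∈ tsupport φ
    · congr 1
      unfold L2
      refine Finset.sum_congr rfl fun p _ => Finset.sum_congr rfl fun p' _ => ?_
      congr 1
      refine pderiv_congr ?_ p
      filter_upwards [(h4 x hx).eventually_nhds] with y hy
      exact pderiv_congr hy p'
    · rw [image_eq_zero_of_notMem_tsupport hx, zero_mul, zero_mul]
  rw [← e1, h5, e2]

theorem Adj2_tsupport {φ : E m → ℝ} : tsupport (Adj2 a φ) ⊆ tsupport φ :=
  closure_minimal (fun x hx => by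
    by_contra h
    exact hx (Adj2_zero h)) (isClosed_tsupport φ)

end real

/-! ### the manifold -/

section chart

open Crest.Agent.R275 Crest.Agent.R275.Geo Crest.Agent.R275.Core144 Crest.Agent.R275.EDR890
open Crest.Agent.R275.Pai323 Crest.Agent.R275.C1d194
open Crest.Agent.R273.SchE_152 Crest.Agent.R273.SchB_152
open Crest.Agent.R273.Defs_333 Crest.Agent.R273.Vm_333 Crest.Agent.R273.Kah_333
open Crest.Agent.R273.Hess_333 Crest.Agent.R273.HessB_333 Crest.Agent.R273.HM_333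
open Crest.Agent.R273.Vol_333 Crest.Agent.R273.Green_5 Crest.Agent.R273.GreenM_5
open Crest.Agent.R273.YauDefs_635 (cH)
open Crest.Agent.R273.YauMax_635 (cH_eq_hess)
open Crest.Agent.R273
open Crest.Agent.R273.CLin_933 (ER sT UT tT sT_mem isOpen_UT tT_mem sT_tT tT_sT smooth_sT
  tau_posDef tau_smooth tl_contDiff tl_symm_contDiff ext0 ext0_mem ext0_off ext0_sm ext0_read
  int_vm lint_vm ae_of_chart continuousOn_sT)
open Crest.Agent.R269.Fld_851 Crest.Agent.R269.Adj_851 Crest.Agent.R269.AdjLoc_851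

variable {n : ℕ} {M : Type} [TopologicalSpace M] {A : Atl n M}

/-- the density in the chart -/
def W (K : Kah A) (i : A.ι) (ξ : ER n) : ℝ := (volK K).w i (sT A i ξ)

theorem W_pos (K : Kah A) {i : A.ι} {ξ : ER n} (hξ : ξ ∈ UT A i) : 0 < W K i ξ :=
  (volK K).pos i _ (sT_mem hξ)

theorem W_smooth (K : Kah A) (i : A.ι) : ContDiffOn ℝ ∞ (W K i) (UT A i) := by
  have h1 : ContDiffOn ℝ ∞ (fun z => (volK K).w i ((A.e i).symm z)) (A.e i).target :=
    (volK K).sm i
  exact h1.comp (tl_contDiff (k := ∞)).contDiffOn fun _ h => h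

/-- `ψ / w`, extended by zero -/
def exR (K : Kah A) (i : A.ι) (ψ : ER n → ℝ) : M → ℝ :=
  ext0 A i (fun z => (W K i ((Tl n).symm z))⁻¹ * ψ ((Tl n).symm z))

theorem exR_read (K : Kah A) {i : A.ι} (ψ : ER n → ℝ) {ξ : ER n} (hξ : ξ ∈ UT A i) :
    exR K i ψ (sT A i ξ) = (W K i ξ)⁻¹ * ψ ξ := by
  unfold exR
  have h1 := ext0_read (A := A) (i := i)
    (φ := fun z => (W K i ((Tl n).symm z))⁻¹ * ψ ((Tl n).symm z)) (z := Tl n ξ) hξ
  rw [LinearIsometryEquiv.symm_apply_apply] at h1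
  exact h1

theorem exR_off (K : Kah A) {i : A.ι} (ψ : ER n → ℝ) {x : M} (hx : x ∉ (A.e i).source) :
    exR K i ψ x = 0 := ext0_off hx

theorem exR_aux (K : Kah A) {i : A.ι} {ψ : ER n → ℝ} (hψ : TF ψ) (hs : tsupport ψ ⊆ UT A i) :
    TF fun ξ => (W K i ξ)⁻¹ * ψ ξ :=
  hψ.smul (isOpen_UT i) hs ((W_smooth K i).inv fun _ hξ => (W_pos K hξ).ne')

theorem exR_sm [T2Space M] (K : Kah A) {i : A.ι} {ψ : ER n → ℝ} (hψ : TF ψ)
    (hs : tsupport ψ ⊆ UT A i) : A.Sm (exR K i ψ) := by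
  have h1 := exR_aux K hψ hs
  have h2 : tsupport (fun ξ => (W K i ξ)⁻¹ * ψ ξ) ⊆ UT A i :=
    (tsupport_mul_subset_right).trans hs
  refine ext0_sm ?_ ?_ ?_
  · exact h1.1.comp (tl_symm_contDiff (k := ∞))
  · exact h1.2.comp_homeomorph (Tl n).symm.toHomeomorph
  · intro z hz
    have h3 : (Tl n).symm z ∈ tsupport (fun ξ => (W K i ξ)⁻¹ * ψ ξ) := by
      have := tsupport_comp_subset_preimage (fun ξ => (W K i ξ)⁻¹ * ψ ξ)
        (Tl n).symm.continuous hz
      exact this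
    have h4 := h2 h3
    change Tl n ((Tl n).symm z) ∈ (A.e i).target at h4
    rwa [LinearIsometryEquiv.apply_symm_apply] at h4

section meas

variable [T2Space M] [CompactSpace M] [MeasurableSpace M] [BorelSpace M] [Finite A.ι]

theorem int_exR (K : Kah A) {i : A.ι} {ψ : ER n → ℝ} (hψ : TF ψ) (hs : tsupport ψ ⊆ UT A i)
    {g : M → ℝ} (hg : AEStronglyMeasurable g (vm (volK K))) :
    ∫ x, g x * exR K i ψ x ∂(vm (volK K)) = ∫ ξ : ER n, g (sT A i ξ) * ψ ξ := by
  have hm : AEStronglyMeasurable (fun x => g x * exR K i ψ x) (vm (volK K)) :=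
    hg.mul (sm_continuous (exR_sm K hψ hs)).aestronglyMeasurable
  have e1 : ∫ x in (A.e i).source, g x * exR K i ψ x ∂(vm (volK K)) =
      ∫ x, g x * exR K i ψ x ∂(vm (volK K)) :=
    setIntegral_eq_integral_of_forall_compl_eq_zero fun x hx => by
      rw [exR_off K ψ hx, mul_zero]
  rw [← e1, int_vm (volK K) i hm]
  have e2 : ∀ ξ : ER n, ξ ∉ UT A i → g (sT A i ξ) * ψ ξ = 0 := fun ξ hξ => by
    rw [image_eq_zero_of_notMem_tsupport fun h => hξ (hs h), mul_zero]
  rw [← setIntegral_eq_integral_of_forall_compl_eq_zero e2]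
  refine setIntegral_congr_fun (isOpen_UT i).measurableSet fun ξ hξ => ?_
  have h1 : (volK K).w i (sT A i ξ) = W K i ξ := rfl
  have h2 := (W_pos K hξ).ne'
  simp only [smul_eq_mul, exR_read K ψ hξ, h1]
  field_simp

/-- **the adjoint in a chart** -/
theorem rho_exR (K : Kah A) (P : Part A) {s : A.ι → M → Matrix (Fin n) (Fin n) ℂ}
    (hs : IsFld A s) {i : A.ι} {ψ : ER n → ℝ} (hψ : TF ψ) (hsu : tsupport ψ ⊆ UT A i) (x : M) :
    rho K P (fs (exR K i ψ) s) x = exR K i (Adj2 (ta A s i) ψ) x := by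
  have hw := exR_sm K hψ hsu
  have ha : TF (Adj2 (ta A s i) ψ) := Adj2_TF (isOpen_UT i) (ta_smooth hs i) hψ hsu
  have has : tsupport (Adj2 (ta A s i) ψ) ⊆ UT A i := Adj2_tsupport.trans hsu
  refine rho_unique K P (isFld_fs hw hs) (sm_continuous (exR_sm K ha has)) (fun u hu => ?_) x
  rw [int_exR K ha has (sm_continuous hu).aestronglyMeasurable,
    adj2_ibpOn (isOpen_UT i) (ta_smooth hs i) (fun ξ _ p p' => ta_symm hs i ξ p p') hψ hsu
      (smooth_sT hu i)]
  have e1 : (fun x => Lop (fs (exR K i ψ) s) u x) = fun x => Lop s u x * exR K i ψ x :=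
    funext fun x => by rw [Lop_fs, mul_comm]
  change ∫ x, (fun x => Lop (fs (exR K i ψ) s) u x) x ∂_ = _
  rw [e1, int_exR K hψ hsu (sm_continuous (sm_Lop hs hu)).aestronglyMeasurable]
  refine integral_congr_ae (Eventually.of_forall fun ξ => ?_)
  simp only
  by_cases hξ : ξ ∈ UT A i
  · rw [Lop_read hs hu i hξ, mul_comm]
  · rw [image_eq_zero_of_notMem_tsupport fun h => hξ (hsu h), mul_zero, zero_mul]

/-! ### maximum principle -/

theorem Lop_nonneg_of_min {s : A.ι → M → Matrix (Fin n) (Fin n) ℂ} {u : M → ℝ} (hu : A.Sm u)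
    {x : M} (hp : (s (ci A x) x).PosSemidef) (hm : IsLocalMin u x) : 0 ≤ Lop s u x := by
  have hx := mem_ci (A := A) x
  have hz := (A.e (ci A x)).map_source hx
  refine trF_nonneg hp ?_
  exact posSemidef_hess (YauMax_635.inC_contDiffAt hu _ hz)
    (YauMax_635.lev_nonneg_of_localMin (YauCh_635.inC_c2 hu _ hz)
      (YauMax_635.inC_localMin hm hx))

theorem Lop_add' (s : A.ι → M → Matrix (Fin n) (Fin n) ℂ) {u v : M → ℝ} (hu : A.Sm u)
    (hv : A.Sm v) (x : M) : Lop s (fun y => u y + v y) x = Lop s u x + Lop s v x :=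
  Lop_add_right s hu hv x

theorem Lop_smul' (c : ℝ) (s : A.ι → M → Matrix (Fin n) (Fin n) ℂ) {u : M → ℝ} (hu : A.Sm u)
    (x : M) : Lop s (fun y => c * u y) x = c * Lop s u x := Lop_smul_right c s hu x

theorem sm_mulR {u v : M → ℝ} (hu : A.Sm u) (hv : A.Sm v) : A.Sm (fun x => u x * v x) :=
  fun i => ContDiffOn.mul (hu i) (hv i)

theorem sm_constR (c : ℝ) : A.Sm (fun _ : M => c) := fun _ => contDiffOn_const

theorem sm_addR {u v : M → ℝ} (hu : A.Sm u) (hv : A.Sm v) : A.Sm (fun x => u x + v x) :=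
  fun i => ContDiffOn.add (hu i) (hv i)

/-- `Lop s (w²) ≥ 2 w Lop s w` -/
theorem Lop_sq {s : A.ι → M → Matrix (Fin n) (Fin n) ℂ} {w : M → ℝ} (hw : A.Sm w)
    {x : M} (hp : (s (ci A x) x).PosSemidef) :
    2 * w x * Lop s w x ≤ Lop s (fun y => w y * w y) x := by
  have h1 : A.Sm fun y => w y * w y + ((-(2 * w x)) * w y + w x ^ 2) :=
    sm_addR (sm_mulR hw hw) (sm_addR (sm_mulR (sm_constR _) hw) (sm_constR _))
  have h2 : IsLocalMin (fun y => w y * w y + ((-(2 * w x)) * w y + w x ^ 2)) x := by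
    refine Eventually.of_forall fun y => ?_
    simp only
    nlinarith [sq_nonneg (w y - w x)]
  have h3 := Lop_nonneg_of_min h1 hp h2
  rw [Lop_add' s (sm_mulR hw hw) (sm_addR (sm_mulR (sm_constR _) hw) (sm_constR _)),
    Lop_add' s (sm_mulR (sm_constR _) hw) (sm_constR _), Lop_smul' _ s hw, Lop_const] at h3
  linarith

end meas

end chart

end

end Crest.Agent.R269.Res_19
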