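import Crest.Agent.R269.ResB_19
import Crest.Agent.R269.Inst_851
import Crest.Agent.R269.DualAsm_411

/-!
# Row 269 (S0411), Part 7 (helper19), file C: the resolvent

* `weak_solR`   : very weak solutions of `c u - Lop s u = f` for large `c`
* `resolvent_large` : smooth exact solutions of `c u - Lop s u = f` for large smooth `c`
* `resolvent`   : for every positive field `s`, every smooth `q > 0`, every smooth `h` and `δ > 0`
  there is a smooth `u` with `|q u - Lop s u - h| ≤ δ`
* `hres_rt`, `hres_one` : the hypotheses `hres` of `DualAsm_128` for `Inst_851.pack`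
-/

set_option autoImplicit false
set_option linter.unusedSectionVars false

open MeasureTheory Filter Topology Set
open scoped ContDiff ComplexOrder Manifold

namespace Crest.Agent.R269.Res_19

open Crest.GeometryTopology.CoordMetric (pderiv)
open Crest.Agent.R202.Ell
open Crest.Agent.R269.GEll_19
open Crest.Agent.R275 Crest.Agent.R275.Geo Crest.Agent.R275.Core144 Crest.Agent.R275.EDR890
open Crest.Agent.R275.Pai323 Crest.Agent.R275.C1d194
open Crest.Agent.R273.SchE_152 Crest.Agent.R273.SchB_152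
open Crest.Agent.R273.Defs_333 Crest.Agent.R273.Vm_333 Crest.Agent.R273.Kah_333
open Crest.Agent.R273.Hess_333 Crest.Agent.R273.HessB_333 Crest.Agent.R273.HM_333
open Crest.Agent.R273.Vol_333 Crest.Agent.R273.Green_5 Crest.Agent.R273.GreenM_5
open Crest.Agent.R273.YauDefs_635 (cH)
open Crest.Agent.R273.YauMax_635 (cH_eq_hess)
open Crest.Agent.R273
open Crest.Agent.R273.CLin_933 (ER sT UT tT sT_mem isOpen_UT tT_mem sT_tT tT_sT smooth_sT
  tau_posDef tau_smooth tl_contDiff tl_symm_contDiff ext0 ext0_mem ext0_off ext0_sm ext0_read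
  int_vm lint_vm ae_of_chart continuousOn_sT SmS ll memLp_cont inner_ll norm_ll_sq abs_int_mul_le
  riesz_range int_cont loc_int)
open Crest.Agent.R269.Fld_851 Crest.Agent.R269.Adj_851 Crest.Agent.R269.AdjLoc_851

noncomputable section

variable {n : ℕ} {M : Type} [TopologicalSpace M] {A : Atl n M}
variable [T2Space M] [CompactSpace M] [MeasurableSpace M] [BorelSpace M] [Finite A.ι]

/-- the formal adjoint of `c - Lop s` -/
def TT (K : Kah A) (P : Part A) (s : A.ι → M → Matrix (Fin n) (Fin n) ℂ) (c w : M → ℝ)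
    (x : M) : ℝ := c x * w x - rho K P (fs w s) x

theorem fs_add (w w' : M → ℝ) (s : A.ι → M → Matrix (Fin n) (Fin n) ℂ) :
    fs (fun x => w x + w' x) s = fs w s + fs w' s := by
  funext i x
  change (((w x + w' x : ℝ) : ℂ)) • s i x = ((w x : ℂ)) • s i x + ((w' x : ℂ)) • s i x
  rw [Complex.ofReal_add, add_smul]

theorem fs_smul (c : ℝ) (w : M → ℝ) (s : A.ι → M → Matrix (Fin n) (Fin n) ℂ) :
    fs (fun x => c * w x) s = c • fs w s := by
  funext i x
  ext a b
  change ((((c * w x : ℝ) : ℂ)) • s i x) a b = (c • (((w x : ℂ)) • s i x)) a b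
  simp only [Matrix.smul_apply, smul_eq_mul, Complex.ofReal_mul, Complex.real_smul]
  ring

theorem sm_TT (K : Kah A) (P : Part A) {s : A.ι → M → Matrix (Fin n) (Fin n) ℂ}
    (hs : IsFld A s) {c w : M → ℝ} (hc : A.Sm c) (hw : A.Sm w) : A.Sm (TT K P s c w) := by
  intro i
  exact ContDiffOn.sub (ContDiffOn.mul (hc i) (hw i)) (sm_rho K P (isFld_fs hw hs) i)

theorem TT_add (K : Kah A) (P : Part A) {s : A.ι → M → Matrix (Fin n) (Fin n) ℂ}
    (hs : IsFld A s) {c w w' : M → ℝ} (hw : A.Sm w) (hw' : A.Sm w') (x : M) :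
    TT K P s c (fun y => w y + w' y) x = TT K P s c w x + TT K P s c w' x := by
  unfold TT
  rw [fs_add, rho_add K P (isFld_fs hw hs) (isFld_fs hw' hs)]
  ring

theorem TT_smul (K : Kah A) (P : Part A) {s : A.ι → M → Matrix (Fin n) (Fin n) ℂ}
    (hs : IsFld A s) {c w : M → ℝ} (r : ℝ) (hw : A.Sm w) (x : M) :
    TT K P s c (fun y => r * w y) x = r * TT K P s c w x := by
  unfold TT
  rw [fs_smul, rho_smul K P _ (isFld_fs hw hs)]
  ring

/-- positive fields -/
def PosF (A : Atl n M) (s : A.ι → M → Matrix (Fin n) (Fin n) ℂ) : Prop :=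
  ∀ i, ∀ x ∈ (A.e i).source, (s i x).PosDef

/-- coercivity -/
theorem coer (K : Kah A) (P : Part A) {s : A.ι → M → Matrix (Fin n) (Fin n) ℂ}
    (hs : IsFld A s) (hp : PosF A s) {c w : M → ℝ} (hc : A.Sm c) {d : ℝ}
    (hd : ∀ x, rho K P s x / 2 + d ≤ c x) (hw : A.Sm w) :
    d * ∫ x, w x ^ 2 ∂(vm (volK K)) ≤ ∫ x, w x * TT K P s c w x ∂(vm (volK K)) := by
  have := isFinite_vm (volK K)
  have hwc := sm_continuous hw
  have hcc := sm_continuous hc
  have hrc := continuous_rho K P hs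
  have hfc := continuous_rho K P (isFld_fs hw hs)
  have hLc := sm_continuous (sm_Lop hs hw)
  have hL2 := sm_continuous (sm_Lop hs (sm_mulR hw hw))
  -- the bad term
  have h1 : ∫ x, w x * rho K P (fs w s) x ∂(vm (volK K)) =
      ∫ x, w x * Lop s w x ∂(vm (volK K)) := by
    rw [← integral_Lop K P (isFld_fs hw hs) hw]
    refine integral_congr_ae (Eventually.of_forall fun x => ?_)
    exact Lop_fs w s w x
  have h2 : ∫ x, w x * Lop s w x ∂(vm (volK K)) ≤
      ∫ x, (w x ^ 2) * (rho K P s x / 2) ∂(vm (volK K)) := by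
    have e1 : ∫ x, (w x ^ 2) * (rho K P s x / 2) ∂(vm (volK K)) =
        ∫ x, Lop s (fun y => w y * w y) x / 2 ∂(vm (volK K)) := by
      rw [integral_div, integral_Lop K P hs (sm_mulR hw hw), ← integral_div]
      refine integral_congr_ae (Eventually.of_forall fun x => ?_)
      simp only
      ring
    rw [e1]
    refine integral_mono (int_cont (hwc.mul hLc)) (int_cont (hL2.div_const _)) fun x => ?_
    have h3 := Lop_sq hw (x := x) (hp _ x (mem_ci x)).posSemidef
    simp only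
    linarith
  have h3 : ∫ x, w x * TT K P s c w x ∂(vm (volK K)) =
      ∫ x, (w x ^ 2) * c x ∂(vm (volK K)) - ∫ x, w x * rho K P (fs w s) x ∂(vm (volK K)) := by
    rw [← integral_sub (int_cont (by fun_prop)) (int_cont (by fun_prop))]
    refine integral_congr_ae (Eventually.of_forall fun x => ?_)
    simp only [TT]
    ring
  have h4 : d * ∫ x, w x ^ 2 ∂(vm (volK K)) + ∫ x, (w x ^ 2) * (rho K P s x / 2) ∂(vm (volK K)) ≤
      ∫ x, (w x ^ 2) * c x ∂(vm (volK K)) := by
    rw [← integral_const_mul, ← integral_add (int_cont (by fun_prop)) (int_cont (by fun_prop))]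
    refine integral_mono (int_cont (by fun_prop)) (int_cont (by fun_prop)) fun x => ?_
    simp only
    have h5 := mul_le_mul_of_nonneg_left (hd x) (sq_nonneg (w x))
    linarith
  rw [h3, h1]
  linarith

theorem smS_TT (K : Kah A) (P : Part A) {s : A.ι → M → Matrix (Fin n) (Fin n) ℂ}
    (hs : IsFld A s) {c : M → ℝ} (hc : A.Sm c) (w : SmS A) : Continuous (TT K P s c (w : M → ℝ)) :=
  sm_continuous (sm_TT K P hs hc w.2)

/-- **very weak solutions** -/
theorem weak_solR (K : Kah A) (P : Part A) {s : A.ι → M → Matrix (Fin n) (Fin n) ℂ}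
    (hs : IsFld A s) (hp : PosF A s) {c f : M → ℝ} (hc : A.Sm c) (hf : A.Sm f) {d : ℝ}
    (hd0 : 0 < d) (hd : ∀ x, rho K P s x / 2 + d ≤ c x) :
    ∃ _ : IsFiniteMeasure (vm (volK K)), ∃ u : Lp ℝ 2 (vm (volK K)), ∀ w : M → ℝ, A.Sm w →
      ∫ x, u x * TT K P s c w x ∂(vm (volK K)) = ∫ x, f x * w x ∂(vm (volK K)) := by
  have hfin := isFinite_vm (volK K)
  refine ⟨hfin, ?_⟩
  set μ := vm (volK K) with hμ
  have hFc := sm_continuous hf
  set T : SmS A →ₗ[ℝ] Lp ℝ 2 μ :=
    { toFun := fun w => ll μ (smS_TT K P hs hc w)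
      map_add' := by
        intro w w'
        have e : TT K P s c ((w + w' : SmS A) : M → ℝ) =
            TT K P s c (w : M → ℝ) + TT K P s c (w' : M → ℝ) :=
          funext fun x => TT_add K P hs w.2 w'.2 x
        unfold ll
        rw [← MemLp.toLp_add]
        exact MemLp.toLp_congr _ _ (Eventually.of_forall fun x => congrFun e x)
      map_smul' := by
        intro r w
        have e : TT K P s c ((r • w : SmS A) : M → ℝ) = r • TT K P s c (w : M → ℝ) :=
          funext fun x => TT_smul K P hs r w.2 x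
        unfold ll
        rw [RingHom.id_apply, ← MemLp.toLp_const_smul]
        exact MemLp.toLp_congr _ _ (Eventually.of_forall fun x => congrFun e x) } with hT
  set ℓ : SmS A →ₗ[ℝ] ℝ :=
    { toFun := fun w => ∫ x, f x * (w : M → ℝ) x ∂μ
      map_add' := by
        intro w w'
        have i1 : Integrable (fun x => f x * (w : M → ℝ) x) μ :=
          int_cont (hFc.mul (sm_continuous w.2))
        have i2 : Integrable (fun x => f x * (w' : M → ℝ) x) μ :=
          int_cont (hFc.mul (sm_continuous w'.2))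
        rw [← integral_add i1 i2]
        refine integral_congr_ae (Eventually.of_forall fun x => ?_)
        change f x * ((w : M → ℝ) x + (w' : M → ℝ) x) = _
        ring
      map_smul' := by
        intro r w
        rw [RingHom.id_apply, smul_eq_mul, ← integral_const_mul]
        refine integral_congr_ae (Eventually.of_forall fun x => ?_)
        change f x * (r * (w : M → ℝ) x) = _
        ring } with hℓ
  have hb : ∀ w, |ℓ w| ≤ (‖ll μ hFc‖ * d⁻¹) * ‖T w‖ := by
    intro w
    have hwc := sm_continuous w.2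
    have hTc := smS_TT K P hs hc w
    have h1 := coer K P hs hp hc hd w.2
    have h2 : d * ‖ll μ hwc‖ ^ 2 ≤ ‖ll μ hwc‖ * ‖T w‖ := by
      rw [norm_ll_sq]
      exact h1.trans ((le_abs_self _).trans (abs_int_mul_le hwc hTc))
    have h3 : ‖ll μ hwc‖ ≤ d⁻¹ * ‖T w‖ := by
      rcases eq_or_lt_of_le (norm_nonneg (ll μ hwc)) with h0 | h0
      · rw [← h0]
        positivity
      · rw [le_inv_mul_iff₀ hd0]
        nlinarith
    have h4 : |ℓ w| ≤ ‖ll μ hFc‖ * ‖ll μ hwc‖ := abs_int_mul_le hFc hwc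
    refine h4.trans ?_
    rw [mul_assoc]
    exact mul_le_mul_of_nonneg_left h3 (norm_nonneg _)
  obtain ⟨u, hu⟩ := riesz_range T ℓ _ hb
  refine ⟨u, fun w hw => ?_⟩
  have h1 := hu ⟨w, hw⟩
  have h2 : T ⟨w, hw⟩ = ll μ (sm_continuous (sm_TT K P hs hc hw)) := rfl
  rw [h2, inner_ll] at h1
  exact h1

/-- **local regularity** -/
theorem local_regR (K : Kah A) (P : Part A) {s : A.ι → M → Matrix (Fin n) (Fin n) ℂ}
    (hs : IsFld A s) (hp : PosF A s) {c f : M → ℝ} (hc : A.Sm c) (hf : A.Sm f)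
    (u : Lp ℝ 2 (vm (volK K)))
    (hu : ∀ w : M → ℝ, A.Sm w →
      ∫ x, u x * TT K P s c w x ∂(vm (volK K)) = ∫ x, f x * w x ∂(vm (volK K))) (i : A.ι) :
    ∃ v : ER n → ℝ, ContDiffOn ℝ ∞ v (UT A i) ∧
      (∀ᵐ ξ : ER n, ξ ∈ UT A i → v ξ = u (sT A i ξ)) ∧
      ∀ ξ ∈ UT A i, c (sT A i ξ) * v ξ - L2 (ta A s i) v ξ = f (sT A i ξ) := by
  have := isFinite_vm (volK K)
  have hum : AEStronglyMeasurable (u : M → ℝ) (vm (volK K)) := Lp.aestronglyMeasurable u
  have hui : Integrable (u : M → ℝ) (vm (volK K)) := (Lp.memLp u).integrable (by norm_num)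
  obtain ⟨v, hv, hvu, hve⟩ := gen_ell2 (a := ta A s i) (c := fun ξ => -(c (sT A i ξ)))
    (f := fun ξ => -(f (sT A i ξ))) (isOpen_UT i) (ta_smooth hs i)
    (fun ξ hξ => ta_pos (hp i) hξ) (smooth_sT hc i).neg (smooth_sT hf i).neg
    (loc_int K u i) (by
      intro ψ hψ hψs
      have hA : TF (Adj2 (ta A s i) ψ) := Adj2_TF (isOpen_UT i) (ta_smooth hs i) hψ hψs
      have hAs : tsupport (Adj2 (ta A s i) ψ) ⊆ UT A i := Adj2_tsupport.trans hψs
      have h1 := hu _ (exR_sm K hψ hψs)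
      have hec := sm_continuous (exR_sm K hψ hψs)
      have heA := sm_continuous (exR_sm K hA hAs)
      have hcc := sm_continuous hc
      -- left side
      have e1 : ∀ x, u x * TT K P s c (exR K i ψ) x =
          (u x * c x) * exR K i ψ x - u x * exR K i (Adj2 (ta A s i) ψ) x := by
        intro x
        unfold TT
        rw [rho_exR K P hs hψ hψs]
        ring
      simp only [e1] at h1
      obtain ⟨b1, hb1⟩ := isCompact_univ.exists_bound_of_continuousOn
        (f := fun x => c x * exR K i ψ x) (hcc.mul hec).continuousOn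
      obtain ⟨b2, hb2⟩ := isCompact_univ.exists_bound_of_continuousOn heA.continuousOn
      have i1 : Integrable (fun x => (u x * c x) * exR K i ψ x) (vm (volK K)) := by
        have h := hui.mul_bdd (c := b1) (g := fun x => c x * exR K i ψ x)
          (hcc.mul hec).aestronglyMeasurable
          (Eventually.of_forall fun x => hb1 x (mem_univ x))
        refine h.congr (Eventually.of_forall fun x => ?_)
        simp only
        ring
      have i2 : Integrable (fun x => u x * exR K i (Adj2 (ta A s i) ψ) x) (vm (volK K)) :=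
        hui.mul_bdd (c := b2) heA.aestronglyMeasurable
          (Eventually.of_forall fun x => hb2 x (mem_univ x))
      have hmc : AEStronglyMeasurable (fun x => u x * c x) (vm (volK K)) :=
        hum.mul hcc.aestronglyMeasurable
      rw [integral_sub i1 i2, int_exR K hψ hψs hmc,
        int_exR K hA hAs hum, int_exR K hψ hψs (sm_continuous hf).aestronglyMeasurable] at h1
      have hcψ : TF fun ξ => c (sT A i ξ) * ψ ξ := hψ.smul (isOpen_UT i) hψs (smooth_sT hc i)
      have j1 : Integrable fun ξ => u (sT A i ξ) * (c (sT A i ξ) * ψ ξ) :=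
        int_loc (loc_int K u i) hcψ.1.continuous hcψ.2
          ((tsupport_mul_subset_right).trans hψs)
      have j2 : Integrable fun ξ => u (sT A i ξ) * Adj2 (ta A s i) ψ ξ :=
        int_loc (loc_int K u i) hA.1.continuous hA.2 hAs
      have e2 : ∫ ξ, u (sT A i ξ) * (Adj2 (ta A s i) ψ ξ + -c (sT A i ξ) * ψ ξ) =
          (∫ ξ, u (sT A i ξ) * Adj2 (ta A s i) ψ ξ) -
            ∫ ξ, u (sT A i ξ) * c (sT A i ξ) * ψ ξ := by
        have e3 : ∫ ξ, u (sT A i ξ) * c (sT A i ξ) * ψ ξ =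
            ∫ ξ, u (sT A i ξ) * (c (sT A i ξ) * ψ ξ) :=
          integral_congr_ae (Eventually.of_forall fun ξ => by simp only; ring)
        rw [e3, ← integral_sub j2 j1]
        refine integral_congr_ae (Eventually.of_forall fun ξ => ?_)
        simp only
        ring
      have e4 : ∫ ξ, -f (sT A i ξ) * ψ ξ = - ∫ ξ, f (sT A i ξ) * ψ ξ := by
        rw [← integral_neg]
        refine integral_congr_ae (Eventually.of_forall fun ξ => ?_)
        simp only
        ring
      rw [e2, e4, ← h1]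
      ring)
  refine ⟨v, hv, hvu, fun ξ hξ => ?_⟩
  have h1 := hve ξ hξ
  linarith

/-- **exact smooth solutions for large `c`** -/
theorem resolvent_large (K : Kah A) (P : Part A) {s : A.ι → M → Matrix (Fin n) (Fin n) ℂ}
    (hs : IsFld A s) (hp : PosF A s) {c f : M → ℝ} (hc : A.Sm c) (hf : A.Sm f) {d : ℝ}
    (hd0 : 0 < d) (hd : ∀ x, rho K P s x / 2 + d ≤ c x) :
    ∃ v : M → ℝ, A.Sm v ∧ ∀ x, c x * v x - Lop s v x = f x := by
  have := isOpenPos_vm (volK K)
  obtain ⟨hfin, u, hu⟩ := weak_solR K P hs hp hc hf hd0 hd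
  choose V hVs hVu hVe using local_regR K P hs hp hc hf u hu
  have hum : Measurable (u : M → ℝ) := (Lp.stronglyMeasurable u).measurable
  have hVc : ∀ i, ContinuousOn (fun x => V i (tT A i x)) (A.e i).source := fun i =>
    (hVs i).continuousOn.comp
      ((Tl n).symm.continuous.comp_continuousOn (A.e i).continuousOn) fun x hx => tT_mem hx
  have hae : ∀ i, ∀ᵐ x ∂(vm (volK K)), x ∈ (A.e i).source → V i (tT A i x) = u x := by
    intro i
    refine ae_of_chart (volK K) i ?_ ?_
    · classical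
      have h1 : Measurable ((A.e i).source.piecewise (fun x => V i (tT A i x)) fun _ => 0) :=
        (hVc i).measurable_piecewise continuousOn_const (A.e i).open_source.measurableSet
      have h2 : {x | x ∈ (A.e i).source ∧ ¬ V i (tT A i x) = u x} = (A.e i).source ∩
          {x | (A.e i).source.piecewise (fun x => V i (tT A i x)) (fun _ => 0) x = u x}ᶜ := by
        ext x
        simp only [mem_ofPred_eq, mem_inter_iff, mem_compl_iff]
        refine and_congr_right fun hx => ?_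
        rw [piecewise_eq_of_mem _ _ _ hx]
      rw [h2]
      exact (A.e i).open_source.measurableSet.inter (measurableSet_eq_fun h1 hum).compl
    · filter_upwards [hVu i] with ξ hξ hU
      have h1 : tT A i (sT A i ξ) = ξ := tT_sT hU
      rw [h1]
      exact hξ hU
  have hcomp : ∀ i j, ∀ x ∈ (A.e i).source ∩ (A.e j).source,
      V i (tT A i x) = V j (tT A j x) := by
    intro i j
    have hO : IsOpen ((A.e i).source ∩ (A.e j).source) :=
      (A.e i).open_source.inter (A.e j).open_source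
    refine Measure.eqOn_open_of_ae_eq (μ := vm (volK K)) ?_ hO
      ((hVc i).mono inter_subset_left) ((hVc j).mono inter_subset_right)
    rw [EventuallyEq, ae_restrict_iff' hO.measurableSet]
    filter_upwards [hae i, hae j] with x h1 h2 hx
    rw [h1 hx.1, h2 hx.2]
  set v : M → ℝ := fun x => V (ci A x) (tT A (ci A x) x) with hv
  have hvi : ∀ i, ∀ x ∈ (A.e i).source, v x = V i (tT A i x) := fun i x hx =>
    hcomp _ _ x ⟨mem_ci x, hx⟩
  have hvr : ∀ i, ∀ z ∈ (A.e i).target, v ((A.e i).symm z) = V i ((Tl n).symm z) :=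
    fun i z hz => by
      rw [hvi i _ ((A.e i).map_target hz)]
      unfold CLin_933.tT
      rw [(A.e i).right_inv hz]
  have hvs : A.Sm v := by
    intro i
    have h1 : ContDiffOn ℝ ∞ (fun z => V i ((Tl n).symm z)) (A.e i).target :=
      (hVs i).comp (tl_symm_contDiff (k := ∞)).contDiffOn fun z hz => by
        change Tl n ((Tl n).symm z) ∈ (A.e i).target
        rwa [LinearIsometryEquiv.apply_symm_apply]
    exact h1.congr fun z hz => hvr i z hz
  refine ⟨v, hvs, fun x => ?_⟩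
  set i := ci A x with hi
  have hx : x ∈ (A.e i).source := mem_ci x
  have hξ := tT_mem hx
  have h1 := Lop_read hs hvs i hξ
  have h2 : L2 (ta A s i) (fun ξ => v (sT A i ξ)) (tT A i x) =
      L2 (ta A s i) (V i) (tT A i x) := by
    have h3 : (fun ξ => v (sT A i ξ)) =ᶠ[𝓝 (tT A i x)] V i := by
      filter_upwards [(isOpen_UT i).mem_nhds hξ] with ξ hξ'
      rw [hvi i _ (sT_mem hξ'), tT_sT hξ']
    unfold L2
    refine Finset.sum_congr rfl fun p _ => Finset.sum_congr rfl fun p' _ => ?_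
    congr 1
    refine pderiv_congr ?_ p
    filter_upwards [h3.eventually_nhds] with y hy
    exact pderiv_congr hy p'
  have h4 := hVe i _ hξ
  rw [← h2, ← h1, sT_tT hx, ← hvi i x hx] at h4
  exact h4

/-! ### all positive densities -/

/-- the maximum principle -/
theorem max_le {s : A.ι → M → Matrix (Fin n) (Fin n) ℂ} (hp : PosF A s) {v : M → ℝ}
    (hv : A.Sm v) {Λ : ℝ} (hΛ : 0 < Λ) {q : M → ℝ} (hq0 : ∀ x, 0 < q x) {B : ℝ}
    (h : ∀ x, Λ * v x - (q x)⁻¹ * Lop s v x ≤ B) (x : M) : Λ * v x ≤ B := by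
  obtain ⟨x₀, -, hx₀⟩ := isCompact_univ.exists_isMaxOn ⟨x, mem_univ x⟩ (sm_continuous hv).continuousOn
  have h1 : IsLocalMax v x₀ := hx₀.isLocalMax univ_mem
  have h2 : IsLocalMin (fun y => (-1 : ℝ) * v y) x₀ := by
    filter_upwards [h1] with y hy
    linarith
  have h3 := Lop_nonneg_of_min (sm_mulR (sm_constR (-1)) hv) (s := s)
    (hp _ x₀ (mem_ci x₀)).posSemidef h2
  rw [Lop_smul' _ s hv] at h3
  have h4 : (q x₀)⁻¹ * Lop s v x₀ ≤ 0 :=
    mul_nonpos_of_nonneg_of_nonpos (inv_nonneg.2 (hq0 x₀).le) (by linarith)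
  have h5 := h x₀
  have h6 : v x ≤ v x₀ := hx₀ (mem_univ x)
  nlinarith

/-- `u ↦ q⁻¹ Lop s u` -/
def LL (s : A.ι → M → Matrix (Fin n) (Fin n) ℂ) (hs : IsFld A s) {q : M → ℝ} (hq : A.Sm q)
    (hq0 : ∀ x, 0 < q x) : Inst_851.FunS A →ₗ[ℝ] C(M, ℝ) where
  toFun u := ⟨fun x => (q x)⁻¹ * Lop s (fun y => (u : C(M, ℝ)) y) x,
    ((sm_continuous hq).inv₀ fun x => (hq0 x).ne').mul (sm_continuous (sm_Lop hs u.2))⟩
  map_add' u v := by
    ext x
    change (q x)⁻¹ * Lop s (fun y => (u : C(M, ℝ)) y + (v : C(M, ℝ)) y) x = _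
    rw [Lop_add' s u.2 v.2, mul_add]
    rfl
  map_smul' c u := by
    ext x
    change (q x)⁻¹ * Lop s (fun y => c * (u : C(M, ℝ)) y) x = _
    rw [Lop_smul' c s u.2, mul_left_comm]
    rfl

/-- **Part 7**: approximate resolvents for all positive smooth densities -/
theorem resolvent (K : Kah A) (P : Part A) {s : A.ι → M → Matrix (Fin n) (Fin n) ℂ}
    (hs : IsFld A s) (hp : PosF A s) {q h : M → ℝ} (hq : A.Sm q) (hq0 : ∀ x, 0 < q x)
    (hh : A.Sm h) {δ : ℝ} (hδ : 0 < δ) :
    ∃ u : M → ℝ, A.Sm u ∧ ∀ x, |q x * u x - Lop s u x - h x| ≤ δ := by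
  rcases isEmpty_or_nonempty M with hM | hM
  · exact ⟨fun _ => 0, sm_constR 0, fun x => (hM.false x).elim⟩
  have hqc := sm_continuous hq
  obtain ⟨x₁, -, hx₁⟩ := isCompact_univ.exists_isMinOn univ_nonempty hqc.continuousOn
  obtain ⟨x₂, -, hx₂⟩ := isCompact_univ.exists_isMaxOn univ_nonempty hqc.continuousOn
  obtain ⟨B, hB⟩ := isCompact_univ.exists_bound_of_continuousOn
    (continuous_rho K P hs).continuousOn
  have hq1 : ∀ x, q x₁ ≤ q x := fun x => hx₁ (mem_univ x)
  have hq2 : ∀ x, q x ≤ q x₂ := fun x => hx₂ (mem_univ x)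
  have hB0 : 0 ≤ B := (norm_nonneg _).trans (hB x₁ (mem_univ _))
  -- the large constant
  set Λ : ℝ := 1 + (B / 2 + 1) / q x₁ with hΛ
  have hΛ1 : 1 ≤ Λ := by
    have : 0 ≤ (B / 2 + 1) / q x₁ := div_nonneg (by linarith) (hq0 x₁).le
    linarith
  have hd : ∀ x, rho K P s x / 2 + 1 ≤ Λ * q x := by
    intro x
    have h1 : rho K P s x ≤ B := (le_abs_self _).trans (hB x (mem_univ x))
    have h2 : (B / 2 + 1) ≤ (B / 2 + 1) / q x₁ * q x := by
      rw [div_mul_eq_mul_div, le_div_iff₀ (hq0 x₁)]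
      exact mul_le_mul_of_nonneg_left (hq1 x) (by linarith)
    have h3 := hq0 x
    rw [hΛ, add_mul]
    linarith
  have hΛq : A.Sm fun x => Λ * q x := sm_mulR (sm_constR Λ) hq
  have hinv : A.Sm fun x => (q x)⁻¹ := fun i => by
    have h1 : ContDiffOn ℝ ∞ (fun z => q ((A.e i).symm z)) (A.e i).target := hq i
    exact h1.inv fun z _ => (hq0 _).ne'
  have hgm : A.Sm fun x => (q x)⁻¹ * h x := sm_mulR hinv hh
  obtain ⟨u, hu⟩ := DualAsm_411.res74 (Inst_851.FunS A) (LL s hs hq hq0) Λ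
    (fun v B' _ hv x => max_le hp v.2 (by linarith) hq0 hv x)
    (fun g δ' hδ' => by
      obtain ⟨v, hv, he⟩ := resolvent_large K P hs hp hΛq (sm_mulR hq g.2) one_pos hd
      refine ⟨⟨⟨v, sm_continuous hv⟩, hv⟩, fun x => ?_⟩
      have h1 : Λ * v x - (q x)⁻¹ * Lop s v x - (g : C(M, ℝ)) x = 0 := by
        have h2 := he x
        have h3 : q x * (Λ * v x - (q x)⁻¹ * Lop s v x - (g : C(M, ℝ)) x) = 0 := by
          have h4 : q x * ((q x)⁻¹ * Lop s v x) = Lop s v x :=
            mul_inv_cancel_left₀ (hq0 x).ne' _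
          linear_combination h2 - h4
        exact (mul_eq_zero.1 h3).resolve_left (hq0 x).ne'
      change |Λ * v x - (q x)⁻¹ * Lop s v x - (g : C(M, ℝ)) x| ≤ δ'
      rw [h1, abs_zero]
      exact hδ'.le)
    1 one_pos hΛ1 ⟨⟨fun x => (q x)⁻¹ * h x, sm_continuous hgm⟩, hgm⟩ (δ / q x₂)
      (div_pos hδ (hq0 x₂))
  refine ⟨fun x => (u : C(M, ℝ)) x, u.2, fun x => ?_⟩
  have h1 := hu x
  change |1 * (u : C(M, ℝ)) x - (q x)⁻¹ * Lop s (fun y => (u : C(M, ℝ)) y) x -
    (q x)⁻¹ * h x| ≤ δ / q x₂ at h1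
  have h2 : q x * (u : C(M, ℝ)) x - Lop s (fun y => (u : C(M, ℝ)) y) x - h x =
      q x * (1 * (u : C(M, ℝ)) x - (q x)⁻¹ * Lop s (fun y => (u : C(M, ℝ)) y) x -
        (q x)⁻¹ * h x) := by
    have h3 := mul_inv_cancel₀ (hq0 x).ne'
    linear_combination (Lop s (fun y => (u : C(M, ℝ)) y) x + h x) * h3
  rw [h2, abs_mul, abs_of_pos (hq0 x)]
  calc q x * _ ≤ q x₂ * (δ / q x₂) :=
        mul_le_mul (hq2 x) h1 (abs_nonneg _) (hq0 x₂).le
    _ = δ := mul_div_cancel₀ _ (hq0 x₂).ne'

/-- **`hres` of `DualAsm_128.exists_measure_MA`** for `Inst_851.pack` -/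
theorem hres_rt [NeZero n] (K : Kah A) (P : Part A) {lam : ℝ} (hlam : 0 < lam) :
    ∀ a ∈ (Inst_851.pack K P).Pos, ∀ h ∈ (Inst_851.pack K P).Fun, ∀ δ : ℝ, 0 < δ →
      ∃ u ∈ (Inst_851.pack K P).Fun, ∀ x,
        |lam * (Inst_851.pack K P).rt a x * u x - (Inst_851.pack K P).Lop a u x - h x| ≤ δ := by
  intro s hs h hh δ hδ
  have hq0 : ∀ x, 0 < lam * rtF K s.1 x := fun x =>
    mul_pos hlam (Inst_851.rtF_pos K s.2.tc (mem_ci x) (hs _ x (mem_ci x)))
  obtain ⟨u, hu, he⟩ := resolvent K P s.2 hs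
    (sm_mulR (sm_constR lam) (Inst_851.sm_rtF K hs)) hq0 hh hδ
  refine ⟨⟨u, sm_continuous hu⟩, hu, fun x => ?_⟩
  have h1 : (Inst_851.pack K P).Lop s ⟨u, sm_continuous hu⟩ x = Lop s.1 u x :=
    Inst_851.LopC_apply s (u := ⟨u, sm_continuous hu⟩) hu x
  rw [h1]
  exact he x

/-- **`hres` of `DualAsm_128.exists_measure_pos`** for `Inst_851.pack` -/
theorem hres_one [NeZero n] (K : Kah A) (P : Part A) :
    ∀ a ∈ (Inst_851.pack K P).Pos, ∀ m : ℝ, 0 < m → ∀ h ∈ (Inst_851.pack K P).Fun,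
      ∀ δ : ℝ, 0 < δ → ∃ u ∈ (Inst_851.pack K P).Fun, ∀ x,
        |m * u x - (Inst_851.pack K P).Lop a u x - h x| ≤ δ := by
  intro s hs m hm h hh δ hδ
  obtain ⟨u, hu, he⟩ := resolvent K P s.2 hs (sm_constR m) (fun _ => hm) hh hδ
  refine ⟨⟨u, sm_continuous hu⟩, hu, fun x => ?_⟩
  have h1 : (Inst_851.pack K P).Lop s ⟨u, sm_continuous hu⟩ x = Lop s.1 u x :=
    Inst_851.LopC_apply s (u := ⟨u, sm_continuous hu⟩) hu x
  rw [h1]
  exact he x

end

end Crest.Agent.R269.Res_19
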