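import Mathlib
import Crest.Agent.R269.Levi2_599
import Crest.Agent.R269.Green_740

/-!
# R269 (S0411), Line B, leaf B7 (VAR), abstract core (helper740)

`var0` : the first order inequality at a maximiser of `F - κ T(1)`, where `T(1) = sup_s T(s)` and
`T τ s - T 0 s = avg_{|z|=s} δ τ` for a family of functions `δ τ` on the open disc with a uniform
second order expansion in `τ` (4-point means).
-/

set_option autoImplicit false

open MeasureTheory Set Filter Topology Real Metric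
open Crest.Agent.R269.Levi2_599

noncomputable section

namespace Crest.Agent.R269.SVar1_740

/-- the circle average commutes with 4-point means -/
theorem circleAverage_mean4 {δ : ℂ → ℂ → ℝ} {s ρ : ℝ}
    (h : ∀ τ : ℂ, ‖τ‖ = |ρ| → CircleIntegrable (δ τ) 0 s) :
    mean4 (fun τ => circleAverage (δ τ) 0 s) ρ
      = circleAverage (fun z => mean4 (fun τ => δ τ z) ρ) 0 s := by
  have h1 := h (ρ : ℂ) (by simp)
  have h2 := h (Complex.I * ρ) (by simp)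
  have h3 := h (-(ρ : ℂ)) (by simp)
  have h4 := h (-(Complex.I * ρ)) (by simp)
  have e : circleAverage (fun z => mean4 (fun τ => δ τ z) ρ) 0 s
      = circleAverage ((1 / 4 : ℝ) • (δ (ρ : ℂ) + δ (Complex.I * ρ) + δ (-(ρ : ℂ)) +
        δ (-(Complex.I * ρ)))) 0 s := rfl
  rw [e, circleAverage_smul, circleAverage_add ((h1.add h2).add h3) h4,
    circleAverage_add (h1.add h2) h3, circleAverage_add h1 h2]
  rfl

/-- a monotone bounded function on `(0,1)` has a limit at `1⁻`, which bounds it -/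
theorem exists_lim {T : ℝ → ℝ} (hm : MonotoneOn T (Ioo 0 1)) {K : ℝ}
    (hb : ∀ s ∈ Ioo (0 : ℝ) 1, T s ≤ K) :
    ∃ L, Tendsto T (𝓝[<] 1) (𝓝 L) ∧ ∀ s ∈ Ioo (0 : ℝ) 1, T s ≤ L := by
  have hne : (Ioo (0 : ℝ) 1).Nonempty := ⟨1 / 2, by norm_num, by norm_num⟩
  have hbdd : BddAbove (T '' Ioo 0 1) := ⟨K, by rintro _ ⟨s, hs, rfl⟩; exact hb s hs⟩
  refine ⟨sSup (T '' Ioo 0 1), ?_, fun s hs => le_csSup hbdd ⟨s, hs, rfl⟩⟩
  rw [Metric.tendsto_nhds]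
  intro ε hε
  obtain ⟨_, ⟨s, hs, rfl⟩, hs'⟩ := exists_lt_of_lt_csSup (hne.image T)
    (show sSup (T '' Ioo 0 1) - ε < sSup (T '' Ioo 0 1) by linarith)
  filter_upwards [Ioo_mem_nhdsLT hs.2] with x hx
  have hx' : x ∈ Ioo (0 : ℝ) 1 := ⟨hs.1.trans hx.1, hx.2⟩
  have h1 : T s ≤ T x := hm hs hx' hx.1.le
  have h2 : T x ≤ sSup (T '' Ioo 0 1) := le_csSup hbdd ⟨x, hx', rfl⟩
  rw [Real.dist_eq, abs_lt]
  constructor <;> linarith

theorem le_of_frequently {f : ℝ → ℝ} {l : Filter ℝ} {a b : ℝ} (hf : Tendsto f l (𝓝 a))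
    (h : ∃ᶠ x in l, f x ≤ b) : a ≤ b := by
  by_contra hcon
  have hcon : b < a := not_le.1 hcon
  exact h ((hf.eventually (lt_mem_nhds hcon)).mono fun x hx => not_le.2 hx)

theorem mean4_sub_const (g : ℂ → ℝ) (c ρ : ℝ) : mean4 g ρ - c = mean4 (fun τ => g τ - c) ρ := by
  simp only [mean4, smul_eq_mul]; ring

theorem tendsto_mean4 {T : ℂ → ℝ → ℝ} {L : ℂ → ℝ} {l : Filter ℝ} {ρ : ℝ}
    (h : ∀ τ : ℂ, ‖τ‖ = |ρ| → Tendsto (T τ) l (𝓝 (L τ))) :
    Tendsto (fun s => mean4 (fun τ => T τ s) ρ) l (𝓝 (mean4 L ρ)) := by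
  have h1 := h (ρ : ℂ) (by simp)
  have h2 := h (Complex.I * ρ) (by simp)
  have h3 := h (-(ρ : ℂ)) (by simp)
  have h4 := h (-(Complex.I * ρ)) (by simp)
  unfold mean4
  exact (((h1.add h2).add h3).add h4).const_smul _

/-- FIRST ORDER INEQUALITY AT A MAXIMISER (abstract form) -/
theorem var0 {F : ℂ → ℝ} {T : ℂ → ℝ → ℝ} {T1 κ L0 B ρ0 C : ℝ} (hκ : 0 ≤ κ) (hρ0 : 0 < ρ0)
    (hF : ∀ ε > 0, ∀ᶠ ρ in 𝓝[>] (0 : ℝ), ρ ^ 2 * (L0 - ε) ≤ mean4 F ρ - F 0)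
    (hlim : Tendsto (T 0) (𝓝[<] 1) (𝓝 T1))
    (hmono : ∀ τ : ℂ, ‖τ‖ ≤ ρ0 → MonotoneOn (T τ) (Ioo 0 1))
    {δ : ℂ → ℂ → ℝ}
    (hT : ∀ τ : ℂ, ‖τ‖ ≤ ρ0 → ∀ s ∈ Ioo (0 : ℝ) 1, T τ s - T 0 s = circleAverage (δ τ) 0 s)
    (hδc : ∀ τ : ℂ, ‖τ‖ ≤ ρ0 → ContinuousOn (δ τ) (ball 0 1))
    (hδ : ∀ τ : ℂ, ‖τ‖ ≤ ρ0 → ∀ z ∈ ball (0 : ℂ) 1, δ τ z ≤ C)
    {LE : ℂ → ℝ} (hLEc : ContinuousOn LE (ball 0 1))
    (hmean : ∀ ε > 0, ∀ᶠ ρ in 𝓝[>] (0 : ℝ), ∀ z ∈ ball (0 : ℂ) 1,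
      mean4 (fun τ => δ τ z) ρ ≤ ρ ^ 2 * (LE z + ε))
    (hB : ∃ᶠ s in 𝓝[<] (1 : ℝ), circleAverage LE 0 s ≤ B)
    (hmax : ∀ τ : ℂ, ‖τ‖ ≤ ρ0 → ∀ K', (∀ s ∈ Ioo (0 : ℝ) 1, T τ s ≤ K') →
      F τ - κ * K' ≤ F 0 - κ * T1) :
    L0 ≤ κ * B := by
  have hT0 : ∀ s ∈ Ioo (0 : ℝ) 1, T 0 s ≤ T1 := by
    intro s hs
    refine ge_of_tendsto hlim ?_
    filter_upwards [Ioo_mem_nhdsLT hs.2] with x hx
    exact hmono 0 (by simpa using hρ0.le) hs ⟨hs.1.trans hx.1, hx.2⟩ hx.1.le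
  have hcI : ∀ {q : ℂ → ℝ}, ContinuousOn q (ball 0 1) → ∀ s ∈ Ioo (0 : ℝ) 1,
      CircleIntegrable q 0 s := fun hq s hs => by
    refine ContinuousOn.circleIntegrable hs.1.le (hq.mono fun z hz => ?_)
    rw [mem_sphere_zero_iff_norm] at hz
    rw [mem_ball_zero_iff, hz]; exact hs.2
  have hex : ∀ τ : ℂ, ‖τ‖ ≤ ρ0 → ∃ L, Tendsto (T τ) (𝓝[<] 1) (𝓝 L) ∧
      ∀ s ∈ Ioo (0 : ℝ) 1, T τ s ≤ L := by
    intro τ hτ
    refine exists_lim (hmono τ hτ) (K := T1 + C) fun s hs => ?_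
    have h1 := hT τ hτ s hs
    have h2 : circleAverage (δ τ) 0 s ≤ C := by
      refine circleAverage_mono_on_of_le_circle (hcI (hδc τ hτ) s hs) fun z hz => ?_
      refine hδ τ hτ z ?_
      rw [mem_sphere_zero_iff_norm, abs_of_pos hs.1] at hz
      rw [mem_ball_zero_iff, hz]; exact hs.2
    linarith [hT0 s hs]
  choose! L hL1 hL2 using hex
  -- the key inequality for small `ρ`
  have key : ∀ ε > 0, ∀ᶠ ρ in 𝓝[>] (0 : ℝ), ρ ^ 2 * (L0 - ε) ≤ κ * (ρ ^ 2 * (B + ε)) := by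
    intro ε hε
    filter_upwards [hF ε hε, hmean ε hε, Ioo_mem_nhdsGT hρ0] with ρ h1 h2 hρ
    have hρabs : |ρ| = ρ := abs_of_pos hρ.1
    have hle : ∀ τ : ℂ, ‖τ‖ = |ρ| → ‖τ‖ ≤ ρ0 := fun τ hτ => by
      rw [hτ, hρabs]; exact hρ.2.le
    have h3 : mean4 F ρ - κ * mean4 L ρ ≤ F 0 - κ * T1 := by
      have h4 : mean4 (fun τ => F τ - κ * L τ) ρ ≤ F 0 - κ * T1 :=
        mean4_le fun τ hτ => hmax τ (hle τ hτ) (L τ) (hL2 τ (hle τ hτ))
      have h5 : mean4 (fun τ => F τ - κ * L τ) ρ = mean4 F ρ - κ * mean4 L ρ := by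
        simp only [mean4, smul_eq_mul]; ring
      linarith
    have h6 : Tendsto (fun s => mean4 (fun τ => T τ s) ρ - T 0 s) (𝓝[<] 1)
        (𝓝 (mean4 L ρ - T1)) :=
      (tendsto_mean4 fun τ hτ => hL1 τ (hle τ hτ)).sub hlim
    have h7 : mean4 L ρ - T1 ≤ ρ ^ 2 * (B + ε) := by
      refine le_of_frequently h6 ?_
      have hev : ∀ᶠ s in 𝓝[<] (1 : ℝ), s ∈ Ioo (0 : ℝ) 1 := Ioo_mem_nhdsLT one_pos
      refine (hB.and_eventually hev).mono ?_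
      rintro s ⟨hs, hs'⟩
      rw [mean4_sub_const]
      have h8 : mean4 (fun τ => T τ s - T 0 s) ρ = mean4 (fun τ => circleAverage (δ τ) 0 s) ρ := by
        have a1 := hT (ρ : ℂ) (hle _ (by simp)) s hs'
        have a2 := hT (Complex.I * ρ) (hle _ (by simp)) s hs'
        have a3 := hT (-(ρ : ℂ)) (hle _ (by simp)) s hs'
        have a4 := hT (-(Complex.I * ρ)) (hle _ (by simp)) s hs'
        simp only [mean4, a1, a2, a3, a4]
      rw [h8, circleAverage_mean4 fun τ hτ => hcI (hδc τ (hle τ hτ)) s hs']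
      have hmc : ContinuousOn (fun z => mean4 (fun τ => δ τ z) ρ) (ball 0 1) := by
        unfold mean4
        exact ((((hδc (ρ : ℂ) (hle _ (by simp))).add (hδc (Complex.I * ρ) (hle _ (by simp)))).add
          (hδc (-(ρ : ℂ)) (hle _ (by simp)))).add
          (hδc (-(Complex.I * ρ)) (hle _ (by simp)))).const_smul (1 / 4 : ℝ)
      calc circleAverage (fun z => mean4 (fun τ => δ τ z) ρ) 0 s
          ≤ circleAverage (fun z => ρ ^ 2 * (LE z + ε)) 0 s := by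
            refine circleAverage_mono (hcI hmc s hs')
              (hcI (continuousOn_const.mul (hLEc.add continuousOn_const)) s hs') fun z hz => ?_
            refine h2 z ?_
            rw [mem_sphere_zero_iff_norm, abs_of_pos hs'.1] at hz
            rw [mem_ball_zero_iff, hz]; exact hs'.2
        _ = ρ ^ 2 * (circleAverage LE 0 s + ε) := by
            have e1 : circleAverage (fun z => ρ ^ 2 * (LE z + ε)) 0 s
                = ρ ^ 2 * circleAverage (fun z => LE z + ε) 0 s :=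
              circleAverage_fun_smul (a := ρ ^ 2) (f := fun z => LE z + ε) (c := (0 : ℂ)) (R := s)
            rw [e1, circleAverage_fun_add (hcI hLEc s hs') (hcI continuousOn_const s hs'),
              circleAverage_const]
        _ ≤ ρ ^ 2 * (B + ε) := by
            exact mul_le_mul_of_nonneg_left (by linarith) (sq_nonneg _)
    have h9 := mul_le_mul_of_nonneg_left h7 hκ
    linarith
  refine le_of_forall_pos_le_add fun ε hε => ?_
  have hε' : 0 < ε / (1 + κ) := by positivity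
  obtain ⟨ρ, h1, h2⟩ := ((key _ hε').and self_mem_nhdsWithin).exists
  have hρ2 : 0 < ρ ^ 2 := by
    have : 0 < ρ := h2
    positivity
  have h3 : L0 - ε / (1 + κ) ≤ κ * (B + ε / (1 + κ)) := by
    have h4 : ρ ^ 2 * (L0 - ε / (1 + κ)) ≤ ρ ^ 2 * (κ * (B + ε / (1 + κ))) := by
      linarith
    exact le_of_mul_le_mul_left h4 hρ2
  have h5 : ε / (1 + κ) * (1 + κ) = ε := div_mul_cancel₀ _ (by positivity)
  nlinarith

end Crest.Agent.R269.SVar1_740
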