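import Crest.Agent.R269.StCpt_528
import Crest.Agent.R269.NLift_371
import Crest.Agent.R269.Defs_58
import Crest.Agent.R269.DefsS_731
import Crest.Agent.R269.GeoT_328
import Crest.Agent.R269.Geo0_632

/-!
# R269, Line B (#1368 (1)): functionals on discs, continuity, concrete existence of maximisers (helper528)
-/

set_option autoImplicit false

open Set Filter Topology Metric Complex
open scoped ComplexConjugate Real Uniformity Interval

noncomputable section

namespace Crest.Agent.R269.StFun_528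

open Crest.Agent.R269.Geo_328 (EE VV Cone Tan)
open Crest.Agent.R269.StCpt_528 (Tom Ctr tw)
open Crest.AlgGeometry.ProjEmb

/-! ### normalised lifts -/

section NL

variable {ι : Type*} [Fintype ι]

theorem norm_toLp (p : ι → ℂ) :
    ‖(WithLp.toLp 2 p : EuclideanSpace ℂ ι)‖ = Real.sqrt (Brody_164.nsq p) := by
  rw [EuclideanSpace.norm_eq]
  rfl

theorem log_norm_toLp (p : ι → ℂ) :
    Real.log (Brody_164.nsq p) = 2 * Real.log ‖(WithLp.toLp 2 p : EuclideanSpace ℂ ι)‖ := by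
  rw [norm_toLp, Real.log_sqrt (Brody_164.nsq_nonneg p)]
  ring

theorem exists_normal {C : Set (ι → ℂ)} {H : ℂ → ι → ℂ} (hH : StCpt_528.IsDisc C H) {K : ℝ}
    (hK : ∀ s ∈ Ioo (0 : ℝ) 1, Tom s H ≤ K) :
    ∃ φ : ℂ → ℂ, DifferentiableOn ℂ φ (ball 0 1) ∧ StCpt_528.Normal (tw φ H) := by
  have hL : Differentiable ℂ (fun p : ι → ℂ => (WithLp.toLp 2 p : EuclideanSpace ℂ ι)) :=
    (PiLp.continuousLinearEquiv 2 ℂ (fun _ : ι => ℂ)).symm.differentiable
  set F : ℂ → EuclideanSpace ℂ ι := fun z => WithLp.toLp 2 (H z) with hF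
  have hFd : DifferentiableOn ℂ F (ball 0 1) := hL.comp_differentiableOn hH.diff
  have hF0 : ∀ z ∈ ball (0 : ℂ) 1, F z ≠ 0 := by
    intro z hz h
    apply hH.ne z hz
    have := congrArg WithLp.ofLp h
    simpa [hF] using this
  have hav : ∀ (G : ℂ → ι → ℂ) (s : ℝ), Real.circleAverage (fun z => Real.log (Brody_164.nsq (G z))) 0 s
      = 2 * Real.circleAverage (fun z => Real.log ‖(WithLp.toLp 2 (G z) : EuclideanSpace ℂ ι)‖) 0 s := by
    intro G s
    have h1 := Real.circleAverage_fun_smul (a := (2 : ℝ))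
      (f := fun z => Real.log ‖(WithLp.toLp 2 (G z) : EuclideanSpace ℂ ι)‖) (c := 0) (R := s)
    simp only [smul_eq_mul] at h1
    rw [← h1]
    congr 1
    funext z
    exact log_norm_toLp _
  have hC : ∀ s : ℝ, 0 < s → s < 1 → Real.circleAverage (fun z => Real.log ‖F z‖) 0 s ≤
      (K + Real.log (Brody_164.nsq (H 0))) / 2 := by
    intro s h0 h1
    have h2 := hK s ⟨h0, h1⟩
    unfold StCpt_528.Tom at h2
    rw [hav H s] at h2
    linarith
  obtain ⟨φ, hφ, -, -, -, hle, -, -, hlim⟩ := NLift_371.exists_normalized_lift hFd hF0 hC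
  refine ⟨fun z => - φ z, hφ.neg, ?_, ?_⟩
  · intro z hz
    have h1 := hle z hz
    have h2 : exp (-φ z) • F z = WithLp.toLp 2 (tw (fun z => - φ z) H z) := rfl
    rw [h2, norm_toLp] at h1
    rwa [Real.sqrt_le_one] at h1
  · have h3 := hlim.const_mul 2
    rw [mul_zero] at h3
    refine h3.congr (fun s => ?_)
    rw [hav]
    rfl

end NL

/-! ### general continuity lemmas -/

section Gen

variable {X Y α : Type*} [TopologicalSpace X] [UniformSpace Y]

/-- composition of locally uniform convergence with a function continuous on a set containing all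
the values -/
theorem tlu_comp {l : Filter α} {S : Set X} {T : Set Y} {F : α → X → Y} {f : X → Y} {E : Y → ℝ}
    (h : TendstoLocallyUniformlyOn F f l S) (hf : ContinuousOn f S)
    (hFT : ∀ m, ∀ z ∈ S, F m z ∈ T) (hfT : ∀ z ∈ S, f z ∈ T) (hE : ContinuousOn E T) :
    TendstoLocallyUniformlyOn (fun m z => E (F m z)) (fun z => E (f z)) l S := by
  rw [tendstoLocallyUniformlyOn_iff_forall_tendsto] at h ⊢
  intro x hx
  have h1 := h x hx
  -- `f y.2 → f x`
  have h2 : Tendsto (fun y : α × X => f y.2) (l ×ˢ 𝓝[S] x) (𝓝 (f x)) :=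
    (hf x hx).tendsto.comp tendsto_snd
  -- `F y.1 y.2 → f x`
  have h3 : Tendsto (fun y : α × X => F y.1 y.2) (l ×ˢ 𝓝[S] x) (𝓝 (f x)) := by
    rw [Uniform.tendsto_nhds_right] at h2 ⊢
    have h4 : Tendsto (fun y : α × X => ((f x, f y.2), (f y.2, F y.1 y.2))) (l ×ˢ 𝓝[S] x)
        (𝓤 Y ×ˢ 𝓤 Y) := h2.prodMk h1
    refine Filter.tendsto_def.2 (fun V hV => ?_)
    obtain ⟨W, hW, hWV⟩ := comp_mem_uniformity_sets hV
    filter_upwards [h4 (prod_mem_prod hW hW)] with y hy
    exact hWV ⟨f y.2, hy.1, hy.2⟩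
  have hS : ∀ᶠ y : α × X in l ×ˢ 𝓝[S] x, y.2 ∈ S :=
    tendsto_snd.eventually (eventually_mem_nhdsWithin)
  have h5 : Tendsto (fun y : α × X => E (f y.2)) (l ×ˢ 𝓝[S] x) (𝓝 (E (f x))) :=
    (hE (f x) (hfT x hx)).tendsto.comp (tendsto_nhdsWithin_iff.2 ⟨h2, by
      filter_upwards [hS] with y hy; exact hfT _ hy⟩)
  have h6 : Tendsto (fun y : α × X => E (F y.1 y.2)) (l ×ˢ 𝓝[S] x) (𝓝 (E (f x))) :=
    (hE (f x) (hfT x hx)).tendsto.comp (tendsto_nhdsWithin_iff.2 ⟨h3, by
      filter_upwards [hS] with y hy; exact hFT _ _ hy⟩)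
  exact (h5.prodMk_nhds h6).mono_right (nhds_le_uniformity _)

end Gen

/-- `TG` is continuous for uniform convergence on the closed disc -/
theorem tendsto_TG {α : Type*} {l : Filter α} {s : ℝ} (hs : 0 < s) {F : α → ℂ → ℝ} {f : ℂ → ℝ}
    (hF : ∀ m, ContinuousOn (F m) (closedBall 0 s)) (hf : ContinuousOn f (closedBall 0 s))
    (h : TendstoUniformlyOn F f l (closedBall 0 s)) :
    Tendsto (fun m => DefsS_731.TG (F m) s) l (𝓝 (DefsS_731.TG f s)) := by
  have hker : Continuous (fun r : ℝ => r * Real.log (s / r)) := by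
    have h1 : (fun r : ℝ => r * Real.log (s / r)) = fun r => r * Real.log s - r * Real.log r := by
      funext r
      rcases eq_or_ne r 0 with h | h
      · simp [h]
      · rw [Real.log_div hs.ne' h]; ring
    rw [h1]
    exact (continuous_id.mul continuous_const).sub Real.continuous_mul_log
  have havg : ∀ g : ℂ → ℝ, ContinuousOn g (closedBall 0 s) →
      ContinuousOn (Real.circleAverage g 0) (Icc 0 s) := by
    intro g hg
    refine Real.ContinuousOn.circleAverage (hg.mono ?_) (fun r hr => hr.1)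
    intro z hz
    have hz' : ‖z - 0‖ ∈ Icc (0 : ℝ) s := hz
    rw [mem_closedBall_zero_iff]
    rw [sub_zero] at hz'
    exact hz'.2
  have hint : ∀ g : ℂ → ℝ, ContinuousOn g (closedBall 0 s) →
      IntervalIntegrable (fun r => r * Real.log (s / r) * Real.circleAverage g 0 r)
        MeasureTheory.volume 0 s := by
    intro g hg
    apply ContinuousOn.intervalIntegrable
    rw [uIcc_of_le hs.le]
    exact hker.continuousOn.mul (havg g hg)
  rw [Metric.tendsto_nhds]
  intro ε hε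
  set δ : ℝ := ε / (8 * (s * s)) with hδ
  have hδ0 : 0 < δ := by positivity
  filter_upwards [Metric.tendstoUniformlyOn_iff.1 h δ hδ0] with m hm
  rw [dist_eq_norm, DefsS_731.TG, DefsS_731.TG, ← mul_sub,
    ← intervalIntegral.integral_sub (hint _ (hF m)) (hint _ hf), norm_mul]
  have hb : ∀ r ∈ Ι (0 : ℝ) s, ‖r * Real.log (s / r) * Real.circleAverage (F m) 0 r -
      r * Real.log (s / r) * Real.circleAverage f 0 r‖ ≤ s * δ := by
    intro r hr
    rw [uIoc_of_le hs.le] at hr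
    have hr0 : 0 < r := hr.1
    have hsub : sphere (0 : ℂ) |r| ⊆ closedBall 0 s := by
      rw [abs_of_pos hr0]
      exact sphere_subset_closedBall.trans (closedBall_subset_closedBall hr.2)
    have hci : ∀ g : ℂ → ℝ, ContinuousOn g (closedBall 0 s) → CircleIntegrable g 0 r := by
      intro g hg
      refine ContinuousOn.circleIntegrable' (hg.mono hsub)
    rw [← mul_sub, ← Real.circleAverage_fun_sub (hci _ (hF m)) (hci _ hf), norm_mul]
    have h1 : ‖r * Real.log (s / r)‖ ≤ s := by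
      have h2 : 0 ≤ Real.log (s / r) := Real.log_nonneg (by rw [one_le_div hr0]; exact hr.2)
      rw [Real.norm_of_nonneg (by positivity)]
      have h3 : Real.log (s / r) ≤ s / r - 1 := Real.log_le_sub_one_of_pos (by positivity)
      calc r * Real.log (s / r) ≤ r * (s / r - 1) := by gcongr
        _ = s - r := by field_simp
        _ ≤ s := by linarith
    have h4 : ‖Real.circleAverage (fun z => F m z - f z) 0 r‖ ≤ δ := by
      rw [Real.norm_eq_abs]
      refine Real.abs_circleAverage_le_circleAverage_abs.trans ?_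
      refine Real.circleAverage_mono_on_of_le_circle ?_ ?_
      · exact (((hF m).sub hf).abs.mono hsub).circleIntegrable'
      · intro z hz
        have h5 := hm z (hsub hz)
        rw [dist_comm, Real.dist_eq] at h5
        exact h5.le
    gcongr
  have hI := intervalIntegral.norm_integral_le_of_norm_le_const hb
  rw [sub_zero, abs_of_pos hs] at hI
  have h6 : ‖(4 : ℝ)‖ = 4 := by norm_num
  rw [h6]
  calc _ ≤ 4 * (s * δ * s) := by gcongr
    _ = ε / 2 := by rw [hδ]; field_simp; ring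
    _ < ε := by linarith

/-! ### discs in `Cone I` -/

section Conc

variable {N n : ℕ} {I : Ideal (HomCoordRing N)}

theorem isDisc_iff {H : ℂ → EE N} :
    DefsS_731.IsDisc I H ↔ StCpt_528.IsDisc (affineCone I) H :=
  ⟨fun h => ⟨h.hol, fun z hz => (h.cone z hz).1, fun z hz => (h.cone z hz).2⟩,
    fun h => ⟨h.diff, fun z hz => ⟨h.mem z hz, h.ne z hz⟩⟩⟩

theorem normal_iff {H : ℂ → EE N} : DefsS_731.Normal H ↔ StCpt_528.Normal H :=
  ⟨fun h => ⟨h.le_one, h.avg⟩, fun h => ⟨h.le_one, h.avg⟩⟩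

theorem deriv_mem_Tan {H : ℂ → EE N} (hH : DefsS_731.IsDisc I H) {z : ℂ}
    (hz : z ∈ ball (0 : ℂ) 1) : deriv H z ∈ Tan I (H z) := by
  intro F hF
  have h1 : HasDerivAt H (deriv H z) z :=
    (hH.hol.differentiableAt (isOpen_ball.mem_nhds hz)).hasDerivAt
  have h2 : HasDerivAt (fun w => MvPolynomial.eval (H w) F)
      (Geo0_632.dF F (H z) (deriv H z)) z :=
    (Geo0_632.hasFDerivAt_eval F (H z)).comp_hasDerivAt z h1
  have h3 : (fun w => MvPolynomial.eval (H w) F) =ᶠ[𝓝 z] fun _ => (0 : ℂ) := by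
    filter_upwards [isOpen_ball.mem_nhds hz] with w hw
    exact (hH.cone w hw).1 F hF
  have h4 := h2.unique ((hasDerivAt_const z (0 : ℂ)).congr_of_eventuallyEq h3)
  rw [Geo0_632.dF_apply] at h4
  simp only [Geo_328.dP, Geo_328.gradP]
  rw [← h4]
  exact Finset.sum_congr rfl fun j _ => mul_comm _ _

theorem IsDisc.tw (hX : IsSmoothProjective I n) {H : ℂ → EE N} (hH : DefsS_731.IsDisc I H)
    {φ : ℂ → ℂ} (hφ : DifferentiableOn ℂ φ (ball 0 1)) : DefsS_731.IsDisc I (tw φ H) :=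
  isDisc_iff.2 ((isDisc_iff.1 hH).tw (fun c _ _ hp => Geo_328.smul_mem_affineCone hX hp c) hφ)

theorem deriv_tw {H : ℂ → EE N} (hH : DefsS_731.IsDisc I H) {φ : ℂ → ℂ}
    (hφ : DifferentiableOn ℂ φ (ball 0 1)) {z : ℂ} (hz : z ∈ ball (0 : ℂ) 1) :
    deriv (tw φ H) z = exp (φ z) • deriv H z + (exp (φ z) * deriv φ z) • H z := by
  have h1 : HasDerivAt H (deriv H z) z :=
    (hH.hol.differentiableAt (isOpen_ball.mem_nhds hz)).hasDerivAt
  have h2 : HasDerivAt φ (deriv φ z) z :=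
    (hφ.differentiableAt (isOpen_ball.mem_nhds hz)).hasDerivAt
  exact (h2.cexp.smul h1).deriv

/-- densities on discs: continuous in tangent vectors of the cone, invariant under change of lift -/
structure Dens (I : Ideal (HomCoordRing N)) (E : EE N → EE N → ℝ) : Prop where
  cont : ContinuousOn (fun x : EE N × EE N => E x.1 x.2) {x | x.1 ∈ Cone I ∧ x.2 ∈ Tan I x.1}
  inv : ∀ p ∈ Cone I, ∀ v ∈ Tan I p, ∀ c : ℂ, c ≠ 0 → ∀ r : ℂ, E (c • p) (c • v + r • p) = E p v

theorem Dens.add {E F : EE N → EE N → ℝ} (hE : Dens I E) (hF : Dens I F) :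
    Dens I (fun p v => E p v + F p v) :=
  ⟨hE.cont.add hF.cont, fun p hp v hv c hc r => by rw [hE.inv p hp v hv c hc r,
    hF.inv p hp v hv c hc r]⟩

theorem Dens.const_mul {E : EE N → EE N → ℝ} (a : ℝ) (hE : Dens I E) :
    Dens I (fun p v => a * E p v) :=
  ⟨hE.cont.const_mul a, fun p hp v hv c hc r => by rw [hE.inv p hp v hv c hc r]⟩

theorem Dens.comp_tw {E : EE N → EE N → ℝ} (hE : Dens I E) {H : ℂ → EE N}
    (hH : DefsS_731.IsDisc I H) {φ : ℂ → ℂ} (hφ : DifferentiableOn ℂ φ (ball 0 1)) {z : ℂ}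
    (hz : z ∈ ball (0 : ℂ) 1) : E (tw φ H z) (deriv (tw φ H) z) = E (H z) (deriv H z) := by
  rw [deriv_tw hH hφ hz]
  exact hE.inv _ (hH.cone z hz) _ (deriv_mem_Tan hH hz) _ (Complex.exp_ne_zero _) _

theorem Dens.continuousOn {E : EE N → EE N → ℝ} (hE : Dens I E) {H : ℂ → EE N}
    (hH : DefsS_731.IsDisc I H) : ContinuousOn (fun z => E (H z) (deriv H z)) (ball 0 1) := by
  have h1 : ContinuousOn (fun z => (H z, deriv H z)) (ball (0 : ℂ) 1) :=
    hH.hol.continuousOn.prodMk (hH.hol.deriv isOpen_ball).continuousOn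
  exact hE.cont.comp h1 (fun z hz => ⟨hH.cone z hz, deriv_mem_Tan hH hz⟩)

/-- locally uniform convergence of the derivatives -/
theorem tlu_deriv {u : Filter ℕ} [u.NeBot] {Hm : ℕ → ℂ → EE N} {H : ℂ → EE N}
    (hd : ∀ m, DefsS_731.IsDisc I (Hm m)) (h : TendstoLocallyUniformlyOn Hm H u (ball 0 1)) :
    TendstoLocallyUniformlyOn (fun m => deriv (Hm m)) (deriv H) u (ball 0 1) := by
  have := h.deriv (Eventually.of_forall fun m => (hd m).hol) isOpen_ball
  exact this

theorem tlu_prod {u : Filter ℕ} {A B : Type*} [UniformSpace A] [UniformSpace B]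
    {F : ℕ → ℂ → A} {f : ℂ → A} {G : ℕ → ℂ → B} {g : ℂ → B} {S : Set ℂ}
    (hF : TendstoLocallyUniformlyOn F f u S) (hG : TendstoLocallyUniformlyOn G g u S) :
    TendstoLocallyUniformlyOn (fun m z => (F m z, G m z)) (fun z => (f z, g z)) u S := by
  intro W hW z hz
  rw [uniformity_prod, mem_inf_iff_superset] at hW
  obtain ⟨V1, ⟨U1, hU1, hV1⟩, V2, ⟨U2, hU2, hV2⟩, hVW⟩ := hW
  obtain ⟨t1, ht1, h1⟩ := hF U1 hU1 z hz
  obtain ⟨t2, ht2, h2⟩ := hG U2 hU2 z hz
  refine ⟨t1 ∩ t2, inter_mem ht1 ht2, ?_⟩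
  filter_upwards [h1, h2] with m hm1 hm2 y hy
  exact hVW ⟨hV1 (hm1 y hy.1), hV2 (hm2 y hy.2)⟩

theorem Dens.tlu {E : EE N → EE N → ℝ} (hE : Dens I E) {u : Filter ℕ} [u.NeBot]
    {Hm : ℕ → ℂ → EE N} {H : ℂ → EE N} (hd : ∀ m, DefsS_731.IsDisc I (Hm m))
    (hH : DefsS_731.IsDisc I H) (h : TendstoLocallyUniformlyOn Hm H u (ball 0 1)) :
    TendstoLocallyUniformlyOn (fun m z => E (Hm m z) (deriv (Hm m) z))
      (fun z => E (H z) (deriv H z)) u (ball 0 1) := by
  have h1 := tlu_prod h (tlu_deriv hd h)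
  exact tlu_comp (T := {x : EE N × EE N | x.1 ∈ Cone I ∧ x.2 ∈ Tan I x.1})
    (E := fun x : EE N × EE N => E x.1 x.2) h1
    (hH.hol.continuousOn.prodMk (hH.hol.deriv isOpen_ball).continuousOn)
    (fun m z hz => ⟨(hd m).cone z hz, deriv_mem_Tan (hd m) hz⟩)
    (fun z hz => ⟨hH.cone z hz, deriv_mem_Tan hH hz⟩) hE.cont

/-- functionals on discs which are invariant under change of lift and continuous for locally
uniform convergence -/
structure FunC (I : Ideal (HomCoordRing N)) (c : (ℂ → EE N) → ℝ) : Prop where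
  inv : ∀ H φ, DefsS_731.IsDisc I H → DifferentiableOn ℂ φ (ball 0 1) → c (tw φ H) = c H
  cont : ∀ (u : Ultrafilter ℕ) (Hm : ℕ → ℂ → EE N) (H : ℂ → EE N),
    (∀ m, DefsS_731.IsDisc I (Hm m)) → DefsS_731.IsDisc I H →
    TendstoLocallyUniformlyOn Hm H u (ball 0 1) → Tendsto (fun m => c (Hm m)) u (𝓝 (c H))

theorem FunC.add {c d : (ℂ → EE N) → ℝ} (hc : FunC I c) (hd : FunC I d) :
    FunC I (fun H => c H + d H) :=
  ⟨fun H φ h1 h2 => by rw [hc.inv H φ h1 h2, hd.inv H φ h1 h2],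
    fun u Hm H h1 h2 h3 => (hc.cont u Hm H h1 h2 h3).add (hd.cont u Hm H h1 h2 h3)⟩

theorem FunC.sub {c d : (ℂ → EE N) → ℝ} (hc : FunC I c) (hd : FunC I d) :
    FunC I (fun H => c H - d H) :=
  ⟨fun H φ h1 h2 => by rw [hc.inv H φ h1 h2, hd.inv H φ h1 h2],
    fun u Hm H h1 h2 h3 => (hc.cont u Hm H h1 h2 h3).sub (hd.cont u Hm H h1 h2 h3)⟩

theorem FunC.const_mul {c : (ℂ → EE N) → ℝ} (a : ℝ) (hc : FunC I c) :
    FunC I (fun H => a * c H) :=
  ⟨fun H φ h1 h2 => by rw [hc.inv H φ h1 h2],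
    fun u Hm H h1 h2 h3 => (hc.cont u Hm H h1 h2 h3).const_mul a⟩

theorem FunC.const (a : ℝ) : FunC I (fun _ => a) :=
  ⟨fun _ _ _ _ => rfl, fun _ _ _ _ _ _ => tendsto_const_nhds⟩

theorem FunC.comp {c : (ℂ → EE N) → ℝ} (hc : FunC I c) {g : ℝ → ℝ} (hg : Continuous g) :
    FunC I (fun H => g (c H)) :=
  ⟨fun H φ h1 h2 => by rw [hc.inv H φ h1 h2],
    fun u Hm H h1 h2 h3 => (hg.tendsto _).comp (hc.cont u Hm H h1 h2 h3)⟩

theorem unif_on_closedBall {F : ℕ → ℂ → ℝ} {f : ℂ → ℝ} {u : Filter ℕ}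
    (h : TendstoLocallyUniformlyOn F f u (ball (0 : ℂ) 1)) {s : ℝ} (hs : s < 1) :
    TendstoUniformlyOn F f u (closedBall (0 : ℂ) s) :=
  (tendstoLocallyUniformlyOn_iff_tendstoUniformlyOn_of_compact
    (isCompact_closedBall (0 : ℂ) s)).1 (h.mono (closedBall_subset_ball hs))

theorem TG_congr {q q' : ℂ → ℝ} {s : ℝ} (hs0 : 0 ≤ s) (hs : s < 1)
    (h : ∀ z ∈ ball (0 : ℂ) 1, q z = q' z) : DefsS_731.TG q s = DefsS_731.TG q' s := by
  unfold DefsS_731.TG
  congr 1
  refine intervalIntegral.integral_congr (fun r hr => ?_)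
  rw [uIcc_of_le hs0] at hr
  congr 1
  refine Real.circleAverage_congr_sphere (fun z hz => h z ?_)
  rw [mem_sphere_zero_iff_norm, abs_of_nonneg hr.1] at hz
  rw [mem_ball_zero_iff, hz]
  exact hr.2.trans_lt hs

/-- the characteristics `T_E(.; s)`, `s < 1`, are continuous and invariant -/
theorem Dens.funC_TE {E : EE N → EE N → ℝ} (hE : Dens I E) {s : ℝ} (hs : s ∈ Ioo (0 : ℝ) 1) :
    FunC I (fun H => DefsS_731.TE E H s) where
  inv := fun H φ hH hφ => TG_congr hs.1.le hs.2 (fun z hz => hE.comp_tw hH hφ hz)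
  cont := fun u Hm H hd hH h => by
    have hsub : closedBall (0 : ℂ) s ⊆ ball 0 1 := closedBall_subset_ball hs.2
    exact tendsto_TG hs.1 (fun m => (hE.continuousOn (hd m)).mono hsub)
      ((hE.continuousOn hH).mono hsub) (unif_on_closedBall (hE.tlu hd hH h) hs.2)

/-- circle averages of continuous functions on `X` -/
theorem funC_cav {f : EE N → ℝ} (hf : ContinuousOn f (Cone I))
    (hfi : ∀ p ∈ Cone I, ∀ c : ℂ, c ≠ 0 → f (c • p) = f p) {s : ℝ} (hs : s ∈ Ico (0 : ℝ) 1) :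
    FunC I (fun H => DefsS_731.cav f H s) where
  inv := fun H φ hH hφ => by
    unfold DefsS_731.cav
    refine Real.circleAverage_congr_sphere (fun z hz => ?_)
    have hz' : z ∈ ball (0 : ℂ) 1 := by
      rw [mem_sphere_zero_iff_norm, abs_of_nonneg hs.1] at hz
      rw [mem_ball_zero_iff, hz]
      exact hs.2
    exact hfi _ (hH.cone z hz') _ (Complex.exp_ne_zero _)
  cont := fun u Hm H hd hH h => by
    have h1 : TendstoLocallyUniformlyOn (fun m z => f (Hm m z)) (fun z => f (H z)) u (ball 0 1) :=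
      tlu_comp (T := Cone I) h hH.hol.continuousOn (fun m z hz => (hd m).cone z hz)
        (fun z hz => hH.cone z hz) hf
    have h2 := unif_on_closedBall h1 hs.2
    have hsub : sphere (0 : ℂ) |s| ⊆ closedBall 0 s := by
      rw [abs_of_nonneg hs.1]
      exact sphere_subset_closedBall
    have hsub' : closedBall (0 : ℂ) s ⊆ ball 0 1 := closedBall_subset_ball hs.2
    have hci : ∀ G : ℂ → EE N, DefsS_731.IsDisc I G → CircleIntegrable (fun z => f (G z)) 0 s :=
      fun G hG => ContinuousOn.circleIntegrable' ((hf.comp hG.hol.continuousOn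
        (fun z hz => hG.cone z hz)).mono (hsub.trans hsub'))
    rw [Metric.tendsto_nhds]
    intro ε hε
    filter_upwards [Metric.tendstoUniformlyOn_iff.1 h2 (ε / 2) (by positivity)] with m hm
    unfold DefsS_731.cav
    rw [Real.dist_eq, ← Real.circleAverage_fun_sub (hci _ (hd m)) (hci _ hH)]
    refine lt_of_le_of_lt Real.abs_circleAverage_le_circleAverage_abs ?_
    refine lt_of_le_of_lt (Real.circleAverage_mono_on_of_le_circle (a := ε / 2) ?_ ?_) (by linarith)
    · exact ((hci _ (hd m)).sub (hci _ hH)).abs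
    · intro z hz
      have h5 := hm z (hsub hz)
      rw [dist_comm, Real.dist_eq] at h5
      exact h5.le

/-- pointwise functionals `E (H z) (H' z)` -/
theorem Dens.funC_at {E : EE N → EE N → ℝ} (hE : Dens I E) {z : ℂ} (hz : z ∈ ball (0 : ℂ) 1) :
    FunC I (fun H => E (H z) (deriv H z)) where
  inv := fun _ _ hH hφ => hE.comp_tw hH hφ hz
  cont := fun _ _ _ hd hH h => (hE.tlu hd hH h).tendsto_at hz

end Conc

end Crest.Agent.R269.StFun_528
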