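import Mathlib
import Crest.Agent.R269.SVar1_740
import Crest.Agent.R269.StFun_528
import Crest.Agent.R269.LevBr_901

/-!
# R269 (S0411), Line B, leaf B7 (VAR), concrete form along one variation (helper740)

* `Fam q H V Ht ρ0 C d` : potential differences `d τ z` of the density `q` along the variation
  `Ht τ` of the disc `H` in the direction `V` (second order expansion of 4-point means);
* `VarH I H V Ht ρ0` : the variation consists of discs with the same centre;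
* `var_poly` : first order inequality at a maximiser of
  `J - κ (T_E(1) - t T_ω(r))`, `J H = c₀ |H'(0)|²_ω + T_{E₁}(H; r₁)`.
-/

set_option autoImplicit false

open MeasureTheory Set Filter Topology Metric
open Crest.AlgGeometry.ProjEmb Crest.Agent.R269.Geo_328
open Crest.Agent.R269.Levi2_599 Crest.Agent.R269.DefsS_731 Crest.Agent.R269.StFun_528

noncomputable section

namespace Crest.Agent.R269.SVar2_740

variable {N n : ℕ} {I : Ideal (HomCoordRing N)}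

theorem TG_eq (q : ℂ → ℝ) (s : ℝ) : DefsS_731.TG q s = Green_740.TG q s := rfl

/-- potential differences of the density `q` along the variation `Ht τ` of `H` in the
direction `V` -/
structure Fam (q : EE N → EE N → ℝ) (H V : ℂ → EE N) (Ht : ℂ → ℂ → EE N) (ρ0 C : ℝ)
    (d : ℂ → ℂ → ℝ) : Prop where
  smooth : ∀ τ : ℂ, ‖τ‖ ≤ ρ0 → ContDiffOn ℝ 2 (d τ) (ball 0 1)
  lev_eq : ∀ τ : ℂ, ‖τ‖ ≤ ρ0 → ∀ z ∈ ball (0 : ℂ) 1,
    LevC_653.lev (d τ) z 1 = q (Ht τ z) (deriv (Ht τ) z) - q (H z) (deriv H z)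
  bound : ∀ τ : ℂ, ‖τ‖ ≤ ρ0 → ∀ z ∈ ball (0 : ℂ) 1, |d τ z| ≤ C
  center : ∀ τ : ℂ, ‖τ‖ ≤ ρ0 → d τ 0 = 0
  mean : ∀ ε > 0, ∀ᶠ ρ in 𝓝[>] (0 : ℝ), ∀ z ∈ ball (0 : ℂ) 1,
    |mean4 (fun τ => d τ z) ρ - ρ ^ 2 * q (H z) (V z)| ≤ ρ ^ 2 * ε

/-- the variation consists of discs with the same centre, and derivative at the centre
`H'(0) + τ V'(0)` -/
structure VarH (I : Ideal (HomCoordRing N)) (H V : ℂ → EE N) (Ht : ℂ → ℂ → EE N) (ρ0 : ℝ) :
    Prop where
  pos : 0 < ρ0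
  disc : ∀ τ : ℂ, ‖τ‖ ≤ ρ0 → DefsS_731.IsDisc I (Ht τ)
  zero : ∀ z ∈ ball (0 : ℂ) 1, Ht 0 z = H z
  center : ∀ τ : ℂ, ‖τ‖ ≤ ρ0 → Ht τ 0 = H 0
  deriv0 : ∀ τ : ℂ, ‖τ‖ ≤ ρ0 → deriv (Ht τ) 0 = deriv H 0 + τ • deriv V 0

/-- there is a variation of `H` in the direction `V` with potential differences for `ω`, `α` and
`L u`, `u` smooth -/
def HasVar (I : Ideal (HomCoordRing N)) (n : ℕ) (H V : ℂ → EE N) : Prop :=
  ∃ (ρ0 : ℝ) (Ht : ℂ → ℂ → EE N), VarH I H V Ht ρ0 ∧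
    (∃ C d, Fam Defs_58.omg H V Ht ρ0 C d) ∧
    (∃ C d, Fam (Defs_58.alpha I n) H V Ht ρ0 C d) ∧
    ∀ u : EE N → ℝ, Defs_58.SmX I u → ∃ C d, Fam (Defs_58.lev u) H V Ht ρ0 C d

section algebra

variable {q q' : EE N → EE N → ℝ} {H V : ℂ → EE N} {Ht : ℂ → ℂ → EE N} {ρ0 C C' : ℝ}
  {d d' : ℂ → ℂ → ℝ}

theorem Fam.mono {ρ1 : ℝ} (h : Fam q H V Ht ρ0 C d) (h1 : ρ1 ≤ ρ0) : Fam q H V Ht ρ1 C d where
  smooth := fun τ hτ => h.smooth τ (hτ.trans h1)
  lev_eq := fun τ hτ => h.lev_eq τ (hτ.trans h1)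
  bound := fun τ hτ => h.bound τ (hτ.trans h1)
  center := fun τ hτ => h.center τ (hτ.trans h1)
  mean := h.mean

theorem Fam.add (h : Fam q H V Ht ρ0 C d) (h' : Fam q' H V Ht ρ0 C' d') :
    Fam (fun p v => q p v + q' p v) H V Ht ρ0 (C + C') (fun τ z => d τ z + d' τ z) where
  smooth := fun τ hτ => (h.smooth τ hτ).add (h'.smooth τ hτ)
  lev_eq := fun τ hτ z hz => by
    have h1 := (h.smooth τ hτ).contDiffAt (isOpen_ball.mem_nhds hz)
    have h2 := (h'.smooth τ hτ).contDiffAt (isOpen_ball.mem_nhds hz)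
    rw [LevC_653.lev_add h1 h2, h.lev_eq τ hτ z hz, h'.lev_eq τ hτ z hz]
    ring
  bound := fun τ hτ z hz => (abs_add_le _ _).trans
    (add_le_add (h.bound τ hτ z hz) (h'.bound τ hτ z hz))
  center := fun τ hτ => by rw [h.center τ hτ, h'.center τ hτ, add_zero]
  mean := fun ε hε => by
    filter_upwards [h.mean (ε / 2) (by positivity), h'.mean (ε / 2) (by positivity)]
      with ρ h1 h2 z hz
    rw [mean4_add]
    have e : mean4 (fun τ => d τ z) ρ + mean4 (fun τ => d' τ z) ρ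
        - ρ ^ 2 * (q (H z) (V z) + q' (H z) (V z))
        = (mean4 (fun τ => d τ z) ρ - ρ ^ 2 * q (H z) (V z))
          + (mean4 (fun τ => d' τ z) ρ - ρ ^ 2 * q' (H z) (V z)) := by ring
    rw [e]
    refine (abs_add_le _ _).trans ((add_le_add (h1 z hz) (h2 z hz)).trans (le_of_eq ?_))
    ring

theorem Fam.const_mul (a : ℝ) (h : Fam q H V Ht ρ0 C d) :
    Fam (fun p v => a * q p v) H V Ht ρ0 (|a| * C) (fun τ z => a * d τ z) where
  smooth := fun τ hτ => contDiffOn_const.mul (h.smooth τ hτ)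
  lev_eq := fun τ hτ z hz => by
    have h1 := (h.smooth τ hτ).contDiffAt (isOpen_ball.mem_nhds hz)
    rw [LevC_653.lev_const_mul a h1, h.lev_eq τ hτ z hz]
    ring
  bound := fun τ hτ z hz => by
    rw [abs_mul]
    exact mul_le_mul_of_nonneg_left (h.bound τ hτ z hz) (abs_nonneg a)
  center := fun τ hτ => by rw [h.center τ hτ, mul_zero]
  mean := fun ε hε => by
    have hε' : 0 < ε / (|a| + 1) := by positivity
    filter_upwards [h.mean (ε / (|a| + 1)) hε'] with ρ h1 z hz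
    have e : mean4 (fun τ => a * d τ z) ρ = a * mean4 (fun τ => d τ z) ρ := by
      have := mean4_const_smul a (fun τ => d τ z) ρ
      simpa only [smul_eq_mul] using this
    rw [e]
    have e2 : a * mean4 (fun τ => d τ z) ρ - ρ ^ 2 * (a * q (H z) (V z))
        = a * (mean4 (fun τ => d τ z) ρ - ρ ^ 2 * q (H z) (V z)) := by ring
    rw [e2, abs_mul]
    have h2 := mul_le_mul_of_nonneg_left (h1 z hz) (abs_nonneg a)
    refine h2.trans ?_
    have h3 : |a| * (ρ ^ 2 * (ε / (|a| + 1))) = ρ ^ 2 * ε * (|a| / (|a| + 1)) := by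
      field_simp
    rw [h3]
    have h4 : |a| / (|a| + 1) ≤ 1 := by
      rw [div_le_one (by positivity)]; linarith
    have h5 : 0 ≤ ρ ^ 2 * ε := by positivity
    nlinarith

theorem Fam.congr {d' : ℂ → ℂ → ℝ} (h : Fam q H V Ht ρ0 C d)
    (hd : ∀ τ z, d' τ z = d τ z) : Fam q H V Ht ρ0 C d' := by
  have : d' = d := funext fun τ => funext fun z => hd τ z
  rw [this]; exact h

theorem Fam.congr_q (h : Fam q H V Ht ρ0 C d) (hq : ∀ p v, q' p v = q p v) :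
    Fam q' H V Ht ρ0 C d := by
  have : q' = q := funext fun τ => funext fun z => hq τ z
  rw [this]; exact h

/-- the density `q(H, V)` is bounded on the disc -/
theorem Fam.exists_bound (h : Fam q H V Ht ρ0 C d) (h0 : 0 < ρ0) :
    ∃ M : ℝ, ∀ z ∈ ball (0 : ℂ) 1, |q (H z) (V z)| ≤ M := by
  obtain ⟨ρ, h1, h2, h3⟩ := ((h.mean 1 one_pos).and (Ioo_mem_nhdsGT h0)).exists
  refine ⟨1 + C / ρ ^ 2, fun z hz => ?_⟩
  have hρ : 0 < ρ ^ 2 := by positivity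
  have h4 := h1 z hz
  have h5 : |mean4 (fun τ => d τ z) ρ| ≤ C := by
    rw [← Real.norm_eq_abs]
    refine norm_mean4_le fun w hw => ?_
    rw [Real.norm_eq_abs]
    refine h.bound w ?_ z hz
    rw [hw, abs_of_pos h2]; exact h3.le
  have h6 : |ρ ^ 2 * q (H z) (V z)| ≤ ρ ^ 2 * 1 + C := by
    have e : ρ ^ 2 * q (H z) (V z) = mean4 (fun τ => d τ z) ρ -
      (mean4 (fun τ => d τ z) ρ - ρ ^ 2 * q (H z) (V z)) := by ring
    rw [e]
    refine (abs_sub _ _).trans ?_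
    linarith
  rw [abs_mul, abs_of_pos hρ] at h6
  have h7 : 1 + C / ρ ^ 2 = (ρ ^ 2 * 1 + C) / ρ ^ 2 := by field_simp
  rw [h7, le_div_iff₀ hρ, mul_comm]
  exact h6

end algebra

/-! ### the Fubini-Study form along a line -/

theorem omg_mean4 {p : EE N} (hp : p ≠ 0) (a b : EE N) (ρ : ℝ) :
    mean4 (fun τ => Defs_58.omg p (a + τ • b)) ρ = Defs_58.omg p a + ρ ^ 2 * Defs_58.omg p b := by
  set u : EE N → ℝ := fun q => Real.log (∑ i, ‖q i‖ ^ 2) with hu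
  have huc : ContDiffAt ℝ 2 u p :=
    (Lev_901.contDiffAt_nsq p).log (LevBr_901.sum_nsq_pos hp).ne'
  have h1 : ∀ τ : ℂ, Defs_58.omg p (a + τ • b) = Defs_58.omg p a + ‖τ‖ ^ 2 * Defs_58.omg p b
      + 2 * ((starRingEnd ℂ) τ * Lev_901.levB u p a b).re := by
    intro τ
    rw [LevBr_901.omg_eq hp, LevBr_901.omg_eq hp, LevBr_901.omg_eq hp, LevBr_901.lev_eq,
      LevBr_901.lev_eq, LevBr_901.lev_eq, Lev_901.lev_add_vec huc, Lev_901.lev_smul,
      Lev_901.levB_smul_right]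
  simp only [h1, mean4, smul_eq_mul]
  simp only [norm_neg, norm_mul, Complex.norm_I, Complex.norm_real, one_mul, Real.norm_eq_abs,
    sq_abs, map_neg, map_mul, Complex.conj_I, Complex.conj_ofReal, neg_mul, Complex.neg_re]
  ring

section disc

variable {q : EE N → EE N → ℝ} {H V : ℂ → EE N} {Ht : ℂ → ℂ → EE N} {ρ0 C : ℝ}
  {d : ℂ → ℂ → ℝ}

/-- difference of the characteristics along the variation -/
theorem Fam.TE_sub (h : Fam q H V Ht ρ0 C d) (hq : Dens I q) (hH : DefsS_731.IsDisc I H)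
    (hV : VarH I H V Ht ρ0) {τ : ℂ} (hτ : ‖τ‖ ≤ ρ0) {s : ℝ} (hs : s ∈ Ico (0 : ℝ) 1) :
    TE q (Ht τ) s - TE q H s = Real.circleAverage (d τ) 0 s := by
  have := Green_740.TG_sub_eq (R := 1) hs.1 hs.2 (hq.continuousOn hH)
    (hq.continuousOn (hV.disc τ hτ)) (h.smooth τ hτ) (h.lev_eq τ hτ)
  rw [h.center τ hτ, sub_zero] at this
  exact this

theorem VarH.deriv_zero (hV : VarH I H V Ht ρ0) {z : ℂ} (hz : z ∈ ball (0 : ℂ) 1) :
    deriv (Ht 0) z = deriv H z := by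
  refine Filter.EventuallyEq.deriv_eq ?_
  filter_upwards [isOpen_ball.mem_nhds hz] with w hw
  exact hV.zero w hw

theorem VarH.TE_zero (hV : VarH I H V Ht ρ0) (q : EE N → EE N → ℝ) {s : ℝ}
    (hs : s ∈ Ico (0 : ℝ) 1) : TE q (Ht 0) s = TE q H s := by
  refine StFun_528.TG_congr hs.1 hs.2 fun z hz => ?_
  rw [hV.zero z hz, hV.deriv_zero hz]

theorem sphere_mem {s : ℝ} (hs : s ∈ Ico (0 : ℝ) 1) {z : ℂ} (hz : z ∈ sphere (0 : ℂ) |s|) :
    z ∈ ball (0 : ℂ) 1 := by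
  rw [mem_sphere_zero_iff_norm, abs_of_nonneg hs.1] at hz
  rw [mem_ball_zero_iff, hz]; exact hs.2

theorem cI {f : ℂ → ℝ} (hf : ContinuousOn f (ball 0 1)) {s : ℝ} (hs : s ∈ Ico (0 : ℝ) 1) :
    CircleIntegrable f 0 s :=
  ContinuousOn.circleIntegrable' (hf.mono fun _ hz => sphere_mem hs hz)

theorem cont_qV (hq : Dens I q) (hH : DefsS_731.IsDisc I H) (hVc : ContinuousOn V (ball 0 1))
    (hVt : ∀ z ∈ ball (0 : ℂ) 1, V z ∈ Tan I (H z)) :
    ContinuousOn (fun z => q (H z) (V z)) (ball 0 1) :=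
  hq.cont.comp (hH.hol.continuousOn.prodMk hVc) fun z hz => ⟨hH.cone z hz, hVt z hz⟩

/-- second order expansion of the circle averages -/
theorem Fam.mean_avg (h : Fam q H V Ht ρ0 C d) (hq : Dens I q) (hH : DefsS_731.IsDisc I H)
    (hρ0 : 0 < ρ0) (hVc : ContinuousOn V (ball 0 1))
    (hVt : ∀ z ∈ ball (0 : ℂ) 1, V z ∈ Tan I (H z)) {s : ℝ} (hs : s ∈ Ico (0 : ℝ) 1) {ε : ℝ}
    (hε : 0 < ε) : ∀ᶠ ρ in 𝓝[>] (0 : ℝ),
      |mean4 (fun τ => Real.circleAverage (d τ) 0 s) ρ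
        - ρ ^ 2 * Real.circleAverage (fun z => q (H z) (V z)) 0 s| ≤ ρ ^ 2 * ε := by
  filter_upwards [h.mean ε hε, Ioo_mem_nhdsGT hρ0] with ρ h1 h2
  have hτ : ∀ τ : ℂ, ‖τ‖ = |ρ| → ‖τ‖ ≤ ρ0 := fun τ h3 => by
    rw [h3, abs_of_pos h2.1]; exact h2.2.le
  have hc : ∀ τ : ℂ, ‖τ‖ = |ρ| → CircleIntegrable (d τ) 0 s := fun τ h3 =>
    cI (h.smooth τ (hτ τ h3)).continuousOn hs
  have hcm : ContinuousOn (fun z => mean4 (fun τ => d τ z) ρ) (ball 0 1) := by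
    have e1 := (h.smooth (ρ : ℂ) (hτ _ (by simp))).continuousOn
    have e2 := (h.smooth (Complex.I * ρ) (hτ _ (by simp))).continuousOn
    have e3 := (h.smooth (-(ρ : ℂ)) (hτ _ (by simp))).continuousOn
    have e4 := (h.smooth (-(Complex.I * ρ)) (hτ _ (by simp))).continuousOn
    simp only [mean4]
    exact (((e1.add e2).add e3).add e4).const_smul (1 / 4 : ℝ)
  have hcq := cont_qV hq hH hVc hVt
  have hcq2 : ContinuousOn (fun z => ρ ^ 2 * q (H z) (V z)) (ball 0 1) :=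
    continuousOn_const.mul hcq
  rw [SVar1_740.circleAverage_mean4 hc]
  have e5 : ρ ^ 2 * Real.circleAverage (fun z => q (H z) (V z)) 0 s
      = Real.circleAverage (fun z => ρ ^ 2 * q (H z) (V z)) 0 s := by
    have := Real.circleAverage_fun_smul (a := ρ ^ 2) (f := fun z => q (H z) (V z)) (c := (0 : ℂ))
      (R := s)
    simp only [smul_eq_mul] at this
    exact this.symm
  rw [e5, ← Real.circleAverage_fun_sub (cI hcm hs) (cI hcq2 hs)]
  refine Real.abs_circleAverage_le_circleAverage_abs.trans ?_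
  refine Real.circleAverage_mono_on_of_le_circle ?_ fun z hz => ?_
  · exact (cI (hcm.sub hcq2).abs hs)
  · exact h1 z (sphere_mem hs hz)

/-- the characteristic of a nonnegative density is nondecreasing -/
theorem TE_mono (hq : Dens I q) (hpos : ∀ p ∈ Cone I, ∀ v ∈ Tan I p, 0 ≤ q p v)
    (hH : DefsS_731.IsDisc I H) : MonotoneOn (fun s => TE q H s) (Ioo 0 1) := by
  intro s hs s' hs' hss
  refine Green_740.TG_mono_radius hs.1.le hss
    ((hq.continuousOn hH).mono (closedBall_subset_ball hs'.2)) fun z hz => ?_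
  have hz' : z ∈ ball (0 : ℂ) 1 := closedBall_subset_ball hs'.2 hz
  exact hpos _ (hH.cone z hz') _ (deriv_mem_Tan hH hz')

end disc

/-- **(VAR) along one variation**: first order inequality at a maximiser of
`c₀ |H'(0)|²_ω + T_{E₁}(H; r₁) - κ (T_E(H; 1) - t T_ω(H; r))` -/
theorem var_poly {E E1 : EE N → EE N → ℝ} (hE : Dens I E) (hE1 : Dens I E1)
    (hom : Dens I Defs_58.omg) (hEpos : ∀ p ∈ Cone I, ∀ v ∈ Tan I p, 0 ≤ E p v)
    {H V : ℂ → EE N} {Ht : ℂ → ℂ → EE N} {ρ0 CE C1 Co : ℝ} {dE d1 dO : ℂ → ℂ → ℝ}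
    (hH : DefsS_731.IsDisc I H) (hV : VarH I H V Ht ρ0) (hVc : ContinuousOn V (ball 0 1))
    (hVt : ∀ z ∈ ball (0 : ℂ) 1, V z ∈ Tan I (H z))
    (fE : Fam E H V Ht ρ0 CE dE) (f1 : Fam E1 H V Ht ρ0 C1 d1)
    (fo : Fam Defs_58.omg H V Ht ρ0 Co dO)
    {c0 κ t r1 r T1 B : ℝ} (hκ : 0 ≤ κ) (hr1 : r1 ∈ Ico (0 : ℝ) 1) (hr : r ∈ Ico (0 : ℝ) 1)
    (hT1 : Tendsto (fun s => TE E H s) (𝓝[<] 1) (𝓝 T1))
    (hmax : ∀ H' K', DefsS_731.IsDisc I H' → H' 0 = H 0 → (∀ s ∈ Ioo (0 : ℝ) 1, TE E H' s ≤ K') →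
      c0 * Defs_58.omg (H' 0) (deriv H' 0) + TE E1 H' r1 + κ * t * TE Defs_58.omg H' r - κ * K'
        ≤ c0 * Defs_58.omg (H 0) (deriv H 0) + TE E1 H r1 + κ * t * TE Defs_58.omg H r - κ * T1)
    (hB : ∃ᶠ s in 𝓝[<] (1 : ℝ), Real.circleAverage (fun z => E (H z) (V z)) 0 s ≤ B) :
    c0 * Defs_58.omg (H 0) (deriv V 0) + Real.circleAverage (fun z => E1 (H z) (V z)) 0 r1
      + κ * t * Real.circleAverage (fun z => Defs_58.omg (H z) (V z)) 0 r ≤ κ * B := by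
  have h00 : ‖(0 : ℂ)‖ ≤ ρ0 := by rw [norm_zero]; exact hV.pos.le
  set F : ℂ → ℝ := fun τ => c0 * Defs_58.omg (Ht τ 0) (deriv (Ht τ) 0) + TE E1 (Ht τ) r1
    + κ * t * TE Defs_58.omg (Ht τ) r with hF
  have hmem0 : (0 : ℂ) ∈ ball (0 : ℂ) 1 := mem_ball_self one_pos
  have hH0 : H 0 ≠ 0 := (hH.cone 0 hmem0).2
  have hF0 : F 0 = c0 * Defs_58.omg (H 0) (deriv H 0) + TE E1 H r1 + κ * t * TE Defs_58.omg H r := by
    simp only [hF]
    rw [hV.zero 0 hmem0, hV.deriv_zero hmem0, hV.TE_zero _ hr1, hV.TE_zero _ hr]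
  refine SVar1_740.var0 (F := F) (T := fun τ s => TE E (Ht τ) s) (T1 := T1) (ρ0 := ρ0) (C := CE)
    (δ := dE) (LE := fun z => E (H z) (V z)) hκ hV.pos ?_ ?_ ?_ ?_ ?_ ?_ ?_ ?_ hB ?_
  · -- expansion of `F`
    intro ε hε
    set ε' : ℝ := ε / (1 + |κ * t|) with hε'
    have hε'p : 0 < ε' := by positivity
    filter_upwards [f1.mean_avg hE1 hH hV.pos hVc hVt hr1 hε'p,
      fo.mean_avg hom hH hV.pos hVc hVt hr hε'p, Ioo_mem_nhdsGT hV.pos] with ρ h1 h2 h3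
    have hτ : ∀ τ : ℂ, ‖τ‖ = |ρ| → ‖τ‖ ≤ ρ0 := fun τ h4 => by
      rw [h4, abs_of_pos h3.1]; exact h3.2.le
    have hFτ : ∀ τ : ℂ, ‖τ‖ ≤ ρ0 → F τ - F 0
        = c0 * (Defs_58.omg (H 0) (deriv H 0 + τ • deriv V 0) - Defs_58.omg (H 0) (deriv H 0))
          + Real.circleAverage (d1 τ) 0 r1 + κ * t * Real.circleAverage (dO τ) 0 r := by
      intro τ h4
      rw [hF0, ← f1.TE_sub hE1 hH hV h4 hr1, ← fo.TE_sub hom hH hV h4 hr]
      simp only [hF]
      rw [hV.center τ h4, hV.deriv0 τ h4]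
      ring
    have hm : mean4 F ρ - F 0 = mean4 (fun τ => F τ - F 0) ρ := by
      rw [mean4_sub, mean4_const]
    have hm2 : mean4 (fun τ => F τ - F 0) ρ
        = c0 * (ρ ^ 2 * Defs_58.omg (H 0) (deriv V 0))
          + mean4 (fun τ => Real.circleAverage (d1 τ) 0 r1) ρ
          + κ * t * mean4 (fun τ => Real.circleAverage (dO τ) 0 r) ρ := by
      have e0 : mean4 (fun τ => F τ - F 0) ρ = mean4 (fun τ =>
          c0 * (Defs_58.omg (H 0) (deriv H 0 + τ • deriv V 0) - Defs_58.omg (H 0) (deriv H 0))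
          + Real.circleAverage (d1 τ) 0 r1 + κ * t * Real.circleAverage (dO τ) 0 r) ρ := by
        simp only [mean4]
        rw [hFτ _ (hτ _ (by simp)), hFτ _ (hτ _ (by simp)), hFτ _ (hτ _ (by simp)),
          hFτ _ (hτ _ (by simp))]
      have e1 := omg_mean4 hH0 (deriv H 0) (deriv V 0) ρ
      rw [e0]
      simp only [mean4, smul_eq_mul] at e1 ⊢
      linear_combination c0 * e1
    rw [hm, hm2]
    have h5 := abs_le.1 h1
    have h6 : |κ * t * (mean4 (fun τ => Real.circleAverage (dO τ) 0 r) ρ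
        - ρ ^ 2 * Real.circleAverage (fun z => Defs_58.omg (H z) (V z)) 0 r)|
        ≤ |κ * t| * (ρ ^ 2 * ε') := by
      rw [abs_mul]; exact mul_le_mul_of_nonneg_left h2 (abs_nonneg _)
    have h7 := abs_le.1 h6
    have h8 : ρ ^ 2 * ε = ρ ^ 2 * ε' + |κ * t| * (ρ ^ 2 * ε') := by
      rw [hε']; field_simp
    nlinarith [h5.1, h7.1]
  · -- limit at `τ = 0`
    refine hT1.congr' ?_
    filter_upwards [Ioo_mem_nhdsLT (show (0 : ℝ) < 1 by norm_num)] with s hs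
    exact (hV.TE_zero E ⟨hs.1.le, hs.2⟩).symm
  · exact fun τ hτ => TE_mono hE hEpos (hV.disc τ hτ)
  · intro τ hτ s hs
    have hs' : s ∈ Ico (0 : ℝ) 1 := ⟨hs.1.le, hs.2⟩
    rw [hV.TE_zero E hs', fE.TE_sub hE hH hV hτ hs']
  · exact fun τ hτ => (fE.smooth τ hτ).continuousOn
  · exact fun τ hτ z hz => (abs_le.1 (fE.bound τ hτ z hz)).2
  · exact cont_qV hE hH hVc hVt
  · intro ε hε
    filter_upwards [fE.mean ε hε] with ρ h1 z hz
    have := (abs_le.1 (h1 z hz)).2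
    linarith
  · intro τ hτ K' hK'
    rw [hF0]
    exact hmax (Ht τ) K' (hV.disc τ hτ) (hV.center τ hτ) hK'

end Crest.Agent.R269.SVar2_740
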