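import Mathlib
import Crest.Agent.R269.FlowMap_60

/-!
# VF2, part 2: derivative of the flow map in `Y`, tangency, admissible points (helper60, row 269)

* `Ph_ne_zero`; `good_nhds`; `DY X τ q` = derivative of `Y ↦ Ph X τ (c, Y)`; `DY_zero`, `DY_zero_left`,
  `DY_smul` (homogeneity), `DY_mem_Tan`;
* `Adm X τ q`; `exists_adm`: uniform radius for `‖c‖ ≤ Mc`, `Y ∈ Cone I`, `‖Y‖ ≤ 1`;
* `hasDerivAt_curve`: derivative of `z ↦ Ph X τ (c z, H z)` at a zero of `c`.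
-/

set_option autoImplicit false

open MvPolynomial Set Filter Topology Metric Module
open scoped ContDiff

namespace Crest.Agent.R269.FlowMap_60

open Crest.AlgGeometry.ProjEmb Crest.Agent.R269.Tan_60 Crest.Agent.R269.Geo_328
open Crest.Agent.R269.Flow_60 Crest.Agent.R269.Var_60 Crest.Agent.R266

variable {N M : ℕ} {X : Fin M → Fin (N + 1) → R N}

/-! ### bounds for the field -/

theorem exists_fld_bound (X : Fin M → Fin (N + 1) → R N) {D : ℕ}
    (hX : ∀ j k, (X j k).IsHomogeneous D) (Mc : ℝ) :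
    ∃ C : ℝ, 0 ≤ C ∧ ∀ c : Fin M → ℂ, ‖c‖ ≤ Mc → ∀ Y : EE N, ‖fld X (c, Y)‖ ≤ C * ‖Y‖ ^ D := by
  have hcomp : IsCompact ((closedBall (0 : Fin M → ℂ) Mc) ×ˢ (closedBall (0 : EE N) 1)) :=
    (isCompact_closedBall _ _).prod (isCompact_closedBall _ _)
  obtain ⟨C, hC⟩ := hcomp.exists_bound_of_continuousOn (contDiff_fld X).continuous.continuousOn
  refine ⟨max C 0, le_max_right _ _, fun c hc Y => ?_⟩
  have hc' : c ∈ closedBall (0 : Fin M → ℂ) Mc := by rwa [mem_closedBall_zero_iff]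
  by_cases hY : ‖Y‖ = 0
  · have hY0 : Y = 0 := norm_eq_zero.mp hY
    subst hY0
    by_cases hD : D = 0
    · subst hD
      have := hC (c, 0) ⟨hc', by simp⟩
      simpa using this.trans (le_max_left C 0)
    · have h1 : fld X (c, (0 : EE N)) = 0 := by
        have h2 := fld_smul_right hX (0 : ℂ) c (0 : EE N)
        rw [zero_smul, zero_pow hD, zero_smul] at h2
        exact h2
      rw [h1, norm_zero]
      positivity
  · have hYp : 0 < ‖Y‖ := lt_of_le_of_ne (norm_nonneg _) (Ne.symm hY)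
    have h1 : Y = ((‖Y‖ : ℝ) : ℂ) • (((‖Y‖⁻¹ : ℝ) : ℂ) • Y) := by
      rw [smul_smul, ← Complex.ofReal_mul, mul_inv_cancel₀ hY, Complex.ofReal_one, one_smul]
    have h2 : fld X (c, Y) = ((‖Y‖ : ℝ) : ℂ) ^ D • fld X (c, ((‖Y‖⁻¹ : ℝ) : ℂ) • Y) := by
      rw [← fld_smul_right hX, ← h1]
    have h3 : ‖fld X (c, ((‖Y‖⁻¹ : ℝ) : ℂ) • Y)‖ ≤ C := by
      refine hC _ ⟨hc', ?_⟩
      rw [mem_closedBall_zero_iff, norm_smul, Complex.norm_real, norm_inv, norm_norm,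
        inv_mul_cancel₀ hY]
    rw [h2, norm_smul, norm_pow, Complex.norm_real, norm_norm, mul_comm]
    gcongr
    exact h3.trans (le_max_left _ _)

/-- the flow does not reach `0` -/
theorem Ph_ne_zero {D : ℕ} (hD : 1 ≤ D) (hX : ∀ j k, (X j k).IsHomogeneous D) {ρ : ℝ}
    {q : PS N M} (h : Good X ρ q) (hq : q.2 ≠ 0) {τ : ℂ} (hτ : τ ∈ ball (0 : ℂ) ρ) :
    Ph X τ q ≠ 0 := by
  intro h0
  obtain ⟨C, hC0, hC⟩ := exists_fld_bound X hX ‖q.1‖
  have hmem : ∀ t ∈ Icc (0 : ℝ) 1, (1 - t) • τ ∈ ball (0 : ℂ) ρ := by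
    intro t ht
    rw [mem_ball_zero_iff] at hτ ⊢
    rw [norm_smul, Real.norm_eq_abs, abs_of_nonneg (by linarith [ht.2])]
    calc (1 - t) * ‖τ‖ ≤ 1 * ‖τ‖ := by gcongr; linarith [ht.1]
      _ < ρ := by rwa [one_mul]
  let f : ℝ → EE N := fun t => Ph X ((1 - t) • τ) q
  have hf : ∀ t ∈ Icc (0 : ℝ) 1, HasDerivAt f ((-τ) • fld X (q.1, f t)) t := by
    intro t ht
    have h1 := hasDerivAt_Ph h (hmem t ht)
    have h2 : HasDerivAt (fun t : ℝ => (1 - t) • τ) (-τ) t := by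
      have := ((hasDerivAt_id t).const_sub 1).smul_const τ
      simpa using this
    exact HasDerivAt.scomp t h1 h2
  have hfc : ContinuousOn f (Icc 0 1) := fun t ht => (hf t ht).continuousAt.continuousWithinAt
  obtain ⟨B, hB⟩ := isCompact_Icc.exists_bound_of_continuousOn hfc
  have hB0 : 0 ≤ B := le_trans (norm_nonneg _) (hB 0 ⟨le_rfl, zero_le_one⟩)
  have hbound : ∀ t ∈ Ico (0 : ℝ) 1, ‖(-τ) • fld X (q.1, f t)‖ ≤
      (‖τ‖ * (C * B ^ (D - 1))) * ‖f t‖ + 0 := by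
    intro t ht
    have ht' : t ∈ Icc (0 : ℝ) 1 := ⟨ht.1, ht.2.le⟩
    rw [norm_smul, norm_neg, add_zero]
    have h1 := hC q.1 le_rfl (f t)
    obtain ⟨e, rfl⟩ : ∃ e, D = e + 1 := ⟨D - 1, by omega⟩
    simp only [Nat.add_sub_cancel]
    have h2 : ‖f t‖ ^ (e + 1) ≤ B ^ e * ‖f t‖ := by
      rw [pow_succ]
      gcongr
      exact hB t ht'
    calc ‖τ‖ * ‖fld X (q.1, f t)‖ ≤ ‖τ‖ * (C * ‖f t‖ ^ (e + 1)) := by gcongr
      _ ≤ ‖τ‖ * (C * (B ^ e * ‖f t‖)) := by gcongr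
      _ = ‖τ‖ * (C * B ^ e) * ‖f t‖ := by ring
  have hgr := norm_le_gronwallBound_of_norm_deriv_right_le (δ := 0) hfc
    (fun t ht => (hf t ⟨ht.1, ht.2.le⟩).hasDerivWithinAt) (by simp [f, h0]) hbound 1
    ⟨zero_le_one, le_rfl⟩
  have h1 : f 1 = q.2 := by simp [f, Ph_zero]
  rw [gronwallBound_ε0_δ0, h1] at hgr
  exact hq (norm_le_zero_iff.mp hgr)

theorem Ph_mem_Cone {I : Ideal (R N)} {D : ℕ} (hD : 1 ≤ D) (hX : ∀ j k, (X j k).IsHomogeneous D)
    (hXI : ∀ j, ∀ P ∈ I, ∑ k, pderiv k P * X j k ∈ I)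
    {ρ : ℝ} {q : PS N M} (h : Good X ρ q) (hq : q.2 ∈ Cone I) {τ : ℂ}
    (hτ : τ ∈ ball (0 : ℂ) ρ) : Ph X τ q ∈ Cone I :=
  ⟨Ph_mem_cone hXI h hq.1 hτ, Ph_ne_zero hD hX h hq.2 hτ⟩

/-! ### neighbourhoods -/

theorem good_nhds {ρ ρ' : ℝ} {q : PS N M} (h : Good X ρ q) (hρ : ρ' < ρ) :
    ∀ᶠ q' in 𝓝 q, Good X ρ' q' := by
  have hsub : closedBall (0 : ℂ) ρ' ⊆ ball 0 ρ := closedBall_subset_ball hρ
  obtain ⟨u, v, hu, hv, hKu, hqv, huv⟩ :=
    generalized_tube_lemma (isCompact_closedBall (0 : ℂ) ρ') (isCompact_singleton (x := q))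
      (isOpen_DM X) (by
      rintro ⟨a, q'⟩ ⟨ha, hq'⟩
      rw [mem_singleton_iff] at hq'
      simp only at hq'
      rw [hq']
      exact h a (hsub ha))
  filter_upwards [hv.mem_nhds (hqv rfl)] with q' hq' τ hτ
  exact huv ⟨hKu (ball_subset_closedBall hτ), hq'⟩

theorem exists_good (q : PS N M) : ∃ ρ : ℝ, 0 < ρ ∧ Good X ρ q := by
  obtain ⟨ρ, hρ, h⟩ := exists_rho (isCompact_singleton (x := q)) (isOpen_DM X)
    (by rintro q' hq'; rw [mem_singleton_iff] at hq'; rw [hq']; exact zero_mem_DM X q)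
  exact ⟨ρ, hρ, fun τ hτ => h τ (by rw [mem_ball_zero_iff] at hτ; exact hτ.le) q rfl⟩

/-! ### derivative in `Y` -/

variable (X) in
/-- the derivative of `Y ↦ Ph X τ (c, Y)` -/
noncomputable def DY (τ : ℂ) (q : PS N M) : EE N →L[ℂ] EE N :=
  (fderiv ℂ (fun x : ℂ × PS N M => Ph X x.1 x.2) (τ, q)).comp
    ((ContinuousLinearMap.inr ℂ ℂ (PS N M)).comp (ContinuousLinearMap.inr ℂ (Fin M → ℂ) (EE N)))

theorem analyticOnNhd_DY : AnalyticOnNhd ℂ (fun x : ℂ × PS N M => DY X x.1 x.2) (DM X) := by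
  intro x hx
  have h1 := (analyticOnNhd_Ph X).fderiv x hx
  let K : EE N →L[ℂ] ℂ × PS N M :=
    (ContinuousLinearMap.inr ℂ ℂ (PS N M)).comp (ContinuousLinearMap.inr ℂ (Fin M → ℂ) (EE N))
  let L : ((ℂ × PS N M) →L[ℂ] EE N) →L[ℂ] (EE N →L[ℂ] EE N) :=
    (ContinuousLinearMap.compL ℂ (EE N) (ℂ × PS N M) (EE N)).flip K
  exact (L.analyticAt _).comp h1

theorem hasFDerivAt_Ph_Y {τ : ℂ} {c : Fin M → ℂ} {Y : EE N} (h : (τ, (c, Y)) ∈ DM X) :
    HasFDerivAt (fun Y => Ph X τ (c, Y)) (DY X τ (c, Y)) Y := by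
  have h1 := (analyticOnNhd_Ph X _ h).differentiableAt.hasFDerivAt
  have h2 : HasFDerivAt (fun Y : EE N => ((τ, (c, Y)) : ℂ × PS N M))
      ((ContinuousLinearMap.inr ℂ ℂ (PS N M)).comp
        (ContinuousLinearMap.inr ℂ (Fin M → ℂ) (EE N))) Y := by
    have h3 : HasFDerivAt (fun Y : EE N => ((c, Y) : PS N M))
      (ContinuousLinearMap.inr ℂ (Fin M → ℂ) (EE N)) Y := hasFDerivAt_prodMk_right c Y
    exact (hasFDerivAt_prodMk_right (𝕜 := ℂ) τ ((c, Y) : PS N M)).comp Y h3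
  exact HasFDerivAt.comp Y h1 h2

theorem DY_zero (q : PS N M) : DY X 0 q = ContinuousLinearMap.id ℂ (EE N) := by
  obtain ⟨c, Y⟩ := q
  have h1 := hasFDerivAt_Ph_Y (zero_mem_DM X (c, Y))
  have h2 : (fun Y => Ph X 0 (c, Y)) = fun Y => Y := by
    funext Y
    exact Ph_zero X (c, Y)
  rw [h2] at h1
  exact h1.unique (hasFDerivAt_id Y)

theorem mem_DM_zero_left (τ : ℂ) (Y : EE N) : (τ, ((0 : Fin M → ℂ), Y)) ∈ DM X :=
  good_zero_left (‖τ‖ + 1) Y τ (by rw [mem_ball_zero_iff]; linarith)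

theorem DY_zero_left (τ : ℂ) (Y : EE N) :
    DY X τ ((0 : Fin M → ℂ), Y) = ContinuousLinearMap.id ℂ (EE N) := by
  have h1 := hasFDerivAt_Ph_Y (mem_DM_zero_left (X := X) τ Y)
  have h2 : (fun Y => Ph X τ ((0 : Fin M → ℂ), Y)) = fun Y => Y := by
    funext Y
    exact Ph_zero_left τ Y
  rw [h2] at h1
  exact h1.unique (hasFDerivAt_id Y)

/-- homogeneity of the derivative -/
theorem DY_smul {D : ℕ} (hD : 1 ≤ D) (hX : ∀ j k, (X j k).IsHomogeneous D) {ρ : ℝ}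
    {c : Fin M → ℂ} {Y : EE N} {t : ℂ} (ht : t ≠ 0) (h : Good X ρ (t ^ (D - 1) • c, Y)) {τ : ℂ}
    (hτ : τ ∈ ball (0 : ℂ) ρ) : DY X τ (c, t • Y) = DY X τ (t ^ (D - 1) • c, Y) := by
  obtain ⟨ρ', hτρ', hρ'⟩ : ∃ ρ', ‖τ‖ < ρ' ∧ ρ' < ρ :=
    exists_between (by rwa [mem_ball_zero_iff] at hτ)
  have hτ' : τ ∈ ball (0 : ℂ) ρ' := by rwa [mem_ball_zero_iff]
  have h1 := hasFDerivAt_Ph_Y (h τ hτ)
  have h2 := hasFDerivAt_Ph_Y ((Ph_smul hD hX t h).1 τ hτ)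
  -- both sides as derivatives of `Y ↦ Ph X τ (c, t • Y)`
  have h3 : HasFDerivAt (fun Y : EE N => Ph X τ (c, t • Y))
      ((DY X τ (c, t • Y)).comp (t • ContinuousLinearMap.id ℂ (EE N))) Y := by
    have h4 : HasFDerivAt (fun Y : EE N => t • Y) (t • ContinuousLinearMap.id ℂ (EE N)) Y :=
      (hasFDerivAt_id Y).const_smul t
    exact HasFDerivAt.comp Y h2 h4
  have h5 : HasFDerivAt (fun Y : EE N => t • Ph X τ (t ^ (D - 1) • c, Y))
      (t • DY X τ (t ^ (D - 1) • c, Y)) Y := h1.const_smul t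
  have hev : (fun Y : EE N => Ph X τ (c, t • Y)) =ᶠ[𝓝 Y]
      fun Y : EE N => t • Ph X τ (t ^ (D - 1) • c, Y) := by
    have h6 := good_nhds h hρ'
    have h7 : Tendsto (fun Y : EE N => ((t ^ (D - 1) • c, Y) : PS N M)) (𝓝 Y)
        (𝓝 (t ^ (D - 1) • c, Y)) := by
      have : Continuous fun Y : EE N => ((t ^ (D - 1) • c, Y) : PS N M) := by fun_prop
      exact this.tendsto Y
    filter_upwards [h7.eventually h6] with Y' hY'
    exact (Ph_smul hD hX t hY').2 τ hτ'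
  have h8 := h3.unique (h5.congr_of_eventuallyEq hev)
  ext v : 1
  have h9 := congrArg (fun L : EE N →L[ℂ] EE N => L v) h8
  simp only [ContinuousLinearMap.comp_apply, smul_apply, ContinuousLinearMap.id_apply,
    map_smul] at h9
  exact smul_right_injective _ ht h9

/-- the derivative maps tangent vectors to tangent vectors -/
theorem DY_mem_Tan {I : Ideal (R N)} (hXI : ∀ j, ∀ P ∈ I, ∑ k, pderiv k P * X j k ∈ I)
    {ρ : ℝ} {c : Fin M → ℂ} {Y : EE N} (h : Good X ρ (c, Y)) (hY : Y ∈ affineCone I)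
    (hsp : Tan I Y ≤ Submodule.span ℂ (Set.range fun j => fun k => eval Y (X j k)))
    {τ : ℂ} (hτ : τ ∈ ball (0 : ℂ) ρ) {v : EE N} (hv : v ∈ Tan I Y) :
    DY X τ (c, Y) v ∈ Tan I (Ph X τ (c, Y)) := by
  classical
  obtain ⟨ρ', hτρ', hρ'⟩ : ∃ ρ', ‖τ‖ < ρ' ∧ ρ' < ρ :=
    exists_between (by rwa [mem_ball_zero_iff] at hτ)
  have hτ' : τ ∈ ball (0 : ℂ) ρ' := by rwa [mem_ball_zero_iff]
  have key : ∀ j : Fin M, DY X τ (c, Y) (fun k => eval Y (X j k)) ∈ Tan I (Ph X τ (c, Y)) := by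
    intro j
    obtain ⟨ρ1, hρ1, hg1⟩ := exists_good (X := X) ((Pi.single j 1 : Fin M → ℂ), Y)
    have hγ : HasDerivAt (fun s => Ph X s ((Pi.single j 1 : Fin M → ℂ), Y))
        (fun k => eval Y (X j k)) 0 := by
      have := hasDerivAt_Ph hg1 (mem_ball_self hρ1)
      rw [Ph_zero, fld_single] at this
      exact this
    have h0 : Ph X 0 ((Pi.single j 1 : Fin M → ℂ), Y) = Y := Ph_zero X _
    have hcomp : HasDerivAt (fun s => Ph X τ (c, Ph X s ((Pi.single j 1 : Fin M → ℂ), Y)))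
        (DY X τ (c, Y) (fun k => eval Y (X j k))) 0 := by
      have h1 := hasFDerivAt_Ph_Y (h τ hτ)
      rw [← h0] at h1
      have h2 := h1.comp_hasDerivAt (0 : ℂ) hγ
      rw [h0] at h2
      exact h2
    have hev : ∀ᶠ s in 𝓝 (0 : ℂ),
        Ph X τ (c, Ph X s ((Pi.single j 1 : Fin M → ℂ), Y)) ∈ affineCone I := by
      have h6 := good_nhds h hρ'
      have h7 : Tendsto (fun s => ((c, Ph X s ((Pi.single j 1 : Fin M → ℂ), Y)) : PS N M)) (𝓝 0)
          (𝓝 (c, Y)) := by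
        have h8 := hγ.continuousAt.tendsto
        rw [h0] at h8
        exact tendsto_const_nhds.prodMk_nhds h8
      filter_upwards [h7.eventually h6, ball_mem_nhds (0 : ℂ) hρ1] with s hs hs1
      exact Ph_mem_cone hXI hs (Ph_mem_cone hXI hg1 hY hs1) hτ'
    intro P hP
    have h3 := hasDerivAt_aeval (A := ℂ) P hcomp
    simp only [aeval_eq_eval, h0] at h3
    have h4 : (fun s => eval (Ph X τ (c, Ph X s ((Pi.single j 1 : Fin M → ℂ), Y))) P)
        =ᶠ[𝓝 0] fun _ => (0 : ℂ) := by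
      filter_upwards [hev] with s hs
      exact hs P hP
    have h5 := h3.unique ((hasDerivAt_const (0 : ℂ) (0 : ℂ)).congr_of_eventuallyEq h4)
    exact h5
  have hv' := hsp hv
  refine Submodule.span_induction (p := fun v _ => DY X τ (c, Y) v ∈ Tan I (Ph X τ (c, Y)))
    ?_ ?_ ?_ ?_ hv'
  · rintro _ ⟨j, rfl⟩
    exact key j
  · rw [map_zero]
    exact Submodule.zero_mem _
  · intro x y _ _ hx hy
    rw [map_add]
    exact Submodule.add_mem _ hx hy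
  · intro a x _ hx
    rw [map_smul]
    exact Submodule.smul_mem _ _ hx

/-! ### admissible points -/

variable (X) in
/-- admissible pairs `(τ, q)` -/
structure Adm (τ : ℂ) (q : PS N M) : Prop where
  good : ∃ ρ, Good X ρ q ∧ τ ∈ ball (0 : ℂ) ρ
  inj : Function.Injective (DY X τ q)

theorem adm_zero (q : PS N M) : Adm X 0 q := by
  obtain ⟨ρ, hρ, h⟩ := exists_good (X := X) q
  refine ⟨⟨ρ, h, mem_ball_self hρ⟩, ?_⟩
  rw [DY_zero]
  exact fun a b h => h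

/-- injectivity near the identity -/
theorem injective_of_norm_sub_lt {V : Type*} [NormedAddCommGroup V] [NormedSpace ℂ V]
    {L : V →L[ℂ] V} (h : ‖L - ContinuousLinearMap.id ℂ V‖ < 1) : Function.Injective L := by
  rw [injective_iff_map_eq_zero]
  intro v hv
  by_contra hne
  have hpos : 0 < ‖v‖ := norm_pos_iff.mpr hne
  have h1 : ‖v‖ ≤ ‖L - ContinuousLinearMap.id ℂ V‖ * ‖v‖ := by
    have h2 := (L - ContinuousLinearMap.id ℂ V).le_opNorm v
    have h3 : (L - ContinuousLinearMap.id ℂ V) v = -v := by simp [hv]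
    rw [h3, norm_neg] at h2
    exact h2
  nlinarith

/-- **uniform radius** -/
theorem exists_adm (X : Fin M → Fin (N + 1) → R N) (Mc : ℝ) :
    ∃ ρ : ℝ, 0 < ρ ∧ ∀ c : Fin M → ℂ, ‖c‖ ≤ Mc → ∀ Y : EE N, ‖Y‖ ≤ 1 →
      Good X (2 * ρ) (c, Y) ∧ ∀ τ : ℂ, ‖τ‖ ≤ ρ → Adm X τ (c, Y) := by
  let K : Set (PS N M) := (closedBall (0 : Fin M → ℂ) Mc) ×ˢ (closedBall (0 : EE N) 1)
  have hK : IsCompact K := (isCompact_closedBall _ _).prod (isCompact_closedBall _ _)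
  let O : Set (ℂ × PS N M) := DM X ∩
    (fun x : ℂ × PS N M => ‖DY X x.1 x.2 - ContinuousLinearMap.id ℂ (EE N)‖) ⁻¹' (Iio 1)
  have hO : IsOpen O := by
    refine ContinuousOn.isOpen_inter_preimage ?_ (isOpen_DM X) isOpen_Iio
    exact ((analyticOnNhd_DY (X := X)).continuousOn.sub continuousOn_const).norm
  have h0 : ∀ q ∈ K, ((0 : ℂ), q) ∈ O := by
    intro q _
    refine ⟨zero_mem_DM X q, ?_⟩
    simp [DY_zero]
  obtain ⟨ρ, hρ, h⟩ := exists_rho hK hO h0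
  refine ⟨ρ / 2, by positivity, fun c hc Y hY => ?_⟩
  have hq : ((c, Y) : PS N M) ∈ K :=
    ⟨by rwa [mem_closedBall_zero_iff], by rwa [mem_closedBall_zero_iff]⟩
  have hgood : Good X (2 * (ρ / 2)) (c, Y) := by
    intro τ hτ
    rw [mem_ball_zero_iff] at hτ
    exact (h τ (by linarith) _ hq).1
  refine ⟨hgood, fun τ hτ => ⟨⟨2 * (ρ / 2), hgood, ?_⟩, ?_⟩⟩
  · rw [mem_ball_zero_iff]
    linarith
  · exact injective_of_norm_sub_lt (h τ (by linarith) _ hq).2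

/-! ### curves -/

theorem hasFDerivAt_Ph {τ : ℂ} {q : PS N M} (h : (τ, q) ∈ DM X) :
    HasFDerivAt (fun q => Ph X τ q)
      ((fderiv ℂ (fun x : ℂ × PS N M => Ph X x.1 x.2) (τ, q)).comp
        (ContinuousLinearMap.inr ℂ ℂ (PS N M))) q := by
  have h1 := (analyticOnNhd_Ph X _ h).differentiableAt.hasFDerivAt
  exact HasFDerivAt.comp q h1 (hasFDerivAt_prodMk_right τ q)

theorem differentiableAt_Ph {τ : ℂ} {q : PS N M} (h : (τ, q) ∈ DM X) :
    DifferentiableAt ℂ (fun q => Ph X τ q) q := (hasFDerivAt_Ph h).differentiableAt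

theorem hasDerivAt_coeff (τ : ℂ) (c' : Fin M → ℂ) (Y : EE N) :
    HasDerivAt (fun s : ℂ => Ph X τ (s • c', Y)) (τ • fld X (c', Y)) 0 := by
  obtain ⟨ρ, hρ, hg⟩ := exists_good (X := X) (c', Y)
  have h1 := hasDerivAt_Ph hg (mem_ball_self hρ)
  rw [Ph_zero] at h1
  have h2 : HasDerivAt (fun s : ℂ => s * τ) τ 0 := by
    simpa using (hasDerivAt_id (0 : ℂ)).mul_const τ
  have h3 : HasDerivAt (fun s : ℂ => Ph X (s * τ) (c', Y)) (τ • fld X (c', Y)) 0 := by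
    have h1' : HasDerivAt (fun τ => Ph X τ (c', Y)) (fld X (c', Y)) ((0 : ℂ) * τ) := by
      rw [zero_mul]; exact h1
    exact HasDerivAt.scomp (0 : ℂ) h1' h2
  refine h3.congr_of_eventuallyEq ?_
  have hpos : 0 < ρ / (‖τ‖ + 1) := by positivity
  filter_upwards [ball_mem_nhds (0 : ℂ) hpos] with s hs
  rw [mem_ball_zero_iff, lt_div_iff₀ (by positivity)] at hs
  have h4 := Ph_time (X := X) s (ρ' := ‖τ‖ + 1) hg (by
    intro τ' hτ'
    rw [mem_ball_zero_iff] at hτ' ⊢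
    rw [norm_mul]
    refine lt_of_le_of_lt ?_ hs
    gcongr)
  exact h4.2 τ (by rw [mem_ball_zero_iff]; linarith)

/-- derivative of `z ↦ Φ_τ(c z, H z)` at a zero of `c` -/
theorem hasDerivAt_curve (τ : ℂ) {H : ℂ → EE N} {c : ℂ → Fin M → ℂ} {z₀ : ℂ} {H' : EE N}
    {c' : Fin M → ℂ} (hH : HasDerivAt H H' z₀) (hc : HasDerivAt c c' z₀) (h0 : c z₀ = 0) :
    HasDerivAt (fun z => Ph X τ (c z, H z)) (H' + τ • fld X (c', H z₀)) z₀ := by
  have hmem : (τ, ((c z₀, H z₀) : PS N M)) ∈ DM X := by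
    rw [h0]; exact mem_DM_zero_left τ _
  have h1 := (hasFDerivAt_Ph hmem).comp_hasDerivAt z₀ (hc.prodMk hH)
  refine h1.congr_deriv ?_
  set L := (fderiv ℂ (fun x : ℂ × PS N M => Ph X x.1 x.2) (τ, ((c z₀, H z₀) : PS N M))).comp
    (ContinuousLinearMap.inr ℂ ℂ (PS N M)) with hL
  have hsplit : ((c', H') : PS N M) = (0, H') + (c', 0) := by simp
  rw [hsplit, map_add]
  congr 1
  · have h2 : L (0, H') = DY X τ (c z₀, H z₀) H' := rfl
    rw [h2, h0, DY_zero_left]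
    rfl
  · have h3 : HasDerivAt (fun s : ℂ => Ph X τ (s • c', H z₀)) (L (c', 0)) 0 := by
      have h4 : HasDerivAt (fun s : ℂ => ((s • c', H z₀) : PS N M)) (c', 0) 0 := by
        have h5 : HasDerivAt (fun s : ℂ => s • c') c' 0 := by
          simpa using (hasDerivAt_id (0 : ℂ)).smul_const c'
        exact h5.prodMk (hasDerivAt_const _ _)
      have h6 := hasFDerivAt_Ph hmem
      have h7 : ((0 : ℂ) • c', H z₀) = ((c z₀, H z₀) : PS N M) := by rw [h0, zero_smul]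
      rw [← hL, ← h7] at h6
      exact HasFDerivAt.comp_hasDerivAt (l := fun q => Ph X τ q)
        (f := fun s : ℂ => ((s • c', H z₀) : PS N M)) (0 : ℂ) h6 h4
    exact h3.unique (hasDerivAt_coeff τ c' (H z₀))

end Crest.Agent.R269.FlowMap_60
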