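import Mathlib
import Crest.Agent.R269.Var2_60
import Crest.Agent.R269.Alp5_927
import Crest.Agent.R269.DefsS_731
import Crest.Agent.R269.Levi2_599

/-!
# VF4: potentials of the densities `omg`, `lev u`, `alpha` for the flow map (helper60, row 269)

`FlowPot Y E F` : `F τ (c, p)` is the difference of the potentials of the density `E` at
`Φ_τ(c, p)` and at `p`.  Instances: `flowPot_lev`, `flowPot_omg`, `flowPot_alpha`; linear combinations
`FlowPot.add`, `FlowPot.const_mul`.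
`FlowPot.unif` : uniform Lipschitz bound and uniform 4-point mean value expansion on
`‖c‖ ≤ Mc`, `p ∈ Cone I`, `‖p‖ ≤ 1`.
-/

set_option autoImplicit false

open MvPolynomial Set Filter Topology Metric Module
open scoped ContDiff ComplexConjugate

noncomputable section

namespace Crest.Agent.R269.VarPot_60

open Crest.AlgGeometry.ProjEmb Crest.Agent.R269.Tan_60 Crest.Agent.R269.Geo_328
open Crest.Agent.R269.FlowMap_60 Crest.Agent.R269.DefsS_731 Crest.Agent.R269.Defs_58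
open Crest.Agent.R269.Alp_927 Crest.Agent.R269.Levi2_599

variable {N n : ℕ} {I : Ideal (HomCoordRing N)}

abbrev L (u : ℂ → ℝ) (z v : ℂ) : ℝ := LevC_653.lev u z v

/-- the difference of potentials of the density `E` along the flow of the fields `Y` -/
structure FlowPot (Y : Flds I) (E : EE N → EE N → ℝ) (F : ℂ → PS N Y.M → ℝ) : Prop where
  zero : ∀ c, ∀ p ∈ Cone I, F 0 (c, p) = 0
  fix : ∀ τ, ∀ p ∈ Cone I, F τ (0, p) = 0
  hom : ∀ τ c p, p ∈ Cone I → ∀ t : ℝ, 0 < t → Adm Y.X τ ((t : ℂ) ^ (Y.D - 1) • c, p) →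
    F τ (c, (t : ℂ) • p) = F τ ((t : ℂ) ^ (Y.D - 1) • c, p)
  smooth : ∀ τ c p, p ∈ Cone I → Adm Y.X τ (c, p) →
    ContDiffAt ℝ 2 (fun x : ℂ × PS N Y.M => F x.1 x.2) (τ, (c, p))
  levT : ∀ c p, p ∈ Cone I → L (fun τ => F τ (c, p)) 0 1 = E p (fld Y.X (c, p))
  levZ : ∀ (τ : ℂ) (c : ℂ → Fin Y.M → ℂ) (H : ℂ → EE N) (z : ℂ), AnalyticAt ℂ c z →
    AnalyticAt ℂ H z → (∀ᶠ w in 𝓝 z, H w ∈ Cone I) → Adm Y.X τ (c z, H z) →
    L (fun w => F τ (c w, H w)) z 1 =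
      E (Ph Y.X τ (c z, H z)) (deriv (fun w => Ph Y.X τ (c w, H w)) z) - E (H z) (deriv H z)

variable {Y : Flds I} {E E' : EE N → EE N → ℝ} {F F' : ℂ → PS N Y.M → ℝ}

theorem FlowPot.smoothT (h : FlowPot Y E F) {c : Fin Y.M → ℂ} {p : EE N} (hp : p ∈ Cone I) :
    ContDiffAt ℝ 2 (fun τ => F τ (c, p)) 0 := by
  have h1 := h.smooth 0 c p hp (adm_zero _)
  have h2 : ContDiffAt ℝ 2 (fun τ : ℂ => ((τ, (c, p)) : ℂ × PS N Y.M)) 0 :=
    contDiffAt_id.prodMk contDiffAt_const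
  exact ContDiffAt.comp (0 : ℂ) h1 h2

theorem FlowPot.smoothZ (h : FlowPot Y E F) {τ : ℂ} {c : ℂ → Fin Y.M → ℂ} {H : ℂ → EE N} {z : ℂ}
    (hc : AnalyticAt ℂ c z) (hH : AnalyticAt ℂ H z) (hI : H z ∈ Cone I)
    (ha : Adm Y.X τ (c z, H z)) : ContDiffAt ℝ 2 (fun w => F τ (c w, H w)) z := by
  have h1 := h.smooth τ (c z) (H z) hI ha
  have h2 : ContDiffAt ℝ 2 (fun w : ℂ => ((τ, (c w, H w)) : ℂ × PS N Y.M)) z := by
    refine contDiffAt_const.prodMk (ContDiffAt.prodMk ?_ ?_)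
    · exact hc.contDiffAt.restrict_scalars ℝ
    · exact hH.contDiffAt.restrict_scalars ℝ
  exact ContDiffAt.comp (g := fun x : ℂ × PS N Y.M => F x.1 x.2)
    (f := fun w : ℂ => ((τ, (c w, H w)) : ℂ × PS N Y.M)) z h1 h2

theorem FlowPot.congr (h : FlowPot Y E F) (hE : ∀ p ∈ Cone I, ∀ v, E p v = E' p v)
    (hcone : ∀ τ c, ∀ p ∈ Cone I, Adm Y.X τ (c, p) → Ph Y.X τ (c, p) ∈ Cone I) :
    FlowPot Y E' F where
  zero := h.zero
  fix := h.fix
  hom := h.hom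
  smooth := h.smooth
  levT := fun c p hp => by rw [h.levT c p hp, hE p hp]
  levZ := fun τ c H z hc hH hI ha => by
    rw [h.levZ τ c H z hc hH hI ha, hE _ (hcone τ _ _ hI.self_of_nhds ha), hE _ hI.self_of_nhds]

theorem FlowPot.add (h : FlowPot Y E F) (h' : FlowPot Y E' F') :
    FlowPot Y (fun p v => E p v + E' p v) (fun τ q => F τ q + F' τ q) where
  zero := fun c p hp => by rw [h.zero c p hp, h'.zero c p hp, add_zero]
  fix := fun τ p hp => by rw [h.fix τ p hp, h'.fix τ p hp, add_zero]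
  hom := fun τ c p hp t ht ha => by rw [h.hom τ c p hp t ht ha, h'.hom τ c p hp t ht ha]
  smooth := fun τ c p hp ha => (h.smooth τ c p hp ha).add (h'.smooth τ c p hp ha)
  levT := fun c p hp => by
    have := LevC_653.lev_add (h.smoothT (c := c) hp) (h'.smoothT (c := c) hp) (1 : ℂ)
    simp only [L] at this ⊢
    rw [this]
    exact congrArg₂ (· + ·) (h.levT c p hp) (h'.levT c p hp)
  levZ := fun τ c H z hc hH hI ha => by
    have := LevC_653.lev_add (h.smoothZ hc hH hI.self_of_nhds ha)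
      (h'.smoothZ hc hH hI.self_of_nhds ha) (1 : ℂ)
    simp only [L] at this ⊢
    rw [this]
    have h1 := h.levZ τ c H z hc hH hI ha
    have h2 := h'.levZ τ c H z hc hH hI ha
    simp only [L] at h1 h2
    rw [h1, h2]
    ring

theorem FlowPot.const_mul (h : FlowPot Y E F) (a : ℝ) :
    FlowPot Y (fun p v => a * E p v) (fun τ q => a * F τ q) where
  zero := fun c p hp => by rw [h.zero c p hp, mul_zero]
  fix := fun τ p hp => by rw [h.fix τ p hp, mul_zero]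
  hom := fun τ c p hp t ht ha => by rw [h.hom τ c p hp t ht ha]
  smooth := fun τ c p hp ha => contDiffAt_const.mul (h.smooth τ c p hp ha)
  levT := fun c p hp => by
    have := LevC_653.lev_const_mul a (h.smoothT (c := c) hp) (1 : ℂ)
    simp only [L] at this ⊢
    rw [this]
    have h1 := h.levT c p hp
    simp only [L] at h1
    rw [h1]
  levZ := fun τ c H z hc hH hI ha => by
    have := LevC_653.lev_const_mul a (h.smoothZ hc hH hI.self_of_nhds ha) (1 : ℂ)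
    simp only [L] at this ⊢
    rw [this]
    have h1 := h.levZ τ c H z hc hH hI ha
    simp only [L] at h1
    rw [h1]
    ring

/-! ### geometry of the flow for a `Flds` -/

theorem Adm.mem_Cone {τ : ℂ} {q : PS N Y.M} (ha : Adm Y.X τ q) (hq : q.2 ∈ Cone I) :
    Ph Y.X τ q ∈ Cone I := by
  obtain ⟨ρ, hg, hτ⟩ := ha.good
  exact Ph_mem_Cone Y.one_le Y.homog Y.tang hg hq hτ

theorem Adm.mem_DM {τ : ℂ} {q : PS N Y.M} (ha : Adm Y.X τ q) : (τ, q) ∈ DM Y.X := by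
  obtain ⟨ρ, hg, hτ⟩ := ha.good
  exact hg τ hτ

theorem analyticAt_Ph_comp {τ : ℂ} {c : ℂ → Fin Y.M → ℂ} {H : ℂ → EE N} {z : ℂ}
    (hc : AnalyticAt ℂ c z) (hH : AnalyticAt ℂ H z) (ha : (τ, ((c z, H z) : PS N Y.M)) ∈ DM Y.X) :
    AnalyticAt ℂ (fun w => Ph Y.X τ (c w, H w)) z := by
  have h1 := analyticOnNhd_Ph Y.X _ ha
  have h2 : AnalyticAt ℂ (fun w : ℂ => ((τ, (c w, H w)) : ℂ × PS N Y.M)) z :=
    analyticAt_const.prod (hc.prod hH)
  exact AnalyticAt.comp (g := fun x : ℂ × PS N Y.M => Ph Y.X x.1 x.2)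
    (f := fun w : ℂ => ((τ, (c w, H w)) : ℂ × PS N Y.M)) h1 h2

theorem contDiffAt_Ph {τ : ℂ} {q : PS N Y.M} {k : WithTop ℕ∞} (h : (τ, q) ∈ DM Y.X) :
    ContDiffAt ℝ k (fun x : ℂ × PS N Y.M => Ph Y.X x.1 x.2) (τ, q) :=
  (analyticOnNhd_Ph Y.X _ h).contDiffAt.restrict_scalars ℝ

theorem eventually_mem_Cone {τ : ℂ} {c : ℂ → Fin Y.M → ℂ} {H : ℂ → EE N} {z : ℂ}
    (hc : ContinuousAt c z) (hH : ContinuousAt H z) (hI : ∀ᶠ w in 𝓝 z, H w ∈ Cone I)
    (ha : Adm Y.X τ (c z, H z)) :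
    ∀ᶠ w in 𝓝 z, Ph Y.X τ (c w, H w) ∈ Cone I ∧
      ∀ v ∈ Tan I (H w), DY Y.X τ (c w, H w) v ∈ Tan I (Ph Y.X τ (c w, H w)) := by
  obtain ⟨ρ, hg, hτ⟩ := ha.good
  obtain ⟨ρ', hτρ', hρ'⟩ : ∃ ρ', ‖τ‖ < ρ' ∧ ρ' < ρ :=
    exists_between (by rwa [mem_ball_zero_iff] at hτ)
  have hτ' : τ ∈ ball (0 : ℂ) ρ' := by rwa [mem_ball_zero_iff]
  have h1 := good_nhds hg hρ'
  have h2 : Tendsto (fun w => ((c w, H w) : PS N Y.M)) (𝓝 z) (𝓝 (c z, H z)) :=
    hc.tendsto.prodMk_nhds hH.tendsto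
  filter_upwards [h2.eventually h1, hI] with w hw hwI
  refine ⟨Ph_mem_Cone Y.one_le Y.homog Y.tang hw hwI hτ', fun v hv => ?_⟩
  exact DY_mem_Tan Y.tang hw hwI.1 (Y.span _ hwI).ge hτ' hv

/-! ### smooth functions -/

/-- potentials given by functions on the cone, additive under real scaling -/
theorem flowPot_of_smooth {u : EE N → ℝ} (hu : ∀ p ∈ Cone I, ContDiffAt ℝ 2 u p) (κ : ℝ)
    (hinv : ∀ p ∈ Cone I, ∀ t : ℝ, 0 < t → u ((t : ℂ) • p) = u p + κ * Real.log t)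
    (hE : ∀ p ∈ Cone I, ∀ v, E p v = LevC_653.lev u p v) :
    FlowPot Y E (fun τ q => u (Ph Y.X τ q) - u q.2) where
  zero := fun c p _ => by rw [Ph_zero, sub_self]
  fix := fun τ p _ => by rw [Ph_zero_left, sub_self]
  hom := fun τ c p hp t ht ha => by
    obtain ⟨ρ, hg, hτ⟩ := ha.good
    have h1 := (Ph_smul Y.one_le Y.homog (t : ℂ) hg).2 τ hτ
    rw [h1, hinv _ (Adm.mem_Cone ha hp) t ht, hinv p hp t ht]
    ring
  smooth := fun τ c p hp ha => by
    have h1 : ContDiffAt ℝ 2 (fun x : ℂ × PS N Y.M => u (Ph Y.X x.1 x.2)) (τ, (c, p)) :=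
      ContDiffAt.comp (τ, (c, p)) (g := u) (f := fun x : ℂ × PS N Y.M => Ph Y.X x.1 x.2)
        (hu _ (Adm.mem_Cone ha hp)) (contDiffAt_Ph (Adm.mem_DM ha))
    have h2 : ContDiffAt ℝ 2 (fun x : ℂ × PS N Y.M => u x.2.2) (τ, (c, p)) :=
      ContDiffAt.comp (τ, (c, p)) (g := u) (f := fun x : ℂ × PS N Y.M => x.2.2) (hu p hp)
        (contDiffAt_snd.snd)
    exact h1.sub h2
  levT := fun c p hp => by
    obtain ⟨ρ, hρ, hg⟩ := exists_good (X := Y.X) (c, p)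
    have h0 : Ph Y.X 0 (c, p) = p := Ph_zero Y.X (c, p)
    have hA : AnalyticAt ℂ (fun τ => Ph Y.X τ (c, p)) 0 := by
      have h1 := analyticOnNhd_Ph Y.X _ (zero_mem_DM Y.X (c, p))
      have h2 : AnalyticAt ℂ (fun w : ℂ => ((w, (c, p)) : ℂ × PS N Y.M)) 0 :=
        analyticAt_id.prod analyticAt_const
      exact AnalyticAt.comp (g := fun x : ℂ × PS N Y.M => Ph Y.X x.1 x.2)
        (f := fun w : ℂ => ((w, (c, p)) : ℂ × PS N Y.M)) h1 h2
    have hu' : ContDiffAt ℝ 2 u (Ph Y.X 0 (c, p)) := by rw [h0]; exact hu p hp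
    have h3 := Lev_901.lev_comp_curve (u := u) hu' hA 1
    have h4 : deriv (fun τ => Ph Y.X τ (c, p)) 0 = fld Y.X (c, p) := by
      rw [(hasDerivAt_Ph hg (mem_ball_self hρ)).deriv, h0]
    rw [h4, h0, one_smul] at h3
    have h5 : L (fun τ => u (Ph Y.X τ (c, p)) - u p) 0 1 =
        LevC_653.lev (fun τ => u (Ph Y.X τ (c, p))) 0 1 := by
      have h6 : ContDiffAt ℝ 2 (fun τ => u (Ph Y.X τ (c, p))) 0 :=
        ContDiffAt.comp (0 : ℂ) hu' (hA.contDiffAt.restrict_scalars ℝ)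
      have := Lev_901.lev_sub h6 (contDiffAt_const (c := u p)) (1 : ℂ)
      simp only [L]
      rw [this]
      simp [LevC_653.lev]
    rw [hE p hp, ← h3]
    exact h5
  levZ := fun τ c H z hc hH hI ha => by
    have hz := hI.self_of_nhds
    have hA := analyticAt_Ph_comp hc hH (Adm.mem_DM ha)
    have hu1 : ContDiffAt ℝ 2 u (Ph Y.X τ (c z, H z)) := hu _ (Adm.mem_Cone ha hz)
    have h3 := Lev_901.lev_comp_curve (u := u) (γ := fun w => Ph Y.X τ (c w, H w)) hu1 hA 1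
    have h4 := Lev_901.lev_comp_curve (u := u) (γ := H) (hu _ hz) hH 1
    have h5 : ContDiffAt ℝ 2 (fun w => u (Ph Y.X τ (c w, H w))) z :=
      ContDiffAt.comp z hu1 (hA.contDiffAt.restrict_scalars ℝ)
    have h6 : ContDiffAt ℝ 2 (fun w => u (H w)) z :=
      ContDiffAt.comp z (hu _ hz) (hH.contDiffAt.restrict_scalars ℝ)
    have h7 := Lev_901.lev_sub h5 h6 (1 : ℂ)
    simp only [L]
    rw [h7, h3, h4, one_smul, one_smul, hE _ (Adm.mem_Cone ha hz), hE _ hz]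

theorem flowPot_lev (Y : Flds I) {u : EE N → ℝ} (hu : SmX I u) :
    FlowPot Y (fun p v => Defs_58.lev u p v) (fun τ q => u (Ph Y.X τ q) - u q.2) :=
  flowPot_of_smooth (κ := 0) (fun p hp => (hu.1 p hp).of_le (by norm_cast))
    (fun p hp t ht => by
      rw [hu.2 p hp _ (by exact_mod_cast ht.ne'), zero_mul, add_zero])
    (fun p _ v => lev_eq u p v)

theorem flowPot_omg (Y : Flds I) :
    FlowPot Y (fun p v => omg p v)
      (fun τ q => Real.log (nsq (Ph Y.X τ q)) - Real.log (nsq q.2)) :=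
  flowPot_of_smooth (u := fun p => Real.log (nsq p)) (κ := 2)
    (fun p hp => (contDiffAt_nsq p).log (nsq_pos hp.2).ne')
    (fun p hp t ht => by
      rw [nsq_smul, Real.log_mul _ (nsq_pos hp.2).ne', Complex.normSq_ofReal,
        Real.log_mul ht.ne' ht.ne']
      · ring
      · rw [Complex.normSq_ofReal]
        positivity)
    (fun p hp v => omg_eq_lev hp.2 v)

end Crest.Agent.R269.VarPot_60
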