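import Mathlib
import Crest.Agent.R269.VarPot_60

/-!
# VF4: uniform expansions and the disc-level statements (helper60, row 269)

* `FlowPot.unif`: uniform Lipschitz bound and 4-point mean value expansion;
* `Hfl Y c H τ z = Φ_τ(c(z), H(z))` and `FlowPot.disc`: everything needed for (VAR) at a disc.
-/

set_option autoImplicit false

open MvPolynomial Set Filter Topology Metric Module
open scoped ContDiff ComplexConjugate

noncomputable section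

namespace Crest.Agent.R269.VarPot_60

open Crest.AlgGeometry.ProjEmb Crest.Agent.R269.Tan_60 Crest.Agent.R269.Geo_328
open Crest.Agent.R269.FlowMap_60 Crest.Agent.R269.DefsS_731 Crest.Agent.R269.Defs_58
open Crest.Agent.R269.Alp_927 Crest.Agent.R269.Levi2_599

variable {N n : ℕ} {I : Ideal (HomCoordRing N)}
variable {Y : Flds I} {E E' : EE N → EE N → ℝ} {F F' : ℂ → PS N Y.M → ℝ}

theorem isClosed_affineCone (I : Ideal (HomCoordRing N)) :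
    IsClosed {p : EE N | p ∈ affineCone I} := by
  have : {p : EE N | p ∈ affineCone I} = ⋂ P ∈ I, {p : EE N | eval p P = 0} := by
    ext p
    simp only [mem_ofPred_eq, mem_iInter]
    exact Iff.rfl
  rw [this]
  exact isClosed_biInter fun P _ => isClosed_eq (MvPolynomial.continuous_eval P) continuous_const

/-- the compact set of unit cone points with bounded coefficients -/
def KK (I : Ideal (HomCoordRing N)) (M : ℕ) (Mc : ℝ) : Set (PS N M) :=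
  {q | ‖q.1‖ ≤ Mc ∧ q.2 ∈ affineCone I ∧ ‖q.2‖ = 1}

theorem isCompact_KK (I : Ideal (HomCoordRing N)) (M : ℕ) (Mc : ℝ) : IsCompact (KK I M Mc) := by
  have h1 : IsCompact ((closedBall (0 : Fin M → ℂ) Mc) ×ˢ (closedBall (0 : EE N) 1)) :=
    (isCompact_closedBall _ _).prod (isCompact_closedBall _ _)
  refine h1.of_isClosed_subset ?_ ?_
  · have h2 : IsClosed {q : PS N M | ‖q.1‖ ≤ Mc} := isClosed_le (by fun_prop) continuous_const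
    have h3 : IsClosed {q : PS N M | q.2 ∈ affineCone I} :=
      (isClosed_affineCone I).preimage continuous_snd
    have h4 : IsClosed {q : PS N M | ‖q.2‖ = 1} := isClosed_eq (by fun_prop) continuous_const
    exact h2.inter (h3.inter h4)
  · rintro q ⟨h2, -, h3⟩
    exact ⟨by rwa [mem_closedBall_zero_iff], by rw [mem_closedBall_zero_iff, h3]⟩

theorem levi_eq_lev {V : Type*} [NormedAddCommGroup V] [NormedSpace ℂ V] (u : V → ℝ) (p v : V) :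
    Levi1_599.levi u p v = LevC_653.lev u p v := by
  simp only [Levi1_599.levi, Levi1_599.D2, LevC_653.lev, smul_eq_mul]
  ring

/-- scaling to the unit sphere -/
theorem exists_unit (hI : ∀ P ∈ I, ∀ d : ℕ, homogeneousComponent d P ∈ I) {M : ℕ} {Mc : ℝ}
    {D : ℕ} {c : Fin M → ℂ} (hc : ‖c‖ ≤ Mc) {p : EE N} (hp : p ∈ Cone I) (hp1 : ‖p‖ ≤ 1) :
    ∃ (t : ℝ) (p₁ : EE N), 0 < t ∧ p = (t : ℂ) • p₁ ∧ p₁ ∈ Cone I ∧
      (((t : ℂ) ^ (D - 1) • c, p₁) : PS N M) ∈ KK I M Mc := by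
  have hpos : 0 < ‖p‖ := norm_pos_iff.mpr hp.2
  refine ⟨‖p‖, ((‖p‖⁻¹ : ℝ) : ℂ) • p, hpos, ?_, ⟨?_, ?_⟩, ?_, ?_, ?_⟩
  · rw [smul_smul, ← Complex.ofReal_mul, mul_inv_cancel₀ hpos.ne', Complex.ofReal_one, one_smul]
  · exact Tan_60.smul_mem_affineCone hI hp.1 _
  · exact smul_ne_zero (by exact_mod_cast (inv_pos.mpr hpos).ne') hp.2
  · simp only
    rw [norm_smul, norm_pow, Complex.norm_real, norm_norm]
    calc ‖p‖ ^ (D - 1) * ‖c‖ ≤ 1 * ‖c‖ := by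
          gcongr
          exact pow_le_one₀ (norm_nonneg _) hp1
      _ ≤ Mc := by rwa [one_mul]
  · exact Tan_60.smul_mem_affineCone hI hp.1 _
  · simp only
    rw [norm_smul, Complex.norm_real, norm_inv, norm_norm, inv_mul_cancel₀ hpos.ne']

/-- **uniform expansion**, with a radius `ρ₀` not depending on the density -/
theorem FlowPot.unif' (h : FlowPot Y E F)
    (hI : ∀ P ∈ I, ∀ d : ℕ, homogeneousComponent d P ∈ I)
    {Mc ρ₀ : ℝ} (hρ₀p : 0 < ρ₀) (hadm : ∀ c : Fin Y.M → ℂ, ‖c‖ ≤ Mc → ∀ p : EE N, ‖p‖ ≤ 1 →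
      ∀ τ : ℂ, ‖τ‖ ≤ ρ₀ → Adm Y.X τ (c, p)) : ∃ C : ℝ, 0 ≤ C ∧
      (∀ τ : ℂ, ‖τ‖ ≤ ρ₀ → ∀ c : Fin Y.M → ℂ, ‖c‖ ≤ Mc → ∀ p ∈ Cone I, ‖p‖ ≤ 1 →
        |F τ (c, p)| ≤ C * ‖τ‖) ∧
      ∀ ε : ℝ, 0 < ε → ∃ δ : ℝ, 0 < δ ∧ ∀ ρ : ℝ, 0 < ρ → ρ < δ →
        ∀ c : Fin Y.M → ℂ, ‖c‖ ≤ Mc → ∀ p ∈ Cone I, ‖p‖ ≤ 1 →
          |mean4 (fun τ => F τ (c, p)) ρ - ρ ^ 2 * E p (fld Y.X (c, p))| ≤ ε * ρ ^ 2 := by
  classical
  set g : ℂ × PS N Y.M → ℝ := fun x => F x.1 x.2 with hg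
  set K := KK I Y.M Mc with hK
  have hKc : IsCompact K := isCompact_KK I Y.M Mc
  have hKI : ∀ q ∈ K, q.2 ∈ Cone I := by
    rintro q ⟨-, h2, h3⟩
    refine ⟨h2, fun h0 => ?_⟩
    rw [h0, norm_zero] at h3
    exact zero_ne_one h3
  let O : Set (ℂ × PS N Y.M) := {x | ContDiffAt ℝ 2 g x}
  have hO : IsOpen O := by
    rw [isOpen_iff_mem_nhds]
    intro x hx
    exact ContDiffAt.eventually hx (by decide)
  have hgO : ContDiffOn ℝ 2 g O := fun x hx => ContDiffAt.contDiffWithinAt hx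
  have hρO : ∀ τ : ℂ, ‖τ‖ ≤ ρ₀ → ∀ q ∈ K, (τ, q) ∈ O := fun τ hτ q hq =>
    h.smooth τ q.1 q.2 (hKI q hq) (hadm q.1 hq.1 q.2 hq.2.2.le τ hτ)
  have h0 : ∀ q ∈ K, ((0 : ℂ), q) ∈ O := fun q hq => h.smooth 0 q.1 q.2 (hKI q hq) (adm_zero _)
  -- Lipschitz bound on `K`
  have hK' : IsCompact (closedBall (0 : ℂ) ρ₀ ×ˢ K) := (isCompact_closedBall _ _).prod hKc
  have hsub : closedBall (0 : ℂ) ρ₀ ×ˢ K ⊆ O := by
    rintro ⟨τ, q⟩ ⟨h1, h2⟩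
    rw [mem_closedBall_zero_iff] at h1
    exact hρO τ h1 q h2
  obtain ⟨B, hB0, hB⟩ := unif_bound hO hgO hK' hsub
  have hLip : ∀ τ : ℂ, ‖τ‖ ≤ ρ₀ → ∀ q ∈ K, |F τ q| ≤ B * ‖τ‖ := by
    intro τ hτ q hq
    have h1 : ∀ w ∈ closedBall (0 : ℂ) ρ₀, HasFDerivAt (fun w => F w q)
        ((fderiv ℝ g (w, q)).comp (ContinuousLinearMap.inl ℝ ℂ (PS N Y.M))) w := by
      intro w hw
      have h2 : ContDiffAt ℝ 2 g (w, q) := hsub ⟨hw, hq⟩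
      have h3 := (h2.differentiableAt (by norm_num)).hasFDerivAt
      exact HasFDerivAt.comp w (g := g) (f := fun w : ℂ => ((w, q) : ℂ × PS N Y.M)) h3
        (hasFDerivAt_prodMk_left w q)
    have h4 := (convex_closedBall (0 : ℂ) ρ₀).norm_image_sub_le_of_norm_hasFDerivWithin_le
      (f := fun w => F w q) (C := B) (fun w hw => (h1 w hw).hasFDerivWithinAt) (fun w hw => by
        refine (ContinuousLinearMap.opNorm_comp_le _ _).trans ?_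
        have h5 : ‖ContinuousLinearMap.inl ℝ ℂ (PS N Y.M)‖ ≤ 1 := by
          refine ContinuousLinearMap.opNorm_le_bound _ zero_le_one fun x => ?_
          simp [Prod.norm_def]
        calc _ ≤ B * 1 := by
              gcongr
              exact (hB _ ⟨hw, hq⟩).1
          _ = B := mul_one B) (mem_closedBall_self hρ₀p.le)
      (by rwa [mem_closedBall_zero_iff] : τ ∈ closedBall (0 : ℂ) ρ₀)
    have h6 : F 0 q = 0 := h.zero q.1 q.2 (hKI q hq)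
    rw [h6, sub_zero, sub_zero, Real.norm_eq_abs] at h4
    exact h4
  -- expansion on `K`
  have hmean : ∀ ε : ℝ, 0 < ε → ∃ δ : ℝ, 0 < δ ∧ ∀ ρ : ℝ, 0 < ρ → ρ < δ → ∀ q ∈ K,
      |mean4 (fun τ => F τ q) ρ - ρ ^ 2 * L (fun τ => F τ q) 0 1| ≤ ε * ρ ^ 2 := by
    intro ε hε
    have hS : IsCompact (({0} : Set ℂ) ×ˢ K) := isCompact_singleton.prod hKc
    have hSU : ({0} : Set ℂ) ×ˢ K ⊆ O := by
      rintro ⟨τ, q⟩ ⟨h1, h2⟩
      rw [mem_singleton_iff] at h1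
      simp only at h1
      rw [h1]
      exact h0 q h2
    obtain ⟨δ, hδ, hd⟩ := mean4_expand (K := K) hO hgO hS hSU
      (F := fun w z => (w, (z : PS N Y.M))) (H := fun z => (0, (z : PS N Y.M)))
      (V := fun _ => (1, 0)) (R := fun _ => 0) (C := 1) (r := 1) zero_le_one one_pos
      (fun z => ⟨rfl, z.2⟩) (fun z => by simp [Prod.norm_def]) (fun z => by simp)
      (fun w _ z => by simp) hε
    refine ⟨δ, hδ, fun ρ hρ hρδ q hq => ?_⟩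
    have h1 := hd ρ hρ hρδ ⟨q, hq⟩
    have h2 : F 0 q = 0 := h.zero q.1 q.2 (hKI q hq)
    have h3 : Levi1_599.levi g (0, q) (1, 0) = L (fun τ => F τ q) 0 1 := by
      have h4 : ContDiffAt ℂ 2 (fun w : ℂ => ((w, q) : ℂ × PS N Y.M)) 0 :=
        contDiffAt_id.prodMk contDiffAt_const
      have h5 := Levi1_599.levi_comp_holo (φ := g) (G := fun w : ℂ => ((w, q) : ℂ × PS N Y.M))
        (q := 0) (h0 q hq) h4 1
      have h6 : fderiv ℂ (fun w : ℂ => ((w, q) : ℂ × PS N Y.M)) 0 1 = (1, 0) := by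
        have := (hasFDerivAt_prodMk_left (𝕜 := ℂ) (0 : ℂ) q).fderiv
        rw [this]
        simp
      rw [h6] at h5
      rw [← h5, levi_eq_lev]
    simp only [hg, h2, sub_zero] at h1
    rw [smul_eq_mul, Real.norm_eq_abs] at h1
    rw [← h3]
    exact h1
  refine ⟨B, hB0, ?_, ?_⟩
  · intro τ hτ c hc p hp hp1
    obtain ⟨t, p₁, ht, hpt, hp₁, hq⟩ := exists_unit (D := Y.D) hI hc hp hp1
    have ha : Adm Y.X τ ((t : ℂ) ^ (Y.D - 1) • c, p₁) := hadm _ hq.1 p₁ hq.2.2.le τ hτ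
    rw [hpt, h.hom τ c p₁ hp₁ t ht ha]
    exact hLip τ hτ _ hq
  · intro ε hε
    obtain ⟨δ, hδ, hd⟩ := hmean ε hε
    refine ⟨min δ ρ₀, lt_min hδ hρ₀p, fun ρ hρ hρδ c hc p hp hp1 => ?_⟩
    obtain ⟨t, p₁, ht, hpt, hp₁, hq⟩ := exists_unit (D := Y.D) hI hc hp hp1
    have ha : ∀ τ : ℂ, ‖τ‖ ≤ ρ₀ → Adm Y.X τ ((t : ℂ) ^ (Y.D - 1) • c, p₁) := fun τ hτ =>
      hadm _ hq.1 p₁ hq.2.2.le τ hτ
    have hF : ∀ τ : ℂ, ‖τ‖ ≤ ρ₀ → F τ (c, p) = F τ ((t : ℂ) ^ (Y.D - 1) • c, p₁) := by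
      intro τ hτ
      rw [hpt, h.hom τ c p₁ hp₁ t ht (ha τ hτ)]
    have hρ0 : ρ ≤ ρ₀ := hρδ.le.trans (min_le_right _ _)
    have h1 : mean4 (fun τ => F τ (c, p)) ρ =
        mean4 (fun τ => F τ ((t : ℂ) ^ (Y.D - 1) • c, p₁)) ρ := by
      have h2 : ‖(ρ : ℂ)‖ ≤ ρ₀ := by rw [Complex.norm_real, Real.norm_eq_abs, abs_of_pos hρ]; exact hρ0
      have h3 : ‖Complex.I * (ρ : ℂ)‖ ≤ ρ₀ := by rw [norm_mul, Complex.norm_I, one_mul]; exact h2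
      simp only [mean4]
      rw [hF _ h2, hF _ h3, hF _ (by rw [norm_neg]; exact h2), hF _ (by rw [norm_neg]; exact h3)]
    have h4 : E p (fld Y.X (c, p)) = L (fun τ => F τ ((t : ℂ) ^ (Y.D - 1) • c, p₁)) 0 1 := by
      rw [← h.levT c p hp]
      refine LevC_653.lev_congr ?_ _
      filter_upwards [closedBall_mem_nhds (0 : ℂ) hρ₀p] with τ hτ
      exact hF τ (by rwa [mem_closedBall_zero_iff] at hτ)
    rw [h1, h4]
    exact hd ρ hρ (hρδ.trans_le (min_le_left _ _)) _ hq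

theorem FlowPot.unif (h : FlowPot Y E F) (hI : ∀ P ∈ I, ∀ d : ℕ, homogeneousComponent d P ∈ I)
    (Mc : ℝ) : ∃ ρ₀ : ℝ, 0 < ρ₀ ∧ ∃ C : ℝ, 0 ≤ C ∧
      (∀ τ : ℂ, ‖τ‖ ≤ ρ₀ → ∀ c : Fin Y.M → ℂ, ‖c‖ ≤ Mc → ∀ p ∈ Cone I, ‖p‖ ≤ 1 →
        Adm Y.X τ (c, p) ∧ |F τ (c, p)| ≤ C * ‖τ‖) ∧
      ∀ ε : ℝ, 0 < ε → ∃ δ : ℝ, 0 < δ ∧ ∀ ρ : ℝ, 0 < ρ → ρ < δ →
        ∀ c : Fin Y.M → ℂ, ‖c‖ ≤ Mc → ∀ p ∈ Cone I, ‖p‖ ≤ 1 →
          |mean4 (fun τ => F τ (c, p)) ρ - ρ ^ 2 * E p (fld Y.X (c, p))| ≤ ε * ρ ^ 2 := by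
  obtain ⟨ρ₀, hρ₀, hadm⟩ := exists_adm Y.X Mc
  obtain ⟨C, hC, h1, h2⟩ := h.unif' hI hρ₀ (fun c hc p hp τ hτ => (hadm c hc p hp).2 τ hτ)
  exact ⟨ρ₀, hρ₀, C, hC, fun τ hτ c hc p hp hp1 => ⟨(hadm c hc p hp1).2 τ hτ,
    h1 τ hτ c hc p hp hp1⟩, h2⟩

/-! ### discs -/

variable (Y) in
/-- the coefficients at `z` -/
def cz (c : Fin Y.M → Polynomial ℂ) (z : ℂ) : Fin Y.M → ℂ := fun j => (c j).eval z

variable (Y) in
/-- the varied disc -/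
def Hfl (c : Fin Y.M → Polynomial ℂ) (H : ℂ → EE N) (τ z : ℂ) : EE N := Ph Y.X τ (cz Y c z, H z)

theorem fld_eq_var (c : Fin Y.M → Polynomial ℂ) (z : ℂ) (p : EE N) :
    fld Y.X (cz Y c z, p) = Y.var c z p := by
  funext k
  simp [fld, cz, Flds.var, Flds.at]

theorem analyticAt_cz (c : Fin Y.M → Polynomial ℂ) (z : ℂ) : AnalyticAt ℂ (cz Y c) z := by
  have h : Differentiable ℂ (cz Y c) := by
    rw [differentiable_pi]
    intro j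
    exact (c j).differentiable
  exact h.analyticAt z

theorem hasDerivAt_cz (c : Fin Y.M → Polynomial ℂ) (z : ℂ) :
    HasDerivAt (cz Y c) (fun j => (c j).derivative.eval z) z := by
  rw [hasDerivAt_pi]
  intro j
  exact (c j).hasDerivAt z

theorem exists_cz_bound (c : Fin Y.M → Polynomial ℂ) :
    ∃ Mc : ℝ, ∀ z ∈ closedBall (0 : ℂ) 1, ‖cz Y c z‖ ≤ Mc := by
  have h : Continuous (cz Y c) := continuous_pi fun j => (c j).continuous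
  exact (isCompact_closedBall (0 : ℂ) 1).exists_bound_of_continuousOn h.continuousOn

theorem norm_le_one_of_nsq {p : EE N} (h : nsq p ≤ 1) : ‖p‖ ≤ 1 := by
  refine (pi_norm_le_iff_of_nonneg zero_le_one).mpr fun i => ?_
  have h1 : ‖p i‖ ^ 2 ≤ nsq p := Finset.single_le_sum (f := fun i => ‖p i‖ ^ 2)
    (fun j _ => by positivity) (Finset.mem_univ i)
  nlinarith [norm_nonneg (p i)]

/-- **everything about the variation of a disc**; `ρ₀` does not depend on the density. -/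
theorem FlowPot.disc' (h : FlowPot Y E F)
    (hI : ∀ P ∈ I, ∀ d : ℕ, homogeneousComponent d P ∈ I) (c : Fin Y.M → Polynomial ℂ)
    {Mc ρ₀ : ℝ} (hMc : ∀ z ∈ closedBall (0 : ℂ) 1, ‖cz Y c z‖ ≤ Mc) (hρ₀ : 0 < ρ₀)
    (hadm : ∀ c : Fin Y.M → ℂ, ‖c‖ ≤ Mc → ∀ p : EE N, ‖p‖ ≤ 1 →
      ∀ τ : ℂ, ‖τ‖ ≤ ρ₀ → Adm Y.X τ (c, p)) :
    ∃ C : ℝ, 0 ≤ C ∧
      (∀ H : ℂ → EE N, IsDisc I H → (∀ z ∈ ball (0 : ℂ) 1, ‖H z‖ ≤ 1) → ∀ τ : ℂ, ‖τ‖ ≤ ρ₀ →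
        IsDisc I (Hfl Y c H τ) ∧
        ContDiffOn ℝ 2 (fun z => F τ (cz Y c z, H z)) (ball 0 1) ∧
        (∀ z ∈ ball (0 : ℂ) 1, |F τ (cz Y c z, H z)| ≤ C * ‖τ‖) ∧
        (∀ z ∈ ball (0 : ℂ) 1, LevC_653.lev (fun w => F τ (cz Y c w, H w)) z 1 =
          E (Hfl Y c H τ z) (deriv (Hfl Y c H τ) z) - E (H z) (deriv H z))) ∧
      ∀ ε : ℝ, 0 < ε → ∃ δ : ℝ, 0 < δ ∧ ∀ ρ : ℝ, 0 < ρ → ρ < δ →
        ∀ H : ℂ → EE N, IsDisc I H → (∀ z ∈ ball (0 : ℂ) 1, ‖H z‖ ≤ 1) →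
          ∀ z ∈ ball (0 : ℂ) 1,
            |mean4 (fun τ => F τ (cz Y c z, H z)) ρ - ρ ^ 2 * E (H z) (Y.var c z (H z))| ≤
              ε * ρ ^ 2 := by
  obtain ⟨C, hC, h1, h2⟩ := h.unif' hI hρ₀ hadm
  refine ⟨C, hC, ?_, ?_⟩
  · intro H hH hH1 τ hτ
    have hA : ∀ z ∈ ball (0 : ℂ) 1, Adm Y.X τ (cz Y c z, H z) := fun z hz =>
      hadm _ (hMc z (ball_subset_closedBall hz)) _ (hH1 z hz) τ hτ
    have hHa : ∀ z ∈ ball (0 : ℂ) 1, AnalyticAt ℂ H z := fun z hz =>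
      hH.hol.analyticAt (isOpen_ball.mem_nhds hz)
    have hHe : ∀ z ∈ ball (0 : ℂ) 1, ∀ᶠ w in 𝓝 z, H w ∈ Cone I := fun z hz =>
      Filter.mem_of_superset (isOpen_ball.mem_nhds hz) fun w hw => hH.cone w hw
    refine ⟨⟨fun z hz => ?_, fun z hz => ?_⟩, fun z hz => ?_, fun z hz => ?_, fun z hz => ?_⟩
    · exact (analyticAt_Ph_comp (analyticAt_cz c z) (hHa z hz)
        (Adm.mem_DM (hA z hz))).differentiableAt.differentiableWithinAt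
    · exact Adm.mem_Cone (hA z hz) (hH.cone z hz)
    · exact (h.smoothZ (analyticAt_cz c z) (hHa z hz) (hH.cone z hz) (hA z hz)).contDiffWithinAt
    · exact h1 τ hτ _ (hMc z (ball_subset_closedBall hz)) _ (hH.cone z hz) (hH1 z hz)
    · exact h.levZ τ (cz Y c) H z (analyticAt_cz c z) (hHa z hz) (hHe z hz) (hA z hz)
  · intro ε hε
    obtain ⟨δ, hδ, hd⟩ := h2 ε hε
    refine ⟨δ, hδ, fun ρ hρ hρδ H hH hH1 z hz => ?_⟩
    have := hd ρ hρ hρδ _ (hMc z (ball_subset_closedBall hz)) _ (hH.cone z hz) (hH1 z hz)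
    rwa [fld_eq_var] at this

theorem FlowPot.disc (h : FlowPot Y E F)
    (hI : ∀ P ∈ I, ∀ d : ℕ, homogeneousComponent d P ∈ I) (c : Fin Y.M → Polynomial ℂ) :
    ∃ ρ₀ : ℝ, 0 < ρ₀ ∧ ∃ C : ℝ, 0 ≤ C ∧
      (∀ H : ℂ → EE N, IsDisc I H → (∀ z ∈ ball (0 : ℂ) 1, ‖H z‖ ≤ 1) → ∀ τ : ℂ, ‖τ‖ ≤ ρ₀ →
        IsDisc I (Hfl Y c H τ) ∧
        ContDiffOn ℝ 2 (fun z => F τ (cz Y c z, H z)) (ball 0 1) ∧
        (∀ z ∈ ball (0 : ℂ) 1, |F τ (cz Y c z, H z)| ≤ C * ‖τ‖) ∧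
        (∀ z ∈ ball (0 : ℂ) 1, LevC_653.lev (fun w => F τ (cz Y c w, H w)) z 1 =
          E (Hfl Y c H τ z) (deriv (Hfl Y c H τ) z) - E (H z) (deriv H z))) ∧
      ∀ ε : ℝ, 0 < ε → ∃ δ : ℝ, 0 < δ ∧ ∀ ρ : ℝ, 0 < ρ → ρ < δ →
        ∀ H : ℂ → EE N, IsDisc I H → (∀ z ∈ ball (0 : ℂ) 1, ‖H z‖ ≤ 1) →
          ∀ z ∈ ball (0 : ℂ) 1,
            |mean4 (fun τ => F τ (cz Y c z, H z)) ρ - ρ ^ 2 * E (H z) (Y.var c z (H z))| ≤
              ε * ρ ^ 2 := by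
  obtain ⟨Mc, hMc⟩ := exists_cz_bound (Y := Y) c
  obtain ⟨ρ₀, hρ₀, hadm⟩ := exists_adm Y.X Mc
  obtain ⟨C, hC, h1, h2⟩ := h.disc' hI c hMc hρ₀ (fun c hc p hp τ hτ => (hadm c hc p hp).2 τ hτ)
  exact ⟨ρ₀, hρ₀, C, hC, h1, h2⟩

theorem Hfl_zero (c : Fin Y.M → Polynomial ℂ) (H : ℂ → EE N) (τ : ℂ)
    (hc : ∀ j, (c j).eval 0 = 0) : Hfl Y c H τ 0 = H 0 := by
  have h1 : cz Y c 0 = 0 := funext hc
  rw [Hfl, h1, Ph_zero_left]

theorem hasDerivAt_Hfl (c : Fin Y.M → Polynomial ℂ) {H : ℂ → EE N} (τ : ℂ)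
    (hc : ∀ j, (c j).eval 0 = 0) (hH : DifferentiableAt ℂ H 0) :
    HasDerivAt (Hfl Y c H τ) (deriv H 0 + τ • Y.var (fun j => (c j).derivative) 0 (H 0)) 0 := by
  have h1 : cz Y c 0 = 0 := funext hc
  have h2 := hasDerivAt_curve (X := Y.X) τ hH.hasDerivAt (hasDerivAt_cz c 0) h1
  have h3 : fld Y.X (fun j => (c j).derivative.eval 0, H 0) =
      Y.var (fun j => (c j).derivative) 0 (H 0) := fld_eq_var (fun j => (c j).derivative) 0 (H 0)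
  rw [h3] at h2
  exact h2

theorem FlowPot.disc_zero (h : FlowPot Y E F) (c : Fin Y.M → Polynomial ℂ) {H : ℂ → EE N} (τ : ℂ)
    (hc : ∀ j, (c j).eval 0 = 0) (hH : H 0 ∈ Cone I) : F τ (cz Y c 0, H 0) = 0 := by
  have h1 : cz Y c 0 = 0 := funext hc
  rw [h1]
  exact h.fix τ _ hH

/-- derivative of the vector field `V(z) = ∑ c_j(z) X_j(H z)` at `0` -/
theorem hasDerivAt_var (c : Fin Y.M → Polynomial ℂ) {H : ℂ → EE N}
    (hc : ∀ j, (c j).eval 0 = 0) (hH : DifferentiableAt ℂ H 0) :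
    HasDerivAt (fun z => Y.var c z (H z)) (Y.var (fun j => (c j).derivative) 0 (H 0)) 0 := by
  have h1 : ∀ j, HasDerivAt (fun z => (c j).eval z • Y.at j (H z))
      ((c j).derivative.eval 0 • Y.at j (H 0)) 0 := by
    intro j
    have h2 : DifferentiableAt ℂ (fun z => Y.at j (H z)) 0 := by
      rw [differentiableAt_pi]
      intro k
      have h3 : DifferentiableAt ℂ (fun p : EE N => eval p (Y.X j k)) (H 0) := by
        have := (Var_60.contDiff_aeval (A := ℂ) (Y.X j k)).differentiable (by simp)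
        simpa [aeval_eq_eval] using this (H 0)
      exact h3.comp (0 : ℂ) hH
    have h4 := ((c j).hasDerivAt 0).smul h2.hasDerivAt
    rw [hc j, zero_smul, zero_add] at h4
    exact h4
  have h5 := HasDerivAt.fun_sum (u := Finset.univ) fun j _ => h1 j
  exact h5

end Crest.Agent.R269.VarPot_60
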