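import Mathlib
import Crest.Agent.R269.VarUnif_60

/-!
# VF4: the potential of `alpha` for the flow map (helper60, row 269)

* `alpha_frame` : Levi form of `log |e_0 ∧ … ∧ e_n|² - (n+1) log |F|²` for full holomorphic frames;
* `kap` : `log |Λ D_YΦ|² - (n+1)(log |Φ|² - log |p|²)` through the global formula
  `log ∑_J |D_YΦ X_J|² - log ∑_J |X_J|²`; `kap_eq` : value through any frame;
* `flowPot_alpha`.
-/

set_option autoImplicit false

open MvPolynomial Set Filter Topology Metric Module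
open scoped ContDiff ComplexConjugate Matrix

noncomputable section

namespace Crest.Agent.R269.VarPot_60

open Crest.AlgGeometry.ProjEmb Crest.Agent.R269.Tan_60 Crest.Agent.R269.Geo_328
open Crest.Agent.R269.FlowMap_60 Crest.Agent.R269.DefsS_731 Crest.Agent.R269.Defs_58
open Crest.Agent.R269.Alp_927 Crest.Agent.R269.Levi2_599

variable {N n : ℕ} {I : Ideal (HomCoordRing N)}

/-- matrix with rows `e k` -/
abbrev MM {m : ℕ} (e : Fin m → EE N) : Matrix (Fin m) (Fin (N + 1)) ℂ := Matrix.of e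

theorem wedgeSq_eq' {m : ℕ} (e : Fin m → EE N) : wedgeSq e = WS (MM e) := rfl

theorem frame_mul_gM {m : ℕ} {p : EE N} {e : Fin m → EE N} {G : Fin (N - n) → HomCoordRing N}
    (he : ∀ k, e k ∈ Tan I p) (hG : ∀ k, G k ∈ I) : MM e * (gM G p)ᵀ = 0 := by
  ext i k
  rw [Matrix.mul_apply, Matrix.zero_apply]
  have := he i (G k) (hG k)
  rw [dP] at this
  rw [← this]
  exact Finset.sum_congr rfl fun j _ => mul_comm _ _

theorem analyticAt_entry {V : Type*} [NormedAddCommGroup V] [NormedSpace ℂ V] {m : ℕ}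
    {e : Fin m → V → EE N} {z : V} (he : ∀ k, AnalyticAt ℂ (e k) z) (i : Fin m)
    (j : Fin (N + 1)) : AnalyticAt ℂ (fun w => MM (fun k => e k w) i j) z :=
  (ContinuousLinearMap.proj (R := ℂ) (φ := fun _ : Fin (N + 1) => ℂ) j).analyticAt _ |>.comp (he i)

/-- **`α` through full holomorphic frames** -/
theorem alpha_frame (hX : IsSmoothProjective I n) {V : Type*} [NormedAddCommGroup V]
    [NormedSpace ℂ V] {F : V → EE N} {e : Fin (n + 1) → V → EE N} {z : V}
    (hF : AnalyticAt ℂ F z) (he : ∀ k, AnalyticAt ℂ (e k) z)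
    (hc : ∀ᶠ w in 𝓝 z, F w ∈ Cone I ∧ ∀ k, e k w ∈ Tan I (F w))
    (h0 : WS (MM fun k => e k z) ≠ 0) (x : V) :
    LevC_653.lev (fun w => Real.log (WS (MM fun k => e k w)) - (n + 1) * Real.log (nsq (F w))) z x
      = alpha I n (F z) (fderiv ℂ F z x) := by
  have hp := hc.self_of_nhds.1
  have hn := nsq_pos hp.2
  obtain ⟨G, hG, hα⟩ := alpha_choose hX hp
  have cW : ContDiffAt ℝ 2 (fun w => Real.log (WS (MM fun k => e k w))) z :=
    (contDiffAt_WS (fun i j => (analyticAt_entry he i j).contDiffAt.restrict_scalars ℝ)).log h0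
  have cn : ContDiffAt ℝ 2 (fun w => Real.log (nsq (F w))) z :=
    (ContDiffAt.comp z (contDiffAt_nsq (F z)) (hF.contDiffAt.restrict_scalars ℝ)).log hn.ne'
  rw [Lev_901.lev_sub cW (contDiffAt_const.mul cn), LevC_653.lev_const_mul _ cn,
    lev_log_WS_eq (eqv hX) (analyticAt_entry he) (analyticAt_gM_comp G hF) ?_ h0 hG.pos.ne' x,
    hα, omg_eq_lev hp.2]
  · have h1 := Lev_901.lev_comp_hol (F := F) (u := lG G) (contDiffAt_lG hG.pos.ne') hF x
    have h2 := Lev_901.lev_comp_hol (F := F) (u := fun q : EE N => Real.log (nsq q))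
      ((contDiffAt_nsq (F z)).log hn.ne') hF x
    rw [h2]
    have h3 : LevC_653.lev (fun w => Real.log (WS (gM G (F w)))) z x =
      LevC_653.lev (lG G) (F z) (fderiv ℂ F z x) := h1
    rw [h3]
  · filter_upwards [hc] with w hw
    exact frame_mul_gM hw.2 hG.mem

theorem alphaFrameStmt : AlphaFrameStmt := by
  intro N n I _ hX d F e z₀ x hF he hT hli
  rw [lev_eq]
  have h0 : WS (MM fun k => e k z₀) ≠ 0 := (WS_pos_of_linearIndependent hli).ne'
  rw [← alpha_frame hX hF.1 he (hF.2.and hT) h0 x]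
  apply LevC_653.lev_congr
  have hWe : ∀ᶠ w in 𝓝 z₀, WS (MM fun k => e k w) ≠ 0 :=
    (continuousAt_WS (fun i j => (analyticAt_entry he i j).continuousAt)).eventually_ne h0
  filter_upwards [hF.2, hWe] with w h1 h2
  have h3 := nsq_pos h1.2
  rw [wedgeSq_eq', Real.log_div h2 (by positivity), Real.log_pow]
  push_cast
  ring

/-! ### the potential -/

variable (Y : Flds I)

/-- the frame `(X_{J i}(p))` -/
def fr {m : ℕ} (J : Fin m → Fin Y.M) (p : EE N) : Fin m → EE N := fun i => Y.at (J i) p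

/-- `∑_J |A X_J(p)|²` -/
def SJ (m : ℕ) (A : EE N →L[ℂ] EE N) (p : EE N) : ℝ :=
  ∑ J : Fin m → Fin Y.M, WS (MM fun i => A (fr Y J p i))

/-- the potential difference for `alpha` -/
def kap (n : ℕ) (τ : ℂ) (q : PS N Y.M) : ℝ :=
  Real.log (SJ Y (n + 1) (DY Y.X τ q) q.2) -
    Real.log (SJ Y (n + 1) (ContinuousLinearMap.id ℂ (EE N)) q.2) -
    (n + 1) * (Real.log (nsq (Ph Y.X τ q)) - Real.log (nsq q.2))

variable {Y}

theorem fr_mem {m : ℕ} (J : Fin m → Fin Y.M) {p : EE N} (hp : p ∈ Cone I) (i : Fin m) :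
    fr Y J p i ∈ Tan I p := by
  rw [← Y.span p hp]
  exact Submodule.subset_span ⟨J i, rfl⟩

theorem exists_frame (hX : IsSmoothProjective I n) {p : EE N} (hp : p ∈ Cone I) :
    ∃ J : Fin (n + 1) → Fin Y.M, LinearIndependent ℂ (fr Y J p) := by
  have h1 : finrank ℂ (Submodule.span ℂ (Set.range fun j => Y.at j p)) = n + 1 := by
    have := finrank_Tan hX hp
    rw [← Y.span p hp] at this
    exact this
  obtain ⟨J, hJ⟩ := exists_linearIndependent_of_finrank _ h1
  exact ⟨J, hJ⟩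

/-- vectors of `Tan I p` in terms of a frame -/
theorem exists_coeffs (hX : IsSmoothProjective I n) {p : EE N} (hp : p ∈ Cone I)
    {e : Fin (n + 1) → EE N} (he : ∀ k, e k ∈ Tan I p) (hli : LinearIndependent ℂ e)
    {v : EE N} (hv : v ∈ Tan I p) : ∃ a : Fin (n + 1) → ℂ, v = ∑ k, a k • e k := by
  have h1 : Submodule.span ℂ (Set.range e) = Tan I p := by
    apply Submodule.eq_of_le_of_finrank_eq
    · rw [Submodule.span_le]
      rintro _ ⟨k, rfl⟩
      exact he k
    · rw [finrank_span_eq_card hli, Fintype.card_fin, finrank_Tan hX hp]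
  rw [← h1, Submodule.mem_span_range_iff_exists_fun] at hv
  obtain ⟨a, ha⟩ := hv
  exact ⟨a, ha.symm⟩

/-- `∑_J |A X_J|² = S |A e|²` with `S > 0` independent of `A` -/
theorem exists_SJ (hX : IsSmoothProjective I n) {p : EE N} (hp : p ∈ Cone I)
    {e : Fin (n + 1) → EE N} (he : ∀ k, e k ∈ Tan I p) (hli : LinearIndependent ℂ e) :
    ∃ S : ℝ, 0 < S ∧ ∀ A : EE N →L[ℂ] EE N, SJ Y (n + 1) A p = S * WS (MM fun i => A (e i)) := by
  choose a ha using fun j : Fin Y.M => exists_coeffs hX hp he hli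
    (v := Y.at j p) (by rw [← Y.span p hp]; exact Submodule.subset_span ⟨j, rfl⟩)
  have hmul : ∀ (J : Fin (n + 1) → Fin Y.M) (A : EE N →L[ℂ] EE N),
      (MM fun i => A (fr Y J p i)) = (Matrix.of fun i k => a (J i) k) * (MM fun i => A (e i)) := by
    intro J A
    ext i l
    rw [Matrix.mul_apply]
    simp only [Matrix.of_apply, fr]
    rw [ha (J i), map_sum, Finset.sum_apply]
    refine Finset.sum_congr rfl fun k _ => ?_
    rw [map_smul]
    rfl
  have hWS : ∀ (J : Fin (n + 1) → Fin Y.M) (A : EE N →L[ℂ] EE N),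
      WS (MM fun i => A (fr Y J p i)) =
        Complex.normSq (Matrix.of fun i k => a (J i) k).det * WS (MM fun i => A (e i)) := by
    intro J A
    rw [hmul, WS_mul_left]
  refine ⟨∑ J : Fin (n + 1) → Fin Y.M, Complex.normSq (Matrix.of fun i k => a (J i) k).det,
    ?_, fun A => ?_⟩
  · obtain ⟨J, hJ⟩ := exists_frame (Y := Y) hX hp
    have h1 : 0 < WS (MM fun i => (ContinuousLinearMap.id ℂ (EE N)) (fr Y J p i)) :=
      WS_pos_of_linearIndependent hJ
    rw [hWS] at h1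
    have h2 : 0 < Complex.normSq (Matrix.of fun i k => a (J i) k).det := by
      rcases (Complex.normSq_nonneg (Matrix.of fun i k => a (J i) k).det).lt_or_eq with h3 | h3
      · exact h3
      · rw [← h3, zero_mul] at h1
        exact absurd h1 (lt_irrefl _)
    exact lt_of_lt_of_le h2 (Finset.single_le_sum
      (f := fun J : Fin (n + 1) → Fin Y.M => Complex.normSq (Matrix.of fun i k => a (J i) k).det)
      (fun J _ => Complex.normSq_nonneg _) (Finset.mem_univ J))
  · rw [SJ, Finset.sum_mul]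
    exact Finset.sum_congr rfl fun J _ => hWS J A

/-- the value of `kap` through any frame -/
theorem kap_eq (hX : IsSmoothProjective I n) {τ : ℂ} {c : Fin Y.M → ℂ} {p : EE N}
    (hp : p ∈ Cone I) {e : Fin (n + 1) → EE N} (he : ∀ k, e k ∈ Tan I p)
    (hli : LinearIndependent ℂ e) (hne : WS (MM fun i => DY Y.X τ (c, p) (e i)) ≠ 0) :
    kap Y n τ (c, p) = (Real.log (WS (MM fun i => DY Y.X τ (c, p) (e i))) -
      (n + 1) * Real.log (nsq (Ph Y.X τ (c, p)))) -
      (Real.log (WS (MM e)) - (n + 1) * Real.log (nsq p)) := by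
  obtain ⟨S, hS, h⟩ := exists_SJ (Y := Y) hX hp he hli
  have h1 : WS (MM e) ≠ 0 := (WS_pos_of_linearIndependent hli).ne'
  have h2 : SJ Y (n + 1) (ContinuousLinearMap.id ℂ (EE N)) p = S * WS (MM e) := h _
  simp only [kap]
  rw [h, h2, Real.log_mul hS.ne' hne, Real.log_mul hS.ne' h1]
  ring

theorem WS_DY_ne {τ : ℂ} {q : PS N Y.M} (ha : Adm Y.X τ q) {m : ℕ} {e : Fin m → EE N}
    (hli : LinearIndependent ℂ e) : WS (MM fun i => DY Y.X τ q (e i)) ≠ 0 := by
  refine (WS_pos_of_linearIndependent ?_).ne'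
  exact hli.map' (DY Y.X τ q : EE N →ₗ[ℂ] EE N) (LinearMap.ker_eq_bot.mpr ha.inj)

theorem contDiff_at (j : Fin Y.M) : ContDiff ℂ ω (fun p : EE N => Y.at j p) := by
  refine contDiff_pi.2 fun k => ?_
  have h1 := Var_60.contDiff_aeval (A := ℂ) (Y.X j k)
  have h2 : ContDiff ℂ ω (fun p : EE N => eval p (Y.X j k)) := by
    simpa [aeval_eq_eval] using h1
  exact h2

theorem analyticAt_DY_at {τ : ℂ} {q : PS N Y.M} (h : (τ, q) ∈ DM Y.X) (j : Fin Y.M) :
    AnalyticAt ℂ (fun x : ℂ × PS N Y.M => DY Y.X x.1 x.2 (Y.at j x.2.2)) (τ, q) := by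
  have h1 := analyticOnNhd_DY (X := Y.X) _ h
  have h2 : AnalyticAt ℂ (fun x : ℂ × PS N Y.M => Y.at j x.2.2) (τ, q) := by
    have h3 : ContDiff ℂ ω (fun p : EE N => Y.at j p) := contDiff_at j
    have h4 : ContDiff ℂ ω (fun x : ℂ × PS N Y.M => Y.at j x.2.2) :=
      h3.comp contDiff_snd.snd
    exact h4.contDiffAt.analyticAt
  have h5 : ContDiffAt ℂ ω (fun x : ℂ × PS N Y.M => DY Y.X x.1 x.2 (Y.at j x.2.2)) (τ, q) :=
    h1.contDiffAt.clm_apply h2.contDiffAt
  exact h5.analyticAt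

theorem analyticAt_at (j : Fin Y.M) (p : EE N) : AnalyticAt ℂ (fun p : EE N => Y.at j p) p := by
  exact (contDiff_at j).contDiffAt.analyticAt

theorem flowPot_alpha (Y : Flds I) (hX : IsSmoothProjective I n) :
    FlowPot Y (fun p v => alpha I n p v) (kap Y n) where
  zero := fun c p _ => by
    simp only [kap, DY_zero, Ph_zero, sub_self, mul_zero]
  fix := fun τ p _ => by
    simp only [kap, DY_zero_left, Ph_zero_left, sub_self, mul_zero]
  hom := fun τ c p hp t ht ha => by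
    obtain ⟨ρ, hg, hτ⟩ := ha.good
    have htc : (t : ℂ) ≠ 0 := by exact_mod_cast ht.ne'
    have h1 := (Ph_smul Y.one_le Y.homog (t : ℂ) hg).2 τ hτ
    have h2 := DY_smul Y.one_le Y.homog htc hg hτ
    have hat : ∀ j, Y.at j ((t : ℂ) • p) = (t : ℂ) ^ Y.D • Y.at j p := by
      intro j
      funext k
      simp only [Flds.at, Pi.smul_apply, smul_eq_mul]
      exact Tan_60.eval_smul_of_isHomogeneous (Y.homog j k) p t
    have hSJ : ∀ A : EE N →L[ℂ] EE N, SJ Y (n + 1) A ((t : ℂ) • p) =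
        (t ^ Y.D) ^ (2 * (n + 1)) * SJ Y (n + 1) A p := by
      intro A
      rw [SJ, SJ, Finset.mul_sum]
      refine Finset.sum_congr rfl fun J _ => ?_
      have h3 : (MM fun i => A (fr Y J ((t : ℂ) • p) i)) =
          (Matrix.scalar (Fin (n + 1)) ((t : ℂ) ^ Y.D)) * (MM fun i => A (fr Y J p i)) := by
        ext i l
        rw [Matrix.scalar_apply, Matrix.diagonal_mul]
        simp only [fr, hat, map_smul, Matrix.of_apply, Pi.smul_apply, smul_eq_mul]
      rw [h3, WS_mul_left]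
      congr 1
      rw [Matrix.scalar_apply, Matrix.det_diagonal, Finset.prod_const, Finset.card_univ,
        Fintype.card_fin, map_pow, map_pow, Complex.normSq_ofReal]
      ring
    obtain ⟨J, hJ⟩ := exists_frame (Y := Y) hX hp
    have hpos : ∀ A : EE N →L[ℂ] EE N, Function.Injective A → 0 < SJ Y (n + 1) A p := by
      intro A hA
      have h4 : 0 < WS (MM fun i => A (fr Y J p i)) :=
        WS_pos_of_linearIndependent
          (hJ.map' (A : EE N →ₗ[ℂ] EE N) (LinearMap.ker_eq_bot.mpr hA))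
      exact lt_of_lt_of_le h4 (Finset.single_le_sum
        (f := fun J : Fin (n + 1) → Fin Y.M => WS (MM fun i => A (fr Y J p i)))
        (fun J _ => WS_nonneg _) (Finset.mem_univ J))
    have htp : (0 : ℝ) < (t ^ Y.D) ^ (2 * (n + 1)) := by positivity
    have hn1 := nsq_pos (Adm.mem_Cone ha hp).2
    have hn2 := nsq_pos hp.2
    have hts : Complex.normSq (t : ℂ) ≠ 0 := by
      rw [Complex.normSq_ofReal]; positivity
    have e1 : Real.log (SJ Y (n + 1) (DY Y.X τ (c, (t : ℂ) • p)) ((t : ℂ) • p)) =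
        Real.log ((t ^ Y.D) ^ (2 * (n + 1))) +
          Real.log (SJ Y (n + 1) (DY Y.X τ ((t : ℂ) ^ (Y.D - 1) • c, p)) p) := by
      rw [h2, hSJ, Real.log_mul htp.ne' (hpos _ ha.inj).ne']
    have e2 : Real.log (SJ Y (n + 1) (ContinuousLinearMap.id ℂ (EE N)) ((t : ℂ) • p)) =
        Real.log ((t ^ Y.D) ^ (2 * (n + 1))) +
          Real.log (SJ Y (n + 1) (ContinuousLinearMap.id ℂ (EE N)) p) := by
      rw [hSJ, Real.log_mul htp.ne' (hpos _ (fun a b h => h)).ne']
    have e3 : Real.log (nsq (Ph Y.X τ (c, (t : ℂ) • p))) = Real.log (Complex.normSq (t : ℂ)) +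
        Real.log (nsq (Ph Y.X τ ((t : ℂ) ^ (Y.D - 1) • c, p))) := by
      rw [h1, nsq_smul, Real.log_mul hts hn1.ne']
    have e4 : Real.log (nsq ((t : ℂ) • p)) = Real.log (Complex.normSq (t : ℂ)) +
        Real.log (nsq p) := by
      rw [nsq_smul, Real.log_mul hts hn2.ne']
    simp only [kap]
    rw [e1, e2, e3, e4]
    ring
  smooth := fun τ c p hp ha => by
    obtain ⟨J, hJ⟩ := exists_frame (Y := Y) hX hp
    have hpos : ∀ A : EE N →L[ℂ] EE N, Function.Injective A → 0 < SJ Y (n + 1) A p := by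
      intro A hA
      have h4 : 0 < WS (MM fun i => A (fr Y J p i)) :=
        WS_pos_of_linearIndependent
          (hJ.map' (A : EE N →ₗ[ℂ] EE N) (LinearMap.ker_eq_bot.mpr hA))
      exact lt_of_lt_of_le h4 (Finset.single_le_sum
        (f := fun J : Fin (n + 1) → Fin Y.M => WS (MM fun i => A (fr Y J p i)))
        (fun J _ => WS_nonneg _) (Finset.mem_univ J))
    have c1 : ContDiffAt ℝ 2 (fun x : ℂ × PS N Y.M => SJ Y (n + 1) (DY Y.X x.1 x.2) x.2.2)
        (τ, (c, p)) := by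
      refine ContDiffAt.sum fun J _ => contDiffAt_WS fun i j => ?_
      exact (analyticAt_entry (e := fun i (x : ℂ × PS N Y.M) =>
        DY Y.X x.1 x.2 (Y.at (J i) x.2.2))
        (fun k => analyticAt_DY_at (Adm.mem_DM ha) (J k)) i j).contDiffAt.restrict_scalars ℝ
    have c2 : ContDiffAt ℝ 2 (fun x : ℂ × PS N Y.M =>
        SJ Y (n + 1) (ContinuousLinearMap.id ℂ (EE N)) x.2.2) (τ, (c, p)) := by
      refine ContDiffAt.sum fun J _ => contDiffAt_WS fun i j => ?_
      refine (analyticAt_entry (e := fun i (x : ℂ × PS N Y.M) => Y.at (J i) x.2.2)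
        (fun k => ?_) i j).contDiffAt.restrict_scalars ℝ
      exact AnalyticAt.comp (g := fun p : EE N => Y.at (J k) p)
        (f := fun x : ℂ × PS N Y.M => x.2.2) (analyticAt_at (J k) p)
        ((contDiff_snd.snd (𝕜 := ℂ) (n := ω)).contDiffAt.analyticAt)
    have c3 : ContDiffAt ℝ 2 (fun x : ℂ × PS N Y.M => nsq (Ph Y.X x.1 x.2)) (τ, (c, p)) :=
      ContDiffAt.comp (τ, (c, p)) (g := fun p : EE N => nsq p)
        (f := fun x : ℂ × PS N Y.M => Ph Y.X x.1 x.2) (contDiffAt_nsq _)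
        (contDiffAt_Ph (Adm.mem_DM ha))
    have c4 : ContDiffAt ℝ 2 (fun x : ℂ × PS N Y.M => nsq x.2.2) (τ, (c, p)) :=
      ContDiffAt.comp (τ, (c, p)) (g := fun p : EE N => nsq p)
        (f := fun x : ℂ × PS N Y.M => x.2.2) (contDiffAt_nsq _) contDiffAt_snd.snd
    have n3 : nsq (Ph Y.X τ (c, p)) ≠ 0 := (nsq_pos (Adm.mem_Cone ha hp).2).ne'
    have n4 : nsq p ≠ 0 := (nsq_pos hp.2).ne'
    exact ((c1.log (hpos _ ha.inj).ne').sub (c2.log (hpos _ (fun a b h => h)).ne')).sub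
      (contDiffAt_const.mul ((c3.log n3).sub (c4.log n4)))
  levT := fun c p hp => by
    obtain ⟨J, hJ⟩ := exists_frame (Y := Y) hX hp
    obtain ⟨ρ, hρ, hg⟩ := exists_good (X := Y.X) (c, p)
    have hbase : AnalyticAt ℂ (fun w : ℂ => ((w, (c, p)) : ℂ × PS N Y.M)) 0 :=
      analyticAt_id.prod analyticAt_const
    have hA : AnalyticAt ℂ (fun τ => Ph Y.X τ (c, p)) 0 :=
      AnalyticAt.comp (g := fun x : ℂ × PS N Y.M => Ph Y.X x.1 x.2)
        (f := fun w : ℂ => ((w, (c, p)) : ℂ × PS N Y.M))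
        (analyticOnNhd_Ph Y.X _ (zero_mem_DM Y.X (c, p))) hbase
    have hD : ∀ k, AnalyticAt ℂ (fun τ => DY Y.X τ (c, p) (fr Y J p k)) 0 := by
      intro k
      have h1 : AnalyticAt ℂ (fun τ => DY Y.X τ (c, p)) 0 :=
        AnalyticAt.comp (g := fun x : ℂ × PS N Y.M => DY Y.X x.1 x.2)
          (f := fun w : ℂ => ((w, (c, p)) : ℂ × PS N Y.M))
          (analyticOnNhd_DY (X := Y.X) _ (zero_mem_DM Y.X (c, p))) hbase
      have h2 : ContDiffAt ℂ ω (fun τ => DY Y.X τ (c, p) (fr Y J p k)) 0 :=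
        h1.contDiffAt.clm_apply contDiffAt_const
      exact h2.analyticAt
    have hne0 : WS (MM fun k => DY Y.X 0 (c, p) (fr Y J p k)) ≠ 0 := WS_DY_ne (adm_zero _) hJ
    have hcone : ∀ᶠ w in 𝓝 (0 : ℂ), Ph Y.X w (c, p) ∈ Cone I ∧
        ∀ k, DY Y.X w (c, p) (fr Y J p k) ∈ Tan I (Ph Y.X w (c, p)) := by
      filter_upwards [ball_mem_nhds (0 : ℂ) hρ] with w hw
      exact ⟨Ph_mem_Cone Y.one_le Y.homog Y.tang hg hp hw,
        fun k => DY_mem_Tan Y.tang hg hp.1 (Y.span _ hp).ge hw (fr_mem J hp k)⟩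
    have h1 := alpha_frame hX hA hD hcone hne0 (1 : ℂ)
    have h4 : fderiv ℂ (fun τ => Ph Y.X τ (c, p)) 0 1 = fld Y.X (c, p) := by
      have := (hasDerivAt_Ph hg (mem_ball_self hρ)).deriv
      rw [Ph_zero] at this
      rw [← this]
      exact fderiv_apply_one_eq_deriv
    rw [h4, Ph_zero] at h1
    rw [← h1]
    have hWe : ∀ᶠ w in 𝓝 (0 : ℂ), WS (MM fun k => DY Y.X w (c, p) (fr Y J p k)) ≠ 0 :=
      (continuousAt_WS (fun i j => (analyticAt_entry hD i j).continuousAt)).eventually_ne hne0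
    have hev : (fun τ => kap Y n τ (c, p)) =ᶠ[𝓝 0] fun w =>
        (Real.log (WS (MM fun k => DY Y.X w (c, p) (fr Y J p k))) -
          (n + 1) * Real.log (nsq (Ph Y.X w (c, p)))) -
        (Real.log (WS (MM (fr Y J p))) - (n + 1) * Real.log (nsq p)) := by
      filter_upwards [hWe] with w hw
      exact kap_eq hX hp (fr_mem J hp) hJ hw
    simp only [L]
    rw [LevC_653.lev_congr hev]
    have cW : ContDiffAt ℝ 2 (fun w => Real.log (WS (MM fun k =>
        DY Y.X w (c, p) (fr Y J p k))) - (n + 1) * Real.log (nsq (Ph Y.X w (c, p)))) 0 := by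
      refine ((contDiffAt_WS (fun i j =>
        (analyticAt_entry hD i j).contDiffAt.restrict_scalars ℝ)).log hne0).sub
        (contDiffAt_const.mul ?_)
      refine (ContDiffAt.comp (0 : ℂ) (contDiffAt_nsq _)
        (hA.contDiffAt.restrict_scalars ℝ)).log ?_
      show nsq (Ph Y.X 0 (c, p)) ≠ 0
      rw [Ph_zero]
      exact (nsq_pos hp.2).ne'
    rw [Lev_901.lev_sub cW contDiffAt_const]
    simp [LevC_653.lev]
  levZ := fun τ c H z hc hH hI ha => by
    have hz := hI.self_of_nhds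
    obtain ⟨J, hJ⟩ := exists_frame (Y := Y) hX hz
    have hA := analyticAt_Ph_comp hc hH (Adm.mem_DM ha)
    have hbase : AnalyticAt ℂ (fun w : ℂ => ((τ, (c w, H w)) : ℂ × PS N Y.M)) z :=
      analyticAt_const.prod (hc.prod hH)
    have hD : ∀ k, AnalyticAt ℂ (fun w => DY Y.X τ (c w, H w) (fr Y J (H w) k)) z := by
      intro k
      exact AnalyticAt.comp (g := fun x : ℂ × PS N Y.M => DY Y.X x.1 x.2 (Y.at (J k) x.2.2))
        (f := fun w : ℂ => ((τ, (c w, H w)) : ℂ × PS N Y.M))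
        (analyticAt_DY_at (Adm.mem_DM ha) (J k)) hbase
    have hB : ∀ k, AnalyticAt ℂ (fun w => fr Y J (H w) k) z := fun k =>
      AnalyticAt.comp (g := fun p : EE N => Y.at (J k) p) (f := H) (analyticAt_at (J k) (H z)) hH
    have hne1 : WS (MM fun k => DY Y.X τ (c z, H z) (fr Y J (H z) k)) ≠ 0 := WS_DY_ne ha hJ
    have hne2 : WS (MM fun k => fr Y J (H z) k) ≠ 0 := (WS_pos_of_linearIndependent hJ).ne'
    have hcone1 : ∀ᶠ w in 𝓝 z, Ph Y.X τ (c w, H w) ∈ Cone I ∧
        ∀ k, DY Y.X τ (c w, H w) (fr Y J (H w) k) ∈ Tan I (Ph Y.X τ (c w, H w)) := by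
      filter_upwards [eventually_mem_Cone hc.continuousAt hH.continuousAt hI ha, hI] with w hw hwI
      exact ⟨hw.1, fun k => hw.2 _ (fr_mem J hwI k)⟩
    have hcone2 : ∀ᶠ w in 𝓝 z, H w ∈ Cone I ∧ ∀ k, fr Y J (H w) k ∈ Tan I (H w) := by
      filter_upwards [hI] with w hwI
      exact ⟨hwI, fun k => fr_mem J hwI k⟩
    have h1 := alpha_frame hX hA hD hcone1 hne1 (1 : ℂ)
    have h2 := alpha_frame hX hH hB hcone2 hne2 (1 : ℂ)
    have hWe1 : ∀ᶠ w in 𝓝 z, WS (MM fun k => DY Y.X τ (c w, H w) (fr Y J (H w) k)) ≠ 0 :=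
      (continuousAt_WS (fun i j => (analyticAt_entry hD i j).continuousAt)).eventually_ne hne1
    have hWe2 : ∀ᶠ w in 𝓝 z, WS (MM fun k => fr Y J (H w) k) ≠ 0 :=
      (continuousAt_WS (fun i j => (analyticAt_entry hB i j).continuousAt)).eventually_ne hne2
    have hev : (fun w => kap Y n τ (c w, H w)) =ᶠ[𝓝 z] fun w =>
        (Real.log (WS (MM fun k => DY Y.X τ (c w, H w) (fr Y J (H w) k))) -
          (n + 1) * Real.log (nsq (Ph Y.X τ (c w, H w)))) -
        (Real.log (WS (MM fun k => fr Y J (H w) k)) - (n + 1) * Real.log (nsq (H w))) := by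
      filter_upwards [hWe1, hWe2, hI] with w hw1 hw2 hwI
      exact kap_eq hX hwI (fr_mem J hwI) (linearIndependent_of_WS hw2) hw1
    have cW1 : ContDiffAt ℝ 2 (fun w => Real.log (WS (MM fun k =>
        DY Y.X τ (c w, H w) (fr Y J (H w) k))) -
          (n + 1) * Real.log (nsq (Ph Y.X τ (c w, H w)))) z := by
      refine ((contDiffAt_WS (fun i j =>
        (analyticAt_entry hD i j).contDiffAt.restrict_scalars ℝ)).log hne1).sub
        (contDiffAt_const.mul ?_)
      exact (ContDiffAt.comp z (contDiffAt_nsq _)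
        (hA.contDiffAt.restrict_scalars ℝ)).log (nsq_pos (Adm.mem_Cone ha hz).2).ne'
    have cW2 : ContDiffAt ℝ 2 (fun w => Real.log (WS (MM fun k => fr Y J (H w) k)) -
          (n + 1) * Real.log (nsq (H w))) z := by
      refine ((contDiffAt_WS (fun i j =>
        (analyticAt_entry hB i j).contDiffAt.restrict_scalars ℝ)).log hne2).sub
        (contDiffAt_const.mul ?_)
      exact (ContDiffAt.comp z (contDiffAt_nsq _)
        (hH.contDiffAt.restrict_scalars ℝ)).log (nsq_pos hz.2).ne'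
    simp only [L]
    rw [LevC_653.lev_congr hev, Lev_901.lev_sub cW1 cW2, h1, h2,
      ← fderiv_apply_one_eq_deriv, ← fderiv_apply_one_eq_deriv]

end Crest.Agent.R269.VarPot_60
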