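import Mathlib
import Crest.Agent.R269.VarAlp_60
import Crest.Agent.R269.SVar2_740

/-!
# `hasVar`: the polynomial variations of a disc in the format of `SVar2_740` (helper60, row 269)
-/

set_option autoImplicit false

open MvPolynomial Set Filter Topology Metric Module
open scoped ContDiff ComplexConjugate

noncomputable section

namespace Crest.Agent.R269.Var3_60

open Crest.AlgGeometry.ProjEmb Crest.Agent.R269.Tan_60 Crest.Agent.R269.Geo_328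
open Crest.Agent.R269.FlowMap_60 Crest.Agent.R269.DefsS_731 Crest.Agent.R269.Defs_58
open Crest.Agent.R269.Levi2_599 Crest.Agent.R269.VarPot_60

variable {N n : ℕ} {I : Ideal (HomCoordRing N)}

theorem exists_Flds (hI : I.IsPrime) (hX : IsSmoothProjective I n) : Nonempty (Flds I) := by
  obtain ⟨D, M, X, h1, h2, h3, h4⟩ := Hom_60.exists_fields hX
  exact ⟨⟨D, M, X, h1, h2, h3, h4⟩⟩

theorem var_X_mul (Y : Flds I) (c : Fin Y.M → Polynomial ℂ) (z : ℂ) (p : EE N) :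
    Y.var (fun j => Polynomial.X * c j) z p = z • Y.var c z p := by
  simp only [Flds.var, Polynomial.eval_mul, Polynomial.eval_X, Finset.smul_sum, smul_smul]

theorem fam_of_flowPot {Y : Flds I} {E : EE N → EE N → ℝ} {F : ℂ → PS N Y.M → ℝ}
    (h : FlowPot Y E F) (hI : ∀ P ∈ I, ∀ d : ℕ, homogeneousComponent d P ∈ I)
    (c : Fin Y.M → Polynomial ℂ) (hc0 : ∀ j, (c j).eval 0 = 0)
    {Mc ρ₀ : ℝ} (hMc : ∀ z ∈ closedBall (0 : ℂ) 1, ‖cz Y c z‖ ≤ Mc) (hρ₀ : 0 < ρ₀)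
    (hadm : ∀ c : Fin Y.M → ℂ, ‖c‖ ≤ Mc → ∀ p : EE N, ‖p‖ ≤ 1 →
      ∀ τ : ℂ, ‖τ‖ ≤ ρ₀ → Adm Y.X τ (c, p)) {H : ℂ → EE N} (hH : IsDisc I H)
    (h1 : ∀ z ∈ ball (0 : ℂ) 1, nsq (H z) ≤ 1) :
    ∃ C d, SVar2_740.Fam E H (fun z => Y.var c z (H z)) (Hfl Y c H) ρ₀ C d := by
  obtain ⟨C, hC, h2, h3⟩ := h.disc' hI c hMc hρ₀ hadm
  have h1' : ∀ z ∈ ball (0 : ℂ) 1, ‖H z‖ ≤ 1 := fun z hz => norm_le_one_of_nsq (h1 z hz)
  refine ⟨C * ρ₀, fun τ z => F τ (cz Y c z, H z), ?_⟩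
  refine
    { smooth := fun τ hτ => (h2 H hH h1' τ hτ).2.1
      lev_eq := fun τ hτ z hz => (h2 H hH h1' τ hτ).2.2.2 z hz
      bound := fun τ hτ z hz => ((h2 H hH h1' τ hτ).2.2.1 z hz).trans (by gcongr)
      center := fun τ _ => h.disc_zero c τ hc0 (hH.cone 0 (mem_ball_self one_pos))
      mean := fun ε hε => ?_ }
  obtain ⟨δ, hδ, h4⟩ := h3 ε hε
  filter_upwards [Ioo_mem_nhdsGT hδ] with ρ hρ z hz
  have := h4 ρ hρ.1 hρ.2 H hH h1' z hz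
  rwa [mul_comm ε] at this

/-- **the polynomial variations** -/
theorem hasVar (_hI : I.IsPrime) (hX : IsSmoothProjective I n) (Y : Flds I)
    (c : Fin Y.M → Polynomial ℂ) {H : ℂ → EE N} (hH : IsDisc I H)
    (h1 : ∀ z ∈ ball (0 : ℂ) 1, nsq (H z) ≤ 1) :
    SVar2_740.HasVar I n H (fun z => z • Y.var c z (H z)) := by
  set c' : Fin Y.M → Polynomial ℂ := fun j => Polynomial.X * c j with hc'
  have hc0 : ∀ j, (c' j).eval 0 = 0 := fun j => by simp [hc']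
  have hV : (fun z => z • Y.var c z (H z)) = fun z => Y.var c' z (H z) := by
    funext z
    exact (var_X_mul Y c z (H z)).symm
  rw [hV]
  obtain ⟨Mc, hMc⟩ := exists_cz_bound (Y := Y) c'
  obtain ⟨ρ₀, hρ₀, hadm0⟩ := exists_adm Y.X Mc
  have hadm : ∀ c : Fin Y.M → ℂ, ‖c‖ ≤ Mc → ∀ p : EE N, ‖p‖ ≤ 1 →
      ∀ τ : ℂ, ‖τ‖ ≤ ρ₀ → Adm Y.X τ (c, p) := fun c hc p hp τ hτ => (hadm0 c hc p hp).2 τ hτ
  have hhom := hX.homogeneous
  have h1' : ∀ z ∈ ball (0 : ℂ) 1, ‖H z‖ ≤ 1 := fun z hz => norm_le_one_of_nsq (h1 z hz)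
  refine ⟨ρ₀, Hfl Y c' H, ⟨hρ₀, ?_, ?_, ?_, ?_⟩, ?_, ?_, ?_⟩
  · intro τ hτ
    obtain ⟨C, hC, h2, h3⟩ := (flowPot_omg Y).disc' hhom c' hMc hρ₀ hadm
    exact (h2 H hH h1' τ hτ).1
  · intro z _
    exact Ph_zero Y.X _
  · intro τ _
    exact Hfl_zero c' H τ hc0
  · intro τ _
    have hd : DifferentiableAt ℂ H 0 :=
      hH.hol.differentiableAt (isOpen_ball.mem_nhds (mem_ball_self one_pos))
    rw [(hasDerivAt_Hfl c' τ hc0 hd).deriv, (hasDerivAt_var c' hc0 hd).deriv]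
  · exact fam_of_flowPot (flowPot_omg Y) hhom c' hc0 hMc hρ₀ hadm hH h1
  · exact fam_of_flowPot (flowPot_alpha Y hX) hhom c' hc0 hMc hρ₀ hadm hH h1
  · intro u hu
    exact fam_of_flowPot (flowPot_lev Y hu) hhom c' hc0 hMc hρ₀ hadm hH h1

end Crest.Agent.R269.Var3_60
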