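import Mathlib
import Crest.Agent.R269.Alp5_927
import Crest.Agent.R269.DefsS_731
import Crest.Agent.R269.Hardy_142
import Crest.Agent.R269.Green_740
import Crest.Agent.R269.LevBr_901
import Crest.Agent.R269.FldE_620
import Crest.Agent.R269.Iface_731

/-!
# R269 (S0411), LINE B, leaf B10 DET (helper194)

`log DD(H,V)(0) ≥ bavg(log DD a) - T_alpha(1)` and
`avg_{|z|=1/2} log DD(H,V) ≥ bavg(log DD a) - (T_alpha(1) - T_alpha(1/2))`
for the Wold frame `V` of `(H,a)`.
-/

set_option autoImplicit false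

open Filter Topology Set Metric MeasureTheory Real MvPolynomial Crest.AlgGeometry.ProjEmb
open Crest.Agent.R269.Geo_328 Crest.Agent.R269.Defs_58 Crest.Agent.R269.DefsS_731
open Crest.Agent.R269.Alp_927 Crest.Agent.R269.Hardy_142
open scoped ContDiff ComplexConjugate Matrix

namespace Crest.Agent.R269.StatPot_194

noncomputable section

/-- **Fatou with one sided bound.**  `g j → G` a.e. with `G` bounded, `-C - R j ≤ g j` with `∫ R j → 0`
and `R j → 0` a.e.; then `∫ G ≤ lim ∫ g j`. -/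
theorem fatou_one_sided {α : Type*} [MeasurableSpace α] {μ : Measure α} [IsFiniteMeasure μ]
    {g R : ℕ → α → ℝ} {G : α → ℝ} {C B L : ℝ}
    (hg : ∀ j, Integrable (g j) μ) (hR : ∀ j, Integrable (R j) μ)
    (hlow : ∀ j, ∀ᵐ x ∂μ, -C - R j x ≤ g j x)
    (hRlim : Tendsto (fun j => ∫ x, R j x ∂μ) atTop (𝓝 0))
    (hRae : ∀ᵐ x ∂μ, Tendsto (fun j => R j x) atTop (𝓝 0))
    (hgae : ∀ᵐ x ∂μ, Tendsto (fun j => g j x) atTop (𝓝 (G x)))
    (hG : ∀ᵐ x ∂μ, G x ≤ B)
    (hL : Tendsto (fun j => ∫ x, g j x ∂μ) atTop (𝓝 L)) :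
    ∫ x, G x ∂μ ≤ L := by
  -- truncated functions
  have hB : ∀ᵐ x ∂μ, min (G x + C) (B + C) = G x + C := by
    filter_upwards [hG] with x hx
    exact min_eq_left (by linarith)
  have hB' : ∀ᵐ x ∂μ, -C ≤ G x := by
    have hall : ∀ᵐ x ∂μ, ∀ j, -C - R j x ≤ g j x := ae_all_iff.2 hlow
    filter_upwards [hall, hRae, hgae] with x h1 h2 h3
    have h4 : Tendsto (fun j => -C - R j x) atTop (𝓝 (-C - 0)) := tendsto_const_nhds.sub h2
    rw [sub_zero] at h4
    exact le_of_tendsto_of_tendsto' h4 h3 h1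
  let h : ℕ → α → ℝ := fun j x => min (max (g j x + R j x + C) 0) (B + C)
  by_cases hBC : 0 ≤ B + C
  swap
  · -- then μ = 0
    have h0 : ∀ᵐ x ∂μ, False := by
      filter_upwards [hG, hB'] with x h1 h2
      apply hBC; linarith
    have hμ : μ = 0 := by
      rw [ae_iff] at h0
      simpa using h0
    subst hμ
    simp only [integral_zero_measure] at hL ⊢
    exact (tendsto_nhds_unique hL tendsto_const_nhds).ge
  have hmeas : ∀ j, AEStronglyMeasurable (h j) μ := fun j =>
    ((((hg j).add (hR j)).add (integrable_const C)).aestronglyMeasurable.sup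
      aestronglyMeasurable_const).inf aestronglyMeasurable_const
  have hlim : Tendsto (fun j => ∫ x, h j x ∂μ) atTop (𝓝 (∫ x, (G x + C) ∂μ)) := by
    refine tendsto_integral_of_dominated_convergence (fun _ => B + C) hmeas
      (integrable_const _) ?_ ?_
    · intro j
      refine Filter.Eventually.of_forall fun x => ?_
      rw [Real.norm_eq_abs, abs_of_nonneg (le_min (le_max_right _ _) hBC)]
      exact min_le_right _ _
    · filter_upwards [hRae, hgae, hB, hB'] with x h1 h2 h3 h4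
      have h5 : Tendsto (fun j => h j x) atTop (𝓝 (min (max (G x + 0 + C) 0) (B + C))) :=
        (((h2.add h1).add_const C).max tendsto_const_nhds).min tendsto_const_nhds
      rw [add_zero, max_eq_left (by linarith), h3] at h5
      exact h5
  have hle : ∀ j, ∫ x, h j x ∂μ ≤ ∫ x, (g j x + R j x + C) ∂μ := by
    intro j
    refine integral_mono_ae ?_ (((hg j).add (hR j)).add (integrable_const C)) ?_
    · refine Integrable.mono' (integrable_const (B + C)) (hmeas j) ?_
      refine Filter.Eventually.of_forall fun x => ?_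
      rw [Real.norm_eq_abs, abs_of_nonneg (le_min (le_max_right _ _) hBC)]
      exact min_le_right _ _
    · filter_upwards [hlow j] with x hx
      refine (min_le_left _ _).trans ?_
      rw [max_eq_left (by linarith)]
  have hlim2 : Tendsto (fun j => ∫ x, (g j x + R j x + C) ∂μ) atTop
      (𝓝 (L + 0 + ∫ _x, C ∂μ)) := by
    have e : ∀ j, ∫ x, (g j x + R j x + C) ∂μ = ∫ x, g j x ∂μ + ∫ x, R j x ∂μ + ∫ _x, C ∂μ := by
      intro j
      have e1 := integral_add (μ := μ) ((hg j).add (hR j)) (integrable_const C)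
      simp only [Pi.add_apply] at e1
      rw [e1, integral_add (hg j) (hR j)]
    simp only [e]
    exact (hL.add hRlim).add_const _
  have h6 := le_of_tendsto_of_tendsto' hlim hlim2 hle
  by_cases hGi : Integrable G μ
  · rw [integral_add hGi (integrable_const C)] at h6
    linarith
  · -- `G` is bounded and a.e. measurable
    exfalso; apply hGi
    have hm : AEStronglyMeasurable G μ := aestronglyMeasurable_of_tendsto_ae atTop
      (fun j => (hg j).aestronglyMeasurable) hgae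
    refine Integrable.mono' (integrable_const (max |B| |C|)) hm ?_
    filter_upwards [hG, hB'] with x h1 h2
    rw [Real.norm_eq_abs, abs_le]
    constructor
    · have : C ≤ |C| := le_abs_self C
      have h7 := le_max_right |B| |C|
      linarith
    · exact h1.trans ((le_abs_self B).trans (le_max_left _ _))


theorem mem_ball_smul_zt {s : ℝ} (hs : s ∈ Ioo (0 : ℝ) 1) (t : TT) :
    (s : ℂ) * zt t ∈ ball (0 : ℂ) 1 := by
  rw [mem_ball_zero_iff, norm_mul, norm_zt, mul_one, Complex.norm_real, Real.norm_of_nonneg hs.1.le]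
  exact hs.2

theorem continuous_slice {f : ℂ → ℝ} {s : ℝ} (hs : s ∈ Ioo (0 : ℝ) 1)
    (hf : ContinuousOn f (ball 0 1)) : Continuous fun t : TT => f (s * zt t) :=
  hf.comp_continuous (continuous_const.mul continuous_zt) (mem_ball_smul_zt hs)

theorem integrable_slice {f : ℂ → ℝ} {s : ℝ} (hs : s ∈ Ioo (0 : ℝ) 1)
    (hf : ContinuousOn f (ball 0 1)) : Integrable (fun t : TT => f (s * zt t)) mu :=
  (continuous_slice hs hf).integrable_of_hasCompactSupport (HasCompactSupport.of_compactSpace _)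

/-- **B10, abstract form.** `φ` continuous on the open disc, `φ ≥ -C - K P`, circle averages of `P`
tend to `0`, `φ (s_j e^{iθ}) → G θ` a.e., `G` bounded above; if the circle averages of `φ` converge to
`L` along `s_j` then `avg G ≤ L`. -/
theorem avg_le_lim {φ P : ℂ → ℝ} {K C B L : ℝ} {G : TT → ℝ} {s : ℕ → ℝ}
    (hs : ∀ j, s j ∈ Ioo (0 : ℝ) 1)
    (hφ : ContinuousOn φ (ball 0 1)) (hP : ContinuousOn P (ball 0 1))
    (hlow : ∀ z ∈ ball (0 : ℂ) 1, -C - K * P z ≤ φ z)
    (hPlim : Tendsto (fun j => Real.circleAverage P 0 (s j)) atTop (𝓝 0))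
    (hPae : ∀ᵐ t ∂mu, Tendsto (fun j => P (s j * zt t)) atTop (𝓝 0))
    (hae : ∀ᵐ t ∂mu, Tendsto (fun j => φ (s j * zt t)) atTop (𝓝 (G t)))
    (hG : ∀ᵐ t ∂mu, G t ≤ B)
    (hL : Tendsto (fun j => Real.circleAverage φ 0 (s j)) atTop (𝓝 L)) :
    ∫ t, G t ∂mu ≤ L := by
  refine fatou_one_sided (μ := mu) (g := fun j t => φ (s j * zt t))
    (R := fun j t => K * P (s j * zt t)) (G := G) (C := C) (B := B) (L := L)
    (fun j => integrable_slice (hs j) hφ) (fun j => (integrable_slice (hs j) hP).const_mul K)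
    (fun j => Filter.Eventually.of_forall fun t => hlow _ (mem_ball_smul_zt (hs j) t)) ?_ ?_ hae hG ?_
  · have e : ∀ j, ∫ t, K * P (s j * zt t) ∂mu = K * Real.circleAverage P 0 (s j) := by
      intro j
      rw [circleAverage_eq, integral_const_mul]
    simp only [e]
    simpa using hPlim.const_mul K
  · filter_upwards [hPae] with t ht
    simpa using ht.const_mul K
  · have e : ∀ j, ∫ t, φ (s j * zt t) ∂mu = Real.circleAverage φ 0 (s j) := by
      intro j
      rw [circleAverage_eq]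
    simp only [e]
    exact hL

/-- dominated convergence for the circle averages of a bounded function -/
theorem tendsto_avg_of_bdd {φ : ℂ → ℝ} {B : ℝ} {G : TT → ℝ} {s : ℕ → ℝ}
    (hs : ∀ j, s j ∈ Ioo (0 : ℝ) 1) (hφ : ContinuousOn φ (ball 0 1))
    (hB : ∀ z ∈ ball (0 : ℂ) 1, |φ z| ≤ B)
    (hae : ∀ᵐ t ∂mu, Tendsto (fun j => φ (s j * zt t)) atTop (𝓝 (G t))) :
    Tendsto (fun j => Real.circleAverage φ 0 (s j)) atTop (𝓝 (∫ t, G t ∂mu)) := by
  simp only [circleAverage_eq]
  refine tendsto_integral_of_dominated_convergence (fun _ => B)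
    (fun j => (continuous_slice (hs j) hφ).aestronglyMeasurable) (integrable_const _) ?_ hae
  intro j
  refine Filter.Eventually.of_forall fun t => ?_
  rw [Real.norm_eq_abs]
  exact hB _ (mem_ball_smul_zt (hs j) t)

variable {N n : ℕ} {I : Ideal (HomCoordRing N)}

/-! ### `DD` and the matrices `wdg` -/

/-- `DD` does not change if multiples of `p` are added -/
theorem DD_add_smul (p : EE N) (b : Fin n → EE N) (r : Fin n → ℂ) :
    DD p (fun i => b i + r i • p) = DD p b := by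
  rw [DD_eq, DD_eq]
  congr 1
  let T : Matrix (Fin (n + 1)) (Fin (n + 1)) ℂ := Matrix.of fun i j =>
    if i = j then 1 else if j = 0 then Fin.cons (α := fun _ => ℂ) 0 r i else 0
  have hT : rows p (fun i => b i + r i • p) = T * rows p b := by
    ext i k
    rw [Matrix.mul_apply]
    refine Fin.cases ?_ (fun l => ?_) i
    · rw [Finset.sum_eq_single 0]
      · simp [T, rows]
      · intro j _ hj
        simp [T, Ne.symm hj, hj]
      · simp
    · rw [Fin.sum_univ_succ, Finset.sum_eq_single l]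
      · simp [T, rows, (Fin.succ_ne_zero l)]
        ring
      · intro j _ hj
        have h1 : l.succ ≠ j.succ := fun h => hj (Fin.succ_injective _ h).symm
        simp [T, h1]
      · simp
  have hdet : T.det = 1 := by
    have htri : T.BlockTriangular OrderDual.toDual := by
      intro i j hij
      have hij' : i < j := hij
      have h1 : i ≠ j := hij'.ne
      have h2 : j ≠ 0 := fun h => by
        subst h; exact absurd hij' (Fin.not_lt_zero i)
      simp [T, h1, h2]
    rw [Matrix.det_of_isLowerTriangular T htri]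
    exact Finset.prod_eq_one fun i _ => by simp [T]
  rw [hT, WS_mul_left, hdet]
  simp

theorem wdg_add_smul (V p : EE N) (r : ℂ) : wdg (V + r • p) p = wdg V p := by
  funext i j
  simp only [wdg, Pi.add_apply, Pi.smul_apply, smul_eq_mul]
  ring

/-- Gram determinant of matrices -/
def WG (v : Fin n → VV N) : ℝ :=
  (Matrix.of fun i j : Fin n => ∑ a, ∑ b, v i a b * conj (v j a b)).det.re

theorem wdg_inner (b c p : EE N) :
    ∑ i, ∑ j, wdg b p i j * conj (wdg c p i j) =
      2 * ((∑ i, b i * conj (c i)) * (∑ i, p i * conj (p i)) -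
        (∑ i, b i * conj (p i)) * (∑ i, p i * conj (c i))) := by
  have e : ∀ i j, wdg b p i j * conj (wdg c p i j) =
      (b i * conj (c i)) * (p j * conj (p j)) - (b i * conj (p i)) * (p j * conj (c j))
        - (p i * conj (c i)) * (b j * conj (p j)) + (p i * conj (p i)) * (b j * conj (c j)) := by
    intro i j
    simp only [wdg, map_sub, map_mul]
    ring
  simp only [e, Finset.sum_add_distrib, Finset.sum_sub_distrib, ← Finset.mul_sum, ← Finset.sum_mul]
  ring

theorem nsq_cast (p : EE N) : ((nsq p : ℝ) : ℂ) = ∑ i, p i * conj (p i) := by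
  unfold nsq
  push_cast
  refine Finset.sum_congr rfl fun i _ => ?_
  rw [Complex.mul_conj, Complex.normSq_eq_norm_sq]
  push_cast; ring

theorem det_rows_orth (p : EE N) (b : Fin n → EE N) (h : ∀ i, ∑ k, b i k * conj (p k) = 0) :
    (rows p b * (rows p b)ᴴ).det =
      (nsq p : ℂ) * (Matrix.of fun i j : Fin n => ∑ k, b i k * conj (b j k)).det := by
  rw [Matrix.det_succ_row_zero, Fin.sum_univ_succ]
  have h0 : (rows p b * (rows p b)ᴴ) 0 0 = (nsq p : ℂ) := by
    rw [Matrix.mul_apply, nsq_cast]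
    simp [rows]
  have h1 : ∀ j : Fin n, (rows p b * (rows p b)ᴴ) 0 j.succ = 0 := by
    intro j
    rw [Matrix.mul_apply]
    have h2 := congrArg conj (h j)
    simp only [map_sum, map_mul, Complex.conj_conj, map_zero] at h2
    rw [← h2]
    refine Finset.sum_congr rfl fun k _ => ?_
    simp [rows, mul_comm]
  simp only [h1, h0, mul_zero, zero_mul, Finset.sum_const_zero, add_zero, Fin.val_zero, pow_zero,
    one_mul]
  congr 2

/-- `DD` in terms of the antisymmetric matrices `b_i ∧ p` -/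
theorem DD_eq_WG {p : EE N} (hp : p ≠ 0) (b : Fin n → EE N) :
    DD p b = WG (fun i => wdg (b i) p) / (2 ^ n * nsq p ^ (2 * n)) := by
  have hn := Alp_927.nsq_pos hp
  set r : Fin n → ℂ := fun i => -((∑ k, b i k * conj (p k)) / (nsq p : ℂ)) with hr
  set b' : Fin n → EE N := fun i => b i + r i • p with hb'
  have horth : ∀ i, ∑ k, b' i k * conj (p k) = 0 := by
    intro i
    simp only [hb', Pi.add_apply, Pi.smul_apply, smul_eq_mul, add_mul, Finset.sum_add_distrib,
      mul_assoc, ← Finset.mul_sum]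
    rw [← nsq_cast, hr]
    have : (nsq p : ℂ) ≠ 0 := by exact_mod_cast hn.ne'
    field_simp
    ring
  have e1 : DD p b = DD p b' := (DD_add_smul p b r).symm
  have e2 : (fun i => wdg (b i) p) = fun i => wdg (b' i) p := by
    funext i; exact (wdg_add_smul (b i) p (r i)).symm
  rw [e1, e2]
  set Γ : Matrix (Fin n) (Fin n) ℂ := Matrix.of fun i j : Fin n => ∑ k, b' i k * conj (b' j k) with hΓ
  have e3 : WS (rows p b') = nsq p * Γ.det.re := by
    unfold WS
    rw [det_rows_orth p b' horth]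
    simp [hΓ]
  have e4 : WG (fun i => wdg (b' i) p) = (2 * nsq p) ^ n * Γ.det.re := by
    unfold WG
    have : (Matrix.of fun i j : Fin n => ∑ a, ∑ c, wdg (b' i) p a c * conj (wdg (b' j) p a c)) =
        ((2 * nsq p : ℝ) : ℂ) • Γ := by
      ext i j
      rw [Matrix.of_apply, wdg_inner, horth i, zero_mul, sub_zero, ← nsq_cast, Matrix.smul_apply]
      simp [hΓ]
      ring
    rw [this, Matrix.det_smul, Fintype.card_fin, ← Complex.ofReal_pow, Complex.re_ofReal_mul]
  rw [DD_eq, e3, e4]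
  field_simp
  ring

/-! ### `log DD` along a disc -/

/-- the function `z ↦ log DD(H z, V z)` -/
def lDD (H : ℂ → EE N) (V : Fin n → ℂ → EE N) (z : ℂ) : ℝ :=
  Real.log (DD (H z) (fun i => V i z))

theorem analyticAt_apply {H : ℂ → EE N} {z : ℂ} (h : AnalyticAt ℂ H z) (k : Fin (N + 1)) :
    AnalyticAt ℂ (fun w => H w k) z :=
  ((ContinuousLinearMap.proj (R := ℂ) (φ := fun _ : Fin (N + 1) => ℂ) k).analyticAt _).comp h

theorem analyticAt_apply2 {v : ℂ → VV N} {z : ℂ} (h : AnalyticAt ℂ v z) (k l : Fin (N + 1)) :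
    AnalyticAt ℂ (fun w => v w k l) z :=
  ((ContinuousLinearMap.proj (R := ℂ) (φ := fun _ : Fin (N + 1) => ℂ) l).analyticAt _).comp
    (((ContinuousLinearMap.proj (R := ℂ) (φ := fun _ : Fin (N + 1) => EE N) k).analyticAt _).comp h)

/-- local holomorphic representatives of `V` modulo `H` -/
theorem exists_local_rep (hX : IsSmoothProjective I n) {H : ℂ → EE N} {V : Fin n → ℂ → EE N}
    {z₀ : ℂ} (hH : AnalyticAt ℂ H z₀) (hc : ∀ᶠ w in 𝓝 z₀, H w ∈ Cone I ∧ ∀ i, V i w ∈ Tan I (H w))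
    (hv : ∀ i, AnalyticAt ℂ (fun w => wdg (V i w) (H w)) z₀) :
    ∃ W : Fin n → ℂ → EE N, (∀ i, AnalyticAt ℂ (W i) z₀) ∧
      (∀ᶠ w in 𝓝 z₀, H w ∈ Cone I ∧ ∀ i, W i w ∈ Tan I (H w)) ∧
      ∀ᶠ w in 𝓝 z₀, DD (H w) (fun i => W i w) = DD (H w) (fun i => V i w) := by
  have hp := hc.self_of_nhds.1
  obtain ⟨k, hk⟩ := Function.ne_iff.1 hp.2
  have hk' : H z₀ k ≠ 0 := hk
  have hke : ∀ᶠ w in 𝓝 z₀, H w k ≠ 0 := (analyticAt_apply hH k).continuousAt.eventually_ne hk'
  refine ⟨fun i w => fun l => wdg (V i w) (H w) l k / H w k, fun i => ?_, ?_, ?_⟩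
  · rw [analyticAt_pi_iff]
    intro l
    exact (analyticAt_apply2 (hv i) l k).div (analyticAt_apply hH k) hk'
  · filter_upwards [hc, hke] with w h1 h2
    refine ⟨h1.1, fun i => ?_⟩
    have e : (fun l => wdg (V i w) (H w) l k / H w k) = V i w + (-(V i w k / H w k)) • H w := by
      funext l
      simp only [wdg, Pi.add_apply, Pi.smul_apply, smul_eq_mul]
      field_simp
      ring
    rw [e]
    exact (Tan I (H w)).add_mem (h1.2 i) ((Tan I (H w)).smul_mem _ (self_mem_Tan hX h1.1.1))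
  · filter_upwards [hke] with w h2
    have e : (fun i => fun l => wdg (V i w) (H w) l k / H w k) =
        fun i => V i w + (-(V i w k / H w k)) • H w := by
      funext i l
      simp only [wdg, Pi.add_apply, Pi.smul_apply, smul_eq_mul]
      field_simp
      ring
    rw [e, DD_add_smul]

theorem contDiffAt_log_DD {F : ℂ → EE N} {b : Fin n → ℂ → EE N} {z : ℂ}
    (hF : AnalyticAt ℂ F z) (hb : ∀ k, AnalyticAt ℂ (b k) z) (hp : F z ≠ 0)
    (h0 : 0 < DD (F z) (fun k => b k z)) : ContDiffAt ℝ 2 (lDD F b) z := by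
  have hn := Alp_927.nsq_pos hp
  have hW : WS (rows (F z) (fun k => b k z)) ≠ 0 := by
    intro h
    rw [DD_eq, h, zero_div] at h0
    exact lt_irrefl _ h0
  have cW : ContDiffAt ℝ 2 (fun w => WS (rows (F w) (fun k => b k w))) z :=
    contDiffAt_WS (fun i j => (analyticAt_rows hF hb i j).contDiffAt.restrict_scalars ℝ)
  have cn : ContDiffAt ℝ 2 (fun w => nsq (F w)) z :=
    ContDiffAt.comp (g := fun q : EE N => nsq q) z (Crest.Agent.R269.Alp_927.contDiffAt_nsq (F z))
      (hF.contDiffAt.restrict_scalars ℝ)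
  have : ContDiffAt ℝ 2 (fun w => WS (rows (F w) (fun k => b k w)) / nsq (F w) ^ (n + 1)) z :=
    cW.div (cn.pow _) (by positivity)
  exact this.log h0.ne'

/-- `log DD(H, V)` is `C²` and its Levi form is `α(H, H')`. -/
theorem lDD_contDiffAt_lev (hX : IsSmoothProjective I n) {H : ℂ → EE N} {V : Fin n → ℂ → EE N}
    {z₀ : ℂ} (hH : AnalyticAt ℂ H z₀) (hc : ∀ᶠ w in 𝓝 z₀, H w ∈ Cone I ∧ ∀ i, V i w ∈ Tan I (H w))
    (hv : ∀ i, AnalyticAt ℂ (fun w => wdg (V i w) (H w)) z₀)
    (h0 : 0 < DD (H z₀) (fun i => V i z₀)) :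
    ContDiffAt ℝ 2 (lDD H V) z₀ ∧
      LevC_653.lev (lDD H V) z₀ 1 = alpha I n (H z₀) (deriv H z₀) := by
  obtain ⟨W, hW, hWc, hWD⟩ := exists_local_rep hX hH hc hv
  have hev : lDD H V =ᶠ[𝓝 z₀] lDD H W := by
    filter_upwards [hWD] with w hw
    unfold lDD
    rw [hw]
  have h0' : 0 < DD (H z₀) (fun i => W i z₀) := by
    rw [hWD.self_of_nhds]; exact h0
  refine ⟨(contDiffAt_log_DD hH hW hc.self_of_nhds.1.2 h0').congr_of_eventuallyEq hev, ?_⟩
  rw [LevC_653.lev_congr hev]
  exact alpha_family hX hH hW hWc h0' 1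

/-! ### linear algebra of `WG` -/

/-- the `n × (N+1)²` matrix of `v` -/
def mat (v : Fin n → VV N) : Matrix (Fin n) (Fin (N + 1) × Fin (N + 1)) ℂ :=
  Matrix.of fun i ab => v i ab.1 ab.2

theorem WG_eq_mat (v : Fin n → VV N) : WG v = (mat v * (mat v)ᴴ).det.re := by
  unfold WG
  congr 3
  ext i j
  rw [Matrix.mul_apply, Fintype.sum_prod_type]
  rfl

open scoped ComplexOrder in
theorem WG_nonneg (v : Fin n → VV N) : 0 ≤ WG v := by
  rw [WG_eq_mat]
  have h := (Matrix.posSemidef_self_mul_conjTranspose (mat v)).det_nonneg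
  exact (Complex.le_def.1 h).1

/-- transformation of the Gram determinant -/
theorem WG_comb (U : Matrix (Fin n) (Fin n) ℂ) (v : Fin n → VV N) :
    WG (fun i => ∑ k, U i k • v k) = ‖U.det‖ ^ 2 * WG v := by
  have e : mat (fun i => ∑ k, U i k • v k) = U * mat v := by
    ext i ab
    simp only [mat, Matrix.of_apply, Matrix.mul_apply, Finset.sum_apply, Pi.smul_apply,
      smul_eq_mul]
  rw [WG_eq_mat, WG_eq_mat, e, Matrix.conjTranspose_mul]
  have e2 : U * mat v * ((mat v)ᴴ * Uᴴ) = U * (mat v * (mat v)ᴴ) * Uᴴ := by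
    simp only [Matrix.mul_assoc]
  rw [e2, Matrix.det_mul, Matrix.det_mul, Matrix.det_conjTranspose]
  have e3 : U.det * (mat v * (mat v)ᴴ).det * star U.det =
      ((‖U.det‖ ^ 2 : ℝ) : ℂ) * (mat v * (mat v)ᴴ).det := by
    have : U.det * star U.det = ((‖U.det‖ ^ 2 : ℝ) : ℂ) := by
      rw [Complex.star_def, Complex.mul_conj, Complex.normSq_eq_norm_sq]
    rw [← this]; ring
  rw [e3, Complex.re_ofReal_mul]

theorem WG_unitary {U : Matrix (Fin n) (Fin n) ℂ} (hU : U * Uᴴ = 1) (v : Fin n → VV N) :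
    WG (fun i => ∑ k, U i k • v k) = WG v := by
  have h1 : ‖U.det‖ ^ 2 = 1 := by
    have h2 := congrArg Matrix.det hU
    rw [Matrix.det_mul, Matrix.det_conjTranspose, Matrix.det_one, Complex.star_def,
      Complex.mul_conj, Complex.normSq_eq_norm_sq] at h2
    exact_mod_cast h2
  rw [WG_comb, h1, one_mul]

/-- `v` and `w` with the same outer square `∑ v_i v_i^* = ∑ w_i w_i^*` have the same Gram determinant -/
theorem WG_eq_of_outer {v w : Fin n → VV N}
    (h : ∀ a b c d, ∑ i, v i a b * conj (v i c d) = ∑ i, w i a b * conj (w i c d)) :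
    WG v = WG w := by
  have h1 : (mat v)ᴴ * mat v = (mat w)ᴴ * mat w := by
    ext ab cd
    simp only [Matrix.mul_apply, Matrix.conjTranspose_apply, mat, Matrix.of_apply]
    have := h cd.1 cd.2 ab.1 ab.2
    calc _ = ∑ i, v i cd.1 cd.2 * conj (v i ab.1 ab.2) :=
          Finset.sum_congr rfl fun i _ => mul_comm _ _
      _ = ∑ i, w i cd.1 cd.2 * conj (w i ab.1 ab.2) := this
      _ = _ := Finset.sum_congr rfl fun i _ => mul_comm _ _
  have h2 : ∀ e : ℂ, e ≠ 0 → (e • (1 : Matrix (Fin n) (Fin n) ℂ) + mat v * (mat v)ᴴ).det =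
      (e • (1 : Matrix (Fin n) (Fin n) ℂ) + mat w * (mat w)ᴴ).det := by
    intro e he
    have h3 : ∀ u : Matrix (Fin n) (Fin (N + 1) × Fin (N + 1)) ℂ,
        (e • (1 : Matrix (Fin n) (Fin n) ℂ) + u * uᴴ).det =
          e ^ n * (1 + (e⁻¹ • uᴴ) * u).det := by
      intro u
      rw [← Matrix.det_one_add_mul_comm u (e⁻¹ • uᴴ)]
      have : e • (1 : Matrix (Fin n) (Fin n) ℂ) + u * uᴴ = e • (1 + u * (e⁻¹ • uᴴ)) := by
        rw [smul_add, Matrix.mul_smul, smul_smul, mul_inv_cancel₀ he, one_smul]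
      rw [this, Matrix.det_smul, Fintype.card_fin]
    rw [h3, h3, Matrix.smul_mul, Matrix.smul_mul, h1]
  have hc : ∀ u : Matrix (Fin n) (Fin n) ℂ,
      Continuous fun e : ℂ => (e • (1 : Matrix (Fin n) (Fin n) ℂ) + u).det := by
    intro u
    exact Continuous.matrix_det ((continuous_id.smul continuous_const).add continuous_const)
  have h4 : (fun e : ℂ => (e • (1 : Matrix (Fin n) (Fin n) ℂ) + mat v * (mat v)ᴴ).det) =
      fun e : ℂ => (e • (1 : Matrix (Fin n) (Fin n) ℂ) + mat w * (mat w)ᴴ).det := by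
    refine Continuous.ext_on (dense_compl_singleton (0 : ℂ)) (hc _) (hc _) ?_
    intro e he
    exact h2 e he
  have h5 := congrFun h4 0
  simp only [zero_smul, zero_add] at h5
  rw [WG_eq_mat, WG_eq_mat, h5]

theorem continuous_WG : Continuous fun v : Fin n → VV N => WG v := by
  have : (fun v : Fin n → VV N => WG v) = fun v => (mat v * (mat v)ᴴ).det.re := by
    funext v; exact WG_eq_mat v
  rw [this]
  refine Complex.continuous_re.comp (Continuous.matrix_det ?_)
  have h1 : Continuous fun v : Fin n → VV N => mat v := by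
    refine continuous_matrix fun i ab => ?_
    exact (continuous_apply ab.2).comp ((continuous_apply ab.1).comp (continuous_apply i))
  exact h1.matrix_mul h1.matrix_conjTranspose

theorem continuous_nsq : Continuous fun p : EE N => nsq p := by
  rw [continuous_iff_continuousAt]
  intro p
  exact (Crest.Agent.R269.Alp_927.contDiffAt_nsq (k := 0) p).continuousAt

/-- boundary behaviour of `log DD` -/
theorem tendsto_log_DD {α : Type*} {l : Filter α} {p : α → EE N} {b : α → Fin n → EE N} {ps : EE N}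
    {vs : Fin n → VV N} {c : ℝ} (hp : Tendsto p l (𝓝 ps)) (hp0 : ∀ᶠ x in l, p x ≠ 0) (h1 : nsq ps = 1)
    (hv : ∀ i, Tendsto (fun x => wdg (b x i) (p x)) l (𝓝 (vs i))) (hc : WG vs = 2 ^ n * exp c) :
    Tendsto (fun x => Real.log (DD (p x) (b x))) l (𝓝 c) := by
  have e1 : Tendsto (fun x => WG (fun i => wdg (b x i) (p x))) l (𝓝 (WG vs)) :=
    (continuous_WG.tendsto vs).comp (tendsto_pi_nhds.2 hv)
  have e2 : Tendsto (fun x => 2 ^ n * nsq (p x) ^ (2 * n)) l (𝓝 (2 ^ n * nsq ps ^ (2 * n))) :=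
    (((continuous_nsq.tendsto ps).comp hp).pow _).const_mul _
  rw [h1, one_pow, mul_one] at e2
  have e3 := e1.div e2 (by positivity)
  rw [hc, mul_div_cancel_left₀ _ (by positivity)] at e3
  have e4 := e3.log (exp_pos c).ne'
  rw [Real.log_exp] at e4
  refine e4.congr' ?_
  filter_upwards [hp0] with x hx
  show Real.log (WG (fun i => wdg (b x i) (p x)) / (2 ^ n * nsq (p x) ^ (2 * n))) = _
  rw [← DD_eq_WG hx]

/-! ### B10 -/

/-- the disc, its Wold frame and the boundary values along `s_j → 1` -/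
structure BData (I : Ideal (HomCoordRing N)) (H : ℂ → EE N) (V : Fin n → ℂ → EE N) (s : ℕ → ℝ)
    (Hs : TT → EE N) (vs : Fin n → TT → VV N) : Prop where
  disc : IsDisc I H
  normal : Normal H
  tan : ∀ z ∈ ball (0 : ℂ) 1, ∀ i, V i z ∈ Tan I (H z)
  hol : ∀ i, DifferentiableOn ℂ (fun z => wdg (V i z) (H z)) (ball 0 1)
  sI : ∀ j, s j ∈ Ioo (0 : ℝ) 1
  s1 : Tendsto s atTop (𝓝 1)
  Hnsq : ∀ᵐ t ∂mu, nsq (Hs t) = 1
  Hlim : ∀ᵐ t ∂mu, Tendsto (fun j => H (s j * zt t)) atTop (𝓝 (Hs t))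
  vlim : ∀ i, ∀ᵐ t ∂mu,
    Tendsto (fun j => wdg (V i (s j * zt t)) (H (s j * zt t))) atTop (𝓝 (vs i t))

section B10

variable {H : ℂ → EE N} {V : Fin n → ℂ → EE N} {s : ℕ → ℝ} {Hs : TT → EE N}
  {vs : Fin n → TT → VV N}

theorem BData.sI' (D : BData I H V s Hs vs) : Tendsto s atTop (𝓝[<] 1) :=
  tendsto_nhdsWithin_of_tendsto_nhds_of_eventually_within _ D.s1
    (Eventually.of_forall fun j => (D.sI j).2)

theorem BData.analyticAt (D : BData I H V s Hs vs) {z : ℂ} (hz : z ∈ ball (0 : ℂ) 1) :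
    AnalyticAt ℂ H z := D.disc.hol.analyticAt (isOpen_ball.mem_nhds hz)

theorem BData.analyticAt_v (D : BData I H V s Hs vs) {z : ℂ} (hz : z ∈ ball (0 : ℂ) 1)
    (i : Fin n) : AnalyticAt ℂ (fun z => wdg (V i z) (H z)) z :=
  (D.hol i).analyticAt (isOpen_ball.mem_nhds hz)

theorem BData.eventually (D : BData I H V s Hs vs) {z : ℂ} (hz : z ∈ ball (0 : ℂ) 1) :
    ∀ᶠ w in 𝓝 z, H w ∈ Cone I ∧ ∀ i, V i w ∈ Tan I (H w) := by
  filter_upwards [isOpen_ball.mem_nhds hz] with w hw
  exact ⟨D.disc.cone w hw, D.tan w hw⟩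

theorem BData.Hs_cone (D : BData I H V s Hs vs) : ∀ᵐ t ∂mu, Hs t ∈ Cone I := by
  filter_upwards [D.Hnsq, D.Hlim] with t h1 h2
  refine ⟨?_, ?_⟩
  · exact (LevBr_901.isClosed_affineCone (I := I)).mem_of_tendsto h2
      (Eventually.of_forall fun j => (D.disc.cone _ (mem_ball_smul_zt (D.sI j) t)).1)
  · intro h3
    have : nsq (0 : EE N) = 0 := by simp [nsq]
    rw [h3, this] at h1
    exact zero_ne_one h1

theorem BData.lDD_lev (hX : IsSmoothProjective I n) (D : BData I H V s Hs vs) {z : ℂ}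
    (hz : z ∈ ball (0 : ℂ) 1) (h0 : 0 < DD (H z) (fun i => V i z)) :
    ContDiffAt ℝ 2 (lDD H V) z ∧
      LevC_653.lev (lDD H V) z 1 = alpha I n (H z) (deriv H z) :=
  lDD_contDiffAt_lev hX (D.analyticAt hz) (D.eventually hz) (D.analyticAt_v hz) h0

/-- Green-Jensen for `log DD(H, V)` -/
theorem BData.avg_eq (hX : IsSmoothProjective I n) (D : BData I H V s Hs vs)
    (h0 : ∀ z ∈ ball (0 : ℂ) 1, 0 < DD (H z) (fun i => V i z)) {r : ℝ} (hr : 0 ≤ r) (hr1 : r < 1) :
    Real.circleAverage (lDD H V) 0 r = lDD H V 0 + TE (alpha I n) H r := by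
  have hC : ContDiffOn ℝ 2 (lDD H V) (ball 0 1) := fun z hz =>
    (D.lDD_lev hX hz (h0 z hz)).1.contDiffWithinAt
  have h1 := Green_740.jensen hC hr hr1
  have h2 : TE (alpha I n) H r = Green_740.TG (fun z => LevC_653.lev (lDD H V) z 1) r := by
    show Green_740.TG (fun z => alpha I n (H z) (deriv H z)) r = _
    refine Green_740.TG_congr hr fun z hz => ?_
    exact (D.lDD_lev hX (closedBall_subset_ball hr1 hz) (h0 z (closedBall_subset_ball hr1 hz))).2.symm
  rw [h2, h1]; ring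

theorem continuousOn_log_nsq (D : BData I H V s Hs vs) :
    ContinuousOn (fun z => Real.log (nsq (H z))) (ball 0 1) := by
  intro z hz
  refine ContinuousAt.continuousWithinAt ?_
  refine ContinuousAt.log ?_ (Alp_927.nsq_pos (D.disc.cone z hz).2).ne'
  exact continuous_nsq.continuousAt.comp (D.analyticAt hz).continuousAt

theorem BData.Plim (D : BData I H V s Hs vs) :
    ∀ᵐ t ∂mu, Tendsto (fun j => -Real.log (nsq (H (s j * zt t)))) atTop (𝓝 0) := by
  filter_upwards [D.Hnsq, D.Hlim] with t h1 h2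
  have h3 := ((continuous_nsq.tendsto (Hs t)).comp h2).log (by rw [h1]; exact one_ne_zero)
  rw [h1, Real.log_one] at h3
  simpa using h3.neg

/-- circle averages of a smooth function along a normalised disc -/
theorem BData.cav_lim (hX : IsSmoothProjective I n) (D : BData I H V s Hs vs) {ψ : EE N → ℝ}
    (hψ : SmX I ψ) : Tendsto (fun j => cav ψ H (s j)) atTop (𝓝 (∫ t, ψ (Hs t) ∂mu)) := by
  obtain ⟨B, -, hB⟩ := LevBr_901.smX_bdd hX hψ
  refine tendsto_avg_of_bdd D.sI ?_ (fun z hz => hB _ (D.disc.cone z hz)) ?_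
  · intro z hz
    refine ContinuousAt.continuousWithinAt ?_
    exact ContinuousAt.comp (g := ψ) ((hψ.1 _ (D.disc.cone z hz)).continuousAt)
      (D.analyticAt hz).continuousAt
  · filter_upwards [D.Hs_cone, D.Hlim] with t h1 h2
    exact ((hψ.1 _ h1).continuousAt.tendsto).comp h2

/-- **B10 (det)**: for a.e. boundary determinant `exp ψ(H*)` and a lower bound `log DD(H,V) ≥ -C + K log|H|²`
in the disc, `avg ψ(H*) ≤ log DD(H,V)(0) + T_α(1)`. -/
theorem det_lower (hX : IsSmoothProjective I n) (D : BData I H V s Hs vs) {ψ : EE N → ℝ}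
    (hψ : SmX I ψ) (hdet : ∀ᵐ t ∂mu, WG (fun i => vs i t) = 2 ^ n * exp (ψ (Hs t)))
    (h0 : ∀ z ∈ ball (0 : ℂ) 1, 0 < DD (H z) (fun i => V i z)) {C K : ℝ}
    (hlow : ∀ z ∈ ball (0 : ℂ) 1, -C + K * Real.log (nsq (H z)) ≤ lDD H V z) {Tα : ℝ}
    (hT : Tendsto (fun j => TE (alpha I n) H (s j)) atTop (𝓝 Tα)) :
    ∫ t, ψ (Hs t) ∂mu ≤ lDD H V 0 + Tα := by
  obtain ⟨B, -, hB⟩ := LevBr_901.smX_bdd hX hψ
  refine avg_le_lim (φ := lDD H V) (P := fun z => -Real.log (nsq (H z))) (K := K) (C := C) (B := B)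
    D.sI ?_ (continuousOn_log_nsq D).neg ?_ ?_ D.Plim ?_ ?_ ?_
  · intro z hz
    exact (D.lDD_lev hX hz (h0 z hz)).1.continuousAt.continuousWithinAt
  · intro z hz
    have := hlow z hz
    linarith
  · have h1 := (D.normal.avg.comp D.sI').neg
    rw [neg_zero] at h1
    refine h1.congr fun j => ?_
    show -Real.circleAverage (fun z => Real.log (nsq (H z))) 0 (s j) = _
    rw [circleAverage_eq, circleAverage_eq, integral_neg]
  · have hv : ∀ᵐ t ∂mu, ∀ i,
        Tendsto (fun j => wdg (V i (s j * zt t)) (H (s j * zt t))) atTop (𝓝 (vs i t)) :=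
      ae_all_iff.2 D.vlim
    filter_upwards [D.Hnsq, D.Hlim, hv, hdet] with t h1 h2 h3 h4
    exact tendsto_log_DD (b := fun j i => V i (s j * zt t)) h2
      (Eventually.of_forall fun j => (D.disc.cone _ (mem_ball_smul_zt (D.sI j) t)).2) h1 h3 h4
  · filter_upwards [D.Hs_cone] with t ht
    exact (le_abs_self _).trans (hB _ ht)
  · have h1 := hT.const_add (lDD H V 0)
    refine h1.congr fun j => ?_
    exact (D.avg_eq hX h0 (D.sI j).1.le (D.sI j).2).symm

/-- **B10** in the form consumed by the summed second variation: with `Lψ = bavg (log det a)` and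
`Tα = T_α(1)`. -/
theorem det_lower' (hX : IsSmoothProjective I n) (D : BData I H V s Hs vs) {ψ : EE N → ℝ}
    (hψ : SmX I ψ) (hdet : ∀ᵐ t ∂mu, WG (fun i => vs i t) = 2 ^ n * exp (ψ (Hs t)))
    (h0 : ∀ z ∈ ball (0 : ℂ) 1, 0 < DD (H z) (fun i => V i z)) {C K : ℝ}
    (hlow : ∀ z ∈ ball (0 : ℂ) 1, -C + K * Real.log (nsq (H z)) ≤ lDD H V z) {Tα Lψ : ℝ}
    (hT : Tendsto (fun r => TE (alpha I n) H r) (𝓝[<] 1) (𝓝 Tα))
    (hL : Tendsto (fun r => cav ψ H r) (𝓝[<] 1) (𝓝 Lψ)) :
    (Lψ - Tα ≤ lDD H V 0) ∧ ∀ r : ℝ, 0 ≤ r → r < 1 →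
      Lψ - (Tα - TE (alpha I n) H r) ≤ Real.circleAverage (lDD H V) 0 r := by
  have h1 : Lψ = ∫ t, ψ (Hs t) ∂mu :=
    tendsto_nhds_unique (hL.comp D.sI') (D.cav_lim hX hψ)
  have h2 := det_lower hX D hψ hdet h0 hlow (hT.comp D.sI')
  refine ⟨by rw [h1]; linarith, fun r hr hr1 => ?_⟩
  rw [D.avg_eq hX h0 hr hr1, h1]
  linarith

/-- upper bound of `log DD(H, V)` when the matrices `V_i ∧ H` are bounded -/
theorem lDD_le (B : ℝ) : ∃ C : ℝ, ∀ (p : EE N) (b : Fin n → EE N), p ≠ 0 → 0 < DD p b →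
    (∀ i j k, ‖wdg (b i) p j k‖ ≤ B) → Real.log (DD p b) ≤ C - 2 * n * Real.log (nsq p) := by
  have hK : IsCompact (Set.pi univ fun _ : Fin n => Set.pi univ fun _ : Fin (N + 1) =>
      Set.pi univ fun _ : Fin (N + 1) => closedBall (0 : ℂ) B) :=
    isCompact_univ_pi fun _ => isCompact_univ_pi fun _ => isCompact_univ_pi fun _ =>
      isCompact_closedBall _ _
  obtain ⟨M, hM⟩ := (hK.image_of_continuousOn (continuous_WG (N := N) (n := n)).continuousOn).bddAbove
  refine ⟨Real.log (max M 1), fun p b hp hD hb => ?_⟩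
  have hn := Alp_927.nsq_pos hp
  have h1 : WG (fun i => wdg (b i) p) ≤ max M 1 := by
    refine (hM ⟨fun i => wdg (b i) p, ?_, rfl⟩).trans (le_max_left _ _)
    intro i _ j _ k _
    simpa using hb i j k
  rw [DD_eq_WG hp] at hD ⊢
  have h2 : 0 < WG (fun i => wdg (b i) p) := by
    by_contra h
    push Not at h
    exact absurd hD (not_lt.2 (div_nonpos_of_nonpos_of_nonneg h (by positivity)))
  rw [Real.log_div h2.ne' (by positivity), Real.log_mul (by positivity) (by positivity),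
    Real.log_pow, Real.log_pow]
  have h3 := Real.log_le_log h2 h1
  have h4 : 0 ≤ (n : ℝ) * Real.log 2 := by positivity
  push_cast
  linarith

/-! ### final form (N4) -/

theorem unw_wdg {p : EE N} (hp : p ≠ 0) (W : EE N) : wdg (Iface_731.unw p (wdg W p)) p = wdg W p := by
  have hn : (nsq p : ℂ) ≠ 0 := by exact_mod_cast (Alp_927.nsq_pos hp).ne'
  have e : Iface_731.unw p (wdg W p) = W + (-((∑ k, W k * conj (p k)) / (nsq p : ℂ))) • p := by
    funext i
    simp only [Iface_731.unw, wdg, Pi.add_apply, Pi.smul_apply, smul_eq_mul, sub_mul,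
      Finset.sum_sub_distrib]
    have e1 : ∑ j, W i * p j * conj (p j) = W i * (nsq p : ℂ) := by
      rw [nsq_cast, Finset.mul_sum]
      exact Finset.sum_congr rfl fun j _ => by ring
    have e2 : ∑ j, W j * p i * conj (p j) = p i * ∑ k, W k * conj (p k) := by
      rw [Finset.mul_sum]
      exact Finset.sum_congr rfl fun j _ => by ring
    rw [e1, e2]
    field_simp
    ring
  rw [e, wdg_add_smul]

theorem BData.unw_eq (D : BData I H V s Hs vs) :
    ∀ᵐ t ∂mu, ∀ i, wdg (Iface_731.unw (Hs t) (vs i t)) (Hs t) = vs i t := by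
  have hv : ∀ᵐ t ∂mu, ∀ i,
      Tendsto (fun j => wdg (V i (s j * zt t)) (H (s j * zt t))) atTop (𝓝 (vs i t)) :=
    ae_all_iff.2 D.vlim
  filter_upwards [D.Hnsq, D.Hlim, hv] with t h1 h2 h3 i
  set x : ℕ → EE N := fun j => H (s j * zt t) with hx
  set y : ℕ → VV N := fun j => wdg (V i (s j * zt t)) (H (s j * zt t)) with hy
  have h4 : ∀ j, wdg (Iface_731.unw (x j) (y j)) (x j) = y j := fun j =>
    unw_wdg (D.disc.cone _ (mem_ball_smul_zt (D.sI j) t)).2 _
  have hn : Tendsto (fun j => (nsq (x j) : ℂ)) atTop (𝓝 (nsq (Hs t) : ℂ)) :=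
    (Complex.continuous_ofReal.tendsto _).comp ((continuous_nsq.tendsto _).comp h2)
  have hxk : ∀ k, Tendsto (fun j => x j k) atTop (𝓝 (Hs t k)) := fun k =>
    (tendsto_pi_nhds.1 h2) k
  have hykl : ∀ k l, Tendsto (fun j => y j k l) atTop (𝓝 (vs i t k l)) := fun k l =>
    (tendsto_pi_nhds.1 ((tendsto_pi_nhds.1 (h3 i)) k)) l
  have hu : ∀ k, Tendsto (fun j => Iface_731.unw (x j) (y j) k) atTop
      (𝓝 (Iface_731.unw (Hs t) (vs i t) k)) := by
    intro k
    refine Tendsto.div ?_ hn (by rw [h1]; norm_num)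
    exact tendsto_finsetSum _ fun l _ =>
      (hykl k l).mul ((Complex.continuous_conj.tendsto _).comp (hxk l))
  funext k l
  have h5 : Tendsto (fun j => wdg (Iface_731.unw (x j) (y j)) (x j) k l) atTop
      (𝓝 (wdg (Iface_731.unw (Hs t) (vs i t)) (Hs t) k l)) :=
    ((hu k).mul (hxk l)).sub ((hu l).mul (hxk k))
  simp only [h4] at h5
  exact tendsto_nhds_unique h5 (hykl k l)

/-- **(N4)** for the Wold frame `V` of `(H, a)`: `det_g` is positive in the disc, and
`bavg (log det a) - T_α(1) ≤ log DD(H,V)(0)`, `n exp((bavg (log det a) - T_α(1))/n) ≤ ∑ omg (H 0) (V i 0)`,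
`bavg (log det a) - (T_α(1) - T_α(r)) ≤ avg_{|z|=r} log DD(H,V)`. -/
theorem n4 (hX : IsSmoothProjective I n) {a : EE N → VV N} (ha : PosField I n a)
    (D : BData I H V s Hs vs) {ψ : EE N → ℝ} (hψ : SmX I ψ)
    (hψa : ∀ p ∈ Cone I, ∀ b : Fin n → EE N, Rep I a p b → DD p b = exp (ψ p))
    (hrep : ∀ᵐ t ∂mu, Rep I a (Hs t) (fun i => Iface_731.unw (Hs t) (vs i t))) {C : ℝ} {K : ℕ}
    (hK : ∀ z ∈ ball (0 : ℂ) 1, ∀ b : Fin n → EE N, Rep I a (H z) b →
      nsq (H z) ^ K * DD (H z) b ≤ C * DD (H z) (fun i => V i z)) {Tα Lψ : ℝ}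
    (hT : Tendsto (fun r => TE (alpha I n) H r) (𝓝[<] 1) (𝓝 Tα))
    (hL : Tendsto (fun r => cav ψ H r) (𝓝[<] 1) (𝓝 Lψ)) :
    (∀ z ∈ ball (0 : ℂ) 1, 0 < DD (H z) (fun i => V i z)) ∧
    ContinuousOn (lDD H V) (ball 0 1) ∧
    Lψ - Tα ≤ Real.log (DD (H 0) (fun i => V i 0)) ∧
    n * exp ((Lψ - Tα) / n) ≤ ∑ i, omg (H 0) (V i 0) ∧
    ∀ r : ℝ, 0 ≤ r → r < 1 → Lψ - (Tα - TE (alpha I n) H r) ≤
      Real.circleAverage (fun z => Real.log (DD (H z) (fun i => V i z))) 0 r := by
  obtain ⟨B, -, hB⟩ := LevBr_901.smX_bdd hX hψ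
  have hball0 : (0 : ℂ) ∈ ball (0 : ℂ) 1 := mem_ball_self one_pos
  have key : ∀ z ∈ ball (0 : ℂ) 1, nsq (H z) ^ K * exp (ψ (H z)) ≤ C * DD (H z) (fun i => V i z) := by
    intro z hz
    obtain ⟨b, hb, -⟩ := ha.rep _ (D.disc.cone z hz)
    rw [← hψa _ (D.disc.cone z hz) b hb]
    exact hK z hz b hb
  have hn : ∀ z ∈ ball (0 : ℂ) 1, 0 < nsq (H z) := fun z hz => Alp_927.nsq_pos (D.disc.cone z hz).2
  have hpos : ∀ z ∈ ball (0 : ℂ) 1, 0 < C * DD (H z) (fun i => V i z) := fun z hz =>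
    lt_of_lt_of_le (mul_pos (pow_pos (hn z hz) _) (exp_pos _)) (key z hz)
  have hCpos : 0 < C := by
    have h1 := hpos 0 hball0
    by_contra h
    push Not at h
    exact absurd h1 (not_lt.2 (mul_nonpos_of_nonpos_of_nonneg h (FldD_620.DD_nonneg (D.disc.cone 0 hball0).2 _)))
  have h0 : ∀ z ∈ ball (0 : ℂ) 1, 0 < DD (H z) (fun i => V i z) := fun z hz =>
    (pos_iff_pos_of_mul_pos (hpos z hz)).1 hCpos
  have hlow : ∀ z ∈ ball (0 : ℂ) 1,
      -(B + Real.log C) + (K : ℝ) * Real.log (nsq (H z)) ≤ lDD H V z := by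
    intro z hz
    have h1 := Real.log_le_log (mul_pos (pow_pos (hn z hz) _) (exp_pos _)) (key z hz)
    rw [Real.log_mul (pow_pos (hn z hz) _).ne' (exp_pos _).ne', Real.log_exp, Real.log_pow,
      Real.log_mul hCpos.ne' (h0 z hz).ne'] at h1
    have h2 := (abs_le.1 (hB _ (D.disc.cone z hz))).1
    show _ ≤ Real.log (DD (H z) (fun i => V i z))
    linarith
  have hdet : ∀ᵐ t ∂mu, WG (fun i => vs i t) = 2 ^ n * exp (ψ (Hs t)) := by
    filter_upwards [D.Hnsq, D.Hs_cone, D.unw_eq, hrep] with t h1 h2 h3 h4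
    have h5 := hψa _ h2 _ h4
    rw [DD_eq_WG h2.2, h1, one_pow, mul_one] at h5
    simp only [h3] at h5
    rw [← h5]
    field_simp
  obtain ⟨k1, k2⟩ := det_lower' hX D hψ hdet h0 hlow hT hL
  refine ⟨h0, fun z hz => (D.lDD_lev hX hz (h0 z hz)).1.continuousAt.continuousWithinAt, k1, ?_, k2⟩
  have h6 := FldD_620.amgm (D.disc.cone 0 hball0).2 (fun i => V i 0)
  refine le_trans ?_ h6
  refine mul_le_mul_of_nonneg_left ?_ (Nat.cast_nonneg n)
  rw [Real.rpow_def_of_pos (h0 0 hball0)]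
  refine exp_le_exp.2 ?_
  rw [div_eq_mul_inv]
  exact mul_le_mul_of_nonneg_right k1 (by positivity)


end B10

end

end Crest.Agent.R269.StatPot_194
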