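import Mathlib
import Crest.Agent.R269.StatPot_194
import Crest.Agent.R269.Hardy2_142
import Crest.Agent.R269.WF_731
import Crest.Agent.R269.Fib_402
import Crest.Agent.R269.StMax_528
import Crest.Agent.R269.StDens_528
import Crest.Agent.R269.Alp6_927
import Crest.Agent.R269.GeoChart_328

/-!
# R269 (S0411), LINE B, leaf B10 DET, literal form of `WF_731.WF.det` (helper194)
-/

set_option autoImplicit false

open Filter Topology Set Metric MeasureTheory Real MvPolynomial Crest.AlgGeometry.ProjEmb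
open Crest.Agent.R269.Geo_328 Crest.Agent.R269.Defs_58 Crest.Agent.R269.DefsS_731
open Crest.Agent.R269.Hardy_142 Crest.Agent.R269.StatPot_194 Crest.Agent.R269.Fib_402
open Crest.Agent.R269.TE_499 (TE1 bav Ref Dom)
open scoped ContDiff ComplexConjugate Matrix

namespace Crest.Agent.R269.StatDet_194

noncomputable section

variable {N n : ℕ} {I : Ideal (HomCoordRing N)} {H : ℂ → EE N} {V : Fin n → ℂ → EE N}

/-! ### normal lifts -/

theorem log_nsq_nonpos (hH : IsDisc I H) (hN : Normal H) {z : ℂ} (hz : z ∈ ball (0 : ℂ) 1) :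
    Real.log (nsq (H z)) ≤ 0 :=
  Real.log_nonpos (Alp_927.nsq_pos (hH.cone z hz).2).le (hN.le_one z hz)

theorem continuousOn_log_nsq (hH : IsDisc I H) :
    ContinuousOn (fun z => Real.log (nsq (H z))) (ball 0 1) := by
  intro z hz
  refine ContinuousAt.continuousWithinAt ?_
  refine ContinuousAt.log ?_ (Alp_927.nsq_pos (hH.cone z hz).2).ne'
  exact continuous_nsq.continuousAt.comp
    (hH.hol.differentiableAt (isOpen_ball.mem_nhds hz)).continuousAt

/-- Jensen for `log |H|²` in terms of `TE omg` -/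
theorem jensen_log (hH : IsDisc I H) {s : ℝ} (h0 : 0 ≤ s) (h1 : s < 1) :
    Real.circleAverage (fun z => Real.log (nsq (H z))) 0 s - Real.log (nsq (H 0)) = TE omg H s :=
  StMax_528.Tom_eq_TE hH h0 h1

/-- a normalised disc has finite energy -/
theorem finE (hH : IsDisc I H) (hN : Normal H) : FinE omg H := by
  refine ⟨-Real.log (nsq (H 0)), fun s hs => ?_⟩
  rw [← jensen_log hH hs.1.le hs.2]
  have h1 : Real.circleAverage (fun z => Real.log (nsq (H z))) 0 s ≤ 0 := by
    rw [circleAverage_eq]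
    exact integral_nonpos fun t => log_nsq_nonpos hH hN (mem_ball_smul_zt hs t)
  linarith

/-- radial limits of a normalised lift have norm one -/
theorem ae_nsq_one (hH : IsDisc I H) (hN : Normal H) {s : ℕ → ℝ} (hs : ∀ j, s j ∈ Ioo (0 : ℝ) 1)
    (hs1 : Tendsto s atTop (𝓝 1)) {Hs : TT → EE N}
    (hlim : ∀ᵐ t ∂mu, Tendsto (fun j => H (s j * zt t)) atTop (𝓝 (Hs t))) :
    ∀ᵐ t ∂mu, nsq (Hs t) = 1 := by
  have hsI : Tendsto s atTop (𝓝[<] 1) :=
    tendsto_nhdsWithin_of_tendsto_nhds_of_eventually_within _ hs1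
      (Eventually.of_forall fun j => (hs j).2)
  have hcont : ContinuousOn (fun z => 1 - nsq (H z)) (ball 0 1) :=
    continuousOn_const.sub (continuous_nsq.comp_continuousOn hH.hol.continuousOn)
  -- the limit of the integrals
  have h1 : Tendsto (fun j => Real.circleAverage (fun z => 1 - nsq (H z)) 0 (s j)) atTop
      (𝓝 (∫ t, (1 - nsq (Hs t)) ∂mu)) := by
    refine tendsto_avg_of_bdd (B := 1) hs hcont (fun z hz => ?_) ?_
    · have h2 := hN.le_one z hz
      have h3 := (Alp_927.nsq_pos (hH.cone z hz).2).le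
      rw [abs_le]; constructor <;> linarith
    · filter_upwards [hlim] with t ht
      exact ((continuous_nsq.tendsto _).comp ht).const_sub 1
  have h2 : Tendsto (fun j => Real.circleAverage (fun z => 1 - nsq (H z)) 0 (s j)) atTop (𝓝 0) := by
    have h3 := (hN.avg.comp hsI).neg
    rw [neg_zero] at h3
    refine tendsto_of_tendsto_of_tendsto_of_le_of_le tendsto_const_nhds h3 (fun j => ?_) (fun j => ?_)
    · rw [circleAverage_eq]
      exact integral_nonneg fun t => by
        have := hN.le_one _ (mem_ball_smul_zt (hs j) t)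
        simp only [Pi.zero_apply]; linarith
    · have h5 : ∀ t : TT, 1 - nsq (H (s j * zt t)) ≤ -Real.log (nsq (H (s j * zt t))) := by
        intro t
        have h4 := Alp_927.nsq_pos (hH.cone _ (mem_ball_smul_zt (hs j) t)).2
        have h6 := Real.log_le_sub_one_of_pos h4
        linarith
      have h7 : ∫ t, (1 - nsq (H (s j * zt t))) ∂mu ≤ ∫ t, -Real.log (nsq (H (s j * zt t))) ∂mu :=
        integral_mono (integrable_slice (f := fun z => 1 - nsq (H z)) (hs j) hcont)
          ((integrable_slice (f := fun z => Real.log (nsq (H z))) (hs j)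
            (continuousOn_log_nsq hH)).neg) h5
      rw [integral_neg] at h7
      rw [circleAverage_eq]
      refine h7.trans (le_of_eq ?_)
      show _ = -Real.circleAverage (fun z => Real.log (nsq (H z))) 0 (s j)
      rw [circleAverage_eq]
  have h3 := tendsto_nhds_unique h1 h2
  have hmeas : AEStronglyMeasurable (fun t => 1 - nsq (Hs t)) mu := by
    refine aestronglyMeasurable_of_tendsto_ae (u := atTop)
      (f := fun j t => 1 - nsq (H (s j * zt t)))
      (fun j => (continuous_slice (hs j) hcont).aestronglyMeasurable) ?_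
    filter_upwards [hlim] with t ht
    exact ((continuous_nsq.tendsto _).comp ht).const_sub 1
  have hnn : ∀ᵐ t ∂mu, 0 ≤ 1 - nsq (Hs t) := by
    filter_upwards [hlim] with t ht
    have h4 := (continuous_nsq.tendsto _).comp ht
    have h5 : nsq (Hs t) ≤ 1 := le_of_tendsto' h4 fun j => hN.le_one _ (mem_ball_smul_zt (hs j) t)
    linarith
  have hle : ∀ᵐ t ∂mu, ‖1 - nsq (Hs t)‖ ≤ 1 := by
    filter_upwards [hnn] with t ht
    rw [Real.norm_of_nonneg ht]
    have : 0 ≤ nsq (Hs t) := by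
      unfold nsq; positivity
    linarith
  have hint : Integrable (fun t => 1 - nsq (Hs t)) mu :=
    Integrable.mono' (integrable_const (1 : ℝ)) hmeas hle
  have h6 := (integral_eq_zero_iff_of_nonneg_ae hnn hint).1 h3
  filter_upwards [h6] with t ht
  have h7 : 1 - nsq (Hs t) = 0 := ht
  linarith

/-! ### the reference density `omg` -/

theorem ref_omg : Ref I omg :=
  ⟨StMax_528.dens_omg.cont, fun p _ v _ => LevBr_901.omg_nonneg p v⟩

theorem dom_alpha (hI : I.IsPrime) (hX : IsSmoothProjective I n) :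
    ∃ C, Dom I omg (alpha I n) C := by
  obtain ⟨C, -, hC⟩ := Alp_927.alpha_bdd (hI := hI) chartStmt hX
  exact ⟨C, (StDens_528.dens_alpha hI hX).cont, hC⟩

theorem dom_lev (hI : I.IsPrime) (hX : IsSmoothProjective I n) {u : EE N → ℝ} (hu : SmX I u) :
    ∃ C, Dom I omg (LevC_653.lev u) C := by
  obtain ⟨C, -, hC⟩ := LevBr_901.smX_lev_bdd hI hX hu
  have e : LevC_653.lev u = lev u := by
    funext p v; exact (LevBr_901.lev_eq u p v).symm
  rw [e]
  refine ⟨C, ?_, hC⟩
  intro q hq
  exact (LevBr_901.contDiffAt_lev (hu.1 q.1 hq.1) q.2).continuousAt.continuousWithinAt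

theorem tendsto_TE_alpha (hI : I.IsPrime) (hX : IsSmoothProjective I n) (hH : IsDisc I H)
    (hN : Normal H) : Tendsto (fun r => TE (alpha I n) H r) (𝓝[<] 1) (𝓝 (TE1 (alpha I n) H)) := by
  obtain ⟨C, hC⟩ := dom_alpha hI hX
  exact TE_499.tendsto_TE1 ref_omg hC hH (finE hH hN)

theorem tendsto_cav_bav (hI : I.IsPrime) (hX : IsSmoothProjective I n) (hH : IsDisc I H)
    (hN : Normal H) {u : EE N → ℝ} (hu : SmX I u) :
    Tendsto (fun r => cav u H r) (𝓝[<] 1) (𝓝 (bav u H)) := by
  obtain ⟨C, hC⟩ := dom_lev hI hX hu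
  have h2 : ∀ p ∈ Cone I, ContDiffAt ℝ 2 u p := fun p hp =>
    (hu.1 p hp).of_le (by norm_cast)
  exact TE_499.tendsto_cav ref_omg h2 hC hH (finE hH hN)

/-! ### the field `det` of `WF` -/

/-- literal form of `WF_731.WF.det`, along a sequence `s_j → 1` with a.e. limits -/
theorem wf_det_seq (hI : I.IsPrime) (hX : IsSmoothProjective I n) {a : EE N → VV N}
    (hH : IsDisc I H) (hN : Normal H)
    (tan : ∀ i, ∀ z ∈ ball (0 : ℂ) 1, V i z ∈ Tan I (H z))
    (hol : ∀ i, DifferentiableOn ℂ (fun z => wdg (V i z) (H z)) (ball 0 1))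
    (pos : ∀ z ∈ ball (0 : ℂ) 1, 0 < DD (H z) (fun i => V i z)) {C K : ℝ}
    (low : ∀ z ∈ ball (0 : ℂ) 1,
      -C + K * Real.log (nsq (H z)) ≤ Real.log (DD (H z) (fun i => V i z)))
    {s : ℕ → ℝ} (hs : ∀ j, s j ∈ Ioo (0 : ℝ) 1) (hs1 : Tendsto s atTop (𝓝 1))
    {Hs : TT → EE N} (hlim : ∀ᵐ t ∂mu, Tendsto (fun j => H (s j * zt t)) atTop (𝓝 (Hs t)))
    {Q : Fin n → TT → FF N}
    (hQ : ∀ i, ∀ᵐ t ∂mu,
      Tendsto (fun j => wE (V i (s j * zt t)) (H (s j * zt t))) atTop (𝓝 (Q i t)))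
    (hrep : ∀ᵐ t ∂mu, Rep I a (Hs t) (fun i => hor (Q i t) (Hs t))) :
    ∀ D : EE N → ℝ, SmX I D → (∀ p ∈ Cone I, 0 < D p) →
    (∀ p ∈ Cone I, ∀ b : Fin n → EE N, Rep I a p b → DD p b = D p) → ∀ r ∈ Ico (0 : ℝ) 1,
      bav (fun p => Real.log (D p)) H - (TE1 (alpha I n) H - TE (alpha I n) H r) ≤
        Real.circleAverage (fun z => Real.log (DD (H z) (fun i => V i z))) 0 r := by
  intro D hD hD0 hDb r hr
  have hψ : SmX I (fun p => Real.log (D p)) := LevBr_901.smX_log hD (fun p hp => (hD0 p hp).ne')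
  have hnsq := ae_nsq_one hH hN hs hs1 hlim
  have hB : BData I H V s Hs (fun i t => fun k l => Q i t (k, l)) :=
    { disc := hH
      normal := hN
      tan := fun z hz i => tan i z hz
      hol := hol
      sI := hs
      s1 := hs1
      Hnsq := hnsq
      Hlim := hlim
      vlim := fun i => by
        filter_upwards [hQ i] with t ht
        refine tendsto_pi_nhds.2 fun k => tendsto_pi_nhds.2 fun l => ?_
        exact ((EuclideanSpace.proj (𝕜 := ℂ) (k, l)).continuous.tendsto (Q i t)).comp ht }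
  have hdet : ∀ᵐ t ∂mu, WG (fun i => fun k l => Q i t (k, l)) =
      2 ^ n * exp (Real.log (D (Hs t))) := by
    filter_upwards [hnsq, hB.Hs_cone, hB.unw_eq, hrep] with t h1 h2 h3 h4
    have h5 : DD (Hs t) (fun i => Iface_731.unw (Hs t) (fun k l => Q i t (k, l))) = D (Hs t) :=
      hDb _ h2 _ h4
    rw [DD_eq_WG h2.2, h1, one_pow, mul_one] at h5
    simp only [h3] at h5
    rw [Real.exp_log (hD0 _ h2), ← h5]
    field_simp
  exact (det_lower' hX hB hψ hdet pos low (tendsto_TE_alpha hI hX hH hN)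
    (tendsto_cav_bav hI hX hH hN hψ)).2 r hr.1 hr.2

/-- literal form of `WF_731.WF.det` from `H²` boundary data -/
theorem wf_det (hI : I.IsPrime) (hX : IsSmoothProjective I n) {a : EE N → VV N}
    (hH : IsDisc I H) (hN : Normal H)
    (tan : ∀ i, ∀ z ∈ ball (0 : ℂ) 1, V i z ∈ Tan I (H z))
    (hol : ∀ i, DifferentiableOn ℂ (fun z => wdg (V i z) (H z)) (ball 0 1))
    (pos : ∀ z ∈ ball (0 : ℂ) 1, 0 < DD (H z) (fun i => V i z)) {C K : ℝ}
    (low : ∀ z ∈ ball (0 : ℂ) 1,
      -C + K * Real.log (nsq (H z)) ≤ Real.log (DD (H z) (fun i => V i z)))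
    {Hs : TT → EE N} (hHs : IsH2 (fun t => WithLp.toLp 2 (Hs t) : TT → EuclideanSpace ℂ (Fin (N + 1))))
    (hHe : ∀ z ∈ ball (0 : ℂ) 1,
      ext (fun t => WithLp.toLp 2 (Hs t) : TT → EuclideanSpace ℂ (Fin (N + 1))) z =
        WithLp.toLp 2 (H z))
    {Q : Fin n → TT → FF N} (hQ : ∀ i, IsH2 (Q i))
    (hQe : ∀ i, ∀ z ∈ ball (0 : ℂ) 1, ext (Q i) z = wE (V i z) (H z))
    (hrep : ∀ᵐ t ∂mu, Rep I a (Hs t) (fun i => hor (Q i t) (Hs t))) :
    ∀ D : EE N → ℝ, SmX I D → (∀ p ∈ Cone I, 0 < D p) →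
    (∀ p ∈ Cone I, ∀ b : Fin n → EE N, Rep I a p b → DD p b = D p) → ∀ r ∈ Ico (0 : ℝ) 1,
      bav (fun p => Real.log (D p)) H - (TE1 (alpha I n) H - TE (alpha I n) H r) ≤
        Real.circleAverage (fun z => Real.log (DD (H z) (fun i => V i z))) 0 r := by
  obtain ⟨s, hs, hs1, hlim⟩ := exists_common_seq
    (fun (i : Option (Fin n)) (r : ℝ) (t : TT) => match i with
      | none => ‖ext (fun t => WithLp.toLp 2 (Hs t) : TT → EuclideanSpace ℂ (Fin (N + 1)))
          (r * zt t) - WithLp.toLp 2 (Hs t)‖ ^ 2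
      | some i => ‖ext (Q i) (r * zt t) - Q i t‖ ^ 2)
    (fun i r t => by cases i <;> positivity)
    (fun i r hr => by
      cases i with
      | none => exact hHs.integrable_slice_sub hr
      | some i => exact (hQ i).integrable_slice_sub hr)
    (fun i => by
      cases i with
      | none => exact hHs.tendsto_slice
      | some i => exact (hQ i).tendsto_slice)
  have hcv : ∀ {E : Type} [NormedAddCommGroup E] {f : ℕ → E} {x : E},
      Tendsto (fun j => ‖f j - x‖ ^ 2) atTop (𝓝 0) → Tendsto f atTop (𝓝 x) := by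
    intro E _ f x h
    rw [tendsto_iff_norm_sub_tendsto_zero]
    have h1 := h.sqrt
    rw [Real.sqrt_zero] at h1
    refine h1.congr fun j => ?_
    rw [Real.sqrt_sq (norm_nonneg _)]
  refine wf_det_seq hI hX hH hN tan hol pos low hs hs1 (Hs := Hs) ?_ (Q := Q) ?_ hrep
  · filter_upwards [hlim none] with t ht
    have h1 := hcv ht
    have h2 : Tendsto (fun j => (WithLp.toLp 2 (H (s j * zt t)) : EuclideanSpace ℂ (Fin (N + 1))))
        atTop (𝓝 (WithLp.toLp 2 (Hs t))) := by
      refine h1.congr fun j => ?_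
      exact hHe _ (mem_ball_smul_zt (hs j) t)
    refine tendsto_pi_nhds.2 fun k => ?_
    exact ((EuclideanSpace.proj (𝕜 := ℂ) k).continuous.tendsto _).comp h2
  · intro i
    filter_upwards [hlim (some i)] with t ht
    have h1 := hcv ht
    refine h1.congr fun j => ?_
    exact hQe i _ (mem_ball_smul_zt (hs j) t)

end

end Crest.Agent.R269.StatDet_194
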