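import Mathlib
import Crest.Agent.R269.Frame_402
import Crest.Agent.R269.Rep2_430
import Crest.Agent.R269.StatDet_194
import Crest.Agent.R269.WF_731

/-!
# R269 (S0411), Line B: assembly of `WFStmt` (helper402)

`wf_of_var` : all fields of `WF` but `var` for the Wold frame `frm v H`.
-/

set_option autoImplicit false

open MvPolynomial Crest.AlgGeometry.ProjEmb Crest.Agent.R269.Geo_328 Crest.Agent.R269.DefsS_731
open Crest.Agent.R269.Fib_402 Crest.Agent.R269.Hardy_142 Crest.Agent.R269.Mod_402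
open Crest.Agent.R269.Bd_402 Crest.Agent.R269.GeoW_936 Crest.Agent.R269.Frame_402
open Crest.Agent.R269.Defs_58 Crest.Agent.R269.Iface_731 Crest.Agent.R269.WF_731
open Crest.Agent.R269.Rep2_430 (frm frm_tan frm_hol wE_frm wdg_frm)
open MeasureTheory Filter Metric Set
open scoped ContDiff Topology ComplexConjugate ENNReal InnerProductSpace

namespace Crest.Agent.R269.WFA_402

noncomputable section

variable {N n : ℕ} {I : Ideal (HomCoordRing N)}

/-- the field `var` of `WF` -/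
def VarF (I : Ideal (HomCoordRing N)) (n : ℕ) (a : EE N → VV N) (H : ℂ → EE N)
    (V : Fin n → ℂ → EE N) : Prop :=
  ∀ (c0 c1 : ℝ) (u1 : EE N → ℝ) (r1 κ t r cθ cω : ℝ) (u : EE N → ℝ) (T1 : ℝ), SmX I u1 →
    r1 ∈ Ioo (0 : ℝ) 1 → 0 < κ → 0 ≤ t → r ∈ Ioo (0 : ℝ) 1 → SmX I u → GeO I n cθ cω u →
    IsMx I n (Jf c0 c1 u1 r1) κ t r cθ cω u H T1 →
    ∀ tE : EE N → ℝ, SmX I tE → (∀ p ∈ Cone I, ∀ b : Fin n → EE N, Rep I a p b →
      tE p = ∑ i, dens I n cθ cω u p (b i)) →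
      ∑ i, (LJf c0 c1 u1 r1 H (V i) +
        κ * t * Real.circleAverage (fun z => ‖z‖ ^ 2 * omg (H z) (V i z)) 0 r) ≤
          κ * TE_499.bav tE H

theorem exists_const (hI : I.IsPrime) (hX : IsSmoothProjective I n) (hn : 1 ≤ n)
    {Pi a : EE N → VV N} (hPi : GeoH_936.PiData I Pi) (ha : PosField I n a) (Y : Flds I) (B : ℝ) :
    ∃ C : ℝ, 0 ≤ C ∧ ∀ (H : ℂ → EE N) (Hs : TT → EE N) (v : Fin n → Lp (FF N) 2 mu),
      IsDisc I H → Normal H → BD I H Hs → WData I n a Pi Y B H Hs v → VarF I n a H (frm v H) →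
      WF I n a C H (frm v H) := by
  obtain ⟨C₁, hC₁, h1⟩ := Ker4_430.fields hI hX ha Y (Ker3_430.qin_Qf hI hX hPi ha Y)
  obtain ⟨C₂, hC₂, h2⟩ := Ker4_430.up (N := N) hn (B := n * B ^ 2)
  refine ⟨C₁ + C₂, by positivity, ?_⟩
  intro H Hs v hH hN hBD hW hvar
  have key : ∀ z ∈ ball (0 : ℂ) 1, _ := fun z hz =>
    h1 (C₁ + C₂) (by linarith) (H z) (hH.cone z hz) (hN.le_one z hz) (fun i => frm v H i z)
      (fun i => frm_tan hX hH hW.mem i hz) (hW.krep z (mem_ball_zero_iff.mp hz))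
  have hbdd : ∀ z ∈ ball (0 : ℂ) 1,
      ∑ i, ∑ j, ∑ k, ‖wdg (frm v H i z) (H z) j k‖ ^ 2 ≤ n * B ^ 2 := by
    intro z hz
    have e0 : ∀ i, ∑ j, ∑ k, ‖wdg (frm v H i z) (H z) j k‖ ^ 2 ≤ B ^ 2 := by
      intro i
      have e1 : ∑ j, ∑ k, ‖wdg (frm v H i z) (H z) j k‖ ^ 2
          = ‖Hardy_142.ext (v i : TT → FF N) z‖ ^ 2 := by
        rw [EuclideanSpace.norm_sq_eq, Fintype.sum_prod_type]
        exact Finset.sum_congr rfl fun j _ => Finset.sum_congr rfl fun k _ => by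
          rw [wdg_frm hX hH hW.mem i hz]
      rw [e1]
      exact pow_le_pow_left₀ (norm_nonneg _) (hW.ext_bdd i z (mem_ball_zero_iff.mp hz)) 2
    refine (Finset.sum_le_sum fun i _ => e0 i).trans (le_of_eq ?_)
    simp
  refine
    { tan := fun i z hz => frm_tan hX hH hW.mem i hz
      hol := fun i => frm_hol hX hH hW.mem i
      pos := fun z hz => (key z hz).1
      k1 := fun z hz => (key z hz).2.1
      low := fun z hz => (key z hz).2.2
      up := fun z hz => h2 (C₁ + C₂) (by linarith) (H z) (hH.cone z hz).2 (hN.le_one z hz) _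
        (key z hz).1 (hbdd z hz)
      det := ?_
      var := hvar }
  exact StatDet_194.wf_det hI hX hH hN (fun i z hz => frm_tan hX hH hW.mem i hz)
    (fun i => frm_hol hX hH hW.mem i) (fun z hz => (key z hz).1) (fun z hz => (key z hz).2.2)
    hBD.h2 (fun z hz => hBD.ext_eq z (mem_ball_zero_iff.mp hz))
    (fun i => mem_HH.mp (MM_le_HH Y H (hW.mem i)))
    (fun i z hz => (wE_frm hX hH hW.mem i hz).symm) hW.rep

/-- the (VAR) input: for the Wold data of any normalised disc -/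
def VarStmt : Prop := ∀ (N n : ℕ) (I : Ideal (HomCoordRing N)), I.IsPrime →
  IsSmoothProjective I n → 1 ≤ n → ∀ (Pi a : EE N → VV N), GeoH_936.PiData I Pi → PosField I n a →
    ∀ (Y : Flds I) (B : ℝ) (H : ℂ → EE N) (Hs : TT → EE N) (v : Fin n → Lp (FF N) 2 mu),
      IsDisc I H → Normal H → BD I H Hs → WData I n a Pi Y B H Hs v → VarF I n a H (frm v H)

/-- everything but (VAR) -/
theorem wfStmt_of (hflds : ∀ (N n : ℕ) (I : Ideal (HomCoordRing N)), I.IsPrime →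
    IsSmoothProjective I n → Nonempty (Flds I)) (hV : VarStmt) : WFStmt := by
  intro N n I hI hX hn _ a ha
  obtain ⟨Pi, hPi⟩ := GeoH_936.exists_PiData hI hX
  obtain ⟨Y⟩ := hflds N n I hI hX
  obtain ⟨B, hB0, hB⟩ := exists_WData hI hX hPi ha Y
  obtain ⟨C, hC0, hC⟩ := exists_const hI hX hn hPi ha Y B
  refine ⟨C, hC0, fun H hH hN => ?_⟩
  obtain ⟨Hs, hBD⟩ := exists_BD hH hN
  obtain ⟨v, hv⟩ := hB H Hs hH hN hBD
  exact ⟨frm v H, hC H Hs v hH hN hBD hv (hV N n I hI hX hn Pi a hPi ha Y B H Hs v hH hN hBD hv)⟩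

end

end Crest.Agent.R269.WFA_402
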