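import Mathlib
import Crest.Agent.R269.StatDet_194
import Crest.Agent.R269.Bd_402

/-!
# R269 (S0411), Line B: the field `var` of `WF_731.WF` (helper731)

From the inequality (VAR) for each vector of the frame (boundary densities of `H²` boundary functions) and the
boundary identity `Rep I a (Hs t) (fun i => hor (Q i t) (Hs t))` a.e.
-/

set_option autoImplicit false

open Filter Topology Set Metric MeasureTheory MvPolynomial Crest.AlgGeometry.ProjEmb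
open Crest.Agent.R269.Geo_328 Crest.Agent.R269.Defs_58 Crest.Agent.R269.DefsS_731
open Crest.Agent.R269.Hardy_142 Crest.Agent.R269.StatPot_194 Crest.Agent.R269.Fib_402
open Crest.Agent.R269.WF_731 Crest.Agent.R269.Iface_731
open Crest.Agent.R269.TE_499 (TE1 bav)

namespace Crest.Agent.R269.WFvar_731

noncomputable section

variable {N n : ℕ} {I : Ideal (HomCoordRing N)} {H : ℂ → EE N}

/-- a smooth function: the boundary average is the average of the boundary function -/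
theorem bav_eq (hI : I.IsPrime) (hX : IsSmoothProjective I n) (hH : IsDisc I H) (hN : Normal H)
    {s : ℕ → ℝ} (hs : ∀ j, s j ∈ Ioo (0 : ℝ) 1) (hs1 : Tendsto s atTop (𝓝 1)) {Hs : TT → EE N}
    (hlim : ∀ᵐ t ∂mu, Tendsto (fun j => H (s j * zt t)) atTop (𝓝 (Hs t)))
    {ψ : EE N → ℝ} (hψ : SmX I ψ) : bav ψ H = ∫ t, ψ (Hs t) ∂mu := by
  have hB : BData (n := 0) I H (fun i => i.elim0) s Hs (fun i => i.elim0) :=
    { disc := hH
      normal := hN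
      tan := fun z hz i => i.elim0
      hol := fun i => i.elim0
      sI := hs
      s1 := hs1
      Hnsq := StatDet_194.ae_nsq_one hH hN hs hs1 hlim
      Hlim := hlim
      vlim := fun i => i.elim0 }
  obtain ⟨B, -, hBd⟩ := LevBr_901.smX_bdd hX hψ
  have h1 : Tendsto (fun j => cav ψ H (s j)) atTop (𝓝 (∫ t, ψ (Hs t) ∂mu)) := by
    refine tendsto_avg_of_bdd hs ?_ (fun z hz => hBd _ (hH.cone z hz)) ?_
    · intro z hz
      refine ContinuousAt.continuousWithinAt ?_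
      exact ContinuousAt.comp (g := ψ) ((hψ.1 _ (hH.cone z hz)).continuousAt)
        (hB.analyticAt hz).continuousAt
    · filter_upwards [hB.Hs_cone, hlim] with t h1 h2
      exact ((hψ.1 _ h1).continuousAt.tendsto).comp h2
  have h2 := (StatDet_194.tendsto_cav_bav hI hX hH hN hψ).comp hB.sI'
  exact tendsto_nhds_unique h2 h1

/-- (VAR) for one vector of the frame -/
def Var1 (I : Ideal (HomCoordRing N)) (n : ℕ) (H : ℂ → EE N) (Hs : TT → EE N) (V : ℂ → EE N)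
    (Q : TT → FF N) : Prop :=
  ∀ (c0 c1 : ℝ) (u1 : EE N → ℝ) (r1 κ t r cθ cω : ℝ) (u : EE N → ℝ) (T1 : ℝ), SmX I u1 →
    r1 ∈ Ioo (0 : ℝ) 1 → 0 < κ → 0 ≤ t → r ∈ Ioo (0 : ℝ) 1 → SmX I u → GeO I n cθ cω u →
    IsMx I n (Jf c0 c1 u1 r1) κ t r cθ cω u H T1 →
    Integrable (fun x => dens I n cθ cω u (Hs x) (hor (Q x) (Hs x))) mu ∧
      LJf c0 c1 u1 r1 H V + κ * t * Real.circleAverage (fun z => ‖z‖ ^ 2 * omg (H z) (V z)) 0 r ≤
        κ * ∫ x, dens I n cθ cω u (Hs x) (hor (Q x) (Hs x)) ∂mu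

/-- the field `var` of `WF_731.WF`, literally -/
theorem wf_var (hI : I.IsPrime) (hX : IsSmoothProjective I n) {a : EE N → VV N}
    (hH : IsDisc I H) (hN : Normal H)
    {s : ℕ → ℝ} (hs : ∀ j, s j ∈ Ioo (0 : ℝ) 1) (hs1 : Tendsto s atTop (𝓝 1)) {Hs : TT → EE N}
    (hlim : ∀ᵐ t ∂mu, Tendsto (fun j => H (s j * zt t)) atTop (𝓝 (Hs t)))
    (hcone : ∀ᵐ t ∂mu, Hs t ∈ Cone I)
    {V : Fin n → ℂ → EE N} {Q : Fin n → TT → FF N} (hvar : ∀ i, Var1 I n H Hs (V i) (Q i))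
    (hrep : ∀ᵐ t ∂mu, Rep I a (Hs t) (fun i => hor (Q i t) (Hs t))) :
    ∀ (c0 c1 : ℝ) (u1 : EE N → ℝ) (r1 κ t r cθ cω : ℝ) (u : EE N → ℝ) (T1 : ℝ), SmX I u1 →
    r1 ∈ Ioo (0 : ℝ) 1 → 0 < κ → 0 ≤ t → r ∈ Ioo (0 : ℝ) 1 → SmX I u → GeO I n cθ cω u →
    IsMx I n (Jf c0 c1 u1 r1) κ t r cθ cω u H T1 →
    ∀ tE : EE N → ℝ, SmX I tE → (∀ p ∈ Cone I, ∀ b : Fin n → EE N, Rep I a p b →
      tE p = ∑ i, dens I n cθ cω u p (b i)) →
      ∑ i, (LJf c0 c1 u1 r1 H (V i) +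
        κ * t * Real.circleAverage (fun z => ‖z‖ ^ 2 * omg (H z) (V i z)) 0 r) ≤ κ * bav tE H := by
  intro c0 c1 u1 r1 κ t r cθ cω u T1 h1 h2 h3 h4 h5 h6 h7 h8 tE h9 h10
  have hv := fun i => hvar i c0 c1 u1 r1 κ t r cθ cω u T1 h1 h2 h3 h4 h5 h6 h7 h8
  refine (Finset.sum_le_sum fun i _ => (hv i).2).trans ?_
  rw [← Finset.mul_sum, ← integral_finsetSum _ (fun i _ => (hv i).1),
    bav_eq hI hX hH hN hs hs1 hlim h9]
  refine le_of_eq ?_
  congr 1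
  refine integral_congr_ae ?_
  filter_upwards [hcone, hrep] with x hx hr
  exact (h10 _ hx _ hr).symm

open Crest.Agent.R269.Bd_402

/-- a sequence of radii along which `H` tends to its boundary function a.e. -/
theorem exists_seq {Hs : TT → EE N} (hBD : BD I H Hs) : ∃ s : ℕ → ℝ, (∀ j, s j ∈ Ioo (0 : ℝ) 1) ∧
    Tendsto s atTop (𝓝 1) ∧ ∀ᵐ t ∂mu, Tendsto (fun j => H (s j * zt t)) atTop (𝓝 (Hs t)) := by
  obtain ⟨s, hs, hs1, hs2⟩ := common_seq3 hBD.h2 hBD.h2 hBD.h2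
  refine ⟨s, hs, hs1, ?_⟩
  filter_upwards [hs2] with t ht
  have h3 : Tendsto (fun j => WithLp.ofLp (Hardy_142.ext (fun t => toH (Hs t)) (s j * zt t)))
      atTop (𝓝 (WithLp.ofLp (toH (Hs t)))) :=
    ((EuclideanSpace.equiv (Fin (N + 1)) ℂ).continuous.tendsto (toH (Hs t))).comp ht.1
  refine h3.congr fun j => ?_
  rw [hBD.ext_eq _ (mem_ball_zero_iff.1 (mem_ball_smul_zt (hs j) t))]
  rfl

/-- the field `var` of `WF_731.WF` from 402's boundary data -/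
theorem wf_var_BD (hI : I.IsPrime) (hX : IsSmoothProjective I n) {a : EE N → VV N}
    (hH : IsDisc I H) (hN : Normal H) {Hs : TT → EE N} (hBD : BD I H Hs)
    {V : Fin n → ℂ → EE N} {Q : Fin n → TT → FF N} (hvar : ∀ i, Var1 I n H Hs (V i) (Q i))
    (hrep : ∀ᵐ t ∂mu, Rep I a (Hs t) (fun i => hor (Q i t) (Hs t))) :
    ∀ (c0 c1 : ℝ) (u1 : EE N → ℝ) (r1 κ t r cθ cω : ℝ) (u : EE N → ℝ) (T1 : ℝ), SmX I u1 →
    r1 ∈ Ioo (0 : ℝ) 1 → 0 < κ → 0 ≤ t → r ∈ Ioo (0 : ℝ) 1 → SmX I u → GeO I n cθ cω u →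
    IsMx I n (Jf c0 c1 u1 r1) κ t r cθ cω u H T1 →
    ∀ tE : EE N → ℝ, SmX I tE → (∀ p ∈ Cone I, ∀ b : Fin n → EE N, Rep I a p b →
      tE p = ∑ i, dens I n cθ cω u p (b i)) →
      ∑ i, (LJf c0 c1 u1 r1 H (V i) +
        κ * t * Real.circleAverage (fun z => ‖z‖ ^ 2 * omg (H z) (V i z)) 0 r) ≤ κ * bav tE H := by
  obtain ⟨s, hs, hs1, hlim⟩ := exists_seq hBD
  exact wf_var hI hX hH hN hs hs1 hlim hBD.cone hvar hrep

end

end Crest.Agent.R269.WFvar_731
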