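import Mathlib
import Crest.Agent.R269.SVar3_740
import Crest.Agent.R269.Var3_60
import Crest.Agent.R269.WFvar_731
import Crest.Agent.R269.WFA_402
import Crest.Agent.R269.Fin_731

/-!
# R269 (S0411), Line B: `VarStmt`, `WFStmt`, `TStmt`, `TDelStmt` (helper740)
-/

set_option autoImplicit false

open Crest.AlgGeometry.ProjEmb Crest.Agent.R269.Geo_328 Crest.Agent.R269.DefsS_731
open Crest.Agent.R269.Hardy_142 Crest.Agent.R269.Bd_402 Crest.Agent.R269.Frame_402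
open Crest.Agent.R269.Rep2_430 (frm frm_tan wE_frm)
open Metric

namespace Crest.Agent.R269.VarEnd_740

theorem varStmt : WFA_402.VarStmt := by
  intro N n I hI hX _ Pi a _ _ Y B H Hs v hH hN hBD hW
  obtain ⟨s, hs, hs1, hlim⟩ := WFvar_731.exists_seq hBD
  have hBH : SVar3_740.BH I H Hs s := ⟨hs, hs1, hlim, hBD.nsq_eq⟩
  refine WFvar_731.wf_var_BD hI hX hH hN hBD (Q := fun i => (v i : TT → Fib_402.FF N)) ?_ hW.rep
  intro i c0 c1 u1 r1 κ t r cθ cω u T1 hu1 hr1 hκ _ hr hu hG hmx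
  exact SVar3_740.var_MM hI hX Y hu1 ⟨hr1.1.le, hr1.2⟩ ⟨hr.1.le, hr.2⟩ hκ.le hu hG hmx hBH
    (fun c => Var3_60.hasVar hI hX Y c hH hN.le_one) (hW.mem i)
    (fun z hz => frm_tan hX hH hW.mem i hz) (fun z hz => wE_frm hX hH hW.mem i hz)

theorem wfStmt : WF_731.WFStmt :=
  WFA_402.wfStmt_of (fun _ _ _ hI hX => Var3_60.exists_Flds hI hX) varStmt

theorem tStmt : Defs_58.TStmt := Fin_731.tStmt_of wfStmt

theorem tDelStmt : Defs_58.TDelStmt := Fin_731.tDelStmt_of wfStmt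

end Crest.Agent.R269.VarEnd_740
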