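import Crest.Agent.R269.MAAsm_128
import Crest.Agent.R269.ResC_19
import Crest.Agent.R269.RegProof_390
import Crest.Agent.R269.VarEnd_740
import Crest.Agent.R269.Big_85
import Crest.Agent.R269.Reg12_241
import Crest.Agent.R269.Red2_58

/-!
# R269 (S0411): the resolvent statement `ResStmt`, Parts 7-9 and 12, and the conclusion (helper731)
-/

set_option autoImplicit false

open Crest.Agent.R273.Kah_333 Crest.Agent.R275.Geo
open Crest.Agent.R269.MAAsm_128 Crest.Agent.R269.Res_19 Crest.Agent.R269.Inst_851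
open Crest.Agent.R269.Fld_851 Crest.Agent.R269.Adj_851 Crest.Agent.R269.AdjLoc_851
open Crest.Agent.R202.Ell Crest.Agent.R269.GEll_19 Crest.Agent.R275 Crest.Agent.R275.Core144
open Crest.Agent.R275.EDR890 Crest.Agent.R275.Pai323 Crest.Agent.R275.C1d194
open Crest.Agent.R273.SchE_152 Crest.Agent.R273.SchB_152 Crest.Agent.R273.Defs_333
open Crest.Agent.R273.Vm_333 Crest.Agent.R273.Hess_333 Crest.Agent.R273.HessB_333
open Crest.Agent.R273.HM_333 Crest.Agent.R273.Vol_333 Crest.Agent.R273.Green_5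
open Crest.Agent.R273.GreenM_5

namespace Crest.Agent.R269.ResT_731

/-- the resolvent on compact Kaehler manifolds -/
theorem resStmt : MAAsm_128.ResStmt := by
  intro n _ M _ _ _ _ _ A _ hP K
  obtain ⟨P⟩ := hP
  constructor
  · intro s hs lam hlam h hh δ hδ
    have hq0 : ∀ x, 0 < lam * rtF K s.1 x := fun x =>
      mul_pos hlam (Inst_851.rtF_pos K s.2.tc (mem_ci x) (hs _ x (mem_ci x)))
    exact Res_19.resolvent K P s.2 hs (sm_mulR (sm_constR lam) (Inst_851.sm_rtF K hs)) hq0 hh hδ
  · intro s hs m hm h hh δ hδ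
    exact Res_19.resolvent K P s.2 hs (sm_constR m) (fun _ => hm) hh hδ

theorem maStmt2 : Red2_58.MAStmt2 := MAAsm_128.maStmt2 RegProof_390.regStmt resStmt

theorem posStmt2 : Red2_58.PosStmt2 := MAAsm_128.posStmt2 RegProof_390.regStmt resStmt

end Crest.Agent.R269.ResT_731
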