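import Crest.Agent.R269.Defs_58
import Crest.Agent.R269.GeoT_328

/-!
# R269 (S0411), leaf BIGSEC (helper669), part 1: linear algebra of `wedgeSq` and `DD`
-/

set_option autoImplicit false

open MvPolynomial Crest.AlgGeometry.ProjEmb Crest.Agent.R269.Geo_328 Crest.Agent.R269.Defs_58
open scoped ContDiff Topology ComplexConjugate Matrix ComplexOrder

namespace Crest.Agent.R269.Sec_669

noncomputable section

variable {N n : ℕ} {I : Ideal (HomCoordRing N)}

theorem wedgeSq_eq {m : ℕ} (w : Fin m → EE N) :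
    wedgeSq w = (Matrix.of w * (Matrix.of w)ᴴ).det.re := by
  unfold wedgeSq
  congr 2

theorem det_mul_conjTranspose_real {m : ℕ} (W : Matrix (Fin m) (Fin (N + 1)) ℂ) :
    (((W * Wᴴ).det.re : ℝ) : ℂ) = (W * Wᴴ).det := by
  have h : (W * Wᴴ).IsHermitian := Matrix.isHermitian_mul_conjTranspose_self W
  have h1 := congrArg Matrix.det h.eq
  rw [Matrix.det_conjTranspose] at h1
  exact Complex.conj_eq_iff_re.1 h1

theorem wedgeSq_comb {m : ℕ} (A : Matrix (Fin m) (Fin m) ℂ) (w : Fin m → EE N) :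
    wedgeSq (fun i => ∑ k, A i k • w k) = ‖A.det‖ ^ 2 * wedgeSq w := by
  rw [wedgeSq_eq, wedgeSq_eq]
  have h1 : (Matrix.of fun i => ∑ k, A i k • w k) = A * Matrix.of w := by
    ext i j
    simp [Matrix.mul_apply, Finset.sum_apply]
  rw [h1, Matrix.conjTranspose_mul, ← Matrix.mul_assoc, Matrix.mul_assoc A, Matrix.det_mul,
    Matrix.det_mul, Matrix.det_conjTranspose, ← det_mul_conjTranspose_real (Matrix.of w)]
  have h2 : A.det * (((Matrix.of w * (Matrix.of w)ᴴ).det.re : ℝ) : ℂ) * star A.det =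
      ((‖A.det‖ ^ 2 * (Matrix.of w * (Matrix.of w)ᴴ).det.re : ℝ) : ℂ) := by
    have h3 : A.det * star A.det = ((‖A.det‖ ^ 2 : ℝ) : ℂ) := by
      rw [Complex.star_def, Complex.mul_conj, Complex.normSq_eq_norm_sq]
    calc A.det * (((Matrix.of w * (Matrix.of w)ᴴ).det.re : ℝ) : ℂ) * star A.det
        = (A.det * star A.det) * (((Matrix.of w * (Matrix.of w)ᴴ).det.re : ℝ) : ℂ) := by ring
      _ = _ := by rw [h3]; push_cast; ring
  rw [h2, Complex.ofReal_re, Complex.ofReal_re]

theorem wedgeSq_nonneg {m : ℕ} (w : Fin m → EE N) : 0 ≤ wedgeSq w := by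
  rw [wedgeSq_eq]
  have h : (Matrix.of w * (Matrix.of w)ᴴ).PosSemidef := Matrix.posSemidef_self_mul_conjTranspose _
  exact (Complex.le_def.1 h.det_nonneg).1

theorem wedgeSq_pos {m : ℕ} {w : Fin m → EE N} (h : LinearIndependent ℂ w) : 0 < wedgeSq w := by
  rw [wedgeSq_eq]
  have h1 : (Matrix.of w * (Matrix.of w)ᴴ).PosDef := by
    have := Matrix.PosDef.mul_conjTranspose_self (Matrix.of w) (by
      rw [Matrix.vecMul_injective_iff]
      exact h)
    exact this
  exact (Complex.lt_def.1 h1.det_pos).1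

theorem linearIndependent_of_wedgeSq {m : ℕ} {w : Fin m → EE N} (h : wedgeSq w ≠ 0) :
    LinearIndependent ℂ w := by
  by_contra hli
  apply h
  rw [Fintype.not_linearIndependent_iff] at hli
  obtain ⟨g, hg, i, hi⟩ := hli
  rw [wedgeSq_eq]
  have h1 : g ᵥ* (Matrix.of w * (Matrix.of w)ᴴ) = 0 := by
    rw [← Matrix.vecMul_vecMul]
    have : g ᵥ* Matrix.of w = 0 := by
      funext j
      have := congrFun hg j
      simpa [Matrix.vecMul, dotProduct, Finset.sum_apply] using this
    rw [this, Matrix.zero_vecMul]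
  have h2 : (Matrix.of w * (Matrix.of w)ᴴ).det = 0 := by
    by_contra hdet
    have hinj := Matrix.vecMul_injective_iff_isUnit.2
      ((Matrix.isUnit_iff_isUnit_det _).2 (isUnit_iff_ne_zero.2 hdet))
    have h3 : g = 0 := hinj (by simpa using h1)
    exact hi (by rw [h3]; rfl)
  rw [h2]; simp

theorem wedgeSq_smul {m : ℕ} (c : ℂ) (w : Fin m → EE N) :
    wedgeSq (fun i => c • w i) = ‖c‖ ^ (2 * m) * wedgeSq w := by
  have h := wedgeSq_comb (Matrix.diagonal fun _ : Fin m => c) w
  have h1 : (fun i => ∑ k, (Matrix.diagonal fun _ : Fin m => c) i k • w k) = fun i => c • w i := by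
    funext i
    rw [Finset.sum_eq_single i]
    · simp
    · intro j _ hj; simp [Matrix.diagonal_apply_ne _ hj.symm]
    · simp
  rw [h1] at h
  rw [h, Matrix.det_diagonal]
  simp [pow_mul, mul_comm]

/-! ### `DD` -/

theorem nsq_nonneg (p : EE N) : 0 ≤ nsq p := Finset.sum_nonneg fun i _ => by positivity

theorem nsq_pos {p : EE N} (hp : p ≠ 0) : 0 < nsq p := by
  obtain ⟨i, hi⟩ : ∃ i, p i ≠ 0 := by
    by_contra h
    push Not at h
    exact hp (funext h)
  exact Finset.sum_pos' (fun i _ => by positivity) ⟨i, Finset.mem_univ i, by positivity⟩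

theorem nsq_smul (c : ℂ) (p : EE N) : nsq (c • p) = ‖c‖ ^ 2 * nsq p := by
  simp only [nsq, Pi.smul_apply, smul_eq_mul, norm_mul, mul_pow, Finset.mul_sum]

theorem DD_nonneg (p : EE N) (b : Fin n → EE N) : 0 ≤ DD p b :=
  div_nonneg (wedgeSq_nonneg _) (pow_nonneg (nsq_nonneg p) _)

theorem DD_pos_iff {p : EE N} (hp : p ≠ 0) {b : Fin n → EE N} :
    0 < DD p b ↔ LinearIndependent ℂ (Fin.cons p b : Fin (n + 1) → EE N) := by
  have h := nsq_pos hp
  unfold DD
  constructor
  · intro h1
    apply linearIndependent_of_wedgeSq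
    intro h0
    rw [h0] at h1; simp at h1
  · intro h1
    have := wedgeSq_pos h1
    positivity

/-- change of frame -/
theorem DD_mix (p : EE N) (b : Fin n → EE N) (M : Matrix (Fin n) (Fin n) ℂ) (r : Fin n → ℂ) :
    DD p (fun i => (∑ k, M i k • b k) + r i • p) = ‖M.det‖ ^ 2 * DD p b := by
  set A : Matrix (Fin (n + 1)) (Fin (n + 1)) ℂ :=
    Fin.cons (Pi.single 0 1) (fun i => Fin.cons (r i) (M i)) with hA
  have h1 : (Fin.cons p (fun i => (∑ k, M i k • b k) + r i • p) : Fin (n + 1) → EE N) =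
      fun i => ∑ k, A i k • (Fin.cons p b : Fin (n + 1) → EE N) k := by
    funext i
    refine Fin.cases ?_ (fun i => ?_) i
    · simp [hA, Pi.single_apply]
    · simp [hA, Fin.sum_univ_succ]
      rw [add_comm]
  have h2 : A.det = M.det := by
    rw [Matrix.det_succ_row_zero]
    rw [Finset.sum_eq_single 0]
    · simp [hA]
      congr 1
    · intro j _ hj
      simp [hA, hj]
    · simp
  unfold DD
  rw [h1, wedgeSq_comb, h2]
  ring

theorem DD_smul {c : ℂ} (hc : c ≠ 0) (p : EE N) (b : Fin n → EE N) :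
    DD (c • p) (fun i => c • b i) = DD p b := by
  have h1 : (Fin.cons (c • p) (fun i => c • b i) : Fin (n + 1) → EE N) =
      fun i => c • (Fin.cons p b : Fin (n + 1) → EE N) i := by
    funext i
    refine Fin.cases ?_ (fun i => ?_) i <;> simp
  unfold DD
  rw [h1, wedgeSq_smul, nsq_smul, mul_pow, ← pow_mul]
  have : ‖c‖ ^ (2 * (n + 1)) ≠ 0 := by positivity
  rw [mul_div_mul_left _ _ this]

/-- every tangent family is a combination of a tangent frame and `p` -/
theorem exists_comb (hX : IsSmoothProjective I n) {p : EE N} (hp : p ∈ Cone I)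
    {b b' : Fin n → EE N} (hb : TanFam I p b) (hD : 0 < DD p b) (hb' : TanFam I p b') :
    ∃ (M : Matrix (Fin n) (Fin n) ℂ) (r : Fin n → ℂ),
      b' = fun i => (∑ k, M i k • b k) + r i • p := by
  have hli := (DD_pos_iff hp.2).1 hD
  have hmem : ∀ i, (Fin.cons p b : Fin (n + 1) → EE N) i ∈ Tan I p := by
    intro i
    refine Fin.cases ?_ (fun i => ?_) i
    · simpa using self_mem_Tan hX hp.1
    · simpa using hb i
  set w : Fin (n + 1) → Tan I p := fun i => ⟨_, hmem i⟩ with hw
  have hwli : LinearIndependent ℂ w := by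
    have : (Submodule.subtype (Tan I p)) ∘ w = (Fin.cons p b : Fin (n + 1) → EE N) := rfl
    exact LinearIndependent.of_comp (Submodule.subtype (Tan I p)) (by rw [this]; exact hli)
  have hspan : Submodule.span ℂ (Set.range w) = ⊤ :=
    hwli.span_eq_top_of_card_eq_finrank (by simp [finrank_Tan hX hp])
  have hex : ∀ i, ∃ g : Fin (n + 1) → ℂ, ∑ k, g k • w k = ⟨b' i, hb' i⟩ := by
    intro i
    have : (⟨b' i, hb' i⟩ : Tan I p) ∈ Submodule.span ℂ (Set.range w) := by rw [hspan]; trivial
    exact (Submodule.mem_span_range_iff_exists_fun ℂ).1 this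
  choose g hg using hex
  refine ⟨fun i k => g i k.succ, fun i => g i 0, ?_⟩
  funext i
  have := congrArg (Submodule.subtype (Tan I p)) (hg i)
  rw [map_sum] at this
  simp only [map_smul, Submodule.subtype_apply, hw] at this
  rw [← this, Fin.sum_univ_succ]
  simp only [Fin.cons_zero, Fin.cons_succ]
  rw [add_comm]

end

end Crest.Agent.R269.Sec_669
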