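import Crest.Agent.R269.Sec1_669
import Crest.Agent.R269.HolSecB_307
import Crest.Agent.R269.Chart_632

/-!
# R269 (S0411), leaf BIGSEC (helper669), part 2: the norm function of a holomorphic section

`hs I n m j S p = |S p b|² |p|^(-2j) / DD p b ^ m` for any tangent frame `b` at `p ∈ Cone I`.
Main results: `hs_eq`, `sq_norm_eq`, `hs_smul`, `exists_smX`, `along`, `bigNorm`.
-/

set_option autoImplicit false
set_option linter.unusedVariables false

open MvPolynomial Crest.AlgGeometry.ProjEmb Crest.Agent.R269.Geo_328 Crest.Agent.R269.Defs_58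
open scoped ContDiff Topology ComplexConjugate Matrix ComplexOrder

namespace Crest.Agent.R269.Sec_669

open Crest.Agent.R269.HolSec_307 (Xm Xm_apply Xm_smul Xm_dσ dσ dσ_mem dσ_analyticAt val
  val_analyticAt ratio_σ ratio_analyticAt isCompact_sphereCone nsq_contDiff exists_smooth_of_local)

noncomputable section

variable {N n m : ℕ} {j : ℤ} {I : Ideal (HomCoordRing N)}
  {S : EE N → (Fin n → EE N) → ℂ}

/-- the bundled form of helper307 -/
def bun (h : HolSec I n m j S) : HolSec_307.HolSec I n m j where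
  S := S
  smul := h.hom
  lin := h.mix
  hol := h.hol

/-! ### Frames -/

theorem linearIndependent_of_Xm {i : Fin (N + 1)} {J : Fin n → Fin (N + 1)} {p : EE N}
    (hi : p i ≠ 0) {b : Fin n → EE N} (h : (Xm i J p b).det ≠ 0) :
    LinearIndependent ℂ (Fin.cons p b : Fin (n + 1) → EE N) := by
  rw [Fintype.linearIndependent_iff]
  intro g hg
  rw [Fin.sum_univ_succ] at hg
  simp only [Fin.cons_zero, Fin.cons_succ] at hg
  have h1 : (fun k : Fin n => g k.succ) ᵥ* Xm i J p b = 0 := by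
    funext l
    have e1 := congrFun hg i
    have e2 := congrFun hg (J l)
    simp only [Pi.add_apply, Pi.smul_apply, smul_eq_mul, Finset.sum_apply, Pi.zero_apply] at e1 e2
    have e3 : ∑ k, g k.succ * (p i * b k (J l) - p (J l) * b k i) = 0 := by
      have : ∑ k, g (Fin.succ k) * (p i * b k (J l) - p (J l) * b k i) =
          p i * (g 0 * p (J l) + ∑ k, g k.succ * b k (J l)) -
            p (J l) * (g 0 * p i + ∑ k, g k.succ * b k i) := by
        rw [mul_add, mul_add, Finset.mul_sum, Finset.mul_sum]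
        have : ∑ k, g (Fin.succ k) * (p i * b k (J l) - p (J l) * b k i) =
            ∑ k, p i * (g k.succ * b k (J l)) - ∑ k, p (J l) * (g k.succ * b k i) := by
          rw [← Finset.sum_sub_distrib]
          exact Finset.sum_congr rfl fun k _ => by ring
        rw [this]; ring
      rw [this, e1, e2]; ring
    simp only [Matrix.vecMul, dotProduct, Xm_apply, Pi.zero_apply]
    have e4 : ∑ k, g (Fin.succ k) * ((p i * b k (J l) - p (J l) * b k i) / p i ^ 2) =
        (∑ k, g k.succ * (p i * b k (J l) - p (J l) * b k i)) / p i ^ 2 := by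
      rw [Finset.sum_div]
      exact Finset.sum_congr rfl fun k _ => by rw [mul_div_assoc]
    rw [e4, e3, zero_div]
  have h2 : (fun k : Fin n => g k.succ) = 0 := by
    have hinj := Matrix.vecMul_injective_iff_isUnit.2
      ((Matrix.isUnit_iff_isUnit_det _).2 (isUnit_iff_ne_zero.2 h))
    exact hinj (by simpa using h1)
  have h3 : ∀ k : Fin n, g k.succ = 0 := fun k => congrFun h2 k
  have h4 : g 0 = 0 := by
    have e1 := congrFun hg i
    simp only [Pi.add_apply, Pi.smul_apply, smul_eq_mul, Finset.sum_apply, Pi.zero_apply, h3,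
      zero_mul, Finset.sum_const_zero, add_zero] at e1
    exact (mul_eq_zero.1 e1).resolve_right hi
  intro k
  exact Fin.cases h4 h3 k

/-- the chart frame is a frame -/
theorem DD_chart_pos {p₀ : EE N} (c : ConeChart I n p₀) {z : CC n}
    (hz : z ∈ Metric.ball (0 : CC n) c.R) : 0 < DD (c.σ z) (dσ c z) := by
  rw [DD_pos_iff (c.σ_cone z hz).2]
  refine linearIndependent_of_Xm (i := c.i) (J := c.J) (HolSec_307.σ_i_ne c hz) ?_
  rw [Xm_dσ c hz, Matrix.det_one]
  exact one_ne_zero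

theorem TanFam.smul' (hX : IsSmoothProjective I n) {p : EE N} {b : Fin n → EE N}
    (hb : TanFam I p b) {c : ℂ} (hc : c ≠ 0) : TanFam I (c • p) (fun k => c • b k) := by
  intro k
  rw [Tan_smul hX p hc]
  exact Submodule.smul_mem _ _ (hb k)

theorem TanFam.mix (hX : IsSmoothProjective I n) {p : EE N} (hp : p ∈ Cone I) {b : Fin n → EE N}
    (hb : TanFam I p b) (M : Matrix (Fin n) (Fin n) ℂ) (r : Fin n → ℂ) :
    TanFam I p (fun i => (∑ k, M i k • b k) + r i • p) := fun i =>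
  Submodule.add_mem _ (Submodule.sum_mem _ fun k _ => Submodule.smul_mem _ _ (hb k))
    (Submodule.smul_mem _ _ (self_mem_Tan hX hp.1))

/-- every cone point has a tangent frame -/
theorem exists_frame (hI : I.IsPrime) (hX : IsSmoothProjective I n) {p : EE N} (hp : p ∈ Cone I) :
    ∃ b : Fin n → EE N, TanFam I p b ∧ 0 < DD p b := by
  obtain ⟨c⟩ := Chart_632.chartStmt N n I hI hX p hp
  obtain ⟨hz, hpe⟩ := c.surj p hp c.mem_W
  have hpi : p c.i ≠ 0 := c.p₀_ne
  have h1 : TanFam I (c.σ (ratio c.i c.J p p)) (dσ c (ratio c.i c.J p p)) := fun k => dσ_mem c hz k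
  have h2 := DD_chart_pos c hz
  rw [← DD_smul hpi] at h2
  have h3 := TanFam.smul' hX h1 hpi
  rw [← hpe] at h2 h3
  exact ⟨_, h3, h2⟩

/-! ### the norm function -/

open Classical in
/-- squared norm of the section: `|S p b|² |p|^(-2j) / DD p b ^ m` for any tangent frame `b` -/
def hs (I : Ideal (HomCoordRing N)) (n m : ℕ) (j : ℤ) (S : EE N → (Fin n → EE N) → ℂ)
    (p : EE N) : ℝ :=
  if h : ∃ b : Fin n → EE N, TanFam I p b ∧ 0 < DD p b then
    ‖S p h.choose‖ ^ 2 * nsq p ^ (-j) / DD p h.choose ^ m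
  else 0

theorem hs_eq (hX : IsSmoothProjective I n) (h : HolSec I n m j S) {p : EE N} (hp : p ∈ Cone I)
    {b : Fin n → EE N} (hb : TanFam I p b) (hD : 0 < DD p b) :
    hs I n m j S p = ‖S p b‖ ^ 2 * nsq p ^ (-j) / DD p b ^ m := by
  have hex : ∃ b : Fin n → EE N, TanFam I p b ∧ 0 < DD p b := ⟨b, hb, hD⟩
  unfold hs
  rw [dif_pos hex]
  obtain ⟨hb', hD'⟩ := hex.choose_spec
  set b' := hex.choose
  obtain ⟨M, r, hM⟩ := exists_comb hX hp hb hD hb'
  have e1 := h.mix p hp b hb M r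
  rw [← hM] at e1
  have e2 := DD_mix p b M r
  rw [← hM] at e2
  have hM0 : M.det ≠ 0 := by
    intro h0
    rw [h0] at e2
    simp only [norm_zero, ne_eq, OfNat.ofNat_ne_zero, not_false_eq_true, zero_pow, zero_mul] at e2
    exact hD'.ne' e2
  rw [e1, e2, norm_mul, norm_pow]
  have hn : 0 < ‖M.det‖ := norm_pos_iff.2 hM0
  have e3 : (‖M.det‖ ^ m * ‖S p b‖) ^ 2 * nsq p ^ (-j) =
      (‖M.det‖ ^ 2) ^ m * (‖S p b‖ ^ 2 * nsq p ^ (-j)) := by
    rw [mul_pow, ← pow_mul, ← pow_mul, mul_comm m 2]; ring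
  rw [e3, mul_pow, mul_div_mul_left _ _ (by positivity)]

/-- `‖S p b‖² = hs p · |p|^(2j) · DD p b ^ m` for EVERY tangent family (also dependent ones) -/
theorem sq_norm_eq (hI : I.IsPrime) (hX : IsSmoothProjective I n) (h : HolSec I n m j S) {p : EE N}
    (hp : p ∈ Cone I) {b : Fin n → EE N} (hb : TanFam I p b) :
    ‖S p b‖ ^ 2 = hs I n m j S p * nsq p ^ j * DD p b ^ m := by
  obtain ⟨b₀, hb₀, hD₀⟩ := exists_frame hI hX hp
  obtain ⟨M, r, hM⟩ := exists_comb hX hp hb₀ hD₀ hb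
  have e1 := h.mix p hp b₀ hb₀ M r
  rw [← hM] at e1
  have e2 := DD_mix p b₀ M r
  rw [← hM] at e2
  have hn := nsq_pos hp.2
  rw [hs_eq hX h hp hb₀ hD₀, e1, e2, norm_mul, norm_pow, zpow_neg]
  have h1 : nsq p ^ j ≠ 0 := (zpow_pos hn j).ne'
  have h2 : DD p b₀ ^ m ≠ 0 := (pow_pos hD₀ m).ne'
  field_simp
  ring

theorem hs_nonneg (p : EE N) : 0 ≤ hs I n m j S p := by
  unfold hs
  split_ifs with h
  · exact div_nonneg (mul_nonneg (sq_nonneg _) (zpow_nonneg (nsq_nonneg p) _))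
      (pow_nonneg (DD_nonneg _ _) _)
  · exact le_rfl

theorem hs_smul (hI : I.IsPrime) (hX : IsSmoothProjective I n) (h : HolSec I n m j S) {p : EE N}
    (hp : p ∈ Cone I) {c : ℂ} (hc : c ≠ 0) : hs I n m j S (c • p) = hs I n m j S p := by
  obtain ⟨b, hb, hD⟩ := exists_frame hI hX hp
  have hp' := smul_mem_Cone hX hp hc
  rw [hs_eq hX h hp hb hD, hs_eq hX h hp' (TanFam.smul' hX hb hc) (by rw [DD_smul hc]; exact hD),
    DD_smul hc, h.hom p hp b hb c hc, norm_mul, nsq_smul, norm_zpow, mul_zpow]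
  congr 1
  have h1 : (‖c‖ ^ j) ^ 2 * (‖c‖ ^ 2) ^ (-j) = 1 := by
    rw [← zpow_natCast (‖c‖ ^ j) 2, ← zpow_mul, ← zpow_natCast ‖c‖ 2, ← zpow_mul,
      ← zpow_add₀ (norm_ne_zero_iff.2 hc)]
    rw [show j * ((2 : ℕ) : ℤ) + ((2 : ℕ) : ℤ) * -j = 0 by ring, zpow_zero]
  calc (‖c‖ ^ j * ‖S p b‖) ^ 2 * ((‖c‖ ^ 2) ^ (-j) * nsq p ^ (-j))
      = ((‖c‖ ^ j) ^ 2 * (‖c‖ ^ 2) ^ (-j)) * (‖S p b‖ ^ 2 * nsq p ^ (-j)) := by ring
    _ = _ := by rw [h1, one_mul]

/-- the section in a chart -/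
def loc (S : EE N → (Fin n → EE N) → ℂ) {p₀ : EE N} (c : ConeChart I n p₀) (z : CC n) : ℂ :=
  S (c.σ z) (dσ c z)

theorem loc_analyticAt (h : HolSec I n m j S) {p₀ : EE N} (c : ConeChart I n p₀) {z : CC n}
    (hz : z ∈ Metric.ball (0 : CC n) c.R) : AnalyticAt ℂ (loc S c) z :=
  (bun h).chart_analyticAt c hz

theorem hs_chart (hX : IsSmoothProjective I n) (h : HolSec I n m j S) {p₀ : EE N}
    (c : ConeChart I n p₀) {z : CC n} (hz : z ∈ Metric.ball (0 : CC n) c.R) :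
    hs I n m j S (c.σ z) = ‖loc S c z‖ ^ 2 * nsq (c.σ z) ^ (-j) / DD (c.σ z) (dσ c z) ^ m :=
  hs_eq hX h (c.σ_cone z hz) (fun k => dσ_mem c hz k) (DD_chart_pos c hz)

theorem hs_ratio (hI : I.IsPrime) (hX : IsSmoothProjective I n) (h : HolSec I n m j S) {p₀ : EE N}
    (c : ConeChart I n p₀) {q : EE N} (hq : q ∈ Cone I) (hW : q ∈ c.W) :
    hs I n m j S q = hs I n m j S (c.σ (ratio c.i c.J p₀ q)) := by
  obtain ⟨hz, hqe⟩ := c.surj q hq hW
  have h1 := hs_smul hI hX h (c.σ_cone _ hz) (c := q c.i) (c.W_ne q hW)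
  rw [← hqe] at h1
  exact h1

/-- a section evaluated along analytic families is analytic (any source) -/
theorem along (hI : I.IsPrime) (hX : IsSmoothProjective I n) (h : HolSec I n m j S)
    {E : Type*} [NormedAddCommGroup E] [NormedSpace ℂ E] {F : E → EE N} {b : Fin n → E → EE N}
    {z₀ : E} (hF : AnalyticAt ℂ F z₀) (hb : ∀ k, AnalyticAt ℂ (b k) z₀)
    (hev : ∀ᶠ z in 𝓝 z₀, F z ∈ Cone I ∧ TanFam I (F z) (fun k => b k z)) :
    AnalyticAt ℂ (fun z => S (F z) (fun k => b k z)) z₀ := by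
  obtain ⟨c⟩ := Chart_632.chartStmt N n I hI hX _ hev.self_of_nhds.1
  have hW := c.mem_W
  obtain ⟨hz, -⟩ := c.surj _ hev.self_of_nhds.1 hW
  have h1 : AnalyticAt ℂ (fun z => val m j c.i c.J (F z₀) (loc S c) (F z) (fun k => b k z)) z₀ :=
    val_analyticAt m j hF hb c.p₀_ne (loc_analyticAt h c hz)
  refine h1.congr ?_
  filter_upwards [hev, hF.continuousAt.preimage_mem_nhds (c.W_open.mem_nhds hW)] with z hz1 hz2
  exact ((bun h).local_formula hX c hz1.1 hz2 hz1.2).symm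

/-! ### smoothness -/

theorem contDiffAt_wedgeSq {E : Type*} [NormedAddCommGroup E] [NormedSpace ℝ E] {k : ℕ}
    {w : Fin k → E → EE N} {z : E} (hw : ∀ i l, ContDiffAt ℝ ∞ (fun y => w i y l) z) :
    ContDiffAt ℝ ∞ (fun y => wedgeSq (fun i => w i y)) z := by
  unfold wedgeSq
  have h1 : ContDiffAt ℝ ∞ (fun y => (Matrix.of fun a b : Fin k =>
      ∑ l, w a y l * conj (w b y l)).det) z := by
    simp only [Matrix.det_apply]
    refine ContDiffAt.sum fun σ _ => ?_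
    refine ContDiffAt.const_smul _ ?_
    refine contDiffAt_prod fun a _ => ?_
    simp only [Matrix.of_apply]
    refine ContDiffAt.sum fun l _ => ?_
    exact (hw _ l).mul (Complex.conjCLE.contDiff.contDiffAt.comp z (hw _ l))
  exact Complex.reCLM.contDiff.contDiffAt.comp z h1

theorem contDiffAt_nsq {E : Type*} [NormedAddCommGroup E] [NormedSpace ℝ E] {F : E → EE N}
    {z : E} (hF : ∀ l, ContDiffAt ℝ ∞ (fun y => F y l) z) :
    ContDiffAt ℝ ∞ (fun y => nsq (F y)) z := by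
  unfold nsq
  exact ContDiffAt.sum fun l _ => (hF l).norm_sq ℝ

theorem contDiffAt_DD {E : Type*} [NormedAddCommGroup E] [NormedSpace ℝ E] {F : E → EE N}
    {b : Fin n → E → EE N} {z : E} (hF : ∀ l, ContDiffAt ℝ ∞ (fun y => F y l) z)
    (hb : ∀ k l, ContDiffAt ℝ ∞ (fun y => b k y l) z) (h0 : F z ≠ 0) :
    ContDiffAt ℝ ∞ (fun y => DD (F y) (fun k => b k y)) z := by
  unfold DD
  refine ContDiffAt.div ?_ ((contDiffAt_nsq hF).pow _) (pow_pos (nsq_pos h0) _).ne'
  have h1 : (fun y => wedgeSq (Fin.cons (F y) (fun k => b k y) : Fin (n + 1) → EE N)) =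
      fun y => wedgeSq (fun i => (Fin.cons F b : Fin (n + 1) → E → EE N) i y) := by
    funext y
    congr 1
    funext i
    refine Fin.cases ?_ (fun i => ?_) i <;> simp
  rw [h1]
  refine contDiffAt_wedgeSq fun i l => ?_
  refine Fin.cases ?_ (fun i => ?_) i
  · simpa using hF l
  · simpa using hb i l

theorem contDiffAt_comp_apply {E : Type*} [NormedAddCommGroup E] [NormedSpace ℂ E] {F : E → EE N}
    {z : E} (hF : AnalyticAt ℂ F z) (l : Fin (N + 1)) : ContDiffAt ℝ ∞ (fun y => F y l) z := by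
  have h1 : AnalyticAt ℂ (fun y => F y l) z := HolSec_307.analyticAt_apply hF l
  exact h1.contDiffAt.restrict_scalars ℝ

/-- `hs` in a chart is smooth -/
theorem contDiffAt_hs_chart (hX : IsSmoothProjective I n) (h : HolSec I n m j S) {p₀ : EE N}
    (c : ConeChart I n p₀) {z : CC n} (hz : z ∈ Metric.ball (0 : CC n) c.R) :
    ContDiffAt ℝ ∞ (fun y => ‖loc S c y‖ ^ 2 * nsq (c.σ y) ^ (-j) / DD (c.σ y) (dσ c y) ^ m) z := by
  have hσ : ∀ l, ContDiffAt ℝ ∞ (fun y => c.σ y l) z := contDiffAt_comp_apply (c.an z hz)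
  have hb : ∀ k l, ContDiffAt ℝ ∞ (fun y => dσ c y k l) z := fun k =>
    contDiffAt_comp_apply (dσ_analyticAt c hz k)
  have h0 := (c.σ_cone z hz).2
  refine ContDiffAt.div ?_ ((contDiffAt_DD hσ hb h0).pow m) (pow_pos (DD_chart_pos c hz) m).ne'
  refine ContDiffAt.mul ?_ ?_
  · exact (((loc_analyticAt h c hz).contDiffAt (n := ∞)).restrict_scalars ℝ).norm_sq ℝ
  · have h1 := contDiffAt_nsq hσ
    rcases j with a | a
    · have e : (fun y => nsq (c.σ y) ^ (-(Int.ofNat a))) = fun y => (nsq (c.σ y) ^ a)⁻¹ := by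
        funext y
        rw [zpow_neg]; rfl
      rw [e]
      exact (h1.pow a).inv (pow_pos (nsq_pos h0) _).ne'
    · have e : (fun y => nsq (c.σ y) ^ (-(Int.negSucc a))) = fun y => (nsq (c.σ y) ^ (a + 1)) := by
        funext y
        rw [Int.neg_negSucc]; norm_cast
      rw [e]
      exact h1.pow _

/-- the norm function is smooth on the cone (up to the choice of the extension) -/
theorem exists_smX (hI : I.IsPrime) (hX : IsSmoothProjective I n) (h : HolSec I n m j S) :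
    ∃ ns, SmX I ns ∧ ∀ p ∈ Cone I, ns p = hs I n m j S p := by
  obtain ⟨u, hu1, hu2⟩ := exists_smooth_of_local (I := I) hX (hs I n m j S)
    (fun p hp c hc => hs_smul hI hX h hp hc) (by
      intro p hp
      obtain ⟨c⟩ := Chart_632.chartStmt N n I hI hX p hp
      have hcont : ContinuousOn (fun q : EE N => ratio c.i c.J p q) c.W := by
        intro q hq
        have : AnalyticAt ℂ (fun q : EE N => ratio c.i c.J p q) q :=
          ratio_analyticAt (F := fun q : EE N => q) analyticAt_id (c.W_ne q hq)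
        exact this.continuousAt.continuousWithinAt
      refine ⟨c.W ∩ (fun q : EE N => ratio c.i c.J p q) ⁻¹' Metric.ball 0 c.R,
        fun q => (fun y => ‖loc S c y‖ ^ 2 * nsq (c.σ y) ^ (-j) / DD (c.σ y) (dσ c y) ^ m)
          (ratio c.i c.J p q), hcont.isOpen_inter_preimage c.W_open Metric.isOpen_ball,
        ⟨c.mem_W, (c.surj p hp c.mem_W).1⟩, ?_, ?_⟩
      · rintro q ⟨hq1, hq2⟩
        have h2 : ContDiffAt ℝ ∞ (fun q : EE N => ratio c.i c.J p q) q := by
          have : AnalyticAt ℂ (fun q : EE N => ratio c.i c.J p q) q :=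
            ratio_analyticAt (F := fun q : EE N => q) analyticAt_id (c.W_ne q hq1)
          exact (this.contDiffAt (n := ∞)).restrict_scalars ℝ
        exact (contDiffAt_hs_chart hX h c hq2).comp q h2
      · rintro q ⟨hq1, hq2⟩ hq3
        rw [hs_ratio hI hX h c hq3 hq1, hs_chart hX h c hq2])
  refine ⟨u, ⟨hu1, ?_⟩, hu2⟩
  intro p hp c hc
  rw [hu2 p hp, hu2 _ (smul_mem_Cone hX hp hc), hs_smul hI hX h hp hc]

/-- a `ℂ^*`-invariant continuous function on the cone is bounded -/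
theorem SmX.bdd (hX : IsSmoothProjective I n) {u : EE N → ℝ} (hu : SmX I u) :
    ∃ B : ℝ, 0 < B ∧ ∀ p ∈ Cone I, |u p| ≤ B := by
  set K := {p : EE N | p ∈ affineCone I ∧ nsq p = 1} with hK
  have hKC : ∀ p ∈ K, p ∈ Cone I := by
    rintro p ⟨h1, h2⟩
    refine ⟨h1, ?_⟩
    rintro rfl
    simp [nsq] at h2
  have hc : ContinuousOn u K := fun p hp => (hu.1 p (hKC p hp)).continuousAt.continuousWithinAt
  obtain ⟨B, hB⟩ := (isCompact_sphereCone (I := I)).exists_bound_of_continuousOn hc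
  refine ⟨max B 1, lt_max_of_lt_right one_pos, fun p hp => ?_⟩
  have hq0 : ((Real.sqrt (nsq p))⁻¹ : ℂ) ≠ 0 := by
    rw [← Complex.ofReal_inv]
    exact Complex.ofReal_ne_zero.2 (inv_ne_zero (Real.sqrt_pos.2 (nsq_pos hp.2)).ne')
  have h1 := hu.2 p hp _ hq0
  rw [← HolSec_307.nrm_eq] at h1
  rw [← h1]
  refine (hB _ ⟨?_, HolSec_307.nsq_nrm hp.2⟩).trans (le_max_left _ _)
  rw [HolSec_307.nrm_eq]
  exact smul_mem_affineCone hX hp.1 _

/-! ### the package for Part 11 -/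

theorem HolSec.csmul (h : HolSec I n m j S) (a : ℂ) : HolSec I n m j (fun p b => a * S p b) where
  hom p hp b hb c hc := by rw [h.hom p hp b hb c hc]; ring
  mix p hp b hb M r := by rw [h.mix p hp b hb M r]; ring
  hol d F b z₀ hF hb hev := analyticAt_const.fun_mul (h.hol d F b z₀ hF hb hev)

theorem hs_csmul (hI : I.IsPrime) (hX : IsSmoothProjective I n) (h : HolSec I n m j S) (a : ℂ)
    {p : EE N} (hp : p ∈ Cone I) :
    hs I n m j (fun p b => a * S p b) p = ‖a‖ ^ 2 * hs I n m j S p := by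
  obtain ⟨b, hb, hD⟩ := exists_frame hI hX hp
  rw [hs_eq hX h hp hb hD, hs_eq hX (HolSec.csmul h a) hp hb hD, norm_mul]
  ring

/-- local lower bound of the norm function: the hypothesis `hloc` of `exists_b` (helper653) -/
theorem hloc (hX : IsSmoothProjective I n) (h : HolSec I n m j S)
    (hne : ∀ p ∈ Cone I, ∃ᶠ q in 𝓝 p, q ∈ Cone I ∧ ∃ b, TanFam I q b ∧ S q b ≠ 0)
    {p : EE N} (hp : p ∈ Cone I) (c : ConeChart I n p) :
    AnalyticAt ℂ (loc S c) 0 ∧ (¬ ∀ᶠ z in 𝓝 (0 : CC n), loc S c z = 0) ∧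
      ∃ C₁ : ℝ, ∀ᶠ z in 𝓝 (0 : CC n), ‖loc S c z‖ ^ 2 ≤ C₁ * hs I n m j S (c.σ z) := by
  have h0 : (0 : CC n) ∈ Metric.ball (0 : CC n) c.R := Metric.mem_ball_self c.R_pos
  refine ⟨loc_analyticAt h c h0, ?_, ?_⟩
  · intro hev
    have hr : ContinuousAt (fun q : EE N => ratio c.i c.J p q) p := by
      have : AnalyticAt ℂ (fun q : EE N => ratio c.i c.J p q) p :=
        ratio_analyticAt (F := fun q : EE N => q) analyticAt_id c.p₀_ne
      exact this.continuousAt
    have hr0 : ratio c.i c.J p p = 0 := by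
      funext k; simp [ratio]
    have hev' : ∀ᶠ q in 𝓝 p, loc S c (ratio c.i c.J p q) = 0 := by
      have h1 := hr.tendsto
      rw [hr0] at h1
      exact h1.eventually hev
    refine hne p hp ?_
    filter_upwards [hev', c.W_open.mem_nhds c.mem_W] with q hq1 hq2
    rintro ⟨hq3, b, hb, hSb⟩
    apply hSb
    have h1 := (bun h).local_formula hX c hq3 hq2 hb
    have h2 : (bun h).chart c (ratio c.i c.J p q) = 0 := hq1
    have h3 : S q b = val m j c.i c.J p ((bun h).chart c) q b := h1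
    rw [h3]
    unfold val
    rw [h2, mul_zero]
  · have hσ : ∀ l, ContDiffAt ℝ ∞ (fun y => c.σ y l) 0 := contDiffAt_comp_apply (c.an 0 h0)
    have hb : ∀ k l, ContDiffAt ℝ ∞ (fun y => dσ c y k l) 0 := fun k =>
      contDiffAt_comp_apply (dσ_analyticAt c h0 k)
    have hne0 := (c.σ_cone 0 h0).2
    have hc1 : ContinuousAt (fun y => DD (c.σ y) (dσ c y) ^ m) 0 :=
      ((contDiffAt_DD hσ hb hne0).pow m).continuousAt
    have hc2 : ContinuousAt (fun y => nsq (c.σ y) ^ j) 0 :=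
      (contDiffAt_nsq hσ).continuousAt.zpow₀ j (Or.inl (nsq_pos hne0).ne')
    have hc3 := hc2.mul hc1
    refine ⟨nsq (c.σ 0) ^ j * DD (c.σ 0) (dσ c 0) ^ m + 1, ?_⟩
    have hlt := hc3.eventually (gt_mem_nhds (lt_add_one _))
    filter_upwards [hlt, Metric.isOpen_ball.mem_nhds h0] with z hz1 hz2
    have h3 : 0 < nsq (c.σ z) ^ j := zpow_pos (nsq_pos (c.σ_cone z hz2).2) j
    have h4 : 0 < DD (c.σ z) (dσ c z) ^ m := pow_pos (DD_chart_pos c hz2) m
    have h5 : ‖loc S c z‖ ^ 2 =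
        (nsq (c.σ z) ^ j * DD (c.σ z) (dσ c z) ^ m) * hs I n m j S (c.σ z) := by
      rw [hs_chart hX h c hz2, zpow_neg]
      field_simp
    rw [h5]
    exact mul_le_mul_of_nonneg_right hz1.le (hs_nonneg _)

/-- THE PACKAGE FOR PART 11 -/
theorem bigNorm (hI : I.IsPrime) (hX : IsSmoothProjective I n) (hBig : BigP I n) :
    ∃ m : ℕ, 1 ≤ m ∧ ∃ S, HolSec I n m (-1) S ∧ ∃ ns : EE N → ℝ, SmX I ns ∧
      (∀ p ∈ Cone I, 0 ≤ ns p ∧ ns p ≤ 1) ∧
      (∀ p ∈ Cone I, ∀ b : Fin n → EE N, TanFam I p b →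
        ‖S p b‖ ^ 2 * nsq p = ns p * DD p b ^ m) ∧
      (∀ p ∈ Cone I, ∃ᶠ q in 𝓝 p, q ∈ Cone I ∧ ns q ≠ 0) ∧
      ∀ p ∈ Cone I, ∀ C : ConeChart I n p, ∃ s : CC n → ℂ, AnalyticAt ℂ s 0 ∧
        (¬ ∀ᶠ z in 𝓝 (0 : CC n), s z = 0) ∧
        ∃ C₁ : ℝ, ∀ᶠ z in 𝓝 (0 : CC n), ‖s z‖ ^ 2 ≤ C₁ * ns (C.σ z) := by
  obtain ⟨m, hm, S, hS, hne⟩ := hBig
  obtain ⟨ns, hns, hnsE⟩ := exists_smX hI hX hS
  obtain ⟨B, hB0, hB⟩ := SmX.bdd hX hns
  set a : ℂ := (((Real.sqrt B)⁻¹ : ℝ) : ℂ) with ha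
  have ha0 : 0 < (Real.sqrt B)⁻¹ := inv_pos.2 (Real.sqrt_pos.2 hB0)
  have ha1 : ‖a‖ ^ 2 = B⁻¹ := by
    rw [ha, Complex.norm_real, Real.norm_of_nonneg ha0.le, inv_pow, Real.sq_sqrt hB0.le]
  have hane : a ≠ 0 := Complex.ofReal_ne_zero.2 ha0.ne'
  have hS' := HolSec.csmul hS a
  have hnsE' : ∀ p ∈ Cone I, B⁻¹ * ns p = hs I n m (-1) (fun p b => a * S p b) p := by
    intro p hp
    rw [hs_csmul hI hX hS a hp, ha1, hnsE p hp]
  have hne' : ∀ p ∈ Cone I, ∃ᶠ q in 𝓝 p, q ∈ Cone I ∧ ∃ b, TanFam I q b ∧ a * S q b ≠ 0 := by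
    intro p hp
    refine (hne p hp).mono ?_
    rintro q ⟨hq, b, hb, hSb⟩
    exact ⟨hq, b, hb, mul_ne_zero hane hSb⟩
  refine ⟨m, hm, _, hS', fun p => B⁻¹ * ns p, ⟨fun p hp => contDiffAt_const.mul (hns.1 p hp),
    fun p hp c hc => by simp only [hns.2 p hp c hc]⟩, ?_, ?_, ?_, ?_⟩
  · intro p hp
    constructor
    · simp only [hnsE' p hp]
      exact hs_nonneg p
    · have := (abs_le.1 (hB p hp)).2
      calc B⁻¹ * ns p ≤ B⁻¹ * B := by gcongr
        _ = 1 := inv_mul_cancel₀ hB0.ne'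
  · intro p hp b hb
    have h1 := sq_norm_eq hI hX hS' hp hb
    simp only [hnsE' p hp]
    rw [h1]
    have hn := (nsq_pos hp.2).ne'
    rw [zpow_neg_one]
    field_simp
  · intro p hp
    refine (hne' p hp).mono ?_
    rintro q ⟨hq, b, hb, hSb⟩
    refine ⟨hq, ?_⟩
    simp only [hnsE' q hq]
    intro h0
    have h1 := sq_norm_eq hI hX hS' hq hb
    rw [h0, zero_mul, zero_mul] at h1
    exact hSb (norm_eq_zero.1 (pow_eq_zero_iff two_ne_zero |>.1 h1))
  · intro p hp C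
    obtain ⟨h1, h2, C₁, h3⟩ := hloc hX hS' hne' hp C
    refine ⟨_, h1, h2, C₁, ?_⟩
    have h0 : (0 : CC n) ∈ Metric.ball (0 : CC n) C.R := Metric.mem_ball_self C.R_pos
    filter_upwards [h3, Metric.isOpen_ball.mem_nhds h0] with z hz hz2
    simp only [hnsE' _ (C.σ_cone z hz2)]
    exact hz

end

end Crest.Agent.R269.Sec_669
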