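import Crest.Agent.R269.PHol_173
/-
R269 L6 (helper173).  A continuous nowhere zero section of the tautological line over the closed disc
(idea: helper839) and a polynomial vector field `v` with `v^T F conj v ≠ 0` on the circle.
-/
set_option autoImplicit false

open Metric Set Filter Topology Complex
open scoped ComplexConjugate

noncomputable section

namespace Crest.Agent.R269.PHol_173

/-! ### Laurent polynomials are dense on the circle -/

lemma exists_poly_of_span {f : C(AddCircle (2 * Real.pi), ℂ)}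
    (hf : f ∈ Submodule.span ℂ (range (@fourier (2 * Real.pi)))) :
    ∃ (M : ℕ) (P : Polynomial ℂ), ∀ x : AddCircle (2 * Real.pi),
      P.eval (x.toCircle : ℂ) = (x.toCircle : ℂ) ^ M * f x := by
  induction hf using Submodule.span_induction with
  | mem f hf =>
    obtain ⟨n, rfl⟩ := hf
    obtain ⟨k, rfl | rfl⟩ := n.eq_nat_or_neg
    · refine ⟨0, Polynomial.X ^ k, fun x => ?_⟩
      simp [fourier_apply, AddCircle.toCircle_nsmul]
    · refine ⟨k, 1, fun x => ?_⟩
      have h0 : (x.toCircle : ℂ) ≠ 0 := Circle.coe_ne_zero _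
      simp [fourier_apply, AddCircle.toCircle_nsmul, AddCircle.toCircle_neg]
  | zero => exact ⟨0, 0, fun x => by simp⟩
  | add f g _ _ hf hg =>
    obtain ⟨M, P, hP⟩ := hf
    obtain ⟨M', P', hP'⟩ := hg
    refine ⟨M + M', Polynomial.X ^ M' * P + Polynomial.X ^ M * P', fun x => ?_⟩
    simp only [Polynomial.eval_add, Polynomial.eval_mul, Polynomial.eval_pow, Polynomial.eval_X,
      hP, hP', ContinuousMap.add_apply]
    ring
  | smul c f _ hf =>
    obtain ⟨M, P, hP⟩ := hf
    refine ⟨M, Polynomial.C c * P, fun x => ?_⟩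
    simp only [Polynomial.eval_mul, Polynomial.eval_C, hP, ContinuousMap.smul_apply, smul_eq_mul]
    ring

/-- continuous functions on the circle are approximated by `z^{-M} P(z)` -/
theorem exists_poly_approx {g : ℂ → ℂ} (hg : ContinuousOn g (sphere 0 1)) {ε : ℝ} (hε : 0 < ε) :
    ∃ (M : ℕ) (P : Polynomial ℂ), ∀ z ∈ sphere (0 : ℂ) 1, ‖P.eval z - z ^ M * g z‖ < ε := by
  have : Fact (0 < 2 * Real.pi) := ⟨Real.two_pi_pos⟩
  have hcont : Continuous fun x : AddCircle (2 * Real.pi) => g (x.toCircle : ℂ) := by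
    refine hg.comp_continuous (continuous_induced_dom.comp AddCircle.continuous_toCircle) ?_
    intro x
    rw [mem_sphere_zero_iff_norm]
    exact Circle.norm_coe _
  let G : C(AddCircle (2 * Real.pi), ℂ) := ⟨_, hcont⟩
  have hmem : G ∈ closure ((Submodule.span ℂ (range (@fourier (2 * Real.pi))) :
      Submodule ℂ C(AddCircle (2 * Real.pi), ℂ)) : Set C(AddCircle (2 * Real.pi), ℂ)) := by
    rw [← Submodule.topologicalClosure_coe, span_fourier_closure_eq_top]
    trivial
  obtain ⟨f, hf, hfG⟩ := Metric.mem_closure_iff.1 hmem ε hε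
  obtain ⟨M, P, hP⟩ := exists_poly_of_span hf
  refine ⟨M, P, fun z hz => ?_⟩
  have hz1 : ‖z‖ = 1 := by simpa using hz
  let zc : Circle := ⟨z, by simpa [Submonoid.unitSphere] using hz1⟩
  obtain ⟨x, hx⟩ := (AddCircle.homeomorphCircle Real.two_pi_pos.ne').surjective zc
  rw [AddCircle.homeomorphCircle_apply] at hx
  have hxz : (x.toCircle : ℂ) = z := by rw [hx]
  have h1 := hP x
  rw [hxz] at h1
  rw [h1, ← mul_sub, norm_mul, norm_pow, hz1, one_pow, one_mul]
  have h2 : ‖f x - G x‖ ≤ ‖f - G‖ := by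
    have := (f - G).norm_coe_le_norm x
    simpa using this
  have h3 : G x = g z := by show g (x.toCircle : ℂ) = g z; rw [hxz]
  rw [← h3]
  refine h2.trans_lt ?_
  rwa [← dist_eq_norm, dist_comm]

variable {ι : Type*} [Fintype ι]

/-- matrix times vector -/
def act (A : ι → ι → ℂ) (w : ι → ℂ) : ι → ℂ := fun k => ∑ l, A k l * w l

lemma act_prj (p w : ι → ℂ) : act (prj p) w = ((∑ l, conj (p l) * w l) / (nsq p : ℂ)) • p := by
  funext k
  simp only [act, prj, Pi.smul_apply, smul_eq_mul, Finset.sum_div, Finset.sum_mul]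
  refine Finset.sum_congr rfl fun l _ => ?_
  ring

lemma act_prj_self {p : ι → ℂ} (hp : p ≠ 0) : act (prj p) p = p := by
  rw [act_prj]
  have : ∑ l, conj (p l) * p l = (nsq p : ℂ) := by
    rw [← sum_mul_conj]; exact Finset.sum_congr rfl fun l _ => mul_comm _ _
  rw [this, div_self (nsq_ne hp), one_smul]

lemma act_smul (A : ι → ι → ℂ) (c : ℂ) (w : ι → ℂ) : act A (c • w) = c • act A w := by
  funext k
  simp only [act, Pi.smul_apply, smul_eq_mul, Finset.mul_sum]
  exact Finset.sum_congr rfl fun l _ => by ring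

lemma act_sub (A B : ι → ι → ℂ) (w : ι → ℂ) : act A w - act B w = act (A - B) w := by
  funext k
  simp only [act, Pi.sub_apply, sub_mul, Finset.sum_sub_distrib]

lemma norm_act_le (A : ι → ι → ℂ) (w : ι → ℂ) : ‖act A w‖ ≤ Fintype.card ι * ‖A‖ * ‖w‖ := by
  refine (pi_norm_le_iff_of_nonneg (by positivity)).2 fun k => ?_
  refine (norm_sum_le _ _).trans ?_
  have : ∀ l ∈ (Finset.univ : Finset ι), ‖A k l * w l‖ ≤ ‖A‖ * ‖w‖ := by
    intro l _
    rw [norm_mul]
    exact mul_le_mul ((norm_le_pi_norm (A k) l).trans (norm_le_pi_norm A k))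
      (norm_le_pi_norm w l) (norm_nonneg _) (norm_nonneg _)
  refine (Finset.sum_le_card_nsmul _ _ _ this).trans ?_
  rw [nsmul_eq_mul, Finset.card_univ]
  exact le_of_eq (by ring)

lemma IsRP.act_act {A : ι → ι → ℂ} (h : IsRP A) (w : ι → ℂ) : act A (act A w) = act A w := by
  obtain ⟨p, hp, rfl⟩ := h.exists_prj
  rw [act_prj p w, act_smul, act_prj_self hp]

/-- a nonzero vector in the range determines the projector -/
lemma IsRP.eq_prj_of_act {A : ι → ι → ℂ} (h : IsRP A) {w : ι → ℂ} (hw : act A w = w)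
    (h0 : w ≠ 0) : A = prj w := by
  obtain ⟨p, hp, rfl⟩ := h.exists_prj
  rw [act_prj] at hw
  set c := (∑ l, conj (p l) * w l) / (nsq p : ℂ) with hc
  have hc0 : c ≠ 0 := by
    intro h1
    rw [h1, zero_smul] at hw
    exact h0 hw.symm
  rw [← hw, prj_smul hc0]

lemma IsRP.eq_prj_act {A : ι → ι → ℂ} (h : IsRP A) {w : ι → ℂ} (h0 : act A w ≠ 0) :
    A = prj (act A w) := h.eq_prj_of_act (h.act_act w) h0

lemma continuousOn_act {F : ℂ → ι → ι → ℂ} {w : ℂ → ι → ℂ} {s : Set ℂ} (hF : ContinuousOn F s)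
    (hw : ContinuousOn w s) : ContinuousOn (fun z => act (F z) (w z)) s := by
  refine continuousOn_pi.2 fun k => ?_
  refine continuousOn_finsetSum _ fun l _ => ContinuousOn.mul ?_ ?_
  · exact (by fun_prop : Continuous fun A : ι → ι → ℂ => A k l).comp_continuousOn hF
  · exact (continuous_apply l).comp_continuousOn hw

/-- global continuous nowhere zero section over the closed disc (helper839's product) -/
theorem exists_section {F : ℂ → ι → ι → ℂ} (hc : ContinuousOn F (closedBall 0 1))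
    (hrp : ∀ z ∈ closedBall (0 : ℂ) 1, IsRP (F z)) :
    ∃ u : ℂ → ι → ℂ, ContinuousOn u (closedBall 0 1) ∧
      ∀ z ∈ closedBall (0 : ℂ) 1, u z ≠ 0 ∧ act (F z) (u z) = u z := by
  have huc := (isCompact_closedBall (0 : ℂ) 1).uniformContinuousOn_of_continuous hc
  have hn : (0 : ℝ) < 1 / ((Fintype.card ι : ℝ) + 1) := by positivity
  obtain ⟨δ, hδ, hF⟩ := Metric.uniformContinuousOn_iff.1 huc _ hn
  obtain ⟨k, hk⟩ := exists_nat_gt (1 / δ)
  have hk0 : (0 : ℝ) < k := lt_trans (by positivity) hk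
  obtain ⟨p0, hp0, hF0⟩ := (hrp 0 (by simp)).exists_prj
  let U : ℕ → ℂ → ι → ℂ := fun j => Nat.rec (fun _ => p0)
    (fun j W z => act (F (((j + 1 : ℕ) : ℝ) / k * z)) (W z)) j
  have U0 : U 0 = fun _ => p0 := rfl
  have US : ∀ j, U (j + 1) = fun z => act (F ((((j + 1 : ℕ) : ℝ) / k * z : ℂ))) (U j z) := by
    intro j
    rfl
  have hin : ∀ j ≤ k, ∀ z ∈ closedBall (0 : ℂ) 1, (((j : ℝ) / k : ℂ) * z) ∈ closedBall (0 : ℂ) 1 := by
    intro j hj z hz
    rw [mem_closedBall_zero_iff] at hz ⊢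
    rw [norm_mul]
    have h1 : ‖((j : ℝ) / k : ℂ)‖ ≤ 1 := by
      rw [norm_div, Complex.norm_real, Complex.norm_natCast, Real.norm_of_nonneg (Nat.cast_nonneg _),
        div_le_one hk0]
      exact_mod_cast hj
    calc ‖((j : ℝ) / k : ℂ)‖ * ‖z‖ ≤ 1 * 1 := mul_le_mul h1 hz (norm_nonneg _) zero_le_one
      _ = 1 := one_mul 1
  have main : ∀ j, j ≤ k → ContinuousOn (U j) (closedBall 0 1) ∧
      ∀ z ∈ closedBall (0 : ℂ) 1, U j z ≠ 0 ∧ act (F (((j : ℝ) / k : ℂ) * z)) (U j z) = U j z := by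
    intro j
    induction j with
    | zero =>
      intro _
      refine ⟨by rw [U0]; exact continuousOn_const, fun z _ => ⟨by rw [U0]; exact hp0, ?_⟩⟩
      rw [U0]
      simp only [Nat.cast_zero, Complex.ofReal_zero, zero_div, zero_mul]
      rw [hF0, act_prj_self hp0]
    | succ j ih =>
      intro hj
      obtain ⟨ih1, ih2⟩ := ih (Nat.le_of_succ_le hj)
      have hmaps : MapsTo (fun z : ℂ => ((((j + 1 : ℕ) : ℝ) / k : ℂ) * z)) (closedBall 0 1)
          (closedBall 0 1) := fun z hz => hin (j + 1) hj z hz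
      refine ⟨?_, fun z hz => ?_⟩
      · rw [US]
        exact continuousOn_act (hc.comp (by fun_prop) hmaps) ih1
      · obtain ⟨h1, h2⟩ := ih2 z hz
        have hA := hin j (Nat.le_of_succ_le hj) z hz
        have hB := hin (j + 1) hj z hz
        have hUS : U (j + 1) z = act (F ((((j + 1 : ℕ) : ℝ) / k : ℂ) * z)) (U j z) := by rw [US]
        refine ⟨?_, ?_⟩
        · rw [hUS]
          intro h0
          have hdist : dist (((j : ℝ) / k : ℂ) * z) ((((j + 1 : ℕ) : ℝ) / k : ℂ) * z) < δ := by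
            rw [dist_eq_norm, ← sub_mul, norm_mul]
            have e1 : ((j : ℝ) / k : ℂ) - (((j + 1 : ℕ) : ℝ) / k : ℂ) = -(1 / (k : ℝ) : ℝ) := by
              push_cast
              ring
            rw [e1, norm_neg, Complex.norm_real, Real.norm_of_nonneg (by positivity)]
            rw [mem_closedBall_zero_iff] at hz
            have e2 : 1 / (k : ℝ) < δ := by
              rw [div_lt_iff₀ hk0]
              rw [div_lt_iff₀ hδ] at hk
              linarith
            calc 1 / (k : ℝ) * ‖z‖ ≤ 1 / (k : ℝ) * 1 :=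
                  mul_le_mul_of_nonneg_left hz (by positivity)
              _ < δ := by rwa [mul_one]
          have h3 := hF _ hA _ hB hdist
          rw [dist_eq_norm] at h3
          have h4 : U j z = act (F (((j : ℝ) / k : ℂ) * z) - F ((((j + 1 : ℕ) : ℝ) / k : ℂ) * z)) (U j z) := by
            rw [← act_sub, h0, sub_zero, h2]
          have h5 := norm_act_le (F (((j : ℝ) / k : ℂ) * z) - F ((((j + 1 : ℕ) : ℝ) / k : ℂ) * z)) (U j z)
          rw [← h4] at h5
          have h6 : 0 < ‖U j z‖ := norm_pos_iff.2 h1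
          have h7 : (Fintype.card ι : ℝ) * ‖F (((j : ℝ) / k : ℂ) * z) - F ((((j + 1 : ℕ) : ℝ) / k : ℂ) * z)‖ < 1 := by
            have hc' : (0 : ℝ) ≤ Fintype.card ι := Nat.cast_nonneg _
            calc (Fintype.card ι : ℝ) * ‖F (((j : ℝ) / k : ℂ) * z) - F ((((j + 1 : ℕ) : ℝ) / k : ℂ) * z)‖
                ≤ Fintype.card ι * (1 / ((Fintype.card ι : ℝ) + 1)) :=
                  mul_le_mul_of_nonneg_left h3.le hc'
              _ < 1 := by rw [mul_one_div, div_lt_one (by positivity)]; linarith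
          nlinarith
        · rw [hUS]
          exact (hrp _ hB).act_act _
  obtain ⟨h1, h2⟩ := main k le_rfl
  refine ⟨U k, h1, fun z hz => ⟨(h2 z hz).1, ?_⟩⟩
  have h3 := (h2 z hz).2
  have h4 : (((k : ℕ) : ℝ) / k : ℂ) * z = z := by
    have : ((k : ℝ) : ℂ) ≠ 0 := by exact_mod_cast hk0.ne'
    have h5 : ((k : ℕ) : ℂ) = ((k : ℝ) : ℂ) := by push_cast; rfl
    rw [← h5] at this ⊢
    rw [div_self this, one_mul]
  rwa [h4] at h3

/-- `v^T A conj v` -/
def quad (A : ι → ι → ℂ) (v : ι → ℂ) : ℂ := ∑ k, v k * act A (fun l => conj (v l)) k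

lemma quad_prj (p v : ι → ℂ) :
    quad (prj p) v = ((∑ l, v l * p l) * conj (∑ l, v l * p l)) / (nsq p : ℂ) := by
  simp only [quad, act_prj, Pi.smul_apply, smul_eq_mul, map_sum, map_mul]
  have this : (∑ l, conj (p l) * conj (v l) : ℂ) = (∑ l, conj (v l) * conj (p l) : ℂ) :=
    Finset.sum_congr rfl fun l _ => mul_comm (conj (p l)) (conj (v l))
  rw [this]
  have h2 : ∀ (S : ℂ), ∑ k, v k * (S / (nsq p : ℂ) * p k) = (∑ k, v k * p k) * S / (nsq p : ℂ) := by
    intro S
    rw [Finset.sum_mul, Finset.sum_div]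
    exact Finset.sum_congr rfl fun k _ => by ring
  exact h2 _

lemma quad_ne_iff {p : ι → ℂ} (hp : p ≠ 0) (v : ι → ℂ) :
    quad (prj p) v ≠ 0 ↔ ∑ l, v l * p l ≠ 0 := by
  rw [quad_prj]
  constructor
  · intro h hc
    rw [hc] at h
    simp at h
  · intro h
    exact div_ne_zero (mul_ne_zero h ((map_ne_zero _).2 h)) (nsq_ne hp)

/-- a polynomial vector `v` with `v^T F conj v ≠ 0` on the circle -/
theorem exists_polyVec {F : ℂ → ι → ι → ℂ} (hc : ContinuousOn F (closedBall 0 1))
    (hrp : ∀ z ∈ closedBall (0 : ℂ) 1, IsRP (F z)) :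
    ∃ v : ι → Polynomial ℂ, ∀ z ∈ sphere (0 : ℂ) 1, quad (F z) (fun i => (v i).eval z) ≠ 0 := by
  obtain ⟨u, huc, hu⟩ := exists_section hc hrp
  have hsub : sphere (0 : ℂ) 1 ⊆ closedBall 0 1 := sphere_subset_closedBall
  have hcs := huc.mono hsub
  have hne : (sphere (0 : ℂ) 1).Nonempty := ⟨1, by simp⟩
  -- lower bound for |u|^2
  have hnsq : ContinuousOn (fun z => nsq (u z)) (sphere 0 1) := by
    simp only [nsq]
    exact continuousOn_finsetSum _ fun k _ => ((continuous_apply k).comp_continuousOn hcs).norm.pow 2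
  obtain ⟨z1, hz1, hmin⟩ := (isCompact_sphere (0 : ℂ) 1).exists_isMinOn hne hnsq
  set m := nsq (u z1) with hm
  have hmpos : 0 < m := nsq_pos (hu z1 (hsub hz1)).1
  obtain ⟨B, hB⟩ := (isCompact_sphere (0 : ℂ) 1).exists_bound_of_continuousOn hcs
  have hB0 : 0 ≤ B := (norm_nonneg _).trans (hB z1 hz1)
  set ε := m / ((Fintype.card ι + 1) * (B + 1)) with hε
  have hεpos : 0 < ε := by positivity
  have happ : ∀ i, ∃ (M : ℕ) (P : Polynomial ℂ), ∀ z ∈ sphere (0 : ℂ) 1,
      ‖P.eval z - z ^ M * conj (u z i)‖ < ε := by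
    intro i
    exact exists_poly_approx
      (Complex.continuous_conj.comp_continuousOn ((continuous_apply i).comp_continuousOn hcs)) hεpos
  choose M P hP using happ
  refine ⟨fun i => Polynomial.X ^ (∑ j, M j - M i) * P i, fun z hz => ?_⟩
  have hz1' : ‖z‖ = 1 := by simpa using hz
  obtain ⟨hu0, hua⟩ := hu z (hsub hz)
  have hFz : F z = prj (u z) := (hrp z (hsub hz)).eq_prj_of_act hua hu0
  rw [hFz, quad_ne_iff hu0]
  intro hzero
  have hle : ∀ i, M i ≤ ∑ j, M j := fun i => Finset.single_le_sum (fun _ _ => Nat.zero_le _)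
    (Finset.mem_univ i)
  have hi : ∀ i, ‖(Polynomial.X ^ (∑ j, M j - M i) * P i).eval z - z ^ (∑ j, M j) * conj (u z i)‖ ≤ ε := by
    intro i
    have e1 : z ^ (∑ j, M j) = z ^ (∑ j, M j - M i) * z ^ M i := by
      rw [← pow_add, Nat.sub_add_cancel (hle i)]
    rw [Polynomial.eval_mul, Polynomial.eval_pow, Polynomial.eval_X, e1, mul_assoc, ← mul_sub,
      norm_mul, norm_pow, hz1', one_pow, one_mul]
    exact (hP i z hz).le
  have hdiff : ‖∑ i, ((Polynomial.X ^ (∑ j, M j - M i) * P i).eval z * u z i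
      - z ^ (∑ j, M j) * conj (u z i) * u z i)‖ ≤ Fintype.card ι * (ε * B) := by
    refine (norm_sum_le _ _).trans ?_
    have : ∀ i ∈ (Finset.univ : Finset ι), ‖(Polynomial.X ^ (∑ j, M j - M i) * P i).eval z * u z i
      - z ^ (∑ j, M j) * conj (u z i) * u z i‖ ≤ ε * B := by
      intro i _
      rw [← sub_mul, norm_mul]
      exact mul_le_mul (hi i) ((norm_le_pi_norm (u z) i).trans (hB z hz)) (norm_nonneg _) hεpos.le
    refine (Finset.sum_le_card_nsmul _ _ _ this).trans ?_
    rw [nsmul_eq_mul, Finset.card_univ]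
  rw [Finset.sum_sub_distrib, hzero, zero_sub, norm_neg] at hdiff
  have hsum : ∑ i, z ^ (∑ j, M j) * conj (u z i) * u z i = z ^ (∑ j, M j) * (nsq (u z) : ℂ) := by
    rw [← sum_mul_conj, Finset.mul_sum]
    exact Finset.sum_congr rfl fun l _ => by ring
  rw [hsum, norm_mul, norm_pow, hz1', one_pow, one_mul, Complex.norm_real,
    Real.norm_of_nonneg (nsq_nonneg _)] at hdiff
  have hmle : m ≤ nsq (u z) := hmin hz
  have hfin : (Fintype.card ι : ℝ) * (ε * B) < m := by
    have hcB : (Fintype.card ι : ℝ) * B < (Fintype.card ι + 1) * (B + 1) := by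
      have : (0 : ℝ) ≤ Fintype.card ι := Nat.cast_nonneg _
      nlinarith
    calc (Fintype.card ι : ℝ) * (ε * B) = m * ((Fintype.card ι * B) / ((Fintype.card ι + 1) * (B + 1))) := by
          rw [hε]; ring
      _ < m * 1 := by
          refine mul_lt_mul_of_pos_left ?_ hmpos
          rw [div_lt_one (by positivity)]
          exact hcB
      _ = m := mul_one m
  linarith

end Crest.Agent.R269.PHol_173

end
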