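import Crest.Prelude.Def_ProjPluricanonical
import Crest.Agent.R269.Brody4_164

/-!
# R269, stationary route (#1368), step (1): compactness and existence of maximisers (helper528)
-/

set_option autoImplicit false

open Set Filter Topology Metric Complex
open scoped ComplexConjugate Real

noncomputable section

namespace Crest.Agent.R269.StCpt_528

open Crest.Agent.R264 (montel_ultra hurwitz_ne_zero tlu_fderiv tlu_of_pointwise)
open Crest.Agent.R269.Brody_164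

variable {ι : Type*} [Fintype ι]

/-- discs in the cone `C`, given by a holomorphic lift on the unit disc -/
structure IsDisc (C : Set (ι → ℂ)) (H : ℂ → ι → ℂ) : Prop where
  diff : DifferentiableOn ℂ H (ball 0 1)
  mem : ∀ z ∈ ball (0 : ℂ) 1, H z ∈ C
  ne : ∀ z ∈ ball (0 : ℂ) 1, H z ≠ 0

/-- the Brody bound for the cone `C` (output of `Brody_164.brody`) -/
def BrodyBd (C : Set (ι → ℂ)) (A : ℝ) : Prop :=
  ∀ (H : ℂ → ι → ℂ) (z₀ : ℂ) (r : ℝ), 0 < r → DifferentiableOn ℂ H (ball z₀ r) →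
    (∀ z ∈ ball z₀ r, H z ≠ 0 ∧ H z ∈ C) → r ^ 2 * fsSq (H z₀) (deriv H z₀) ≤ A ^ 2

theorem IsDisc.fsSq_le {C : Set (ι → ℂ)} {A : ℝ} (hB : BrodyBd C A) {H : ℂ → ι → ℂ}
    (hH : IsDisc C H) {s : ℝ} (hs : s < 1) {z : ℂ} (hz : ‖z‖ ≤ s) :
    fsSq (H z) (deriv H z) ≤ A ^ 2 / (1 - s) ^ 2 := by
  have h1 : 0 < 1 - s := by linarith
  have hsub : ball z (1 - s) ⊆ ball (0 : ℂ) 1 := by
    intro w hw
    rw [mem_ball_iff_norm] at hw
    rw [mem_ball_zero_iff]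
    calc ‖w‖ = ‖(w - z) + z‖ := by rw [sub_add_cancel]
      _ ≤ ‖w - z‖ + ‖z‖ := norm_add_le _ _
      _ < 1 := by linarith
  have h2 := hB H z (1 - s) h1 (hH.diff.mono hsub)
    (fun w hw => ⟨hH.ne w (hsub hw), hH.mem w (hsub hw)⟩)
  rw [le_div_iff₀ (by positivity)]
  linarith

theorem nsq_nonzero_of_pos {p : ι → ℂ} (h : 0 < nsq p) : p ≠ 0 := by
  rintro rfl
  simp [nsq] at h

/-- **no zeros in the limit** -/
theorem limit_ne_zero {C : Set (ι → ℂ)} {A : ℝ} (hB : BrodyBd C A) {α : Type*}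
    {u : Ultrafilter α} {Hm : α → ℂ → ι → ℂ} {H : ℂ → ι → ℂ} {c : ℝ} (hc : 0 < c)
    (hd : ∀ m, IsDisc C (Hm m)) (hb : ∀ m, ∀ z ∈ ball (0 : ℂ) 1, nsq (Hm m z) ≤ 1)
    (h0 : ∀ m, c ≤ nsq (Hm m 0))
    (hlim : ∀ z ∈ ball (0 : ℂ) 1, Tendsto (fun m => Hm m z) u (𝓝 (H z))) :
    ∀ z ∈ ball (0 : ℂ) 1, H z ≠ 0 := by
  intro z hz
  rw [mem_ball_zero_iff] at hz
  set s : ℝ := (1 + ‖z‖) / 2 with hs
  have hs0 : 0 < s := by have := norm_nonneg z; rw [hs]; linarith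
  have hs1 : s < 1 := by rw [hs]; linarith
  have hzs : ‖z‖ < s := by rw [hs]; linarith
  set L : ℝ := A ^ 2 / (1 - s) ^ 2 with hL
  have hL0 : 0 ≤ L := by rw [hL]; positivity
  have hsub : closedBall (0 : ℂ) s ⊆ ball 0 1 := closedBall_subset_ball hs1
  have hex : ∀ m, ∃ φ : ℂ → ℂ, Differentiable ℂ φ ∧ ∀ z ∈ closedBall (0 : ℂ) s,
      Real.exp (-1 - (L + 1) * s ^ 2) ≤ nsq (exp (φ z) • Hm m z) ∧
      nsq (exp (φ z) • Hm m z) ≤ Real.exp 1 := fun m =>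
    exists_normalised_lift hs0 hL0 ((hd m).diff.continuousOn.mono hsub)
      ((hd m).diff.mono (ball_subset_closedBall.trans hsub))
      (fun w hw => (hd m).ne w (hsub hw))
      (fun w hw => (hd m).fsSq_le hB hs1 (by
        rw [mem_ball_zero_iff] at hw; exact hw.le))
  choose φ hφ hφ' using hex
  set a : ℝ := Real.exp (-1 - (L + 1) * s ^ 2) with ha
  have ha0 : 0 < a := Real.exp_pos _
  -- `nsq (H_m w) = |exp(-φ)|² nsq (exp φ • H_m w)`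
  have hfac : ∀ m w, nsq (Hm m w) = ‖exp (-(φ m w))‖ ^ 2 * nsq (exp (φ m w) • Hm m w) := by
    intro m w
    rw [← nsq_smul, smul_smul, ← Complex.exp_add, neg_add_cancel, Complex.exp_zero, one_smul]
  have hgb : ∀ m, ∀ w ∈ ball (0 : ℂ) s, ‖exp (-(φ m w))‖ ≤ Real.sqrt (1 / a) := by
    intro m w hw
    have hw' : w ∈ closedBall (0 : ℂ) s := ball_subset_closedBall hw
    apply Real.le_sqrt_of_sq_le
    rw [le_div_iff₀ ha0]
    calc ‖exp (-(φ m w))‖ ^ 2 * a ≤ ‖exp (-(φ m w))‖ ^ 2 * nsq (exp (φ m w) • Hm m w) := by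
          gcongr
          exact (hφ' m w hw').1
      _ = nsq (Hm m w) := (hfac m w).symm
      _ ≤ 1 := hb m w (hsub hw')
  obtain ⟨g, hg, hgd, -⟩ := montel_ultra u (isOpen_ball : IsOpen (ball (0 : ℂ) s))
    (f := fun m w => exp (-(φ m w)))
    (fun m => ((hφ m).neg.cexp).differentiableOn) hgb
  have h0s : (0 : ℂ) ∈ ball (0 : ℂ) s := mem_ball_self hs0
  have hzs' : z ∈ ball (0 : ℂ) s := by rwa [mem_ball_zero_iff]
  have hg0 : g 0 ≠ 0 := by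
    have h1 : Tendsto (fun m => ‖exp (-(φ m 0))‖ ^ 2) u (𝓝 (‖g 0‖ ^ 2)) :=
      ((hg.tendsto_at h0s).norm).pow 2
    have h2 : c / Real.exp 1 ≤ ‖g 0‖ ^ 2 := by
      refine ge_of_tendsto h1 (Eventually.of_forall fun m => ?_)
      rw [div_le_iff₀ (Real.exp_pos 1)]
      calc c ≤ nsq (Hm m 0) := h0 m
        _ = _ := hfac m 0
        _ ≤ _ := by
          gcongr
          exact (hφ' m 0 (mem_closedBall_self hs0.le)).2
    intro h
    rw [h, norm_zero] at h2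
    have : 0 < c / Real.exp 1 := by positivity
    linarith [h2, this, show ((0:ℝ) ^ 2 = 0) by norm_num]
  have hgz : g z ≠ 0 := hurwitz_ne_zero (l := (u : Filter α)) (isOpen_ball : IsOpen (ball (0 : ℂ) s))
    (convex_ball (0 : ℂ) s).isPreconnected hg
    (Eventually.of_forall fun m => ((hφ m).neg.cexp).differentiableOn)
    (Eventually.of_forall fun m w _ => Complex.exp_ne_zero _) h0s hg0 z hzs'
  apply nsq_nonzero_of_pos
  have h3 : Tendsto (fun m => nsq (Hm m z)) u (𝓝 (nsq (H z))) :=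
    tendsto_nsq (hlim z (by rw [mem_ball_zero_iff]; exact hz))
  have h4 : Tendsto (fun m => ‖exp (-(φ m z))‖ ^ 2 * a) u (𝓝 (‖g z‖ ^ 2 * a)) :=
    (((hg.tendsto_at hzs').norm).pow 2).mul_const a
  have h5 : ‖g z‖ ^ 2 * a ≤ nsq (H z) := by
    refine le_of_tendsto_of_tendsto' h4 h3 (fun m => ?_)
    rw [hfac m z]
    gcongr
    exact (hφ' m z (by rw [mem_closedBall_zero_iff]; exact hzs.le)).1
  have h6 : 0 < ‖g z‖ := norm_pos_iff.2 hgz
  have h7 : 0 < ‖g z‖ ^ 2 * a := by positivity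
  linarith

/-- **compactness of bounded lifts** (ultrafilter form) -/
theorem compact_lifts {C : Set (ι → ℂ)} (hC : IsClosed C) {A : ℝ} (hB : BrodyBd C A) {α : Type*}
    (u : Ultrafilter α) {Hm : α → ℂ → ι → ℂ} {c : ℝ} (hc : 0 < c)
    (hd : ∀ m, IsDisc C (Hm m)) (hb : ∀ m, ∀ z ∈ ball (0 : ℂ) 1, nsq (Hm m z) ≤ 1)
    (h0 : ∀ m, c ≤ nsq (Hm m 0)) :
    ∃ H : ℂ → ι → ℂ, IsDisc C H ∧ TendstoLocallyUniformlyOn Hm H u (ball 0 1) ∧
      (∀ z ∈ ball (0 : ℂ) 1, nsq (H z) ≤ 1) ∧ c ≤ nsq (H 0) := by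
  obtain ⟨H, hH, hHd, -⟩ := montel_ultra u (isOpen_ball : IsOpen (ball (0 : ℂ) 1))
    (f := Hm) (M := 1) (fun m => (hd m).diff) (fun m z hz => by
      refine (norm_le_sqrt_nsq _).trans ?_
      rw [Real.sqrt_le_iff]
      exact ⟨zero_le_one, by simpa using hb m z hz⟩)
  have hpt : ∀ z ∈ ball (0 : ℂ) 1, Tendsto (fun m => Hm m z) u (𝓝 (H z)) :=
    fun z hz => hH.tendsto_at hz
  have h0m : (0 : ℂ) ∈ ball (0 : ℂ) 1 := mem_ball_self one_pos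
  refine ⟨H, ⟨hHd, fun z hz => ?_, limit_ne_zero hB hc hd hb h0 hpt⟩, hH, fun z hz => ?_, ?_⟩
  · exact hC.mem_of_tendsto (hpt z hz) (Eventually.of_forall fun m => (hd m).mem z hz)
  · exact le_of_tendsto (tendsto_nsq (hpt z hz)) (Eventually.of_forall fun m => hb m z hz)
  · exact ge_of_tendsto (tendsto_nsq (hpt 0 h0m)) (Eventually.of_forall h0)

/-- the Fubini-Study characteristic `T_om(s) = avg_{|z|=s} log|H|² - log|H(0)|²` -/
def Tom (s : ℝ) (H : ℂ → ι → ℂ) : ℝ :=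
  Real.circleAverage (fun z => Real.log (nsq (H z))) 0 s - Real.log (nsq (H 0))

/-- the centre condition `[H 0] = [p]` (for `H 0 ≠ 0`, `p ≠ 0`), as a closed condition -/
def Ctr (p : ι → ℂ) (H : ℂ → ι → ℂ) : Prop := ∀ i j, H 0 i * p j = H 0 j * p i

/-- normalised discs: `|H| ≤ 1` and `avg_{|z| = s} log |H|² → 0` -/
structure Normal (H : ℂ → ι → ℂ) : Prop where
  le_one : ∀ z ∈ ball (0 : ℂ) 1, nsq (H z) ≤ 1
  avg : Tendsto (fun s : ℝ => Real.circleAverage (fun z => Real.log (nsq (H z))) 0 s)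
    (𝓝[<] 1) (𝓝 0)

/-- multiplication of a lift by `exp φ` -/
def tw (φ : ℂ → ℂ) (H : ℂ → ι → ℂ) : ℂ → ι → ℂ := fun z => exp (φ z) • H z

theorem IsDisc.tw {C : Set (ι → ℂ)} (hCs : ∀ c : ℂ, c ≠ 0 → ∀ p ∈ C, c • p ∈ C)
    {H : ℂ → ι → ℂ} (hH : IsDisc C H) {φ : ℂ → ℂ} (hφ : DifferentiableOn ℂ φ (ball 0 1)) :
    IsDisc C (tw φ H) where
  diff := (hφ.cexp).smul hH.diff
  mem := fun z hz => hCs _ (Complex.exp_ne_zero _) _ (hH.mem z hz)
  ne := fun z hz => smul_ne_zero (Complex.exp_ne_zero _) (hH.ne z hz)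

omit [Fintype ι] in
theorem Ctr.tw {p : ι → ℂ} {H : ℂ → ι → ℂ} (h : Ctr p H) (φ : ℂ → ℂ) : Ctr p (tw φ H) := by
  intro i j
  simp only [StCpt_528.tw, Pi.smul_apply, smul_eq_mul, mul_assoc, h i j]

omit [Fintype ι] in
theorem Ctr.lim {p : ι → ℂ} {α : Type*} {l : Filter α} [l.NeBot] {Hm : α → ℂ → ι → ℂ}
    {H : ℂ → ι → ℂ} (h : ∀ m, Ctr p (Hm m)) (hl : Tendsto (fun m => Hm m 0) l (𝓝 (H 0))) :
    Ctr p H := by
  intro i j
  have h1 : Tendsto (fun m => Hm m 0 i * p j) l (𝓝 (H 0 i * p j)) :=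
    ((tendsto_pi_nhds.1 hl) i).mul_const _
  have h2 : Tendsto (fun m => Hm m 0 j * p i) l (𝓝 (H 0 j * p i)) :=
    ((tendsto_pi_nhds.1 hl) j).mul_const _
  have h3 : (fun m => Hm m 0 i * p j) = fun m => Hm m 0 j * p i := by
    funext m; exact h m i j
  rw [h3] at h1
  exact tendsto_nhds_unique h1 h2

theorem log_nsq_tw (φ : ℂ → ℂ) (H : ℂ → ι → ℂ) {z : ℂ} (hz : H z ≠ 0) :
    Real.log (nsq (tw φ H z)) = 2 * (φ z).re + Real.log (nsq (H z)) := by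
  rw [tw, nsq_smul, Complex.norm_exp, Real.log_mul (by positivity) (nsq_pos hz).ne',
    ← Real.exp_nat_mul, Real.log_exp]
  push_cast
  ring

theorem continuousOn_log_nsq {C : Set (ι → ℂ)} {H : ℂ → ι → ℂ} (hH : IsDisc C H) :
    ContinuousOn (fun z => Real.log (nsq (H z))) (ball 0 1) :=
  ContinuousOn.log (continuous_nsq.comp_continuousOn hH.diff.continuousOn)
    (fun z hz => (nsq_pos (hH.ne z hz)).ne')

theorem sphere_sub_ball {s : ℝ} (h0 : 0 < s) (h1 : s < 1) : sphere (0 : ℂ) |s| ⊆ ball 0 1 := by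
  intro z hz
  rw [mem_sphere_zero_iff_norm, abs_of_pos h0] at hz
  rw [mem_ball_zero_iff, hz]
  exact h1

theorem avg_re {φ : ℂ → ℂ} (hφ : DifferentiableOn ℂ φ (ball 0 1)) {s : ℝ} (h0 : 0 < s)
    (h1 : s < 1) : Real.circleAverage (fun z => (φ z).re) 0 s = (φ 0).re := by
  have hcb : closedBall (0 : ℂ) s ⊆ ball 0 1 := closedBall_subset_ball h1
  have h2 : Real.circleAverage φ 0 s = φ 0 := by
    refine DiffContOnCl.circleAverage ?_
    rw [abs_of_pos h0]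
    exact (hφ.mono hcb).diffContOnCl_ball (subset_refl _)
  have hci : CircleIntegrable φ 0 s := by
    refine ContinuousOn.circleIntegrable h0.le (hφ.continuousOn.mono ?_)
    exact sphere_subset_closedBall.trans hcb
  have h3 := reCLM.circleAverage_comp_comm hci
  rw [h2] at h3
  exact h3

theorem Tom_tw {C : Set (ι → ℂ)} {H : ℂ → ι → ℂ} (hH : IsDisc C H) {φ : ℂ → ℂ}
    (hφ : DifferentiableOn ℂ φ (ball 0 1)) {s : ℝ} (h0 : 0 < s) (h1 : s < 1) :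
    Tom s (tw φ H) = Tom s H := by
  have hsp : sphere (0 : ℂ) s ⊆ ball 0 1 := by
    have := sphere_sub_ball h0 h1
    rwa [abs_of_pos h0] at this
  have e1 : Real.circleAverage (fun z => Real.log (nsq (tw φ H z))) 0 s =
      2 * (φ 0).re + Real.circleAverage (fun z => Real.log (nsq (H z))) 0 s := by
    rw [Real.circleAverage_congr_sphere (f₂ := fun z => 2 * (φ z).re + Real.log (nsq (H z)))
      (fun z hz => log_nsq_tw φ H (hH.ne z (sphere_sub_ball h0 h1 hz)))]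
    have hre : ContinuousOn (fun z => 2 * (φ z).re) (sphere 0 s) :=
      ((continuous_re.comp_continuousOn hφ.continuousOn).mono hsp).const_mul _ 
    rw [Real.circleAverage_fun_add (hre.circleIntegrable h0.le)
      (((continuousOn_log_nsq hH).mono hsp).circleIntegrable h0.le)]
    congr 1
    have := Real.circleAverage_fun_smul (a := (2 : ℝ)) (f := fun z => (φ z).re) (c := 0) (R := s)
    simp only [smul_eq_mul] at this
    rw [this, avg_re hφ h0 h1]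
  unfold Tom
  rw [e1, log_nsq_tw φ H (hH.ne 0 (mem_ball_self one_pos))]
  ring

/-- the value of a normalised disc at the centre is `exp (- lim T_om)` -/
theorem Normal.exp_le {C : Set (ι → ℂ)} {H : ℂ → ι → ℂ} (hH : IsDisc C H) (hN : Normal H) {K : ℝ}
    (hK : ∀ s ∈ Ioo (0 : ℝ) 1, Tom s H ≤ K) : Real.exp (-K) ≤ nsq (H 0) := by
  have h0 := nsq_pos (hH.ne 0 (mem_ball_self one_pos))
  rw [← Real.le_log_iff_exp_le h0]
  have h1 : Tendsto (fun s : ℝ => Tom s H) (𝓝[<] 1) (𝓝 (0 - Real.log (nsq (H 0)))) :=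
    hN.avg.sub_const _
  have h2 : 0 - Real.log (nsq (H 0)) ≤ K := by
    refine le_of_tendsto h1 ?_
    filter_upwards [Ioo_mem_nhdsLT (show (0 : ℝ) < 1 by norm_num)] with s hs
    exact hK s hs
  linarith

/-- **existence of maximisers** of `c - κ sup_s T(s)` over all discs with a given centre.
`hNL` : every disc with bounded `T_om` has a normalised lift (`StLift_371`). -/
theorem exists_max {C : Set (ι → ℂ)} (hC : IsClosed C)
    (hCs : ∀ c : ℂ, c ≠ 0 → ∀ p ∈ C, c • p ∈ C) {A : ℝ} (hB : BrodyBd C A) {p₀ : ι → ℂ}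
    (hNL : ∀ H, IsDisc C H → ∀ K : ℝ, (∀ s ∈ Ioo (0 : ℝ) 1, Tom s H ≤ K) →
      ∃ φ : ℂ → ℂ, DifferentiableOn ℂ φ (ball 0 1) ∧ Normal (tw φ H))
    (c : (ℂ → ι → ℂ) → ℝ) (T : ℝ → (ℂ → ι → ℂ) → ℝ) {κ B : ℝ} (hκ : 0 < κ)
    (hci : ∀ H φ, IsDisc C H → DifferentiableOn ℂ φ (ball 0 1) → c (tw φ H) = c H)
    (hTi : ∀ s ∈ Ioo (0 : ℝ) 1, ∀ H φ, IsDisc C H → DifferentiableOn ℂ φ (ball 0 1) →
      T s (tw φ H) = T s H)
    (hcc : ∀ (u : Ultrafilter ℕ) (Hm : ℕ → ℂ → ι → ℂ) (H : ℂ → ι → ℂ), (∀ m, IsDisc C (Hm m)) →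
      IsDisc C H → TendstoLocallyUniformlyOn Hm H u (ball 0 1) →
      Tendsto (fun m => c (Hm m)) u (𝓝 (c H)))
    (hTc : ∀ s ∈ Ioo (0 : ℝ) 1, ∀ (u : Ultrafilter ℕ) (Hm : ℕ → ℂ → ι → ℂ) (H : ℂ → ι → ℂ),
      (∀ m, IsDisc C (Hm m)) → IsDisc C H → TendstoLocallyUniformlyOn Hm H u (ball 0 1) →
      Tendsto (fun m => T s (Hm m)) u (𝓝 (T s H)))
    (hmono : ∀ H, IsDisc C H → ∀ s s' : ℝ, 0 < s → s ≤ s' → s' < 1 → T s H ≤ T s' H)
    (hT0 : ∀ H, IsDisc C H → ∀ s ∈ Ioo (0 : ℝ) 1, 0 ≤ T s H)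
    (hdom : ∃ M : ℝ, 0 < M ∧ ∀ H, IsDisc C H → ∀ s ∈ Ioo (0 : ℝ) 1, Tom s H ≤ M * T s H)
    (hcb : ∀ H, IsDisc C H → Ctr p₀ H → c H ≤ B)
    (hex : ∃ H K, IsDisc C H ∧ Ctr p₀ H ∧ ∀ s ∈ Ioo (0 : ℝ) 1, T s H ≤ K) :
    ∃ H : ℂ → ι → ℂ, ∃ T1 : ℝ, IsDisc C H ∧ Ctr p₀ H ∧ Normal H ∧
      Tendsto (fun s => T s H) (𝓝[<] 1) (𝓝 T1) ∧ (∀ s ∈ Ioo (0 : ℝ) 1, T s H ≤ T1) ∧
      ∀ H' K', IsDisc C H' → Ctr p₀ H' → (∀ s ∈ Ioo (0 : ℝ) 1, T s H' ≤ K') →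
        c H' - κ * K' ≤ c H - κ * T1 := by
  obtain ⟨M, hM, hdom⟩ := hdom
  have h12 : (1 / 2 : ℝ) ∈ Ioo (0 : ℝ) 1 := by constructor <;> norm_num
  set S : Set ℝ := {x | ∃ H K, IsDisc C H ∧ Ctr p₀ H ∧ (∀ s ∈ Ioo (0 : ℝ) 1, T s H ≤ K) ∧
    x = c H - κ * K} with hS
  have hSne : S.Nonempty := by
    obtain ⟨H, K, h1, h2, h3⟩ := hex
    exact ⟨_, H, K, h1, h2, h3, rfl⟩
  have hSb : ∀ x ∈ S, x ≤ B := by
    rintro x ⟨H, K, h1, h2, h3, rfl⟩
    have h4 : 0 ≤ K := (hT0 H h1 _ h12).trans (h3 _ h12)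
    have h5 := hcb H h1 h2
    nlinarith
  have hbdd : BddAbove S := ⟨B, hSb⟩
  set m₀ := sSup S with hm₀
  -- a maximising sequence
  have hseq : ∀ m : ℕ, ∃ H K, IsDisc C H ∧ Ctr p₀ H ∧ (∀ s ∈ Ioo (0 : ℝ) 1, T s H ≤ K) ∧
      m₀ - 1 / ((m : ℝ) + 1) < c H - κ * K := by
    intro m
    have h1 : m₀ - 1 / ((m : ℝ) + 1) < m₀ := by
      have : (0 : ℝ) < 1 / ((m : ℝ) + 1) := by positivity
      linarith
    obtain ⟨x, ⟨H, K, h2, h3, h4, rfl⟩, hx⟩ := exists_lt_of_lt_csSup hSne h1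
    exact ⟨H, K, h2, h3, h4, hx⟩
  choose H' K hH'd hH'c hH'K hH'm using hseq
  have hKb : ∀ m, K m ≤ (B - m₀ + 1) / κ := by
    intro m
    rw [le_div_iff₀ hκ]
    have h1 := hH'm m
    have h2 := hcb _ (hH'd m) (hH'c m)
    have h3 : 1 / ((m : ℝ) + 1) ≤ 1 := by
      rw [div_le_one (by positivity)]
      have : (0 : ℝ) ≤ m := Nat.cast_nonneg m
      linarith
    linarith
  have hK0 : ∀ m, 0 ≤ K m := fun m => (hT0 _ (hH'd m) _ h12).trans (hH'K m _ h12)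
  set K₀ : ℝ := (B - m₀ + 1) / κ with hK₀
  -- normalise
  have hnl := fun m => hNL (H' m) (hH'd m) (M * K₀) (fun s hs =>
    (hdom _ (hH'd m) s hs).trans (by
      have := (hH'K m s hs).trans (hKb m)
      gcongr))
  choose φ hφ hφN using hnl
  set Hm : ℕ → ℂ → ι → ℂ := fun m => tw (φ m) (H' m) with hHm
  have hHmd : ∀ m, IsDisc C (Hm m) := fun m => (hH'd m).tw hCs (hφ m)
  have hHmT : ∀ m, ∀ s ∈ Ioo (0 : ℝ) 1, T s (Hm m) ≤ K m := fun m s hs => by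
    rw [hHm]; simp only; rw [hTi s hs _ _ (hH'd m) (hφ m)]; exact hH'K m s hs
  have hHm0 : ∀ m, Real.exp (-(M * K₀)) ≤ nsq (Hm m 0) := fun m =>
    (hφN m).exp_le (hHmd m) (fun s hs => (hdom _ (hHmd m) s hs).trans (by
      have := (hHmT m s hs).trans (hKb m)
      gcongr))
  set u : Ultrafilter ℕ := hyperfilter ℕ with hu
  obtain ⟨H, hHd, hHl, -, -⟩ := compact_lifts hC hB u (Real.exp_pos _) hHmd
    (fun m => (hφN m).le_one) hHm0
  have hHc : Ctr p₀ H := Ctr.lim (l := (u : Filter ℕ)) (fun m => (hH'c m).tw (φ m))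
    (hHl.tendsto_at (mem_ball_self one_pos))
  -- limit of `K`
  obtain ⟨k, hk, hkl⟩ : ∃ k ∈ Icc (0 : ℝ) K₀, Tendsto K u (𝓝 k) := by
    have hle : ((u.map K : Ultrafilter ℝ) : Filter ℝ) ≤ 𝓟 (Icc 0 K₀) := by
      rw [le_principal_iff]
      show K ⁻¹' Icc 0 K₀ ∈ (u : Filter ℕ)
      exact Filter.mem_of_superset Filter.univ_mem (fun m _ => ⟨hK0 m, hKb m⟩)
    obtain ⟨k, hk, hk'⟩ := isCompact_Icc.ultrafilter_le_nhds _ hle
    exact ⟨k, hk, hk'⟩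
  have hTk : ∀ s ∈ Ioo (0 : ℝ) 1, T s H ≤ k := fun s hs =>
    le_of_tendsto_of_tendsto' (hTc s hs u Hm H hHmd hHd hHl) hkl (fun m => hHmT m s hs)
  have hck : m₀ ≤ c H - κ * k := by
    have h1 : Tendsto (fun m => c (Hm m) - κ * K m) u (𝓝 (c H - κ * k)) :=
      (hcc u Hm H hHmd hHd hHl).sub (hkl.const_mul κ)
    have h2 : Tendsto (fun m : ℕ => m₀ - 1 / ((m : ℝ) + 1)) u (𝓝 (m₀ - 0)) :=
      (tendsto_const_nhds.sub tendsto_one_div_add_atTop_nhds_zero_nat).mono_left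
        (Nat.hyperfilter_le_atTop)
    rw [sub_zero] at h2
    refine le_of_tendsto_of_tendsto' h2 h1 (fun m => ?_)
    have h3 : c (Hm m) = c (H' m) := hci _ _ (hH'd m) (hφ m)
    rw [h3]
    exact (hH'm m).le
  -- the limit of `T s H`
  set T1 : ℝ := sSup ((fun s => T s H) '' Ioo 0 1) with hT1
  have hTb : BddAbove ((fun s => T s H) '' Ioo 0 1) := ⟨k, by
    rintro x ⟨s, hs, rfl⟩; exact hTk s hs⟩
  have hTne : ((fun s => T s H) '' Ioo 0 1).Nonempty := ⟨_, 1 / 2, h12, rfl⟩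
  have hT1k : T1 ≤ k := csSup_le hTne (by rintro x ⟨s, hs, rfl⟩; exact hTk s hs)
  have hTT1 : ∀ s ∈ Ioo (0 : ℝ) 1, T s H ≤ T1 := fun s hs => le_csSup hTb ⟨s, hs, rfl⟩
  have hTlim : Tendsto (fun s => T s H) (𝓝[<] 1) (𝓝 T1) := by
    rw [tendsto_order]
    constructor
    · intro a ha
      obtain ⟨x, ⟨s₀, hs₀, rfl⟩, hx⟩ := exists_lt_of_lt_csSup hTne ha
      filter_upwards [Ioo_mem_nhdsLT hs₀.2] with s hs
      exact hx.trans_le (hmono H hHd s₀ s hs₀.1 hs.1.le hs.2)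
    · intro b hb
      filter_upwards [Ioo_mem_nhdsLT (show (0 : ℝ) < 1 by norm_num)] with s hs
      exact (hTT1 s hs).trans_lt hb
  -- normalise the limit
  obtain ⟨ψ, hψ, hψN⟩ := hNL H hHd (M * k) (fun s hs => (hdom H hHd s hs).trans (by
    have := hTk s hs
    gcongr))
  have hTψ : ∀ s ∈ Ioo (0 : ℝ) 1, T s (tw ψ H) = T s H := fun s hs => hTi s hs _ _ hHd hψ
  refine ⟨tw ψ H, T1, hHd.tw hCs hψ, hHc.tw ψ, hψN, ?_, ?_, ?_⟩
  · refine hTlim.congr' ?_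
    filter_upwards [Ioo_mem_nhdsLT (show (0 : ℝ) < 1 by norm_num)] with s hs
    exact (hTψ s hs).symm
  · intro s hs
    rw [hTψ s hs]
    exact hTT1 s hs
  · intro H' K' h1 h2 h3
    rw [hci _ _ hHd hψ]
    have h4 : c H' - κ * K' ≤ m₀ := le_csSup hbdd ⟨H', K', h1, h2, h3, rfl⟩
    have h5 : κ * T1 ≤ κ * k := by gcongr
    linarith

end Crest.Agent.R269.StCpt_528
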