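import Crest.Agent.R269.Green_740

/-!
# R269, Line B: the limit of the Green form at radius `1` (helper528)
-/

set_option autoImplicit false

open MeasureTheory Set Filter Topology Real Metric

noncomputable section

namespace Crest.Agent.R269.TGone_528

open Crest.Agent.R269.Green_740

/-- the integrand, cut off at `s` -/
def cut (q : ℂ → ℝ) (s r : ℝ) : ℝ :=
  if r < s then r * Real.log (s / r) * circleAverage q 0 r else 0

theorem avg_nonneg {q : ℂ → ℝ} (h : ∀ z ∈ ball (0 : ℂ) 1, 0 ≤ q z) {r : ℝ} (h0 : 0 ≤ r)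
    (h1 : r < 1) : 0 ≤ circleAverage q 0 r := by
  refine circleAverage_nonneg_of_nonneg fun z hz => h z ?_
  rw [abs_of_nonneg h0] at hz
  exact (sphere_subset_closedBall.trans (closedBall_subset_ball h1)) hz

theorem cut_nonneg {q : ℂ → ℝ} (h : ∀ z ∈ ball (0 : ℂ) 1, 0 ≤ q z) {s r : ℝ}
    (h0 : 0 < r) (h1 : r < 1) : 0 ≤ cut q s r := by
  unfold cut
  split_ifs with hr
  · exact mul_nonneg (kernel_nonneg h0.le hr.le) (avg_nonneg h h0.le h1)
  · exact le_rfl

theorem cut_mono {q : ℂ → ℝ} (h : ∀ z ∈ ball (0 : ℂ) 1, 0 ≤ q z) {s s' r : ℝ} (hs : 0 < s)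
    (hss : s ≤ s') (h0 : 0 < r) (h1 : r < 1) : cut q s r ≤ cut q s' r := by
  unfold cut
  split_ifs with hr hr' hr'
  · refine mul_le_mul_of_nonneg_right ?_ (avg_nonneg h h0.le h1)
    rw [kernel_eq hs.ne', kernel_eq (hs.trans_le hss).ne']
    have := mul_le_mul_of_nonneg_left (Real.log_le_log hs hss) h0.le
    linarith
  · exact absurd (hr.trans_le hss) hr'
  · exact mul_nonneg (kernel_nonneg h0.le hr'.le) (avg_nonneg h h0.le h1)
  · exact le_rfl

theorem TG_eq_cut (q : ℂ → ℝ) {s : ℝ} (h0 : 0 < s) (h1 : s ≤ 1) :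
    TG q s = 4 * ∫ r in Ioo (0 : ℝ) 1, cut q s r := by
  unfold TG
  congr 1
  rw [intervalIntegral.integral_of_le h0.le, integral_Ioc_eq_integral_Ioo]
  have e : ∀ r, cut q s r = (Iio s).indicator
      (fun r => r * Real.log (s / r) * circleAverage q 0 r) r := by
    intro r
    unfold cut indicator
    simp only [mem_Iio]
  simp_rw [e]
  rw [setIntegral_indicator measurableSet_Iio]
  congr 2
  rw [Ioo_inter_Iio, min_eq_right h1]

/-- the Green form at radius `1` is the limit of the Green forms at radii `s < 1` -/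
theorem tendsto_TG_one {q : ℂ → ℝ} (hq : ContinuousOn q (ball 0 1))
    (h : ∀ z ∈ ball (0 : ℂ) 1, 0 ≤ q z) {B : ℝ} (hB : ∀ s ∈ Ioo (0 : ℝ) 1, TG q s ≤ B) :
    Tendsto (TG q) (𝓝[<] 1) (𝓝 (TG q 1)) := by
  set μ : Measure ℝ := volume.restrict (Ioo (0 : ℝ) 1) with hμ
  have havg : ContinuousOn (fun r => circleAverage q 0 r) (Ioo (0 : ℝ) 1) := by
    intro r hr
    set s := (r + 1) / 2 with hs
    have hs1 : s < 1 := by rw [hs]; linarith [hr.2]
    have hrs : r < s := by rw [hs]; linarith [hr.2]
    have h1 := circleAverage_continuousOn (hq.mono (closedBall_subset_ball hs1))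
    exact (h1.continuousAt (Icc_mem_nhds hr.1 hrs)).continuousWithinAt
  have hmeas : ∀ s, 0 < s → AEStronglyMeasurable (cut q s) μ := by
    intro s hs
    have e : cut q s = (Iio s).indicator
        (fun r => r * Real.log (s / r) * circleAverage q 0 r) := by
      funext r
      unfold cut indicator
      simp only [mem_Iio]
    rw [e]
    refine AEStronglyMeasurable.indicator ?_ measurableSet_Iio
    exact ((kernel_cont s hs.ne').continuousOn.mul havg).aestronglyMeasurable measurableSet_Ioo
  have hae : ∀ᵐ r ∂μ, r ∈ Ioo (0 : ℝ) 1 := ae_restrict_mem measurableSet_Ioo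
  -- pointwise convergence
  have hpt : ∀ r ∈ Ioo (0 : ℝ) 1, Tendsto (fun s => cut q s r) (𝓝[<] 1) (𝓝 (cut q 1 r)) := by
    intro r hr
    have e1 : cut q 1 r = r * Real.log (1 / r) * circleAverage q 0 r := by
      unfold cut; rw [if_pos hr.2]
    have h2 : Tendsto (fun s : ℝ => r * Real.log (s / r) * circleAverage q 0 r) (𝓝[<] 1)
        (𝓝 (r * Real.log (1 / r) * circleAverage q 0 r)) := by
      have h3 : ContinuousAt (fun s : ℝ => r * Real.log (s / r) * circleAverage q 0 r) 1 := by
        have h4 : ContinuousAt (fun s : ℝ => Real.log (s / r)) 1 :=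
          ContinuousAt.log (continuousAt_id.div_const r) (by
            have := hr.1
            simp [this.ne'])
        exact (continuousAt_const.mul h4).mul continuousAt_const
      exact h3.tendsto.mono_left nhdsWithin_le_nhds
    rw [e1]
    refine h2.congr' ?_
    filter_upwards [Ioo_mem_nhdsLT hr.2] with s hs
    unfold cut
    rw [if_pos hs.1]
  -- integrability at `1` by monotone convergence
  have hint : Integrable (cut q 1) μ := by
    refine ⟨hmeas 1 one_pos, ?_⟩
    set t : ℕ → ℝ := fun k => 1 - 1 / ((k : ℝ) + 2) with ht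
    have ht01 : ∀ k, t k ∈ Ioo (0 : ℝ) 1 := by
      intro k
      have hk : (0 : ℝ) ≤ k := Nat.cast_nonneg k
      constructor
      · show 0 < 1 - 1 / ((k : ℝ) + 2)
        rw [sub_pos, div_lt_one (by positivity)]; linarith
      · show 1 - 1 / ((k : ℝ) + 2) < 1
        have : (0 : ℝ) < 1 / ((k : ℝ) + 2) := by positivity
        linarith
    have htm : Monotone t := by
      intro j k hjk
      have : (j : ℝ) ≤ k := by exact_mod_cast hjk
      show 1 - 1 / ((j : ℝ) + 2) ≤ 1 - 1 / ((k : ℝ) + 2)
      have h5 : 1 / ((k : ℝ) + 2) ≤ 1 / ((j : ℝ) + 2) := by gcongr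
      linarith
    have ht1 : Tendsto t atTop (𝓝[<] 1) := by
      rw [tendsto_nhdsWithin_iff]
      refine ⟨?_, Eventually.of_forall fun k => (ht01 k).2⟩
      have h6 : Tendsto (fun k : ℕ => 1 / ((k : ℝ) + 2)) atTop (𝓝 0) := by
        have h7 : Tendsto (fun k : ℕ => (k : ℝ) + 2) atTop atTop :=
          tendsto_atTop_add_const_right _ _ tendsto_natCast_atTop_atTop
        refine h7.inv_tendsto_atTop.congr (fun k => ?_)
        simp [one_div]
      have h8 := h6.const_sub 1
      rw [sub_zero] at h8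
      exact h8
    have hlim : Tendsto (fun k => ∫⁻ r, ENNReal.ofReal (cut q (t k) r) ∂μ) atTop
        (𝓝 (∫⁻ r, ENNReal.ofReal (cut q 1 r) ∂μ)) := by
      refine lintegral_tendsto_of_tendsto_of_monotone
        (fun k => ((hmeas _ (ht01 k).1).aemeasurable).ennreal_ofReal) ?_ ?_
      · filter_upwards [hae] with r hr j k hjk
        exact ENNReal.ofReal_le_ofReal (cut_mono h (ht01 j).1 (htm hjk) hr.1 hr.2)
      · filter_upwards [hae] with r hr
        exact (ENNReal.continuous_ofReal.tendsto _).comp ((hpt r hr).comp ht1)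
    have hle : ∫⁻ r, ENNReal.ofReal (cut q 1 r) ∂μ ≤ ENNReal.ofReal (B / 4) := by
      refine le_of_tendsto hlim (Eventually.of_forall fun k => ?_)
      have hk := ht01 k
      have h9 : Integrable (cut q (t k)) μ := by
        have e : cut q (t k) = (Iio (t k)).indicator
            (fun r => r * Real.log (t k / r) * circleAverage q 0 r) := by
          funext r
          unfold cut indicator
          simp only [mem_Iio]
        have h10 := integrand_intervalIntegrable hk.1.le (hq.mono (closedBall_subset_ball hk.2))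
        rw [intervalIntegrable_iff_integrableOn_Ioo_of_le hk.1.le] at h10
        rw [e]
        rw [hμ, integrable_indicator_iff measurableSet_Iio, IntegrableOn,
          Measure.restrict_restrict measurableSet_Iio]
        have e2 : Iio (t k) ∩ Ioo 0 1 = Ioo 0 (t k) := by
          rw [inter_comm, Ioo_inter_Iio, min_eq_right hk.2.le]
        rw [e2]
        exact h10
      rw [← ofReal_integral_eq_lintegral_ofReal h9 (by
        filter_upwards [hae] with r hr; exact cut_nonneg h hr.1 hr.2)]
      apply ENNReal.ofReal_le_ofReal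
      have h11 := hB _ hk
      rw [TG_eq_cut q hk.1 hk.2.le] at h11
      linarith
    rw [HasFiniteIntegral]
    have e3 : ∫⁻ r, ‖cut q 1 r‖ₑ ∂μ = ∫⁻ r, ENNReal.ofReal (cut q 1 r) ∂μ := by
      refine lintegral_congr_ae ?_
      filter_upwards [hae] with r hr
      rw [Real.enorm_eq_ofReal (cut_nonneg h hr.1 hr.2)]
    rw [e3]
    exact lt_of_le_of_lt hle ENNReal.ofReal_lt_top
  have hfin : Tendsto (fun s => ∫ r, cut q s r ∂μ) (𝓝[<] 1) (𝓝 (∫ r, cut q 1 r ∂μ)) := by
    refine tendsto_integral_filter_of_dominated_convergence (cut q 1) ?_ ?_ hint ?_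
    · filter_upwards [Ioo_mem_nhdsLT (show (0 : ℝ) < 1 from one_pos)] with s hs
      exact hmeas s hs.1
    · filter_upwards [Ioo_mem_nhdsLT (show (0 : ℝ) < 1 from one_pos)] with s hs
      filter_upwards [hae] with r hr
      rw [Real.norm_of_nonneg (cut_nonneg h hr.1 hr.2)]
      exact cut_mono h hs.1 hs.2.le hr.1 hr.2
    · filter_upwards [hae] with r hr
      exact hpt r hr
  rw [TG_eq_cut q one_pos le_rfl]
  refine (hfin.const_mul 4).congr' ?_
  filter_upwards [Ioo_mem_nhdsLT (show (0 : ℝ) < 1 from one_pos)] with s hs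
  rw [TG_eq_cut q hs.1 hs.2.le]

end Crest.Agent.R269.TGone_528
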