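import Crest.Agent.R269.StDens_528
import Crest.Agent.R269.TGone_528
import Crest.Agent.R269.Iface_731

/-!
# R269, Line B, (N1): existence of `IsMax` (helper528)
-/

set_option autoImplicit false

open Set Filter Topology Metric Complex

noncomputable section

namespace Crest.Agent.R269.StIface_528

open Crest.Agent.R269.Geo_328 (EE VV Cone Tan nsq)
open Crest.Agent.R269.Defs_58 (omg SmX alpha)
open Crest.Agent.R269.StFun_528
open Crest.Agent.R269.DefsS_731 (TE TG cav IsDisc Normal FinE)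
open Crest.Agent.R269.Iface_731 (IFun dens GeO IsMax)
open Crest.AlgGeometry.ProjEmb

variable {N n : ℕ} {I : Ideal (HomCoordRing N)}

theorem ctr_iff {p₀ : EE N} (hp₀ : p₀ ∈ Cone I) {H : ℂ → EE N} (hH : IsDisc I H) :
    Iface_731.Ctr p₀ H ↔ StCpt_528.Ctr p₀ H :=
  ⟨fun ⟨_, _, h⟩ => StMax_528.ctr_of_smul h, fun h => StMax_528.Ctr.exists_smul hp₀ hH h⟩

theorem dens_dens (hI : I.IsPrime) (hX : IsSmoothProjective I n) (cθ cω : ℝ) {u : EE N → ℝ}
    (hu : SmX I u) : Dens I (dens I n cθ cω u) :=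
  StDens_528.dens_Efo hI hX cθ cω hu

theorem IFun.funC {F : (ℂ → EE N) → ℝ} {L : (ℂ → EE N) → (ℂ → EE N) → ℝ} (h : IFun I F L) :
    FunC I F := ⟨h.inv, h.cont⟩

/-- `T_E(1)` is the limit of `T_E(s)` -/
theorem tendsto_TE_one {E : EE N → EE N → ℝ} (hE : Dens I E)
    (hpos : ∀ p ∈ Cone I, ∀ v ∈ Tan I p, 0 ≤ E p v) {H : ℂ → EE N} (hH : IsDisc I H) {B : ℝ}
    (hB : ∀ s ∈ Ioo (0 : ℝ) 1, TE E H s ≤ B) : Tendsto (TE E H) (𝓝[<] 1) (𝓝 (TE E H 1)) :=
  TGone_528.tendsto_TG_one (hE.continuousOn hH)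
    (fun z hz => hpos _ (hH.cone z hz) _ (deriv_mem_Tan hH hz)) hB

theorem TE_le_one {E : EE N → EE N → ℝ} (hE : Dens I E)
    (hpos : ∀ p ∈ Cone I, ∀ v ∈ Tan I p, 0 ≤ E p v) {H : ℂ → EE N} (hH : IsDisc I H) {B : ℝ}
    (hB : ∀ s ∈ Ioo (0 : ℝ) 1, TE E H s ≤ B) {s : ℝ} (hs : s ∈ Ioo (0 : ℝ) 1) :
    TE E H s ≤ TE E H 1 := by
  refine ge_of_tendsto (tendsto_TE_one hE hpos hH hB) ?_
  filter_upwards [Ioo_mem_nhdsLT hs.2] with t ht
  exact StMax_528.TE_mono_radius hE hpos hH hs.1.le ht.1.le ht.2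

/-- (N1) -/
theorem exists_isMax (hI : I.IsPrime) (hX : IsSmoothProjective I n)
    (hc : EntireCurvesConstant I) {F : (ℂ → EE N) → ℝ} {L : (ℂ → EE N) → (ℂ → EE N) → ℝ}
    (hF : IFun I F L) {cθ cω : ℝ} {u : EE N → ℝ} (hu : SmX I u) (hG : GeO I n cθ cω u)
    {p₀ : EE N} (hp₀ : p₀ ∈ Cone I) : ∃ H, IsMax I n F cθ cω u p₀ H := by
  obtain ⟨B, hB⟩ := hF.bdd
  have hE := dens_dens hI hX cθ cω hu
  have hE0 : ∀ p ∈ Cone I, ∀ v ∈ Tan I p, 0 ≤ dens I n cθ cω u p v := fun p hp v hv =>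
    (StMax_528.omg_nonneg p v).trans (hG p hp v hv)
  obtain ⟨C, hC⟩ : ∃ C : ℝ, ∀ p ∈ Cone I, ∀ v ∈ Tan I p, |dens I n cθ cω u p v| ≤ C * omg p v :=
    PosC_632.bdd_all hI hX hu cθ cω
  obtain ⟨H, T1, h1, h2, h3, h4, h5, h6⟩ := StMax_528.exists_max_TE hX hc hp₀
    (IFun.funC hF) (B := B) (fun H hH _ => (le_abs_self _).trans (hB H hH)) hE one_pos
    (fun p hp v hv => by rw [one_mul]; exact hG p hp v hv) one_pos
  have hT1 : T1 = TE (dens I n cθ cω u) H 1 :=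
    tendsto_nhds_unique h4 (tendsto_TE_one hE hE0 h1 h5)
  refine ⟨H, h1, ⟨T1, fun s hs => ?_⟩, h3, (ctr_iff hp₀ h1).2 h2, fun G hGd hGf hGc => ?_⟩
  · exact (StMax_528.TE_mono StMax_528.dens_omg hE hG h1 hs.1.le hs.2).trans (h5 s hs)
  · obtain ⟨B', hB'⟩ := hGf
    have hbd : ∀ s ∈ Ioo (0 : ℝ) 1, TE (dens I n cθ cω u) G s ≤ |C| * B' := by
      intro s hs
      have h7 : TE (dens I n cθ cω u) G s ≤ TE (fun p v => |C| * omg p v) G s :=
        StMax_528.TE_mono hE (StMax_528.dens_omg.const_mul |C|) (fun p hp v hv => by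
          have h8 := hC p hp v hv
          have h9 := StMax_528.omg_nonneg p v
          calc dens I n cθ cω u p v ≤ |dens I n cθ cω u p v| := le_abs_self _
            _ ≤ C * omg p v := h8
            _ ≤ |C| * omg p v := by gcongr; exact le_abs_self C) hGd hs.1.le hs.2
      rw [StMax_528.TE_const_mul] at h7
      refine h7.trans ?_
      gcongr
      exact hB' s hs
    have h10 := h6 G (TE (dens I n cθ cω u) G 1) hGd ((ctr_iff hp₀ hGd).1 hGc)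
      (fun s hs => TE_le_one hE hE0 hGd hbd hs)
    rw [one_mul, one_mul] at h10
    rw [← hT1]
    exact h10

end Crest.Agent.R269.StIface_528
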