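import Crest.Agent.R269.StIface_528
import Crest.Agent.R269.WF_731
import Crest.Agent.R269.LevBr_901

/-!
# R269, Line B: existence of `IsMx` (interface `WF_731`) (helper528)
-/

set_option autoImplicit false

open Set Filter Topology Metric Complex

noncomputable section

namespace Crest.Agent.R269.StMx_528

open Crest.Agent.R269.Geo_328 (EE VV Cone Tan nsq)
open Crest.Agent.R269.Defs_58 (omg SmX alpha)
open Crest.Agent.R269.StFun_528
open Crest.Agent.R269.DefsS_731 (TE TG cav IsDisc Normal FinE)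
open Crest.Agent.R269.Iface_731 (dens GeO)
open Crest.Agent.R269.WF_731 (Jf IsMx)
open Crest.AlgGeometry.ProjEmb

variable {N n : ℕ} {I : Ideal (HomCoordRing N)}

theorem smX_continuousOn {u : EE N → ℝ} (hu : SmX I u) : ContinuousOn u (Cone I) :=
  fun p hp => (hu.1 p hp).continuousAt.continuousWithinAt

theorem funC_Jf (c0 c1 : ℝ) {u1 : EE N → ℝ} (hu : SmX I u1) {r1 : ℝ} (hr : r1 ∈ Ioo (0 : ℝ) 1) :
    FunC I (Jf c0 c1 u1 r1) := by
  have h1 : FunC I (fun H => omg (H 0) (deriv H 0)) :=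
    StMax_528.dens_omg.funC_at (mem_ball_self one_pos)
  have h2 : FunC I (fun H => TE omg H r1) := StMax_528.dens_omg.funC_TE hr
  have h3 : FunC I (fun H => cav u1 H r1) :=
    funC_cav (smX_continuousOn hu) hu.2 ⟨hr.1.le, hr.2⟩
  have h4 : FunC I (fun H => cav u1 H 0) :=
    funC_cav (smX_continuousOn hu) hu.2 ⟨le_rfl, one_pos⟩
  have h5 : (fun H : ℂ → EE N => cav u1 H 0) = fun H => u1 (H 0) := by
    funext H
    unfold DefsS_731.cav
    rw [Real.circleAverage_zero]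
  rw [h5] at h4
  exact ((h1.const_mul c0).add (h2.const_mul c1)).add (h3.sub h4)

/-- bound for the functionals `Jf` -/
theorem Jf_bdd (hX : IsSmoothProjective I n) (hc : EntireCurvesConstant I) (c0 c1 : ℝ)
    {u1 : EE N → ℝ} {M : ℝ} (hu : SmX I u1) (hM : ∀ p ∈ Cone I, |u1 p| ≤ M) {r1 : ℝ}
    (hr : r1 ∈ Ioo (0 : ℝ) 1) : ∃ B : ℝ, ∀ H, IsDisc I H → |Jf c0 c1 u1 r1 H| ≤ B := by
  obtain ⟨A, hA, hB⟩ := StMax_528.exists_brody hX hc
  refine ⟨|c0| * A ^ 2 + |c1| * (A ^ 2 / (1 - r1) ^ 2 * r1 ^ 2) + (M + M), fun H hH => ?_⟩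
  have h1 := StMax_528.omg_zero_le hB hH
  have h1' := StMax_528.omg_nonneg (H 0) (deriv H 0)
  have h2 : TE omg H r1 ≤ _ := StMax_528.TE_omg_le hB hH hr.1.le hr.2
  have h2' : 0 ≤ TE omg H r1 := StMax_528.TE_nonneg StMax_528.dens_omg
    (fun p _ v _ => StMax_528.omg_nonneg p v) hH hr.1.le hr.2
  have h3 := StMax_528.abs_cav_le (smX_continuousOn hu) hM hH hr.1.le hr.2
  have h4 := hM (H 0) (hH.cone 0 (mem_ball_self one_pos))
  unfold WF_731.Jf
  calc |c0 * omg (H 0) (deriv H 0) + c1 * TE omg H r1 + (cav u1 H r1 - u1 (H 0))|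
      ≤ |c0 * omg (H 0) (deriv H 0)| + |c1 * TE omg H r1| + (|cav u1 H r1| + |u1 (H 0)|) := by
        refine (abs_add_le _ _).trans (add_le_add (abs_add_le _ _) (abs_sub _ _))
    _ ≤ |c0| * A ^ 2 + |c1| * (A ^ 2 / (1 - r1) ^ 2 * r1 ^ 2) + (M + M) := by
        rw [abs_mul, abs_mul, abs_of_nonneg h1', abs_of_nonneg h2']
        gcongr

/-- existence of `IsMx` for every centre -/
theorem exists_isMx (hI : I.IsPrime) (hX : IsSmoothProjective I n) (hc : EntireCurvesConstant I)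
    (c0 c1 : ℝ) {u1 : EE N → ℝ} (hu1 : SmX I u1) {r1 : ℝ} (hr1 : r1 ∈ Ioo (0 : ℝ) 1)
    {κ t r : ℝ} (hκ : 0 < κ) (hr : r ∈ Ioo (0 : ℝ) 1) {cθ cω : ℝ} {u : EE N → ℝ}
    (hu : SmX I u) (hG : GeO I n cθ cω u) {p₀ : EE N} (hp₀ : p₀ ∈ Cone I) :
    ∃ H T1, IsMx I n (Jf c0 c1 u1 r1) κ t r cθ cω u H T1 ∧ Iface_731.Ctr p₀ H := by
  obtain ⟨M, -, hM⟩ := LevBr_901.smX_bdd hX hu1
  obtain ⟨B, hB⟩ := Jf_bdd hX hc c0 c1 hu1 hM hr1
  obtain ⟨A, hA, hBr⟩ := StMax_528.exists_brody hX hc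
  have hE : Dens I (dens I n cθ cω u) := StIface_528.dens_dens hI hX cθ cω hu
  have hF : FunC I (fun H => Jf c0 c1 u1 r1 H + κ * t * TE omg H r) :=
    (funC_Jf c0 c1 hu1 hr1).add ((StMax_528.dens_omg.funC_TE hr).const_mul (κ * t))
  obtain ⟨H, T1, h1, h2, h3, h4, h5, h6⟩ := StMax_528.exists_max_TE hX hc hp₀ hF
    (B := B + |κ * t| * (A ^ 2 / (1 - r) ^ 2 * r ^ 2)) (fun H hH _ => by
      have h7 : TE omg H r ≤ _ := StMax_528.TE_omg_le hBr hH hr.1.le hr.2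
      have h7' : 0 ≤ TE omg H r := StMax_528.TE_nonneg StMax_528.dens_omg
        (fun p _ v _ => StMax_528.omg_nonneg p v) hH hr.1.le hr.2
      have h8 := (le_abs_self _).trans (hB H hH)
      have h9 : κ * t * TE omg H r ≤ |κ * t| * (A ^ 2 / (1 - r) ^ 2 * r ^ 2) := by
        calc κ * t * TE omg H r ≤ |κ * t| * TE omg H r := by gcongr; exact le_abs_self _
          _ ≤ _ := by gcongr
      exact add_le_add h8 h9) hE one_pos (fun p hp v hv => by rw [one_mul]; exact hG p hp v hv) hκ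
  refine ⟨H, T1, ⟨h1, h3, h4, fun G K hGd hGc hGK => ?_⟩, (StIface_528.ctr_iff hp₀ h1).2 h2⟩
  refine h6 G K hGd ?_ hGK
  obtain ⟨a, ha, hHa⟩ := (StIface_528.ctr_iff hp₀ h1).2 h2
  obtain ⟨b, hb, hGb⟩ := hGc
  apply StMax_528.ctr_of_smul (a := b * a)
  rw [hGb, hHa, smul_smul]

end Crest.Agent.R269.StMx_528
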