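import Mathlib

/-!
# R269 (S0411): consequences of the stationary route (post 1368 of helper730), (8)-(12)  (helper85)

`SD` : abstract interface = exactly what (1)-(7) of post 1368 have to deliver:
* `Disc` = holomorphic discs `f : D → X` with `T_ω(f; 1) < ∞` (normalised lifts), NO regularity up to the
  circle; `T f = T_{f,ω}(1)`, `Tr r f = T_{f,ω}(r)`, `k f = T_{f,θ}(1)`, `avg u f` = boundary average,
  `spd f = |f'(0)|²`;
* `IGood F LF` : `F` is an interior functional (continuous for locally uniform convergence), with second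
  variation `LF a f = ∑_i Levi_{z V_i} F (f)`, `V_i` = Wold frame of `(f, a)` ((4) of 1368);
* `exists_max` : (1) + (3) : for a positive form `E = cθ θ + cω ω + dd^c u` and an interior functional
  `F` the functional `F - T_E(1)` has a maximiser `f` among the discs with centre `x₀`, and there the
  summed inequality (VAR) holds for every field `a`;
* `Lspd_ge` : (5) at `0`;  `key` : (7) averaged over `|z| = r`.

Output (same shapes as `Cons_993.PD`):
* `k_ge`   : (A*) `k ≥ -C₁`;  `er` : the monotonicity trick (8);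
* `T_main` : (T), any field, no normalisation of the determinant, `lam = n / (e² (A²+1))`, `c₀ ≤ 2 lam`;
* `kdel_ge`: (A_δ) for discs with centre off the zero set of `s`;
* `T_del`  : (T_δ).
-/

set_option autoImplicit false

open Set Filter Topology

noncomputable section

namespace Crest.Agent.R269.Stat_85

/-- what (1)-(7) of post 1368 deliver -/
structure SD where
  /-- points of the variety -/
  X : Type
  /-- holomorphic discs with finite characteristic -/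
  Disc : Type
  /-- smooth positive fields (Hermitian metrics on the cotangent space) -/
  Fld : Type
  n : ℕ
  hn : 0 < n
  /-- `f ↦ f(0)` -/
  ctr : Disc → X
  /-- constant discs -/
  cst : X → Disc
  ctr_cst : ∀ x, ctr (cst x) = x
  /-- continuous functions on `X` -/
  Ct : (X → ℝ) → Prop
  ct_const : ∀ c : ℝ, Ct fun _ => c
  ct_add : ∀ {u v : X → ℝ}, Ct u → Ct v → Ct fun x => u x + v x
  ct_smul : ∀ {u : X → ℝ} (c : ℝ), Ct u → Ct fun x => c * u x
  ct_bdd : ∀ {u : X → ℝ}, Ct u → ∃ C, ∀ x, |u x| ≤ C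
  /-- smooth functions on `X` -/
  Sm : (X → ℝ) → Prop
  ct_sm : ∀ {u : X → ℝ}, Sm u → Ct u
  sm_zero : Sm fun _ => 0
  /-- average over the boundary circle (a.e. boundary values) -/
  avg : (X → ℝ) → Disc → ℝ
  avg_const : ∀ (c : ℝ) f, avg (fun _ => c) f = c
  avg_add : ∀ {u v : X → ℝ}, Ct u → Ct v → ∀ f, avg (fun x => u x + v x) f = avg u f + avg v f
  avg_smul : ∀ {u : X → ℝ} (c : ℝ), Ct u → ∀ f, avg (fun x => c * u x) f = c * avg u f
  avg_mono : ∀ {u v : X → ℝ}, Ct u → Ct v → (∀ x, u x ≤ v x) → ∀ f, avg u f ≤ avg v f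
  avg_cst : ∀ {u : X → ℝ}, Ct u → ∀ x, avg u (cst x) = u x
  /-- `T_{f,θ}(1)`, `θ` = curvature of `K_X` -/
  k : Disc → ℝ
  /-- `T_{f,ω}(1)` -/
  T : Disc → ℝ
  /-- `|f'(0)|²` -/
  spd : Disc → ℝ
  /-- `T_{f,ω}(r)`, `r < 1` -/
  Tr : ℝ → Disc → ℝ
  k_cst : ∀ x, k (cst x) = 0
  T_cst : ∀ x, T (cst x) = 0
  spd_nonneg : ∀ f, 0 ≤ spd f
  T_nonneg : ∀ f, 0 ≤ T f
  Tr_nonneg : ∀ r f, 0 < r → r < 1 → 0 ≤ Tr r f
  Tr_mono : ∀ r r' f, 0 < r → r ≤ r' → r' < 1 → Tr r f ≤ Tr r' f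
  Tr_tendsto : ∀ f, Tendsto (fun r => Tr r f) (𝓝[<] 1) (𝓝 (T f))
  /-- Brody: `|f'(0)|² ≤ A²` -/
  A : ℝ
  schwarz : ∀ f, spd f ≤ A ^ 2
  /-- `log det_g a`, `tr(a α)`, `tr(a ω)`, `tr(a L u)` -/
  ldet : Fld → X → ℝ
  trA : Fld → X → ℝ
  trO : Fld → X → ℝ
  trL : Fld → (X → ℝ) → X → ℝ
  ct_ldet : ∀ a, Ct (ldet a)
  ct_trA : ∀ a, Ct (trA a)
  ct_trO : ∀ a, Ct (trO a)
  ct_trL : ∀ a {u}, Sm u → Ct (trL a u)
  trL_zero : ∀ a x, trL a (fun _ => 0) x = 0
  /-- the field `g⁻¹` -/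
  ginv : Fld
  ldet_ginv : ∀ x, ldet ginv x = 0
  /-- interior functionals and their Levi sums along the Wold frames -/
  IGood : (Disc → ℝ) → (Fld → Disc → ℝ) → Prop
  igood_add : ∀ {F G LF LG}, IGood F LF → IGood G LG →
    IGood (fun f => F f + G f) (fun a f => LF a f + LG a f)
  igood_smul : ∀ {F LF} (c : ℝ), IGood F LF → IGood (fun f => c * F f) (fun a f => c * LF a f)
  Lspd : Fld → Disc → ℝ
  igood_spd : IGood spd Lspd
  LTr : ℝ → Fld → Disc → ℝ
  igood_Tr : ∀ r, 0 < r → r < 1 → IGood (Tr r) (LTr r)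
  LTr_nonneg : ∀ r a f, 0 < r → r < 1 → 0 ≤ LTr r a f
  /-- (5) at `0` -/
  Lspd_ge : ∀ a f, n * Real.exp ((avg (ldet a) f - k f) / n) ≤ Lspd a f
  /-- (7) averaged over the circle of radius `r` -/
  key : ∀ a, ∃ C : ℝ, 0 ≤ C ∧ ∀ r f, 1 / 2 ≤ r → r < 1 →
    avg (trO a) f - C * (Real.sqrt (T f - Tr r f) + (T f - Tr r f) + (1 - r)) ≤ LTr r a f
  /-- `cθ θ + cω ω + dd^c u` is a positive form -/
  Pos : ℝ → ℝ → (X → ℝ) → Prop
  pos_ex : ∀ (cθ : ℝ) {u : X → ℝ}, Sm u → ∃ t₀ : ℝ, ∀ t, t₀ ≤ t → Pos cθ t u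
  /-- (1) and the summed inequality (VAR) -/
  exists_max : ∀ {cθ cω : ℝ} {u : X → ℝ}, Sm u → Pos cθ cω u → ∀ {F LF}, IGood F LF → ∀ x₀ : X,
    ∃ f, ctr f = x₀ ∧
      (∀ g, ctr g = x₀ → F g - (cθ * k g + cω * T g + avg u g) ≤
        F f - (cθ * k f + cω * T f + avg u f)) ∧
      ∀ a, LF a f ≤ avg (fun x => cθ * trA a x + cω * trO a x + trL a u x) f

namespace SD

variable (P : SD)

theorem avg_le {u : P.X → ℝ} (hu : P.Ct u) {C : ℝ} (h : ∀ x, u x ≤ C) (f : P.Disc) :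
    P.avg u f ≤ C := by
  have := P.avg_mono hu (P.ct_const C) h f
  rwa [P.avg_const] at this

theorem le_avg {u : P.X → ℝ} (hu : P.Ct u) {C : ℝ} (h : ∀ x, C ≤ u x) (f : P.Disc) :
    C ≤ P.avg u f := by
  have := P.avg_mono (P.ct_const C) hu h f
  rwa [P.avg_const] at this

theorem abs_avg_le {u : P.X → ℝ} (hu : P.Ct u) {C : ℝ} (h : ∀ x, |u x| ≤ C) (f : P.Disc) :
    |P.avg u f| ≤ C :=
  abs_le.2 ⟨P.le_avg hu (fun x => (abs_le.1 (h x)).1) f, P.avg_le hu (fun x => (abs_le.1 (h x)).2) f⟩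

theorem npos : (0 : ℝ) < P.n := by exact_mod_cast P.hn

theorem Tr_le_T (r : ℝ) (f : P.Disc) (h0 : 0 < r) (h1 : r < 1) : P.Tr r f ≤ P.T f := by
  refine ge_of_tendsto (P.Tr_tendsto f) ?_
  have : Ioo r 1 ∈ 𝓝[<] (1 : ℝ) := Ioo_mem_nhdsLT h1
  filter_upwards [this] with s hs
  exact P.Tr_mono r s f h0 hs.1.le hs.2

theorem exp_ge (q y : ℝ) (hq : 0 < q) : q * (1 - Real.log q - y) ≤ Real.exp (-y) := by
  have h1 := Real.add_one_le_exp (-y - Real.log q)
  have h2 : Real.exp (-y) = q * Real.exp (-y - Real.log q) := by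
    rw [Real.exp_sub, Real.exp_log hq]
    field_simp
  rw [h2]
  exact mul_le_mul_of_nonneg_left (by linarith) hq.le

theorem avg_form {cθ cω : ℝ} {u : P.X → ℝ} (hu : P.Sm u) (a : P.Fld) (f : P.Disc) :
    P.avg (fun x => cθ * P.trA a x + cω * P.trO a x + P.trL a u x) f =
      cθ * P.avg (P.trA a) f + cω * P.avg (P.trO a) f + P.avg (P.trL a u) f := by
  have cA := P.ct_smul cθ (P.ct_trA a)
  have cO := P.ct_smul cω (P.ct_trO a)
  have cL := P.ct_trL a hu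
  rw [P.avg_add (P.ct_add cA cO) cL, P.avg_add cA cO, P.avg_smul cθ (P.ct_trA a),
    P.avg_smul cω (P.ct_trO a)]

/-- pass to the limit `r → 1` in an inequality with `Tr r g` -/
theorem le_of_Tr {g : P.Disc} {t c B : ℝ} (h : ∀ r, 1 / 2 ≤ r → r < 1 → c + t * P.Tr r g ≤ B) :
    c + t * P.T g ≤ B := by
  have h1 : Tendsto (fun r => c + t * P.Tr r g) (𝓝[<] 1) (𝓝 (c + t * P.T g)) :=
    ((P.Tr_tendsto g).const_mul t).const_add c
  refine le_of_tendsto h1 ?_
  have : Ioo (1 / 2 : ℝ) 1 ∈ 𝓝[<] (1 : ℝ) := Ioo_mem_nhdsLT (by norm_num)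
  filter_upwards [this] with s hs
  exact h s hs.1.le hs.2

/-- (A*) : `k ≥ -C₁` for all discs -/
theorem k_ge : ∃ C₁, 0 ≤ C₁ ∧ ∀ f, -C₁ ≤ P.k f := by
  obtain ⟨t₀, ht₀⟩ := P.pos_ex 1 P.sm_zero
  set t := max t₀ 0 with ht
  have htpos : 0 ≤ t := le_max_right _ _
  have hpos : P.Pos 1 t (fun _ => 0) := ht₀ t (le_max_left _ _)
  obtain ⟨C, hC⟩ := P.ct_bdd (P.ct_add (P.ct_trA P.ginv) (P.ct_smul t (P.ct_trO P.ginv)))
  refine ⟨P.A ^ 2 + |C|, by positivity, fun g => ?_⟩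
  have key : ∀ r, 1 / 2 ≤ r → r < 1 →
      (P.spd g - P.k g - t * P.T g) + t * P.Tr r g ≤ P.A ^ 2 + |C| := by
    intro r hr0 hr1
    have hr0' : 0 < r := by linarith
    obtain ⟨f, -, hmax, hvar⟩ := P.exists_max P.sm_zero hpos
      (P.igood_add P.igood_spd (P.igood_smul t (P.igood_Tr r hr0' hr1))) (P.ctr g)
    have h1 := hmax g rfl
    have h2 := hvar P.ginv
    rw [P.avg_form P.sm_zero] at h2
    have h3 : P.avg (P.trL P.ginv fun _ => 0) f = 0 := by
      have : P.trL P.ginv (fun _ => 0) = fun _ => 0 := funext (P.trL_zero _)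
      rw [this, P.avg_const]
    have h4 : P.avg (P.trA P.ginv) f + t * P.avg (P.trO P.ginv) f ≤ |C| := by
      rw [← P.avg_smul _ (P.ct_trO P.ginv), ← P.avg_add (P.ct_trA _) (P.ct_smul _ (P.ct_trO _))]
      exact P.avg_le (P.ct_add (P.ct_trA _) (P.ct_smul _ (P.ct_trO _)))
        (fun x => (le_abs_self _).trans ((hC x).trans (le_abs_self _))) f
    have h5 := P.Lspd_ge P.ginv f
    have h6 : P.avg (P.ldet P.ginv) f = 0 := by
      have : P.ldet P.ginv = fun _ => 0 := funext P.ldet_ginv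
      rw [this, P.avg_const]
    rw [h6] at h5
    have h7 := Real.add_one_le_exp ((0 - P.k f) / P.n)
    have hn := P.npos
    have h8 : (P.n : ℝ) - P.k f ≤ P.n * Real.exp ((0 - P.k f) / P.n) := by
      refine le_trans (le_of_eq ?_) (mul_le_mul_of_nonneg_left h7 hn.le)
      field_simp
      ring
    have h9 := mul_nonneg htpos (P.LTr_nonneg r P.ginv f hr0' hr1)
    rw [P.avg_const, P.avg_const] at h1
    have h10 := P.schwarz f
    have h11 := P.Tr_le_T r f hr0' hr1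
    have h12 := mul_le_mul_of_nonneg_left h11 htpos
    linarith
  have h := P.le_of_Tr key
  have h2 := P.spd_nonneg g
  linarith

/-- **the monotonicity trick** (8).  For `E = cθ θ + (c + t) ω + dd^c u > 0`, `t > 0`, and an interior
functional `F` such that `F - (cθ k + c T + avg u)` is bounded above: for every `ε > 0` there is a radius
`r` close to `1` and a maximiser `f` of `F + t T_r - T_E(1)` with `T f - Tr r f ≤ ε`. -/
theorem er {cθ c t : ℝ} {u : P.X → ℝ} (hu : P.Sm u) (ht : 0 < t) (hpos : P.Pos cθ (c + t) u)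
    {F : P.Disc → ℝ} {LF : P.Fld → P.Disc → ℝ} (hF : P.IGood F LF) (x₀ : P.X) {B : ℝ}
    (hB : ∀ f, P.ctr f = x₀ → F f - (cθ * P.k f + c * P.T f + P.avg u f) ≤ B)
    {ε : ℝ} (hε : 0 < ε) :
    ∃ r f, 1 / 2 ≤ r ∧ r < 1 ∧ 1 - r ≤ ε ∧ P.ctr f = x₀ ∧ P.T f - P.Tr r f ≤ ε ∧
      (∀ g, P.ctr g = x₀ → F g + t * P.Tr r g - (cθ * P.k g + (c + t) * P.T g + P.avg u g) ≤
        F f + t * P.Tr r f - (cθ * P.k f + (c + t) * P.T f + P.avg u f)) ∧
      ∀ a, LF a f + t * P.LTr r a f ≤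
        cθ * P.avg (P.trA a) f + (c + t) * P.avg (P.trO a) f + P.avg (P.trL a u) f := by
  -- the maximisers
  have hex : ∀ r : ℝ, ∃ f, (0 < r ∧ r < 1) → P.ctr f = x₀ ∧
      (∀ g, P.ctr g = x₀ → F g + t * P.Tr r g - (cθ * P.k g + (c + t) * P.T g + P.avg u g) ≤
        F f + t * P.Tr r f - (cθ * P.k f + (c + t) * P.T f + P.avg u f)) ∧
      ∀ a, LF a f + t * P.LTr r a f ≤
        cθ * P.avg (P.trA a) f + (c + t) * P.avg (P.trO a) f + P.avg (P.trL a u) f := by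
    intro r
    by_cases hr : 0 < r ∧ r < 1
    · obtain ⟨f, h1, h2, h3⟩ := P.exists_max hu hpos
        (P.igood_add hF (P.igood_smul t (P.igood_Tr r hr.1 hr.2))) x₀
      refine ⟨f, fun _ => ⟨h1, h2, fun a => ?_⟩⟩
      have := h3 a
      rwa [P.avg_form hu] at this
    · exact ⟨P.cst x₀, fun h => absurd h hr⟩
  choose fm hfm using hex
  set S : ℝ → ℝ := fun r => F (fm r) + t * P.Tr r (fm r) -
    (cθ * P.k (fm r) + (c + t) * P.T (fm r) + P.avg u (fm r)) with hS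
  have hSB : ∀ r, 0 < r → r < 1 → S r ≤ B := by
    intro r h0 h1
    have h2 := hB (fm r) (hfm r ⟨h0, h1⟩).1
    have h3 := mul_le_mul_of_nonneg_left (P.Tr_le_T r (fm r) h0 h1) ht.le
    simp only [hS]
    linarith
  have hbdd : BddAbove (S '' Ico (1 / 2) 1) := by
    refine ⟨B, ?_⟩
    rintro _ ⟨r, hr, rfl⟩
    exact hSB r (by linarith [hr.1]) hr.2
  have hne : (S '' Ico (1 / 2 : ℝ) 1).Nonempty := ⟨_, 1 / 2, ⟨le_rfl, by norm_num⟩, rfl⟩
  set Ss := sSup (S '' Ico (1 / 2) 1) with hSs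
  have hle : ∀ r, 1 / 2 ≤ r → r < 1 → S r ≤ Ss := fun r h0 h1 =>
    le_csSup hbdd ⟨r, ⟨h0, h1⟩, rfl⟩
  -- S r + t * (T - Tr r) ≤ Ss
  have hstep : ∀ r, 1 / 2 ≤ r → r < 1 → S r + t * (P.T (fm r) - P.Tr r (fm r)) ≤ Ss := by
    intro r h0 h1
    have h0' : 0 < r := by linarith
    have hlim : Tendsto (fun r' => S r + t * (P.Tr r' (fm r) - P.Tr r (fm r))) (𝓝[<] 1)
        (𝓝 (S r + t * (P.T (fm r) - P.Tr r (fm r)))) :=
      (((P.Tr_tendsto (fm r)).sub_const _).const_mul t).const_add _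
    refine le_of_tendsto hlim ?_
    have : Ioo r 1 ∈ 𝓝[<] (1 : ℝ) := Ioo_mem_nhdsLT h1
    filter_upwards [this] with s hs
    have hs0 : 1 / 2 ≤ s := h0.trans hs.1.le
    have h2 := (hfm s ⟨by linarith, hs.2⟩).2.1 (fm r) (hfm r ⟨h0', h1⟩).1
    have h3 := hle s hs0 hs.2
    simp only [hS] at h3 ⊢
    linarith
  -- monotone
  have hmono : ∀ r s, 1 / 2 ≤ r → r ≤ s → s < 1 → S r ≤ S s := by
    intro r s h0 h1 h2
    have h3 := (hfm s ⟨by linarith, h2⟩).2.1 (fm r) (hfm r ⟨by linarith, by linarith⟩).1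
    have h4 := mul_le_mul_of_nonneg_left (P.Tr_mono r s (fm r) (by linarith) h1 h2) ht.le
    simp only [hS]
    linarith
  obtain ⟨_, ⟨r₀, hr₀, rfl⟩, hr₀'⟩ := exists_lt_of_lt_csSup hne
    (show Ss - t * ε < Ss by have := mul_pos ht hε; linarith)
  set r := max r₀ (max (1 / 2) (1 - ε)) with hr
  have hr1 : r < 1 := max_lt hr₀.2 (max_lt (by norm_num) (by linarith))
  have hr2 : 1 / 2 ≤ r := (le_max_left _ _).trans (le_max_right _ _)
  have hr3 : 1 - ε ≤ r := (le_max_right _ _).trans (le_max_right _ _)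
  have hr4 : r₀ ≤ r := le_max_left _ _
  obtain ⟨h1, h2, h3⟩ := hfm r ⟨by linarith, hr1⟩
  refine ⟨r, fm r, hr2, hr1, by linarith, h1, ?_, h2, h3⟩
  have h4 := hstep r hr2 hr1
  have h5 := hmono r₀ r hr₀.1 hr4 hr1
  have h6 : t * (P.T (fm r) - P.Tr r (fm r)) ≤ t * ε := by linarith
  exact le_of_mul_le_mul_left h6 ht

/-- the error term of `key` is small -/
theorem err_small {C : ℝ} (hC : 0 ≤ C) {η : ℝ} (hη : 0 < η) : ∃ ε, 0 < ε ∧ ∀ x y : ℝ, x ≤ ε → 
    y ≤ ε → C * (Real.sqrt x + x + y) ≤ η := by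
  set ε := min ((η / (3 * (C + 1))) ^ 2) (η / (3 * (C + 1))) with hε
  have hC1 : 0 < C + 1 := by linarith
  have h0 : 0 < η / (3 * (C + 1)) := by positivity
  refine ⟨ε, lt_min (by positivity) h0, fun x y hx hy => ?_⟩
  have h1 : Real.sqrt x ≤ η / (3 * (C + 1)) := by
    refine (Real.sqrt_le_sqrt (hx.trans (min_le_left _ _))).trans ?_
    rw [Real.sqrt_sq h0.le]
  have h2 : x ≤ η / (3 * (C + 1)) := hx.trans (min_le_right _ _)
  have h3 : y ≤ η / (3 * (C + 1)) := hy.trans (min_le_right _ _)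
  have h4 : Real.sqrt x + x + y ≤ η / (C + 1) := by
    have : η / (C + 1) = 3 * (η / (3 * (C + 1))) := by field_simp
    linarith
  calc C * (Real.sqrt x + x + y) ≤ C * (η / (C + 1)) := mul_le_mul_of_nonneg_left h4 hC
    _ = η * (C / (C + 1)) := by ring
    _ ≤ η * 1 := by
        refine mul_le_mul_of_nonneg_left ?_ hη.le
        rw [div_le_one hC1]; linarith
    _ = η := mul_one _

/-- (T), general field `a`, no normalisation: the lower bound of `u` -/
theorem T_gen {lam κ c₀ e : ℝ} (hlam : 0 < lam) (hκ : 0 < κ) (he : 0 ≤ e)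
    (a : P.Fld) {u : P.X → ℝ} (hu : P.Sm u)
    (h : ∀ x, P.trA a x + e * P.trO a x + P.trL a u x ≤
      P.n * c₀ + lam * u x + lam * P.ldet a x) (x : P.X) :
    P.n * (1 - Real.log (κ * lam) - c₀ / lam) - P.A ^ 2 / κ ≤ u x := by
  obtain ⟨C₁, hC₁0, hC₁⟩ := P.k_ge
  obtain ⟨Mu, hMu⟩ := P.ct_bdd (P.ct_sm hu)
  obtain ⟨Ck, hCk0, hCk⟩ := P.key a
  obtain ⟨t₀, ht₀⟩ := P.pos_ex 1 hu
  set t := max t₀ 0 + 1 with ht
  have htpos : 0 < t := by have := le_max_right t₀ 0; linarith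
  have hpos : P.Pos 1 (e + t) u := ht₀ _ (by have := le_max_left t₀ 0; linarith)
  have hq : 0 < κ * lam := mul_pos hκ hlam
  have hn := P.npos
  have hcu := P.ct_sm hu
  have hbound : ∀ f, P.ctr f = x → κ⁻¹ * P.spd f - (1 * P.k f + e * P.T f + P.avg u f) ≤
      κ⁻¹ * P.A ^ 2 + C₁ + Mu := by
    intro f _
    have h1 := mul_le_mul_of_nonneg_left (P.schwarz f) (inv_pos.2 hκ).le
    have h2 := hC₁ f
    have h3 := mul_nonneg he (P.T_nonneg f)
    have h4 := (abs_le.1 (P.abs_avg_le hcu hMu f)).1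
    linarith
  refine le_of_forall_pos_le_add fun η hη => ?_
  obtain ⟨ε, hε, herr⟩ := err_small hCk0 (show 0 < η * lam / t by positivity)
  obtain ⟨r, f, hr0, hr1, hr2, -, her, hmax, hvar⟩ := P.er hu htpos hpos
    (P.igood_smul κ⁻¹ P.igood_spd) x hbound hε
  have hvar' := hvar a
  have hmax' := hmax (P.cst x) (P.ctr_cst x)
  rw [P.k_cst, P.T_cst, P.avg_cst hcu] at hmax'
  have hr0' : 0 < r := by linarith
  have h1 : P.avg (P.trA a) f + e * P.avg (P.trO a) f + P.avg (P.trL a u) f ≤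
      P.n * c₀ + lam * P.avg u f + lam * P.avg (P.ldet a) f := by
    have cA := P.ct_trA a
    have cO := P.ct_trO a
    have cL := P.ct_trL a hu
    have cd := P.ct_ldet a
    have e1 : P.avg (fun x => P.trA a x + e * P.trO a x + P.trL a u x) f =
        P.avg (P.trA a) f + e * P.avg (P.trO a) f + P.avg (P.trL a u) f := by
      rw [P.avg_add (P.ct_add cA (P.ct_smul e cO)) cL, P.avg_add cA (P.ct_smul e cO),
        P.avg_smul e cO]
    have e2 : P.avg (fun x => P.n * c₀ + lam * u x + lam * P.ldet a x) f =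
        P.n * c₀ + lam * P.avg u f + lam * P.avg (P.ldet a) f := by
      rw [P.avg_add (P.ct_add (P.ct_const _) (P.ct_smul lam hcu)) (P.ct_smul lam cd),
        P.avg_add (P.ct_const _) (P.ct_smul lam hcu), P.avg_const, P.avg_smul lam hcu,
        P.avg_smul lam cd]
    rw [← e1, ← e2]
    exact P.avg_mono (P.ct_add (P.ct_add cA (P.ct_smul e cO)) cL)
      (P.ct_add (P.ct_add (P.ct_const _) (P.ct_smul lam hcu)) (P.ct_smul lam cd)) h f
  have h2 := P.Lspd_ge a f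
  have h3 := exp_ge (κ * lam) ((P.k f - P.avg (P.ldet a) f) / P.n) hq
  have h4 : (P.n : ℝ) * Real.exp (-((P.k f - P.avg (P.ldet a) f) / P.n)) ≤ P.Lspd a f := by
    refine le_trans (le_of_eq ?_) h2
    congr 2; ring
  have h5 : P.n * (κ * lam * (1 - Real.log (κ * lam))) -
      κ * lam * (P.k f - P.avg (P.ldet a) f) ≤ P.Lspd a f := by
    refine le_trans ?_ h4
    have := mul_le_mul_of_nonneg_left h3 hn.le
    refine le_trans (le_of_eq ?_) this
    field_simp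
  have h6 : P.n * (lam * (1 - Real.log (κ * lam))) -
      lam * (P.k f - P.avg (P.ldet a) f) ≤ κ⁻¹ * P.Lspd a f := by
    refine le_trans (le_of_eq ?_) (mul_le_mul_of_nonneg_left h5 (inv_pos.2 hκ).le)
    field_simp
  -- key estimate
  have h7 := hCk r f hr0 hr1
  have h8 := herr _ _ her hr2
  have h9 : t * (P.avg (P.trO a) f - P.LTr r a f) ≤ η * lam := by
    have : P.avg (P.trO a) f - P.LTr r a f ≤ η * lam / t := by linarith
    calc t * (P.avg (P.trO a) f - P.LTr r a f) ≤ t * (η * lam / t) :=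
          mul_le_mul_of_nonneg_left this htpos.le
      _ = η * lam := by field_simp
  -- comparison with the constant disc
  have h10 : P.avg u f ≤ κ⁻¹ * P.A ^ 2 + u x - P.k f := by
    have g1 := mul_le_mul_of_nonneg_left (P.schwarz f) (inv_pos.2 hκ).le
    have g2 := mul_nonneg he (P.T_nonneg f)
    have g3 := mul_le_mul_of_nonneg_left (P.Tr_le_T r f hr0' hr1) htpos.le
    have g4 := mul_nonneg (inv_pos.2 hκ).le (P.spd_nonneg (P.cst x))
    have g5 := mul_nonneg htpos.le (P.Tr_nonneg r (P.cst x) hr0' hr1)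
    linarith
  have h11 := mul_le_mul_of_nonneg_left h10 hlam.le
  have h12 : P.n * (lam * (1 - Real.log (κ * lam))) ≤
      P.n * c₀ + lam * (κ⁻¹ * P.A ^ 2 + u x) + η * lam := by
    linarith
  have h13 : lam * (P.n * (1 - Real.log (κ * lam) - c₀ / lam) - P.A ^ 2 / κ) ≤
      lam * (u x + η) := by
    have e1 : lam * (P.n * (1 - Real.log (κ * lam) - c₀ / lam) - P.A ^ 2 / κ) =
        P.n * (lam * (1 - Real.log (κ * lam))) - P.n * c₀ - lam * (κ⁻¹ * P.A ^ 2) := by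
      field_simp
    rw [e1]
    linarith
  exact le_of_mul_le_mul_left h13 hlam

/-- the rate `λ = n / (e² (A² + 1))` -/
def lam : ℝ := P.n / (Real.exp 2 * (P.A ^ 2 + 1))

theorem lam_pos : 0 < P.lam :=
  div_pos P.npos (mul_pos (Real.exp_pos _) (by positivity))

/-- (T): `u ≥ 0` for every field `a`, with `λ = n / (e² (A² + 1))` and any `c₀ ≤ 2λ` -/
theorem T_main {c₀ e : ℝ} (hc : c₀ ≤ 2 * P.lam) (he : 0 ≤ e) (a : P.Fld) {u : P.X → ℝ}
    (hu : P.Sm u)
    (h : ∀ x, P.trA a x + e * P.trO a x + P.trL a u x ≤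
      P.n * c₀ + P.lam * u x + P.lam * P.ldet a x) (x : P.X) : 0 ≤ u x := by
  have hn := P.npos
  have hA : 0 < P.A ^ 2 + 1 := by positivity
  have hκ : 0 < (P.A ^ 2 + 1) / P.n := div_pos hA hn
  have h1 := P.T_gen P.lam_pos hκ he a hu h x
  have e1 : (P.A ^ 2 + 1) / P.n * P.lam = Real.exp (-2) := by
    unfold lam
    rw [Real.exp_neg]
    field_simp
  rw [e1, Real.log_exp] at h1
  have h2 : c₀ / P.lam ≤ 2 := (div_le_iff₀ P.lam_pos).2 hc
  have h3 : P.A ^ 2 / ((P.A ^ 2 + 1) / P.n) ≤ P.n := by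
    rw [div_div_eq_mul_div, div_le_iff₀ hA]
    nlinarith
  have h4 : (P.n : ℝ) * 1 ≤ P.n * (1 - -2 - c₀ / P.lam) :=
    mul_le_mul_of_nonneg_left (by linarith) hn.le
  linarith

/-! ### Part 11 -/

/-- `k_δ = (1 + δ m₁) k - δ T` -/
def kd (m₁ δ : ℝ) (f : P.Disc) : ℝ := (1 + δ * m₁) * P.k f - δ * P.T f

/-- (A_δ): `k_δ ≥ -C₃` for the discs with centre off the zero set of `s`.  `hΘ`: for every such centre
there is an interior functional `Θ` bounded by `CΘ` with `∑ Levi Θ ≥ c exp(-k_δ/n)` on the discs with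
this centre (`CΘ`, `c` independent of the centre). -/
theorem kdel_ge (m₁ δ : ℝ) (Off : P.X → Prop) {CΘ c : ℝ} (hc : 0 < c)
    (hΘ : ∀ x₀, Off x₀ → ∃ Θ LΘ, P.IGood Θ LΘ ∧ (∀ f, P.ctr f = x₀ → |Θ f| ≤ CΘ) ∧
      ∀ f, P.ctr f = x₀ → c * Real.exp (-(P.kd m₁ δ f / P.n)) ≤ LΘ P.ginv f) :
    ∃ C₃, 0 ≤ C₃ ∧ ∀ f, Off (P.ctr f) → -C₃ ≤ P.kd m₁ δ f := by
  have hn := P.npos
  obtain ⟨t₀, ht₀⟩ := P.pos_ex (1 + δ * m₁) P.sm_zero
  set t := max (t₀ + δ) 0 with ht
  have htpos : 0 ≤ t := le_max_right _ _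
  have hpos : P.Pos (1 + δ * m₁) (-δ + t) (fun _ => 0) :=
    ht₀ _ (by have := le_max_left (t₀ + δ) 0; linarith)
  obtain ⟨C, hC⟩ := P.ct_bdd (P.ct_add (P.ct_smul (1 + δ * m₁) (P.ct_trA P.ginv))
    (P.ct_smul (-δ + t) (P.ct_trO P.ginv)))
  refine ⟨2 * |CΘ| + P.n * |C| / c, by positivity, fun g hg => ?_⟩
  obtain ⟨Θ, LΘ, hgood, hbd, hrate⟩ := hΘ _ hg
  have key : ∀ r, 1 / 2 ≤ r → r < 1 →
      (Θ g - P.kd m₁ δ g - t * P.T g) + t * P.Tr r g ≤ |CΘ| + P.n * |C| / c := by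
    intro r hr0 hr1
    have hr0' : 0 < r := by linarith
    obtain ⟨f, hfc, hmax, hvar⟩ := P.exists_max P.sm_zero hpos
      (P.igood_add hgood (P.igood_smul t (P.igood_Tr r hr0' hr1))) (P.ctr g)
    have h1 := hmax g rfl
    have h2 := hvar P.ginv
    rw [P.avg_form P.sm_zero] at h2
    have h3 : P.avg (P.trL P.ginv fun _ => 0) f = 0 := by
      have : P.trL P.ginv (fun _ => 0) = fun _ => 0 := funext (P.trL_zero _)
      rw [this, P.avg_const]
    have h4 : (1 + δ * m₁) * P.avg (P.trA P.ginv) f + (-δ + t) * P.avg (P.trO P.ginv) f ≤ |C| := by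
      rw [← P.avg_smul _ (P.ct_trA P.ginv), ← P.avg_smul _ (P.ct_trO P.ginv),
        ← P.avg_add (P.ct_smul _ (P.ct_trA _)) (P.ct_smul _ (P.ct_trO _))]
      exact P.avg_le (P.ct_add (P.ct_smul _ (P.ct_trA _)) (P.ct_smul _ (P.ct_trO _)))
        (fun x => (le_abs_self _).trans ((hC x).trans (le_abs_self _))) f
    have h5 := hrate f hfc
    have h6 := mul_nonneg htpos (P.LTr_nonneg r P.ginv f hr0' hr1)
    have h7 : c * Real.exp (-(P.kd m₁ δ f / P.n)) ≤ |C| := by linarith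
    have h8 := Real.add_one_le_exp (-(P.kd m₁ δ f / P.n))
    have h9 : c * (-(P.kd m₁ δ f / P.n)) ≤ |C| := by
      refine le_trans (mul_le_mul_of_nonneg_left ?_ hc.le) h7
      linarith
    have h10 : - P.kd m₁ δ f ≤ P.n * |C| / c := by
      rw [le_div_iff₀ hc]
      have := mul_le_mul_of_nonneg_left h9 hn.le
      refine le_trans (le_of_eq ?_) this
      field_simp
    rw [P.avg_const, P.avg_const] at h1
    have h11 := mul_le_mul_of_nonneg_left (P.Tr_le_T r f hr0' hr1) htpos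
    have h12 := (abs_le.1 (hbd f hfc)).2
    have h13 := le_abs_self CΘ
    unfold kd at h10 ⊢
    linarith
  have h := P.le_of_Tr key
  have h2 := (abs_le.1 (hbd g rfl)).1
  have h3 := le_abs_self CΘ
  linarith

/-- (T_δ): if `tr(a(α_δ + L u)) ≤ u` then `u ≥ -C₃`, at the points off the zero set of `s` -/
theorem T_del {m₁ δ C₃ : ℝ} {Off : P.X → Prop}
    (hC₃ : ∀ f, Off (P.ctr f) → -C₃ ≤ P.kd m₁ δ f) (a : P.Fld)
    {u : P.X → ℝ} (hu : P.Sm u)
    (h : ∀ x, (1 + δ * m₁) * P.trA a x + -δ * P.trO a x + P.trL a u x ≤ u x) (x : P.X)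
    (hx : Off x) : -C₃ ≤ u x := by
  obtain ⟨Mu, hMu⟩ := P.ct_bdd (P.ct_sm hu)
  obtain ⟨Ck, hCk0, hCk⟩ := P.key a
  obtain ⟨t₀, ht₀⟩ := P.pos_ex (1 + δ * m₁) hu
  set t := max (t₀ + δ) 0 + 1 with ht
  have htpos : 0 < t := by have := le_max_right (t₀ + δ) 0; linarith
  have hpos : P.Pos (1 + δ * m₁) (-δ + t) u :=
    ht₀ _ (by have := le_max_left (t₀ + δ) 0; linarith)
  have hcu := P.ct_sm hu
  have hbound : ∀ f, P.ctr f = x → 0 * P.spd f -
      ((1 + δ * m₁) * P.k f + -δ * P.T f + P.avg u f) ≤ C₃ + Mu := by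
    intro f hf
    have h2 := hC₃ f (by rw [hf]; exact hx)
    have h4 := (abs_le.1 (P.abs_avg_le hcu hMu f)).1
    unfold kd at h2
    linarith
  refine le_of_forall_pos_le_add fun η hη => ?_
  obtain ⟨ε, hε, herr⟩ := err_small hCk0 (show 0 < η / t by positivity)
  obtain ⟨r, f, hr0, hr1, hr2, hfx, her, hmax, hvar⟩ := P.er hu htpos hpos
    (P.igood_smul 0 P.igood_spd) x hbound hε
  have hvar' := hvar a
  have hmax' := hmax (P.cst x) (P.ctr_cst x)
  rw [P.k_cst, P.T_cst, P.avg_cst hcu] at hmax'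
  have hr0' : 0 < r := by linarith
  have h1 : (1 + δ * m₁) * P.avg (P.trA a) f + -δ * P.avg (P.trO a) f +
      P.avg (P.trL a u) f ≤ P.avg u f := by
    have cA := P.ct_smul (1 + δ * m₁) (P.ct_trA a)
    have cO := P.ct_smul (-δ) (P.ct_trO a)
    have cL := P.ct_trL a hu
    rw [← P.avg_smul _ (P.ct_trA a), ← P.avg_smul _ (P.ct_trO a), ← P.avg_add cA cO,
      ← P.avg_add (P.ct_add cA cO) cL]
    exact P.avg_mono (P.ct_add (P.ct_add cA cO) cL) hcu h f
  have h7 := hCk r f hr0 hr1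
  have h8 := herr _ _ her hr2
  have h9 : t * (P.avg (P.trO a) f - P.LTr r a f) ≤ η := by
    have : P.avg (P.trO a) f - P.LTr r a f ≤ η / t := by linarith
    calc t * (P.avg (P.trO a) f - P.LTr r a f) ≤ t * (η / t) :=
          mul_le_mul_of_nonneg_left this htpos.le
      _ = η := by field_simp
  have h10 := hC₃ f (by rw [hfx]; exact hx)
  unfold kd at h10
  have g3 := mul_le_mul_of_nonneg_left (P.Tr_le_T r f hr0' hr1) htpos.le
  have g5 := mul_nonneg htpos.le (P.Tr_nonneg r (P.cst x) hr0' hr1)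
  linarith

end SD

end Crest.Agent.R269.Stat_85
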