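import Crest.Agent.R269.Green_740

/-!
# R269 (S0411), B5: the characteristic `TG q s` at `s = 1` (helper499)

`q : ℂ → ℝ` continuous on the open unit disc only.

* `intervalIntegrable_one` : `0 ≤ q`, `TG q s ≤ B` for all `s < 1` ⟹ the kernel
  `r log(1/r) avg_r q` is integrable on `(0,1)`;
* `tendsto_one` : if moreover `|p| ≤ C q`, then `TG p s → TG p 1` as `s → 1⁻`;
* `TG_one_le` : `TG q 1 ≤ B`, `TG_le_one` : `TG q s ≤ TG q 1`.
-/

set_option autoImplicit false

open MeasureTheory Set Filter Topology Real Metric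
open Crest.Agent.R269.Green_740

noncomputable section

namespace Crest.Agent.R269.TG1_499

variable {q p : ℂ → ℝ} {B C : ℝ}

theorem cav_continuousOn (hq : ContinuousOn q (ball 0 1)) {s : ℝ} (hs : s < 1) :
    ContinuousOn (fun r => circleAverage q 0 r) (Icc 0 s) :=
  circleAverage_continuousOn (hq.mono (closedBall_subset_ball hs))

theorem cav_nonneg (h0 : ∀ z ∈ ball (0 : ℂ) 1, 0 ≤ q z) {r : ℝ}
    (hr0 : 0 ≤ r) (hr : r < 1) : 0 ≤ circleAverage q 0 r := by
  rw [circleAverage_def]
  refine smul_nonneg (by positivity) (intervalIntegral.integral_nonneg (by positivity) ?_)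
  intro θ _
  refine h0 _ ?_
  rw [mem_ball_zero_iff, norm_circleMap_zero, abs_of_nonneg hr0]
  exact hr

theorem abs_cav_le (hq : ContinuousOn q (ball 0 1)) (hp : ContinuousOn p (ball 0 1))
    (h : ∀ z ∈ ball (0 : ℂ) 1, |p z| ≤ C * q z) {r : ℝ} (hr0 : 0 ≤ r) (hr : r < 1) :
    |circleAverage p 0 r| ≤ C * circleAverage q 0 r := by
  have hsub : sphere (0 : ℂ) |r| ⊆ ball 0 1 := by
    rw [abs_of_nonneg hr0]
    exact sphere_subset_closedBall.trans (closedBall_subset_ball hr)
  have hpi : CircleIntegrable p 0 r := (hp.mono hsub).circleIntegrable'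
  have hqi : CircleIntegrable q 0 r := (hq.mono hsub).circleIntegrable'
  refine Real.abs_circleAverage_le_circleAverage_abs.trans ?_
  have h2 := Real.circleAverage_fun_smul (a := C) (f := q) (c := 0) (R := r)
  simp only [smul_eq_mul] at h2
  rw [← h2]
  refine Real.circleAverage_mono hpi.abs ?_ fun z hz => h z (hsub hz)
  exact ((hq.mono hsub).const_smul C).circleIntegrable'

theorem kernel1_cont : Continuous fun r : ℝ => r * Real.log (1 / r) := kernel_cont 1 one_ne_zero

theorem integrand_cont (hq : ContinuousOn q (ball 0 1)) {s : ℝ} (hs : s < 1) :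
    ContinuousOn (fun r => r * Real.log (1 / r) * circleAverage q 0 r) (Icc 0 s) :=
  kernel1_cont.continuousOn.mul (cav_continuousOn hq hs)

theorem integrand_nonneg
    (h0 : ∀ z ∈ ball (0 : ℂ) 1, 0 ≤ q z) {r : ℝ} (hr0 : 0 ≤ r) (hr : r < 1) :
    0 ≤ r * Real.log (1 / r) * circleAverage q 0 r :=
  mul_nonneg (kernel_nonneg hr0 hr.le) (cav_nonneg h0 hr0 hr)

/-- bound of the truncated integrals of the limiting kernel -/
theorem integral_le (hq : ContinuousOn q (ball 0 1)) (h0 : ∀ z ∈ ball (0 : ℂ) 1, 0 ≤ q z)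
    (hB : ∀ s ∈ Ioo (0 : ℝ) 1, TG q s ≤ B) {t : ℝ} (ht0 : 0 < t) (ht1 : t < 1) :
    ∫ r in (0 : ℝ)..t, r * Real.log (1 / r) * circleAverage q 0 r ≤ B / 4 := by
  have hI : ∀ s : ℝ, s ≠ 0 → IntervalIntegrable
      (fun r => r * Real.log (s / r) * circleAverage q 0 r) volume 0 t := fun s hs =>
    ((kernel_cont s hs).continuousOn.mul (cav_continuousOn hq ht1)).intervalIntegrable_of_Icc ht0.le
  have hM : IntervalIntegrable (fun r => r * circleAverage q 0 r) volume 0 t :=
    (continuousOn_id.mul (cav_continuousOn hq ht1)).intervalIntegrable_of_Icc ht0.le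
  set M : ℝ := ∫ r in (0 : ℝ)..t, r * circleAverage q 0 r with hMdef
  have key : ∀ s ∈ Ioo t 1,
      ∫ r in (0 : ℝ)..t, r * Real.log (1 / r) * circleAverage q 0 r ≤ B / 4 - Real.log s * M := by
    intro s hs
    have hs0 : 0 < s := ht0.trans hs.1
    have e1 : ∫ r in (0 : ℝ)..t, r * Real.log (1 / r) * circleAverage q 0 r =
        (∫ r in (0 : ℝ)..t, r * Real.log (s / r) * circleAverage q 0 r) - Real.log s * M := by
      rw [hMdef, ← intervalIntegral.integral_const_mul,
        ← intervalIntegral.integral_sub (hI s hs0.ne') (hM.const_mul _)]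
      refine intervalIntegral.integral_congr fun r _ => ?_
      rw [kernel_eq hs0.ne', kernel_eq one_ne_zero, Real.log_one]
      ring
    have e2 : ∫ r in (0 : ℝ)..t, r * Real.log (s / r) * circleAverage q 0 r ≤
        ∫ r in (0 : ℝ)..s, r * Real.log (s / r) * circleAverage q 0 r := by
      have hq' : ContinuousOn q (closedBall 0 s) := hq.mono (closedBall_subset_ball hs.2)
      refine intervalIntegral.integral_mono_interval le_rfl ht0.le hs.1.le ?_
        (integrand_intervalIntegrable hs0.le hq')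
      filter_upwards [ae_restrict_mem measurableSet_Ioc] with r hr
      exact mul_nonneg (kernel_nonneg hr.1.le hr.2) (cav_nonneg h0 hr.1.le (hr.2.trans_lt hs.2))
    have e3 := hB s ⟨hs0, hs.2⟩
    unfold TG at e3
    rw [e1]
    linarith
  have hlim : Tendsto (fun s => B / 4 - Real.log s * M) (𝓝[<] 1) (𝓝 (B / 4 - Real.log 1 * M)) := by
    have h1 : ContinuousAt (fun s : ℝ => B / 4 - Real.log s * M) 1 :=
      continuousAt_const.sub ((Real.continuousAt_log one_ne_zero).mul continuousAt_const)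
    exact h1.tendsto.mono_left nhdsWithin_le_nhds
  rw [Real.log_one, zero_mul, sub_zero] at hlim
  refine ge_of_tendsto hlim ?_
  filter_upwards [Ioo_mem_nhdsLT ht1] with s hs
  exact key s hs

theorem integrableOn_one (hq : ContinuousOn q (ball 0 1)) (h0 : ∀ z ∈ ball (0 : ℂ) 1, 0 ≤ q z)
    (hB : ∀ s ∈ Ioo (0 : ℝ) 1, TG q s ≤ B) :
    IntegrableOn (fun r => r * Real.log (1 / r) * circleAverage q 0 r) (Ioc 0 1) volume := by
  set b : ℕ → ℝ := fun k => 1 - 1 / ((k : ℝ) + 2) with hb
  have hb0 : ∀ k, 0 < b k := fun k => by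
    have h1 : (0 : ℝ) < (k : ℝ) + 2 := by positivity
    have h2 : 1 / ((k : ℝ) + 2) < 1 := by rw [div_lt_one h1]; linarith [Nat.cast_nonneg (α := ℝ) k]
    simp only [hb]; linarith
  have hb1 : ∀ k, b k < 1 := fun k => by
    have h1 : (0 : ℝ) < 1 / ((k : ℝ) + 2) := by positivity
    simp only [hb]; linarith
  have hbt : Tendsto b atTop (𝓝 1) := by
    have h1 : Tendsto (fun k : ℕ => 1 / ((k : ℝ) + 2)) atTop (𝓝 0) := by
      have := (tendsto_const_div_atTop_nhds_zero_nat (1 : ℝ)).comp (tendsto_add_atTop_nat 2)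
      refine this.congr fun k => ?_
      simp only [Function.comp]
      push_cast
      rfl
    have := h1.const_sub 1
    rwa [sub_zero] at this
  refine integrableOn_Ioc_of_intervalIntegral_norm_bounded_right (b := b) (l := atTop) (I := B / 4)
    (fun k => ?_) hbt (Eventually.of_forall fun k => ?_)
  · exact ((integrand_cont hq (hb1 k)).integrableOn_Icc).mono_set Ioc_subset_Icc_self
  · rw [← intervalIntegral.integral_of_le (hb0 k).le]
    refine le_trans (le_of_eq ?_) (integral_le hq h0 hB (hb0 k) (hb1 k))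
    refine intervalIntegral.integral_congr fun r hr => ?_
    rw [uIcc_of_le (hb0 k).le] at hr
    rw [Real.norm_of_nonneg (integrand_nonneg h0 hr.1 (hr.2.trans_lt (hb1 k)))]

theorem intervalIntegrable_one (hq : ContinuousOn q (ball 0 1))
    (h0 : ∀ z ∈ ball (0 : ℂ) 1, 0 ≤ q z) (hB : ∀ s ∈ Ioo (0 : ℝ) 1, TG q s ≤ B) :
    IntervalIntegrable (fun r => r * Real.log (1 / r) * circleAverage q 0 r) volume 0 1 := by
  rw [intervalIntegrable_iff_integrableOn_Ioc_of_le zero_le_one]
  exact integrableOn_one hq h0 hB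

/-- **convergence** `TG p s → TG p 1` for `|p| ≤ C q`, `q` of finite characteristic -/
theorem tendsto_one (hq : ContinuousOn q (ball 0 1)) (h0 : ∀ z ∈ ball (0 : ℂ) 1, 0 ≤ q z)
    (hB : ∀ s ∈ Ioo (0 : ℝ) 1, TG q s ≤ B) (hp : ContinuousOn p (ball 0 1))
    (h : ∀ z ∈ ball (0 : ℂ) 1, |p z| ≤ C * q z) :
    Tendsto (fun s => TG p s) (𝓝[<] 1) (𝓝 (TG p 1)) := by
  unfold TG
  refine Tendsto.const_mul 4 ?_
  set F : ℝ → ℝ → ℝ := fun s => indicator {r | r ≤ s}
    (fun r => r * Real.log (s / r) * circleAverage p 0 r) with hF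
  have h1 : Tendsto (fun s => ∫ r in (0 : ℝ)..1, F s r) (𝓝[<] 1)
      (𝓝 (∫ r in (0 : ℝ)..1, r * Real.log (1 / r) * circleAverage p 0 r)) := by
    refine intervalIntegral.tendsto_integral_filter_of_dominated_convergence
      (fun r => C * (r * Real.log (1 / r) * circleAverage q 0 r)) ?_ ?_ ?_ ?_
    · filter_upwards [Ioo_mem_nhdsLT (zero_lt_one (α := ℝ))] with s hs
      rw [uIoc_of_le zero_le_one]
      have e : MeasurableSet {r : ℝ | r ≤ s} := measurableSet_Iic
      rw [hF, aestronglyMeasurable_indicator_iff e, Measure.restrict_restrict e]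
      have e2 : {r : ℝ | r ≤ s} ∩ Ioc 0 1 ⊆ Icc 0 s := fun r hr => ⟨hr.2.1.le, hr.1⟩
      have hc : ContinuousOn (fun r => r * Real.log (s / r) * circleAverage p 0 r) (Icc 0 s) :=
        (kernel_cont s hs.1.ne').continuousOn.mul (cav_continuousOn hp hs.2)
      exact ((hc.mono e2).aestronglyMeasurable (e.inter measurableSet_Ioc))
    · filter_upwards [Ioo_mem_nhdsLT (zero_lt_one (α := ℝ))] with s hs
      refine Eventually.of_forall fun r hr => ?_
      rw [uIoc_of_le zero_le_one] at hr
      have hr0 : 0 < r := hr.1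
      by_cases hrs : r ≤ s
      · have hr1 : r < 1 := hrs.trans_lt hs.2
        have e1 : F s r = r * Real.log (s / r) * circleAverage p 0 r := by
          simp only [hF]
          exact indicator_of_mem (s := {r : ℝ | r ≤ s}) hrs _
        rw [e1, norm_mul, Real.norm_of_nonneg (kernel_nonneg hr0.le hrs)]
        have e2 : Real.log (s / r) ≤ Real.log (1 / r) :=
          Real.log_le_log (div_pos hs.1 hr0) (div_le_div_of_nonneg_right hs.2.le hr0.le)
        have e3 := abs_cav_le hq hp h hr0.le hr1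
        have e4 : 0 ≤ C * circleAverage q 0 r := (abs_nonneg _).trans e3
        calc r * Real.log (s / r) * ‖circleAverage p 0 r‖
            ≤ r * Real.log (s / r) * (C * circleAverage q 0 r) :=
              mul_le_mul_of_nonneg_left e3 (kernel_nonneg hr0.le hrs)
          _ ≤ r * Real.log (1 / r) * (C * circleAverage q 0 r) :=
              mul_le_mul_of_nonneg_right (mul_le_mul_of_nonneg_left e2 hr0.le) e4
          _ = C * (r * Real.log (1 / r) * circleAverage q 0 r) := by ring
      · have e1 : F s r = 0 := by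
          simp only [hF]
          exact indicator_of_notMem (s := {r : ℝ | r ≤ s}) hrs _
        rw [e1, norm_zero]
        rcases hr.2.lt_or_eq with hr1 | hr1
        · have e3 := (abs_nonneg _).trans (abs_cav_le hq hp h hr0.le hr1)
          have e4 := mul_nonneg (kernel_nonneg hr0.le hr1.le) e3
          calc (0 : ℝ) ≤ _ := e4
            _ = _ := by ring
        · rw [hr1]; simp
    · exact (intervalIntegrable_one hq h0 hB).const_mul C
    · refine Eventually.of_forall fun r hr => ?_
      rw [uIoc_of_le zero_le_one] at hr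
      have hr0 : 0 < r := hr.1
      rcases hr.2.lt_or_eq with hr1 | hr1
      · have hc : ContinuousAt (fun s : ℝ => r * Real.log (s / r) * circleAverage p 0 r) 1 := by
          refine ContinuousAt.mul (continuousAt_const.mul ?_) continuousAt_const
          exact ContinuousAt.log (continuousAt_id.div_const r) (by simp [hr0.ne'])
        refine (hc.tendsto.mono_left nhdsWithin_le_nhds).congr' ?_
        filter_upwards [Ioo_mem_nhdsLT hr1] with s hs
        have hs' : r ∈ {r : ℝ | r ≤ s} := hs.1.le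
        simp only [hF]
        exact (indicator_of_mem hs' (fun r => r * Real.log (s / r) * circleAverage p 0 r)).symm
      · rw [hr1]
        have e0 : (1 : ℝ) * Real.log (1 / 1) * circleAverage p 0 1 = 0 := by simp
        rw [e0]
        refine (tendsto_const_nhds (x := (0 : ℝ))).congr' ?_
        filter_upwards [self_mem_nhdsWithin] with s hs
        have hs1 : s < 1 := hs
        have hs' : (1 : ℝ) ∉ {r : ℝ | r ≤ s} := fun h : (1 : ℝ) ≤ s => absurd h (not_le.2 hs1)
        simp only [hF]
        exact (indicator_of_notMem hs' _).symm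
  refine h1.congr' ?_
  filter_upwards [Ioo_mem_nhdsLT (zero_lt_one (α := ℝ))] with s hs
  simp only [hF]
  exact intervalIntegral.integral_indicator ⟨hs.1.le, hs.2.le⟩

theorem TG_one_le (hq : ContinuousOn q (ball 0 1)) (h0 : ∀ z ∈ ball (0 : ℂ) 1, 0 ≤ q z)
    (hB : ∀ s ∈ Ioo (0 : ℝ) 1, TG q s ≤ B) : TG q 1 ≤ B := by
  refine le_of_tendsto (tendsto_one (C := 1) hq h0 hB hq fun z hz => ?_) ?_
  · rw [abs_of_nonneg (h0 z hz), one_mul]
  · filter_upwards [Ioo_mem_nhdsLT (zero_lt_one (α := ℝ))] with s hs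
    exact hB s hs

theorem TG_le_one (hq : ContinuousOn q (ball 0 1)) (h0 : ∀ z ∈ ball (0 : ℂ) 1, 0 ≤ q z)
    (hB : ∀ s ∈ Ioo (0 : ℝ) 1, TG q s ≤ B) {s : ℝ} (hs0 : 0 ≤ s) (hs1 : s < 1) :
    TG q s ≤ TG q 1 := by
  refine ge_of_tendsto (tendsto_one (C := 1) hq h0 hB hq fun z hz => ?_) ?_
  · rw [abs_of_nonneg (h0 z hz), one_mul]
  · filter_upwards [Ioo_mem_nhdsLT hs1] with t ht
    exact TG_mono_radius hs0 ht.1.le (hq.mono (closedBall_subset_ball ht.2)) fun z hz =>
      h0 z (closedBall_subset_ball ht.2 hz)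

end Crest.Agent.R269.TG1_499
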