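import Crest.Agent.R269.TE_499
import Crest.Agent.R269.TG1_499
import Crest.Agent.R269.StMax_528
import Crest.Agent.R269.PosC_632
import Crest.Agent.R269.Iface_731
import Crest.Agent.R269.LevBr_901

/-!
# R269 (S0411), B5, part 2 (helper499): `TE E H 1`, the densities `omg`, `alpha`, `lev u`, `dens`,
boundary averages, normalised lifts

* (a) `tendsto_TE_one`, `TE1_eq`, `TE_one_add`, ..., `TE_le_one`, `abs_TE_one_sub_le`;
* (b) `ref_omg`, `dom_alpha`, `dom_lev`, `dom_dens`, `TE_dens`, `TE_dens_one`;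
* (c) `cav_eq : cav ψ H s = ψ (H 0) + TE (lev ψ) H s`, `bv ψ H = ψ (H 0) + TE (lev ψ) H 1`
      (average over the boundary circle), `tendsto_cav_bv`, `bv_add`, `bv_mono`, ...;
* (d) normalised lifts: `TE omg H 1 = - log |H 0|²`, `e_r = - cav (log nsq) H r`;
* (e) invariance under change of lift, constant discs.
-/

set_option autoImplicit false

open Set Filter Topology Metric Real
open MvPolynomial Crest.AlgGeometry.ProjEmb Crest.Agent.R269.Geo_328
open Crest.Agent.R269.DefsS_731 Crest.Agent.R269.Defs_58 Crest.Agent.R269.TE_499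
open Crest.Agent.R269.Iface_731 (dens)
open scoped ContDiff ComplexConjugate

noncomputable section

namespace Crest.Agent.R269.TE2_499

variable {N n : ℕ} {I : Ideal (HomCoordRing N)}

/-! ### (a) the characteristic at `1` -/

section one

variable {om E E' : EE N → EE N → ℝ} {C C' : ℝ} {H : ℂ → EE N}

theorem tendsto_TE_one (ho : Ref I om) (h : Dom I om E C) (hH : IsDisc I H) (hf : FinE om H) :
    Tendsto (fun s => TE E H s) (𝓝[<] 1) (𝓝 (TE E H 1)) := by
  obtain ⟨B, hB⟩ := hf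
  exact TG1_499.tendsto_one (q := fun z => om (H z) (deriv H z)) (B := B) (C := C)
    (ho.cont.continuousOn hH)
    (fun z hz => ho.nonneg _ (hH.cone z hz) _ (disc_deriv_mem_Tan hH hz)) hB
    (h.cont.continuousOn hH)
    (fun z hz => h.bd _ (hH.cone z hz) _ (disc_deriv_mem_Tan hH hz))

theorem TE1_eq (ho : Ref I om) (h : Dom I om E C) (hH : IsDisc I H) (hf : FinE om H) :
    TE1 E H = TE E H 1 := TE1_unique (tendsto_TE_one ho h hH hf)

theorem TE_one_congr (hH : IsDisc I H) (h : ∀ p ∈ Cone I, ∀ v ∈ Tan I p, E p v = E' p v) :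
    TE E H 1 = TE E' H 1 := by
  show Green_740.TG _ 1 = Green_740.TG _ 1
  unfold Green_740.TG
  congr 1
  refine intervalIntegral.integral_congr fun r hr => ?_
  rw [uIcc_of_le zero_le_one] at hr
  rcases hr.2.lt_or_eq with hr1 | hr1
  · show _ * _ = _ * _
    congr 1
    refine Real.circleAverage_congr_sphere fun z hz => ?_
    rw [mem_sphere_zero_iff_norm, abs_of_nonneg hr.1] at hz
    have hz' : z ∈ ball (0 : ℂ) 1 := by rw [mem_ball_zero_iff, hz]; exact hr1
    exact h _ (hH.cone z hz') _ (disc_deriv_mem_Tan hH hz')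
  · rw [hr1]; simp

theorem TE_one_add (ho : Ref I om) (h : Dom I om E C) (h' : Dom I om E' C') (hH : IsDisc I H)
    (hf : FinE om H) : TE (fun p v => E p v + E' p v) H 1 = TE E H 1 + TE E' H 1 := by
  rw [← TE1_eq ho (h.add h') hH hf, ← TE1_eq ho h hH hf, ← TE1_eq ho h' hH hf,
    TE1_add ho h h' hH hf]

theorem TE_one_sub (ho : Ref I om) (h : Dom I om E C) (h' : Dom I om E' C') (hH : IsDisc I H)
    (hf : FinE om H) : TE (fun p v => E p v - E' p v) H 1 = TE E H 1 - TE E' H 1 := by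
  rw [← TE1_eq ho (h.sub h') hH hf, ← TE1_eq ho h hH hf, ← TE1_eq ho h' hH hf,
    TE1_sub ho h h' hH hf]

theorem TE_one_le (ho : Ref I om) (h : Dom I om E C) (h' : Dom I om E' C') (hH : IsDisc I H)
    (hf : FinE om H) (hle : ∀ p ∈ Cone I, ∀ v ∈ Tan I p, E p v ≤ E' p v) :
    TE E H 1 ≤ TE E' H 1 := by
  rw [← TE1_eq ho h hH hf, ← TE1_eq ho h' hH hf]
  exact TE1_le ho h h' hH hf hle

theorem TE_le_one (ho : Ref I om) (hH : IsDisc I H) (hf : FinE om H) {s : ℝ} (h0 : 0 ≤ s)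
    (h1 : s < 1) : TE om H s ≤ TE om H 1 := by
  rw [← TE1_eq ho ho.dom hH hf]
  exact TE_le_TE1 ho hH hf h0 h1

theorem TE_one_nonneg (ho : Ref I om) (hH : IsDisc I H) (hf : FinE om H) : 0 ≤ TE om H 1 := by
  rw [← TE1_eq ho ho.dom hH hf]
  exact TE1_nonneg ho hH hf

/-- `|T_E(1) - T_E(r)| ≤ C e_r`, `e_r = T_ω(1) - T_ω(r)` -/
theorem abs_TE_one_sub_le (ho : Ref I om) (h : Dom I om E C) (hH : IsDisc I H) (hf : FinE om H)
    {r : ℝ} (h0 : 0 ≤ r) (h1 : r < 1) :
    |TE E H 1 - TE E H r| ≤ C * (TE om H 1 - TE om H r) := by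
  rw [← TE1_eq ho h hH hf, ← TE1_eq ho ho.dom hH hf]
  exact abs_TE1_sub_le ho h hH hf h0 h1

theorem abs_TE_one_le (ho : Ref I om) (h : Dom I om E C) (hH : IsDisc I H) (hf : FinE om H) :
    |TE E H 1| ≤ C * TE om H 1 := by
  rw [← TE1_eq ho h hH hf, ← TE1_eq ho ho.dom hH hf]
  exact abs_TE1_le ho h hH hf

theorem tendsto_err_one (ho : Ref I om) (hH : IsDisc I H) (hf : FinE om H) :
    Tendsto (fun r => TE om H 1 - TE om H r) (𝓝[<] 1) (𝓝 0) := by
  rw [← TE1_eq ho ho.dom hH hf]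
  exact tendsto_err ho hH hf

/-- a bound of the characteristics bounds the limit -/
theorem TE_one_le_of (ho : Ref I om) (h : Dom I om E C) (hH : IsDisc I H) (hf : FinE om H) {K : ℝ}
    (hK : ∀ s ∈ Ioo (0 : ℝ) 1, TE E H s ≤ K) : TE E H 1 ≤ K := by
  refine le_of_tendsto (tendsto_TE_one ho h hH hf) ?_
  filter_upwards [Ioo_mem_nhdsLT (zero_lt_one (α := ℝ))] with s hs
  exact hK s hs

/-- a density with `E ≥ ω` of bounded characteristic has finite `ω`-energy -/
theorem finE_of_ge (ho : Ref I om) (hE : CDens I E) (hH : IsDisc I H)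
    (hle : ∀ p ∈ Cone I, ∀ v ∈ Tan I p, om p v ≤ E p v) {K : ℝ}
    (hK : ∀ s ∈ Ioo (0 : ℝ) 1, TE E H s ≤ K) : FinE om H :=
  ⟨K, fun s hs => (TE_le ho.cont hE hH hs.1.le hs.2 hle).trans (hK s hs)⟩

/-- for `E ≥ 0` of finite energy, `T_E(s) ≤ T_E(1)` -/
theorem TE_le_one_of_nonneg (ho : Ref I om) (h : Dom I om E C) (hH : IsDisc I H)
    (hf : FinE om H) (h0 : ∀ p ∈ Cone I, ∀ v ∈ Tan I p, 0 ≤ E p v) {s : ℝ} (hs0 : 0 ≤ s)
    (hs1 : s < 1) : TE E H s ≤ TE E H 1 := by
  refine ge_of_tendsto (tendsto_TE_one ho h hH hf) ?_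
  filter_upwards [Ioo_mem_nhdsLT hs1] with t ht
  exact TE_mono_radius h.cont hH hs0 ht.1.le ht.2 h0

end one

/-! ### (b) the densities of the proof -/

section inst

theorem cdens_of_dens {E : EE N → EE N → ℝ} (h : StFun_528.Dens I E) : CDens I E := h.cont

theorem ref_omg : Ref I (fun p v => omg p v) :=
  ⟨cdens_of_dens StMax_528.dens_omg, fun p _ v _ => StMax_528.omg_nonneg p v⟩

theorem cdens_of_frm {E : EE N → EE N → ℝ} (h : PosC_632.Frm I E) : CDens I E :=
  fun x hx => h.cont x.1 hx.1 x.2 hx.2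

theorem dom_of_frm (hX : IsSmoothProjective I n) {E : EE N → EE N → ℝ} (h : PosC_632.Frm I E) :
    ∃ C : ℝ, 0 ≤ C ∧ Dom I (fun p v => omg p v) E C := by
  obtain ⟨C, hC⟩ := h.bdd hX
  refine ⟨|C|, abs_nonneg C, cdens_of_frm h, fun p hp v hv => (hC p hp v hv).trans ?_⟩
  exact mul_le_mul_of_nonneg_right (le_abs_self C) (StMax_528.omg_nonneg p v)

theorem frm_dens (hI : I.IsPrime) (hX : IsSmoothProjective I n) {u : EE N → ℝ} (hu : SmX I u)
    (cθ cω : ℝ) : PosC_632.Frm I (dens I n cθ cω u) :=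
  (((PosC_632.frm_alpha hI hX).const_mul cθ).add ((PosC_632.frm_omg hI hX).const_mul cω)).add
    (PosC_632.frm_lev hI hX hu)

theorem dom_omg : Dom I (fun p v => omg p v) (fun p v => omg p v) 1 := ref_omg.dom

theorem dom_alpha (hI : I.IsPrime) (hX : IsSmoothProjective I n) :
    ∃ C : ℝ, 0 ≤ C ∧ Dom I (fun p v => omg p v) (fun p v => alpha I n p v) C :=
  dom_of_frm hX (PosC_632.frm_alpha hI hX)

theorem dom_lev (hI : I.IsPrime) (hX : IsSmoothProjective I n) {u : EE N → ℝ} (hu : SmX I u) :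
    ∃ C : ℝ, 0 ≤ C ∧ Dom I (fun p v => omg p v) (fun p v => lev u p v) C :=
  dom_of_frm hX (PosC_632.frm_lev hI hX hu)

theorem dom_dens (hI : I.IsPrime) (hX : IsSmoothProjective I n) {u : EE N → ℝ} (hu : SmX I u)
    (cθ cω : ℝ) : ∃ C : ℝ, 0 ≤ C ∧ Dom I (fun p v => omg p v) (dens I n cθ cω u) C :=
  dom_of_frm hX (frm_dens hI hX hu cθ cω)

/-- `Dens` of 528 from 632's `Frm` -/
theorem dens_of_frm {E : EE N → EE N → ℝ} (h : PosC_632.Frm I E) :
    StFun_528.Dens I E where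
  cont := cdens_of_frm h
  inv p hp v hv c hc r := by
    have h1 := h.inv p hp v hv c hc (c⁻¹ * r)
    rw [smul_add, smul_smul, mul_inv_cancel_left₀ hc] at h1
    exact h1

variable {H : ℂ → EE N}

theorem TE_dens (hI : I.IsPrime) (hX : IsSmoothProjective I n) {u : EE N → ℝ} (hu : SmX I u)
    (cθ cω : ℝ) (hH : IsDisc I H) {s : ℝ} (h0 : 0 ≤ s) (h1 : s < 1) :
    TE (dens I n cθ cω u) H s =
      cθ * TE (fun p v => alpha I n p v) H s + cω * TE (fun p v => omg p v) H s +
        TE (fun p v => lev u p v) H s := by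
  have ha := cdens_of_frm ((PosC_632.frm_alpha hI hX).const_mul cθ)
  have ho := cdens_of_frm ((PosC_632.frm_omg hI hX).const_mul cω)
  have hl := cdens_of_frm (PosC_632.frm_lev hI hX hu)
  have e1 := TE_add (ha.add ho) hl hH h0 h1
  have e2 := TE_add ha ho hH h0 h1
  rw [TE_const_mul, TE_const_mul] at e2
  rw [← e2, ← e1]
  rfl

theorem TE_dens_one (hI : I.IsPrime) (hX : IsSmoothProjective I n) {u : EE N → ℝ} (hu : SmX I u)
    (cθ cω : ℝ) (hH : IsDisc I H) (hf : FinE (fun p v => omg p v) H) :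
    TE (dens I n cθ cω u) H 1 =
      cθ * TE (fun p v => alpha I n p v) H 1 + cω * TE (fun p v => omg p v) H 1 +
        TE (fun p v => lev u p v) H 1 := by
  obtain ⟨Ca, -, ha⟩ := dom_alpha hI hX
  obtain ⟨Cl, -, hl⟩ := dom_lev hI hX hu
  have ha' := ha.const_mul cθ
  have ho' := (dom_omg (I := I)).const_mul cω
  have e1 := TE_one_add ref_omg (ha'.add ho') hl hH hf
  have e2 := TE_one_add ref_omg ha' ho' hH hf
  rw [TE_const_mul, TE_const_mul] at e2
  rw [← e2, ← e1]
  rfl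

end inst

/-! ### (c) Jensen, boundary averages -/

section jensen

variable {H : ℂ → EE N} {u w : EE N → ℝ}

theorem sm2 (hu : SmX I u) : ∀ p ∈ Cone I, ContDiffAt ℝ 2 u p := fun p hp =>
  (hu.1 p hp).of_le (WithTop.coe_le_coe.2 le_top)

theorem lev_fun_eq (u : EE N → ℝ) : (fun p v : EE N => lev u p v) = LevC_653.lev u := by
  funext p v; exact StMax_528.lev_eq u p v

/-- Jensen's formula for `C²` functions near the cone -/
theorem cav_eq (hu : ∀ p ∈ Cone I, ContDiffAt ℝ 2 u p) (hH : IsDisc I H) {s : ℝ} (h0 : 0 ≤ s)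
    (h1 : s < 1) : cav u H s = u (H 0) + TE (fun p v => lev u p v) H s := by
  rw [lev_fun_eq, ← jensen_cav hu hH h0 h1]; ring

/-- the average over the boundary circle of `u` along `H` -/
def bv (u : EE N → ℝ) (H : ℂ → EE N) : ℝ := u (H 0) + TE (fun p v => lev u p v) H 1

theorem tendsto_cav_bv (hI : I.IsPrime) (hX : IsSmoothProjective I n) (hu : SmX I u)
    (hH : IsDisc I H) (hf : FinE (fun p v => omg p v) H) :
    Tendsto (fun s => cav u H s) (𝓝[<] 1) (𝓝 (bv u H)) := by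
  obtain ⟨C, -, hC⟩ := dom_lev hI hX hu
  refine ((tendsto_TE_one ref_omg hC hH hf).const_add (u (H 0))).congr' ?_
  filter_upwards [Ioo_mem_nhdsLT (zero_lt_one (α := ℝ))] with s hs
  exact (cav_eq (sm2 hu) hH hs.1.le hs.2).symm

/-- `|bv u - cav u r| ≤ C e_r` -/
theorem abs_bv_sub_cav_le (hI : I.IsPrime) (hX : IsSmoothProjective I n) (hu : SmX I u) :
    ∃ C : ℝ, 0 ≤ C ∧ ∀ H, IsDisc I H → FinE (fun p v => omg p v) H → ∀ r, 0 ≤ r → r < 1 →
      |bv u H - cav u H r| ≤
        C * (TE (fun p v => omg p v) H 1 - TE (fun p v => omg p v) H r) := by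
  obtain ⟨C, hC0, hC⟩ := dom_lev hI hX hu
  refine ⟨C, hC0, fun H hH hf r h0 h1 => ?_⟩
  have h2 := abs_TE_one_sub_le ref_omg hC hH hf h0 h1
  have h3 := cav_eq (sm2 hu) hH h0 h1
  have h4 : bv u H - cav u H r = TE (fun p v => lev u p v) H 1 - TE (fun p v => lev u p v) H r := by
    unfold bv; linarith
  rwa [h4]

theorem TE_lev_const (c : ℝ) (H : ℂ → EE N) (s : ℝ) :
    TE (fun p v => lev (fun _ : EE N => c) p v) H s = 0 := by
  have : (fun p v : EE N => lev (fun _ : EE N => c) p v) = fun _ _ => 0 := by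
    funext p v; exact LevBr_901.lev_const c p v
  rw [this]
  show Green_740.TG _ s = 0
  simp [Green_740.TG, Real.circleAverage]

theorem bv_const (c : ℝ) (H : ℂ → EE N) : bv (fun _ => c) H = c := by
  unfold bv
  rw [TE_lev_const, add_zero]

theorem bv_add (hI : I.IsPrime) (hX : IsSmoothProjective I n) (hu : SmX I u) (hw : SmX I w)
    (hH : IsDisc I H) (hf : FinE (fun p v => omg p v) H) :
    bv (fun q => u q + w q) H = bv u H + bv w H := by
  obtain ⟨C, -, hC⟩ := dom_lev hI hX hu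
  obtain ⟨C', -, hC'⟩ := dom_lev hI hX hw
  unfold bv
  have e1 := TE_one_congr (E := fun p v => lev (fun q => u q + w q) p v)
    (E' := fun p v => lev u p v + lev w p v) hH
    (fun p hp v _ => LevBr_901.smX_lev_add hu hw hp v)
  rw [e1, TE_one_add ref_omg hC hC' hH hf]
  ring

theorem bv_const_mul (c : ℝ) (hu : SmX I u)
    (hH : IsDisc I H) : bv (fun q => c * u q) H = c * bv u H := by
  unfold bv
  have e1 := TE_one_congr (E := fun p v => lev (fun q => c * u q) p v)
    (E' := fun p v => c * lev u p v) hH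
    (fun p hp v _ => LevBr_901.smX_lev_const_mul c hu hp v)
  rw [e1, TE_const_mul]
  ring

theorem cav_mono (hu : ContinuousOn u (Cone I)) (hw : ContinuousOn w (Cone I))
    (hle : ∀ p ∈ Cone I, u p ≤ w p) (hH : IsDisc I H) {s : ℝ} (h0 : 0 ≤ s) (h1 : s < 1) :
    cav u H s ≤ cav w H s := by
  have hsub : sphere (0 : ℂ) |s| ⊆ ball 0 1 := by
    rw [abs_of_nonneg h0]
    exact sphere_subset_closedBall.trans (closedBall_subset_ball h1)
  have hci : ∀ {f : EE N → ℝ}, ContinuousOn f (Cone I) → CircleIntegrable (fun z => f (H z)) 0 s :=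
    fun hf => ContinuousOn.circleIntegrable' ((hf.comp hH.hol.continuousOn
      (fun z hz => hH.cone z hz)).mono hsub)
  exact Real.circleAverage_mono (hci hu) (hci hw) fun z hz => hle _ (hH.cone z (hsub hz))

theorem smX_continuousOn (hu : SmX I u) : ContinuousOn u (Cone I) := fun p hp =>
  (hu.1 p hp).continuousAt.continuousWithinAt

theorem bv_mono (hI : I.IsPrime) (hX : IsSmoothProjective I n) (hu : SmX I u) (hw : SmX I w)
    (hle : ∀ p ∈ Cone I, u p ≤ w p) (hH : IsDisc I H) (hf : FinE (fun p v => omg p v) H) :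
    bv u H ≤ bv w H := by
  refine le_of_tendsto_of_tendsto (tendsto_cav_bv hI hX hu hH hf) (tendsto_cav_bv hI hX hw hH hf) ?_
  filter_upwards [Ioo_mem_nhdsLT (zero_lt_one (α := ℝ))] with s hs
  exact cav_mono (smX_continuousOn hu) (smX_continuousOn hw) hle hH hs.1.le hs.2

theorem bv_congr (hI : I.IsPrime) (hX : IsSmoothProjective I n) (hu : SmX I u) (hw : SmX I w)
    (heq : ∀ p ∈ Cone I, u p = w p) (hH : IsDisc I H) (hf : FinE (fun p v => omg p v) H) :
    bv u H = bv w H :=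
  le_antisymm (bv_mono hI hX hu hw (fun p hp => (heq p hp).le) hH hf)
    (bv_mono hI hX hw hu (fun p hp => (heq p hp).ge) hH hf)

end jensen

/-! ### (d) normalised lifts -/

section normal

variable {H : ℂ → EE N}

theorem cav_log_nsq (hH : IsDisc I H) {s : ℝ} (h0 : 0 ≤ s) (h1 : s < 1) :
    Real.circleAverage (fun z => Real.log (nsq (H z))) 0 s =
      Real.log (nsq (H 0)) + TE (fun p v => omg p v) H s := by
  rw [← StMax_528.Tom_eq_TE hH h0 h1]
  unfold StCpt_528.Tom
  show _ = Real.log (nsq (H 0)) + (Real.circleAverage (fun z => Real.log (nsq (H z))) 0 s -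
    Real.log (nsq (H 0)))
  ring

theorem cav_log_nsq_nonpos (hH : IsDisc I H) (hN : Normal H) {s : ℝ} (h0 : 0 ≤ s) (h1 : s < 1) :
    Real.circleAverage (fun z => Real.log (nsq (H z))) 0 s ≤ 0 := by
  have hsub : sphere (0 : ℂ) |s| ⊆ ball 0 1 := by
    rw [abs_of_nonneg h0]
    exact sphere_subset_closedBall.trans (closedBall_subset_ball h1)
  refine Real.circleAverage_mono_on_of_le_circle ?_ fun z hz => ?_
  · refine ContinuousOn.circleIntegrable' ?_
    intro z hz
    have hz' := hsub hz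
    refine ContinuousWithinAt.log ?_ ?_
    · have hc : Continuous (fun p : EE N => nsq p) := by unfold nsq; fun_prop
      exact (hc.continuousAt.comp (disc_differentiableAt hH hz').continuousAt).continuousWithinAt
    · exact (Brody_164.nsq_pos (hH.cone z hz').2).ne'
  · exact Real.log_nonpos (Brody_164.nsq_nonneg _) (hN.le_one z (hsub hz))

/-- a normalised lift has finite energy -/
theorem finE_of_normal (hH : IsDisc I H) (hN : Normal H) : FinE (fun p v => omg p v) H := by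
  refine ⟨-Real.log (nsq (H 0)), fun s hs => ?_⟩
  have h1 := cav_log_nsq hH hs.1.le hs.2
  have h2 := cav_log_nsq_nonpos hH hN hs.1.le hs.2
  linarith

/-- `T_ω(1) = - log |H(0)|²` for a normalised lift -/
theorem TE_one_of_normal (hH : IsDisc I H) (hN : Normal H) :
    TE (fun p v => omg p v) H 1 = -Real.log (nsq (H 0)) := by
  have h1 := tendsto_TE_one ref_omg dom_omg hH (finE_of_normal hH hN)
  have h2 : Tendsto (fun s => TE (fun p v => omg p v) H s) (𝓝[<] 1)
      (𝓝 (0 - Real.log (nsq (H 0)))) := by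
    refine (hN.avg.sub_const (Real.log (nsq (H 0)))).congr' ?_
    filter_upwards [Ioo_mem_nhdsLT (zero_lt_one (α := ℝ))] with s hs
    rw [cav_log_nsq hH hs.1.le hs.2]; ring
  rw [zero_sub] at h2
  exact tendsto_nhds_unique h1 h2

/-- `e_r = T_ω(1) - T_ω(r) = - avg_{|z| = r} log |H|²` for a normalised lift -/
theorem err_of_normal (hH : IsDisc I H) (hN : Normal H) {r : ℝ} (h0 : 0 ≤ r) (h1 : r < 1) :
    TE (fun p v => omg p v) H 1 - TE (fun p v => omg p v) H r =
      Real.circleAverage (fun z => -Real.log (nsq (H z))) 0 r := by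
  rw [TE_one_of_normal hH hN]
  have h2 := cav_log_nsq hH h0 h1
  have h3 := Real.circleAverage_fun_smul (a := (-1 : ℝ))
    (f := fun z => Real.log (nsq (H z))) (c := 0) (R := r)
  simp only [smul_eq_mul, neg_mul, one_mul] at h3
  rw [h3, h2]
  ring

end normal

/-! ### (e) change of lift, constant discs -/

section tw

variable {H : ℂ → EE N} {E : EE N → EE N → ℝ}

theorem TE_tw (hE : StFun_528.Dens I E) (hH : IsDisc I H) {φ : ℂ → ℂ}
    (hφ : DifferentiableOn ℂ φ (ball 0 1)) {s : ℝ} (hs : s ∈ Ioo (0 : ℝ) 1) :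
    TE E (Iface_731.tw φ H) s = TE E H s := (hE.funC_TE hs).inv H φ hH hφ

theorem TE_tw_one (hE : StFun_528.Dens I E) (hH : IsDisc I H) {φ : ℂ → ℂ}
    (hφ : DifferentiableOn ℂ φ (ball 0 1)) : TE E (Iface_731.tw φ H) 1 = TE E H 1 := by
  show Green_740.TG _ 1 = Green_740.TG _ 1
  unfold Green_740.TG
  congr 1
  refine intervalIntegral.integral_congr fun r hr => ?_
  rw [uIcc_of_le zero_le_one] at hr
  rcases hr.2.lt_or_eq with hr1 | hr1
  · show _ * _ = _ * _
    congr 1
    refine Real.circleAverage_congr_sphere fun z hz => ?_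
    rw [mem_sphere_zero_iff_norm, abs_of_nonneg hr.1] at hz
    have hz' : z ∈ ball (0 : ℂ) 1 := by rw [mem_ball_zero_iff, hz]; exact hr1
    exact hE.comp_tw hH hφ hz'
  · rw [hr1]; simp

theorem finE_tw (hE : StFun_528.Dens I E) (hH : IsDisc I H) {φ : ℂ → ℂ}
    (hφ : DifferentiableOn ℂ φ (ball 0 1)) : FinE E (Iface_731.tw φ H) ↔ FinE E H :=
  ⟨fun ⟨B, hB⟩ => ⟨B, fun s hs => by rw [← TE_tw hE hH hφ hs]; exact hB s hs⟩,
    fun ⟨B, hB⟩ => ⟨B, fun s hs => by rw [TE_tw hE hH hφ hs]; exact hB s hs⟩⟩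

theorem bv_tw (hI : I.IsPrime) (hX : IsSmoothProjective I n) {u : EE N → ℝ} (hu : SmX I u)
    (hH : IsDisc I H) {φ : ℂ → ℂ} (hφ : DifferentiableOn ℂ φ (ball 0 1)) :
    bv u (Iface_731.tw φ H) = bv u H := by
  unfold bv
  rw [TE_tw_one (dens_of_frm (PosC_632.frm_lev hI hX hu)) hH hφ]
  congr 1
  exact hu.2 (H 0) (hH.cone 0 (mem_ball_self one_pos)) _ (Complex.exp_ne_zero _)

/-- the constant disc -/
theorem isDisc_const {p : EE N} (hp : p ∈ Cone I) : IsDisc I (fun _ => p) :=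
  ⟨differentiableOn_const _, fun _ _ => hp⟩

theorem TE_cst (hE : PosC_632.Frm I E) {p : EE N} (hp : p ∈ Cone I) (s : ℝ) :
    TE E (fun _ : ℂ => p) s = 0 := by
  have h1 : (fun z : ℂ => E p (deriv (fun _ : ℂ => p) z)) = fun _ => 0 := by
    funext z; rw [deriv_const]; exact hE.zero hp
  show Green_740.TG (fun z : ℂ => E p (deriv (fun _ : ℂ => p) z)) s = 0
  rw [h1]
  simp [Green_740.TG, Real.circleAverage]

theorem finE_cst (hI : I.IsPrime) (hX : IsSmoothProjective I n) {p : EE N} (hp : p ∈ Cone I) :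
    FinE (fun p v => omg p v) (fun _ : ℂ => p) :=
  ⟨0, fun s _ => (TE_cst (PosC_632.frm_omg hI hX) hp s).le⟩

theorem bv_cst (hI : I.IsPrime) (hX : IsSmoothProjective I n) {u : EE N → ℝ} (hu : SmX I u)
    {p : EE N} (hp : p ∈ Cone I) : bv u (fun _ : ℂ => p) = u p := by
  unfold bv
  rw [TE_cst (PosC_632.frm_lev hI hX hu) hp, add_zero]

end tw

end Crest.Agent.R269.TE2_499
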