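import Mathlib

/-!
# Two constants theorem on the lens `ball 0 1 ∩ ball z₀ r`, `|z₀| = 1` (helper79, row 269, leaf L2)

Vector valued, explicit exponent, no subharmonic functions: the maximum modulus principle for
`exp (λ g) • u` with `g = 1 + (2 i / π) Log ((r + i t) / (r - i t))`, `t = 1 - z / z₀`.
-/

set_option autoImplicit false

noncomputable section

open Complex Metric Set Filter Topology

namespace Crest.Agent.R269.TwoC_79

/-- the exponent of the two constants theorem -/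
def tce (κ : ℝ) : ℝ := 1 - 2 / Real.pi * Real.arctan (2 * κ / (1 - κ ^ 2))

lemma tce_pos (κ : ℝ) : 0 < tce κ := by
  have h := Real.arctan_lt_pi_div_two (2 * κ / (1 - κ ^ 2))
  have hp := Real.pi_pos
  have : 2 / Real.pi * Real.arctan (2 * κ / (1 - κ ^ 2)) < 2 / Real.pi * (Real.pi / 2) := by
    gcongr
  have h2 : 2 / Real.pi * (Real.pi / 2) = 1 := by field_simp
  unfold tce
  linarith

lemma tce_le_one {κ : ℝ} (h0 : 0 ≤ κ) (h1 : κ < 1) : tce κ ≤ 1 := by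
  have h : 0 ≤ Real.arctan (2 * κ / (1 - κ ^ 2)) := by
    apply Real.arctan_nonneg.mpr
    apply div_nonneg (by linarith)
    nlinarith
  have hp := Real.pi_pos
  have : 0 ≤ 2 / Real.pi * Real.arctan (2 * κ / (1 - κ ^ 2)) := by positivity
  unfold tce
  linarith

section geometry

variable {r : ℝ} {t : ℂ}

/-- the conformal coordinate -/
def wf (r : ℝ) (t : ℂ) : ℂ := (r + I * t) / (r - I * t)

lemma den_ne (hr : 0 < r) (ht : ‖t‖ ^ 2 ≤ 2 * t.re) : (r : ℂ) - I * t ≠ 0 := by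
  intro h
  have h1 : t = -(r * I) := by
    have : I * t = r := (sub_eq_zero.mp h).symm
    calc t = -(I * (I * t)) := by rw [← mul_assoc, I_mul_I]; ring
      _ = -(r * I) := by rw [this]; ring
  have h2 : t.re = 0 := by rw [h1]; simp
  have h3 : ‖t‖ = r := by rw [h1]; simp [abs_of_pos hr]
  rw [h2, h3] at ht
  nlinarith

lemma wf_eq (hr : 0 < r) (ht : ‖t‖ ^ 2 ≤ 2 * t.re) :
    wf r t = (((r ^ 2 - ‖t‖ ^ 2) / ‖(r : ℂ) - I * t‖ ^ 2 : ℝ) : ℂ)
      + ((2 * r * t.re / ‖(r : ℂ) - I * t‖ ^ 2 : ℝ) : ℂ) * I := by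
  have h0 := den_ne hr ht
  have h1 : (‖(r : ℂ) - I * t‖ ^ 2 : ℂ) = ((r : ℂ) - I * t) * (starRingEnd ℂ) ((r : ℂ) - I * t) := by
    rw [mul_conj, normSq_eq_norm_sq]; push_cast; ring
  have h2 : (starRingEnd ℂ) ((r : ℂ) - I * t) ≠ 0 := by
    rwa [Ne, map_eq_zero]
  have h3 : ((r : ℂ) + I * t) * (starRingEnd ℂ) ((r : ℂ) - I * t)
      = ((r ^ 2 - ‖t‖ ^ 2 : ℝ) : ℂ) + ((2 * r * t.re : ℝ) : ℂ) * I := by
    have h4 : ((‖t‖ ^ 2 : ℝ) : ℂ) = t * (starRingEnd ℂ) t := by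
      rw [mul_conj, normSq_eq_norm_sq]
    have h5 : ((2 * r * t.re : ℝ) : ℂ) = r * (t + (starRingEnd ℂ) t) := by
      rw [add_conj]; push_cast; ring
    rw [h5]
    push_cast at h4 ⊢
    rw [h4]
    simp only [map_sub, map_mul, conj_ofReal, conj_I]
    ring_nf
    rw [I_sq]
    ring
  unfold wf
  rw [div_eq_iff h0]
  have h6 : (((r ^ 2 - ‖t‖ ^ 2) / ‖(r : ℂ) - I * t‖ ^ 2 : ℝ) : ℂ)
      + ((2 * r * t.re / ‖(r : ℂ) - I * t‖ ^ 2 : ℝ) : ℂ) * I
      = (((r ^ 2 - ‖t‖ ^ 2 : ℝ) : ℂ) + ((2 * r * t.re : ℝ) : ℂ) * I) /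
        (((r : ℂ) - I * t) * (starRingEnd ℂ) ((r : ℂ) - I * t)) := by
    rw [← h1]; push_cast; ring
  rw [h6, ← h3]
  field_simp

lemma wf_re (hr : 0 < r) (ht : ‖t‖ ^ 2 ≤ 2 * t.re) :
    (wf r t).re = (r ^ 2 - ‖t‖ ^ 2) / ‖(r : ℂ) - I * t‖ ^ 2 := by
  rw [wf_eq hr ht, add_re, ofReal_re, re_ofReal_mul, I_re, mul_zero, add_zero]

lemma wf_im (hr : 0 < r) (ht : ‖t‖ ^ 2 ≤ 2 * t.re) :
    (wf r t).im = 2 * r * t.re / ‖(r : ℂ) - I * t‖ ^ 2 := by
  rw [wf_eq hr ht, add_im, ofReal_im, im_ofReal_mul, I_im, mul_one, zero_add]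

lemma den_pos (hr : 0 < r) (ht : ‖t‖ ^ 2 ≤ 2 * t.re) : 0 < ‖(r : ℂ) - I * t‖ ^ 2 := by
  have := norm_pos_iff.mpr (den_ne hr ht)
  positivity

lemma wf_re_nonneg (hr : 0 < r) (ht : ‖t‖ ^ 2 ≤ 2 * t.re) (htr : ‖t‖ ≤ r) : 0 ≤ (wf r t).re := by
  rw [wf_re hr ht]
  apply div_nonneg _ (sq_nonneg _)
  nlinarith [norm_nonneg t]

lemma wf_im_nonneg (hr : 0 < r) (ht : ‖t‖ ^ 2 ≤ 2 * t.re) : 0 ≤ (wf r t).im := by
  rw [wf_im hr ht]
  apply div_nonneg _ (sq_nonneg _)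
  nlinarith [sq_nonneg ‖t‖]

lemma wf_slit (hr : 0 < r) (ht : ‖t‖ ^ 2 ≤ 2 * t.re) (htr : ‖t‖ ≤ r) : wf r t ∈ slitPlane := by
  have hd := den_pos hr ht
  rcases lt_or_eq_of_le htr with h | h
  · left
    rw [wf_re hr ht]
    apply div_pos _ hd
    nlinarith [norm_nonneg t]
  · right
    rw [wf_im hr ht]
    apply ne_of_gt
    apply div_pos _ hd
    rw [h] at ht
    have : 0 < t.re := by nlinarith
    positivity

/-- the holomorphic function whose real part is the harmonic measure of the diameter -/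
def gf (r : ℝ) (t : ℂ) : ℂ := 1 + (2 / Real.pi : ℝ) * I * Complex.log (wf r t)

lemma gf_re (r : ℝ) (t : ℂ) : (gf r t).re = 1 - 2 / Real.pi * (wf r t).arg := by
  unfold gf
  rw [mul_assoc, add_re, one_re, re_ofReal_mul, I_mul_re, log_im]
  ring

lemma gf_re_le_one (hr : 0 < r) (ht : ‖t‖ ^ 2 ≤ 2 * t.re) : (gf r t).re ≤ 1 := by
  rw [gf_re]
  have h1 : 0 ≤ (wf r t).arg := arg_nonneg_iff.mpr (wf_im_nonneg hr ht)
  have : 0 ≤ 2 / Real.pi * (wf r t).arg := by positivity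
  linarith

lemma gf_re_eq_zero (hr : 0 < r) (ht : ‖t‖ ^ 2 ≤ 2 * t.re) (htr : ‖t‖ = r) : (gf r t).re = 0 := by
  have hd := den_pos hr ht
  have h1 : (wf r t).re = 0 := by rw [wf_re hr ht, htr]; simp
  have h2 : 0 < (wf r t).im := by
    rw [wf_im hr ht]
    apply div_pos _ hd
    rw [htr] at ht
    have : 0 < t.re := by nlinarith
    positivity
  have h3 : (wf r t).arg = Real.pi / 2 := arg_eq_pi_div_two_iff.mpr ⟨h1, h2⟩
  rw [gf_re, h3]
  have := Real.pi_pos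
  field_simp
  norm_num

lemma gf_re_ge (hr : 0 < r) (ht : ‖t‖ ^ 2 ≤ 2 * t.re) {κ : ℝ} (hκ0 : 0 ≤ κ) (hκ1 : κ < 1)
    (htr : ‖t‖ ≤ κ * r) : tce κ ≤ (gf r t).re := by
  have hd := den_pos hr ht
  have hκr : κ * r < r := by nlinarith
  have h1 : 0 < (wf r t).re := by
    rw [wf_re hr ht]
    apply div_pos _ hd
    nlinarith [norm_nonneg t]
  have h2 := (abs_arg_lt_pi_div_two_iff (z := wf r t)).mpr (Or.inl h1)
  rw [abs_lt] at h2
  have h3 : Real.arctan (Real.tan (wf r t).arg) = (wf r t).arg := Real.arctan_tan h2.1 h2.2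
  rw [tan_arg] at h3
  rw [gf_re, ← h3]
  have h4 : (wf r t).im / (wf r t).re ≤ 2 * κ / (1 - κ ^ 2) := by
    rw [wf_re hr ht, wf_im hr ht, div_div_div_cancel_right₀ hd.ne']
    have h5 : t.re ≤ ‖t‖ := re_le_norm t
    have h6 : 0 < r ^ 2 - ‖t‖ ^ 2 := by nlinarith [norm_nonneg t]
    have h7 : 0 < 1 - κ ^ 2 := by nlinarith
    rw [div_le_div_iff₀ h6 h7]
    have h8 : ‖t‖ ^ 2 ≤ κ ^ 2 * r ^ 2 := by
      have := pow_le_pow_left₀ (norm_nonneg t) htr 2
      rwa [mul_pow] at this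
    have h9 : 2 * r * t.re * (1 - κ ^ 2) ≤ 2 * r * (κ * r) * (1 - κ ^ 2) := by
      apply mul_le_mul_of_nonneg_right _ h7.le
      have := h5.trans htr
      nlinarith
    nlinarith
  have h5 := Real.arctan_mono h4
  have hp := Real.pi_pos
  have h6 : 2 / Real.pi * Real.arctan ((wf r t).im / (wf r t).re)
      ≤ 2 / Real.pi * Real.arctan (2 * κ / (1 - κ ^ 2)) := by gcongr
  unfold tce
  linarith

end geometry

/-- the lens -/
def Lens (z₀ : ℂ) (r : ℝ) : Set ℂ := ball 0 1 ∩ ball z₀ r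

lemma lens_closure {z₀ : ℂ} {r : ℝ} :
    closure (Lens z₀ r) ⊆ closedBall 0 1 ∩ closedBall z₀ r := by
  refine (closure_inter_subset_inter_closure _ _).trans ?_
  exact inter_subset_inter closure_ball_subset_closedBall closure_ball_subset_closedBall

lemma lens_frontier {z₀ : ℂ} {r : ℝ} {z : ℂ} (hz : z ∈ frontier (Lens z₀ r)) :
    z ∈ closedBall (0 : ℂ) 1 ∧ z ∈ closedBall z₀ r ∧ (‖z‖ = 1 ∨ ‖z - z₀‖ = r) := by
  have h1 := lens_closure (frontier_subset_closure hz)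
  refine ⟨h1.1, h1.2, ?_⟩
  by_contra hcon
  push Not at hcon
  have hopen : IsOpen (Lens z₀ r) := isOpen_ball.inter isOpen_ball
  rw [hopen.frontier_eq] at hz
  apply hz.2
  constructor
  · rw [mem_ball_zero_iff]
    exact lt_of_le_of_ne (by simpa using h1.1) hcon.1
  · rw [mem_ball_iff_norm]
    exact lt_of_le_of_ne (mem_closedBall_iff_norm.mp h1.2) hcon.2

/-- the coordinate `t` -/
lemma t_facts {z₀ z : ℂ} (hz₀ : ‖z₀‖ = 1) (hz : ‖z‖ ≤ 1) :
    ‖1 - z / z₀‖ = ‖z - z₀‖ ∧ ‖1 - z / z₀‖ ^ 2 ≤ 2 * (1 - z / z₀).re := by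
  have h0 : z₀ ≠ 0 := by
    intro h; rw [h, norm_zero] at hz₀; norm_num at hz₀
  constructor
  · have : 1 - z / z₀ = (z₀ - z) / z₀ := by field_simp
    rw [this, norm_div, hz₀, div_one, norm_sub_rev]
  · set t := 1 - z / z₀ with ht
    have h1 : ‖1 - t‖ ≤ 1 := by
      have : 1 - t = z / z₀ := by rw [ht]; ring
      rw [this, norm_div, hz₀, div_one]; exact hz
    have h2 : ‖1 - t‖ ^ 2 ≤ 1 := by
      have := pow_le_pow_left₀ (norm_nonneg _) h1 2
      simpa using this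
    have h3 : ‖1 - t‖ ^ 2 = 1 - 2 * t.re + ‖t‖ ^ 2 := by
      rw [← normSq_eq_norm_sq, ← normSq_eq_norm_sq, normSq_apply, normSq_apply]
      simp only [sub_re, sub_im, one_re, one_im]
      ring
    linarith

variable {E : Type*} [NormedAddCommGroup E] [NormedSpace ℂ E]

/-- **Two constants theorem** on a lens. -/
theorem two_constants {z₀ : ℂ} (hz₀ : ‖z₀‖ = 1) {r : ℝ} (hr : 0 < r) {u : ℂ → E}
    (hu : DiffContOnCl ℂ u (Lens z₀ r)) {M ε : ℝ} (hε : 0 < ε) (hεM : ε ≤ M)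
    (hM : ∀ z, ‖z‖ ≤ 1 → ‖z - z₀‖ = r → ‖u z‖ ≤ M)
    (hb : ∀ z, ‖z‖ = 1 → ‖z - z₀‖ ≤ r → ‖u z‖ ≤ ε)
    {κ : ℝ} (hκ0 : 0 ≤ κ) (hκ1 : κ < 1) {z : ℂ} (hz : z ∈ closure (Lens z₀ r))
    (hzκ : ‖z - z₀‖ ≤ κ * r) : ‖u z‖ ≤ M * (ε / M) ^ tce κ := by
  have hM0 : 0 < M := hε.trans_le hεM
  set lam : ℝ := Real.log (M / ε) with hlam
  have hlam0 : 0 ≤ lam := Real.log_nonneg ((one_le_div hε).mpr hεM)
  have hexp : Real.exp lam = M / ε := Real.exp_log (div_pos hM0 hε)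
  set F : ℂ → E := fun z => Complex.exp (lam * gf r (1 - z / z₀)) • u z with hF
  have hFn : ∀ z, ‖F z‖ = Real.exp (lam * (gf r (1 - z / z₀)).re) * ‖u z‖ := by
    intro z
    rw [hF]
    simp only [norm_smul, Complex.norm_exp, re_ofReal_mul]
  -- regularity
  have hgd : ∀ z ∈ closure (Lens z₀ r),
      DifferentiableAt ℂ (fun z => Complex.exp (lam * gf r (1 - z / z₀))) z := by
    intro z hz
    have h1 := lens_closure hz
    have h2 : ‖z‖ ≤ 1 := by simpa using h1.1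
    have h3 : ‖z - z₀‖ ≤ r := mem_closedBall_iff_norm.mp h1.2
    obtain ⟨h4, h5⟩ := t_facts hz₀ h2
    have h6 := wf_slit hr h5 (by rw [h4]; exact h3)
    have h7 := den_ne hr h5
    have ht : DifferentiableAt ℂ (fun z : ℂ => 1 - z / z₀) z := by fun_prop
    have hw : DifferentiableAt ℂ (fun z : ℂ => wf r (1 - z / z₀)) z := by
      unfold wf
      exact ((differentiableAt_const _).add ((differentiableAt_const _).mul ht)).div
        ((differentiableAt_const _).sub ((differentiableAt_const _).mul ht)) h7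
    have hl : DifferentiableAt ℂ (fun z : ℂ => Complex.log (wf r (1 - z / z₀))) z := hw.clog h6
    have hg : DifferentiableAt ℂ (fun z : ℂ => gf r (1 - z / z₀)) z := by
      unfold gf
      exact (differentiableAt_const _).add ((differentiableAt_const _).mul hl)
    exact ((differentiableAt_const _).mul hg).cexp
  have hFd : DiffContOnCl ℂ F (Lens z₀ r) := by
    constructor
    · intro z hz
      exact ((hgd z (subset_closure hz)).differentiableWithinAt).smul (hu.1 z hz)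
    · intro z hz
      exact ((hgd z hz).continuousAt.continuousWithinAt).smul (hu.2 z hz)
  have hbdd : Bornology.IsBounded (Lens z₀ r) := isBounded_ball.subset inter_subset_left
  have hfr : ∀ z ∈ frontier (Lens z₀ r), ‖F z‖ ≤ M := by
    intro z hz
    obtain ⟨h1, h2, h3⟩ := lens_frontier hz
    have h1' : ‖z‖ ≤ 1 := by simpa using h1
    have h2' : ‖z - z₀‖ ≤ r := mem_closedBall_iff_norm.mp h2
    obtain ⟨h4, h5⟩ := t_facts hz₀ h1'
    rw [hFn]
    rcases h3 with h3 | h3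
    · have h6 := gf_re_le_one hr h5
      calc Real.exp (lam * (gf r (1 - z / z₀)).re) * ‖u z‖
          ≤ Real.exp (lam * 1) * ε := by
            gcongr
            exact hb z h3 h2'
        _ = M := by rw [mul_one, hexp]; field_simp
    · have h6 := gf_re_eq_zero hr h5 (by rw [h4]; exact h3)
      rw [h6, mul_zero, Real.exp_zero, one_mul]
      exact hM z h1' h3
  have hmain := Complex.norm_le_of_forall_mem_frontier_norm_le hbdd hFd hfr hz
  rw [hFn] at hmain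
  have h1 := lens_closure hz
  have h2 : ‖z‖ ≤ 1 := by simpa using h1.1
  obtain ⟨h4, h5⟩ := t_facts hz₀ h2
  have h6 := gf_re_ge hr h5 hκ0 hκ1 (by rw [h4]; exact hzκ)
  have h7 : Real.exp (lam * tce κ) * ‖u z‖ ≤ M := by
    refine le_trans ?_ hmain
    gcongr
  have h8 : (ε / M) ^ tce κ = Real.exp (-(lam * tce κ)) := by
    rw [Real.rpow_def_of_pos (div_pos hε hM0)]
    congr 1
    rw [hlam, Real.log_div hM0.ne' hε.ne', Real.log_div hε.ne' hM0.ne']
    ring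
  rw [h8, Real.exp_neg, ← div_eq_mul_inv, le_div_iff₀ (Real.exp_pos _), mul_comm]
  exact h7

end Crest.Agent.R269.TwoC_79
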