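import Mathlib
import Crest.Agent.R269.WFA_402
import Crest.Agent.R269.WFvar_731
import Crest.Agent.R269.Var3_60
import Crest.Agent.R269.Fin_731

/-!
# R269 (S0411), Line B: TStmt, TDelStmt from (VAR) for the vectors of `MM Y H` (helper731)
-/

set_option autoImplicit false

open Filter Topology Set Metric MeasureTheory MvPolynomial Crest.AlgGeometry.ProjEmb
open Crest.Agent.R269.Geo_328 Crest.Agent.R269.Defs_58 Crest.Agent.R269.DefsS_731
open Crest.Agent.R269.Hardy_142 Crest.Agent.R269.Fib_402 Crest.Agent.R269.Mod_402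
open Crest.Agent.R269.Bd_402 Crest.Agent.R269.Frame_402
open Crest.Agent.R269.WF_731 Crest.Agent.R269.Iface_731 Crest.Agent.R269.WFvar_731
open Crest.Agent.R269.Rep2_430 (frm frm_tan wE_frm)

namespace Crest.Agent.R269.WFvar2_731

noncomputable section

/-- (VAR) for one vector of the module -/
def VarMMStmt : Prop := ∀ (N n : ℕ) (I : Ideal (HomCoordRing N)), I.IsPrime →
  IsSmoothProjective I n → 1 ≤ n → ∀ (Y : Flds I) (H : ℂ → EE N) (Hs : TT → EE N),
    IsDisc I H → Normal H → BD I H Hs → ∀ f ∈ MM Y H, ∀ V : ℂ → EE N,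
      (∀ z ∈ ball (0 : ℂ) 1, V z ∈ Tan I (H z)) →
      (∀ z ∈ ball (0 : ℂ) 1, wE (V z) (H z) = Hardy_142.ext (f : TT → FF N) z) →
      Var1 I n H Hs V (f : TT → FF N)

theorem varStmt_of (h : VarMMStmt) : WFA_402.VarStmt := by
  intro N n I hI hX hn Pi a hPi ha Y B H Hs v hH hN hBD hW
  exact wf_var_BD hI hX hH hN hBD (Q := fun i => (v i : TT → FF N))
    (fun i => h N n I hI hX hn Y H Hs hH hN hBD (v i) (hW.mem i) _
      (fun z hz => frm_tan hX hH hW.mem i hz) (fun z hz => wE_frm hX hH hW.mem i hz)) hW.rep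

theorem wfStmt_of (h : VarMMStmt) : WFStmt :=
  WFA_402.wfStmt_of (fun _ _ _ hI hX => Var3_60.exists_Flds hI hX) (varStmt_of h)

theorem tStmt_of (h : VarMMStmt) : Defs_58.TStmt := Fin_731.tStmt_of (wfStmt_of h)

theorem tDelStmt_of (h : VarMMStmt) : Defs_58.TDelStmt := Fin_731.tDelStmt_of (wfStmt_of h)

end

end Crest.Agent.R269.WFvar2_731
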